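import Mathlib

/-!
R154 (helper272): the contour (Peierls) lemma of oriented percolation in `1+1` dimensions, with a
topology-free proof.  Children of the cell `l` are `l` and `l+1`.
-/

set_option autoImplicit false

open MeasureTheory
open scoped ENNReal NNReal

namespace Crest.Agent.R154.Perc272

/-- The wet cells of level `j`: `W_{j+1} = G ∪ (G+1)` where `G` is the set of wet good cells. -/
def wet (bad : ℕ → ℤ → Prop) (W0 : Set ℤ) : ℕ → Set ℤ
  | 0 => W0
  | j + 1 => {x | (x ∈ wet bad W0 j ∧ ¬ bad j x) ∨ (x - 1 ∈ wet bad W0 j ∧ ¬ bad j (x - 1))}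

/-- `[a,b]` is the hull of `S`. -/
def Hull (S : Set ℤ) (a b : ℤ) : Prop := a ∈ S ∧ b ∈ S ∧ ∀ x ∈ S, a ≤ x ∧ x ≤ b

/-- `[x, x+l)` is a maximal dry run between two wet cells. -/
def Run (S : Set ℤ) (x : ℤ) (l : ℕ) : Prop :=
  0 < l ∧ x - 1 ∈ S ∧ x + l ∈ S ∧ ∀ y, x ≤ y → y < x + l → y ∉ S

/-- `[x, x+L)` lies between two wet cells and all its wet cells are bad. -/
def Reg (S : Set ℤ) (b : ℤ → Prop) (x : ℤ) (L : ℕ) : Prop :=
  x - 1 ∈ S ∧ x + L ∈ S ∧ ∀ y, x ≤ y → y < x + L → y ∈ S → b y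

theorem Reg.split {S : Set ℤ} {b : ℤ → Prop} {x : ℤ} {L : ℕ} (h : Reg S b x L) :
    (L = 0 ∨ Run S x L) ∨
      ∃ d < L, (d = 0 ∨ Run S x d) ∧ b (x + d) ∧ Reg S b (x + d + 1) (L - 1 - d) := by
  classical
  obtain ⟨h1, h2, h3⟩ := h
  by_cases hex : ∃ d : ℕ, d < L ∧ x + d ∈ S
  · right
    set d := Nat.find hex with hd
    have hspec := Nat.find_spec hex
    rw [← hd] at hspec
    have hmin : ∀ k : ℕ, k < d → x + k ∉ S := by
      intro k hk hkS
      have := Nat.find_min hex hk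
      exact this ⟨by omega, hkS⟩
    refine ⟨d, hspec.1, ?_, ?_, ?_, ?_, ?_⟩
    · by_cases hd0 : d = 0
      · exact Or.inl hd0
      · right
        refine ⟨by omega, h1, hspec.2, ?_⟩
        intro y hy1 hy2 hyS
        have hk := hmin (y - x).toNat (by omega)
        rw [Int.toNat_of_nonneg (by omega)] at hk
        exact hk (by simpa using hyS)
    · exact h3 _ (by omega) (by have := hspec.1; omega) hspec.2
    · have : x + (d : ℤ) + 1 - 1 = x + d := by ring
      rw [this]; exact hspec.2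
    · have h5 := hspec.1
      have : x + (d : ℤ) + 1 + ((L - 1 - d : ℕ) : ℤ) = x + L := by
        omega
      rw [this]; exact h2
    · intro y hy1 hy2 hyS
      have h5 := hspec.1
      exact h3 y (by omega) (by omega) hyS
  · left
    push Not at hex
    by_cases hL : L = 0
    · exact Or.inl hL
    · right
      refine ⟨by omega, h1, h2, ?_⟩
      intro y hy1 hy2 hyS
      have hk := hex (y - x).toNat (by omega)
      rw [Int.toNat_of_nonneg (by omega)] at hk
      exact hk (by simpa using hyS)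

/-! ### Weights -/

/-- weight of a possibly empty dry run -/
noncomputable def zb (z : ℕ → ℝ≥0∞) (d : ℕ) : ℝ≥0∞ := if d = 0 then 1 else z d

/-- weight of a region of `L` cells all of whose wet cells are bad -/
noncomputable def Y (q : ℝ≥0∞) (z : ℕ → ℝ≥0∞) : ℕ → ℝ≥0∞
  | L => zb z L + ∑ d : Fin L, zb z d * q * Y q z (L - 1 - d)
termination_by L => L
decreasing_by
  have := d.2
  omega

theorem Y_eq (q : ℝ≥0∞) (z : ℕ → ℝ≥0∞) (L : ℕ) :
    Y q z L = zb z L + ∑ d ∈ Finset.range L, zb z d * q * Y q z (L - 1 - d) := by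
  rw [Y, Finset.sum_range]

/-- weight of a maximal dry run of length `l` at level `j` -/
noncomputable def Z (q : ℝ≥0∞) : ℕ → ℕ → ℝ≥0∞
  | 0 => fun _ => 0
  | j + 1 => fun l => Y q (Z q j) (l + 1)

/-- weight of a retreat of an edge by `s` cells -/
noncomputable def R (q : ℝ≥0∞) (z : ℕ → ℝ≥0∞) (s : ℕ) : ℝ≥0∞ :=
  if s = 0 then 1 else q * Y q z (s - 1)

/-- weight of the hull `[a, a+w]` at level `j` -/
noncomputable def E (q : ℝ≥0∞) (n : ℕ) : ℕ → ℤ → ℕ → ℝ≥0∞
  | 0 => fun a w => if a = 0 ∧ w + 1 = n then 1 else 0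
  | j + 1 => fun a w => ∑' p : ℕ × ℕ, if w + p.1 + p.2 = 0 then 0 else
      E q n j (a - p.1) (w + p.1 + p.2 - 1) * (R q (Z q j) p.1 * R q (Z q j) p.2)

/-! ### The scan of regions -/

section scan

variable {Ω : Type*} [MeasurableSpace Ω]

open Classical in
/-- insert a possibly empty run -/
noncomputable def zins (x : ℤ) (d : ℕ) (I : Finset (ℤ × ℕ)) : Finset (ℤ × ℕ) :=
  if d = 0 then I else insert (x, d) I

theorem prod_zins (z : ℕ → ℝ≥0∞) {x : ℤ} {d : ℕ} {I : Finset (ℤ × ℕ)}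
    (h : ∀ p ∈ I, p.1 ≠ x ∨ d = 0) :
    ∏ p ∈ zins x d I, z p.2 = zb z d * ∏ p ∈ I, z p.2 := by
  classical
  unfold zins zb
  by_cases hd : d = 0
  · simp [hd]
  · simp only [hd, if_false]
    rw [Finset.prod_insert]
    intro hmem
    rcases h _ hmem with h | h
    · exact h rfl
    · exact hd h

/-- the event of a state at level `j` -/
def Ev (S : Ω → Set ℤ) (bad : ℕ → ℤ → Ω → Prop) (j : ℕ) (I : Finset (ℤ × ℕ))
    (K : Finset (ℕ × ℤ)) (ρ : List (ℤ × ℕ)) : Set Ω :=
  {ω | (∀ p ∈ I, Run (S ω) p.1 p.2) ∧ (∀ p ∈ K, bad p.1 p.2 ω) ∧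
    ∀ r ∈ ρ, Reg (S ω) (fun y => bad j y ω) r.1 r.2}

/-- two regions are disjoint -/
def Dj (r r' : ℤ × ℕ) : Prop := r.1 + r.2 ≤ r'.1 ∨ r'.1 + r'.2 ≤ r.1

/-- side conditions -/
structure Side (j : ℕ) (I : Finset (ℤ × ℕ)) (K : Finset (ℕ × ℤ)) (ρ : List (ℤ × ℕ)) : Prop where
  lev : ∀ p ∈ K, j ≤ p.1
  kd : ∀ p ∈ K, p.1 = j → ∀ r ∈ ρ, p.2 < r.1 ∨ r.1 + r.2 ≤ p.2
  idd : ∀ p ∈ I, ∀ r ∈ ρ, p.1 < r.1 ∨ r.1 + r.2 ≤ p.1

theorem regions (μ : Measure Ω) (B : Set Ω) (S : Ω → Set ℤ) (bad : ℕ → ℤ → Ω → Prop) (j : ℕ)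
    (q C : ℝ≥0∞) (z : ℕ → ℝ≥0∞)
    (hbase : ∀ (I : Finset (ℤ × ℕ)) (K : Finset (ℕ × ℤ)), (∀ p ∈ K, j ≤ p.1) →
      μ (B ∩ Ev S bad j I K []) ≤ C * q ^ K.card * ∏ p ∈ I, z p.2) :
    ∀ (ρ : List (ℤ × ℕ)), ρ.Pairwise Dj → ∀ (I : Finset (ℤ × ℕ)) (K : Finset (ℕ × ℤ)),
      Side j I K ρ →
      μ (B ∩ Ev S bad j I K ρ) ≤
        C * q ^ K.card * (∏ p ∈ I, z p.2) * (ρ.map fun r => Y q z r.2).prod := by
  classical
  intro ρ
  induction ρ with
  | nil =>
    intro _ I K hs
    simpa using hbase I K hs.lev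
  | cons r ρ ih =>
    intro hp
    rw [List.pairwise_cons] at hp
    obtain ⟨hp1, hp2⟩ := hp
    obtain ⟨x, L⟩ := r
    -- strong induction on the length of the first region
    induction L using Nat.strong_induction_on generalizing x with
    | _ L ihL =>
      intro I K hs
      have hcov : B ∩ Ev S bad j I K ((x, L) :: ρ) ⊆
          (B ∩ Ev S bad j (zins x L I) K ρ) ∪
          ⋃ d ∈ Finset.range L,
            (B ∩ Ev S bad j (zins x d I) (insert (j, x + (d : ℤ)) K)
              ((x + d + 1, L - 1 - d) :: ρ)) := by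
        rintro ω ⟨hB, h1, h2, h3⟩
        have hr := h3 (x, L) (by simp)
        have hρ : ∀ r ∈ ρ, Reg (S ω) (fun y => bad j y ω) r.1 r.2 := fun r hr =>
          h3 r (by simp [hr])
        have hz : ∀ d : ℕ, (d = 0 ∨ Run (S ω) x d) →
            ∀ p ∈ zins x d I, Run (S ω) p.1 p.2 := by
          intro d hd p hp
          unfold zins at hp
          by_cases hd0 : d = 0
          · rw [if_pos hd0] at hp; exact h1 p hp
          · rw [if_neg hd0, Finset.mem_insert] at hp
            rcases hp with rfl | hp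
            · rcases hd with hd | hd
              · exact absurd hd hd0
              · exact hd
            · exact h1 p hp
        rcases hr.split with h | ⟨d, hdL, hd, hb, hreg⟩
        · left
          exact ⟨hB, hz L h, h2, hρ⟩
        · right
          simp only [Set.mem_iUnion, Finset.mem_range]
          refine ⟨d, hdL, hB, hz d hd, ?_, ?_⟩
          · intro p hp
            rw [Finset.mem_insert] at hp
            rcases hp with rfl | hp
            · exact hb
            · exact h2 p hp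
          · intro r hr
            rw [List.mem_cons] at hr
            rcases hr with rfl | hr
            · exact hreg
            · exact hρ r hr
      have hxI : ∀ d : ℕ, d < L ∨ d = L → ∀ p ∈ I, p.1 ≠ x ∨ d = 0 := by
        intro d hdL p hp
        by_cases hd : d = 0
        · exact Or.inr hd
        · left
          intro hpx
          have := hs.idd p hp (x, L) (by simp)
          simp only at this
          omega
      have hxr : ∀ y : ℤ, x ≤ y → y < x + L → ∀ r ∈ ρ, y < r.1 ∨ r.1 + r.2 ≤ y := by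
        intro y hy1 hy2 r hr
        have := hp1 r hr
        unfold Dj at this
        simp only at this
        omega
      refine (measure_mono hcov).trans ((measure_union_le _ _).trans ?_)
      have hP : (((x, L) :: ρ).map fun r => Y q z r.2).prod =
          Y q z L * (ρ.map fun r => Y q z r.2).prod := by simp
      rw [hP, Y_eq q z L, add_mul, mul_add]
      refine add_le_add ?_ ?_
      · -- the whole region is dry
        by_cases hL : L = 0
        · have h1 : zins x L I = I := by unfold zins; rw [if_pos hL]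
          have hside : Side j I K ρ :=
            ⟨hs.lev, fun p hp h r hr => hs.kd p hp h r (by simp [hr]),
              fun p hp r hr => hs.idd p hp r (by simp [hr])⟩
          have hz1 : zb z L = 1 := by unfold zb; rw [if_pos hL]
          rw [h1, hz1, one_mul]
          exact ih hp2 I K hside
        · have hside : Side j (zins x L I) K ρ := by
            refine ⟨hs.lev, fun p hp h r hr => hs.kd p hp h r (by simp [hr]), ?_⟩
            intro p hp r hr
            unfold zins at hp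
            rw [if_neg hL, Finset.mem_insert] at hp
            rcases hp with rfl | hp
            · exact hxr x le_rfl (by omega) r hr
            · exact hs.idd p hp r (by simp [hr])
          refine (ih hp2 (zins x L I) K hside).trans (le_of_eq ?_)
          rw [prod_zins z (hxI L (Or.inr rfl))]
          ring
      · refine (measure_biUnion_finset_le _ _).trans ?_
        rw [Finset.sum_mul, Finset.mul_sum]
        refine Finset.sum_le_sum ?_
        intro d hd
        rw [Finset.mem_range] at hd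
        have hside : Side j (zins x d I) (insert (j, x + (d : ℤ)) K)
            ((x + d + 1, L - 1 - d) :: ρ) := by
          refine ⟨?_, ?_, ?_⟩
          · intro p hp
            rw [Finset.mem_insert] at hp
            rcases hp with rfl | hp
            · exact le_rfl
            · exact hs.lev p hp
          · intro p hp hpj r hr
            rw [Finset.mem_insert] at hp
            rw [List.mem_cons] at hr
            rcases hp with rfl | hp
            · rcases hr with rfl | hr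
              · left; simp only; omega
              · exact hxr _ (by simp) (by simp only; omega) r hr
            · rcases hr with rfl | hr
              · have := hs.kd p hp hpj (x, L) (by simp)
                simp only at this ⊢
                omega
              · exact hs.kd p hp hpj r (by simp [hr])
          · intro p hp r hr
            rw [List.mem_cons] at hr
            unfold zins at hp
            have hcase : p.1 = x ∨ p ∈ I := by
              split_ifs at hp with h0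
              · exact Or.inr hp
              · rw [Finset.mem_insert] at hp
                rcases hp with rfl | hp
                · exact Or.inl rfl
                · exact Or.inr hp
            rcases hcase with hpx | hp
            · rcases hr with rfl | hr
              · left; simp only; omega
              · rw [hpx]; exact hxr x le_rfl (by omega) r hr
            · rcases hr with rfl | hr
              · have := hs.idd p hp (x, L) (by simp)
                simp only at this ⊢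
                omega
              · exact hs.idd p hp r (by simp [hr])
        have hp1' : ∀ r' ∈ ρ, Dj (x + d + 1, L - 1 - d) r' := by
          intro r' hr'
          have := hp1 r' hr'
          unfold Dj at this ⊢
          simp only at this ⊢
          omega
        have hnot : (j, x + (d : ℤ)) ∉ K := by
          intro hmem
          have := hs.kd _ hmem rfl (x, L) (by simp)
          simp only at this
          omega
        have hcall := ihL (L - 1 - d) (by omega) (x + d + 1) hp1' (zins x d I)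
          (insert (j, x + (d : ℤ)) K) hside
        refine hcall.trans (le_of_eq ?_)
        rw [prod_zins z (hxI d (Or.inl hd)), Finset.card_insert_of_notMem hnot]
        simp only [List.map_cons, List.prod_cons]
        rw [pow_succ]
        ring

end scan

/-! ### Deterministic facts on one step -/

theorem step_hull {bad : ℕ → ℤ → Prop} {W0 : Set ℤ} {j : ℕ} {a b : ℤ}
    (h : Hull (wet bad W0 (j + 1)) a b) :
    a ∈ wet bad W0 j ∧ b - 1 ∈ wet bad W0 j ∧
      (∀ y ∈ wet bad W0 j, y < a → bad j y) ∧ (∀ y ∈ wet bad W0 j, b ≤ y → bad j y) := by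
  obtain ⟨ha, hb, hab⟩ := h
  refine ⟨?_, ?_, ?_, ?_⟩
  · rcases ha with ha | ha
    · exact ha.1
    · have : a - 1 ∈ wet bad W0 (j + 1) := Or.inl ha
      have := (hab _ this).1
      omega
  · rcases hb with hb | hb
    · have : b + 1 ∈ wet bad W0 (j + 1) := Or.inr (by simpa using hb)
      have := (hab _ this).2
      omega
    · exact hb.1
  · intro y hy hya
    by_contra hbad
    have : y ∈ wet bad W0 (j + 1) := Or.inl ⟨hy, hbad⟩
    have := (hab _ this).1
    omega
  · intro y hy hyb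
    by_contra hbad
    have : y + 1 ∈ wet bad W0 (j + 1) := Or.inr (by simpa using ⟨hy, hbad⟩)
    have := (hab _ this).2
    omega

theorem step_run {bad : ℕ → ℤ → Prop} {W0 : Set ℤ} {j : ℕ} {x : ℤ} {l : ℕ}
    (h : Run (wet bad W0 (j + 1)) x l) :
    Reg (wet bad W0 j) (bad j) (x - 1) (l + 1) := by
  obtain ⟨h0, h1, h2, h3⟩ := h
  have key : ∀ y, x - 1 ≤ y → y < x + l → y ∈ wet bad W0 j → bad j y := by
    intro y hy1 hy2 hy
    by_contra hbad
    by_cases hyx : y = x - 1
    · have : x ∈ wet bad W0 (j + 1) := Or.inr (by rw [← hyx]; exact ⟨hy, hbad⟩)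
      exact h3 x le_rfl (by omega) this
    · exact h3 y (by omega) hy2 (Or.inl ⟨hy, hbad⟩)
  refine ⟨?_, ?_, ?_⟩
  · rcases h1 with h1 | h1
    · exact absurd (key (x - 1) le_rfl (by omega) h1.1) h1.2
    · exact h1.1
  · rcases h2 with h2 | h2
    · have : x - 1 + ((l + 1 : ℕ) : ℤ) = x + l := by push_cast; ring
      rw [this]; exact h2.1
    · exact absurd (key (x + l - 1) (by omega) (by omega) h2.1) h2.2
  · intro y hy1 hy2 hy
    refine key y hy1 ?_ hy
    push_cast at hy2
    omega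

theorem run_sep {S : Set ℤ} {x x' : ℤ} {l l' : ℕ} (h : Run S x l) (h' : Run S x' l')
    (hne : (x, l) ≠ (x', l')) : Dj (x - 1, l + 1) (x' - 1, l' + 1) := by
  obtain ⟨h0, h1, h2, h3⟩ := h
  obtain ⟨h0', h1', h2', h3'⟩ := h'
  unfold Dj
  simp only
  push_cast
  rcases lt_trichotomy x x' with hx | hx | hx
  · left
    by_contra hcon
    exact h3 (x' - 1) (by omega) (by omega) h1'
  · exfalso
    subst hx
    have hll : l ≠ l' := fun hl => hne (by rw [hl])
    rcases lt_or_gt_of_ne hll with hl | hl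
    · exact h3' (x + l) (by omega) (by omega) h2
    · exact h3 (x + l') (by omega) (by omega) h2'
  · right
    by_contra hcon
    exact h3' (x - 1) (by omega) (by omega) h1

theorem exists_hull (S : Set ℤ) (lo hi : ℤ) (hne : S.Nonempty)
    (hb : ∀ x ∈ S, lo ≤ x ∧ x < hi) : ∃ a b, Hull S a b := by
  obtain ⟨a, ha1, ha2⟩ := Int.exists_least_of_bdd (P := fun x => x ∈ S)
    ⟨lo, fun z hz => (hb z hz).1⟩ hne
  obtain ⟨b, hb1, hb2⟩ := Int.exists_greatest_of_bdd (P := fun x => x ∈ S)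
    ⟨hi, fun z hz => (hb z hz).2.le⟩ hne
  exact ⟨a, b, ha1, hb1, fun x hx => ⟨ha2 x hx, hb2 x hx⟩⟩

/-! ### The induction on the levels -/

section levels

variable {Ω : Type*} [MeasurableSpace Ω]

/-- the wet set as a random set -/
def W (bad : ℕ → ℤ → Ω → Prop) (n j : ℕ) (ω : Ω) : Set ℤ :=
  wet (fun i l => bad i l ω) (Set.Ico 0 (n : ℤ)) j

omit [MeasurableSpace Ω] in
theorem wet_sub (bad : ℕ → ℤ → Ω → Prop) (n j : ℕ) (ω : Ω) :
    ∀ x ∈ W bad n j ω, 0 ≤ x ∧ x < n + j := by
  induction j with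
  | zero =>
    intro x hx
    simp only [W, wet, Set.mem_Ico] at hx
    push_cast
    omega
  | succ j ih =>
    intro x hx
    push_cast
    rcases hx with hx | hx
    · have := ih x hx.1
      omega
    · have := ih (x - 1) hx.1
      omega

theorem claim_zero (μ : Measure Ω) (A : Set Ω) (M q : ℝ≥0∞) (bad : ℕ → ℤ → Ω → Prop) (n : ℕ)
    (hK : ∀ K : Finset (ℕ × ℤ), μ (A ∩ {ω | ∀ p ∈ K, bad p.1 p.2 ω}) ≤ M * q ^ K.card)
    (a : ℤ) (w : ℕ) (I : Finset (ℤ × ℕ)) (K : Finset (ℕ × ℤ)) :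
    μ ((A ∩ {ω | Hull (W bad n 0 ω) a (a + w)}) ∩ Ev (W bad n 0) bad 0 I K []) ≤
      (M * E q n 0 a w) * q ^ K.card * ∏ p ∈ I, Z q 0 p.2 := by
  rcases Set.eq_empty_or_nonempty
    ((A ∩ {ω | Hull (W bad n 0 ω) a (a + w)}) ∩ Ev (W bad n 0) bad 0 I K []) with h | h
  · rw [h]; simp
  · obtain ⟨ω, ⟨-, hH⟩, hI, -, -⟩ := h
    have hIe : I = ∅ := by
      rw [Finset.eq_empty_iff_forall_notMem]
      intro p hp
      obtain ⟨h0, h1, h2, h3⟩ := hI p hp
      simp only [W, wet, Set.mem_Ico] at h1 h2 h3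
      exact h3 p.1 le_rfl (by omega) ⟨by omega, by omega⟩
    have hE : E q n 0 a w = 1 := by
      obtain ⟨h1, h2, h3⟩ := hH
      simp only [W, wet, Set.mem_Ico] at h1 h2 h3
      have e1 := (h3 0 ⟨le_rfl, by omega⟩).1
      have e2 := (h3 (n - 1) ⟨by omega, by omega⟩).2
      simp only [E]
      rw [if_pos]
      omega
    rw [hE, hIe]
    simp only [mul_one, Finset.prod_empty]
    refine (measure_mono ?_).trans (hK K)
    rintro ω ⟨⟨hA, -⟩, -, hb, -⟩
    exact ⟨hA, hb⟩

/-- the new regions -/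
def newReg (a : ℤ) (w s t : ℕ) : List (ℤ × ℕ) :=
  (if s = 0 then [] else [(a - s + 1, s - 1)]) ++ (if t = 0 then [] else [(a + w, t - 1)])

open Classical in
/-- the new bad cells -/
noncomputable def newK (j : ℕ) (a : ℤ) (w s t : ℕ) (K : Finset (ℕ × ℤ)) : Finset (ℕ × ℤ) :=
  (if t = 0 then id else insert (j, a + w + t - 1)) ((if s = 0 then id else insert (j, a - s)) K)

theorem mem_newK {j : ℕ} {a : ℤ} {w s t : ℕ} {K : Finset (ℕ × ℤ)} {p : ℕ × ℤ}
    (h : p ∈ newK j a w s t K) :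
    p ∈ K ∨ (s ≠ 0 ∧ p = (j, a - s)) ∨ (t ≠ 0 ∧ p = (j, a + w + t - 1)) := by
  classical
  unfold newK at h
  split_ifs at h with h1 h2 h3 <;> simp only [id, Finset.mem_insert] at h <;> tauto

theorem card_newK {j : ℕ} {a : ℤ} {w s t : ℕ} {K : Finset (ℕ × ℤ)} (q : ℝ≥0∞)
    (hlev : ∀ p ∈ K, j + 1 ≤ p.1) (_hst : w + s + t ≠ 0) (z : ℕ → ℝ≥0∞) :
    q ^ (newK j a w s t K).card * ((newReg a w s t).map fun r => Y q z r.2).prod =
      q ^ K.card * (R q z s * R q z t) := by
  classical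
  have h1 : ∀ y : ℤ, (j, y) ∉ K := fun y hy => by
    have := hlev _ hy
    simp only at this
    omega
  unfold newK newReg R
  by_cases hs : s = 0
  · by_cases ht : t = 0
    · simp [hs, ht]
    · simp only [hs, ht, if_true, if_false, id, List.nil_append, List.map_cons, List.map_nil,
        List.prod_cons, List.prod_nil, mul_one, one_mul]
      rw [Finset.card_insert_of_notMem (h1 _), pow_succ]
      ring
  · by_cases ht : t = 0
    · simp only [hs, ht, if_true, if_false, id, List.append_nil, List.map_cons, List.map_nil,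
        List.prod_cons, List.prod_nil, mul_one]
      rw [Finset.card_insert_of_notMem (h1 _), pow_succ]
      ring
    · simp only [hs, ht, if_false, List.map_append, List.prod_append, List.map_cons,
        List.map_nil, List.prod_cons, List.prod_nil, mul_one]
      rw [Finset.card_insert_of_notMem, Finset.card_insert_of_notMem (h1 _), pow_succ, pow_succ]
      · ring
      · rw [Finset.mem_insert]
        rintro (h | h)
        · simp only [Prod.mk.injEq, true_and] at h
          omega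
        · exact h1 _ h

theorem claim_succ (μ : Measure Ω) (A : Set Ω) (M q : ℝ≥0∞) (bad : ℕ → ℤ → Ω → Prop) (n j : ℕ)
    (hj : ∀ (a : ℤ) (w : ℕ) (I : Finset (ℤ × ℕ)) (K : Finset (ℕ × ℤ)), (∀ p ∈ K, j ≤ p.1) →
      μ ((A ∩ {ω | Hull (W bad n j ω) a (a + w)}) ∩ Ev (W bad n j) bad j I K []) ≤
        (M * E q n j a w) * q ^ K.card * ∏ p ∈ I, Z q j p.2)
    (a : ℤ) (w : ℕ) (I : Finset (ℤ × ℕ)) (K : Finset (ℕ × ℤ)) (hKl : ∀ p ∈ K, j + 1 ≤ p.1) :
    μ ((A ∩ {ω | Hull (W bad n (j + 1) ω) a (a + w)}) ∩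
        Ev (W bad n (j + 1)) bad (j + 1) I K []) ≤
      (M * E q n (j + 1) a w) * q ^ K.card * ∏ p ∈ I, Z q (j + 1) p.2 := by
  classical
  rcases Set.eq_empty_or_nonempty
    ((A ∩ {ω | Hull (W bad n (j + 1) ω) a (a + w)}) ∩
        Ev (W bad n (j + 1)) bad (j + 1) I K []) with h | h
  · rw [h]; simp
  -- static facts
  obtain ⟨ω₀, ⟨-, hH₀⟩, hI₀, -, -⟩ := h
  have hsep : ∀ p ∈ I, ∀ p' ∈ I, p ≠ p' → Dj (p.1 - 1, p.2 + 1) (p'.1 - 1, p'.2 + 1) := by
    intro p hp p' hp' hne
    exact run_sep (hI₀ p hp) (hI₀ p' hp') (by simpa using hne)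
  have hin : ∀ p ∈ I, a ≤ p.1 - 1 ∧ p.1 + p.2 ≤ a + w := by
    intro p hp
    obtain ⟨-, h1, h2, -⟩ := hI₀ p hp
    exact ⟨(hH₀.2.2 _ h1).1, (hH₀.2.2 _ h2).2⟩
  set ρI : List (ℤ × ℕ) := I.toList.map (fun p => (p.1 - 1, p.2 + 1)) with hρI
  have hmemρ : ∀ r ∈ ρI, ∃ p ∈ I, r = (p.1 - 1, p.2 + 1) := by
    intro r hr
    rw [hρI, List.mem_map] at hr
    obtain ⟨p, hp, rfl⟩ := hr
    exact ⟨p, by simpa using hp, rfl⟩
  have hprodI : (ρI.map fun r => Y q (Z q j) r.2).prod = ∏ p ∈ I, Z q (j + 1) p.2 := by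
    rw [hρI, List.map_map]
    exact Finset.prod_map_toList I (fun p => Z q (j + 1) p.2)
  have hpwI : ρI.Pairwise Dj := by
    rw [hρI, List.pairwise_map]
    refine List.Pairwise.imp_of_mem ?_ (Finset.nodup_toList I)
    intro p p' hp hp' hne
    exact hsep p (by simpa using hp) p' (by simpa using hp') hne
  -- the regions
  have hpw : ∀ s t : ℕ, (newReg a w s t ++ ρI).Pairwise Dj := by
    intro s t
    have e1 : ∀ r ∈ ρI, a ≤ r.1 ∧ r.1 + r.2 ≤ a + w := by
      intro r hr
      obtain ⟨p, hp, rfl⟩ := hmemρ r hr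
      have := hin p hp
      simp only
      push_cast
      omega
    rw [List.pairwise_append]
    refine ⟨?_, hpwI, ?_⟩
    · unfold newReg
      split_ifs with hs ht ht <;> simp [Dj]
      left
      omega
    · intro r hr r' hr'
      have h1 := e1 r' hr'
      unfold newReg at hr
      rw [List.mem_append] at hr
      unfold Dj
      rcases hr with hr | hr
      · split_ifs at hr with hs
        · simp at hr
        · simp only [List.mem_singleton] at hr
          subst hr
          left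
          simp only
          omega
      · split_ifs at hr with ht
        · simp at hr
        · simp only [List.mem_singleton] at hr
          subst hr
          right
          simp only
          omega
  have hside : ∀ s t : ℕ, w + s + t ≠ 0 → Side j ∅ (newK j a w s t K) (newReg a w s t ++ ρI) := by
    intro s t hst
    refine ⟨?_, ?_, ?_⟩
    · intro p hp
      rcases mem_newK hp with hp | ⟨-, rfl⟩ | ⟨-, rfl⟩
      · have := hKl p hp; omega
      · exact le_rfl
      · exact le_rfl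
    · intro p hp hpj r hr
      have hp' : (s ≠ 0 ∧ p = (j, a - s)) ∨ (t ≠ 0 ∧ p = (j, a + w + t - 1)) := by
        rcases mem_newK hp with hp | hp | hp
        · have := hKl p hp; omega
        · exact Or.inl hp
        · exact Or.inr hp
      rw [List.mem_append] at hr
      have hr' : (s ≠ 0 ∧ r = (a - s + 1, s - 1)) ∨ (t ≠ 0 ∧ r = (a + w, t - 1)) ∨
          (a ≤ r.1 ∧ r.1 + r.2 ≤ a + w) := by
        rcases hr with hr | hr
        · unfold newReg at hr
          rw [List.mem_append] at hr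
          rcases hr with hr | hr
          · split_ifs at hr with hs
            · simp at hr
            · simp only [List.mem_singleton] at hr
              exact Or.inl ⟨hs, hr⟩
          · split_ifs at hr with ht
            · simp at hr
            · simp only [List.mem_singleton] at hr
              exact Or.inr (Or.inl ⟨ht, hr⟩)
        · obtain ⟨p', hp', rfl⟩ := hmemρ r hr
          have := hin p' hp'
          refine Or.inr (Or.inr ?_)
          simp only
          push_cast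
          omega
      rcases hp' with ⟨hs, rfl⟩ | ⟨ht, rfl⟩
      · rcases hr' with ⟨-, rfl⟩ | ⟨-, rfl⟩ | hr'
        · left; simp only; omega
        · left; simp only; omega
        · left; simp only; omega
      · rcases hr' with ⟨hs, rfl⟩ | ⟨-, rfl⟩ | hr'
        · right; simp only; omega
        · right; simp only; omega
        · by_cases hw : w = 0
          · right; simp only; omega
          · right; simp only; omega
    · intro p hp
      simp at hp
  -- the covering
  have hcov : (A ∩ {ω | Hull (W bad n (j + 1) ω) a (a + w)}) ∩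
        Ev (W bad n (j + 1)) bad (j + 1) I K [] ⊆
      ⋃ p : ℕ × ℕ, if w + p.1 + p.2 = 0 then ∅ else
        ((A ∩ {ω | Hull (W bad n j ω) (a - p.1) ((a - p.1) + ((w + p.1 + p.2 - 1 : ℕ) : ℤ))}) ∩
          Ev (W bad n j) bad j ∅ (newK j a w p.1 p.2 K) (newReg a w p.1 p.2 ++ ρI)) := by
    rintro ω ⟨⟨hA, hH⟩, hI, hKb, -⟩
    obtain ⟨g1, g2, g3, g4⟩ := step_hull hH
    obtain ⟨a0, b0, hH0⟩ := exists_hull (W bad n j ω) 0 (n + j) ⟨a, g1⟩
      (fun x hx => wet_sub bad n j ω x hx)
    have ha0 := (hH0.2.2 _ g1).1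
    have hb0 := (hH0.2.2 _ g2).2
    have hab0 := (hH0.2.2 _ g1).2
    obtain ⟨s, hs⟩ : ∃ s : ℕ, a - s = a0 := ⟨(a - a0).toNat, by omega⟩
    obtain ⟨t, ht⟩ : ∃ t : ℕ, a + w + t - 1 = b0 := ⟨(b0 - (a + w - 1)).toNat, by omega⟩
    have hst : w + s + t ≠ 0 := by omega
    rw [Set.mem_iUnion]
    refine ⟨(s, t), ?_⟩
    rw [if_neg hst]
    refine ⟨⟨hA, ?_⟩, ?_, ?_, ?_⟩
    · have e1 : a - s + ((w + s + t - 1 : ℕ) : ℤ) = b0 := by omega
      simp only [Set.mem_ofPred_eq]
      rw [e1, hs]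
      exact hH0
    · intro p hp
      simp at hp
    · intro p hp
      rcases mem_newK hp with hp | ⟨hs0, rfl⟩ | ⟨ht0, rfl⟩
      · exact hKb p hp
      · refine g3 _ ?_ ?_
        · simp only; rw [hs]; exact hH0.1
        · simp only; omega
      · refine g4 _ ?_ ?_
        · simp only; rw [ht]; exact hH0.2.1
        · simp only; omega
    · intro r hr
      rw [List.mem_append] at hr
      rcases hr with hr | hr
      · unfold newReg at hr
        rw [List.mem_append] at hr
        rcases hr with hr | hr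
        · split_ifs at hr with hs0
          · simp at hr
          · simp only [List.mem_singleton] at hr
            subst hr
            refine ⟨?_, ?_, ?_⟩
            · have e1 : a - (s : ℤ) + 1 - 1 = a0 := by omega
              simp only
              rw [e1]; exact hH0.1
            · have e1 : a - (s : ℤ) + 1 + ((s - 1 : ℕ) : ℤ) = a := by omega
              simp only
              rw [e1]; exact g1
            · intro y hy1 hy2 hy
              simp only at hy1 hy2
              exact g3 y hy (by omega)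
        · split_ifs at hr with ht0
          · simp at hr
          · simp only [List.mem_singleton] at hr
            subst hr
            refine ⟨g2, ?_, ?_⟩
            · have e1 : a + (w : ℤ) + ((t - 1 : ℕ) : ℤ) = b0 := by omega
              simp only
              rw [e1]; exact hH0.2.1
            · intro y hy1 hy2 hy
              simp only at hy1 hy2
              exact g4 y hy (by omega)
      · obtain ⟨p', hp', rfl⟩ := hmemρ r hr
        exact step_run (hI p' hp')
  refine (measure_mono hcov).trans ((measure_iUnion_le _).trans ?_)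
  have hrhs : (M * E q n (j + 1) a w) * q ^ K.card * ∏ p ∈ I, Z q (j + 1) p.2 =
      ∑' p : ℕ × ℕ, (M * (if w + p.1 + p.2 = 0 then 0 else
        E q n j (a - p.1) (w + p.1 + p.2 - 1) * (R q (Z q j) p.1 * R q (Z q j) p.2))) *
          q ^ K.card * ∏ p ∈ I, Z q (j + 1) p.2 := by
    rw [ENNReal.tsum_mul_right, ENNReal.tsum_mul_right, ENNReal.tsum_mul_left]
    rfl
  rw [hrhs]
  refine ENNReal.tsum_le_tsum ?_
  rintro ⟨s, t⟩
  simp only
  by_cases hst : w + s + t = 0
  · rw [if_pos hst, if_pos hst]; simp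
  · rw [if_neg hst, if_neg hst]
    have hcall := regions μ (A ∩ {ω | Hull (W bad n j ω) (a - s)
      ((a - s) + ((w + s + t - 1 : ℕ) : ℤ))}) (W bad n j) bad j q
      (M * E q n j (a - s) (w + s + t - 1)) (Z q j)
      (fun I K hK => hj (a - s) (w + s + t - 1) I K hK)
      (newReg a w s t ++ ρI) (hpw s t) ∅ (newK j a w s t K) (hside s t hst)
    refine hcall.trans (le_of_eq ?_)
    rw [List.map_append, List.prod_append, hprodI, Finset.prod_empty, mul_one]
    have := card_newK q hKl hst (Z q j) (a := a)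
    calc M * E q n j (a - ↑s) (w + s + t - 1) * q ^ (newK j a w s t K).card *
          ((List.map (fun r ↦ Y q (Z q j) r.2) (newReg a w s t)).prod *
            ∏ p ∈ I, Z q (j + 1) p.2)
        = M * E q n j (a - ↑s) (w + s + t - 1) * (q ^ (newK j a w s t K).card *
          ((newReg a w s t).map (fun r ↦ Y q (Z q j) r.2)).prod) *
            ∏ p ∈ I, Z q (j + 1) p.2 := by ring
      _ = _ := by rw [this]; ring

theorem claim (μ : Measure Ω) (A : Set Ω) (M q : ℝ≥0∞) (bad : ℕ → ℤ → Ω → Prop) (n : ℕ)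
    (hK : ∀ K : Finset (ℕ × ℤ), μ (A ∩ {ω | ∀ p ∈ K, bad p.1 p.2 ω}) ≤ M * q ^ K.card)
    (j : ℕ) : ∀ (a : ℤ) (w : ℕ) (I : Finset (ℤ × ℕ)) (K : Finset (ℕ × ℤ)),
      (∀ p ∈ K, j ≤ p.1) →
      μ ((A ∩ {ω | Hull (W bad n j ω) a (a + w)}) ∩ Ev (W bad n j) bad j I K []) ≤
        (M * E q n j a w) * q ^ K.card * ∏ p ∈ I, Z q j p.2 := by
  induction j with
  | zero => exact fun a w I K _ => claim_zero μ A M q bad n hK a w I K
  | succ j ih => exact fun a w I K h => claim_succ μ A M q bad n j ih a w I K h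

/-- weight of the death of a hull of width `w + 1` -/
noncomputable def Rd (q : ℝ≥0∞) (z : ℕ → ℝ≥0∞) (w : ℕ) : ℝ≥0∞ :=
  if w = 0 then q else q ^ 2 * Y q z (w - 1)

theorem death (μ : Measure Ω) (A : Set Ω) (M q : ℝ≥0∞) (bad : ℕ → ℤ → Ω → Prop) (n : ℕ)
    (hK : ∀ K : Finset (ℕ × ℤ), μ (A ∩ {ω | ∀ p ∈ K, bad p.1 p.2 ω}) ≤ M * q ^ K.card)
    (j : ℕ) :
    μ (A ∩ {ω | (W bad n j ω).Nonempty ∧ W bad n (j + 1) ω = ∅}) ≤
      M * ∑' p : ℤ × ℕ, E q n j p.1 p.2 * Rd q (Z q j) p.2 := by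
  classical
  set ρ : ℤ → ℕ → List (ℤ × ℕ) := fun a w => if w = 0 then [] else [(a + 1, w - 1)] with hρ
  set KK : ℤ → ℕ → Finset (ℕ × ℤ) := fun a w => if w = 0 then {(j, a)} else {(j, a), (j, a + w)}
    with hKK
  have hcov : A ∩ {ω | (W bad n j ω).Nonempty ∧ W bad n (j + 1) ω = ∅} ⊆
      ⋃ p : ℤ × ℕ, (A ∩ {ω | Hull (W bad n j ω) p.1 (p.1 + p.2)}) ∩
        Ev (W bad n j) bad j ∅ (KK p.1 p.2) (ρ p.1 p.2) := by
    rintro ω ⟨hA, hne, hem⟩
    obtain ⟨a0, b0, hH0⟩ := exists_hull (W bad n j ω) 0 (n + j) hne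
      (fun x hx => wet_sub bad n j ω x hx)
    have hbad : ∀ y ∈ W bad n j ω, bad j y ω := by
      intro y hy
      by_contra hb
      have : y ∈ W bad n (j + 1) ω := Or.inl ⟨hy, hb⟩
      rw [hem] at this
      exact this
    have hab := (hH0.2.2 _ hH0.1).2
    obtain ⟨w, hw⟩ : ∃ w : ℕ, a0 + w = b0 := ⟨(b0 - a0).toNat, by omega⟩
    rw [Set.mem_iUnion]
    refine ⟨(a0, w), ⟨hA, ?_⟩, ?_, ?_, ?_⟩
    · simp only [Set.mem_ofPred_eq]; rw [hw]; exact hH0
    · intro p hp; simp at hp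
    · intro p hp
      simp only [hKK] at hp
      split_ifs at hp with h0
      · rw [Finset.mem_singleton] at hp
        subst hp
        exact hbad _ hH0.1
      · rw [Finset.mem_insert, Finset.mem_singleton] at hp
        rcases hp with rfl | rfl
        · exact hbad _ hH0.1
        · simp only; rw [hw]; exact hbad _ hH0.2.1
    · intro r hr
      simp only [hρ] at hr
      split_ifs at hr with h0
      · simp at hr
      · simp only [List.mem_singleton] at hr
        subst hr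
        refine ⟨?_, ?_, fun y _ _ hy => hbad y hy⟩
        · simpa using hH0.1
        · have e1 : a0 + 1 + ((w - 1 : ℕ) : ℤ) = b0 := by omega
          simp only
          rw [e1]; exact hH0.2.1
  refine (measure_mono hcov).trans ((measure_iUnion_le _).trans ?_)
  rw [← ENNReal.tsum_mul_left]
  refine ENNReal.tsum_le_tsum ?_
  rintro ⟨a, w⟩
  simp only
  have hcall := regions μ (A ∩ {ω | Hull (W bad n j ω) a (a + w)}) (W bad n j) bad j q
    (M * E q n j a w) (Z q j) (fun I K hKl => claim μ A M q bad n hK j a w I K hKl)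
    (ρ a w) (by simp only [hρ]; split_ifs <;> simp) ∅ (KK a w) (by
      refine ⟨?_, ?_, ?_⟩
      · intro p hp
        simp only [hKK] at hp
        split_ifs at hp with h0
        · rw [Finset.mem_singleton] at hp; subst hp; exact le_rfl
        · rw [Finset.mem_insert, Finset.mem_singleton] at hp
          rcases hp with rfl | rfl <;> exact le_rfl
      · intro p hp _ r hr
        simp only [hKK, hρ] at hp hr
        split_ifs at hp hr with h0
        · simp at hr
        · simp only [List.mem_singleton] at hr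
          subst hr
          rw [Finset.mem_insert, Finset.mem_singleton] at hp
          rcases hp with rfl | rfl
          · left; simp only; omega
          · right; simp only; omega
      · intro p hp; simp at hp)
  refine hcall.trans (le_of_eq ?_)
  rw [Finset.prod_empty, mul_one]
  simp only [hKK, hρ, Rd]
  by_cases h0 : w = 0
  · simp [h0, mul_assoc]
  · simp only [if_neg h0, List.map_cons, List.map_nil, List.prod_cons, List.prod_nil, mul_one]
    rw [Finset.card_pair]
    · ring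
    · intro h
      simp only [Prod.mk.injEq, true_and] at h
      omega

end levels

/-! ### Generating functions -/

section gen

/-- generating function of the dry runs -/
noncomputable def gz (z : ℕ → ℝ≥0∞) (x : ℝ≥0∞) : ℝ≥0∞ := ∑' d, zb z d * x ^ d

theorem conv_le (f g : ℕ → ℝ≥0∞) (N : ℕ) :
    ∑ L ∈ Finset.range (N + 1), ∑ d ∈ Finset.range L, f d * g (L - 1 - d) ≤
      (∑ d ∈ Finset.range N, f d) * ∑ m ∈ Finset.range N, g m := by
  rw [Finset.sum_comm' (s' := fun d => Finset.Ico (d + 1) (N + 1)) (t' := Finset.range N)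
    (by intro L d; simp only [Finset.mem_range, Finset.mem_Ico]; omega), Finset.sum_mul]
  refine Finset.sum_le_sum fun d hd => ?_
  rw [← Finset.mul_sum]
  refine mul_le_mul_right ?_ _
  rw [Finset.sum_Ico_eq_sum_range]
  have e1 : N + 1 - (d + 1) = N - d := by omega
  rw [e1]
  have e2 : ∑ k ∈ Finset.range (N - d), g (d + 1 + k - 1 - d) =
      ∑ k ∈ Finset.range (N - d), g k := by
    refine Finset.sum_congr rfl fun k _ => ?_
    congr 1
    omega
  rw [e2]
  exact Finset.sum_le_sum_of_subset (Finset.range_mono (by omega))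

theorem SY_le (q x B : ℝ≥0∞) (z : ℕ → ℝ≥0∞)
    (hB : gz z x + gz z x * ((q * x) * B) ≤ B) (N : ℕ) :
    ∑ L ∈ Finset.range N, Y q z L * x ^ L ≤ B := by
  induction N with
  | zero => simp
  | succ N ih =>
    refine le_trans ?_ hB
    have e1 : ∀ L, Y q z L * x ^ L = zb z L * x ^ L +
        ∑ d ∈ Finset.range L, (zb z d * x ^ d) *
          ((q * x) * (Y q z (L - 1 - d) * x ^ (L - 1 - d))) := by
      intro L
      rw [Y_eq, add_mul, Finset.sum_mul]
      congr 1
      refine Finset.sum_congr rfl fun d hd => ?_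
      rw [Finset.mem_range] at hd
      have e2 : x ^ L = x ^ d * x * x ^ (L - 1 - d) := by
        rw [← pow_succ, ← pow_add]
        congr 1
        omega
      rw [e2]
      ring
    rw [Finset.sum_congr rfl fun L _ => e1 L, Finset.sum_add_distrib]
    refine add_le_add (ENNReal.sum_le_tsum _) ?_
    refine (conv_le (fun d => zb z d * x ^ d) (fun m => (q * x) * (Y q z m * x ^ m)) N).trans ?_
    refine mul_le_mul' (ENNReal.sum_le_tsum _) ?_
    rw [← Finset.mul_sum]
    exact mul_le_mul_right ih _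

/-- generating function of the regions -/
noncomputable def gY (q x : ℝ≥0∞) (z : ℕ → ℝ≥0∞) : ℝ≥0∞ := ∑' L, Y q z L * x ^ L

theorem gY_le (q x B : ℝ≥0∞) (z : ℕ → ℝ≥0∞)
    (hB : gz z x + gz z x * ((q * x) * B) ≤ B) : gY q x z ≤ B :=
  ENNReal.tsum_le_of_sum_range_le fun N => SY_le q x B z hB N

theorem gz_step (q x y : ℝ≥0∞) (hxy : x * y = 1) (z : ℕ → ℝ≥0∞) :
    gz (fun l => Y q z (l + 1)) x ≤ 1 + y * gY q x z := by
  have h : ∀ d, zb (fun l => Y q z (l + 1)) d * x ^ d ≤
      (if d = 0 then 1 else 0) + y * (Y q z (d + 1) * x ^ (d + 1)) := by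
    intro d
    unfold zb
    by_cases hd : d = 0
    · simp [hd]
    · rw [if_neg hd, if_neg hd, zero_add]
      refine le_of_eq ?_
      rw [pow_succ]
      calc Y q z (d + 1) * x ^ d = (x * y) * (Y q z (d + 1) * x ^ d) := by rw [hxy, one_mul]
        _ = _ := by ring
  unfold gz gY
  refine (ENNReal.tsum_le_tsum h).trans ?_
  rw [ENNReal.tsum_add, tsum_ite_eq, ENNReal.tsum_mul_left]
  refine add_le_add le_rfl (mul_le_mul_right ?_ _)
  exact ENNReal.tsum_comp_le_tsum_of_injective (f := fun d : ℕ => d + 1)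
    (fun a b h => by simpa using h) (fun L => Y q z L * x ^ L)

theorem gR_le (q x : ℝ≥0∞) (z : ℕ → ℝ≥0∞) :
    ∑' s, R q z s * x ^ s ≤ 1 + (q * x) * gY q x z := by
  rw [tsum_eq_zero_add' ENNReal.summable]
  refine add_le_add (by simp [R]) (le_of_eq ?_)
  unfold gY
  rw [← ENNReal.tsum_mul_left]
  refine tsum_congr fun s => ?_
  simp only [R, Nat.add_one_ne_zero, if_false, Nat.add_sub_cancel]
  rw [pow_succ]
  ring

/-- total weight of the hulls -/
noncomputable def Psi (q y : ℝ≥0∞) (n j : ℕ) : ℝ≥0∞ :=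
  ∑' p : ℤ × ℕ, E q n j p.1 p.2 * y ^ (p.2 + 1)

theorem Psi_zero (q y : ℝ≥0∞) (n : ℕ) : Psi q y n 0 ≤ y ^ n := by
  classical
  have h : ∀ p : ℤ × ℕ, E q n 0 p.1 p.2 * y ^ (p.2 + 1) ≤
      if p = ((0 : ℤ), n - 1) then y ^ n else 0 := by
    rintro ⟨a, w⟩
    simp only [E, Prod.mk.injEq]
    split_ifs with h1 h2 h2
    · rw [h1.2, one_mul]
    · exact absurd ⟨h1.1, by omega⟩ h2
    · simp
    · simp
  refine (ENNReal.tsum_le_tsum h).trans ?_
  rw [tsum_ite_eq]

theorem Psi_succ (q x y : ℝ≥0∞) (hxy : x * y = 1) (n j : ℕ) :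
    Psi q y n (j + 1) ≤ y * (∑' s, R q (Z q j) s * x ^ s) ^ 2 * Psi q y n j := by
  classical
  set r := R q (Z q j) with hr
  have h1 : Psi q y n (j + 1) = ∑' st : ℕ × ℕ, ∑' p : ℤ × ℕ,
      (if p.2 + st.1 + st.2 = 0 then 0 else
        E q n j (p.1 - st.1) (p.2 + st.1 + st.2 - 1) * (r st.1 * r st.2)) * y ^ (p.2 + 1) := by
    unfold Psi
    rw [ENNReal.tsum_comm]
    refine tsum_congr fun p => ?_
    rw [ENNReal.tsum_mul_right]
    rfl
  have hxyp : ∀ m : ℕ, x ^ m * y ^ m = 1 := fun m => by rw [← mul_pow, hxy, one_pow]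
  have h2 : ∀ st : ℕ × ℕ, ∑' p : ℤ × ℕ,
      (if p.2 + st.1 + st.2 = 0 then 0 else
        E q n j (p.1 - st.1) (p.2 + st.1 + st.2 - 1) * (r st.1 * r st.2)) * y ^ (p.2 + 1) ≤
      (y * ((r st.1 * x ^ st.1) * (r st.2 * x ^ st.2))) * Psi q y n j := by
    rintro ⟨s, t⟩
    simp only
    set F : ℤ × ℕ → ℝ≥0∞ := fun p => E q n j p.1 p.2 * y ^ (p.2 + 1) with hF
    set D : Set (ℤ × ℕ) := {p | p.2 + s + t ≠ 0} with hD
    have h3 : ∀ p : ℤ × ℕ, (if p.2 + s + t = 0 then 0 else
        E q n j (p.1 - s) (p.2 + s + t - 1) * (r s * r t)) * y ^ (p.2 + 1) =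
        (y * ((r s * x ^ s) * (r t * x ^ t))) *
          D.indicator (fun p => F (p.1 - s, p.2 + s + t - 1)) p := by
      rintro ⟨a, w⟩
      simp only
      by_cases h0 : w + s + t = 0
      · have hnD : (a, w) ∉ D := by
          simp only [hD, Set.mem_ofPred_eq, ne_eq, not_not]
          exact h0
        rw [if_pos h0, Set.indicator_of_notMem hnD]
        simp
      · rw [if_neg h0, Set.indicator_of_mem (by simpa [hD] using h0)]
        simp only [hF]
        have e1 : w + s + t - 1 + 1 = w + (s + t) := by omega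
        rw [e1]
        have e2 : y ^ (w + 1) = (x ^ (s + t) * y ^ (s + t)) * y ^ (w + 1) := by
          rw [hxyp, one_mul]
        rw [e2, pow_add x, pow_add y w (s + t), pow_succ y w]
        ring
    rw [tsum_congr h3, ENNReal.tsum_mul_left]
    refine mul_le_mul_right ?_ _
    rw [← tsum_subtype D (fun p => F (p.1 - s, p.2 + s + t - 1))]
    refine (ENNReal.tsum_comp_le_tsum_of_injective
      (f := fun p : D => ((p : ℤ × ℕ).1 - (s : ℤ), (p : ℤ × ℕ).2 + s + t - 1)) ?_ F)
    rintro ⟨⟨a, w⟩, h⟩ ⟨⟨a', w'⟩, h'⟩ heq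
    simp only [hD, Set.mem_ofPred_eq, ne_eq] at h h'
    simp only [Prod.mk.injEq] at heq
    simp only [Subtype.mk.injEq, Prod.mk.injEq]
    omega
  rw [h1]
  refine (ENNReal.tsum_le_tsum h2).trans (le_of_eq ?_)
  rw [ENNReal.tsum_mul_right, ENNReal.tsum_mul_left]
  congr 2
  rw [ENNReal.tsum_prod (f := fun a b => (r a * x ^ a) * (r b * x ^ b)), sq,
    ← ENNReal.tsum_mul_right]
  refine tsum_congr fun a => ?_
  rw [ENNReal.tsum_mul_left]

end gen

/-! ### Numbers -/

section numbers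

theorem gz_Z_le (q x y : ℝ≥0∞) (hxy : x * y = 1) (hu : q * x = ((1 / 8 : ℝ≥0) : ℝ≥0∞))
    (hy : y ≤ ((1 / 6 : ℝ≥0) : ℝ≥0∞)) (j : ℕ) :
    gz (Z q j) x ≤ ((5 / 4 : ℝ≥0) : ℝ≥0∞) ∧
      gY q x (Z q j) ≤ ((3 / 2 : ℝ≥0) : ℝ≥0∞) := by
  have key : ∀ z : ℕ → ℝ≥0∞, gz z x ≤ ((5 / 4 : ℝ≥0) : ℝ≥0∞) →
      gY q x z ≤ ((3 / 2 : ℝ≥0) : ℝ≥0∞) := by
    intro z hz
    refine gY_le q x _ z ?_
    rw [hu]
    refine (add_le_add hz (mul_le_mul' hz le_rfl)).trans ?_
    rw [← ENNReal.coe_mul, ← ENNReal.coe_mul, ← ENNReal.coe_add, ENNReal.coe_le_coe,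
      ← NNReal.coe_le_coe]
    push_cast
    norm_num
  induction j with
  | zero =>
    have h0 : gz (Z q 0) x ≤ ((5 / 4 : ℝ≥0) : ℝ≥0∞) := by
      have : ∀ d, zb (Z q 0) d * x ^ d = if d = 0 then 1 else 0 := by
        intro d
        unfold zb
        by_cases hd : d = 0
        · simp [hd]
        · simp [hd, Z]
      unfold gz
      rw [tsum_congr this, tsum_ite_eq]
      have e : (1 : ℝ≥0∞) = ((1 : ℝ≥0) : ℝ≥0∞) := by simp
      rw [e, ENNReal.coe_le_coe, ← NNReal.coe_le_coe]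
      push_cast
      norm_num
    exact ⟨h0, key _ h0⟩
  | succ j ih =>
    have h1 : gz (Z q (j + 1)) x ≤ ((5 / 4 : ℝ≥0) : ℝ≥0∞) := by
      refine (gz_step q x y hxy (Z q j)).trans ?_
      refine (add_le_add le_rfl (mul_le_mul' hy ih.2)).trans ?_
      have e : (1 : ℝ≥0∞) = ((1 : ℝ≥0) : ℝ≥0∞) := by simp
      rw [e, ← ENNReal.coe_mul, ← ENNReal.coe_add, ENNReal.coe_le_coe, ← NNReal.coe_le_coe]
      push_cast
      norm_num
    exact ⟨h1, key _ h1⟩

theorem Psi_le (q x y : ℝ≥0∞) (hxy : x * y = 1) (hu : q * x = ((1 / 8 : ℝ≥0) : ℝ≥0∞))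
    (hy : y ≤ ((1 / 6 : ℝ≥0) : ℝ≥0∞)) (n j : ℕ) :
    Psi q y n j ≤ y ^ n * (((3 / 2 : ℝ≥0) : ℝ≥0∞) * y) ^ j := by
  induction j with
  | zero => simpa using Psi_zero q y n
  | succ j ih =>
    refine (Psi_succ q x y hxy n j).trans ?_
    have hR : ∑' s, R q (Z q j) s * x ^ s ≤ ((19 / 16 : ℝ≥0) : ℝ≥0∞) := by
      refine (gR_le q x (Z q j)).trans ?_
      rw [hu]
      refine (add_le_add le_rfl (mul_le_mul' le_rfl (gz_Z_le q x y hxy hu hy j).2)).trans ?_
      have e : (1 : ℝ≥0∞) = ((1 : ℝ≥0) : ℝ≥0∞) := by simp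
      rw [e, ← ENNReal.coe_mul, ← ENNReal.coe_add, ENNReal.coe_le_coe, ← NNReal.coe_le_coe]
      push_cast
      norm_num
    have hR2 : (∑' s, R q (Z q j) s * x ^ s) ^ 2 ≤ ((3 / 2 : ℝ≥0) : ℝ≥0∞) := by
      refine (pow_le_pow_left' hR 2).trans ?_
      rw [← ENNReal.coe_pow, ENNReal.coe_le_coe, ← NNReal.coe_le_coe]
      push_cast
      norm_num
    refine (mul_le_mul' (mul_le_mul' le_rfl hR2) ih).trans (le_of_eq ?_)
    rw [pow_succ]
    ring

end numbers

/-- **Contour lemma.** `n ≥ 1` adjacent sources at level `0`, children `l, l+1`. -/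
theorem dies_le {Ω : Type*} [MeasurableSpace Ω] (μ : Measure Ω) (A : Set Ω) (M q : ℝ≥0∞)
    (bad : ℕ → ℤ → Ω → Prop) (hq0 : q ≠ 0) (hq : q ≤ ((1 / 48 : ℝ≥0) : ℝ≥0∞)) (n j : ℕ)
    (hK : ∀ K : Finset (ℕ × ℤ), μ (A ∩ {ω | ∀ p ∈ K, bad p.1 p.2 ω}) ≤ M * q ^ K.card) :
    μ (A ∩ {ω | (W bad n j ω).Nonempty ∧ W bad n (j + 1) ω = ∅}) ≤
      M * (12 * q) ^ (n + j) := by
  have hqt : q ≠ ⊤ := ne_top_of_le_ne_top ENNReal.coe_ne_top hq
  set y : ℝ≥0∞ := ((8 : ℝ≥0) : ℝ≥0∞) * q with hydef
  set x : ℝ≥0∞ := y⁻¹ with hxdef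
  have hy0 : y ≠ 0 := by
    rw [hydef]
    exact mul_ne_zero (by norm_num) hq0
  have hyt : y ≠ ⊤ := ENNReal.mul_ne_top ENNReal.coe_ne_top hqt
  have hxy : x * y = 1 := ENNReal.inv_mul_cancel hy0 hyt
  have hu : q * x = ((1 / 8 : ℝ≥0) : ℝ≥0∞) := by
    have e8 : ((1 / 8 : ℝ≥0) : ℝ≥0∞) * ((8 : ℝ≥0) : ℝ≥0∞) = 1 := by
      rw [← ENNReal.coe_mul]
      norm_num
    calc q * x = (((1 / 8 : ℝ≥0) : ℝ≥0∞) * ((8 : ℝ≥0) : ℝ≥0∞)) * (q * x) := by rw [e8, one_mul]
      _ = ((1 / 8 : ℝ≥0) : ℝ≥0∞) * (x * (((8 : ℝ≥0) : ℝ≥0∞) * q)) := by ring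
      _ = _ := by rw [← hydef, hxy, mul_one]
  have hy : y ≤ ((1 / 6 : ℝ≥0) : ℝ≥0∞) := by
    rw [hydef]
    refine (mul_le_mul' le_rfl hq).trans ?_
    rw [← ENNReal.coe_mul, ENNReal.coe_le_coe, ← NNReal.coe_le_coe]
    push_cast
    norm_num
  have h12 : ((3 / 2 : ℝ≥0) : ℝ≥0∞) * y = 12 * q := by
    rw [hydef, ← mul_assoc, ← ENNReal.coe_mul]
    congr 1
    have : (3 / 2 * 8 : ℝ≥0) = 12 := by
      rw [← NNReal.coe_inj]; push_cast; norm_num
    rw [this]
    rfl
  have hy12 : y ≤ 12 * q := by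
    rw [← h12]
    have e : (1 : ℝ≥0∞) ≤ ((3 / 2 : ℝ≥0) : ℝ≥0∞) := by
      have e : (1 : ℝ≥0∞) = ((1 : ℝ≥0) : ℝ≥0∞) := by simp
      rw [e, ENNReal.coe_le_coe, ← NNReal.coe_le_coe]
      push_cast
      norm_num
    calc y = 1 * y := (one_mul y).symm
      _ ≤ _ := mul_le_mul' e le_rfl
  refine (death μ A M q bad n hK j).trans ?_
  refine mul_le_mul_right ?_ _
  have hRd : ∀ w, Rd q (Z q j) w ≤ y ^ (w + 1) := by
    intro w
    unfold Rd
    by_cases hw : w = 0
    · rw [if_pos hw, hw, zero_add, pow_one, hydef]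
      have e : (1 : ℝ≥0∞) ≤ ((8 : ℝ≥0) : ℝ≥0∞) := by
        have e : (1 : ℝ≥0∞) = ((1 : ℝ≥0) : ℝ≥0∞) := by simp
        rw [e, ENNReal.coe_le_coe, ← NNReal.coe_le_coe]
        push_cast
        norm_num
      calc q = 1 * q := (one_mul q).symm
        _ ≤ _ := mul_le_mul' e le_rfl
    · rw [if_neg hw]
      have hYw : Y q (Z q j) (w - 1) * x ^ (w - 1) ≤ ((3 / 2 : ℝ≥0) : ℝ≥0∞) :=
        (ENNReal.le_tsum (f := fun L => Y q (Z q j) L * x ^ L) (w - 1)).trans
          (gz_Z_le q x y hxy hu hy j).2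
      have e1 : y ^ (w + 1) = y ^ (w - 1) * y ^ 2 := by
        rw [← pow_add]
        congr 1
        omega
      have hYw' : Y q (Z q j) (w - 1) ≤ ((3 / 2 : ℝ≥0) : ℝ≥0∞) * y ^ (w - 1) := by
        calc Y q (Z q j) (w - 1) = (x * y) ^ (w - 1) * Y q (Z q j) (w - 1) := by
              rw [hxy, one_pow, one_mul]
          _ = (Y q (Z q j) (w - 1) * x ^ (w - 1)) * y ^ (w - 1) := by rw [mul_pow]; ring
          _ ≤ _ := mul_le_mul' hYw le_rfl
      calc q ^ 2 * Y q (Z q j) (w - 1)
          ≤ q ^ 2 * (((3 / 2 : ℝ≥0) : ℝ≥0∞) * y ^ (w - 1)) := mul_le_mul' le_rfl hYw'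
        _ = y ^ (w - 1) * (((3 / 2 : ℝ≥0) : ℝ≥0∞) * q ^ 2) := by ring
        _ ≤ y ^ (w - 1) * y ^ 2 := by
            refine mul_le_mul' le_rfl ?_
            rw [hydef, mul_pow]
            refine mul_le_mul' ?_ le_rfl
            rw [← ENNReal.coe_pow, ENNReal.coe_le_coe, ← NNReal.coe_le_coe]
            push_cast
            norm_num
        _ = y ^ (w + 1) := e1.symm
  calc ∑' p : ℤ × ℕ, E q n j p.1 p.2 * Rd q (Z q j) p.2
      ≤ Psi q y n j := ENNReal.tsum_le_tsum fun p => mul_le_mul' le_rfl (hRd p.2)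
    _ ≤ y ^ n * (((3 / 2 : ℝ≥0) : ℝ≥0∞) * y) ^ j := Psi_le q x y hxy hu hy n j
    _ ≤ (12 * q) ^ n * (12 * q) ^ j := by
        rw [h12]
        exact mul_le_mul' (pow_le_pow_left' hy12 n) le_rfl
    _ = _ := by rw [pow_add]

/-- The field needs to be controlled only on the levels `≤ j` and the cells `[0, n + level)`. -/
theorem dies_le' {Ω : Type*} [MeasurableSpace Ω] (μ : Measure Ω) (A : Set Ω) (M q : ℝ≥0∞)
    (bad : ℕ → ℤ → Ω → Prop) (hq0 : q ≠ 0) (hq : q ≤ ((1 / 48 : ℝ≥0) : ℝ≥0∞)) (n j : ℕ)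
    (hK : ∀ K : Finset (ℕ × ℤ), (∀ p ∈ K, p.1 ≤ j ∧ 0 ≤ p.2 ∧ p.2 < n + p.1) →
      μ (A ∩ {ω | ∀ p ∈ K, bad p.1 p.2 ω}) ≤ M * q ^ K.card) :
    μ (A ∩ {ω | (W bad n j ω).Nonempty ∧ W bad n (j + 1) ω = ∅}) ≤
      M * (12 * q) ^ (n + j) := by
  classical
  set bad' : ℕ → ℤ → Ω → Prop := fun i l ω => bad i l ω ∧ (i ≤ j ∧ 0 ≤ l ∧ l < n + i) with hb'
  have hW : ∀ i ≤ j + 1, ∀ ω, W bad' n i ω = W bad n i ω := by
    intro i
    induction i with
    | zero => intro _ ω; rfl
    | succ i ih =>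
      intro hi ω
      have h1 := ih (by omega) ω
      ext x
      have hs : ∀ y ∈ W bad n i ω, (bad' i y ω ↔ bad i y ω) := by
        intro y hy
        have := wet_sub bad n i ω y hy
        simp only [hb']
        constructor
        · exact fun h => h.1
        · exact fun h => ⟨h, by omega, by omega, by omega⟩
      change ((x ∈ W bad' n i ω ∧ ¬ bad' i x ω) ∨ (x - 1 ∈ W bad' n i ω ∧ ¬ bad' i (x - 1) ω)) ↔
        ((x ∈ W bad n i ω ∧ ¬ bad i x ω) ∨ (x - 1 ∈ W bad n i ω ∧ ¬ bad i (x - 1) ω))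
      rw [h1]
      constructor
      · rintro (⟨h, h'⟩ | ⟨h, h'⟩)
        · exact Or.inl ⟨h, fun hc => h' ((hs _ h).2 hc)⟩
        · exact Or.inr ⟨h, fun hc => h' ((hs _ h).2 hc)⟩
      · rintro (⟨h, h'⟩ | ⟨h, h'⟩)
        · exact Or.inl ⟨h, fun hc => h' ((hs _ h).1 hc)⟩
        · exact Or.inr ⟨h, fun hc => h' ((hs _ h).1 hc)⟩
  have h := dies_le μ A M q bad' hq0 hq n j (by
    intro K
    by_cases hc : ∀ p ∈ K, p.1 ≤ j ∧ 0 ≤ p.2 ∧ p.2 < n + p.1
    · refine (measure_mono ?_).trans (hK K hc)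
      rintro ω ⟨hA, h⟩
      exact ⟨hA, fun p hp => (h p hp).1⟩
    · have : A ∩ {ω | ∀ p ∈ K, bad' p.1 p.2 ω} = ∅ := by
        rw [Set.eq_empty_iff_forall_notMem]
        rintro ω ⟨-, h⟩
        exact hc fun p hp => (h p hp).2
      rw [this]
      simp)
  have e : {ω | (W bad' n j ω).Nonempty ∧ W bad' n (j + 1) ω = ∅} =
      {ω | (W bad n j ω).Nonempty ∧ W bad n (j + 1) ω = ∅} := by
    ext ω
    simp only [Set.mem_ofPred_eq]
    rw [hW j (by omega) ω, hW (j + 1) le_rfl ω]
  rw [e] at h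
  exact h

/-- Death before the level `h + 1`. -/
theorem dead_le {Ω : Type*} [MeasurableSpace Ω] (μ : Measure Ω) (A : Set Ω) (M q : ℝ≥0∞)
    (bad : ℕ → ℤ → Ω → Prop) (hq0 : q ≠ 0) (hq : q ≤ ((1 / 48 : ℝ≥0) : ℝ≥0∞)) (n h : ℕ)
    (hn : 1 ≤ n)
    (hK : ∀ K : Finset (ℕ × ℤ), (∀ p ∈ K, p.1 ≤ h ∧ 0 ≤ p.2 ∧ p.2 < n + p.1) →
      μ (A ∩ {ω | ∀ p ∈ K, bad p.1 p.2 ω}) ≤ M * q ^ K.card) :
    μ (A ∩ {ω | W bad n (h + 1) ω = ∅}) ≤ M * (2 * (12 * q) ^ n) := by
  classical
  have hcov : A ∩ {ω | W bad n (h + 1) ω = ∅} ⊆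
      ⋃ j ∈ Finset.range (h + 1),
        (A ∩ {ω | (W bad n j ω).Nonempty ∧ W bad n (j + 1) ω = ∅}) := by
    rintro ω ⟨hA, hem⟩
    have hex : ∃ j, W bad n j ω = ∅ := ⟨h + 1, hem⟩
    have hsp := Nat.find_spec hex
    have h0 : Nat.find hex ≠ 0 := by
      intro h0
      rw [h0] at hsp
      have : (0 : ℤ) ∈ W bad n 0 ω := by
        simp only [W, wet, Set.mem_Ico]
        omega
      rw [hsp] at this
      exact this
    have hle : Nat.find hex ≤ h + 1 := Nat.find_min' hex hem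
    obtain ⟨j, hj⟩ : ∃ j, Nat.find hex = j + 1 := ⟨Nat.find hex - 1, by omega⟩
    simp only [Set.mem_iUnion, Finset.mem_range]
    refine ⟨j, by omega, hA, ?_, ?_⟩
    · rw [Set.nonempty_iff_ne_empty]
      exact Nat.find_min hex (by omega)
    · rw [← hj]; exact hsp
  refine (measure_mono hcov).trans ((measure_biUnion_finset_le _ _).trans ?_)
  have hstep : ∀ j ∈ Finset.range (h + 1),
      μ (A ∩ {ω | (W bad n j ω).Nonempty ∧ W bad n (j + 1) ω = ∅}) ≤
        (M * (12 * q) ^ n) * (2⁻¹) ^ j := by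
    intro j hj
    rw [Finset.mem_range] at hj
    refine (dies_le' μ A M q bad hq0 hq n j fun K hKl => hK K fun p hp =>
      ⟨by have := (hKl p hp).1; omega, (hKl p hp).2⟩).trans ?_
    rw [pow_add, ← mul_assoc]
    refine mul_le_mul_right ?_ _
    refine pow_le_pow_left' ?_ j
    have e12 : (12 : ℝ≥0∞) = ((12 : ℝ≥0) : ℝ≥0∞) := by simp
    have e2 : (2⁻¹ : ℝ≥0∞) = ((1 / 2 : ℝ≥0) : ℝ≥0∞) := by
      rw [one_div, ENNReal.coe_inv (by norm_num)]
      simp
    rw [e12, e2]
    refine (mul_le_mul' le_rfl hq).trans ?_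
    rw [← ENNReal.coe_mul, ENNReal.coe_le_coe, ← NNReal.coe_le_coe]
    push_cast
    norm_num
  refine (Finset.sum_le_sum hstep).trans ?_
  rw [← Finset.mul_sum]
  have hg : ∑ j ∈ Finset.range (h + 1), (2⁻¹ : ℝ≥0∞) ^ j ≤ 2 := by
    refine (ENNReal.sum_le_tsum _).trans (le_of_eq ?_)
    rw [ENNReal.tsum_geometric]
    rw [ENNReal.one_sub_inv_two, inv_inv]
  calc (M * (12 * q) ^ n) * ∑ j ∈ Finset.range (h + 1), (2⁻¹ : ℝ≥0∞) ^ j
      ≤ (M * (12 * q) ^ n) * 2 := mul_le_mul_right hg _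
    _ = _ := by ring

end Crest.Agent.R154.Perc272
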