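import Crest.Agent.R154.ExK_9

/-!
# Row 154, helper215: (V1) of D2/VARG, part A — cut levels, any-past bound

`ℓ : Site d →+ ℤ` is the level function.  `Bl l = {ℓ < l}`, `exT (Bl l)` = first hit of level `l`.
`Cut b` : after the first hit of level `b` the path never goes below `b` again.
`NoCut l t` : no cut level in `[l, l+t]`.
-/

set_option autoImplicit false
set_option linter.unusedVariables false
set_option linter.unusedSectionVars false

namespace Crest.Agent.R154.Phi215

open MeasureTheory ProbabilityTheory Crest.ProbabilityR.RandomEnvironment Crest.Agent.R154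
open Crest.Agent.R154.ExK9
open scoped ENNReal

variable {d : ℕ}

/-- sites below level `l` -/
def Bl (ℓ : Site d →+ ℤ) (l : ℤ) : Set (Site d) := {z | ℓ z < l}

/-- sites at or above level `l` -/
def Ab (ℓ : Site d →+ ℤ) (l : ℤ) : Set (Site d) := {z | l ≤ ℓ z}

lemma Bl_mono (ℓ : Site d →+ ℤ) {l l' : ℤ} (h : l ≤ l') : Bl ℓ l ⊆ Bl ℓ l' :=
  fun _ hz => lt_of_lt_of_le hz h

lemma disj_Bl_Ab (ℓ : Site d →+ ℤ) (l : ℤ) : Disjoint (Bl ℓ l) (Ab ℓ l) :=
  Set.disjoint_left.2 fun z h1 h2 => by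
    have h3 : ℓ z < l := h1
    have h4 : l ≤ ℓ z := h2
    omega

/-- the walk is at or above level `b` for ever -/
def Ntl (ℓ : Site d →+ ℤ) (b : ℤ) : Set (Path d) := {X | ∀ n, b ≤ ℓ (X n)}

lemma measurableSet_Ntl (ℓ : Site d →+ ℤ) (b : ℤ) : MeasurableSet (Ntl ℓ b) := by
  unfold Ntl
  rw [Set.ofPred_forall]
  refine MeasurableSet.iInter fun n => measurableSet_of_agree n _ fun X Y h => ?_
  simp only [Set.mem_ofPred_eq, h n le_rfl]

lemma dec_Ntl (ℓ : Site d →+ ℤ) (b : ℤ) : Q561.Dec (Ab ℓ b) (Ntl ℓ b) :=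
  Q561.dec_of_forall fun X hX k => hX k

/-! ### general exit times -/

lemma measurable_shiftT (A : Set (Site d)) :
    Measurable fun X : Path d => shift (exT A X).toNat X := by
  refine measurable_pi_iff.2 fun i => ?_
  have h1 : Measurable fun X : Path d => (exT A X).toNat :=
    (measurable_of_countable ENat.toNat).comp (isStop_exT A).measurable
  have h2 : Measurable fun p : Path d × ℕ => p.1 (p.2 + i) :=
    measurable_from_prod_countable_left fun n => measurable_pi_apply (n + i)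
  exact h2.comp (measurable_id.prodMk h1)

/-- the position at the exit of `A` (`X 0` if there is none) -/
noncomputable def xE (A : Set (Site d)) (X : Path d) : Site d := X (exT A X).toNat

lemma measurable_xE (A : Set (Site d)) : Measurable (xE (d := d) A) := by
  have h := (measurable_pi_apply (X := fun _ : ℕ => Site d) 0).comp (measurable_shiftT A)
  exact h

/-- composition of exit times -/
lemma exT_add {A A' : Set (Site d)} (h : A ⊆ A') {X : Path d} {t : ℕ} (ht : exT A X = t) (m : ℕ) :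
    exT A' X = (t + m : ℕ) ↔ exT A' (shift t X) = m := by
  rw [exT_eq_iff, exT_eq_iff]
  constructor
  · rintro ⟨h1, h2⟩
    exact ⟨h1, fun i hi => h2 (t + i) (by omega)⟩
  · rintro ⟨h1, h2⟩
    refine ⟨h1, fun i hi => ?_⟩
    rcases Nat.lt_or_ge i t with h3 | h3
    · exact h ((exT_eq_iff.1 ht).2 i h3)
    · have h4 := h2 (i - t) (by omega)
      have h5 : X (t + (i - t)) ∈ A' := h4
      rwa [Nat.add_sub_cancel' h3] at h5

lemma exT_ne_top_mono {A A' : Set (Site d)} (h : A ⊆ A') {X : Path d} (hX : exT A' X ≠ ⊤) :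
    exT A X ≠ ⊤ := by
  intro hT
  rw [exT_eq_top_iff] at hT
  exact hX (exT_eq_top_iff.2 fun i => h (hT i))

lemma exT_ge {A A' : Set (Site d)} (h : A ⊆ A') {X : Path d} {t m : ℕ} (ht : exT A X = t)
    (hm : exT A' X = m) : t ≤ m := by
  by_contra hlt
  push Not at hlt
  exact (exT_eq_iff.1 hm).1 (h ((exT_eq_iff.1 ht).2 m hlt))

/-- the exit of the larger set, seen after the exit of the smaller set -/
lemma exT_shift_ne_top {A A' : Set (Site d)} (h : A ⊆ A') {X : Path d} (hX : exT A X ≠ ⊤) :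
    exT A' (shift (exT A X).toNat X) ≠ ⊤ ↔ exT A' X ≠ ⊤ := by
  obtain ⟨t, ht⟩ := ENat.ne_top_iff_exists.1 hX
  rw [← ht, ENat.toNat_natCast]
  constructor
  · intro h1
    obtain ⟨m, hm⟩ := ENat.ne_top_iff_exists.1 h1
    rw [(exT_add h ht.symm m).2 hm.symm]
    exact ENat.natCast_ne_top _
  · intro h1
    obtain ⟨m, hm⟩ := ENat.ne_top_iff_exists.1 h1
    have h2 := exT_ge h ht.symm hm.symm
    rw [(exT_add h ht.symm (m - t)).1 (by rw [Nat.add_sub_cancel' h2]; exact hm.symm)]
    exact ENat.natCast_ne_top _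

lemma shift_shiftT {A A' : Set (Site d)} (h : A ⊆ A') {X : Path d} (hX : exT A' X ≠ ⊤) :
    shift (exT A' (shift (exT A X).toNat X)).toNat (shift (exT A X).toNat X)
      = shift (exT A' X).toNat X := by
  have hA := exT_ne_top_mono h hX
  obtain ⟨t, ht⟩ := ENat.ne_top_iff_exists.1 hA
  obtain ⟨m, hm⟩ := ENat.ne_top_iff_exists.1 hX
  have h2 := exT_ge h ht.symm hm.symm
  have h3 := (exT_add h ht.symm (m - t)).1 (by rw [Nat.add_sub_cancel' h2]; exact hm.symm)
  rw [← ht, ENat.toNat_natCast, h3, ENat.toNat_natCast, ← hm, ENat.toNat_natCast]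
  funext i
  show X (t + (m - t + i)) = X (m + i)
  congr 1
  omega

lemma xE_shift {A A' : Set (Site d)} (h : A ⊆ A') {X : Path d} (hX : exT A' X ≠ ⊤) :
    xE A' (shift (exT A X).toNat X) = xE A' X := by
  have h1 := congrFun (shift_shiftT h hX) 0
  exact h1

/-! ### strong Markov with a past event -/

lemma ExS_eq_xE {A : Set (Site d)} {y : Site d} :
    ExS A y = {X : Path d | exT A X ≠ ⊤ ∧ xE A X = y} := by
  ext X
  exact mem_ExS_iff

lemma detBy_ExS (A : Set (Site d)) (z : Site d) : DetBy (exT A) (· ∈ ExS A z) := by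
  intro X Y n hXY hn
  have h2 : exT A Y = n := isStop_exT A X Y n hXY hn
  apply propext
  show X ∈ ExS A z ↔ Y ∈ ExS A z
  rw [mem_ExS_iff, mem_ExS_iff, hn, h2, ENat.toNat_natCast, hXY n le_rfl]

/-- **strong Markov at the exit of `A`, with a past event `V`, functional form** -/
theorem markF (ω : Environment d) (A : Set (Site d)) (x : Site d) {V : Set (Path d)}
    (hV : DetBy (exT A) (· ∈ V)) (hVm : MeasurableSet V) {F : Path d → ℝ≥0∞} (hF : Measurable F) :
    ∫⁻ X in {X | exT A X ≠ ⊤} ∩ V, F (shift (exT A X).toNat X) ∂quenchedLaw ω x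
      = ∑' y, quenchedLaw ω x (V ∩ ExS A y) * ∫⁻ Y, F Y ∂quenchedLaw ω y := by
  classical
  have hT : MeasurableSet {X : Path d | exT A X ≠ ⊤} := (isStop_exT A).measurableSet_ne_top
  have h := strong_markov ω x (isStop_exT A) (F := fun X Y => V.indicator 1 X * F Y)
    (fun X X' n hX hn => by
      have : V.indicator (1 : Path d → ℝ≥0∞) X = V.indicator 1 X' := by
        have := hV X X' n hX hn
        simp only [Set.indicator, this, Pi.one_apply]
      simp only [this])
    (fun X => hF.const_mul _)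
  have e1 : ∫⁻ X in {X | exT A X ≠ ⊤} ∩ V, F (shift (exT A X).toNat X) ∂quenchedLaw ω x
      = ∫⁻ X in {X | exT A X ≠ ⊤}, V.indicator 1 X * F (shift (exT A X).toNat X)
        ∂quenchedLaw ω x := by
    rw [← lintegral_indicator (hT.inter hVm), ← lintegral_indicator hT]
    refine lintegral_congr fun X => ?_
    by_cases h0 : exT A X = ⊤ <;> by_cases h1 : X ∈ V <;> simp [Set.indicator, h0, h1]
  have e2 : ∫⁻ X in {X | exT A X ≠ ⊤},
        ∫⁻ Y, V.indicator 1 X * F Y ∂quenchedLaw ω (X (exT A X).toNat) ∂quenchedLaw ω x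
      = ∑' y, quenchedLaw ω x (V ∩ ExS A y) * ∫⁻ Y, F Y ∂quenchedLaw ω y := by
    have e3 : {X : Path d | exT A X ≠ ⊤} = ⋃ y, ExS A y := by
      ext X
      rw [Set.mem_iUnion]
      constructor
      · intro h; exact ⟨_, mem_ExS_iff.2 ⟨h, rfl⟩⟩
      · rintro ⟨y, hy⟩; exact (mem_ExS_iff.1 hy).1
    rw [e3, lintegral_iUnion (fun y => measurableSet_ExS A y) (ExS_disjoint A)]
    refine tsum_congr fun y => ?_
    have e4 : ∫⁻ X in ExS A y, ∫⁻ Y, V.indicator 1 X * F Y ∂quenchedLaw ω (X (exT A X).toNat)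
          ∂quenchedLaw ω x
        = ∫⁻ X in ExS A y, V.indicator 1 X * ∫⁻ Y, F Y ∂quenchedLaw ω y ∂quenchedLaw ω x := by
      refine setLIntegral_congr_fun (measurableSet_ExS A y) fun X hX => ?_
      rw [lintegral_const_mul _ hF]
      simp only [(mem_ExS_iff.1 hX).2]
    rw [e4, lintegral_mul_const _ (measurable_one.indicator hVm), lintegral_indicator_one hVm,
      Measure.restrict_apply hVm]
  rw [e1, h, e2]

/-- strong Markov at the exit of `A`, functional form -/
theorem markF' (ω : Environment d) (A : Set (Site d)) (x : Site d) {F : Path d → ℝ≥0∞}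
    (hF : Measurable F) :
    ∫⁻ X in {X | exT A X ≠ ⊤}, F (shift (exT A X).toNat X) ∂quenchedLaw ω x
      = ∑' y, EK ω A x y * ∫⁻ Y, F Y ∂quenchedLaw ω y := by
  have h := markF ω A x (V := Set.univ) (fun X Y n _ _ => rfl) MeasurableSet.univ hF
  rw [Set.inter_univ] at h
  rw [h]
  refine tsum_congr fun y => ?_
  rw [Set.univ_inter]
  rfl

/-- a past event together with the exit site is decided inside `A` -/
lemma dec_past {A : Set (Site d)} {V : Set (Path d)} (hV : DetBy (exT A) (· ∈ V)) (y : Site d) :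
    Q561.Dec A (V ∩ ExS A y) := by
  by_cases hy : y ∈ A
  · rw [ExS_of_mem hy, Set.inter_empty]
    unfold Q561.Dec
    rw [Set.preimage_empty]
  · have e : V ∩ ExS A y = ⋃ n : ℕ, V ∩ {X : Path d | X n = y ∧ ∀ i < n, X i ∈ A} := by
      rw [ExS_eq hy, Set.inter_iUnion]
    rw [e]
    refine Q561.dec_iUnion fun n => Q561.dec_of_depOn (n := n) ?_ fun X hX k hk => hX.2.2 k hk
    intro X Y h hX
    have h1 := depOn_piece A y n X Y h hX.2
    have h2 : exT A X = n := exT_eq_iff.2 ⟨by rw [hX.2.1]; exact hy, hX.2.2⟩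
    have h3 : (X ∈ V) = (Y ∈ V) := hV X Y n (fun i hi => h i hi) h2
    exact ⟨h3 ▸ hX.1, h1⟩

lemma meas_past {A : Set (Site d)} {V : Set (Path d)} (hV : DetBy (exT A) (· ∈ V))
    (hVm : MeasurableSet V) (x y : Site d) :
    Measurable[coordSigmaAlgebra A] fun ω : Environment d => quenchedLaw ω x (V ∩ ExS A y) :=
  Q561.measurable_coord_quenched x (hVm.inter (measurableSet_ExS A y)) (dec_past hV y)

/-! ### cut levels -/

variable (ℓ : Site d →+ ℤ)

/-- `b` is a cut level -/
def Cut (b : ℤ) : Set (Path d) :=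
  {X | exT (Bl ℓ b) X ≠ ⊤ ∧ shift (exT (Bl ℓ b) X).toNat X ∈ Ntl ℓ b}

lemma measurableSet_Cut (b : ℤ) : MeasurableSet (Cut ℓ b) :=
  (isStop_exT _).measurableSet_ne_top.inter
    ((measurable_shiftT (Bl ℓ b)) (measurableSet_Ntl ℓ b))

/-- no cut level in `[l, l+t]` -/
def NoCut (l : ℤ) (t : ℕ) : Set (Path d) := {X | ∀ b, l ≤ b → b ≤ l + t → X ∉ Cut ℓ b}

lemma measurableSet_NoCut (l : ℤ) (t : ℕ) : MeasurableSet (NoCut ℓ l t) := by
  have : NoCut ℓ l t = ⋂ b : ℤ, {X : Path d | l ≤ b → b ≤ l + t → X ∉ Cut ℓ b} := by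
    ext X; simp [NoCut]
  rw [this]
  refine MeasurableSet.iInter fun b => ?_
  by_cases h1 : l ≤ b
  · by_cases h2 : b ≤ l + t
    · have : {X : Path d | l ≤ b → b ≤ l + t → X ∉ Cut ℓ b} = (Cut ℓ b)ᶜ := by
        ext X; simp [h1, h2]
      rw [this]
      exact (measurableSet_Cut ℓ b).compl
    · have : {X : Path d | l ≤ b → b ≤ l + t → X ∉ Cut ℓ b} = Set.univ := by
        ext X; simp [h2]
      rw [this]
      exact MeasurableSet.univ
  · have : {X : Path d | l ≤ b → b ≤ l + t → X ∉ Cut ℓ b} = Set.univ := by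
      ext X; simp [h1]
    rw [this]
    exact MeasurableSet.univ

lemma NoCut_anti {l : ℤ} {t t' : ℕ} (h : t ≤ t') : NoCut ℓ l t' ⊆ NoCut ℓ l t :=
  fun X hX b h1 h2 => hX b h1 (h2.trans (by have : (t : ℤ) ≤ t' := by exact_mod_cast h
                                            omega))

/-- cut levels `≥ l` are read off the path after the first hit of level `l` -/
lemma cut_shift {l b : ℤ} (h : l ≤ b) {X : Path d} (hX : exT (Bl ℓ l) X ≠ ⊤) :
    shift (exT (Bl ℓ l) X).toNat X ∈ Cut ℓ b ↔ X ∈ Cut ℓ b := by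
  have hm := Bl_mono ℓ h
  constructor
  · rintro ⟨h1, h2⟩
    have h3 := (exT_shift_ne_top hm hX).1 h1
    refine ⟨h3, ?_⟩
    rwa [shift_shiftT hm h3] at h2
  · rintro ⟨h1, h2⟩
    refine ⟨(exT_shift_ne_top hm hX).2 h1, ?_⟩
    rwa [shift_shiftT hm h1]

lemma noCut_shift {l : ℤ} {t : ℕ} {X : Path d} {m : ℤ} (hm : m ≤ l)
    (hX : exT (Bl ℓ m) X ≠ ⊤) :
    shift (exT (Bl ℓ m) X).toNat X ∈ NoCut ℓ l t ↔ X ∈ NoCut ℓ l t := by
  unfold NoCut
  simp only [Set.mem_ofPred_eq]
  refine forall_congr' fun b => ?_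
  constructor
  · intro h h1 h2 h3
    exact h h1 h2 ((cut_shift ℓ (hm.trans h1) hX).2 h3)
  · intro h h1 h2 h3
    exact h h1 h2 ((cut_shift ℓ (hm.trans h1) hX).1 h3)

end Crest.Agent.R154.Phi215
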