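import Crest.Agent.R154.PhiA_215

/-!
# Row 154, helper215: (V1) of D2/VARG, part B — the any-past bound

`AP t β` : from every site `y` of every level `l`, for every weight `a` that reads rows below `l`,
`∫ a * P_ω^y(no cut level in [l, l+t]) ≤ β ∫ a`.
`anyPast` : for every `ε ≠ 0` there is `t0` with `AP t ε` for all `t ≥ t0`.
-/

set_option autoImplicit false
set_option linter.unusedVariables false
set_option linter.unusedSectionVars false

namespace Crest.Agent.R154.Phi215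

open MeasureTheory ProbabilityTheory Crest.ProbabilityR.RandomEnvironment Crest.Agent.R154
open Crest.Agent.R154.ExK9
open scoped ENNReal

variable {d : ℕ}

/-- the exit of `Bl l` from a site of level `≤ l` is on level `l` -/
lemma EK_level (ℓ : Site d →+ ℤ) (hℓ : ∀ e : Step d, |ℓ (stepVec e)| ≤ 1) (ω : Environment d)
    {l : ℤ} {x y : Site d} (hx : ℓ x ≤ l) (hy : ℓ y ≠ l) : EK ω (Bl ℓ l) x y = 0 := by
  have h : ∀ᵐ X ∂quenchedLaw ω x, X ∉ ExS (Bl ℓ l) y := by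
    filter_upwards [quenched_zero_eq ω x, quenched_nn ω x] with X h0 hnn hE
    obtain ⟨hyA, n, hn, hi'⟩ := hE
    have hT' : l ≤ ℓ y := by
      by_contra hc
      exact hyA (lt_of_not_ge hc)
    cases n with
    | zero =>
      rw [h0] at hn
      rw [hn] at hx
      exact hy (le_antisymm hx hT')
    | succ n =>
      obtain ⟨e, he⟩ := hnn n
      have h1 : ℓ (X n) < l := hi' n (Nat.lt_succ_self n)
      have h2 := abs_le.1 (hℓ e)
      rw [← hn, he, map_add] at hT'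
      rw [← hn, he, map_add] at hy
      exact hy (by omega)
  have h2 := ae_iff.1 h
  unfold EK
  simpa using h2

lemma past_zero (ℓ : Site d →+ ℤ) (hℓ : ∀ e : Step d, |ℓ (stepVec e)| ≤ 1) (ω : Environment d)
    {l : ℤ} {x y : Site d} (hx : ℓ x ≤ l) (hy : ℓ y ≠ l) (V : Set (Path d)) :
    quenchedLaw ω x (V ∩ ExS (Bl ℓ l) y) = 0 :=
  measure_mono_null Set.inter_subset_right (EK_level ℓ hℓ ω hx hy)

variable (ℓ : Site d →+ ℤ)

/-- reaches level `l+t` at or above level `l`, and goes below `l` later -/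
def HiFail (l : ℤ) (t : ℕ) : Set (Path d) :=
  {X | (∃ n, (∀ i ≤ n, X i ∈ Ab ℓ l) ∧ l + t ≤ ℓ (X n)) ∧ ∃ n, ℓ (X n) < l}

/-- goes below `l` before reaching level `l+t` -/
def LoFail (l : ℤ) (t : ℕ) : Set (Path d) :=
  {X | ∃ n, ℓ (X n) < l ∧ ∀ i ≤ n, X i ∈ Bl ℓ (l + t)}

lemma measurableSet_HiFail (l : ℤ) (t : ℕ) : MeasurableSet (HiFail ℓ l t) := by
  have e : HiFail ℓ l t = (⋃ n : ℕ, {X : Path d | (∀ i ≤ n, X i ∈ Ab ℓ l) ∧ l + t ≤ ℓ (X n)}) ∩
      ⋃ n : ℕ, {X : Path d | ℓ (X n) < l} := by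
    ext X; simp [HiFail]
  rw [e]
  refine MeasurableSet.inter (MeasurableSet.iUnion fun n => ?_) (MeasurableSet.iUnion fun n => ?_)
  · refine measurableSet_of_agree n _ fun X Y h => ?_
    simp only [Set.mem_ofPred_eq, h n le_rfl]
    constructor
    · rintro ⟨h1, h2⟩; exact ⟨fun i hi => by rw [← h i hi]; exact h1 i hi, h2⟩
    · rintro ⟨h1, h2⟩; exact ⟨fun i hi => by rw [h i hi]; exact h1 i hi, h2⟩
  · exact measurableSet_of_agree n _ fun X Y h => by simp only [Set.mem_ofPred_eq, h n le_rfl]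

lemma measurableSet_LoFail (l : ℤ) (t : ℕ) : MeasurableSet (LoFail ℓ l t) := by
  have e : LoFail ℓ l t = ⋃ n : ℕ, {X : Path d | ℓ (X n) < l ∧ ∀ i ≤ n, X i ∈ Bl ℓ (l + t)} := by
    ext X; simp [LoFail]
  rw [e]
  refine MeasurableSet.iUnion fun n => measurableSet_of_agree n _ fun X Y h => ?_
  simp only [Set.mem_ofPred_eq, h n le_rfl]
  constructor
  · rintro ⟨h1, h2⟩; exact ⟨h1, fun i hi => by rw [← h i hi]; exact h2 i hi⟩
  · rintro ⟨h1, h2⟩; exact ⟨h1, fun i hi => by rw [h i hi]; exact h2 i hi⟩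

/-- `HiFail` is decided at the exit of `Ab l` -/
lemma dec_HiFail (l : ℤ) (t : ℕ) : Q561.Dec (Ab ℓ l) (HiFail ℓ l t) := by
  have e : HiFail ℓ l t = ⋃ n : ℕ, {X : Path d | (∃ m < n, l + t ≤ ℓ (X m)) ∧ ℓ (X n) < l ∧
      ∀ i < n, X i ∈ Ab ℓ l} := by
    ext X
    simp only [HiFail, Set.mem_ofPred_eq, Set.mem_iUnion]
    constructor
    · rintro ⟨⟨n, h1, h2⟩, hex⟩
      classical
      have hf := Nat.find_spec hex
      have hm : n < Nat.find hex := by
        by_contra hc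
        push Not at hc
        have h3 : l ≤ ℓ (X (Nat.find hex)) := h1 _ hc
        omega
      refine ⟨Nat.find hex, ⟨n, hm, h2⟩, hf, fun i hi => ?_⟩
      have := Nat.find_min hex hi
      show l ≤ ℓ (X i)
      omega
    · rintro ⟨n, ⟨m, hm, h2⟩, h3, h4⟩
      exact ⟨⟨m, fun i hi => h4 i (lt_of_le_of_lt hi hm), h2⟩, n, h3⟩
  rw [e]
  refine Q561.dec_iUnion fun n => Q561.dec_of_depOn (n := n) ?_ fun X hX k hk => hX.2.2 k hk
  intro X Y h hX
  obtain ⟨⟨m, hm, h2⟩, h3, h4⟩ := hX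
  exact ⟨⟨m, hm, by rw [← h m hm.le]; exact h2⟩, by rw [← h n le_rfl]; exact h3,
    fun i hi => by rw [← h i hi.le]; exact h4 i hi⟩

lemma detBy_LoFail (l : ℤ) (t : ℕ) : DetBy (exT (Bl ℓ (l + t))) (· ∈ LoFail ℓ l t) := by
  have key : ∀ X Y : Path d, ∀ n : ℕ, Agree n X Y → exT (Bl ℓ (l + t)) X = n →
      X ∈ LoFail ℓ l t → Y ∈ LoFail ℓ l t := by
    rintro X Y n hXY hn ⟨m, h1, h2⟩
    have hmn : m < n := by
      by_contra hc
      push Not at hc
      exact (exT_eq_iff.1 hn).1 (h2 n hc)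
    exact ⟨m, by rw [← hXY m hmn.le]; exact h1, fun i hi => by
      rw [← hXY i (hi.trans hmn.le)]; exact h2 i hi⟩
  intro X Y n hXY hn
  exact propext ⟨key X Y n hXY hn, key Y X n hXY.symm (isStop_exT _ X Y n hXY hn)⟩

/-- first attempt -/
lemma noCut_sub {l : ℤ} {t : ℕ} {X : Path d} (h0 : ℓ (X 0) = l) (hX : X ∈ NoCut ℓ l (2 * t)) :
    X ∈ HiFail ℓ l t ∨ (X ∈ LoFail ℓ l t ∧ (exT (Bl ℓ (l + t)) X ≠ ⊤ →
      shift (exT (Bl ℓ (l + t)) X).toNat X ∈ NoCut ℓ (l + t) t)) := by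
  classical
  have h1 : X ∉ Cut ℓ l := hX l le_rfl (by omega)
  have h2 : exT (Bl ℓ l) X = (0 : ℕ) := exT_eq_iff.2 ⟨fun h => by
    have : ℓ (X 0) < l := h
    omega, fun i hi => absurd hi (Nat.not_lt_zero i)⟩
  have hex : ∃ n, ℓ (X n) < l := by
    by_contra hc
    push Not at hc
    refine h1 ⟨by rw [h2]; exact ENat.natCast_ne_top 0, ?_⟩
    rw [h2, ENat.toNat_natCast]
    intro n
    show l ≤ ℓ (X (0 + n))
    rw [zero_add]; exact hc n
  by_cases hr : ∃ i < Nat.find hex, l + t ≤ ℓ (X i)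
  · left
    obtain ⟨i, hi, h3⟩ := hr
    refine ⟨⟨i, fun j hj => ?_, h3⟩, hex⟩
    have := Nat.find_min hex (lt_of_le_of_lt hj hi)
    show l ≤ ℓ (X j)
    omega
  · right
    push Not at hr
    refine ⟨⟨Nat.find hex, Nat.find_spec hex, fun i hi => ?_⟩, fun hT => ?_⟩
    · rcases hi.lt_or_eq with h | h
      · exact hr i h
      · have := Nat.find_spec hex
        rw [← h] at this
        show ℓ (X i) < l + t
        omega
    · rw [noCut_shift ℓ le_rfl hT]
      intro b hb1 hb2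
      exact hX b (by omega) (by push_cast; omega)

section bound

variable (ν : Measure (Row d)) [IsProbabilityMeasure ν]

/-- **any-past bound** with constant `β` -/
def AP (t : ℕ) (β : ℝ≥0∞) : Prop :=
  ∀ (l : ℤ) (y : Site d), ℓ y = l → ∀ a : Environment d → ℝ≥0∞,
    Measurable[coordSigmaAlgebra (Bl ℓ l)] a →
    ∫⁻ ω, a ω * quenchedLaw ω y (NoCut ℓ l t) ∂(iidEnvironmentLaw ν)
      ≤ β * ∫⁻ ω, a ω ∂(iidEnvironmentLaw ν)

/-- probability of a failed attempt -/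
noncomputable def rr : ℝ≥0∞ := annealedProb (iidEnvironmentLaw ν) 0 (Ntl ℓ 0)ᶜ

/-- probability of a failed attempt of height `≥ t` -/
noncomputable def pi (t : ℕ) : ℝ≥0∞ := annealedProb (iidEnvironmentLaw ν) 0 (HiFail ℓ 0 t)

variable {ℓ} {ν}

lemma coord_meas_top {A : Set (Site d)} {f : Environment d → ℝ≥0∞}
    (hf : Measurable[coordSigmaAlgebra A] f) : Measurable f := hf.mono (Q561.coord_le A) le_rfl

lemma ann_Ntl (y : Site d) :
    annealedProb (iidEnvironmentLaw ν) y (Ntl ℓ (ℓ y))ᶜ = rr ℓ ν := by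
  rw [Q561.annealed_eq_zero_shift (Q561.iid_shift ν) y (measurableSet_Ntl ℓ _).compl]
  unfold rr
  congr 1
  ext X
  simp [Q561.tr, Ntl]

lemma ann_HiFail (y : Site d) (t : ℕ) :
    annealedProb (iidEnvironmentLaw ν) y (HiFail ℓ (ℓ y) t) = pi ℓ ν t := by
  rw [Q561.annealed_eq_zero_shift (Q561.iid_shift ν) y (measurableSet_HiFail ℓ _ t)]
  unfold pi
  congr 1
  ext X
  simp only [Q561.tr, HiFail, Ab, Set.mem_preimage, Set.mem_ofPred_eq, map_add]
  have e1 : ∀ z : Site d, (ℓ y ≤ ℓ z + ℓ y ↔ 0 ≤ ℓ z) := fun z => by constructor <;> intro h <;> omega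
  have e2 : ∀ z : Site d, (ℓ z + ℓ y < ℓ y ↔ ℓ z < 0) := fun z => by constructor <;> intro h <;> omega
  have e3 : ∀ z : Site d, (ℓ y + t ≤ ℓ z + ℓ y ↔ 0 + (t : ℤ) ≤ ℓ z) := fun z => by
    constructor <;> intro h <;> omega
  simp only [e1, e2, e3]

/-- a past weight and an event above level `l` -/
lemma lint_past (l : ℤ) {a : Environment d → ℝ≥0∞}
    (ha : Measurable[coordSigmaAlgebra (Bl ℓ l)] a) (y : Site d) {E : Set (Path d)}
    (hE : MeasurableSet E) (hd : Q561.Dec (Ab ℓ l) E) :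
    ∫⁻ ω, a ω * quenchedLaw ω y E ∂(iidEnvironmentLaw ν)
      = (∫⁻ ω, a ω ∂(iidEnvironmentLaw ν)) * annealedProb (iidEnvironmentLaw ν) y E :=
  lint_mul ν (disj_Bl_Ab ℓ l) ha (Q561.measurable_coord_quenched y hE hd)

/-- every level is reached -/
def Reach (ℓ : Site d →+ ℤ) : Set (Path d) := {X | ∀ l : ℤ, exT (Bl ℓ l) X ≠ ⊤}

lemma measurableSet_Reach : MeasurableSet (Reach ℓ : Set (Path d)) := by
  have : (Reach ℓ : Set (Path d)) = ⋂ l : ℤ, {X | exT (Bl ℓ l) X ≠ ⊤} := by ext X; simp [Reach]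
  rw [this]
  exact MeasurableSet.iInter fun l => (isStop_exT _).measurableSet_ne_top

lemma tr_Reach (y : Site d) : Q561.tr y ⁻¹' (Reach ℓ) = (Reach ℓ : Set (Path d)) := by
  ext X
  have key : ∀ l : ℤ, exT (Bl ℓ l) (Q561.tr y X) = ⊤ ↔ exT (Bl ℓ (l - ℓ y)) X = ⊤ := by
    intro l
    rw [exT_eq_top_iff, exT_eq_top_iff]
    refine forall_congr' fun i => ?_
    show ℓ (X i + y) < l ↔ ℓ (X i) < l - ℓ y
    rw [map_add]
    constructor <;> intro h <;> omega
  constructor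
  · intro h l h2
    have := h (l + ℓ y)
    rw [Ne, key, add_sub_cancel_right] at this
    exact this h2
  · intro h l
    rw [Ne, key]
    exact h _

lemma ae_reach (hR : annealedProb (iidEnvironmentLaw ν) 0 (Reach ℓ) = 1) (y : Site d) :
    ∀ᵐ ω ∂(iidEnvironmentLaw ν), ∀ᵐ X ∂quenchedLaw ω y, X ∈ (Reach ℓ : Set (Path d)) := by
  have h1 : annealedProb (iidEnvironmentLaw ν) y (Reach ℓ) = 1 := by
    rw [Q561.annealed_eq_zero_shift (Q561.iid_shift ν) y measurableSet_Reach, tr_Reach, hR]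
  have hm := measurable_quenched_apply (d := d) y (measurableSet_Reach (ℓ := ℓ))
  have h2 : ∫⁻ ω, quenchedLaw ω y (Reach ℓ)ᶜ ∂(iidEnvironmentLaw ν) = 0 := by
    have h3 : ∀ ω : Environment d, quenchedLaw ω y (Reach ℓ)ᶜ = 1 - quenchedLaw ω y (Reach ℓ) :=
      fun ω => prob_compl_eq_one_sub measurableSet_Reach
    simp only [h3]
    rw [lintegral_sub hm (by unfold annealedProb at h1; rw [h1]; exact ENNReal.one_ne_top)
      (Filter.Eventually.of_forall fun ω => prob_le_one)]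
    unfold annealedProb at h1
    rw [h1]
    simp
  rw [lintegral_eq_zero_iff (measurable_quenched_apply y measurableSet_Reach.compl)] at h2
  filter_upwards [h2] with ω hω
  rw [ae_iff]
  exact hω

/-- **recursion** -/
theorem AP_step (hℓ : ∀ e : Step d, |ℓ (stepVec e)| ≤ 1)
    (hR : annealedProb (iidEnvironmentLaw ν) 0 (Reach ℓ) = 1) {t : ℕ} {β : ℝ≥0∞}
    (h : AP ℓ ν t β) : AP ℓ ν (2 * t) (rr ℓ ν * β + pi ℓ ν t) := by
  intro l y hy a ha
  have hNm := measurableSet_NoCut ℓ (l + t) t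
  set Q := iidEnvironmentLaw ν
  -- pointwise bound
  have hpt : ∀ᵐ ω ∂Q, quenchedLaw ω y (NoCut ℓ l (2 * t))
      ≤ quenchedLaw ω y (HiFail ℓ l t) + ∑' y', quenchedLaw ω y (LoFail ℓ l t ∩
          ExS (Bl ℓ (l + t)) y') * quenchedLaw ω y' (NoCut ℓ (l + t) t) := by
    filter_upwards [ae_reach hR y] with ω hω
    have hF := markF ω (Bl ℓ (l + t)) y (V := LoFail ℓ l t) (detBy_LoFail ℓ l t)
      (measurableSet_LoFail ℓ l t) (F := (NoCut ℓ (l + t) t).indicator 1)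
      (measurable_one.indicator hNm)
    simp only [lintegral_indicator_one hNm] at hF
    rw [← hF]
    have hS : MeasurableSet ({X : Path d | exT (Bl ℓ (l + t)) X ≠ ⊤} ∩ LoFail ℓ l t) :=
      (isStop_exT _).measurableSet_ne_top.inter (measurableSet_LoFail ℓ l t)
    have hB := (measurable_shiftT (Bl ℓ (l + t))) hNm
    have e1 : ∫⁻ X in {X | exT (Bl ℓ (l + t)) X ≠ ⊤} ∩ LoFail ℓ l t,
        (NoCut ℓ (l + t) t).indicator 1 (shift (exT (Bl ℓ (l + t)) X).toNat X) ∂quenchedLaw ω y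
        = quenchedLaw ω y (((fun X : Path d => shift (exT (Bl ℓ (l + t)) X).toNat X) ⁻¹'
            NoCut ℓ (l + t) t) ∩ ({X | exT (Bl ℓ (l + t)) X ≠ ⊤} ∩ LoFail ℓ l t)) := by
      rw [← Measure.restrict_apply hB, ← lintegral_indicator_one hB]
      rfl
    rw [e1]
    refine le_trans ?_ (measure_union_le _ _)
    refine measure_mono_ae ?_
    filter_upwards [hω, quenched_zero_eq ω y] with X hX h0 hXN
    rcases noCut_sub ℓ (t := t) (by rw [h0, hy]) hXN with h1 | ⟨h1, h2⟩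
    · exact Or.inl h1
    · exact Or.inr ⟨h2 (hX _), hX _, h1⟩
  have hm1 : Measurable fun ω : Environment d => a ω * quenchedLaw ω y (HiFail ℓ l t) :=
    (coord_meas_top ha).mul (measurable_quenched_apply y (measurableSet_HiFail ℓ l t))
  have hLm : ∀ y', Measurable[coordSigmaAlgebra (Bl ℓ (l + t))] fun ω : Environment d =>
      a ω * quenchedLaw ω y (LoFail ℓ l t ∩ ExS (Bl ℓ (l + t)) y') := fun y' =>
    (ha.mono (coord_mono (Bl_mono ℓ (by omega))) le_rfl).mul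
      (meas_past (detBy_LoFail ℓ l t) (measurableSet_LoFail ℓ l t) y y')
  calc ∫⁻ ω, a ω * quenchedLaw ω y (NoCut ℓ l (2 * t)) ∂Q
      ≤ ∫⁻ ω, (a ω * quenchedLaw ω y (HiFail ℓ l t) + ∑' y', a ω * quenchedLaw ω y
          (LoFail ℓ l t ∩ ExS (Bl ℓ (l + t)) y') * quenchedLaw ω y' (NoCut ℓ (l + t) t)) ∂Q := by
        refine lintegral_mono_ae ?_
        filter_upwards [hpt] with ω hω
        refine (mul_le_mul' le_rfl hω : a ω * _ ≤ a ω * _).trans ?_
        rw [mul_add, ← ENNReal.tsum_mul_left]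
        simp only [mul_assoc]
        exact le_rfl
    _ = ∫⁻ ω, a ω * quenchedLaw ω y (HiFail ℓ l t) ∂Q + ∑' y', ∫⁻ ω, a ω * quenchedLaw ω y
          (LoFail ℓ l t ∩ ExS (Bl ℓ (l + t)) y') * quenchedLaw ω y' (NoCut ℓ (l + t) t) ∂Q := by
        rw [lintegral_add_left hm1, lintegral_tsum]
        intro y'
        exact ((coord_meas_top (hLm y')).mul (measurable_quenched_apply y' hNm)).aemeasurable
    _ ≤ (∫⁻ ω, a ω ∂Q) * pi ℓ ν t + ∑' y', β * ∫⁻ ω, a ω * quenchedLaw ω y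
          (LoFail ℓ l t ∩ ExS (Bl ℓ (l + t)) y') ∂Q := by
        refine add_le_add ?_ (ENNReal.tsum_le_tsum fun y' => ?_)
        · rw [lint_past l ha y (measurableSet_HiFail ℓ l t) (dec_HiFail ℓ l t), ← hy,
            ann_HiFail]
        · by_cases hy' : ℓ y' = l + t
          · exact h (l + t) y' hy' _ (hLm y')
          · have hz : ∀ ω : Environment d, quenchedLaw ω y (LoFail ℓ l t ∩
                ExS (Bl ℓ (l + t)) y') = 0 := fun ω =>
              past_zero ℓ hℓ ω (by rw [hy]; omega) hy' _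
            simp [hz]
    _ = (∫⁻ ω, a ω ∂Q) * pi ℓ ν t + β * ∫⁻ ω, a ω * quenchedLaw ω y
          (LoFail ℓ l t ∩ {X | exT (Bl ℓ (l + t)) X ≠ ⊤}) ∂Q := by
        rw [ENNReal.tsum_mul_left, ← lintegral_tsum fun y' => (coord_meas_top (hLm y')).aemeasurable]
        congr 2
        refine lintegral_congr fun ω => ?_
        rw [ENNReal.tsum_mul_left]
        congr 1
        have e3 : LoFail ℓ l t ∩ {X : Path d | exT (Bl ℓ (l + t)) X ≠ ⊤}
            = ⋃ y', LoFail ℓ l t ∩ ExS (Bl ℓ (l + t)) y' := by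
          rw [← Set.inter_iUnion]
          congr 1
          ext X
          rw [Set.mem_iUnion]
          constructor
          · intro h; exact ⟨_, mem_ExS_iff.2 ⟨h, rfl⟩⟩
          · rintro ⟨y, hy⟩; exact (mem_ExS_iff.1 hy).1
        rw [e3, measure_iUnion]
        · intro y1 y2 h12
          exact (ExS_disjoint _ h12).mono Set.inter_subset_right Set.inter_subset_right
        · intro y1
          exact (measurableSet_LoFail ℓ l t).inter (measurableSet_ExS _ _)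
    _ ≤ (∫⁻ ω, a ω ∂Q) * pi ℓ ν t + β * ((∫⁻ ω, a ω ∂Q) * rr ℓ ν) := by
        gcongr
        have h4 : ∫⁻ ω, a ω * quenchedLaw ω y (Ntl ℓ l)ᶜ ∂Q = (∫⁻ ω, a ω ∂Q) * rr ℓ ν := by
          rw [lint_past l ha y (measurableSet_Ntl ℓ l).compl (dec_Ntl ℓ l).compl, ← hy, ann_Ntl]
        rw [← h4]
        refine lintegral_mono fun ω => ?_
        refine mul_le_mul' le_rfl (measure_mono ?_)
        rintro X ⟨⟨n, hn, -⟩, -⟩ hX
        have := hX n
        omega
    _ = (rr ℓ ν * β + pi ℓ ν t) * ∫⁻ ω, a ω ∂Q := by ring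

lemma AP_mono {t t' : ℕ} {β β' : ℝ≥0∞} (ht : t ≤ t') (hβ : β ≤ β') (h : AP ℓ ν t β) :
    AP ℓ ν t' β' := by
  intro l y hy a ha
  refine le_trans (lintegral_mono fun ω => ?_) ((h l y hy a ha).trans (by gcongr))
  exact mul_le_mul' le_rfl (measure_mono (NoCut_anti ℓ ht))

lemma AP_one (t : ℕ) : AP ℓ ν t 1 := by
  intro l y hy a ha
  rw [one_mul]
  refine lintegral_mono fun ω => ?_
  exact (mul_le_mul' le_rfl prob_le_one).trans (by rw [mul_one])

lemma pi_anti : Antitone (pi ℓ ν) := by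
  intro t t' h
  refine lintegral_mono fun ω => measure_mono ?_
  rintro X ⟨⟨n, h1, h2⟩, h3⟩
  exact ⟨⟨n, h1, by have : (t : ℤ) ≤ t' := by exact_mod_cast h
                    omega⟩, h3⟩

lemma pi_tendsto : Filter.Tendsto (pi ℓ ν) Filter.atTop (nhds 0) := by
  have e : ∀ t, pi ℓ ν t = annealed (iidEnvironmentLaw ν) 0 (HiFail ℓ 0 t) := fun t => by
    rw [annealed_apply _ _ (measurableSet_HiFail ℓ 0 t)]; rfl
  have hanti : Antitone fun t : ℕ => HiFail ℓ (0 : ℤ) t := by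
    intro t t' h
    rintro X ⟨⟨n, h1, h2⟩, h3⟩
    exact ⟨⟨n, h1, by have : (t : ℤ) ≤ t' := by exact_mod_cast h
                      omega⟩, h3⟩
  have hint : ⋂ t : ℕ, HiFail ℓ (0 : ℤ) t = ∅ := by
    rw [Set.eq_empty_iff_forall_notMem]
    intro X hX
    rw [Set.mem_iInter] at hX
    obtain ⟨_, m, hm⟩ := hX 0
    -- all levels reached before time `m` are bounded
    have hb : ∃ t : ℕ, ∀ i ≤ m, ℓ (X i) < t := by
      refine ⟨(∑ i ∈ Finset.range (m + 1), (ℓ (X i)).toNat) + 1, fun i hi => ?_⟩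
      have h1 : (ℓ (X i)).toNat ≤ ∑ i ∈ Finset.range (m + 1), (ℓ (X i)).toNat :=
        Finset.single_le_sum (f := fun i => (ℓ (X i)).toNat) (fun _ _ => Nat.zero_le _)
          (Finset.mem_range.2 (by omega))
      have h2 := Int.self_le_toNat (ℓ (X i))
      push_cast
      have h3 : ((ℓ (X i)).toNat : ℤ) ≤ ((∑ i ∈ Finset.range (m + 1), (ℓ (X i)).toNat : ℕ) : ℤ) := by
        exact_mod_cast h1
      push_cast at h3
      omega
    obtain ⟨t, ht⟩ := hb
    obtain ⟨⟨n, h1, h2⟩, _⟩ := hX t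
    rcases le_or_gt n m with h | h
    · have := ht n h
      omega
    · have h3 : 0 ≤ ℓ (X m) := h1 m h.le
      omega
  have h := tendsto_measure_iInter_atTop (μ := annealed (iidEnvironmentLaw ν) 0)
    (fun t => (measurableSet_HiFail ℓ 0 t).nullMeasurableSet) hanti
    ⟨0, measure_ne_top _ _⟩
  rw [hint, measure_empty] at h
  exact h.congr fun t => (e t).symm

lemma rr_lt_one (hp : annealedProb (iidEnvironmentLaw ν) 0 (Ntl ℓ 0) ≠ 0) : rr ℓ ν < 1 := by
  unfold rr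
  rw [← annealed_apply _ _ (measurableSet_Ntl ℓ 0).compl,
    prob_compl_eq_one_sub (measurableSet_Ntl ℓ 0), annealed_apply _ _ (measurableSet_Ntl ℓ 0)]
  exact ENNReal.sub_lt_self ENNReal.one_ne_top one_ne_zero hp

/-- **the any-past bound tends to zero** -/
theorem anyPast (hℓ : ∀ e : Step d, |ℓ (stepVec e)| ≤ 1)
    (hR : annealedProb (iidEnvironmentLaw ν) 0 (Reach ℓ) = 1)
    (hp : annealedProb (iidEnvironmentLaw ν) 0 (Ntl ℓ 0) ≠ 0) {ε : ℝ≥0∞} (hε : ε ≠ 0) :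
    ∃ t0, ∀ t, t0 ≤ t → AP ℓ ν t ε := by
  set r := rr ℓ ν with hr
  have hr1 : r < 1 := rr_lt_one hp
  have h1r : 1 - r ≠ 0 := (tsub_pos_of_lt hr1).ne'
  have h1r' : 1 - r ≠ ⊤ := ENNReal.sub_ne_top ENNReal.one_ne_top
  by_cases hεt : ε = ⊤
  · subst hεt
    exact ⟨0, fun t _ => AP_mono (zero_le) le_top (AP_one 0)⟩
  have hδ : ε / 2 * (1 - r) ≠ 0 := mul_ne_zero (ENNReal.div_ne_zero.2 ⟨hε, ENNReal.ofNat_ne_top⟩) h1r
  obtain ⟨t1, ht1⟩ := Filter.eventually_atTop.1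
    ((ENNReal.tendsto_nhds_zero.1 (pi_tendsto (ℓ := ℓ) (ν := ν))) _ (pos_iff_ne_zero.2 hδ))
  obtain ⟨m, hm⟩ := Filter.eventually_atTop.1
    ((ENNReal.tendsto_nhds_zero.1 (ENNReal.tendsto_pow_atTop_nhds_zero_of_lt_one hr1)) (ε / 2)
      (pos_iff_ne_zero.2 (ENNReal.div_ne_zero.2 ⟨hε, ENNReal.ofNat_ne_top⟩)))
  have key : ∀ k : ℕ, AP ℓ ν (2 ^ k * t1) (r ^ k + (ε / 2 * (1 - r)) * ∑ i ∈ Finset.range k, r ^ i) := by
    intro k
    induction k with
    | zero => simpa using AP_mono le_rfl le_rfl (AP_one (ℓ := ℓ) (ν := ν) t1)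
    | succ k ih =>
      have h2 := AP_step hℓ hR ih
      have e : 2 * (2 ^ k * t1) = 2 ^ (k + 1) * t1 := by ring
      rw [e] at h2
      refine AP_mono le_rfl ?_ h2
      have h3 : pi ℓ ν (2 ^ k * t1) ≤ ε / 2 * (1 - r) :=
        (ht1 _ (Nat.le_mul_of_pos_left t1 (pow_pos (by norm_num) k)))
      rw [Finset.sum_range_succ']
      calc rr ℓ ν * (r ^ k + ε / 2 * (1 - r) * ∑ i ∈ Finset.range k, r ^ i) + pi ℓ ν (2 ^ k * t1)
          ≤ r * (r ^ k + ε / 2 * (1 - r) * ∑ i ∈ Finset.range k, r ^ i) + ε / 2 * (1 - r) := by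
            gcongr
        _ = r ^ (k + 1) + ε / 2 * (1 - r) * (∑ i ∈ Finset.range k, r ^ (i + 1) + r ^ 0) := by
            simp only [pow_succ, ← Finset.sum_mul, pow_zero]
            ring
  refine ⟨2 ^ m * t1, fun t ht => AP_mono ht ?_ (key m)⟩
  have h4 : ∑ i ∈ Finset.range m, r ^ i ≤ (1 - r)⁻¹ := by
    rw [← ENNReal.tsum_geometric]
    exact ENNReal.sum_le_tsum _
  calc r ^ m + ε / 2 * (1 - r) * ∑ i ∈ Finset.range m, r ^ i
      ≤ ε / 2 + ε / 2 * (1 - r) * (1 - r)⁻¹ := by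
        gcongr
        exact hm m le_rfl
    _ = ε := by
        rw [mul_assoc, ENNReal.mul_inv_cancel h1r h1r', mul_one, ENNReal.add_halves]

end bound

end Crest.Agent.R154.Phi215
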