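import Crest.Agent.R154.PhiB_215

/-!
# Row 154, helper215: (V1) of D2/VARG, part C — decomposition at the first cut level

* `An ν y F` : annealed expectation of a path functional;
* `FC l i` : the first cut level `≥ l` is `l + i`;
* `first_cut` : `∫ a(ω) E_ω^y F ≤ (H / p) ∫ a + Σ_{i ≤ t} ∫ a(ω) E_ω^y err_i + β ∫ a`
  for every weight `a` which reads rows below the level of `y`;
* `tight` : `∫ min(1, ε |σ x_{m+i} - σ x_m|)` is small uniformly in `m`.
-/

set_option autoImplicit false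
set_option linter.unusedVariables false
set_option linter.unusedSectionVars false

namespace Crest.Agent.R154.Phi215

open MeasureTheory ProbabilityTheory Crest.ProbabilityR.RandomEnvironment Crest.Agent.R154
open Crest.Agent.R154.ExK9
open scoped ENNReal

variable {d : ℕ}

/-- annealed expectation of a functional -/
noncomputable def An (ν : Measure (Row d)) [IsProbabilityMeasure ν] (y : Site d)
    (F : Path d → ℝ≥0∞) : ℝ≥0∞ :=
  ∫⁻ ω, ∫⁻ X, F X ∂quenchedLaw ω y ∂(iidEnvironmentLaw ν)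

lemma meas_qlint {F : Path d → ℝ≥0∞} (hF : Measurable F) (y : Site d) :
    Measurable fun ω : Environment d => ∫⁻ X, F X ∂quenchedLaw ω y :=
  hF.lintegral_kernel (κ := Q561.qK y)

section an
variable (ν : Measure (Row d)) [IsProbabilityMeasure ν]

lemma An_shift {F : Path d → ℝ≥0∞} (hF : Measurable F) (x z : Site d) :
    An ν (x + z) F = An ν x (fun X => F (Q561.tr z X)) := by
  unfold An
  have e : ∀ ω : Environment d, ∫⁻ X, F X ∂quenchedLaw ω (x + z)
      = ∫⁻ X, F (Q561.tr z X) ∂quenchedLaw (shiftEnv z ω) x := by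
    intro ω
    rw [← Q561.quenched_shift, lintegral_map hF (Q561.measurable_tr z)]
  simp only [e]
  exact (Q561.iid_shift ν z).lintegral_comp (meas_qlint (hF.comp (Q561.measurable_tr z)) x)

lemma An_zero {F : Path d → ℝ≥0∞} (hF : Measurable F) (y : Site d) :
    An ν y F = An ν 0 (fun X => F (Q561.tr y X)) := by
  have := An_shift ν hF 0 y
  rwa [zero_add] at this

lemma An_mono {F G : Path d → ℝ≥0∞} {y : Site d} (h : ∀ X, F X ≤ G X) : An ν y F ≤ An ν y G :=
  lintegral_mono fun ω => lintegral_mono h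

lemma An_mono_start {F G : Path d → ℝ≥0∞} {y : Site d} (h : ∀ X, X 0 = y → F X ≤ G X) :
    An ν y F ≤ An ν y G := by
  refine lintegral_mono fun ω => lintegral_mono_ae ?_
  filter_upwards [quenched_zero_eq ω y] with X h0 using h X h0

lemma An_le_one {F : Path d → ℝ≥0∞} {y : Site d} (h : ∀ X, F X ≤ 1) : An ν y F ≤ 1 := by
  have h1 : An ν y F ≤ ∫⁻ _ω : Environment d, 1 ∂(iidEnvironmentLaw ν) :=
    lintegral_mono fun ω => (lintegral_mono h).trans (by simp)
  exact h1.trans (by simp)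

end an

/-! ### first cut level -/

variable (ℓ : Site d →+ ℤ)

/-- no cut level in `[l, l+i)`, seen at the first hit of level `l+i` -/
def Vv (l : ℤ) (i : ℕ) : Set (Path d) :=
  {X | ∀ k : ℕ, k < i → ∃ n, (∀ m ≤ n, X m ∈ Bl ℓ (l + i)) ∧ ℓ (X n) < l + k ∧
    ∃ m ≤ n, l + k ≤ ℓ (X m)}

/-- the first cut level `≥ l` is `l + i` -/
def FC (l : ℤ) (i : ℕ) : Set (Path d) :=
  {X | X ∈ Cut ℓ (l + i) ∧ ∀ k : ℕ, k < i → X ∉ Cut ℓ (l + k)}

lemma measurableSet_FC (l : ℤ) (i : ℕ) : MeasurableSet (FC ℓ l i) := by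
  have e : FC ℓ l i = Cut ℓ (l + i) ∩ ⋂ k : ℕ, {X : Path d | k < i → X ∉ Cut ℓ (l + k)} := by
    ext X; simp [FC]
  rw [e]
  refine (measurableSet_Cut ℓ _).inter (MeasurableSet.iInter fun k => ?_)
  by_cases hk : k < i
  · have : {X : Path d | k < i → X ∉ Cut ℓ (l + k)} = (Cut ℓ (l + k))ᶜ := by ext X; simp [hk]
    rw [this]; exact (measurableSet_Cut ℓ _).compl
  · have : {X : Path d | k < i → X ∉ Cut ℓ (l + k)} = Set.univ := by ext X; simp [hk]
    rw [this]; exact MeasurableSet.univ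

lemma measurableSet_Vv (l : ℤ) (i : ℕ) : MeasurableSet (Vv ℓ l i) := by
  have e : Vv ℓ l i = ⋂ k : ℕ, {X : Path d | k < i → ∃ n, (∀ m ≤ n, X m ∈ Bl ℓ (l + i)) ∧
      ℓ (X n) < l + k ∧ ∃ m ≤ n, l + k ≤ ℓ (X m)} := by
    ext X; simp [Vv]
  rw [e]
  refine MeasurableSet.iInter fun k => ?_
  by_cases hk : k < i
  · have : {X : Path d | k < i → ∃ n, (∀ m ≤ n, X m ∈ Bl ℓ (l + i)) ∧
      ℓ (X n) < l + k ∧ ∃ m ≤ n, l + k ≤ ℓ (X m)} = ⋃ n : ℕ, {X : Path d |
        (∀ m ≤ n, X m ∈ Bl ℓ (l + i)) ∧ ℓ (X n) < l + k ∧ ∃ m ≤ n, l + k ≤ ℓ (X m)} := by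
      ext X; simp [hk]
    rw [this]
    refine MeasurableSet.iUnion fun n => measurableSet_of_agree n _ fun X Y h => ?_
    simp only [Set.mem_ofPred_eq, h n le_rfl]
    constructor
    · rintro ⟨h1, h2, m, hm, h3⟩
      exact ⟨fun j hj => by rw [← h j hj]; exact h1 j hj, h2, m, hm, by rw [← h m hm]; exact h3⟩
    · rintro ⟨h1, h2, m, hm, h3⟩
      exact ⟨fun j hj => by rw [h j hj]; exact h1 j hj, h2, m, hm, by rw [h m hm]; exact h3⟩
  · have : {X : Path d | k < i → ∃ n, (∀ m ≤ n, X m ∈ Bl ℓ (l + i)) ∧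
      ℓ (X n) < l + k ∧ ∃ m ≤ n, l + k ≤ ℓ (X m)} = Set.univ := by ext X; simp [hk]
    rw [this]; exact MeasurableSet.univ

lemma detBy_Vv (l : ℤ) (i : ℕ) : DetBy (exT (Bl ℓ (l + i))) (· ∈ Vv ℓ l i) := by
  have key : ∀ X Y : Path d, ∀ n : ℕ, Agree n X Y → exT (Bl ℓ (l + i)) X = n →
      X ∈ Vv ℓ l i → Y ∈ Vv ℓ l i := by
    intro X Y n hXY hn hX k hk
    obtain ⟨m, h1, h2, j, hj, h3⟩ := hX k hk
    have hmn : m < n := by
      by_contra hc
      push Not at hc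
      exact (exT_eq_iff.1 hn).1 (h1 n hc)
    exact ⟨m, fun j hj => by rw [← hXY j (hj.trans hmn.le)]; exact h1 j hj,
      by rw [← hXY m hmn.le]; exact h2, j, hj, by rw [← hXY j (hj.trans hmn.le)]; exact h3⟩
  intro X Y n hXY hn
  exact propext ⟨key X Y n hXY hn, key Y X n hXY.symm (isStop_exT _ X Y n hXY hn)⟩

lemma FC_eq (l : ℤ) (i : ℕ) : FC ℓ l i = ({X | exT (Bl ℓ (l + i)) X ≠ ⊤} ∩ Vv ℓ l i) ∩
    (fun X : Path d => shift (exT (Bl ℓ (l + i)) X).toNat X) ⁻¹' Ntl ℓ (l + i) := by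
  ext X
  constructor
  · rintro ⟨⟨h1, h2⟩, h3⟩
    refine ⟨⟨h1, fun k hk => ?_⟩, h2⟩
    have hk' : (l + k : ℤ) ≤ l + i := by have : (k : ℤ) < i := by exact_mod_cast hk
                                         omega
    have h4 := exT_ne_top_mono (Bl_mono ℓ hk') h1
    obtain ⟨N, hN⟩ := ENat.ne_top_iff_exists.1 h1
    obtain ⟨M, hM⟩ := ENat.ne_top_iff_exists.1 h4
    have h5 := h3 k hk
    have h6 : shift M X ∉ Ntl ℓ (l + k) := by
      intro hc
      exact h5 ⟨h4, by rw [← hM, ENat.toNat_natCast]; exact hc⟩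
    rw [← hN, ENat.toNat_natCast] at h2
    have h7 : ∃ j, ℓ (X (M + j)) < l + k := by
      by_contra hc
      push Not at hc
      exact h6 fun j => hc j
    obtain ⟨j, hj⟩ := h7
    have h8 : M + j < N := by
      by_contra hc
      push Not at hc
      have := h2 (M + j - N)
      have h9 : l + i ≤ ℓ (X (N + (M + j - N))) := this
      rw [Nat.add_sub_cancel' hc] at h9
      omega
    refine ⟨M + j, fun m hm => (exT_eq_iff.1 hN.symm).2 m (by omega), hj, M, by omega, ?_⟩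
    have := (exT_eq_iff.1 hM.symm).1
    exact not_lt.1 this
  · rintro ⟨⟨h1, h3⟩, h2⟩
    refine ⟨⟨h1, h2⟩, fun k hk hc => ?_⟩
    obtain ⟨h4, h5⟩ := hc
    obtain ⟨M, hM⟩ := ENat.ne_top_iff_exists.1 h4
    rw [← hM, ENat.toNat_natCast] at h5
    obtain ⟨n, -, h6, m, hm, h7⟩ := h3 k hk
    have h8 : M ≤ m := by
      by_contra hc
      push Not at hc
      have : ℓ (X m) < l + k := (exT_eq_iff.1 hM.symm).2 m hc
      omega
    have h9 := h5 (n - M)
    have h10 : l + k ≤ ℓ (X (M + (n - M))) := h9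
    rw [Nat.add_sub_cancel' (by omega)] at h10
    omega

variable {ℓ}

/-- functional form of the first cut decomposition, quenched -/
lemma FC_quenched (ω : Environment d) (l : ℤ) (i : ℕ) (y : Site d) {G : Path d → ℝ≥0∞}
    (hG : Measurable G) :
    ∫⁻ X in FC ℓ l i, G (shift (exT (Bl ℓ (l + i)) X).toNat X) ∂quenchedLaw ω y
      = ∑' y', quenchedLaw ω y (Vv ℓ l i ∩ ExS (Bl ℓ (l + i)) y') *
          ∫⁻ X in Ntl ℓ (l + i), G X ∂quenchedLaw ω y' := by
  have hN := measurableSet_Ntl ℓ (l + i)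
  have h := markF ω (Bl ℓ (l + i)) y (detBy_Vv ℓ l i) (measurableSet_Vv ℓ l i)
    (F := (Ntl ℓ (l + i)).indicator G) (hG.indicator hN)
  simp only [lintegral_indicator hN] at h
  rw [← h, FC_eq]
  have hpre := (measurable_shiftT (Bl ℓ (l + i))) hN
  rw [Set.inter_comm, ← Measure.restrict_restrict hpre, ← lintegral_indicator hpre]
  rfl

lemma coordAb_Ntl (b : ℤ) (y' : Site d) {G : Path d → ℝ≥0∞} (hG : Measurable G) :
    Measurable[coordSigmaAlgebra (Ab ℓ b)] fun ω : Environment d =>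
      ∫⁻ X in Ntl ℓ b, G X ∂quenchedLaw ω y' := by
  have hN := measurableSet_Ntl ℓ b
  have e : (fun ω : Environment d => ∫⁻ X in Ntl ℓ b, G X ∂quenchedLaw ω y')
      = fun ω => ∫⁻ X, (Ntl ℓ b).indicator G X ∂quenchedLaw ω y' := by
    funext ω
    rw [lintegral_indicator hN]
  rw [e]
  refine Q561.measurable_coord (meas_qlint (hG.indicator hN) y') fun ω ω' h =>
    Q561.quenched_lintegral_congr h y' (hG.indicator hN) fun X => ?_
  by_cases hX : X ∈ Ntl ℓ b
  · rw [Q561.stopAt_of_forall fun k => hX k]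
  · have h1 : Q561.stopAt (Ab ℓ b) X ∉ Ntl ℓ b := by
      intro hc
      have h2 : X ∈ Q561.stopAt (Ab ℓ b) ⁻¹' Ntl ℓ b := hc
      rw [dec_Ntl ℓ b] at h2
      exact hX h2
    rw [Set.indicator_of_notMem hX, Set.indicator_of_notMem h1]

section key
variable {ν : Measure (Row d)} [IsProbabilityMeasure ν]

/-- functional form of the first cut decomposition, averaged with a past weight -/
lemma FC_ann {l : ℤ} {y : Site d} {a : Environment d → ℝ≥0∞}
    (ha : Measurable[coordSigmaAlgebra (Bl ℓ l)] a) (i : ℕ) {G : Path d → ℝ≥0∞}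
    (hG : Measurable G) :
    ∫⁻ ω, a ω * ∫⁻ X in FC ℓ l i, G (shift (exT (Bl ℓ (l + i)) X).toNat X) ∂quenchedLaw ω y
        ∂(iidEnvironmentLaw ν)
      = ∑' y', (∫⁻ ω, a ω * quenchedLaw ω y (Vv ℓ l i ∩ ExS (Bl ℓ (l + i)) y')
          ∂(iidEnvironmentLaw ν)) *
          ∫⁻ ω, ∫⁻ X in Ntl ℓ (l + i), G X ∂quenchedLaw ω y' ∂(iidEnvironmentLaw ν) := by
  have hLm : ∀ y', Measurable[coordSigmaAlgebra (Bl ℓ (l + i))] fun ω : Environment d =>
      a ω * quenchedLaw ω y (Vv ℓ l i ∩ ExS (Bl ℓ (l + i)) y') := fun y' =>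
    (ha.mono (coord_mono (Bl_mono ℓ (by omega))) le_rfl).mul
      (meas_past (detBy_Vv ℓ l i) (measurableSet_Vv ℓ l i) y y')
  calc ∫⁻ ω, a ω * ∫⁻ X in FC ℓ l i, G (shift (exT (Bl ℓ (l + i)) X).toNat X) ∂quenchedLaw ω y
        ∂(iidEnvironmentLaw ν)
      = ∫⁻ ω, ∑' y', (a ω * quenchedLaw ω y (Vv ℓ l i ∩ ExS (Bl ℓ (l + i)) y')) *
          ∫⁻ X in Ntl ℓ (l + i), G X ∂quenchedLaw ω y' ∂(iidEnvironmentLaw ν) := by
        refine lintegral_congr fun ω => ?_
        rw [FC_quenched ω l i y hG, ← ENNReal.tsum_mul_left]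
        simp only [mul_assoc]
    _ = ∑' y', ∫⁻ ω, (a ω * quenchedLaw ω y (Vv ℓ l i ∩ ExS (Bl ℓ (l + i)) y')) *
          ∫⁻ X in Ntl ℓ (l + i), G X ∂quenchedLaw ω y' ∂(iidEnvironmentLaw ν) := by
        refine lintegral_tsum fun y' => ?_
        exact ((coord_meas_top (hLm y')).mul
          (coord_meas_top (coordAb_Ntl (l + i) y' hG))).aemeasurable
    _ = _ := by
        refine tsum_congr fun y' => ?_
        exact lint_mul ν (disj_Bl_Ab ℓ (l + i)) (hLm y') (coordAb_Ntl (l + i) y' hG)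

/-- probability of never going below the start -/
noncomputable def pN (ℓ : Site d →+ ℤ) (ν : Measure (Row d)) [IsProbabilityMeasure ν] : ℝ≥0∞ :=
  annealedProb (iidEnvironmentLaw ν) 0 (Ntl ℓ 0)

lemma ann_Ntl' (y : Site d) {b : ℤ} (hb : ℓ y = b) :
    ∫⁻ ω, quenchedLaw ω y (Ntl ℓ b) ∂(iidEnvironmentLaw ν) = pN ℓ ν := by
  have h := Q561.annealed_eq_zero_shift (Q561.iid_shift ν) y (measurableSet_Ntl ℓ b)
  unfold annealedProb at h
  rw [h]
  unfold pN annealedProb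
  refine lintegral_congr fun ω => ?_
  congr 1
  ext X
  simp [Q561.tr, Ntl, ← hb]

/-- total weight of the first cut decomposition -/
lemma FC_mass (hℓ : ∀ e : Step d, |ℓ (stepVec e)| ≤ 1) {l : ℤ} {y : Site d} (hy : ℓ y = l)
    {a : Environment d → ℝ≥0∞} (ha : Measurable[coordSigmaAlgebra (Bl ℓ l)] a) (t : ℕ) :
    (∑ i ∈ Finset.range (t + 1), ∑' y', ∫⁻ ω, a ω * quenchedLaw ω y
      (Vv ℓ l i ∩ ExS (Bl ℓ (l + i)) y') ∂(iidEnvironmentLaw ν)) * pN ℓ ν
      ≤ ∫⁻ ω, a ω ∂(iidEnvironmentLaw ν) := by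
  have h : ∀ i : ℕ, (∑' y', ∫⁻ ω, a ω * quenchedLaw ω y
      (Vv ℓ l i ∩ ExS (Bl ℓ (l + i)) y') ∂(iidEnvironmentLaw ν)) * pN ℓ ν
      = ∫⁻ ω, a ω * quenchedLaw ω y (FC ℓ l i) ∂(iidEnvironmentLaw ν) := by
    intro i
    have h1 := FC_ann (ν := ν) (y := y) ha i (G := fun _ => 1) measurable_const
    simp only [lintegral_one, Measure.restrict_apply MeasurableSet.univ, Set.univ_inter] at h1
    rw [h1, ← ENNReal.tsum_mul_right]
    refine tsum_congr fun y' => ?_
    by_cases hy' : ℓ y' = l + i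
    · rw [ann_Ntl' y' hy']
    · have hz : ∀ ω : Environment d, quenchedLaw ω y (Vv ℓ l i ∩
          ExS (Bl ℓ (l + i)) y') = 0 := fun ω => past_zero ℓ hℓ ω (by rw [hy]; omega) hy' _
      simp [hz]
  rw [Finset.sum_mul]
  simp only [h]
  rw [← lintegral_finsetSum]
  · refine lintegral_mono fun ω => ?_
    rw [← Finset.mul_sum]
    refine (mul_le_mul' le_rfl (?_ : _ ≤ (1 : ℝ≥0∞))).trans (by rw [mul_one])
    rw [← measure_biUnion_finset]
    · exact prob_le_one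
    · intro i _ j _ hij
      refine Set.disjoint_left.2 fun X hi hj => ?_
      rcases lt_or_gt_of_ne hij with h | h
      · exact hj.2 i h hi.1
      · exact hi.2 j h hj.1
    · intro i _
      exact measurableSet_FC ℓ l i
  · intro i _
    exact (coord_meas_top ha).mul (Q561.measurable_quenched_apply y (measurableSet_FC ℓ l i))

/-- nearest neighbour paths -/
def NN (X : Path d) : Prop := ∀ n, ∃ e : Step d, X (n + 1) = X n + stepVec e

/-- **decomposition at the first cut level** (nearest neighbour paths) -/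
theorem first_cut_nn (hℓ : ∀ e : Step d, |ℓ (stepVec e)| ≤ 1)
    (hR : annealedProb (iidEnvironmentLaw ν) 0 (Reach ℓ) = 1) (hp : pN ℓ ν ≠ 0)
    {t : ℕ} {β : ℝ≥0∞} (hAP : AP ℓ ν t β) {l : ℤ} {y : Site d} (hy : ℓ y = l)
    {a : Environment d → ℝ≥0∞} (ha : Measurable[coordSigmaAlgebra (Bl ℓ l)] a)
    {F : Path d → ℝ≥0∞} (hF : Measurable F) (hF1 : ∀ X, F X ≤ 1)
    {G err : ℕ → Path d → ℝ≥0∞} (hG : ∀ i, Measurable (G i)) (herr : ∀ i, Measurable (err i))
    (hle : ∀ i ≤ t, ∀ X, X ∈ Reach ℓ → NN X → X 0 = y → X ∈ Cut ℓ (l + i) →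
      F X ≤ G i (shift (exT (Bl ℓ (l + i)) X).toNat X) + err i X)
    {H : ℝ≥0∞} (hH : ∀ i ≤ t, ∀ y', ℓ y' = l + i →
      ∫⁻ ω, ∫⁻ X in Ntl ℓ (l + i), G i X ∂quenchedLaw ω y' ∂(iidEnvironmentLaw ν) ≤ H) :
    ∫⁻ ω, a ω * ∫⁻ X, F X ∂quenchedLaw ω y ∂(iidEnvironmentLaw ν)
      ≤ (H / pN ℓ ν) * ∫⁻ ω, a ω ∂(iidEnvironmentLaw ν)
        + ∑ i ∈ Finset.range (t + 1), ∫⁻ ω, a ω * ∫⁻ X, err i X ∂quenchedLaw ω y
            ∂(iidEnvironmentLaw ν)
        + β * ∫⁻ ω, a ω ∂(iidEnvironmentLaw ν) := by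
  classical
  set Q := iidEnvironmentLaw ν
  set p := pN ℓ ν with hpdef
  have hpt : p ≠ ⊤ := ne_top_of_le_ne_top ENNReal.one_ne_top (by
    rw [hpdef]; unfold pN annealedProb
    exact (lintegral_mono fun ω => prob_le_one).trans (by simp))
  have hGi : ∀ i, Measurable fun X : Path d => G i (shift (exT (Bl ℓ (l + i)) X).toNat X) :=
    fun i => (hG i).comp (measurable_shiftT _)
  -- pointwise bound
  have hpw : ∀ X : Path d, X ∈ Reach ℓ → NN X → X 0 = y → F X ≤ (NoCut ℓ l t).indicator 1 X +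
      (∑ i ∈ Finset.range (t + 1), (FC ℓ l i).indicator
        (fun X => G i (shift (exT (Bl ℓ (l + i)) X).toNat X)) X +
        ∑ i ∈ Finset.range (t + 1), err i X) := by
    intro X hX hnn h0
    by_cases hN : X ∈ NoCut ℓ l t
    · rw [Set.indicator_of_mem hN]
      exact (hF1 X).trans (le_self_add)
    · have hex : ∃ k : ℕ, X ∈ Cut ℓ (l + k) ∧ k ≤ t := by
        unfold NoCut at hN
        simp only [Set.mem_ofPred_eq] at hN
        push Not at hN
        obtain ⟨b, hb1, hb2, hb3⟩ := hN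
        refine ⟨(b - l).toNat, ?_, by omega⟩
        have : (l + ((b - l).toNat : ℤ)) = b := by omega
        rwa [this]
      have hex' : ∃ k : ℕ, X ∈ Cut ℓ (l + k) := ⟨_, hex.choose_spec.1⟩
      have hkt : Nat.find hex' ≤ t := (Nat.find_min' hex' hex.choose_spec.1).trans
        hex.choose_spec.2
      have hkc := Nat.find_spec hex'
      have hfc : X ∈ FC ℓ l (Nat.find hex') := ⟨hkc, fun k hk => Nat.find_min hex' hk⟩
      refine (hle _ hkt X hX hnn h0 hkc).trans (le_trans ?_ le_add_self)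
      refine add_le_add ?_ ?_
      · have h1 : (FC ℓ l (Nat.find hex')).indicator
            (fun X => G (Nat.find hex') (shift (exT (Bl ℓ (l + (Nat.find hex' : ℕ))) X).toNat X)) X
            = G (Nat.find hex') (shift (exT (Bl ℓ (l + (Nat.find hex' : ℕ))) X).toNat X) :=
          Set.indicator_of_mem hfc _
        rw [← h1]
        exact Finset.single_le_sum (f := fun i : ℕ => (FC ℓ l i).indicator
          (fun X => G i (shift (exT (Bl ℓ (l + i)) X).toNat X)) X) (fun _ _ => zero_le)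
          (Finset.mem_range.2 (by omega))
      · exact Finset.single_le_sum (f := fun i : ℕ => err i X) (fun _ _ => zero_le)
          (Finset.mem_range.2 (by omega))
  have hq : ∀ᵐ ω ∂Q, ∫⁻ X, F X ∂quenchedLaw ω y ≤ quenchedLaw ω y (NoCut ℓ l t) +
      (∑ i ∈ Finset.range (t + 1), ∫⁻ X in FC ℓ l i,
        G i (shift (exT (Bl ℓ (l + i)) X).toNat X) ∂quenchedLaw ω y +
        ∑ i ∈ Finset.range (t + 1), ∫⁻ X, err i X ∂quenchedLaw ω y) := by
    filter_upwards [ae_reach hR y] with ω hω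
    have hm1 : Measurable ((NoCut ℓ l t).indicator (1 : Path d → ℝ≥0∞)) :=
      measurable_one.indicator (measurableSet_NoCut ℓ l t)
    have hm2 : ∀ i ∈ Finset.range (t + 1), Measurable ((FC ℓ l i).indicator
        (fun X : Path d => G i (shift (exT (Bl ℓ (l + i)) X).toNat X))) :=
      fun i _ => (hGi i).indicator (measurableSet_FC ℓ l i)
    calc ∫⁻ X, F X ∂quenchedLaw ω y
        ≤ ∫⁻ X, ((NoCut ℓ l t).indicator 1 X +
            (∑ i ∈ Finset.range (t + 1), (FC ℓ l i).indicator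
              (fun X => G i (shift (exT (Bl ℓ (l + i)) X).toNat X)) X +
              ∑ i ∈ Finset.range (t + 1), err i X)) ∂quenchedLaw ω y := by
          refine lintegral_mono_ae ?_
          filter_upwards [hω, quenched_zero_eq ω y, quenched_nn ω y] with X hX h0 hnn
            using hpw X hX hnn h0
      _ = _ := by
          rw [lintegral_add_left hm1, lintegral_add_left (Finset.measurable_fun_sum _ hm2),
            lintegral_finsetSum _ hm2, lintegral_finsetSum _ (fun i _ => herr i),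
            lintegral_indicator_one (measurableSet_NoCut ℓ l t)]
          congr 2
          refine Finset.sum_congr rfl fun i _ => ?_
          rw [lintegral_indicator (measurableSet_FC ℓ l i)]
  have hma := coord_meas_top ha
  have hmN : Measurable fun ω : Environment d => a ω * quenchedLaw ω y (NoCut ℓ l t) :=
    hma.mul (Q561.measurable_quenched_apply y (measurableSet_NoCut ℓ l t))
  have hmG : ∀ i, Measurable fun ω : Environment d => a ω * ∫⁻ X in FC ℓ l i,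
      G i (shift (exT (Bl ℓ (l + i)) X).toNat X) ∂quenchedLaw ω y := by
    intro i
    refine hma.mul ?_
    have := meas_qlint (F := (FC ℓ l i).indicator
      (fun X : Path d => G i (shift (exT (Bl ℓ (l + i)) X).toNat X)))
      ((hGi i).indicator (measurableSet_FC ℓ l i)) y
    simpa only [lintegral_indicator (measurableSet_FC ℓ l i)] using this
  have hmE : ∀ i, Measurable fun ω : Environment d => a ω * ∫⁻ X, err i X ∂quenchedLaw ω y :=
    fun i => hma.mul (meas_qlint (herr i) y)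
  calc ∫⁻ ω, a ω * ∫⁻ X, F X ∂quenchedLaw ω y ∂Q
      ≤ ∫⁻ ω, (a ω * quenchedLaw ω y (NoCut ℓ l t) +
          (∑ i ∈ Finset.range (t + 1), a ω * ∫⁻ X in FC ℓ l i,
            G i (shift (exT (Bl ℓ (l + i)) X).toNat X) ∂quenchedLaw ω y +
          ∑ i ∈ Finset.range (t + 1), a ω * ∫⁻ X, err i X ∂quenchedLaw ω y)) ∂Q := by
        refine lintegral_mono_ae ?_
        filter_upwards [hq] with ω hω
        refine (mul_le_mul' le_rfl hω).trans ?_
        rw [mul_add, mul_add, Finset.mul_sum, Finset.mul_sum]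
    _ = ∫⁻ ω, a ω * quenchedLaw ω y (NoCut ℓ l t) ∂Q +
          (∑ i ∈ Finset.range (t + 1), ∫⁻ ω, a ω * ∫⁻ X in FC ℓ l i,
            G i (shift (exT (Bl ℓ (l + i)) X).toNat X) ∂quenchedLaw ω y ∂Q +
          ∑ i ∈ Finset.range (t + 1), ∫⁻ ω, a ω * ∫⁻ X, err i X ∂quenchedLaw ω y ∂Q) := by
        rw [lintegral_add_left hmN, lintegral_add_left
          (Finset.measurable_fun_sum _ fun i _ => hmG i), lintegral_finsetSum _ (fun i _ => hmG i),
          lintegral_finsetSum _ (fun i _ => hmE i)]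
    _ ≤ β * ∫⁻ ω, a ω ∂Q + (∑ i ∈ Finset.range (t + 1), (∑' y', ∫⁻ ω, a ω * quenchedLaw ω y
          (Vv ℓ l i ∩ ExS (Bl ℓ (l + i)) y') ∂Q) * H +
          ∑ i ∈ Finset.range (t + 1), ∫⁻ ω, a ω * ∫⁻ X, err i X ∂quenchedLaw ω y ∂Q) := by
        refine add_le_add (hAP l y hy a ha) (add_le_add (Finset.sum_le_sum fun i hi => ?_) le_rfl)
        rw [FC_ann ha i (hG i), ← ENNReal.tsum_mul_right]
        refine ENNReal.tsum_le_tsum fun y' => ?_
        by_cases hy' : ℓ y' = l + i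
        · exact mul_le_mul' le_rfl (hH i (by have := Finset.mem_range.1 hi; omega) y' hy')
        · have hz : ∀ ω : Environment d, quenchedLaw ω y (Vv ℓ l i ∩
              ExS (Bl ℓ (l + i)) y') = 0 := fun ω => past_zero ℓ hℓ ω (by rw [hy]; omega) hy' _
          simp [hz]
    _ = β * ∫⁻ ω, a ω ∂Q + ((H / p) * ((∑ i ∈ Finset.range (t + 1), (∑' y', ∫⁻ ω, a ω *
          quenchedLaw ω y (Vv ℓ l i ∩ ExS (Bl ℓ (l + i)) y') ∂Q)) * p) +
          ∑ i ∈ Finset.range (t + 1), ∫⁻ ω, a ω * ∫⁻ X, err i X ∂quenchedLaw ω y ∂Q) := by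
        congr 2
        rw [← Finset.sum_mul]
        generalize (∑ i ∈ Finset.range (t + 1), (∑' y', ∫⁻ ω, a ω *
          quenchedLaw ω y (Vv ℓ l i ∩ ExS (Bl ℓ (l + i)) y') ∂Q)) = W
        rw [mul_comm W p, ← mul_assoc, ENNReal.div_mul_cancel hp hpt, mul_comm]
    _ ≤ β * ∫⁻ ω, a ω ∂Q + ((H / p) * ∫⁻ ω, a ω ∂Q +
          ∑ i ∈ Finset.range (t + 1), ∫⁻ ω, a ω * ∫⁻ X, err i X ∂quenchedLaw ω y ∂Q) := by
        gcongr
        exact FC_mass hℓ hy ha t
    _ = _ := by ring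

/-- **decomposition at the first cut level** -/
theorem first_cut (hℓ : ∀ e : Step d, |ℓ (stepVec e)| ≤ 1)
    (hR : annealedProb (iidEnvironmentLaw ν) 0 (Reach ℓ) = 1) (hp : pN ℓ ν ≠ 0)
    {t : ℕ} {β : ℝ≥0∞} (hAP : AP ℓ ν t β) {l : ℤ} {y : Site d} (hy : ℓ y = l)
    {a : Environment d → ℝ≥0∞} (ha : Measurable[coordSigmaAlgebra (Bl ℓ l)] a)
    {F : Path d → ℝ≥0∞} (hF : Measurable F) (hF1 : ∀ X, F X ≤ 1)
    {G err : ℕ → Path d → ℝ≥0∞} (hG : ∀ i, Measurable (G i)) (herr : ∀ i, Measurable (err i))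
    (hle : ∀ i ≤ t, ∀ X, X ∈ Reach ℓ → X 0 = y → X ∈ Cut ℓ (l + i) →
      F X ≤ G i (shift (exT (Bl ℓ (l + i)) X).toNat X) + err i X)
    {H : ℝ≥0∞} (hH : ∀ i ≤ t, ∀ y', ℓ y' = l + i →
      ∫⁻ ω, ∫⁻ X in Ntl ℓ (l + i), G i X ∂quenchedLaw ω y' ∂(iidEnvironmentLaw ν) ≤ H) :
    ∫⁻ ω, a ω * ∫⁻ X, F X ∂quenchedLaw ω y ∂(iidEnvironmentLaw ν)
      ≤ (H / pN ℓ ν) * ∫⁻ ω, a ω ∂(iidEnvironmentLaw ν)
        + ∑ i ∈ Finset.range (t + 1), ∫⁻ ω, a ω * ∫⁻ X, err i X ∂quenchedLaw ω y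
            ∂(iidEnvironmentLaw ν)
        + β * ∫⁻ ω, a ω ∂(iidEnvironmentLaw ν) :=
  first_cut_nn hℓ hR hp hAP hy ha hF hF1 hG herr (fun i hi X hX _ h0 hc => hle i hi X hX h0 hc) hH

end key

end Crest.Agent.R154.Phi215
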