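import Crest.Agent.R154.ExK_9

/-!
# Row 154, helper9: conditional expectation on the rows of a set, pointwise, and the quenched martingale

* `glue S ω ω'` : rows of `S` from `ω`, the others from `ω'`;
* `cnd ν S f ω = ∫⁻ f (glue S ω ω') dQ(ω')`, `Q` the iid law : a pointwise version of `E[f | rows in S]`
  (`lint_cnd`, `cnd_pull`, `cnd_tower`, `cnd_of_loc`, `cnd_tsum`);
* `fE A x g` : quenched expectation of `g` at the exit of `A`; `phi S A y g = E[fE A y g | rows in S]`;
* `M_eq`, `phi_step` : the quenched martingale;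
-/

set_option autoImplicit false
set_option linter.unusedVariables false
set_option linter.unusedSectionVars false

namespace Crest.Agent.R154.Resamp9

open MeasureTheory ProbabilityTheory Crest.ProbabilityR.RandomEnvironment Crest.Agent.R154
open Crest.Agent.R154.ExK9
open scoped ENNReal

variable {d : ℕ}

open Classical in
/-- rows of `S` from `ω`, the others from `ω'` -/
noncomputable def glue (S : Set (Site d)) (ω ω' : Environment d) : Environment d :=
  fun z => if z ∈ S then ω z else ω' z

lemma glue_mem {S : Set (Site d)} (ω ω' : Environment d) {z : Site d} (hz : z ∈ S) :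
    glue S ω ω' z = ω z := by simp [glue, hz]

lemma glue_notMem {S : Set (Site d)} (ω ω' : Environment d) {z : Site d} (hz : z ∉ S) :
    glue S ω ω' z = ω' z := by simp [glue, hz]

lemma measurable_glue (S : Set (Site d)) :
    Measurable fun p : Environment d × Environment d => glue S p.1 p.2 := by
  refine measurable_pi_lambda _ fun z => ?_
  by_cases hz : z ∈ S
  · have : (fun p : Environment d × Environment d => glue S p.1 p.2 z) = fun p => p.1 z := by
      funext p; exact glue_mem _ _ hz
    rw [this]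
    exact (measurable_pi_apply z).comp measurable_fst
  · have : (fun p : Environment d × Environment d => glue S p.1 p.2 z) = fun p => p.2 z := by
      funext p; exact glue_notMem _ _ hz
    rw [this]
    exact (measurable_pi_apply z).comp measurable_snd

lemma measurable_glue_left (S : Set (Site d)) (ω' : Environment d) :
    Measurable fun ω : Environment d => glue S ω ω' :=
  (measurable_glue S).comp (measurable_id.prodMk measurable_const)

lemma measurable_glue_right (S : Set (Site d)) (ω : Environment d) :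
    Measurable fun ω' : Environment d => glue S ω ω' :=
  (measurable_glue S).comp (measurable_const.prodMk measurable_id)

lemma glue_congr {S : Set (Site d)} {ω₁ ω₂ : Environment d} (h : ∀ z ∈ S, ω₁ z = ω₂ z)
    (ω' : Environment d) : glue S ω₁ ω' = glue S ω₂ ω' := by
  funext z
  by_cases hz : z ∈ S
  · rw [glue_mem _ _ hz, glue_mem _ _ hz, h z hz]
  · rw [glue_notMem _ _ hz, glue_notMem _ _ hz]

lemma glue_glue {S T : Set (Site d)} (h : S ⊆ T) (ω ω' ω'' : Environment d) :
    glue T (glue S ω ω') ω'' = glue S ω (glue T ω' ω'') := by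
  funext z
  by_cases hS : z ∈ S
  · rw [glue_mem _ _ (h hS), glue_mem _ _ hS, glue_mem _ _ hS]
  · by_cases hT : z ∈ T
    · rw [glue_mem _ _ hT, glue_notMem _ _ hS, glue_notMem _ _ hS, glue_mem _ _ hT]
    · rw [glue_notMem _ _ hT, glue_notMem _ _ hS, glue_notMem _ _ hT]

/-- a function of the rows of `S` does not see the other rows -/
lemma loc_glue {β : Type*} {S : Set (Site d)} {f : Environment d → β} (hf : Q561.LocOn S f)
    (ω ω' : Environment d) : f (glue S ω ω') = f ω :=
  hf _ _ fun z hz => glue_mem _ _ hz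

variable (ν : Measure (Row d)) [IsProbabilityMeasure ν]

/-- gluing preserves the iid law -/
theorem map_glue (S : Set (Site d)) :
    ((iidEnvironmentLaw ν).prod (iidEnvironmentLaw ν)).map
      (fun p : Environment d × Environment d => glue S p.1 p.2) = iidEnvironmentLaw ν := by
  classical
  unfold iidEnvironmentLaw
  apply Measure.eq_infinitePi
  intro s t ht
  rw [Measure.map_apply (measurable_glue S)
    (MeasurableSet.pi s.countable_toSet fun i _ => ht i)]
  have e : ((fun p : Environment d × Environment d => glue S p.1 p.2) ⁻¹'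
      Set.pi (s : Set (Site d)) t) =
      (Set.pi ((s.filter fun z => z ∈ S : Finset (Site d)) : Set (Site d)) t) ×ˢ
        (Set.pi ((s.filter fun z => z ∉ S : Finset (Site d)) : Set (Site d)) t) := by
    ext p
    simp only [Set.mem_preimage, Set.mem_pi, Finset.coe_filter, Set.mem_ofPred_eq, Set.mem_prod,
      SetLike.mem_coe]
    constructor
    · intro h
      refine ⟨fun z hz => ?_, fun z hz => ?_⟩
      · have := h z hz.1
        rwa [glue_mem _ _ hz.2] at this
      · have := h z hz.1
        rwa [glue_notMem _ _ hz.2] at this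
    · rintro ⟨h1, h2⟩ z hz
      by_cases hS : z ∈ S
      · rw [glue_mem _ _ hS]; exact h1 z ⟨hz, hS⟩
      · rw [glue_notMem _ _ hS]; exact h2 z ⟨hz, hS⟩
  rw [e, Measure.prod_prod, Measure.infinitePi_pi _ (fun i _ => ht i),
    Measure.infinitePi_pi _ (fun i _ => ht i)]
  exact Finset.prod_filter_mul_prod_filter_not s (fun z => z ∈ S) fun z => ν (t z)

/-- Fubini for gluing -/
theorem lint_glue (S : Set (Site d)) {f : Environment d → ℝ≥0∞} (hf : Measurable f) :
    ∫⁻ ω, f ω ∂(iidEnvironmentLaw ν) =
      ∫⁻ ω, ∫⁻ ω', f (glue S ω ω') ∂(iidEnvironmentLaw ν) ∂(iidEnvironmentLaw ν) := by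
  conv_lhs => rw [← map_glue ν S]
  rw [lintegral_map hf (measurable_glue S)]
  exact lintegral_prod (fun p : Environment d × Environment d => f (glue S p.1 p.2))
    (hf.comp (measurable_glue S)).aemeasurable

/-- **pointwise conditional expectation on the rows of `S`** -/
noncomputable def cnd (S : Set (Site d)) (f : Environment d → ℝ≥0∞) (ω : Environment d) : ℝ≥0∞ :=
  ∫⁻ ω', f (glue S ω ω') ∂(iidEnvironmentLaw ν)

variable {ν}

lemma meas_cnd (S : Set (Site d)) {f : Environment d → ℝ≥0∞} (hf : Measurable f) :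
    Measurable (cnd ν S f) :=
  Measurable.lintegral_prod_right' (f := fun p : Environment d × Environment d => f (glue S p.1 p.2))
    (hf.comp (measurable_glue S))

lemma locOn_cnd (S : Set (Site d)) (f : Environment d → ℝ≥0∞) : Q561.LocOn S (cnd ν S f) := by
  intro ω₁ ω₂ h
  unfold cnd
  simp only [glue_congr h]

lemma measS_cnd (S : Set (Site d)) {f : Environment d → ℝ≥0∞} (hf : Measurable f) :
    Measurable[coordSigmaAlgebra S] (cnd ν S f) :=
  Q561.measurable_coord (meas_cnd S hf) (locOn_cnd S f)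

lemma cnd_mono (S : Set (Site d)) {f g : Environment d → ℝ≥0∞} (h : ∀ ω, f ω ≤ g ω)
    (ω : Environment d) : cnd ν S f ω ≤ cnd ν S g ω := lintegral_mono fun ω' => h _

lemma cnd_const (S : Set (Site d)) (c : ℝ≥0∞) (ω : Environment d) :
    cnd ν S (fun _ => c) ω = c := by simp [cnd]

lemma cnd_le_one (S : Set (Site d)) {f : Environment d → ℝ≥0∞} (h : ∀ ω, f ω ≤ 1)
    (ω : Environment d) : cnd ν S f ω ≤ 1 :=
  (cnd_mono S h ω).trans (cnd_const S 1 ω).le

lemma cnd_of_loc {S : Set (Site d)} {f : Environment d → ℝ≥0∞} (hf : Q561.LocOn S f)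
    (ω : Environment d) : cnd ν S f ω = f ω := by
  unfold cnd
  simp only [loc_glue hf]
  simp

lemma cnd_pull {S : Set (Site d)} {w f : Environment d → ℝ≥0∞} (hw : Q561.LocOn S w)
    (hf : Measurable f) (ω : Environment d) :
    cnd ν S (fun ω => w ω * f ω) ω = w ω * cnd ν S f ω := by
  unfold cnd
  simp only [loc_glue hw]
  exact lintegral_const_mul _ (hf.comp (measurable_glue_right S ω))

lemma cnd_add (S : Set (Site d)) {f g : Environment d → ℝ≥0∞} (hf : Measurable f)
    (ω : Environment d) : cnd ν S (fun ω => f ω + g ω) ω = cnd ν S f ω + cnd ν S g ω :=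
  lintegral_add_left (hf.comp (measurable_glue_right S ω)) _

lemma cnd_tsum (S : Set (Site d)) {ι : Type*} [Countable ι] {f : ι → Environment d → ℝ≥0∞}
    (hf : ∀ i, Measurable (f i)) (ω : Environment d) :
    cnd ν S (fun ω => ∑' i, f i ω) ω = ∑' i, cnd ν S (f i) ω :=
  lintegral_tsum fun i => ((hf i).comp (measurable_glue_right S ω)).aemeasurable

/-- **tower property, pointwise** -/
theorem cnd_tower {S T : Set (Site d)} (h : S ⊆ T) {f : Environment d → ℝ≥0∞}
    (hf : Measurable f) (ω : Environment d) : cnd ν S (cnd ν T f) ω = cnd ν S f ω := by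
  unfold cnd
  simp only [glue_glue h]
  exact (lint_glue ν T (f := fun ω'' => f (glue S ω ω''))
    (hf.comp (measurable_glue_right S ω))).symm

/-- **averaging against the past** -/
theorem lint_cnd {S : Set (Site d)} {w f : Environment d → ℝ≥0∞} (hw : Q561.LocOn S w)
    (hwm : Measurable w) (hf : Measurable f) :
    ∫⁻ ω, w ω * cnd ν S f ω ∂(iidEnvironmentLaw ν) = ∫⁻ ω, w ω * f ω ∂(iidEnvironmentLaw ν) := by
  rw [lint_glue ν S (f := fun ω => w ω * f ω) (hwm.mul hf)]
  refine lintegral_congr fun ω => ?_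
  exact (cnd_pull hw hf ω).symm

theorem lint_cnd_one {S : Set (Site d)} {f : Environment d → ℝ≥0∞} (hf : Measurable f) :
    ∫⁻ ω, cnd ν S f ω ∂(iidEnvironmentLaw ν) = ∫⁻ ω, f ω ∂(iidEnvironmentLaw ν) := by
  have := lint_cnd (S := S) (w := fun _ => 1) (fun _ _ _ => rfl) measurable_const (ν := ν) hf
  simpa using this

/-- functions of disjoint rows: the conditional expectation is a constant -/
theorem cnd_of_disj {S T : Set (Site d)} (h : Disjoint S T) {f : Environment d → ℝ≥0∞}
    (hf : Q561.LocOn T f) (ω : Environment d) :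
    cnd ν S f ω = ∫⁻ ω', f ω' ∂(iidEnvironmentLaw ν) := by
  unfold cnd
  refine lintegral_congr fun ω' => hf _ _ fun z hz => ?_
  exact glue_notMem _ _ fun hS => Set.disjoint_left.1 h hS hz

/-- conditional law = law of the glued environment: change of the far rows does not matter -/
theorem cnd_congr {S : Set (Site d)} {f g : Environment d → ℝ≥0∞} (ω : Environment d)
    (h : ∀ ω', f (glue S ω ω') = g (glue S ω ω')) : cnd ν S f ω = cnd ν S g ω :=
  lintegral_congr fun ω' => h ω'

/-! ### the quenched martingale of a chain of kernels -/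

section chain
/-- one step of a random kernel applied to a (random) function -/
noncomputable def app (K : Environment d → Site d → Site d → ℝ≥0∞)
    (φ : Environment d → Site d → ℝ≥0∞) (ω : Environment d) (y : Site d) : ℝ≥0∞ :=
  ∑' z, K ω y z * φ ω z

/-- random weight applied to a function -/
noncomputable def wsum (q : Environment d → Site d → ℝ≥0∞)
    (φ : Environment d → Site d → ℝ≥0∞) (ω : Environment d) : ℝ≥0∞ := ∑' y, q ω y * φ ω y

/-- push forward of a weight by a kernel -/
noncomputable def push (q : Environment d → Site d → ℝ≥0∞)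
    (K : Environment d → Site d → Site d → ℝ≥0∞) (ω : Environment d) (z : Site d) : ℝ≥0∞ :=
  ∑' y, q ω y * K ω y z

lemma wsum_push (q : Environment d → Site d → ℝ≥0∞)
    (K : Environment d → Site d → Site d → ℝ≥0∞) (φ : Environment d → Site d → ℝ≥0∞)
    (ω : Environment d) : wsum (push q K) φ ω = wsum q (app K φ) ω := by
  unfold wsum push app
  simp_rw [← ENNReal.tsum_mul_right, ← ENNReal.tsum_mul_left]
  rw [ENNReal.tsum_comm]
  exact tsum_congr fun y => tsum_congr fun z => by ring

lemma meas_app {K : Environment d → Site d → Site d → ℝ≥0∞}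
    {φ : Environment d → Site d → ℝ≥0∞} (hK : ∀ y z, Measurable fun ω => K ω y z)
    (hφ : ∀ z, Measurable fun ω => φ ω z) (y : Site d) : Measurable fun ω => app K φ ω y :=
  Measurable.tsum fun z => (hK y z).mul (hφ z)

lemma app_le_one {K : Environment d → Site d → Site d → ℝ≥0∞}
    {φ : Environment d → Site d → ℝ≥0∞} (hK : ∀ ω y, ∑' z, K ω y z ≤ 1)
    (hφ : ∀ ω z, φ ω z ≤ 1) (ω : Environment d) (y : Site d) : app K φ ω y ≤ 1 := by
  refine le_trans (ENNReal.tsum_le_tsum fun z => ?_) (hK ω y)
  calc K ω y z * φ ω z ≤ K ω y z * 1 := by gcongr; exact hφ ω z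
    _ = _ := mul_one _

/-- backward recursion: `back m` lives at the level `n - m` -/
noncomputable def back (ν : Measure (Row d)) (n : ℕ) (S : ℕ → Set (Site d))
    (K : ℕ → Environment d → Site d → Site d → ℝ≥0∞) (g : Site d → ℝ≥0∞) :
    ℕ → Environment d → Site d → ℝ≥0∞
  | 0 => fun _ z => g z
  | m + 1 => fun ω y =>
      cnd ν (S (n - (m + 1))) (fun ω => app (K (n - (m + 1))) (back ν n S K g m) ω y) ω

/-- `phiK k y = E[ E_ω^y g(x_n) | rows in S k ]` for the chain of kernels `K k, …, K (n-1)` -/
noncomputable def phiK (ν : Measure (Row d)) (n : ℕ) (S : ℕ → Set (Site d))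
    (K : ℕ → Environment d → Site d → Site d → ℝ≥0∞) (g : Site d → ℝ≥0∞) (k : ℕ) :
    Environment d → Site d → ℝ≥0∞ := back ν n S K g (n - k)

variable {n : ℕ} {S : ℕ → Set (Site d)} {K : ℕ → Environment d → Site d → Site d → ℝ≥0∞}
  {g : Site d → ℝ≥0∞}

lemma phiK_last (ω : Environment d) (z : Site d) : phiK ν n S K g n ω z = g z := by
  unfold phiK
  rw [Nat.sub_self]
  rfl

/-- **one step backward** -/
theorem phiK_step {k : ℕ} (hk : k < n) (ω : Environment d) (y : Site d) :
    phiK ν n S K g k ω y = cnd ν (S k) (fun ω => app (K k) (phiK ν n S K g (k + 1)) ω y) ω := by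
  unfold phiK
  obtain ⟨m, hm⟩ : ∃ m, n - k = m + 1 := ⟨n - k - 1, by omega⟩
  have h1 : n - (k + 1) = m := by omega
  have h2 : n - (m + 1) = k := by omega
  rw [hm, h1]
  show cnd ν (S (n - (m + 1))) (fun ω => app (K (n - (m + 1))) (back ν n S K g m) ω y) ω = _
  rw [h2]

lemma meas_back (hK : ∀ k y z, Measurable fun ω => K k ω y z) (m : ℕ) (y : Site d) :
    Measurable fun ω => back ν n S K g m ω y := by
  induction m generalizing y with
  | zero => exact measurable_const
  | succ m ih => exact meas_cnd _ (meas_app (hK _) ih y)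

lemma meas_phiK (hK : ∀ k y z, Measurable fun ω => K k ω y z) (k : ℕ) (y : Site d) :
    Measurable fun ω => phiK ν n S K g k ω y := meas_back hK _ y

lemma phiK_le_one (hK1 : ∀ k ω y, ∑' z, K k ω y z ≤ 1) (hg : ∀ z, g z ≤ 1) (k : ℕ)
    (ω : Environment d) (y : Site d) : phiK ν n S K g k ω y ≤ 1 := by
  have : ∀ m, ∀ ω y, back ν n S K g m ω y ≤ 1 := by
    intro m
    induction m with
    | zero => intro ω y; exact hg y
    | succ m ih =>
      intro ω y
      exact cnd_le_one _ (fun ω => app_le_one (hK1 _) ih ω y) ω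
  exact this _ ω y

lemma locOn_phiK {k : ℕ} (hk : k ≤ n) (y : Site d) :
    Q561.LocOn (S k) fun ω => phiK ν n S K g k ω y := by
  rcases Nat.lt_or_ge k n with h | h
  · intro ω₁ ω₂ hω
    simp only [phiK_step h]
    exact locOn_cnd (S k) _ ω₁ ω₂ hω
  · have : k = n := le_antisymm hk h
    subst this
    intro ω₁ ω₂ _
    simp only [phiK_last]

/-- **the quenched martingale**: `cnd (S k) (wsum q_{k+1} φ_{k+1}) = wsum q_k φ_k` -/
theorem mart_step (hK : ∀ k y z, Measurable fun ω => K k ω y z) {k : ℕ} (hk : k < n)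
    {q : Environment d → Site d → ℝ≥0∞} (hq : ∀ y, Q561.LocOn (S k) fun ω => q ω y)
    (hqm : ∀ y, Measurable fun ω => q ω y) (ω : Environment d) :
    cnd ν (S k) (wsum (push q (K k)) (phiK ν n S K g (k + 1))) ω =
      wsum q (phiK ν n S K g k) ω := by
  have e : wsum (push q (K k)) (phiK ν n S K g (k + 1)) =
      fun ω => ∑' y, q ω y * app (K k) (phiK ν n S K g (k + 1)) ω y := by
    funext ω; exact wsum_push q (K k) _ ω
  rw [e, cnd_tsum (S k) (f := fun y ω => q ω y * app (K k) (phiK ν n S K g (k + 1)) ω y)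
    (fun y => (hqm y).mul (meas_app (hK k) (meas_phiK hK (k + 1)) y)) ω]
  unfold wsum
  refine tsum_congr fun y => ?_
  rw [cnd_pull (hq y) (meas_app (hK k) (meas_phiK hK (k + 1)) y), phiK_step hk]

/-- **pair form**: the product of two quenched martingales, one step, given the rows of `S k` -/
theorem pair_step (hK : ∀ k y z, Measurable fun ω => K k ω y z) {k : ℕ}
    {q q' : Environment d → Site d → ℝ≥0∞} (hq : ∀ y, Q561.LocOn (S k) fun ω => q ω y)
    (hqm : ∀ y, Measurable fun ω => q ω y) (hq' : ∀ y, Q561.LocOn (S k) fun ω => q' ω y)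
    (hqm' : ∀ y, Measurable fun ω => q' ω y) (ω : Environment d) :
    cnd ν (S k) (fun ω => wsum (push q (K k)) (phiK ν n S K g (k + 1)) ω *
      wsum (push q' (K k)) (phiK ν n S K g (k + 1)) ω) ω =
      ∑' y, ∑' y', q ω y * q' ω y' * cnd ν (S k) (fun ω =>
        app (K k) (phiK ν n S K g (k + 1)) ω y * app (K k) (phiK ν n S K g (k + 1)) ω y') ω := by
  have hm := fun y => meas_app (hK k) (meas_phiK (ν := ν) (n := n) (S := S) (g := g) hK (k + 1)) y
  have e : (fun ω => wsum (push q (K k)) (phiK ν n S K g (k + 1)) ω *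
      wsum (push q' (K k)) (phiK ν n S K g (k + 1)) ω) =
      fun ω => ∑' y, ∑' y', (q ω y * q' ω y') * (app (K k) (phiK ν n S K g (k + 1)) ω y *
        app (K k) (phiK ν n S K g (k + 1)) ω y') := by
    funext ω
    rw [wsum_push, wsum_push]
    unfold wsum
    rw [← ENNReal.tsum_mul_right]
    refine tsum_congr fun y => ?_
    rw [← ENNReal.tsum_mul_left]
    exact tsum_congr fun y' => by ring
  rw [e, cnd_tsum (S k) (f := fun y ω => ∑' y', (q ω y * q' ω y') *
    (app (K k) (phiK ν n S K g (k + 1)) ω y * app (K k) (phiK ν n S K g (k + 1)) ω y'))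
    (fun y => Measurable.tsum fun y' => ((hqm y).mul (hqm' y')).mul ((hm y).mul (hm y')))]
  refine tsum_congr fun y => ?_
  rw [cnd_tsum (S k) (f := fun y' ω => (q ω y * q' ω y') *
    (app (K k) (phiK ν n S K g (k + 1)) ω y * app (K k) (phiK ν n S K g (k + 1)) ω y'))
    (fun y' => ((hqm y).mul (hqm' y')).mul ((hm y).mul (hm y')))]
  refine tsum_congr fun y' => ?_
  refine cnd_pull (S := S k) (w := fun ω => q ω y * q' ω y') ?_ ((hm y).mul (hm y')) ω
  intro ω₁ ω₂ h
  have h1 : q ω₁ y = q ω₂ y := hq y ω₁ ω₂ h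
  have h2 : q' ω₁ y' = q' ω₂ y' := hq' y' ω₁ ω₂ h
  show q ω₁ y * q' ω₁ y' = q ω₂ y * q' ω₂ y'
  rw [h1, h2]

end chain

/-! ### exit kernels of increasing sets -/

section exit
variable {A : ℕ → Set (Site d)}

/-- quenched expectation of `g` at the exit of `B` -/
noncomputable def fE (B : Set (Site d)) (g : Site d → ℝ≥0∞) (ω : Environment d) (x : Site d) :
    ℝ≥0∞ := ∑' z, EK ω B x z * g z

lemma meas_fE (B : Set (Site d)) (g : Site d → ℝ≥0∞) (x : Site d) :
    Measurable fun ω : Environment d => fE B g ω x :=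
  Measurable.tsum fun z => (meas_EK B x z).mul measurable_const

lemma locOn_fE (B : Set (Site d)) (g : Site d → ℝ≥0∞) (x : Site d) :
    Q561.LocOn B fun ω : Environment d => fE B g ω x := by
  intro ω₁ ω₂ h
  show ∑' z, EK ω₁ B x z * g z = ∑' z, EK ω₂ B x z * g z
  refine tsum_congr fun z => ?_
  have h1 : EK ω₁ B x z = EK ω₂ B x z := locOn_EK B x z ω₁ ω₂ h
  rw [h1]

lemma fE_le_one {g : Site d → ℝ≥0∞} (hg : ∀ z, g z ≤ 1) (B : Set (Site d)) (ω : Environment d)
    (x : Site d) : fE B g ω x ≤ 1 := by
  refine le_trans (ENNReal.tsum_le_tsum fun z => ?_) (tsum_EK_le ω B x)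
  calc EK ω B x z * g z ≤ EK ω B x z * 1 := by gcongr; exact hg z
    _ = _ := mul_one _

lemma fE_comp {B C : Set (Site d)} (h : B ⊆ C) (g : Site d → ℝ≥0∞) (ω : Environment d)
    (x : Site d) : fE C g ω x = ∑' y, EK ω B x y * fE C g ω y := by
  unfold fE
  simp_rw [EK_comp ω h x, ← ENNReal.tsum_mul_right, ← ENNReal.tsum_mul_left]
  rw [ENNReal.tsum_comm]
  exact tsum_congr fun y => tsum_congr fun z => by ring

/-- `E[ E_ω^y g(exit of B) | rows in S ]` -/
noncomputable def phi (ν : Measure (Row d)) (S B : Set (Site d)) (g : Site d → ℝ≥0∞)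
    (ω : Environment d) (y : Site d) : ℝ≥0∞ := cnd ν S (fun ω => fE B g ω y) ω

/-- the quenched martingale of the walker from `x` -/
theorem M_eq {S B : Set (Site d)} (h : S ⊆ B) (g : Site d → ℝ≥0∞) (ω : Environment d)
    (x : Site d) : cnd ν S (fun ω => fE B g ω x) ω = ∑' y, EK ω S x y * phi ν S B g ω y := by
  have e : (fun ω => fE B g ω x) = fun ω => ∑' y, EK ω S x y * fE B g ω y := by
    funext ω; exact fE_comp h g ω x
  rw [e, cnd_tsum S (f := fun y ω => EK ω S x y * fE B g ω y)
    (fun y => (meas_EK S x y).mul (meas_fE B g y))]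
  exact tsum_congr fun y => cnd_pull (locOn_EK S x y) (meas_fE B g y) ω

/-- one step backward, increasing sets -/
theorem phi_step {S T B : Set (Site d)} (hST : S ⊆ T) (hTB : T ⊆ B) (g : Site d → ℝ≥0∞)
    (ω : Environment d) (y : Site d) :
    phi ν S B g ω y = cnd ν S (fun ω => ∑' z, EK ω T y z * phi ν T B g ω z) ω := by
  unfold phi
  rw [← cnd_tower hST (meas_fE B g y) ω]
  congr 1
  funext ω
  exact M_eq hTB g ω y

/-- the last level -/
lemma phi_last {B : Set (Site d)} (g : Site d → ℝ≥0∞) (ω : Environment d) {y : Site d}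
    (hy : y ∉ B) : phi ν B B g ω y = g y := by
  unfold phi
  rw [cnd_of_loc (locOn_fE B g y)]
  unfold fE
  rw [tsum_eq_single y]
  · rw [EK_notMem ω hy, Set.indicator_of_mem (Set.mem_singleton y), one_mul]
  · intro z hz
    rw [EK_notMem ω hy, Set.indicator_of_notMem fun h => hz (Set.mem_singleton_iff.1 h), zero_mul]

end exit

end Crest.Agent.R154.Resamp9
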