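import Crest.Agent.R154.PhiC_215
import Crest.Agent.R154.Resamp_9

/-!
# Row 154, helper215: (V1) of D2/VARG, part D — tight increments, deterministic centring

* `tight` : `∀ i δ ≠ 0, ∃ ε0 > 0, ∀ m ≥ 0, ∀ ε ≤ ε0, E_ann min(1, ε |σ x_{m+i} - σ x_m|) ≤ δ`;
* `core` : for every past weight `a y ≤ EK (Bl l) 0 y` and every functional `F ≤ 1` which changes by
  at most `err i` when the piece between levels `l` and `l + i` is removed,
  `|Σ_y ∫ a y E_ω^y F - Σ_y (∫ a y) E_ann^y F| ≤ 2 ((t+1) η + β)`;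
* `centred` : the same for the conditional expectation on the rows below `l`.
-/

set_option autoImplicit false
set_option linter.unusedVariables false
set_option linter.unusedSectionVars false

namespace Crest.Agent.R154.Phi215

open MeasureTheory ProbabilityTheory Crest.ProbabilityR.RandomEnvironment Crest.Agent.R154
open Crest.Agent.R154.ExK9
open scoped ENNReal

variable {d : ℕ}

/-! ### truncated distances -/

/-- `min(1, ε |r|)` -/
noncomputable def mn (ε r : ℝ) : ℝ≥0∞ := ENNReal.ofReal (min 1 (ε * |r|))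

lemma mn_le_one (ε r : ℝ) : mn ε r ≤ 1 := ENNReal.ofReal_le_one.2 (min_le_left _ _)

lemma mn_mono {ε ε' : ℝ} (h : ε ≤ ε') (r : ℝ) : mn ε r ≤ mn ε' r :=
  ENNReal.ofReal_le_ofReal (min_le_min le_rfl (mul_le_mul_of_nonneg_right h (abs_nonneg _)))

lemma mn_neg (ε r : ℝ) : mn ε (-r) = mn ε r := by unfold mn; rw [abs_neg]

lemma mn_add {ε : ℝ} (hε : 0 ≤ ε) (r s : ℝ) : mn ε (r + s) ≤ mn ε r + mn ε s := by
  have h2 : 0 ≤ ε * |r| := mul_nonneg hε (abs_nonneg _)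
  have h3 : 0 ≤ ε * |s| := mul_nonneg hε (abs_nonneg _)
  unfold mn
  rw [← ENNReal.ofReal_add (le_min zero_le_one h2) (le_min zero_le_one h3)]
  refine ENNReal.ofReal_le_ofReal ?_
  have h1 : ε * |r + s| ≤ ε * |r| + ε * |s| := by
    rw [← mul_add]
    exact mul_le_mul_of_nonneg_left (abs_add_le r s) hε
  rcases le_total 1 (ε * |r|) with h | h
  · rw [min_eq_left h]
    exact (min_le_left _ _).trans (le_add_of_nonneg_right (le_min zero_le_one h3))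
  · rcases le_total 1 (ε * |s|) with h' | h'
    · rw [min_eq_left h']
      exact (min_le_left _ _).trans (le_add_of_nonneg_left (le_min zero_le_one h2))
    · rw [min_eq_right h, min_eq_right h']
      exact (min_le_right _ _).trans h1

variable (ℓ : Site d →+ ℤ) (σ : Site d →+ ℝ)

/-- truncated increment between the first hits of the levels `m` and `m + i` -/
noncomputable def Psi (ε : ℝ) (m : ℤ) (i : ℕ) (X : Path d) : ℝ≥0∞ :=
  mn ε (σ (xE (Bl ℓ (m + i)) X) - σ (xE (Bl ℓ m) X))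

lemma meas_Psi (ε : ℝ) (m : ℤ) (i : ℕ) : Measurable (Psi ℓ σ ε m i) := by
  have h1 : Measurable fun p : Site d × Site d => mn ε (σ p.1 - σ p.2) := measurable_of_countable _
  exact h1.comp ((measurable_xE _).prodMk (measurable_xE _))

lemma Psi_le_one (ε : ℝ) (m : ℤ) (i : ℕ) (X : Path d) : Psi ℓ σ ε m i X ≤ 1 := mn_le_one _ _

variable {ℓ σ}

/-! ### translations and shifts -/

lemma exT_tr (y : Site d) (m : ℤ) (X : Path d) :
    exT (Bl ℓ m) (Q561.tr y X) = exT (Bl ℓ (m - ℓ y)) X := by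
  have key : ∀ n : ℕ, exT (Bl ℓ m) (Q561.tr y X) = n ↔ exT (Bl ℓ (m - ℓ y)) X = n := by
    intro n
    rw [exT_eq_iff, exT_eq_iff]
    have e : ∀ z : Site d, (z + y ∈ Bl ℓ m ↔ z ∈ Bl ℓ (m - ℓ y)) := by
      intro z
      show ℓ (z + y) < m ↔ ℓ z < m - ℓ y
      rw [map_add]
      constructor <;> intro h <;> omega
    show (X n + y ∉ Bl ℓ m ∧ ∀ i < n, X i + y ∈ Bl ℓ m) ↔ _
    simp only [e]
  by_cases h : exT (Bl ℓ (m - ℓ y)) X = ⊤
  · rw [h]
    by_contra hc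
    obtain ⟨n, hn⟩ := ENat.ne_top_iff_exists.1 hc
    have := (key n).1 hn.symm
    rw [h] at this
    exact ENat.top_ne_natCast n this
  · obtain ⟨n, hn⟩ := ENat.ne_top_iff_exists.1 h
    rw [← hn]
    exact (key n).2 hn.symm

lemma xE_tr (y : Site d) (m : ℤ) (X : Path d) :
    xE (Bl ℓ m) (Q561.tr y X) = xE (Bl ℓ (m - ℓ y)) X + y := by
  unfold xE
  rw [exT_tr]
  rfl

lemma Psi_tr (ε : ℝ) (m : ℤ) (i : ℕ) (y : Site d) (X : Path d) :
    Psi ℓ σ ε m i (Q561.tr y X) = Psi ℓ σ ε (m - ℓ y) i X := by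
  unfold Psi
  rw [xE_tr, xE_tr, map_add, map_add, add_sub_add_right_eq_sub, sub_add_eq_add_sub]

lemma Psi_shift {ε : ℝ} {m : ℤ} {i : ℕ} {b : ℤ} (hb : b ≤ m) {X : Path d} (hX : X ∈ Reach ℓ) :
    Psi ℓ σ ε m i (shift (exT (Bl ℓ b) X).toNat X) = Psi ℓ σ ε m i X := by
  unfold Psi
  rw [xE_shift (Bl_mono ℓ (by omega)) (hX _), xE_shift (Bl_mono ℓ hb) (hX _)]

section an
variable {ν : Measure (Row d)} [IsProbabilityMeasure ν]

lemma An_Psi (ε : ℝ) (m : ℤ) (i : ℕ) (y : Site d) :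
    An ν y (Psi ℓ σ ε m i) = An ν 0 (Psi ℓ σ ε (m - ℓ y) i) := by
  rw [An_zero ν (meas_Psi ℓ σ ε m i) y]
  simp only [Psi_tr]

/-- strong Markov at the first hit of level `l`, annealed -/
lemma An_mark (hR : annealedProb (iidEnvironmentLaw ν) 0 (Reach ℓ) = 1) {F : Path d → ℝ≥0∞}
    (hF : Measurable F) {l : ℤ}
    (hsh : ∀ X, X ∈ Reach ℓ → F (shift (exT (Bl ℓ l) X).toNat X) = F X) :
    An ν 0 F = ∑' y, ∫⁻ ω, EK ω (Bl ℓ l) 0 y * ∫⁻ X, F X ∂quenchedLaw ω y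
      ∂(iidEnvironmentLaw ν) := by
  have hm : ∀ y : Site d, Measurable fun ω : Environment d =>
      EK ω (Bl ℓ l) 0 y * ∫⁻ X, F X ∂quenchedLaw ω y := fun y =>
    (meas_EK _ _ _).mul (meas_qlint hF y)
  rw [← lintegral_tsum fun y => (hm y).aemeasurable]
  unfold An
  refine lintegral_congr_ae ?_
  filter_upwards [ae_reach hR 0] with ω hω
  rw [← markF' ω (Bl ℓ l) 0 hF]
  have hT : MeasurableSet {X : Path d | exT (Bl ℓ l) X ≠ ⊤} := (isStop_exT _).measurableSet_ne_top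
  rw [← lintegral_indicator hT]
  refine lintegral_congr_ae ?_
  filter_upwards [hω] with X hX
  rw [Set.indicator_of_mem (show X ∈ {X : Path d | exT (Bl ℓ l) X ≠ ⊤} from hX l), hsh X hX]

/-- one pair of levels -/
lemma Psi_small (m : ℤ) (i : ℕ) {δ : ℝ≥0∞} (hδ : δ ≠ 0) :
    ∃ ε0 : ℝ, 0 < ε0 ∧ ∀ ε ≤ ε0, An ν 0 (Psi ℓ σ ε m i) ≤ δ := by
  have hlim : ∀ r : ℝ, Filter.Tendsto (fun n : ℕ => mn (1 / ((n : ℝ) + 1)) r) Filter.atTop
      (nhds 0) := by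
    intro r
    have h1 : Filter.Tendsto (fun n : ℕ => min 1 (1 / ((n : ℝ) + 1) * |r|)) Filter.atTop
        (nhds (min 1 (0 * |r|))) :=
      (tendsto_const_nhds).min (tendsto_one_div_add_atTop_nhds_zero_nat.mul_const _)
    rw [zero_mul, min_eq_right zero_le_one] at h1
    have h2 := ENNReal.tendsto_ofReal h1
    rw [ENNReal.ofReal_zero] at h2
    exact h2
  have hin : ∀ ω : Environment d, Filter.Tendsto (fun n : ℕ =>
      ∫⁻ X, Psi ℓ σ (1 / ((n : ℝ) + 1)) m i X ∂quenchedLaw ω 0) Filter.atTop (nhds 0) := by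
    intro ω
    have h := tendsto_lintegral_of_dominated_convergence (μ := quenchedLaw ω 0)
      (F := fun n : ℕ => Psi ℓ σ (1 / ((n : ℝ) + 1)) m i) (f := fun _ => 0) (fun _ => (1 : ℝ≥0∞))
      (fun n => meas_Psi ℓ σ _ m i) (fun n => Filter.Eventually.of_forall fun X =>
        Psi_le_one ℓ σ _ m i X) (by simp) (Filter.Eventually.of_forall fun X => hlim _)
    simpa using h
  have hout : Filter.Tendsto (fun n : ℕ => An ν 0 (Psi ℓ σ (1 / ((n : ℝ) + 1)) m i))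
      Filter.atTop (nhds 0) := by
    have h := tendsto_lintegral_of_dominated_convergence (μ := iidEnvironmentLaw ν)
      (F := fun (n : ℕ) (ω : Environment d) =>
        ∫⁻ X, Psi ℓ σ (1 / ((n : ℝ) + 1)) m i X ∂quenchedLaw ω 0) (f := fun _ => 0)
      (fun _ => (1 : ℝ≥0∞)) (fun n => meas_qlint (meas_Psi ℓ σ _ m i) 0)
      (fun n => Filter.Eventually.of_forall fun ω =>
        (lintegral_mono fun X => Psi_le_one ℓ σ _ m i X).trans (by simp))
      (by simp) (Filter.Eventually.of_forall hin)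
    simpa [An] using h
  obtain ⟨n, hn⟩ := ((ENNReal.tendsto_nhds_zero.1 hout) δ (pos_iff_ne_zero.2 hδ)).exists
  refine ⟨1 / ((n : ℝ) + 1), by positivity, fun ε hε => le_trans (An_mono ν fun X => ?_) hn⟩
  exact mn_mono hε _

lemma pN_ne_top : pN ℓ ν ≠ ⊤ := by
  refine ne_top_of_le_ne_top ENNReal.one_ne_top ?_
  unfold pN annealedProb
  exact (lintegral_mono fun ω => prob_le_one).trans (by simp)

lemma tsum_EK_int (l : ℤ) : ∑' y, ∫⁻ ω, EK ω (Bl ℓ l) 0 y ∂(iidEnvironmentLaw ν) ≤ 1 := by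
  rw [← lintegral_tsum fun y => (meas_EK _ _ _).aemeasurable]
  exact (lintegral_mono fun ω => tsum_EK_le ω _ _).trans (by simp)

/-- **tight increments, uniformly in the level** -/
theorem tight (hℓ : ∀ e : Step d, |ℓ (stepVec e)| ≤ 1)
    (hR : annealedProb (iidEnvironmentLaw ν) 0 (Reach ℓ) = 1) (hp : pN ℓ ν ≠ 0) (i : ℕ)
    {δ : ℝ≥0∞} (hδ : δ ≠ 0) :
    ∃ ε0 : ℝ, 0 < ε0 ∧ ∀ ε ≤ ε0, ∀ m : ℤ, 0 ≤ m → An ν 0 (Psi ℓ σ ε m i) ≤ δ := by
  by_cases hδt : δ = ⊤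
  · subst hδt
    exact ⟨1, one_pos, fun _ _ _ _ => le_top⟩
  have hδ2 : δ / 2 ≠ 0 := ENNReal.div_ne_zero.2 ⟨hδ, ENNReal.ofNat_ne_top⟩
  obtain ⟨s, hs⟩ := anyPast (ν := ν) hℓ hR hp hδ2
  have hAP := hs s le_rfl
  set δ' := δ / 2 * min 1 (pN ℓ ν) with hδ'
  have hδ'0 : δ' ≠ 0 := mul_ne_zero hδ2 (by
    rw [← pos_iff_ne_zero]; exact lt_min one_pos (pos_iff_ne_zero.2 hp))
  -- finitely many levels
  have hfin : ∃ ε0 : ℝ, 0 < ε0 ∧ ∀ r ≤ s, ∀ ε ≤ ε0, An ν 0 (Psi ℓ σ ε (r : ℕ) i) ≤ δ' := by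
    clear hAP hs
    induction s with
    | zero =>
      obtain ⟨ε0, h0, h1⟩ := Psi_small (ℓ := ℓ) (σ := σ) (ν := ν) ((0 : ℕ) : ℤ) i hδ'0
      exact ⟨ε0, h0, fun r hr ε hε => by rw [Nat.le_zero.1 hr]; exact h1 ε hε⟩
    | succ s ih =>
      obtain ⟨ε1, h1, h1'⟩ := ih
      obtain ⟨ε2, h2, h2'⟩ := Psi_small (ℓ := ℓ) (σ := σ) (ν := ν) ((s + 1 : ℕ) : ℤ) i hδ'0
      refine ⟨min ε1 ε2, lt_min h1 h2, fun r hr ε hε => ?_⟩
      rcases Nat.lt_or_ge s r with h | h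
      · have : r = s + 1 := le_antisymm hr h
        subst this
        exact h2' ε (hε.trans (min_le_right _ _))
      · exact h1' r h ε (hε.trans (min_le_left _ _))
  obtain ⟨ε0, h0, h1⟩ := hfin
  refine ⟨ε0, h0, fun ε hε m hm => ?_⟩
  have hδδ : δ' ≤ δ := by
    calc δ' ≤ δ / 2 * 1 := mul_le_mul' le_rfl (min_le_left _ _)
      _ ≤ δ := by rw [mul_one]; exact ENNReal.half_le_self
  rcases le_or_gt m s with hms | hms
  · have := h1 m.toNat (by omega) ε hε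
    rw [show ((m.toNat : ℕ) : ℤ) = m by omega] at this
    exact this.trans hδδ
  · -- start at level `m - s`
    rw [An_mark (l := m - s) hR (meas_Psi ℓ σ ε m i) fun X hX => Psi_shift (by omega) hX]
    have hy : ∀ y : Site d, ∫⁻ ω, EK ω (Bl ℓ (m - s)) 0 y *
        ∫⁻ X, Psi ℓ σ ε m i X ∂quenchedLaw ω y ∂(iidEnvironmentLaw ν) ≤
        δ * ∫⁻ ω, EK ω (Bl ℓ (m - s)) 0 y ∂(iidEnvironmentLaw ν) := by
      intro y
      by_cases hy : ℓ y = m - s
      · have h := first_cut hℓ hR hp hAP hy (a := fun ω => EK ω (Bl ℓ (m - s)) 0 y)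
          (measA_EK _ 0 y) (F := Psi ℓ σ ε m i) (meas_Psi ℓ σ ε m i) (Psi_le_one ℓ σ ε m i)
          (G := fun _ => Psi ℓ σ ε m i) (err := fun _ _ => 0) (fun _ => meas_Psi ℓ σ ε m i)
          (fun _ => measurable_const)
          (fun k hk X hX _ _ => by
            rw [add_zero, Psi_shift (by omega) hX]) (H := δ') (fun k hk y' hy' => by
              have e1 : ∫⁻ ω, ∫⁻ X in Ntl ℓ (m - s + k), Psi ℓ σ ε m i X ∂quenchedLaw ω y'
                  ∂(iidEnvironmentLaw ν) ≤ An ν y' (Psi ℓ σ ε m i) :=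
                lintegral_mono fun ω => setLIntegral_le_lintegral _ _
              refine e1.trans ?_
              rw [An_Psi, show m - ℓ y' = ((s - k : ℕ) : ℤ) by rw [hy']; push_cast [hk]; ring]
              exact h1 (s - k) (Nat.sub_le _ _) ε hε)
        refine h.trans ?_
        have h2 : δ' / pN ℓ ν ≤ δ / 2 := by
          rw [ENNReal.div_le_iff hp pN_ne_top]
          exact mul_le_mul' le_rfl (min_le_right _ _)
        simp only [lintegral_zero, mul_zero, Finset.sum_const_zero, add_zero]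
        calc δ' / pN ℓ ν * ∫⁻ ω, EK ω (Bl ℓ (m - s)) 0 y ∂(iidEnvironmentLaw ν) +
              δ / 2 * ∫⁻ ω, EK ω (Bl ℓ (m - s)) 0 y ∂(iidEnvironmentLaw ν)
            ≤ δ / 2 * ∫⁻ ω, EK ω (Bl ℓ (m - s)) 0 y ∂(iidEnvironmentLaw ν) +
              δ / 2 * ∫⁻ ω, EK ω (Bl ℓ (m - s)) 0 y ∂(iidEnvironmentLaw ν) := by gcongr
          _ = _ := by rw [← add_mul, ENNReal.add_halves]
      · have hz : ∀ ω : Environment d, EK ω (Bl ℓ (m - s)) 0 y = 0 := fun ω =>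
          EK_level ℓ hℓ ω (by rw [map_zero]; omega) hy
        simp [hz]
    refine (ENNReal.tsum_le_tsum hy).trans ?_
    rw [ENNReal.tsum_mul_left]
    exact (mul_le_mul' le_rfl (tsum_EK_int _)).trans (by rw [mul_one])

/-! ### the path with the piece between levels `l` and `l + i` removed -/

/-- the path translated to start at `y` -/
def ret (y : Site d) (Z : Path d) : Path d := fun n => Z n - Z 0 + y

lemma measurable_ret (y : Site d) : Measurable (ret y : Path d → Path d) := by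
  refine measurable_pi_lambda _ fun n => ?_
  have h1 : Measurable fun p : Site d × Site d => p.1 - p.2 + y := measurable_of_countable _
  have h2 : Measurable fun Z : Path d => (Z n, Z 0) :=
    (measurable_pi_apply n).prodMk (measurable_pi_apply 0)
  exact h1.comp h2

lemma ret_tr (y w : Site d) (Z : Path d) : ret y (Q561.tr w Z) = ret y Z := by
  funext n
  show Z n + w - (Z 0 + w) + y = Z n - Z 0 + y
  abel

lemma ret_start {y : Site d} {Z : Path d} (h : Z 0 = y) : ret y Z = Z := by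
  funext n
  show Z n - Z 0 + y = Z n
  rw [h]; abel

lemma ret_eq_tr (y : Site d) (Z : Path d) : ret y Z = Q561.tr (y - Z 0) Z := by
  funext n
  show Z n - Z 0 + y = Z n + (y - Z 0)
  abel

lemma ret_nat {F : Path d → ℝ≥0∞} (hF : Measurable F) {y y' : Site d} {l : ℤ} (hy : ℓ y = l)
    {i : ℕ} (h : ℓ y' = l + i) :
    ∫⁻ ω, ∫⁻ X in Ntl ℓ (l + i), F (ret y X) ∂quenchedLaw ω y' ∂(iidEnvironmentLaw ν)
      = ∫⁻ ω, ∫⁻ X in Ntl ℓ l, F X ∂quenchedLaw ω y ∂(iidEnvironmentLaw ν) := by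
  have hFr : Measurable fun X : Path d => F (ret y X) := hF.comp (measurable_ret y)
  have hm : Measurable ((Ntl ℓ (l + i)).indicator fun X : Path d => F (ret y X)) :=
    hFr.indicator (measurableSet_Ntl ℓ _)
  have e1 : ∫⁻ ω, ∫⁻ X in Ntl ℓ (l + i), F (ret y X) ∂quenchedLaw ω y' ∂(iidEnvironmentLaw ν)
      = An ν y' ((Ntl ℓ (l + i)).indicator fun X : Path d => F (ret y X)) := by
    unfold An
    simp only [lintegral_indicator (measurableSet_Ntl ℓ (l + i))]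
  have h2 := An_shift ν hm y (y' - y)
  rw [add_sub_cancel] at h2
  rw [e1, h2]
  unfold An
  refine lintegral_congr fun ω => ?_
  rw [← lintegral_indicator (measurableSet_Ntl ℓ l)]
  refine lintegral_congr_ae ?_
  filter_upwards [quenched_zero_eq ω y] with X h0
  have h3 : Q561.tr (y' - y) X ∈ Ntl ℓ (l + i) ↔ X ∈ Ntl ℓ l := by
    show (∀ n, l + i ≤ ℓ (X n + (y' - y))) ↔ ∀ n, l ≤ ℓ (X n)
    refine forall_congr' fun n => ?_
    rw [map_add, map_sub, h, hy]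
    constructor <;> intro h <;> omega
  by_cases hX : X ∈ Ntl ℓ l
  · rw [Set.indicator_of_mem (h3.2 hX), Set.indicator_of_mem hX, ret_tr, ret_start h0]
  · rw [Set.indicator_of_notMem (fun h => hX (h3.1 h)), Set.indicator_of_notMem hX]

/-- the hypothesis on the functional -/
structure Loc (ℓ : Site d →+ ℤ) (l : ℤ) (t : ℕ) (F : Path d → ℝ≥0∞)
    (err : ℕ → Path d → ℝ≥0∞) : Prop where
  mF : Measurable F
  le1 : ∀ X, F X ≤ 1
  me : ∀ i, Measurable (err i)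
  up : ∀ i ≤ t, ∀ X, X ∈ Reach ℓ → NN X → ℓ (X 0) = l → X ∈ Cut ℓ (l + i) →
    F X ≤ F (ret (X 0) (shift (exT (Bl ℓ (l + i)) X).toNat X)) + err i X
  dn : ∀ i ≤ t, ∀ X, X ∈ Reach ℓ → NN X → ℓ (X 0) = l → X ∈ Cut ℓ (l + i) →
    F (ret (X 0) (shift (exT (Bl ℓ (l + i)) X).toNat X)) ≤ F X + err i X

lemma Loc.compl {l : ℤ} {t : ℕ} {F : Path d → ℝ≥0∞} {err : ℕ → Path d → ℝ≥0∞}
    (h : Loc ℓ l t F err) : Loc ℓ l t (fun X => 1 - F X) err where
  mF := measurable_const.sub h.mF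
  le1 := fun X => tsub_le_self
  me := h.me
  up := by
    intro i hi X hX hnn hl hc
    rw [tsub_le_iff_right]
    calc (1 : ℝ≥0∞) = (1 - F (ret (X 0) (shift (exT (Bl ℓ (l + i)) X).toNat X))) +
          F (ret (X 0) (shift (exT (Bl ℓ (l + i)) X).toNat X)) := (tsub_add_cancel_of_le (h.le1 _)).symm
      _ ≤ (1 - F (ret (X 0) (shift (exT (Bl ℓ (l + i)) X).toNat X))) + (F X + err i X) := by
          gcongr; exact h.dn i hi X hX hnn hl hc
      _ = _ := by ring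
  dn := by
    intro i hi X hX hnn hl hc
    rw [tsub_le_iff_right]
    calc (1 : ℝ≥0∞) = (1 - F X) + F X := (tsub_add_cancel_of_le (h.le1 _)).symm
      _ ≤ (1 - F X) + (F (ret (X 0) (shift (exT (Bl ℓ (l + i)) X).toNat X)) + err i X) := by
          gcongr; exact h.up i hi X hX hnn hl hc
      _ = _ := by ring

/-- natural expectation -/
noncomputable def hN (ν : Measure (Row d)) [IsProbabilityMeasure ν] (ℓ : Site d →+ ℤ) (l : ℤ)
    (F : Path d → ℝ≥0∞) (y : Site d) : ℝ≥0∞ :=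
  ∫⁻ ω, ∫⁻ X in Ntl ℓ l, F X ∂quenchedLaw ω y ∂(iidEnvironmentLaw ν)

/-- upper bound by the natural expectation -/
lemma Loc.upper (hℓ : ∀ e : Step d, |ℓ (stepVec e)| ≤ 1)
    (hR : annealedProb (iidEnvironmentLaw ν) 0 (Reach ℓ) = 1) (hp : pN ℓ ν ≠ 0)
    {t : ℕ} {β : ℝ≥0∞} (hAP : AP ℓ ν t β) {l : ℤ} {F : Path d → ℝ≥0∞} {err : ℕ → Path d → ℝ≥0∞}
    (h : Loc ℓ l t F err) {y : Site d} (hy : ℓ y = l) {a : Environment d → ℝ≥0∞}
    (ha : Measurable[coordSigmaAlgebra (Bl ℓ l)] a) :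
    ∫⁻ ω, a ω * ∫⁻ X, F X ∂quenchedLaw ω y ∂(iidEnvironmentLaw ν)
      ≤ (hN ν ℓ l F y / pN ℓ ν) * ∫⁻ ω, a ω ∂(iidEnvironmentLaw ν)
        + ∑ i ∈ Finset.range (t + 1), ∫⁻ ω, a ω * ∫⁻ X, err i X ∂quenchedLaw ω y
            ∂(iidEnvironmentLaw ν)
        + β * ∫⁻ ω, a ω ∂(iidEnvironmentLaw ν) := by
  refine first_cut_nn hℓ hR hp hAP hy ha h.mF h.le1 (G := fun i Z => F (ret y Z))
    (fun i => h.mF.comp (measurable_ret y)) h.me ?_ ?_
  · intro i hi X hX hnn h0 hc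
    have := h.up i hi X hX hnn (by rw [h0, hy]) hc
    rw [h0] at this
    exact this
  · intro i hi y' hy'
    exact (ret_nat h.mF hy hy').le

lemma An_compl {F : Path d → ℝ≥0∞} (hF : Measurable F) (h1 : ∀ X, F X ≤ 1) (y : Site d) :
    An ν y F + An ν y (fun X => 1 - F X) = 1 := by
  unfold An
  rw [← lintegral_add_left (meas_qlint hF y)]
  have : ∀ ω : Environment d, ∫⁻ X, F X ∂quenchedLaw ω y + ∫⁻ X, (1 - F X) ∂quenchedLaw ω y = 1 := by
    intro ω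
    rw [← lintegral_add_left hF]
    simp only [add_tsub_cancel_of_le (h1 _)]
    simp
  simp only [this]
  simp

lemma hN_compl {F : Path d → ℝ≥0∞} (hF : Measurable F) (h1 : ∀ X, F X ≤ 1) {l : ℤ} {y : Site d}
    (hy : ℓ y = l) : hN ν ℓ l F y + hN ν ℓ l (fun X => 1 - F X) y = pN ℓ ν := by
  unfold hN
  have hm : Measurable fun ω : Environment d => ∫⁻ X in Ntl ℓ l, F X ∂quenchedLaw ω y :=
    coord_meas_top (coordAb_Ntl l y hF)
  rw [← lintegral_add_left hm, ← ann_Ntl' y hy]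
  refine lintegral_congr fun ω => ?_
  rw [← lintegral_add_left hF]
  simp only [add_tsub_cancel_of_le (h1 _)]
  simp

/-- the natural expectation against the annealed one -/
lemma Loc.lower (hℓ : ∀ e : Step d, |ℓ (stepVec e)| ≤ 1)
    (hR : annealedProb (iidEnvironmentLaw ν) 0 (Reach ℓ) = 1) (hp : pN ℓ ν ≠ 0)
    {t : ℕ} {β : ℝ≥0∞} (hAP : AP ℓ ν t β) {l : ℤ} {F : Path d → ℝ≥0∞} {err : ℕ → Path d → ℝ≥0∞}
    (h : Loc ℓ l t F err) {y : Site d} (hy : ℓ y = l) :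
    hN ν ℓ l F y / pN ℓ ν ≤ An ν y F + (∑ i ∈ Finset.range (t + 1), An ν y (err i) + β) := by
  have h1 := h.compl.upper hℓ hR hp hAP hy (a := fun _ => 1) measurable_const
  simp only [one_mul, lintegral_const, measure_univ, mul_one] at h1
  set E := ∑ i ∈ Finset.range (t + 1), An ν y (err i) + β
  have h2 : An ν y (fun X => 1 - F X) ≤ hN ν ℓ l (fun X => 1 - F X) y / pN ℓ ν + E := by
    refine h1.trans ?_
    rw [add_assoc]
    exact le_rfl
  have h3 : hN ν ℓ l F y / pN ℓ ν + hN ν ℓ l (fun X => 1 - F X) y / pN ℓ ν = 1 := by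
    rw [← ENNReal.add_div, hN_compl h.mF h.le1 hy, ENNReal.div_self hp pN_ne_top]
  have hft : hN ν ℓ l (fun X => 1 - F X) y / pN ℓ ν ≠ ⊤ :=
    ne_top_of_le_ne_top ENNReal.one_ne_top (le_add_self.trans h3.le)
  have h4 : hN ν ℓ l F y / pN ℓ ν + hN ν ℓ l (fun X => 1 - F X) y / pN ℓ ν ≤
      (An ν y F + E) + hN ν ℓ l (fun X => 1 - F X) y / pN ℓ ν := by
    rw [h3]
    calc (1 : ℝ≥0∞) = An ν y F + An ν y (fun X => 1 - F X) := (An_compl h.mF h.le1 y).symm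
      _ ≤ An ν y F + (hN ν ℓ l (fun X => 1 - F X) y / pN ℓ ν + E) := by gcongr
      _ = _ := by ring
  exact (ENNReal.add_le_add_iff_right hft).1 h4

/-- **deterministic centring, upper half** -/
theorem Loc.core (hℓ : ∀ e : Step d, |ℓ (stepVec e)| ≤ 1)
    (hR : annealedProb (iidEnvironmentLaw ν) 0 (Reach ℓ) = 1) (hp : pN ℓ ν ≠ 0)
    {t : ℕ} {β : ℝ≥0∞} (hAP : AP ℓ ν t β) {l : ℤ} (hl : 0 ≤ l) {F : Path d → ℝ≥0∞}
    {err : ℕ → Path d → ℝ≥0∞} (h : Loc ℓ l t F err) {η : ℝ≥0∞}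
    (hE1 : ∀ i ≤ t, ∀ y, ℓ y = l → An ν y (err i) ≤ η)
    (hE2 : ∀ i ≤ t, ∑' y, ∫⁻ ω, EK ω (Bl ℓ l) 0 y * ∫⁻ X, err i X ∂quenchedLaw ω y
      ∂(iidEnvironmentLaw ν) ≤ η)
    {a : Site d → Environment d → ℝ≥0∞}
    (ha : ∀ y, Measurable[coordSigmaAlgebra (Bl ℓ l)] (a y))
    (hae : ∀ y ω, a y ω ≤ EK ω (Bl ℓ l) 0 y) :
    ∑' y, ∫⁻ ω, a y ω * ∫⁻ X, F X ∂quenchedLaw ω y ∂(iidEnvironmentLaw ν)
      ≤ ∑' y, (∫⁻ ω, a y ω ∂(iidEnvironmentLaw ν)) * An ν y F + 2 * ((t + 1) * η + β) := by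
  have hA1 : ∑' y, ∫⁻ ω, a y ω ∂(iidEnvironmentLaw ν) ≤ 1 :=
    (ENNReal.tsum_le_tsum fun y => lintegral_mono fun ω => hae y ω).trans (tsum_EK_int l)
  have hy : ∀ y, ∫⁻ ω, a y ω * ∫⁻ X, F X ∂quenchedLaw ω y ∂(iidEnvironmentLaw ν)
      ≤ (∫⁻ ω, a y ω ∂(iidEnvironmentLaw ν)) * An ν y F +
        (((t + 1) * η + β) * (∫⁻ ω, a y ω ∂(iidEnvironmentLaw ν)) +
        (∑ i ∈ Finset.range (t + 1), ∫⁻ ω, EK ω (Bl ℓ l) 0 y * ∫⁻ X, err i X ∂quenchedLaw ω y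
            ∂(iidEnvironmentLaw ν) + β * (∫⁻ ω, a y ω ∂(iidEnvironmentLaw ν)))) := by
    intro y
    by_cases hy : ℓ y = l
    · refine (h.upper hℓ hR hp hAP hy (ha y)).trans ?_
      have h1 : ∑ i ∈ Finset.range (t + 1), An ν y (err i) ≤ (t + 1) * η := by
        calc ∑ i ∈ Finset.range (t + 1), An ν y (err i) ≤ ∑ i ∈ Finset.range (t + 1), η :=
              Finset.sum_le_sum fun i hi => hE1 i (by have := Finset.mem_range.1 hi; omega) y hy
          _ = (t + 1) * η := by simp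
      have h2 : hN ν ℓ l F y / pN ℓ ν ≤ An ν y F + ((t + 1) * η + β) :=
        (h.lower hℓ hR hp hAP hy).trans (by gcongr)
      calc hN ν ℓ l F y / pN ℓ ν * ∫⁻ ω, a y ω ∂(iidEnvironmentLaw ν)
            + ∑ i ∈ Finset.range (t + 1), ∫⁻ ω, a y ω * ∫⁻ X, err i X ∂quenchedLaw ω y
              ∂(iidEnvironmentLaw ν) + β * ∫⁻ ω, a y ω ∂(iidEnvironmentLaw ν)
          ≤ (An ν y F + ((t + 1) * η + β)) * ∫⁻ ω, a y ω ∂(iidEnvironmentLaw ν)
            + ∑ i ∈ Finset.range (t + 1), ∫⁻ ω, EK ω (Bl ℓ l) 0 y * ∫⁻ X, err i X ∂quenchedLaw ω y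
              ∂(iidEnvironmentLaw ν) + β * ∫⁻ ω, a y ω ∂(iidEnvironmentLaw ν) := by
            gcongr
            exact hae y _
        _ = _ := by ring
    · have hz : ∀ ω, a y ω = 0 := fun ω => le_antisymm ((hae y ω).trans
        (EK_level ℓ hℓ ω (by rw [map_zero]; exact hl) hy).le) zero_le
      simp [hz]
  refine (ENNReal.tsum_le_tsum hy).trans ?_
  rw [ENNReal.tsum_add, ENNReal.tsum_add, ENNReal.tsum_add, ENNReal.tsum_mul_left,
    ENNReal.tsum_mul_left]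
  refine add_le_add le_rfl ?_
  have h3 : ∑' y, ∑ i ∈ Finset.range (t + 1), ∫⁻ ω, EK ω (Bl ℓ l) 0 y *
      ∫⁻ X, err i X ∂quenchedLaw ω y ∂(iidEnvironmentLaw ν) ≤ (t + 1) * η := by
    rw [Summable.tsum_finsetSum fun i _ => ENNReal.summable]
    calc ∑ i ∈ Finset.range (t + 1), ∑' y, ∫⁻ ω, EK ω (Bl ℓ l) 0 y *
          ∫⁻ X, err i X ∂quenchedLaw ω y ∂(iidEnvironmentLaw ν)
        ≤ ∑ i ∈ Finset.range (t + 1), η :=
          Finset.sum_le_sum fun i hi => hE2 i (by have := Finset.mem_range.1 hi; omega)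
      _ = (t + 1) * η := by simp
  calc ((t + 1) * η + β) * ∑' y, ∫⁻ ω, a y ω ∂(iidEnvironmentLaw ν) +
        (∑' y, ∑ i ∈ Finset.range (t + 1), ∫⁻ ω, EK ω (Bl ℓ l) 0 y *
          ∫⁻ X, err i X ∂quenchedLaw ω y ∂(iidEnvironmentLaw ν) +
          β * ∑' y, ∫⁻ ω, a y ω ∂(iidEnvironmentLaw ν))
      ≤ ((t + 1) * η + β) * 1 + ((t + 1) * η + β * 1) := by gcongr
    _ = 2 * ((t + 1) * η + β) := by ring

/-- **deterministic centring, lower half** -/
theorem Loc.core' (hℓ : ∀ e : Step d, |ℓ (stepVec e)| ≤ 1)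
    (hR : annealedProb (iidEnvironmentLaw ν) 0 (Reach ℓ) = 1) (hp : pN ℓ ν ≠ 0)
    {t : ℕ} {β : ℝ≥0∞} (hAP : AP ℓ ν t β) {l : ℤ} (hl : 0 ≤ l) {F : Path d → ℝ≥0∞}
    {err : ℕ → Path d → ℝ≥0∞} (h : Loc ℓ l t F err) {η : ℝ≥0∞}
    (hE1 : ∀ i ≤ t, ∀ y, ℓ y = l → An ν y (err i) ≤ η)
    (hE2 : ∀ i ≤ t, ∑' y, ∫⁻ ω, EK ω (Bl ℓ l) 0 y * ∫⁻ X, err i X ∂quenchedLaw ω y
      ∂(iidEnvironmentLaw ν) ≤ η)
    {a : Site d → Environment d → ℝ≥0∞}
    (ha : ∀ y, Measurable[coordSigmaAlgebra (Bl ℓ l)] (a y))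
    (hae : ∀ y ω, a y ω ≤ EK ω (Bl ℓ l) 0 y) :
    ∑' y, (∫⁻ ω, a y ω ∂(iidEnvironmentLaw ν)) * An ν y F
      ≤ ∑' y, ∫⁻ ω, a y ω * ∫⁻ X, F X ∂quenchedLaw ω y ∂(iidEnvironmentLaw ν)
        + 2 * ((t + 1) * η + β) := by
  have hA1 : ∑' y, ∫⁻ ω, a y ω ∂(iidEnvironmentLaw ν) ≤ 1 :=
    (ENNReal.tsum_le_tsum fun y => lintegral_mono fun ω => hae y ω).trans (tsum_EK_int l)
  have h1 := h.compl.core hℓ hR hp hAP hl hE1 hE2 ha hae
  set D := 2 * (((t : ℝ≥0∞) + 1) * η + β)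
  have e1 : ∑' y, ∫⁻ ω, a y ω * ∫⁻ X, F X ∂quenchedLaw ω y ∂(iidEnvironmentLaw ν) +
      ∑' y, ∫⁻ ω, a y ω * ∫⁻ X, (1 - F X) ∂quenchedLaw ω y ∂(iidEnvironmentLaw ν)
      = ∑' y, ∫⁻ ω, a y ω ∂(iidEnvironmentLaw ν) := by
    rw [← ENNReal.tsum_add]
    refine tsum_congr fun y => ?_
    have hm : Measurable fun ω : Environment d => a y ω * ∫⁻ X, F X ∂quenchedLaw ω y :=
      (coord_meas_top (ha y)).mul (meas_qlint h.mF y)
    rw [← lintegral_add_left hm]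
    refine lintegral_congr fun ω => ?_
    rw [← mul_add, ← lintegral_add_left h.mF]
    simp only [add_tsub_cancel_of_le (h.le1 _)]
    simp
  have e2 : ∑' y, (∫⁻ ω, a y ω ∂(iidEnvironmentLaw ν)) * An ν y F +
      ∑' y, (∫⁻ ω, a y ω ∂(iidEnvironmentLaw ν)) * An ν y (fun X => 1 - F X)
      = ∑' y, ∫⁻ ω, a y ω ∂(iidEnvironmentLaw ν) := by
    rw [← ENNReal.tsum_add]
    refine tsum_congr fun y => ?_
    rw [← mul_add, An_compl h.mF h.le1, mul_one]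
  have hft : ∑' y, (∫⁻ ω, a y ω ∂(iidEnvironmentLaw ν)) * An ν y (fun X => 1 - F X) ≠ ⊤ :=
    ne_top_of_le_ne_top ENNReal.one_ne_top ((le_add_self.trans e2.le).trans hA1)
  refine (ENNReal.add_le_add_iff_right hft).1 ?_
  rw [e2, ← e1, add_assoc]
  refine add_le_add le_rfl ?_
  rw [add_comm D]
  exact h1

end an

end Crest.Agent.R154.Phi215
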