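import Crest.Agent.R154.NBDefs_28
import Crest.Agent.R154.WordB_956
import Crest.Agent.R154.Flux1_132

/-! Row 154, ROAD 801 (helper321): the two window lemmas in words, generic form
(`gen2`: local explored walker carries the weight; `gen3`: the runner carries the weight,
thresholds proportional to the conditional weight, Ville in words). -/

set_option autoImplicit false

namespace Crest.Agent.R154.Piece321

open MeasureTheory ProbabilityTheory Crest.ProbabilityR.RandomEnvironment Crest.Agent.R154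
open Crest.Agent.R154.Flux566 (lw endp sitesL measurable_lw)
open Crest.Agent.R154.WordB956 (lw_append sitesL_append endp_add mem_sitesL PF pf_sum_le FH Vis
  pf_FH exists_FH FH_unique tsum_vis vis_le aw_mul pf_ext_le pf_aw_le)
open scoped ENNReal

variable {d : ℕ}

lemma swap3 {α β γ : Type} [Countable α] [Countable β] [Countable γ] {Ω : Type}
    [MeasurableSpace Ω] (μ : Measure Ω) (h : α → β → γ → Ω → ℝ≥0∞)
    (hm : ∀ a b c, Measurable (h a b c)) :
    ∫⁻ ω, ∑' a, ∑' b, ∑' c, h a b c ω ∂μ = ∑' a, ∑' b, ∑' c, ∫⁻ ω, h a b c ω ∂μ := by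
  rw [lintegral_tsum fun a => (Measurable.tsum fun b =>
    Measurable.tsum fun c => hm a b c).aemeasurable]
  refine tsum_congr fun a => ?_
  rw [lintegral_tsum fun b => (Measurable.tsum fun c => hm a b c).aemeasurable]
  refine tsum_congr fun b => ?_
  rw [lintegral_tsum fun c => (hm a b c).aemeasurable]

lemma swap2 {α β : Type} [Countable α] [Countable β] {Ω : Type}
    [MeasurableSpace Ω] (μ : Measure Ω) (h : α → β → Ω → ℝ≥0∞)
    (hm : ∀ a b, Measurable (h a b)) :
    ∫⁻ ω, ∑' a, ∑' b, h a b ω ∂μ = ∑' a, ∑' b, ∫⁻ ω, h a b ω ∂μ := by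
  rw [lintegral_tsum fun a => (Measurable.tsum fun b => hm a b).aemeasurable]
  refine tsum_congr fun a => ?_
  rw [lintegral_tsum fun b => (hm a b).aemeasurable]

open Classical in
/-- weight of the completions from `v` -/
noncomputable def ee (Cc : Site d → Set (List (Step d))) (ω : Environment d) (v : Site d) : ℝ≥0∞ :=
  ∑' δ : List (Step d), if δ ∈ Cc v then lw ω v δ else 0

/-- sites of the local word -/
def V (l : List (Step d)) : Set (Site d) := {z | z ∈ sitesL 0 l}

/-- deep first hits of the local word -/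
def FD (Y0 : Set (Site d)) (G : Set (List (Step d))) (Dp : Set (Site d)) (x : Site d)
    (l : List (Step d)) : Set (List (Step d)) :=
  {r | x ∈ Y0 ∧ r ∈ FH (V l) x ∧ endp x r ∈ Dp ∧ ∃ r2, r ++ r2 ∈ G}

section gen

variable (Cc : Site d → Set (List (Step d))) (Y0 : Set (Site d)) (G L : Set (List (Step d)))
  (Dp : Set (Site d)) (TT : Site d → Set (List (Step d)))

open Classical in
lemma turn_bd
    (hTT : ∀ x ∈ Y0, ∀ r r2 δ, r ++ r2 ∈ G → endp x r ∈ Dp → δ ∈ Cc (endp x r) → r ++ δ ∈ TT x)
    (ω : Environment d) (x : Site d) (l : List (Step d)) :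
    ∑' r, (if r ∈ FD Y0 G Dp x l then lw ω x r * ee Cc ω (endp x r) else 0)
      ≤ ∑' t, (if x ∈ Y0 ∧ t ∈ TT x then lw ω x t else 0) := by
  calc ∑' r, (if r ∈ FD Y0 G Dp x l then lw ω x r * ee Cc ω (endp x r) else 0)
      ≤ ∑' r, (if r ∈ FH (V l) x then ∑' δ, (if x ∈ Y0 ∧ r ++ δ ∈ TT x
          then lw ω x (r ++ δ) else 0) else 0) := by
        refine ENNReal.tsum_le_tsum fun r => ?_
        by_cases h : r ∈ FD Y0 G Dp x l
        · rw [if_pos h, if_pos h.2.1]
          unfold ee
          rw [← ENNReal.tsum_mul_left]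
          refine ENNReal.tsum_le_tsum fun δ => ?_
          by_cases hδ : δ ∈ Cc (endp x r)
          · obtain ⟨r2, hr2⟩ := h.2.2.2
            rw [if_pos hδ, if_pos ⟨h.1, hTT x h.1 r r2 δ hr2 h.2.2.1 hδ⟩, lw_append]
          · rw [if_neg hδ, mul_zero]; exact zero_le
        · rw [if_neg h]; exact zero_le
    _ = ∑' t, (if t ∈ Vis (V l) x then (if x ∈ Y0 ∧ t ∈ TT x then lw ω x t else 0) else 0) :=
        (tsum_vis (V l) x (fun t => if x ∈ Y0 ∧ t ∈ TT x then lw ω x t else 0)).symm
    _ ≤ _ := by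
        refine ENNReal.tsum_le_tsum fun t => ?_
        by_cases h1 : t ∈ Vis (V l) x
        · rw [if_pos h1]
        · rw [if_neg h1]; exact zero_le

open Classical in
lemma vis_bd (hC : ∀ l1 l2, l1 ++ l2 ∈ L → l2 ∈ Cc (endp 0 l1)) (ω : Environment d) (c : ℝ≥0∞) :
    ∑' l, (if l ∈ L ∧ l ∈ Vis {v | ee Cc ω v ≤ c} 0 then lw ω 0 l else 0) ≤ c := by
  refine vis_le ω 0 L _ c fun l1 hl1 => ?_
  calc _ ≤ ee Cc ω (endp 0 l1) := by
        refine ENNReal.tsum_le_tsum fun l2 => ?_
        by_cases h : l1 ++ l2 ∈ L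
        · rw [if_pos h, if_pos (hC _ _ h)]
        · rw [if_neg h]; exact zero_le
    _ ≤ c := hl1.1

lemma vis_of_hit {ω : Environment d} {c : ℝ≥0∞} {x : Site d} {l r : List (Step d)}
    (h1 : endp x r ∈ V l) (h2 : ee Cc ω (endp x r) ≤ c) : l ∈ Vis {v | ee Cc ω v ≤ c} 0 := by
  obtain ⟨l1, e, l2, h3, h4⟩ := mem_sitesL.1 h1
  refine ⟨l1, e :: l2, h3, ?_⟩
  show ee Cc ω (endp 0 l1) ≤ c
  rw [h4]; exact h2

variable (ν : Measure (Row d)) [IsProbabilityMeasure ν]

/-- same = ind up to the first hit -/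
lemma hit_mul {x : Site d} {l r : List (Step d)} (hr : r ∈ FH (V l) x) :
    WordB956.aw (iidEnvironmentLaw ν) 0 l * WordB956.aw (iidEnvironmentLaw ν) x r
      = ∫⁻ ω, lw ω 0 l * lw ω x r ∂(iidEnvironmentLaw ν) := by
  rw [aw_mul]
  intro z hz hz'
  obtain ⟨r1, e, r2, h3, h4⟩ := mem_sitesL.1 hz'
  refine hr.2 r1 (e :: r2) h3 (List.cons_ne_nil _ _) ?_
  rw [h4]; exact hz

/-- the word goes deep at its first visit -/
def Deep (x : Site d) (l g : List (Step d)) : Prop :=
  g ∈ Vis (V l) x ∧ ∀ r r2, g = r ++ r2 → endp x r ∈ V l → endp x r ∈ Dp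

open Classical in
/-- total weight of the runner's words with a deep first visit -/
lemma red (x : Site d) (hx : x ∈ Y0) (l : List (Step d)) (F : List (Step d) → ℝ≥0∞) :
    ∑' g, (if g ∈ G ∧ Deep Dp x l g then F g else 0)
      ≤ ∑' r, (if r ∈ FD Y0 G Dp x l then ∑' r2, (if r ++ r2 ∈ G then F (r ++ r2) else 0)
          else 0) := by
  calc ∑' g, (if g ∈ G ∧ Deep Dp x l g then F g else 0)
      = ∑' g, (if g ∈ Vis (V l) x then (if g ∈ G ∧ Deep Dp x l g then F g else 0) else 0) := by
        refine tsum_congr fun g => ?_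
        by_cases h : g ∈ Vis (V l) x
        · rw [if_pos h]
        · rw [if_neg h, if_neg]
          exact fun h' => h h'.2.1
    _ = ∑' r, (if r ∈ FH (V l) x then ∑' r2, (if r ++ r2 ∈ G ∧ Deep Dp x l (r ++ r2)
          then F (r ++ r2) else 0) else 0) :=
        tsum_vis (V l) x (fun g => if g ∈ G ∧ Deep Dp x l g then F g else 0)
    _ ≤ _ := by
        refine ENNReal.tsum_le_tsum fun r => ?_
        by_cases h : r ∈ FH (V l) x
        · rw [if_pos h]
          by_cases h2 : r ∈ FD Y0 G Dp x l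
          · rw [if_pos h2]
            refine ENNReal.tsum_le_tsum fun r2 => ?_
            by_cases h3 : r ++ r2 ∈ G ∧ Deep Dp x l (r ++ r2)
            · rw [if_pos h3, if_pos h3.1]
            · rw [if_neg h3]; exact zero_le
          · rw [if_neg h2]
            refine le_of_eq (ENNReal.tsum_eq_zero.2 fun r2 => ?_)
            rw [if_neg]
            rintro ⟨h3, h4⟩
            exact h2 ⟨hx, h, h4.2 r r2 rfl h.1, r2, h3⟩
        · rw [if_neg h]; exact zero_le

open Classical in
/-- **(2), generic**: the local (explored) walker carries the weight -/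
theorem gen2 (hG : PF G)
    (hC : ∀ l1 l2, l1 ++ l2 ∈ L → l2 ∈ Cc (endp 0 l1))
    (hTT : ∀ x ∈ Y0, ∀ r r2 δ, r ++ r2 ∈ G → endp x r ∈ Dp → δ ∈ Cc (endp x r) → r ++ δ ∈ TT x)
    (f : Site d → List (Step d) → ℝ≥0∞) (M lam : ℝ≥0∞) (hM : ∀ x l, f x l ≤ M)
    (hf : ∀ l ∈ L, ∑' x, f x l ≤ 1) (h0 : lam ≠ 0) (ht : lam ≠ ⊤) (hL : PF L) :
    ∑' x, ∑' l, ∑' g, (if x ∈ Y0 ∧ l ∈ L ∧ g ∈ G ∧ Deep Dp x l g then
        WordB956.aw (iidEnvironmentLaw ν) 0 l * WordB956.aw (iidEnvironmentLaw ν) x g * f x l
        else 0)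
      ≤ lam + M / lam * ∑' x, ∑' t, (if x ∈ Y0 ∧ t ∈ TT x then
          WordB956.aw (iidEnvironmentLaw ν) x t else 0) := by
  set Q := iidEnvironmentLaw ν with hQ
  have step1 : ∑' x, ∑' l, ∑' g, (if x ∈ Y0 ∧ l ∈ L ∧ g ∈ G ∧ Deep Dp x l g then
        WordB956.aw Q 0 l * WordB956.aw Q x g * f x l else 0)
      ≤ ∑' x, ∑' l, ∑' r, (if l ∈ L ∧ r ∈ FD Y0 G Dp x l then
        f x l * (WordB956.aw Q 0 l * WordB956.aw Q x r) else 0) := by
    refine ENNReal.tsum_le_tsum fun x => ENNReal.tsum_le_tsum fun l => ?_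
    by_cases hx : x ∈ Y0
    · by_cases hl : l ∈ L
      · have e1 : ∑' g, (if x ∈ Y0 ∧ l ∈ L ∧ g ∈ G ∧ Deep Dp x l g then
            WordB956.aw Q 0 l * WordB956.aw Q x g * f x l else 0)
            = f x l * WordB956.aw Q 0 l * ∑' g, (if g ∈ G ∧ Deep Dp x l g then
              WordB956.aw Q x g else 0) := by
          rw [← ENNReal.tsum_mul_left]
          refine tsum_congr fun g => ?_
          by_cases hg : g ∈ G ∧ Deep Dp x l g
          · rw [if_pos ⟨hx, hl, hg⟩, if_pos hg]; ring
          · rw [if_neg hg, if_neg (fun h => hg h.2.2), mul_zero]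
        have e2 : ∑' r, (if l ∈ L ∧ r ∈ FD Y0 G Dp x l then
            f x l * (WordB956.aw Q 0 l * WordB956.aw Q x r) else 0)
            = f x l * WordB956.aw Q 0 l * ∑' r, (if r ∈ FD Y0 G Dp x l then
              WordB956.aw Q x r else 0) := by
          rw [← ENNReal.tsum_mul_left]
          refine tsum_congr fun r => ?_
          by_cases hr : r ∈ FD Y0 G Dp x l
          · rw [if_pos ⟨hl, hr⟩, if_pos hr]; ring
          · rw [if_neg hr, if_neg (fun h => hr h.2), mul_zero]
        rw [e1, e2]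
        refine mul_le_mul_right ?_ _
        refine (red Y0 G Dp x hx l _).trans (ENNReal.tsum_le_tsum fun r => ?_)
        by_cases hr : r ∈ FD Y0 G Dp x l
        · rw [if_pos hr, if_pos hr]
          exact pf_ext_le Q x r (S := {r2 | r ++ r2 ∈ G})
            (fun a ha b hb => hG _ ha b (by simpa [List.append_assoc] using hb))
        · rw [if_neg hr, if_neg hr]
      · refine le_of_eq_of_le (ENNReal.tsum_eq_zero.2 fun g => ?_) zero_le
        rw [if_neg]; exact fun h => hl h.2.1
    · refine le_of_eq_of_le (ENNReal.tsum_eq_zero.2 fun g => ?_) zero_le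
      rw [if_neg]; exact fun h => hx h.1
  refine step1.trans ?_
  have step2 : ∑' x, ∑' l, ∑' r, (if l ∈ L ∧ r ∈ FD Y0 G Dp x l then
        f x l * (WordB956.aw Q 0 l * WordB956.aw Q x r) else 0)
      = ∫⁻ ω, ∑' x, ∑' l, ∑' r, (if l ∈ L ∧ r ∈ FD Y0 G Dp x l then
        f x l * (lw ω 0 l * lw ω x r) else 0) ∂Q := by
    rw [swap3]
    · refine tsum_congr fun x => tsum_congr fun l => tsum_congr fun r => ?_
      by_cases h : l ∈ L ∧ r ∈ FD Y0 G Dp x l
      · simp only [if_pos h]
        have hm : Measurable fun ω : Environment d => lw ω 0 l * lw ω x r :=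
          (measurable_lw _ _).mul (measurable_lw _ _)
        rw [lintegral_const_mul _ hm, hQ, hit_mul ν h.2.2.1]
      · simp only [if_neg h, lintegral_zero]
    · intro x l r
      by_cases h : l ∈ L ∧ r ∈ FD Y0 G Dp x l
      · simp only [if_pos h]
        exact ((measurable_lw _ _).mul (measurable_lw _ _)).const_mul _
      · simp only [if_neg h]; exact measurable_const
  rw [step2]
  have step3 : ∀ ω : Environment d, ∑' x, ∑' l, ∑' r, (if l ∈ L ∧ r ∈ FD Y0 G Dp x l then
        f x l * (lw ω 0 l * lw ω x r) else 0)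
      ≤ lam + M / lam * ∑' x, ∑' t, (if x ∈ Y0 ∧ t ∈ TT x then lw ω x t else 0) := by
    intro ω
    calc ∑' x, ∑' l, ∑' r, (if l ∈ L ∧ r ∈ FD Y0 G Dp x l then
        f x l * (lw ω 0 l * lw ω x r) else 0)
        ≤ ∑' x, ∑' l, ((if l ∈ L ∧ l ∈ Vis {v | ee Cc ω v ≤ lam} 0 then lw ω 0 l else 0) * f x l
          + (if l ∈ L then lw ω 0 l else 0) * (M / lam *
            ∑' t, (if x ∈ Y0 ∧ t ∈ TT x then lw ω x t else 0))) := by
          refine ENNReal.tsum_le_tsum fun x => ENNReal.tsum_le_tsum fun l => ?_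
          by_cases hl : l ∈ L
          · simp only [hl, true_and, if_true]
            calc ∑' r, (if r ∈ FD Y0 G Dp x l then f x l * (lw ω 0 l * lw ω x r) else 0)
                ≤ ∑' r, ((if l ∈ Vis {v | ee Cc ω v ≤ lam} 0 then lw ω 0 l else 0) * f x l
                    * (if r ∈ FD Y0 G Dp x l then lw ω x r else 0)
                  + lw ω 0 l * (M / lam * (if r ∈ FD Y0 G Dp x l then
                    lw ω x r * ee Cc ω (endp x r) else 0))) := by
                  refine ENNReal.tsum_le_tsum fun r => ?_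
                  by_cases hr : r ∈ FD Y0 G Dp x l
                  · simp only [if_pos hr]
                    by_cases he : ee Cc ω (endp x r) ≤ lam
                    · rw [if_pos (vis_of_hit Cc hr.2.1.1 he)]
                      refine le_trans (le_of_eq ?_) le_self_add
                      ring
                    · replace he := (not_le.1 he).le
                      refine le_trans ?_ le_add_self
                      calc f x l * (lw ω 0 l * lw ω x r)
                          ≤ M * (lw ω 0 l * lw ω x r) := mul_le_mul_left (hM x l) _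
                        _ = lw ω 0 l * (M / lam * (lw ω x r * lam)) := by
                            rw [show M / lam * (lw ω x r * lam) = (M / lam * lam) * lw ω x r by
                              ring, ENNReal.div_mul_cancel h0 ht]; ring
                        _ ≤ _ := by gcongr
                  · simp only [if_neg hr, mul_zero, zero_le, add_zero]
              _ = (if l ∈ Vis {v | ee Cc ω v ≤ lam} 0 then lw ω 0 l else 0) * f x l
                    * ∑' r, (if r ∈ FD Y0 G Dp x l then lw ω x r else 0)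
                  + lw ω 0 l * (M / lam * ∑' r, (if r ∈ FD Y0 G Dp x l then
                    lw ω x r * ee Cc ω (endp x r) else 0)) := by
                  rw [ENNReal.tsum_add, ENNReal.tsum_mul_left, ENNReal.tsum_mul_left,
                    ENNReal.tsum_mul_left]
              _ ≤ _ := by
                  refine add_le_add (mul_le_of_le_one_right' ?_)
                    (mul_le_mul_right (mul_le_mul_right ?_ _) _)
                  · refine pf_sum_le ω x ?_
                    exact (pf_FH (V l) x).mono fun r hr => hr.2.1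
                  · exact turn_bd Cc Y0 G Dp TT hTT ω x l
          · refine le_of_eq_of_le (ENNReal.tsum_eq_zero.2 fun g => ?_) zero_le
            rw [if_neg]; exact fun h => hl h.1
      _ = ∑' l, ∑' x, (if l ∈ L ∧ l ∈ Vis {v | ee Cc ω v ≤ lam} 0 then lw ω 0 l else 0) * f x l
          + ∑' x, (∑' l, (if l ∈ L then lw ω 0 l else 0)) * (M / lam *
            ∑' t, (if x ∈ Y0 ∧ t ∈ TT x then lw ω x t else 0)) := by
          simp_rw [ENNReal.tsum_add]
          rw [ENNReal.tsum_comm]
          simp_rw [ENNReal.tsum_mul_right]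
      _ ≤ lam + ∑' x, 1 * (M / lam *
            ∑' t, (if x ∈ Y0 ∧ t ∈ TT x then lw ω x t else 0)) := by
          gcongr with x
          · calc ∑' l, ∑' x, (if l ∈ L ∧ l ∈ Vis {v | ee Cc ω v ≤ lam} 0 then lw ω 0 l else 0)
                  * f x l
                ≤ ∑' l, (if l ∈ L ∧ l ∈ Vis {v | ee Cc ω v ≤ lam} 0 then lw ω 0 l else 0) := by
                  refine ENNReal.tsum_le_tsum fun l => ?_
                  rw [ENNReal.tsum_mul_left]
                  by_cases hl : l ∈ L
                  · exact mul_le_of_le_one_right' (hf l hl)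
                  · rw [if_neg (fun h => hl h.1), zero_mul]
              _ ≤ lam := vis_bd Cc L hC ω lam
          · exact pf_sum_le ω 0 hL
      _ = _ := by
          simp only [one_mul]
          rw [ENNReal.tsum_mul_left]
  refine (lintegral_mono step3).trans (le_of_eq ?_)
  rw [lintegral_add_left measurable_const, lintegral_const, measure_univ, mul_one,
    lintegral_const_mul, swap2]
  · congr 2
    refine tsum_congr fun x => tsum_congr fun t => ?_
    by_cases h : x ∈ Y0 ∧ t ∈ TT x
    · simp only [if_pos h]; rfl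
    · simp only [if_neg h, lintegral_zero]
  · intro x t
    by_cases h : x ∈ Y0 ∧ t ∈ TT x
    · simp only [if_pos h]; exact measurable_lw _ _
    · simp only [if_neg h]; exact measurable_const
  · refine Measurable.tsum fun x => Measurable.tsum fun t => ?_
    by_cases h : x ∈ Y0 ∧ t ∈ TT x
    · simp only [if_pos h]; exact measurable_lw _ _
    · simp only [if_neg h]; exact measurable_const

/-! ### minimal prefixes -/

/-- minimal words with the property `P` -/
def Mn (P : List (Step d) → Prop) : Set (List (Step d)) :=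
  {l | P l ∧ ∀ l1 l2, l = l1 ++ l2 → l2 ≠ [] → ¬ P l1}

lemma pf_Mn (P : List (Step d) → Prop) : PF (Mn P) := by
  intro l hl l' hl'
  by_contra h
  exact hl'.2 l l' rfl h hl.1

lemma exists_Mn {P : List (Step d) → Prop} {l : List (Step d)} (h : P l) :
    ∃ l1 l2, l = l1 ++ l2 ∧ l1 ∈ Mn P := by
  have key : ∀ n : ℕ, ∀ l : List (Step d), l.length ≤ n → P l →
      ∃ l1 l2, l = l1 ++ l2 ∧ l1 ∈ Mn P := by
    intro n
    induction n with
    | zero =>
      intro l hl hP
      have hl' : l = [] := List.length_eq_zero_iff.1 (Nat.le_zero.1 hl)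
      subst hl'
      refine ⟨[], [], rfl, hP, fun a b hab hb => ?_⟩
      exact absurd (List.append_eq_nil_iff.1 hab.symm).2 hb
    | succ n ih =>
      intro l hl hP
      by_cases hm : l ∈ Mn P
      · exact ⟨l, [], (List.append_nil l).symm, hm⟩
      · have : ∃ l1 l2, l = l1 ++ l2 ∧ l2 ≠ [] ∧ P l1 := by
          by_contra hc
          refine hm ⟨hP, fun a b hab hb hPa => hc ⟨a, b, hab, hb, hPa⟩⟩
        obtain ⟨a, b, hab, hb, hPa⟩ := this
        have hlen : a.length ≤ n := by
          have h1 : 0 < b.length := List.length_pos_of_ne_nil hb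
          have h2 : l.length = a.length + b.length := by rw [hab, List.length_append]
          omega
        obtain ⟨c, e, hce, hc⟩ := ih a hlen hPa
        exact ⟨c, e ++ b, by rw [hab, hce, List.append_assoc], hc⟩
  exact key l.length l le_rfl h

open Classical in
lemma ext_le {S : Set (List (Step d))} (hS : PF S) (F : List (Step d) → ℝ≥0∞) :
    ∑' a, (if a ∈ S then ∑' b, F (a ++ b) else 0) ≤ ∑' l, F l := by
  have e1 : ∑' a, (if a ∈ S then ∑' b, F (a ++ b) else 0)
      = ∑' a : S, ∑' b, F (a.1 ++ b) := by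
    rw [← tsum_subtype_eq_of_support_subset (s := S)]
    · exact tsum_congr fun a => if_pos a.2
    · intro a ha
      by_contra h
      exact ha (if_neg h)
  rw [e1, ← ENNReal.tsum_prod (f := fun (a : S) (b : List (Step d)) => F (a.1 ++ b))]
  refine ENNReal.tsum_comp_le_tsum_of_injective (f := fun p : S × List (Step d) => p.1.1 ++ p.2)
    ?_ F
  rintro ⟨⟨a, ha⟩, b⟩ ⟨⟨a', ha'⟩, b'⟩ h
  simp only at h
  have haa : a = a' := by
    rcases List.append_eq_append_iff.1 h with ⟨c, hc, _⟩ | ⟨c, hc, _⟩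
    · have : c = [] := hS a ha c (hc ▸ ha')
      rw [hc, this, List.append_nil]
    · have : c = [] := hS a' ha' c (hc ▸ ha)
      rw [hc, this, List.append_nil]
  subst haa
  have := List.append_cancel_left h
  subst this
  rfl

open Classical in
lemma cover_le (P : List (Step d) → Prop) (F : List (Step d) → ℝ≥0∞) :
    ∑' l, (if P l then F l else 0) ≤ ∑' a, (if a ∈ Mn P then ∑' b, F (a ++ b) else 0) := by
  have e1 : ∑' a, (if a ∈ Mn P then ∑' b, F (a ++ b) else 0)
      = ∑' p : List (Step d) × List (Step d), (if p.1 ∈ Mn P then F (p.1 ++ p.2) else 0) := by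
    rw [ENNReal.tsum_prod (f := fun a b : List (Step d) => if a ∈ Mn P then F (a ++ b) else 0)]
    refine tsum_congr fun a => ?_
    by_cases h : a ∈ Mn P <;> simp [h]
  rw [e1]
  have hex : ∀ l : List (Step d), ∃ p : List (Step d) × List (Step d), p.1 ++ p.2 = l ∧
      (P l → p.1 ∈ Mn P) := by
    intro l
    by_cases h : P l
    · obtain ⟨a, b, hab, ha⟩ := exists_Mn h
      exact ⟨(a, b), hab.symm, fun _ => ha⟩
    · exact ⟨([], l), rfl, fun h' => absurd h' h⟩
  choose g hg1 hg2 using hex
  have hinj : Function.Injective g := by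
    intro l l' h
    rw [← hg1 l, ← hg1 l', h]
  calc ∑' l, (if P l then F l else 0)
      ≤ ∑' l, (if (g l).1 ∈ Mn P then F ((g l).1 ++ (g l).2) else 0) := by
        refine ENNReal.tsum_le_tsum fun l => ?_
        by_cases h : P l
        · rw [if_pos h, if_pos (hg2 l h), hg1]
        · rw [if_neg h]; exact zero_le
    _ ≤ _ := ENNReal.tsum_comp_le_tsum_of_injective hinj
        (fun p : List (Step d) × List (Step d) => if p.1 ∈ Mn P then F (p.1 ++ p.2) else 0)

/-- numbers: the proportional threshold -/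
lemma num3 (M lam m e : ℝ≥0∞) (hM0 : M ≠ 0) (hMt : M ≠ ⊤) (h0 : lam ≠ 0) (ht : lam ≠ ⊤)
    (hm : m ≤ M) :
    m ≤ M / lam * e + ∑' j : ℕ, (if (2 : ℝ≥0∞)⁻¹ ^ (j + 1) * M < m ∧ e ≤ lam * (2 : ℝ≥0∞)⁻¹ ^ j
      then (2 : ℝ≥0∞)⁻¹ ^ j * M else 0) := by
  classical
  by_cases hm0 : m = 0
  · rw [hm0]; exact zero_le
  by_cases he : lam * m ≤ M * e
  · refine le_trans ?_ le_self_add
    calc m = lam * m / lam := by rw [mul_comm, ENNReal.mul_div_cancel_right h0 ht]
      _ ≤ M * e / lam := ENNReal.div_le_div_right he _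
      _ = M / lam * e := by rw [ENNReal.mul_div_right_comm]
  · replace he := (not_le.1 he).le
    have hex : ∃ j : ℕ, (2 : ℝ≥0∞)⁻¹ ^ (j + 1) * M < m := by
      obtain ⟨n, hn⟩ := ENNReal.exists_inv_two_pow_lt (a := m / M)
        (by simp [ENNReal.div_eq_zero_iff, hm0, hMt])
      refine ⟨n, ?_⟩
      calc (2 : ℝ≥0∞)⁻¹ ^ (n + 1) * M ≤ (2 : ℝ≥0∞)⁻¹ ^ n * M := by
            rw [pow_succ]
            refine mul_le_mul_left (mul_le_of_le_one_right' ?_) _
            simp
        _ < m / M * M := by
            exact (ENNReal.mul_lt_mul_iff_left hM0 hMt).2 hn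
        _ = m := ENNReal.div_mul_cancel hM0 hMt
    set j := Nat.find hex with hj
    have hj1 : (2 : ℝ≥0∞)⁻¹ ^ (j + 1) * M < m := Nat.find_spec hex
    have hj2 : m ≤ (2 : ℝ≥0∞)⁻¹ ^ j * M := by
      rcases Nat.eq_zero_or_pos j with h | h
      · rw [h]; simpa using hm
      · obtain ⟨i, hi⟩ : ∃ i, j = i + 1 := ⟨j - 1, by omega⟩
        have := Nat.find_min hex (m := i) (by omega)
        rw [hi]; exact not_lt.1 this
    have hj3 : e ≤ lam * (2 : ℝ≥0∞)⁻¹ ^ j := by
      have h1 : M * e ≤ M * (lam * (2 : ℝ≥0∞)⁻¹ ^ j) := by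
        calc M * e ≤ lam * m := he
          _ ≤ lam * ((2 : ℝ≥0∞)⁻¹ ^ j * M) := by gcongr
          _ = _ := by ring
      calc e = M * e / M := by rw [mul_comm, ENNReal.mul_div_cancel_right hM0 hMt]
        _ ≤ M * (lam * (2 : ℝ≥0∞)⁻¹ ^ j) / M := ENNReal.div_le_div_right h1 _
        _ = _ := by rw [mul_comm, ENNReal.mul_div_cancel_right hM0 hMt]
    refine le_trans ?_ le_add_self
    refine le_trans ?_ (ENNReal.le_tsum j)
    rw [if_pos ⟨hj1, hj3⟩]
    exact hj2

/-- conditional weight of a prefix, numerator -/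
noncomputable def NN (f : Site d → List (Step d) → ℝ≥0∞) (x : Site d) (r : List (Step d)) :
    ℝ≥0∞ := by
  classical
  exact ∑' r2, (if r ++ r2 ∈ G then
    WordB956.aw (iidEnvironmentLaw ν) x (r ++ r2) * f x (r ++ r2) else 0)

/-- conditional weight of a prefix -/
noncomputable def mm (f : Site d → List (Step d) → ℝ≥0∞) (x : Site d) (r : List (Step d)) :
    ℝ≥0∞ :=
  NN G ν f x r / WordB956.aw (iidEnvironmentLaw ν) x r

lemma aw_ne_top (x : Site d) (r : List (Step d)) :
    WordB956.aw (iidEnvironmentLaw ν) x r ≠ ⊤ := by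
  classical
  have h := pf_aw_le (iidEnvironmentLaw ν) x (S := {r}) (fun a ha b hb => by
    simp only [Set.mem_singleton_iff] at ha hb
    subst ha
    simpa using hb)
  refine ne_top_of_le_ne_top ENNReal.one_ne_top (le_trans ?_ h)
  refine le_trans ?_ (ENNReal.le_tsum r)
  simp

lemma NN_le (hG : PF G) (f : Site d → List (Step d) → ℝ≥0∞) (M : ℝ≥0∞) (hM : ∀ x l, f x l ≤ M)
    (x : Site d) (r : List (Step d)) :
    NN G ν f x r ≤ M * WordB956.aw (iidEnvironmentLaw ν) x r := by
  classical
  unfold NN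
  calc _ ≤ ∑' r2, M * (if r2 ∈ {r2 | r ++ r2 ∈ G} then
        WordB956.aw (iidEnvironmentLaw ν) x (r ++ r2) else 0) := by
        refine ENNReal.tsum_le_tsum fun r2 => ?_
        by_cases h : r ++ r2 ∈ G
        · rw [if_pos h, if_pos (show r2 ∈ {r2 | r ++ r2 ∈ G} from h), mul_comm]
          exact mul_le_mul_left (hM _ _) _
        · rw [if_neg h]; exact zero_le
    _ ≤ _ := by
        rw [ENNReal.tsum_mul_left]
        refine mul_le_mul_right ?_ _
        exact pf_ext_le (iidEnvironmentLaw ν) x r (S := {r2 | r ++ r2 ∈ G})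
          (fun a ha b hb => hG _ ha b (by simpa [List.append_assoc] using hb))

lemma NN_eq (hG : PF G) (f : Site d → List (Step d) → ℝ≥0∞) (M : ℝ≥0∞) (hMt : M ≠ ⊤)
    (hM : ∀ x l, f x l ≤ M) (x : Site d) (r : List (Step d)) :
    NN G ν f x r = mm G ν f x r * WordB956.aw (iidEnvironmentLaw ν) x r := by
  unfold mm
  by_cases h : WordB956.aw (iidEnvironmentLaw ν) x r = 0
  · have := NN_le G ν hG f M hM x r
    rw [h, mul_zero] at this ⊢
    exact le_antisymm this zero_le
  · rw [ENNReal.div_mul_cancel h (aw_ne_top ν x r)]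

lemma mm_le (hG : PF G) (f : Site d → List (Step d) → ℝ≥0∞) (M : ℝ≥0∞)
    (hM : ∀ x l, f x l ≤ M) (x : Site d) (r : List (Step d)) :
    mm G ν f x r ≤ M := by
  unfold mm
  exact ENNReal.div_le_of_le_mul (NN_le G ν hG f M hM x r)

open Classical in
/-- Ville in words -/
lemma ville (hG : PF G) (f : Site d → List (Step d) → ℝ≥0∞) (M : ℝ≥0∞) (hMt : M ≠ ⊤)
    (hM : ∀ x l, f x l ≤ M) (x : Site d) (c : ℝ≥0∞) :
    c * ∑' r, (if r ∈ Mn (fun r => c < mm G ν f x r) then
      WordB956.aw (iidEnvironmentLaw ν) x r else 0) ≤ NN G ν f x [] := by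
  rw [← ENNReal.tsum_mul_left]
  calc ∑' r, c * (if r ∈ Mn (fun r => c < mm G ν f x r) then
        WordB956.aw (iidEnvironmentLaw ν) x r else 0)
      ≤ ∑' r, (if r ∈ Mn (fun r => c < mm G ν f x r) then ∑' r2, (if r ++ r2 ∈ G then
        WordB956.aw (iidEnvironmentLaw ν) x (r ++ r2) * f x (r ++ r2) else 0) else 0) := by
        refine ENNReal.tsum_le_tsum fun r => ?_
        by_cases h : r ∈ Mn (fun r => c < mm G ν f x r)
        · rw [if_pos h, if_pos h]
          calc c * WordB956.aw (iidEnvironmentLaw ν) x r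
              ≤ mm G ν f x r * WordB956.aw (iidEnvironmentLaw ν) x r :=
                mul_le_mul_left h.1.le _
            _ = NN G ν f x r := (NN_eq G ν hG f M hMt hM x r).symm
            _ = _ := by unfold NN; congr 1
        · rw [if_neg h, mul_zero]; exact zero_le
    _ ≤ ∑' g, (if g ∈ G then WordB956.aw (iidEnvironmentLaw ν) x g * f x g else 0) :=
        ext_le (pf_Mn _) (fun g => if g ∈ G then
          WordB956.aw (iidEnvironmentLaw ν) x g * f x g else 0)
    _ = NN G ν f x [] := by
        unfold NN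
        refine tsum_congr fun g => ?_
        simp only [List.nil_append]

open Classical in
lemma Rj (ω : Environment d) (x : Site d) (l : List (Step d)) (P : List (Step d) → Prop) :
    ∑' r, (if r ∈ FD Y0 G Dp x l ∧ P r then lw ω x r else 0)
      ≤ ∑' r, (if r ∈ Mn P then lw ω x r else 0) := by
  calc ∑' r, (if r ∈ FD Y0 G Dp x l ∧ P r then lw ω x r else 0)
      = ∑' r, (if P r then (if r ∈ FD Y0 G Dp x l then lw ω x r else 0) else 0) := by
        refine tsum_congr fun r => ?_
        by_cases h1 : P r <;> by_cases h2 : r ∈ FD Y0 G Dp x l <;> simp [h1, h2]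
    _ ≤ ∑' a, (if a ∈ Mn P then ∑' b, (if a ++ b ∈ FD Y0 G Dp x l then lw ω x (a ++ b) else 0)
          else 0) := cover_le P (fun r => if r ∈ FD Y0 G Dp x l then lw ω x r else 0)
    _ ≤ _ := by
        refine ENNReal.tsum_le_tsum fun a => ?_
        by_cases h : a ∈ Mn P
        · rw [if_pos h, if_pos h]
          calc ∑' b, (if a ++ b ∈ FD Y0 G Dp x l then lw ω x (a ++ b) else 0)
              = lw ω x a * ∑' b, (if b ∈ {b | a ++ b ∈ FD Y0 G Dp x l} then
                  lw ω (endp x a) b else 0) := by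
                rw [← ENNReal.tsum_mul_left]
                refine tsum_congr fun b => ?_
                by_cases hb : a ++ b ∈ FD Y0 G Dp x l
                · rw [if_pos hb, if_pos (show b ∈ {b | a ++ b ∈ FD Y0 G Dp x l} from hb),
                    lw_append]
                · rw [if_neg hb, if_neg (show b ∉ {b | a ++ b ∈ FD Y0 G Dp x l} from hb),
                    mul_zero]
            _ ≤ lw ω x a := by
                refine mul_le_of_le_one_right' (pf_sum_le ω _ ?_)
                intro b hb b' hb'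
                refine pf_FH (V l) x (a ++ b) hb.2.1 b' ?_
                rw [List.append_assoc]
                exact hb'.2.1
        · rw [if_neg h, if_neg h]

open Classical in
/-- **(3), generic**: the runner carries the weight -/
theorem gen3 (hG : PF G)
    (hC : ∀ l1 l2, l1 ++ l2 ∈ L → l2 ∈ Cc (endp 0 l1))
    (hTT : ∀ x ∈ Y0, ∀ r r2 δ, r ++ r2 ∈ G → endp x r ∈ Dp → δ ∈ Cc (endp x r) → r ++ δ ∈ TT x)
    (f : Site d → List (Step d) → ℝ≥0∞) (M lam : ℝ≥0∞) (hM : ∀ x l, f x l ≤ M)
    (hM0 : M ≠ 0) (hMt : M ≠ ⊤)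
    (hf : ∀ g ∈ G, ∑' x, f x g ≤ 1) (h0 : lam ≠ 0) (ht : lam ≠ ⊤) (hL : PF L) :
    ∑' x, ∑' l, ∑' g, (if x ∈ Y0 ∧ l ∈ L ∧ g ∈ G ∧ Deep Dp x l g then
        WordB956.aw (iidEnvironmentLaw ν) 0 l * WordB956.aw (iidEnvironmentLaw ν) x g * f x g
        else 0)
      ≤ 4 * lam + M / lam * ∑' x, ∑' t, (if x ∈ Y0 ∧ t ∈ TT x then
          WordB956.aw (iidEnvironmentLaw ν) x t else 0) := by
  set Q := iidEnvironmentLaw ν with hQ
  have step1 : ∑' x, ∑' l, ∑' g, (if x ∈ Y0 ∧ l ∈ L ∧ g ∈ G ∧ Deep Dp x l g then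
        WordB956.aw Q 0 l * WordB956.aw Q x g * f x g else 0)
      ≤ ∑' x, ∑' l, ∑' r, (if l ∈ L ∧ r ∈ FD Y0 G Dp x l then
        mm G ν f x r * (WordB956.aw Q 0 l * WordB956.aw Q x r) else 0) := by
    refine ENNReal.tsum_le_tsum fun x => ENNReal.tsum_le_tsum fun l => ?_
    by_cases hx : x ∈ Y0
    · by_cases hl : l ∈ L
      · have e1 : ∑' g, (if x ∈ Y0 ∧ l ∈ L ∧ g ∈ G ∧ Deep Dp x l g then
            WordB956.aw Q 0 l * WordB956.aw Q x g * f x g else 0)
            = WordB956.aw Q 0 l * ∑' g, (if g ∈ G ∧ Deep Dp x l g then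
              WordB956.aw Q x g * f x g else 0) := by
          rw [← ENNReal.tsum_mul_left]
          refine tsum_congr fun g => ?_
          by_cases hg : g ∈ G ∧ Deep Dp x l g
          · rw [if_pos ⟨hx, hl, hg⟩, if_pos hg]; ring
          · rw [if_neg hg, if_neg (fun h => hg h.2.2), mul_zero]
        have e2 : ∑' r, (if l ∈ L ∧ r ∈ FD Y0 G Dp x l then
            mm G ν f x r * (WordB956.aw Q 0 l * WordB956.aw Q x r) else 0)
            = WordB956.aw Q 0 l * ∑' r, (if r ∈ FD Y0 G Dp x l then
              NN G ν f x r else 0) := by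
          rw [← ENNReal.tsum_mul_left]
          refine tsum_congr fun r => ?_
          by_cases hr : r ∈ FD Y0 G Dp x l
          · rw [if_pos ⟨hl, hr⟩, if_pos hr, NN_eq G ν hG f M hMt hM x r]; ring
          · rw [if_neg hr, if_neg (fun h => hr h.2), mul_zero]
        rw [e1, e2]
        refine mul_le_mul_right ?_ _
        refine (red Y0 G Dp x hx l (fun g => WordB956.aw Q x g * f x g)).trans
          (ENNReal.tsum_le_tsum fun r => ?_)
        by_cases hr : r ∈ FD Y0 G Dp x l
        · rw [if_pos hr, if_pos hr]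
          unfold NN
          exact le_of_eq (by congr 1)
        · rw [if_neg hr, if_neg hr]
      · refine le_of_eq_of_le (ENNReal.tsum_eq_zero.2 fun g => ?_) zero_le
        rw [if_neg]; exact fun h => hl h.2.1
    · refine le_of_eq_of_le (ENNReal.tsum_eq_zero.2 fun g => ?_) zero_le
      rw [if_neg]; exact fun h => hx h.1
  refine step1.trans ?_
  have step2 : ∑' x, ∑' l, ∑' r, (if l ∈ L ∧ r ∈ FD Y0 G Dp x l then
        mm G ν f x r * (WordB956.aw Q 0 l * WordB956.aw Q x r) else 0)
      = ∫⁻ ω, ∑' x, ∑' l, ∑' r, (if l ∈ L ∧ r ∈ FD Y0 G Dp x l then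
        mm G ν f x r * (lw ω 0 l * lw ω x r) else 0) ∂Q := by
    rw [swap3]
    · refine tsum_congr fun x => tsum_congr fun l => tsum_congr fun r => ?_
      by_cases h : l ∈ L ∧ r ∈ FD Y0 G Dp x l
      · simp only [if_pos h]
        have hm : Measurable fun ω : Environment d => lw ω 0 l * lw ω x r :=
          (measurable_lw _ _).mul (measurable_lw _ _)
        rw [lintegral_const_mul _ hm, hQ, hit_mul ν h.2.2.1]
      · simp only [if_neg h, lintegral_zero]
    · intro x l r
      by_cases h : l ∈ L ∧ r ∈ FD Y0 G Dp x l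
      · simp only [if_pos h]
        exact ((measurable_lw _ _).mul (measurable_lw _ _)).const_mul _
      · simp only [if_neg h]; exact measurable_const
  rw [step2]
  -- the classes
  set PP : Site d → ℕ → List (Step d) → Prop := fun x j r =>
    (2 : ℝ≥0∞)⁻¹ ^ (j + 1) * M < mm G ν f x r with hPP
  have step3 : ∀ ω : Environment d, ∑' x, ∑' l, ∑' r, (if l ∈ L ∧ r ∈ FD Y0 G Dp x l then
        mm G ν f x r * (lw ω 0 l * lw ω x r) else 0)
      ≤ M / lam * ∑' x, ∑' t, (if x ∈ Y0 ∧ t ∈ TT x then lw ω x t else 0)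
        + ∑' j : ℕ, ((2 : ℝ≥0∞)⁻¹ ^ j * M * (lam * (2 : ℝ≥0∞)⁻¹ ^ j)) *
          ∑' x, ∑' r, (if r ∈ Mn (PP x j) then lw ω x r else 0) := by
    intro ω
    calc ∑' x, ∑' l, ∑' r, (if l ∈ L ∧ r ∈ FD Y0 G Dp x l then
        mm G ν f x r * (lw ω 0 l * lw ω x r) else 0)
        ≤ ∑' x, ((∑' l, (if l ∈ L then lw ω 0 l else 0)) * (M / lam *
            ∑' t, (if x ∈ Y0 ∧ t ∈ TT x then lw ω x t else 0))
          + ∑' j : ℕ, (2 : ℝ≥0∞)⁻¹ ^ j * M *
            ((∑' l, (if l ∈ L ∧ l ∈ Vis {v | ee Cc ω v ≤ lam * (2 : ℝ≥0∞)⁻¹ ^ j} 0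
              then lw ω 0 l else 0)) *
            ∑' r, (if r ∈ Mn (PP x j) then lw ω x r else 0))) := by
          refine ENNReal.tsum_le_tsum fun x => ?_
          have hswap : ∑' j : ℕ, (2 : ℝ≥0∞)⁻¹ ^ j * M *
            ((∑' l, (if l ∈ L ∧ l ∈ Vis {v | ee Cc ω v ≤ lam * (2 : ℝ≥0∞)⁻¹ ^ j} 0
              then lw ω 0 l else 0)) *
            ∑' r, (if r ∈ Mn (PP x j) then lw ω x r else 0))
            = ∑' l, ∑' j : ℕ, (2 : ℝ≥0∞)⁻¹ ^ j * M *
            ((if l ∈ L ∧ l ∈ Vis {v | ee Cc ω v ≤ lam * (2 : ℝ≥0∞)⁻¹ ^ j} 0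
              then lw ω 0 l else 0) *
            ∑' r, (if r ∈ Mn (PP x j) then lw ω x r else 0)) := by
            rw [ENNReal.tsum_comm]
            refine tsum_congr fun j => ?_
            rw [ENNReal.tsum_mul_left, ENNReal.tsum_mul_right]
          rw [hswap, ← ENNReal.tsum_mul_right, ← ENNReal.tsum_add]
          refine ENNReal.tsum_le_tsum fun l => ?_
          by_cases hl : l ∈ L
          · simp only [hl, true_and, if_true]
            calc ∑' r, (if r ∈ FD Y0 G Dp x l then mm G ν f x r * (lw ω 0 l * lw ω x r) else 0)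
                ≤ ∑' r, (lw ω 0 l * (M / lam * (if r ∈ FD Y0 G Dp x l then
                    lw ω x r * ee Cc ω (endp x r) else 0))
                  + ∑' j : ℕ, (2 : ℝ≥0∞)⁻¹ ^ j * M *
                    ((if l ∈ Vis {v | ee Cc ω v ≤ lam * (2 : ℝ≥0∞)⁻¹ ^ j} 0
                      then lw ω 0 l else 0) *
                    (if r ∈ FD Y0 G Dp x l ∧ PP x j r then lw ω x r else 0))) := by
                  refine ENNReal.tsum_le_tsum fun r => ?_
                  by_cases hr : r ∈ FD Y0 G Dp x l
                  · simp only [if_pos hr, hr, true_and]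
                    calc mm G ν f x r * (lw ω 0 l * lw ω x r)
                        ≤ (M / lam * ee Cc ω (endp x r) + ∑' j : ℕ,
                            (if (2 : ℝ≥0∞)⁻¹ ^ (j + 1) * M < mm G ν f x r ∧
                              ee Cc ω (endp x r) ≤ lam * (2 : ℝ≥0∞)⁻¹ ^ j
                            then (2 : ℝ≥0∞)⁻¹ ^ j * M else 0)) * (lw ω 0 l * lw ω x r) :=
                          mul_le_mul_left (num3 M lam _ _ hM0 hMt h0 ht
                            (mm_le G ν hG f M hM x r)) _
                      _ = lw ω 0 l * (M / lam * (lw ω x r * ee Cc ω (endp x r))) + ∑' j : ℕ,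
                            (if (2 : ℝ≥0∞)⁻¹ ^ (j + 1) * M < mm G ν f x r ∧
                              ee Cc ω (endp x r) ≤ lam * (2 : ℝ≥0∞)⁻¹ ^ j
                            then (2 : ℝ≥0∞)⁻¹ ^ j * M else 0) * (lw ω 0 l * lw ω x r) := by
                          rw [add_mul, ENNReal.tsum_mul_right]; ring
                      _ ≤ _ := by
                          refine add_le_add le_rfl (ENNReal.tsum_le_tsum fun j => ?_)
                          by_cases hj : (2 : ℝ≥0∞)⁻¹ ^ (j + 1) * M < mm G ν f x r ∧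
                              ee Cc ω (endp x r) ≤ lam * (2 : ℝ≥0∞)⁻¹ ^ j
                          · rw [if_pos hj, if_pos (vis_of_hit Cc hr.2.1.1 hj.2),
                              if_pos (show PP x j r from hj.1)]
                          · rw [if_neg hj, zero_mul]; exact zero_le
                  · simp only [if_neg hr, hr, false_and, if_false, mul_zero, zero_le]
              _ = lw ω 0 l * (M / lam * ∑' r, (if r ∈ FD Y0 G Dp x l then
                    lw ω x r * ee Cc ω (endp x r) else 0))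
                  + ∑' j : ℕ, (2 : ℝ≥0∞)⁻¹ ^ j * M *
                    ((if l ∈ Vis {v | ee Cc ω v ≤ lam * (2 : ℝ≥0∞)⁻¹ ^ j} 0
                      then lw ω 0 l else 0) *
                    ∑' r, (if r ∈ FD Y0 G Dp x l ∧ PP x j r then lw ω x r else 0)) := by
                  rw [ENNReal.tsum_add, ENNReal.tsum_mul_left, ENNReal.tsum_mul_left]
                  congr 1
                  rw [ENNReal.tsum_comm]
                  refine tsum_congr fun j => ?_
                  rw [ENNReal.tsum_mul_left, ENNReal.tsum_mul_left]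
              _ ≤ _ := by
                  refine add_le_add (mul_le_mul_right (mul_le_mul_right ?_ _) _)
                    (ENNReal.tsum_le_tsum fun j => mul_le_mul_right
                      (mul_le_mul_right ?_ _) _)
                  · exact turn_bd Cc Y0 G Dp TT hTT ω x l
                  · convert Rj Y0 G Dp ω x l (PP x j)
          · refine le_of_eq_of_le (ENNReal.tsum_eq_zero.2 fun g => ?_) zero_le
            rw [if_neg]; exact fun h => hl h.1
      _ ≤ ∑' x, (1 * (M / lam *
            ∑' t, (if x ∈ Y0 ∧ t ∈ TT x then lw ω x t else 0))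
          + ∑' j : ℕ, (2 : ℝ≥0∞)⁻¹ ^ j * M *
            ((lam * (2 : ℝ≥0∞)⁻¹ ^ j) *
            ∑' r, (if r ∈ Mn (PP x j) then lw ω x r else 0))) := by
          refine ENNReal.tsum_le_tsum fun x => add_le_add (mul_le_mul_left ?_ _)
            (ENNReal.tsum_le_tsum fun j => mul_le_mul_right (mul_le_mul_left ?_ _) _)
          · exact pf_sum_le ω 0 hL
          · exact vis_bd Cc L hC ω _
      _ = _ := by
          rw [ENNReal.tsum_add]
          simp only [one_mul]
          rw [ENNReal.tsum_mul_left]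
          congr 1
          rw [ENNReal.tsum_comm]
          refine tsum_congr fun j => ?_
          rw [← ENNReal.tsum_mul_left]
          refine tsum_congr fun x => ?_
          ring
  refine (lintegral_mono step3).trans ?_
  have mTT : Measurable fun ω : Environment d =>
      ∑' x, ∑' t, (if x ∈ Y0 ∧ t ∈ TT x then lw ω x t else 0) := by
    refine Measurable.tsum fun x => Measurable.tsum fun t => ?_
    by_cases h : x ∈ Y0 ∧ t ∈ TT x
    · simp only [if_pos h]; exact measurable_lw _ _
    · simp only [if_neg h]; exact measurable_const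
  have mMn : ∀ j : ℕ, Measurable fun ω : Environment d =>
      ∑' x, ∑' r, (if r ∈ Mn (PP x j) then lw ω x r else 0) := by
    intro j
    refine Measurable.tsum fun x => Measurable.tsum fun t => ?_
    by_cases h : t ∈ Mn (PP x j)
    · simp only [if_pos h]; exact measurable_lw _ _
    · simp only [if_neg h]; exact measurable_const
  rw [lintegral_add_left (mTT.const_mul _), lintegral_const_mul _ mTT,
    lintegral_tsum (fun j => ((mMn j).const_mul _).aemeasurable), add_comm]
  refine add_le_add ?_ ?_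
  · have hj : ∀ j : ℕ, ∫⁻ ω, ((2 : ℝ≥0∞)⁻¹ ^ j * M * (lam * (2 : ℝ≥0∞)⁻¹ ^ j)) *
          ∑' x, ∑' r, (if r ∈ Mn (PP x j) then lw ω x r else 0) ∂Q
        ≤ 2 * lam * (2 : ℝ≥0∞)⁻¹ ^ j := by
      intro j
      rw [lintegral_const_mul _ (mMn j), swap2]
      · have e1 : ∑' x, ∑' r, ∫⁻ ω, (if r ∈ Mn (PP x j) then lw ω x r else 0) ∂Q
            = ∑' x, ∑' r, (if r ∈ Mn (PP x j) then WordB956.aw Q x r else 0) := by
          refine tsum_congr fun x => tsum_congr fun t => ?_
          by_cases h : t ∈ Mn (PP x j)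
          · simp only [if_pos h]; rfl
          · simp only [if_neg h, lintegral_zero]
        rw [e1]
        have hv : (2 : ℝ≥0∞)⁻¹ ^ (j + 1) * M *
            ∑' x, ∑' r, (if r ∈ Mn (PP x j) then WordB956.aw Q x r else 0) ≤ 1 := by
          rw [← ENNReal.tsum_mul_left]
          calc ∑' x, (2 : ℝ≥0∞)⁻¹ ^ (j + 1) * M *
                ∑' r, (if r ∈ Mn (PP x j) then WordB956.aw Q x r else 0)
              ≤ ∑' x, NN G ν f x [] :=
                ENNReal.tsum_le_tsum fun x => ville G ν hG f M hMt hM x _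
            _ = ∑' g, ∑' x, (if g ∈ G then WordB956.aw Q 0 g * f x g else 0) := by
                rw [ENNReal.tsum_comm]
                refine tsum_congr fun x => ?_
                unfold NN
                refine tsum_congr fun g => ?_
                simp only [List.nil_append]
                rw [WordB956.aw_shift Q (Q561.iid_shift ν) x g]
            _ ≤ ∑' g, (if g ∈ G then WordB956.aw Q 0 g else 0) := by
                refine ENNReal.tsum_le_tsum fun g => ?_
                by_cases hg : g ∈ G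
                · simp only [if_pos hg]
                  rw [ENNReal.tsum_mul_left]
                  exact mul_le_of_le_one_right' (hf g hg)
                · simp only [if_neg hg, tsum_zero, le_refl]
            _ ≤ 1 := pf_aw_le Q 0 hG
        have h22 : (2 : ℝ≥0∞) * (2 : ℝ≥0∞)⁻¹ = 1 :=
          ENNReal.mul_inv_cancel (by norm_num) (by norm_num)
        calc (2 : ℝ≥0∞)⁻¹ ^ j * M * (lam * (2 : ℝ≥0∞)⁻¹ ^ j) *
              ∑' x, ∑' r, (if r ∈ Mn (PP x j) then WordB956.aw Q x r else 0)
            = (2 * (2 : ℝ≥0∞)⁻¹) * ((2 : ℝ≥0∞)⁻¹ ^ j * M * (lam * (2 : ℝ≥0∞)⁻¹ ^ j) *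
              ∑' x, ∑' r, (if r ∈ Mn (PP x j) then WordB956.aw Q x r else 0)) := by
              rw [h22, one_mul]
          _ = 2 * lam * (2 : ℝ≥0∞)⁻¹ ^ j * ((2 : ℝ≥0∞)⁻¹ ^ (j + 1) * M *
              ∑' x, ∑' r, (if r ∈ Mn (PP x j) then WordB956.aw Q x r else 0)) := by
              rw [pow_succ]; ring
          _ ≤ 2 * lam * (2 : ℝ≥0∞)⁻¹ ^ j := mul_le_of_le_one_right' hv
      · intro x t
        by_cases h : t ∈ Mn (PP x j)
        · simp only [if_pos h]; exact measurable_lw _ _
        · simp only [if_neg h]; exact measurable_const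
    refine (ENNReal.tsum_le_tsum hj).trans (le_of_eq ?_)
    rw [ENNReal.tsum_mul_left, ENNReal.tsum_geometric, ENNReal.one_sub_inv_two, inv_inv]
    ring
  · refine mul_le_mul_right (le_of_eq ?_) _
    rw [swap2]
    · refine tsum_congr fun x => tsum_congr fun t => ?_
      by_cases h : x ∈ Y0 ∧ t ∈ TT x
      · simp only [if_pos h]; rfl
      · simp only [if_neg h, lintegral_zero]
    · intro x t
      by_cases h : x ∈ Y0 ∧ t ∈ TT x
      · simp only [if_pos h]; exact measurable_lw _ _
      · simp only [if_neg h]; exact measurable_const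

end gen

end Crest.Agent.R154.Piece321
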