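import Crest.Agent.R154.B5Br_657
import Crest.Agent.R154.AsmA_789

/-! Row 154, ROAD 801, joint-cut frame (helper500): the word side of one piece of EXACT height `H`
(product law on `IsUp u H × IsDn u H`), in helper657's lists. -/

set_option autoImplicit false

open MeasureTheory ProbabilityTheory Crest.ProbabilityR.RandomEnvironment
open scoped ENNReal

namespace Crest.Agent.R154.PieceJ500

open Crest.Agent.R154.B5A
open Crest.Agent.R154.B5W
open Crest.Agent.R154.Flux566 (lw endp sitesL lev_add lev_neg lev_zero lev_self endp_append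
  endp_eq_add measurable_lw locOn_lw)
open Crest.Agent.R154.NB28 (IsUp IsDn Cm KW KappaW)

variable {d : ℕ}

open Classical in
/-- window lemma (2) for pieces of the same exact height: `X` local, all contacts deeper than `s` -/
def W2J (ν : Measure (Row d)) [IsProbabilityMeasure ν] (u : Step d) (C : ℝ≥0∞) (us : ℕ → ℝ≥0∞) :
    Prop :=
  ∀ (s H : ℕ) (E : Finset (Site d)) (μ : Site d → ℝ≥0∞) (M lam : ℝ≥0∞),
    ∑' x, μ x ≤ 1 → (∀ x, μ x ≤ M) → lam ≠ 0 → lam ≠ ⊤ →
    ∑' x : Site d, (if Flux566.lev u x = 0 then μ x * ∑' π : List (Step d), ∑' γ : List (Step d),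
      (if IsUp u H π ∧ endp 0 π ∈ E ∧ IsDn u H γ ∧ (∃ k, k ∈ Cm u x π γ) ∧
        (∀ k ∈ Cm u x π γ, s < k) then NB28.aw ν π * NB28.aw ν γ else 0) else 0)
      ≤ C * (lam + M * E.card * us s / lam + us s)

open Classical in
/-- window lemma (3) for pieces of the same exact height: `Y` local, all contacts at height `≥ s`
above the bottom -/
def W3J (ν : Measure (Row d)) [IsProbabilityMeasure ν] (u : Step d) (C : ℝ≥0∞) (us : ℕ → ℝ≥0∞) :
    Prop :=
  ∀ (s H : ℕ) (E : Finset (Site d)) (μ : Site d → ℝ≥0∞) (M lam : ℝ≥0∞),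
    ∑' x, μ x ≤ 1 → (∀ x, μ x ≤ M) → lam ≠ 0 → lam ≠ ⊤ →
    ∑' x : Site d, (if Flux566.lev u x = 0 then μ x * ∑' π : List (Step d), ∑' γ : List (Step d),
      (if IsUp u H π ∧ IsDn u H γ ∧ endp 0 γ ∈ E ∧ (∃ k, k ∈ Cm u x π γ) ∧
        (∀ k ∈ Cm u x π γ, k + s ≤ H) then NB28.aw ν π * NB28.aw ν γ else 0) else 0)
      ≤ C * (lam + M * E.card * us s / lam + us s)

/-! ### quantiles -/

lemma if_congr' {β : Type*} {p q : Prop} {hp : Decidable p} {hq : Decidable q} {x y : β}
    (h : p ↔ q) : (@ite β p hp x y) = @ite β q hq x y := by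
  by_cases h1 : p
  · rw [if_pos h1, if_pos (h.1 h1)]
  · rw [if_neg h1, if_neg (fun h2 => h1 (h.2 h2))]

open Classical in
lemma quant' {ι : Type*} (p : ι → ℝ≥0∞) (hp : ∑' i, p i ≤ 1) {δ : ℝ≥0∞} (hδ : δ ≠ 0)
    (hδ1 : δ < ∑' i, p i) : ∃ θ : ℝ≥0∞, θ ≠ 0 ∧ θ ≤ 1 ∧ (∑' i, if p i < θ then p i else 0) ≤ δ ∧
      δ ≤ (∑' i, if p i < 2 * θ then p i else 0) := by
  have hex := AsmA789.exists_small p hp hδ
  set P : ℕ → Prop := fun q => (∑' i, if p i < (2 : ℝ≥0∞)⁻¹ ^ q then p i else 0) ≤ δ with hP
  have hex' : ∃ q, P q := hex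
  have hq := Nat.find_spec hex'
  refine ⟨(2 : ℝ≥0∞)⁻¹ ^ Nat.find hex', ?_, ?_, hq, ?_⟩
  · exact pow_ne_zero _ (by simp)
  · exact pow_le_one' (by simp) _
  · rcases Nat.eq_zero_or_pos (Nat.find hex') with h0 | hpos
    · rw [h0, pow_zero, mul_one]
      have : ∀ i, p i < 2 := by
        intro i
        calc p i ≤ ∑' i, p i := ENNReal.le_tsum i
          _ ≤ 1 := hp
          _ < 2 := by norm_num
      simp only [this, if_true]
      exact hδ1.le
    · obtain ⟨r, hr⟩ := Nat.exists_eq_succ_of_ne_zero hpos.ne'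
      have hnot : ¬ P r := Nat.find_min hex' (by omega)
      have e : 2 * (2 : ℝ≥0∞)⁻¹ ^ Nat.find hex' = (2 : ℝ≥0∞)⁻¹ ^ r := by
        rw [hr, Nat.succ_eq_add_one, pow_succ, mul_comm ((2 : ℝ≥0∞)⁻¹ ^ r), ← mul_assoc,
          ENNReal.mul_inv_cancel (by norm_num) (by norm_num), one_mul]
      rw [e]
      exact (not_le.1 hnot).le

section law

variable {α V : Type*} (a : α → ℝ≥0∞) (P : α → Prop) (e : α → V)

open Classical in
/-- law of the displacement -/
noncomputable def pl (z : V) : ℝ≥0∞ := ∑' l, if P l ∧ e l = z then a l else 0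

open Classical in
lemma sum_pl_if (R : V → Prop) :
    ∑' z, (if R z then pl a P e z else 0) = ∑' l, if P l ∧ R (e l) then a l else 0 := by
  have h1 : ∀ z, (if R z then pl a P e z else 0)
      = ∑' l, if R z then (if P l ∧ e l = z then a l else 0) else 0 := by
    intro z
    by_cases h : R z
    · simp only [h, if_true, pl]
    · simp only [h, if_false, tsum_zero]
  simp_rw [h1]
  rw [ENNReal.tsum_comm]
  refine tsum_congr fun l => ?_
  rw [tsum_eq_single (e l)]
  · by_cases h2 : P l <;> by_cases h3 : R (e l) <;> simp [h2, h3]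
  · intro z hz
    have : ¬ (P l ∧ e l = z) := fun h => hz h.2.symm
    simp [this]

open Classical in
lemma sum_pl : ∑' z, pl a P e z = ∑' l, if P l then a l else 0 := by
  have h := sum_pl_if a P e (fun _ => True)
  simpa using h

open Classical in
/-- quantile data of a law of total mass in `(δ, 1]` -/
lemma qdata (h1 : ∑' l, (if P l then a l else 0) ≤ 1) {δ : ℝ≥0∞} (hδ : δ ≠ 0)
    (hδ1 : δ < ∑' l, (if P l then a l else 0)) :
    ∃ (θ : ℝ≥0∞) (E : Finset V), θ ≠ 0 ∧ θ ≤ 1 ∧ (E.card : ℝ≥0∞) * θ ≤ 1 ∧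
      (∑' l, if P l ∧ e l ∉ E then a l else 0) ≤ δ ∧
      δ ≤ ∑' l, if P l ∧ pl a P e (e l) < 2 * θ then a l else 0 := by
  rw [← sum_pl a P e] at h1 hδ1
  obtain ⟨θ, h2, h3, h4, h5⟩ := quant' (pl a P e) h1 hδ hδ1
  obtain ⟨hf, hc⟩ := AsmA789.card_le (pl a P e) h1 h2
  refine ⟨θ, hf.toFinset, h2, h3, ?_, ?_, ?_⟩
  · rwa [Set.ncard_eq_toFinset_card _ hf] at hc
  · have := sum_pl_if a P e (fun z => pl a P e z < θ)
    have h4' : (∑' l, if P l ∧ pl a P e (e l) < θ then a l else 0) ≤ δ := by
      refine le_trans (le_of_eq ?_) h4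
      refine Eq.trans ?_ (this.symm.trans ?_)
      · exact tsum_congr fun l => by congr
      · exact tsum_congr fun z => by congr
    refine le_trans (le_of_eq ?_) h4'
    refine tsum_congr fun l => ?_
    simp
  · have := sum_pl_if a P e (fun z => pl a P e z < 2 * θ)
    refine h5.trans (le_of_eq ?_)
    refine Eq.trans ?_ (this.trans ?_)
    · exact tsum_congr fun l => by congr
    · exact tsum_congr fun z => by congr

end law

/-! ### lists -/

lemma act_cat (u : Step d) (L : List (PB u)) (w : Lat u) :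
    (act (dl u) L w).1 = dlp (cat L) w.1 := by
  induction L generalizing w with
  | nil => simp [act, cat, dlp, endp]
  | cons b L ih =>
    change (act (dl u) L (dl u b w)).1 = _
    rw [ih]
    simp only [cat, pm, dlp, dl]
    rw [endp_append, endp_append, endp_eq_add b.1.1 (endp 0 (cat L).1),
      endp_eq_add (cat L).2 (endp 0 b.1.2)]
    abel

variable (ν : Measure (Row d)) [IsProbabilityMeasure ν] (u : Step d)

open Classical in
/-- sums over lists of height `n` with a predicate on the pair -/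
lemma tsum_Lp (n : ℕ) (R : List (Step d) × List (Step d) → Prop) :
    ∑' L : List (PB u), (if HT (ht u) L = n ∧ R (cat L) then LW (Lam ν u) L else 0)
      = ∑' π : List (Step d), ∑' γ : List (Step d),
        if (IsUp u n π ∧ IsDn u n γ) ∧ R (π, γ) then NB28.aw ν π * NB28.aw ν γ else 0 := by
  have h := tsum_L ν u n (fun x => if R x then 1 else 0)
  refine Eq.trans ?_ (h.trans ?_)
  · refine tsum_congr fun L => ?_
    by_cases h1 : HT (ht u) L = n <;> by_cases h2 : R (cat L) <;> simp [h1, h2]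
  · refine tsum_congr fun π => tsum_congr fun γ => ?_
    by_cases h1 : IsUp u n π ∧ IsDn u n γ <;> by_cases h2 : R (π, γ) <;> simp [h1, h2]

open Classical in
lemma up_le_one (n : ℕ) : ∑' π : List (Step d), (if IsUp u n π then NB28.aw ν π else 0) ≤ 1 :=
  sum_if_le_one ν fun l l' h h' hp => NB28.isUp_prefix h h' hp

open Classical in
lemma dn_le_one (n : ℕ) : ∑' π : List (Step d), (if IsDn u n π then NB28.aw ν π else 0) ≤ 1 :=
  sum_if_le_one ν fun l l' h h' hp => NB28.isDn_prefix h h' hp

open Classical in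
/-- product of two single sums -/
lemma prod_le (A B : List (Step d) → Prop) (R : List (Step d) → List (Step d) → Prop)
    (hR : ∀ π γ, R π γ → A π ∧ B γ) :
    ∑' π : List (Step d), ∑' γ : List (Step d),
      (if R π γ then NB28.aw ν π * NB28.aw ν γ else 0)
      ≤ (∑' π : List (Step d), if A π then NB28.aw ν π else 0)
        * ∑' γ : List (Step d), if B γ then NB28.aw ν γ else 0 := by
  rw [← ENNReal.tsum_mul_right]
  refine ENNReal.tsum_le_tsum fun π => ?_
  rw [← ENNReal.tsum_mul_left]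
  refine ENNReal.tsum_le_tsum fun γ => ?_
  by_cases h : R π γ
  · rw [if_pos h, if_pos (hR _ _ h).1, if_pos (hR _ _ h).2]
  · rw [if_neg h]; exact zero_le

/-- **one piece of exact height.** -/
structure Piece (Λ : PB u → ℝ≥0∞) (c δ C : ℝ≥0∞) (us : ℕ → ℝ≥0∞) (H : ℕ) : Prop where
  ex : ∃ (th : Bool → ℝ≥0∞) (S : Bool → Set (List (PB u))) (Qp : ℕ → Bool → Lat u → ℝ≥0∞),
    (∀ i, th i ≠ 0 ∧ th i ≠ ⊤) ∧
    (∀ i, ∀ P ∈ S i, HT (ht u) P = H) ∧
    (∀ i w w'', (open Classical in
      ∑' P : List (PB u), (if P ∈ S i ∧ act (dl u) P w = w'' then LW Λ P else 0)) ≤ 2 * th i) ∧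
    (∀ i, c * δ ≤ (open Classical in ∑' P : List (PB u), (if P ∈ S i then LW Λ P else 0))) ∧
    (∀ s w, (open Classical in
      ∑' L : List (PB u), (if HT (ht u) L = H ∧ CD (ht u) (dl u) (cd u) L w ≠ ∅ ∧
        (∀ k ∈ CD (ht u) (dl u) (cd u) L w, s < k ∧ k + s ≤ H) then LW Λ L else 0))
      ≤ δ * δ + Qp s false w + Qp s true w) ∧
    (∀ s i w, Qp s i w ≤ 1) ∧
    (∀ s i (μ : Lat u → ℝ≥0∞) (M lam : ℝ≥0∞), ∑' w, μ w ≤ 1 → (∀ w, μ w ≤ M) → lam ≠ 0 →
      lam ≠ ⊤ → ∑' w, μ w * Qp s i w ≤ C * (lam + M * (th i)⁻¹ * us s / lam + us s))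

open Classical in
lemma ext_sum (μ : Lat u → ℝ≥0∞) (Q : Site d → ℝ≥0∞) :
    ∑' w : Lat u, μ w * Q w.1
      = ∑' x : Site d, (if Flux566.lev u x = 0 then
        (if h : Flux566.lev u x = 0 then μ ⟨x, h⟩ else 0) * Q x else 0) := by
  have h1 := tsum_subtype {x : Site d | Flux566.lev u x = 0}
    (fun x => (if h : Flux566.lev u x = 0 then μ ⟨x, h⟩ else 0) * Q x)
  refine Eq.trans ?_ (h1.trans ?_)
  · change ∑' w : {x : Site d // Flux566.lev u x = 0}, _ = _
    refine tsum_congr fun w => ?_
    have hw : Flux566.lev u w.1 = 0 := w.2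
    rw [dif_pos hw]
  · refine tsum_congr fun x => ?_
    by_cases h : Flux566.lev u x = 0
    · rw [if_pos h, Set.indicator_of_mem (by exact h)]
    · rw [if_neg h, Set.indicator_of_notMem (by exact h)]

open Classical in
lemma ext_tot (μ : Lat u → ℝ≥0∞) :
    ∑' x : Site d, (if h : Flux566.lev u x = 0 then μ ⟨x, h⟩ else 0) = ∑' w, μ w := by
  have h1 := ext_sum u μ (fun _ => 1)
  simp only [mul_one] at h1
  rw [h1]
  refine tsum_congr fun x => ?_
  by_cases h : Flux566.lev u x = 0
  · rw [if_pos h]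
  · rw [if_neg h, dif_neg h]

open Classical in
theorem piece (c : ℝ≥0∞)
    (hup : ∀ n, c ≤ ∑' π : List (Step d), if IsUp u n π then NB28.aw ν π else 0)
    (hdn : ∀ n, c ≤ ∑' γ : List (Step d), if IsDn u n γ then NB28.aw ν γ else 0)
    (C : ℝ≥0∞) (us : ℕ → ℝ≥0∞) (h2 : W2J ν u C us) (h3 : W3J ν u C us)
    (δ : ℝ≥0∞) (hδ : δ ≠ 0) (hδc : δ < c) (H : ℕ) :
    Piece u (Lam ν u) c δ C us H := by
  obtain ⟨θX, EX, x1, x2, x3, x4, x5⟩ := qdata (NB28.aw ν) (IsUp u H) (endp 0)
    (up_le_one ν u H) hδ (hδc.trans_le (hup H))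
  obtain ⟨θY, EY, y1, y2, y3, y4, y5⟩ := qdata (NB28.aw ν) (IsDn u H) (endp 0)
    (dn_le_one ν u H) hδ (hδc.trans_le (hdn H))
  set RX : List (Step d) → Prop :=
    fun π => pl (NB28.aw ν) (IsUp u H) (endp 0) (endp 0 π) < 2 * θX with hRX
  set RY : List (Step d) → Prop :=
    fun γ => pl (NB28.aw ν) (IsDn u H) (endp 0) (endp 0 γ) < 2 * θY with hRY
  set QX : ℕ → Site d → ℝ≥0∞ := fun s x => ∑' π : List (Step d), ∑' γ : List (Step d),
      (if IsUp u H π ∧ endp 0 π ∈ EX ∧ IsDn u H γ ∧ (∃ k, k ∈ Cm u x π γ) ∧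
        (∀ k ∈ Cm u x π γ, s < k) then NB28.aw ν π * NB28.aw ν γ else 0) with hQX
  set QY : ℕ → Site d → ℝ≥0∞ := fun s x => ∑' π : List (Step d), ∑' γ : List (Step d),
      (if IsUp u H π ∧ IsDn u H γ ∧ endp 0 γ ∈ EY ∧ (∃ k, k ∈ Cm u x π γ) ∧
        (∀ k ∈ Cm u x π γ, k + s ≤ H) then NB28.aw ν π * NB28.aw ν γ else 0) with hQY
  have hub : ∀ (R : List (Step d) → List (Step d) → Prop),
      (∀ π γ, R π γ → IsUp u H π ∧ IsDn u H γ) →
      ∑' π : List (Step d), ∑' γ : List (Step d),
        (if R π γ then NB28.aw ν π * NB28.aw ν γ else 0) ≤ 1 := by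
    intro R hR
    refine (prod_le ν (IsUp u H) (IsDn u H) R hR).trans ?_
    exact mul_le_one' (up_le_one ν u H) (dn_le_one ν u H)
  refine ⟨⟨fun i => if i then θY else θX,
    fun i => if i then {P | HT (ht u) P = H ∧ RY (cat P).2} else {P | HT (ht u) P = H ∧ RX (cat P).1},
    fun s i w => if i then QY s w.1 else QX s w.1, ?_, ?_, ?_, ?_, ?_, ?_, ?_⟩⟩
  · intro i
    cases i
    · exact ⟨x1, ne_top_of_le_ne_top ENNReal.one_ne_top x2⟩
    · exact ⟨y1, ne_top_of_le_ne_top ENNReal.one_ne_top y2⟩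
  · intro i P hP
    cases i
    · exact hP.1
    · exact hP.1
  · intro i w w''
    cases i
    · -- X low
      have e1 := tsum_Lp ν u H (fun x => RX x.1 ∧ dlp x w.1 = w''.1)
      refine (le_of_eq (Eq.trans (tsum_congr fun L => ?_) e1)).trans ?_
      · have e3 : act (dl u) L w = w'' ↔ dlp (cat L) w.1 = w''.1 := by
          rw [← act_cat]
          exact ⟨fun h => by rw [h], fun h => Subtype.ext h⟩
        refine if_congr' ?_
        simp only [Bool.false_eq_true, if_false, Set.mem_ofPred_eq, e3, and_assoc]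
      rw [ENNReal.tsum_comm]
      calc _ ≤ ∑' γ : List (Step d), (if IsDn u H γ then NB28.aw ν γ else 0) * (2 * θX) := by
            refine ENNReal.tsum_le_tsum fun γ => ?_
            by_cases hγ : IsDn u H γ
            · rw [if_pos hγ]
              set z : Site d := w''.1 - w.1 - endp 0 γ with hz
              by_cases hlow : pl (NB28.aw ν) (IsUp u H) (endp 0) z < 2 * θX
              · calc _ ≤ ∑' π : List (Step d), NB28.aw ν γ *
                      (if IsUp u H π ∧ endp 0 π = z then NB28.aw ν π else 0) := by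
                      refine ENNReal.tsum_le_tsum fun π => ?_
                      by_cases h : (IsUp u H π ∧ IsDn u H γ) ∧ (RX π ∧ dlp (π, γ) w.1 = w''.1)
                      · have h4 : endp 0 π = z := by
                          have := h.2.2
                          simp only [dlp] at this
                          rw [hz, ← this]; abel
                        rw [if_pos h, if_pos ⟨h.1.1, h4⟩, mul_comm]
                      · rw [if_neg h]; exact zero_le
                  _ = NB28.aw ν γ * pl (NB28.aw ν) (IsUp u H) (endp 0) z := by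
                      rw [ENNReal.tsum_mul_left, pl]
                      congr 1
                      exact tsum_congr fun i => if_congr' Iff.rfl
                  _ ≤ _ := mul_le_mul_right hlow.le _
              · refine le_trans (le_of_eq ?_) zero_le
                refine ENNReal.tsum_eq_zero.2 fun π => ?_
                rw [if_neg]
                rintro ⟨⟨h4, h5⟩, h6, h7⟩
                apply hlow
                have h8 : endp 0 π = z := by
                  simp only [dlp] at h7
                  rw [hz, ← h7]; abel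
                rw [← h8]
                exact h6
            · rw [if_neg hγ, zero_mul]
              refine le_of_eq (ENNReal.tsum_eq_zero.2 fun π => ?_)
              rw [if_neg (fun h => hγ h.1.2)]
        _ = (∑' γ : List (Step d), (if IsDn u H γ then NB28.aw ν γ else 0)) * (2 * θX) :=
            ENNReal.tsum_mul_right
        _ ≤ 1 * (2 * θX) := mul_le_mul_left (dn_le_one ν u H) _
        _ = 2 * θX := one_mul _
    · -- Y low
      have e1 := tsum_Lp ν u H (fun x => RY x.2 ∧ dlp x w.1 = w''.1)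
      refine (le_of_eq (Eq.trans (tsum_congr fun L => ?_) e1)).trans ?_
      · have e3 : act (dl u) L w = w'' ↔ dlp (cat L) w.1 = w''.1 := by
          rw [← act_cat]
          exact ⟨fun h => by rw [h], fun h => Subtype.ext h⟩
        refine if_congr' ?_
        simp only [if_true, Set.mem_ofPred_eq, e3, and_assoc]
      calc _ ≤ ∑' π : List (Step d), (if IsUp u H π then NB28.aw ν π else 0) * (2 * θY) := by
            refine ENNReal.tsum_le_tsum fun π => ?_
            by_cases hπ : IsUp u H π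
            · rw [if_pos hπ]
              set z : Site d := w''.1 - w.1 - endp 0 π with hz
              by_cases hlow : pl (NB28.aw ν) (IsDn u H) (endp 0) z < 2 * θY
              · calc _ ≤ ∑' γ : List (Step d), NB28.aw ν π *
                      (if IsDn u H γ ∧ endp 0 γ = z then NB28.aw ν γ else 0) := by
                      refine ENNReal.tsum_le_tsum fun γ => ?_
                      by_cases h : (IsUp u H π ∧ IsDn u H γ) ∧ (RY γ ∧ dlp (π, γ) w.1 = w''.1)
                      · have h4 : endp 0 γ = z := by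
                          have := h.2.2
                          simp only [dlp] at this
                          rw [hz, ← this]; abel
                        rw [if_pos h, if_pos ⟨h.1.2, h4⟩]
                      · rw [if_neg h]; exact zero_le
                  _ = NB28.aw ν π * pl (NB28.aw ν) (IsDn u H) (endp 0) z := by
                      rw [ENNReal.tsum_mul_left, pl]
                      congr 1
                      exact tsum_congr fun i => if_congr' Iff.rfl
                  _ ≤ _ := mul_le_mul_right hlow.le _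
              · refine le_trans (le_of_eq ?_) zero_le
                refine ENNReal.tsum_eq_zero.2 fun γ => ?_
                rw [if_neg]
                rintro ⟨⟨h4, h5⟩, h6, h7⟩
                apply hlow
                have h8 : endp 0 γ = z := by
                  simp only [dlp] at h7
                  rw [hz, ← h7]; abel
                rw [← h8]
                exact h6
            · rw [if_neg hπ, zero_mul]
              refine le_of_eq (ENNReal.tsum_eq_zero.2 fun γ => ?_)
              rw [if_neg (fun h => hπ h.1.1)]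
        _ = (∑' γ : List (Step d), (if IsUp u H γ then NB28.aw ν γ else 0)) * (2 * θY) :=
            ENNReal.tsum_mul_right
        _ ≤ 1 * (2 * θY) := mul_le_mul_left (up_le_one ν u H) _
        _ = 2 * θY := one_mul _
  · intro i
    cases i
    · have e1 := tsum_Lp ν u H (fun x => RX x.1)
      refine le_trans ?_ (le_of_eq (Eq.trans (tsum_congr fun L => ?_) e1).symm)
      rotate_left
      · refine if_congr' ?_
        simp only [Bool.false_eq_true, if_false, Set.mem_ofPred_eq]
      have k1 : c * δ ≤ (∑' γ : List (Step d), if IsDn u H γ then NB28.aw ν γ else 0)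
            * (∑' π : List (Step d), if IsUp u H π ∧ RX π then NB28.aw ν π else 0) :=
        mul_le_mul' (hdn H) (x5.trans (le_of_eq (tsum_congr fun i => if_congr' Iff.rfl)))
      refine k1.trans (le_of_eq ?_)
      rw [mul_comm, ← ENNReal.tsum_mul_right]
      refine tsum_congr fun π => ?_
      rw [← ENNReal.tsum_mul_left]
      refine tsum_congr fun γ => ?_
      by_cases g1 : IsUp u H π <;> by_cases g2 : IsDn u H γ <;> by_cases g3 : RX π <;>
        simp [g1, g2, g3]
    · have e1 := tsum_Lp ν u H (fun x => RY x.2)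
      refine le_trans ?_ (le_of_eq (Eq.trans (tsum_congr fun L => ?_) e1).symm)
      rotate_left
      · refine if_congr' ?_
        simp only [if_true, Set.mem_ofPred_eq]
      have k1 : c * δ ≤ (∑' π : List (Step d), if IsUp u H π then NB28.aw ν π else 0)
            * (∑' γ : List (Step d), if IsDn u H γ ∧ RY γ then NB28.aw ν γ else 0) :=
        mul_le_mul' (hup H) (y5.trans (le_of_eq (tsum_congr fun i => if_congr' Iff.rfl)))
      refine k1.trans (le_of_eq ?_)
      rw [← ENNReal.tsum_mul_right]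
      refine tsum_congr fun π => ?_
      rw [← ENNReal.tsum_mul_left]
      refine tsum_congr fun γ => ?_
      by_cases g1 : IsUp u H π <;> by_cases g2 : IsDn u H γ <;> by_cases g3 : RY γ <;>
        simp [g1, g2, g3]
  · intro s w
    have e1 := tsum_Lp ν u H (fun x => cds u x w.1 ≠ ∅ ∧
      (∀ k ∈ cds u x w.1, s < k ∧ k + s ≤ H))
    simp_rw [CD_cat]
    refine (le_of_eq (Eq.trans (tsum_congr fun L => if_congr' Iff.rfl) e1)).trans ?_
    have hnn : ∑' π : List (Step d), ∑' γ : List (Step d),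
        (if (IsUp u H π ∧ endp 0 π ∉ EX) ∧ (IsDn u H γ ∧ endp 0 γ ∉ EY)
          then NB28.aw ν π * NB28.aw ν γ else 0) ≤ δ * δ :=
      (le_of_eq (tsum_congr fun π => tsum_congr fun γ => if_congr' Iff.rfl)).trans
      ((prod_le ν (fun π => IsUp u H π ∧ endp 0 π ∉ EX) (fun γ => IsDn u H γ ∧ endp 0 γ ∉ EY)
        (fun π γ => (IsUp u H π ∧ endp 0 π ∉ EX) ∧ (IsDn u H γ ∧ endp 0 γ ∉ EY))
        (fun π γ h => h)).trans (mul_le_mul'
          ((le_of_eq (tsum_congr fun i => if_congr' Iff.rfl)).trans x4)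
          ((le_of_eq (tsum_congr fun i => if_congr' Iff.rfl)).trans y4)))
    simp only [Bool.false_eq_true, if_false, if_true]
    refine le_trans ?_ (add_le_add (add_le_add hnn le_rfl) le_rfl)
    rw [hQX, hQY, ← ENNReal.tsum_add, ← ENNReal.tsum_add]
    refine ENNReal.tsum_le_tsum fun π => ?_
    rw [← ENNReal.tsum_add, ← ENNReal.tsum_add]
    refine ENNReal.tsum_le_tsum fun γ => ?_
    simp only [cds_eq]
    by_cases h : (IsUp u H π ∧ IsDn u H γ) ∧ Cm u w.1 π γ ≠ ∅ ∧
        (∀ k ∈ Cm u w.1 π γ, s < k ∧ k + s ≤ H)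
    · rw [if_pos h]
      obtain ⟨⟨g1, g2⟩, g3, g4⟩ := h
      have g5 : ∃ k, k ∈ Cm u w.1 π γ := Set.nonempty_iff_ne_empty.2 g3
      by_cases hx : endp 0 π ∈ EX
      · rw [if_pos (⟨g1, hx, g2, g5, fun k hk => (g4 k hk).1⟩ : IsUp u H π ∧ endp 0 π ∈ EX ∧
          IsDn u H γ ∧ (∃ k, k ∈ Cm u w.1 π γ) ∧ (∀ k ∈ Cm u w.1 π γ, s < k))]
        exact le_add_right (le_add_left le_rfl)
      · by_cases hy : endp 0 γ ∈ EY
        · rw [if_pos (⟨g1, g2, hy, g5, fun k hk => (g4 k hk).2⟩ : IsUp u H π ∧ IsDn u H γ ∧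
            endp 0 γ ∈ EY ∧ (∃ k, k ∈ Cm u w.1 π γ) ∧ (∀ k ∈ Cm u w.1 π γ, k + s ≤ H))]
          exact le_add_left le_rfl
        · rw [if_pos (⟨⟨g1, hx⟩, g2, hy⟩ : (IsUp u H π ∧ endp 0 π ∉ EX) ∧
            (IsDn u H γ ∧ endp 0 γ ∉ EY))]
          exact le_add_right (le_add_right le_rfl)
    · rw [if_neg h]; exact zero_le
  · intro s i w
    cases i
    · refine le_trans (le_of_eq (tsum_congr fun π => tsum_congr fun γ => if_congr' Iff.rfl))
        (hub (fun π γ => IsUp u H π ∧ endp 0 π ∈ EX ∧ IsDn u H γ ∧ (∃ k, k ∈ Cm u w.1 π γ) ∧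
        (∀ k ∈ Cm u w.1 π γ, s < k)) fun π γ h => ⟨h.1, h.2.2.1⟩)
    · refine le_trans (le_of_eq (tsum_congr fun π => tsum_congr fun γ => if_congr' Iff.rfl))
        (hub (fun π γ => IsUp u H π ∧ IsDn u H γ ∧ endp 0 γ ∈ EY ∧ (∃ k, k ∈ Cm u w.1 π γ) ∧
        (∀ k ∈ Cm u w.1 π γ, k + s ≤ H)) fun π γ h => ⟨h.1, h.2.1⟩)
  · intro s i μ M lam hμ hM hl hl'
    set μ' : Site d → ℝ≥0∞ := fun x => if h : Flux566.lev u x = 0 then μ ⟨x, h⟩ else 0 with hμ'
    have t1 : ∑' x, μ' x ≤ 1 := by rw [hμ', ext_tot]; exact hμ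
    have t2 : ∀ x, μ' x ≤ M := by
      intro x
      by_cases h : Flux566.lev u x = 0
      · simp only [hμ', h, dite_true]; exact hM _
      · simp only [hμ', h, dite_false]; exact zero_le
    have hcard : ∀ (E : Finset (Site d)) (θ : ℝ≥0∞), θ ≠ 0 → (E.card : ℝ≥0∞) * θ ≤ 1 →
        M * E.card * us s / lam ≤ M * θ⁻¹ * us s / lam := by
      intro E θ hθ hEθ
      refine ENNReal.div_le_div_right (mul_le_mul_left (mul_le_mul_right ?_ _) _) _
      rw [ENNReal.le_inv_iff_mul_le]
      exact hEθ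
    cases i
    · have := h2 s H EX μ' M lam t1 t2 hl hl'
      simp only [Bool.false_eq_true, if_false]
      rw [ext_sum u μ (QX s)]
      refine this.trans ?_
      exact mul_le_mul_right (add_le_add (add_le_add le_rfl (hcard EX θX x1 x3)) le_rfl) _
    · have := h3 s H EY μ' M lam t1 t2 hl hl'
      simp only [if_true]
      rw [ext_sum u μ (QY s)]
      refine this.trans ?_
      exact mul_le_mul_right (add_le_add (add_le_add le_rfl (hcard EY θY y1 y3)) le_rfl) _

end Crest.Agent.R154.PieceJ500
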