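import Crest.Agent.R154.PieceG_321
import Crest.Agent.R154.Us_109

/-! Row 154, ROAD 801, joint-cut frame (helper321): the two window lemmas for two crossings of one
common height `H`, in 28's letters. -/

set_option autoImplicit false

namespace Crest.Agent.R154.Piece321

open MeasureTheory ProbabilityTheory Crest.ProbabilityR.RandomEnvironment Crest.Agent.R154
open Crest.Agent.R154.Flux132 (lev opp lev_add lev_neg lev_zero lev_step_self stepVec_opp)
open Crest.Agent.R154.Flux566 (lw endp sitesL measurable_lw endp_append endp_eq_add)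
open Crest.Agent.R154.NB28 (IsUp IsDn aw Cm)
open Crest.Agent.R154.WordB956 (sitesL_append endp_add mem_sitesL PF Vis)
open scoped ENNReal

variable {d : ℕ}

lemma lev_opp (u : Step d) (x : Site d) : lev (opp u) x = - lev u x := by
  unfold lev opp
  cases h : u.2 <;> simp

lemma lev_sub (u : Step d) (x y : Site d) : lev u (x - y) = lev u x - lev u y := by
  rw [sub_eq_add_neg, lev_add, lev_neg]; ring

lemma mem_shift {y a c : Site d} {l : List (Step d)} :
    y ∈ sitesL (a + c) l ↔ y - c ∈ sitesL a l := by
  rw [mem_sitesL, mem_sitesL]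
  constructor
  · rintro ⟨l1, e, l2, h, h'⟩
    exact ⟨l1, e, l2, h, by rw [← h', endp_add]; abel⟩
  · rintro ⟨l1, e, l2, h, h'⟩
    exact ⟨l1, e, l2, h, by rw [endp_add, h']; abel⟩

/-- turning words: natural in direction `v`, reach height `s`, first hit of height `-1` -/
def Turn (v : Step d) (s : ℕ) : Set (List (Step d)) :=
  {l | (∀ y ∈ sitesL 0 l, 0 ≤ lev v y) ∧ (∃ y ∈ sitesL 0 l, (s : ℤ) ≤ lev v y) ∧
    lev v (endp 0 l) = -1}

open Classical in
noncomputable def rt (ν : Measure (Row d)) [IsProbabilityMeasure ν] (v : Step d) (s : ℕ) : ℝ≥0∞ :=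
  ∑' l : List (Step d), if l ∈ Turn v s then aw ν l else 0

lemma endp_mem (x : Site d) (a : List (Step d)) (e : Step d) (b : List (Step d)) :
    endp x a ∈ sitesL x (a ++ e :: b) := mem_sitesL.2 ⟨a, e, b, rfl, rfl⟩

lemma pf_up (u : Step d) (H : ℕ) : PF {l : List (Step d) | IsUp u H l} := by
  intro l hl l' hl'
  cases l' with
  | nil => rfl
  | cons e b =>
    have h1 := (hl'.1 _ (endp_mem 0 l e b)).2
    have h2 := hl.2
    omega

lemma pf_dn (u : Step d) (H : ℕ) : PF {l : List (Step d) | IsDn u H l} := by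
  intro l hl l' hl'
  cases l' with
  | nil => rfl
  | cons e b =>
    have h1 := (hl'.1 _ (endp_mem 0 l e b)).1
    have h2 := hl.2
    omega

open Classical in
lemma sumTT (ν : Measure (Row d)) [IsProbabilityMeasure ν] (Y0 : Set (Site d)) (v : Step d)
    (s : ℕ) (E : Finset (Site d)) :
    ∑' x, ∑' t, (if x ∈ Y0 ∧ t ∈ {t : List (Step d) | x + endp 0 t ∈ E ∧ t ∈ Turn v s} then
      WordB956.aw (iidEnvironmentLaw ν) x t else 0) ≤ E.card * rt ν v s := by
  rw [ENNReal.tsum_comm]
  unfold rt
  rw [← ENNReal.tsum_mul_left]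
  refine ENNReal.tsum_le_tsum fun t => ?_
  by_cases h : t ∈ Turn v s
  · rw [if_pos h]
    calc ∑' x, (if x ∈ Y0 ∧ t ∈ {t : List (Step d) | x + endp 0 t ∈ E ∧ t ∈ Turn v s} then
          WordB956.aw (iidEnvironmentLaw ν) x t else 0)
        ≤ ∑' x, (if x + endp 0 t ∈ E then (1 : ℝ≥0∞) else 0) * aw ν t := by
          refine ENNReal.tsum_le_tsum fun x => ?_
          by_cases hx : x ∈ Y0 ∧ t ∈ {t : List (Step d) | x + endp 0 t ∈ E ∧ t ∈ Turn v s}
          · rw [if_pos hx, if_pos hx.2.1, one_mul,
              WordB956.aw_shift _ (Q561.iid_shift ν) x t]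
            rfl
          · rw [if_neg hx]; exact zero_le
      _ = (∑' x, (if x ∈ E then (1 : ℝ≥0∞) else 0)) * aw ν t := by
          rw [ENNReal.tsum_mul_right]
          congr 1
          exact (Equiv.addRight (endp 0 t)).tsum_eq (fun x => if x ∈ E then (1 : ℝ≥0∞) else 0)
      _ = E.card * aw ν t := by
          congr 1
          rw [tsum_eq_sum (s := E) (fun x hx => if_neg hx)]
          simp
  · refine le_of_eq_of_le (ENNReal.tsum_eq_zero.2 fun x => ?_) zero_le
    rw [if_neg]
    exact fun hx => h hx.2.2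

lemma chg (F : Site d → ℝ≥0∞) (c : Site d) : ∑' w, F w = ∑' x, F (x + c) :=
  ((Equiv.addRight c).tsum_eq F).symm

lemma chg' (F : Site d → ℝ≥0∞) (c : Site d) : ∑' w, F w = ∑' x, F (c - x) :=
  ((Equiv.subLeft c).tsum_eq F).symm

open Classical in
/-- **(2) for one common height** -/
theorem piece2 (ν : Measure (Row d)) [IsProbabilityMeasure ν] (u : Step d) (H s : ℕ)
    (E : Finset (Site d)) (μ : Site d → ℝ≥0∞) (M lam : ℝ≥0∞) (hμ : ∑' w, μ w ≤ 1)
    (hM : ∀ w, μ w ≤ M) (h0 : lam ≠ 0) (ht : lam ≠ ⊤) :
    ∑' w : Site d, (if lev u w = 0 then μ w * ∑' π : List (Step d), ∑' γ : List (Step d),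
      (if IsUp u H π ∧ IsDn u H γ ∧ endp 0 π ∈ E ∧ (∃ k, k ∈ Cm u w π γ) ∧
        (∀ k ∈ Cm u w π γ, s < k) then aw ν π * aw ν γ else 0) else 0)
      ≤ lam + M * E.card * rt ν (opp u) s / lam := by
  set Y0 : Set (Site d) := {x | lev u x = H - 1} with hY0
  set G : Set (List (Step d)) := {γ | IsDn u H γ} with hG
  set L : Set (List (Step d)) := {π | IsUp u H π ∧ endp 0 π ∈ E} with hL
  set Cc : Site d → Set (List (Step d)) := fun v => {δ | (∀ z ∈ sitesL v δ, 0 ≤ lev u z ∧
    lev u z < H) ∧ lev u (endp v δ) = H ∧ endp v δ ∈ E} with hCc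
  set Dp : Set (Site d) := {z | lev u z + s ≤ H - 1} with hDp
  set TT : Site d → Set (List (Step d)) := fun x => {t | x + endp 0 t ∈ E ∧ t ∈ Turn (opp u) s}
    with hTT
  have hg := gen2 Cc Y0 G L Dp TT ν (pf_dn u H) (by
      intro l1 l2 h
      refine ⟨fun z hz => h.1.1 z ?_, ?_, ?_⟩
      · rw [sitesL_append]; exact List.mem_append_right _ hz
      · have := h.1.2; rw [endp_append] at this; exact this
      · have := h.2; rw [endp_append] at this; exact this) (by
      intro x hx r r2 δ hr hd hδ
      have hx' : lev u x = H - 1 := hx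
      have hd' : lev u (endp x r) + s ≤ H - 1 := hd
      have e1 : endp x r = x + endp 0 r := endp_eq_add r x
      have e2 : x + endp 0 (r ++ δ) = endp (endp x r) δ := by
        rw [← endp_eq_add, endp_append]
      refine ⟨?_, ?_, ?_, ?_⟩
      · rw [e2]; exact hδ.2.2
      · intro y hy
        rw [sitesL_append, List.mem_append] at hy
        rw [lev_opp]
        rcases hy with hy | hy
        · have := (hr.1 y (by rw [sitesL_append]; exact List.mem_append_left _ hy)).2
          omega
        · have h1 : y + x ∈ sitesL (endp x r) δ := by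
            rw [e1, add_comm x, mem_shift]; simpa using hy
          have h2 := (hδ.1 _ h1).2
          rw [lev_add, hx'] at h2
          omega
      · cases δ with
        | nil =>
          exfalso
          have := hδ.2.1
          simp only [endp] at this
          rw [this] at hd'
          omega
        | cons e b =>
          refine ⟨endp 0 r, endp_mem 0 r e b, ?_⟩
          rw [e1, lev_add, hx'] at hd'
          rw [lev_opp]
          omega
      · have h1 := hδ.2.1
        rw [← e2, lev_add, hx'] at h1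
        rw [lev_opp]
        omega)
    (fun x π => μ (x + (stepVec u - endp 0 π))) M lam (fun _ _ => hM _) (by
      intro l _
      refine le_trans (le_of_eq ?_) hμ
      exact (Equiv.addRight (stepVec u - endp 0 l)).tsum_eq μ) h0 ht
      ((pf_up u H).mono fun l hl => hl.1)
  have hcmp : ∑' w : Site d, (if lev u w = 0 then μ w * ∑' π : List (Step d),
      ∑' γ : List (Step d), (if IsUp u H π ∧ IsDn u H γ ∧ endp 0 π ∈ E ∧
        (∃ k, k ∈ Cm u w π γ) ∧ (∀ k ∈ Cm u w π γ, s < k) then aw ν π * aw ν γ else 0) else 0)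
      ≤ ∑' x, ∑' l, ∑' g, (if x ∈ Y0 ∧ l ∈ L ∧ g ∈ G ∧ Deep Dp x l g then
        WordB956.aw (iidEnvironmentLaw ν) 0 l * WordB956.aw (iidEnvironmentLaw ν) x g *
          μ (x + (stepVec u - endp 0 l)) else 0) := by
    calc ∑' w : Site d, (if lev u w = 0 then μ w * ∑' π : List (Step d),
      ∑' γ : List (Step d), (if IsUp u H π ∧ IsDn u H γ ∧ endp 0 π ∈ E ∧
        (∃ k, k ∈ Cm u w π γ) ∧ (∀ k ∈ Cm u w π γ, s < k) then aw ν π * aw ν γ else 0) else 0)
        = ∑' w : Site d, ∑' π : List (Step d), ∑' γ : List (Step d),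
          (if lev u w = 0 ∧ IsUp u H π ∧ IsDn u H γ ∧ endp 0 π ∈ E ∧
          (∃ k, k ∈ Cm u w π γ) ∧ (∀ k ∈ Cm u w π γ, s < k) then μ w * (aw ν π * aw ν γ)
            else 0) := by
          refine tsum_congr fun w => ?_
          by_cases hw : lev u w = 0
          · simp only [hw, if_true, true_and]
            rw [← ENNReal.tsum_mul_left]
            refine tsum_congr fun π => ?_
            rw [← ENNReal.tsum_mul_left]
            refine tsum_congr fun γ => ?_
            rw [mul_ite, mul_zero]
          · simp [hw]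
      _ = ∑' π : List (Step d), ∑' γ : List (Step d), ∑' w : Site d,
          (if lev u w = 0 ∧ IsUp u H π ∧ IsDn u H γ ∧ endp 0 π ∈ E ∧
          (∃ k, k ∈ Cm u w π γ) ∧ (∀ k ∈ Cm u w π γ, s < k) then μ w * (aw ν π * aw ν γ)
            else 0) := by
          rw [ENNReal.tsum_comm]
          refine tsum_congr fun π => ?_
          rw [ENNReal.tsum_comm]
      _ ≤ ∑' l : List (Step d), ∑' g : List (Step d), ∑' x : Site d,
          (if x ∈ Y0 ∧ l ∈ L ∧ g ∈ G ∧ Deep Dp x l g then
          WordB956.aw (iidEnvironmentLaw ν) 0 l * WordB956.aw (iidEnvironmentLaw ν) x g *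
          μ (x + (stepVec u - endp 0 l)) else 0) := by
          refine ENNReal.tsum_le_tsum fun π => ENNReal.tsum_le_tsum fun γ => ?_
          rw [chg _ (stepVec u - endp 0 π)]
          refine ENNReal.tsum_le_tsum fun x => ?_
          by_cases h : lev u (x + (stepVec u - endp 0 π)) = 0 ∧ IsUp u H π ∧ IsDn u H γ ∧
            endp 0 π ∈ E ∧ (∃ k, k ∈ Cm u (x + (stepVec u - endp 0 π)) π γ) ∧
            (∀ k ∈ Cm u (x + (stepVec u - endp 0 π)) π γ, s < k)
          · obtain ⟨h1, h2, h3, h4, ⟨k, y, hy1, hy2, hy3⟩, h6⟩ := h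
            have hxl : lev u x = H - 1 := by
              rw [lev_add, lev_sub, lev_step_self, h2.2] at h1
              omega
            have hτ : x + (stepVec u - endp 0 π) + stepVec (opp u) = x + (- endp 0 π) := by
              rw [stepVec_opp]; abel
            have hπ0 : ∀ z : Site d, z ∈ sitesL 0 π ↔ z - endp 0 π ∈ sitesL (- endp 0 π) π := by
              intro z
              have := @mem_shift d (z - endp 0 π) 0 (- endp 0 π) π
              rw [zero_add] at this
              rw [this]
              simp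
            have hγx : ∀ z : Site d, z ∈ sitesL x γ ↔ z - endp 0 π ∈
                sitesL (x + (stepVec u - endp 0 π) + stepVec (opp u)) γ := by
              intro z
              rw [hτ, mem_shift]
              simp
            have hdeep : Deep Dp x π γ := by
              refine ⟨?_, ?_⟩
              · have hz1 : y + endp 0 π ∈ sitesL 0 π := (hπ0 _).2 (by simpa using hy1)
                have hz2 : y + endp 0 π ∈ sitesL x γ := (hγx _).2 (by simpa using hy2)
                obtain ⟨r1, e, r2, h7, h8⟩ := mem_sitesL.1 hz2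
                exact ⟨r1, e :: r2, h7, by rw [h8]; exact hz1⟩
              · intro r r2 hr hV
                have hV' : endp x r ∈ sitesL 0 π := hV
                have hb := h2.1 _ hV'
                have hne : r2 ≠ [] := by
                  rintro rfl
                  rw [List.append_nil] at hr
                  have h9 := h3.2
                  have h10 : lev u (endp x r) = lev u x + lev u (endp 0 r) := by
                    rw [endp_eq_add, lev_add]
                  rw [← hr, h9, hxl] at h10
                  rw [← hr] at hb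
                  omega
                obtain ⟨e, b, rfl⟩ := List.exists_cons_of_ne_nil hne
                have hz2 : endp x r ∈ sitesL x γ := by rw [hr]; exact endp_mem x r e b
                have hk : ((H : ℤ) - lev u (endp x r)).toNat ∈
                    Cm u (x + (stepVec u - endp 0 π)) π γ := by
                  refine ⟨endp x r - endp 0 π, (hπ0 _).1 hV', (hγx _).1 hz2, ?_⟩
                  rw [lev_sub, h2.2]
                  omega
                have h11 := h6 _ hk
                show lev u (endp x r) + s ≤ H - 1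
                omega
            have hc : x ∈ Y0 ∧ π ∈ L ∧ γ ∈ G ∧ Deep Dp x π γ := ⟨hxl, ⟨h2, h4⟩, h3, hdeep⟩
            rw [if_pos hc, WordB956.aw_shift _ (Q561.iid_shift ν) x γ]
            refine (ite_le_sup _ _ _).trans (le_of_eq ?_)
            rw [max_eq_left zero_le, mul_comm (μ _)]
            rfl
          · rw [if_neg h]; exact zero_le
      _ = ∑' l : List (Step d), ∑' x : Site d, ∑' g : List (Step d),
          (if x ∈ Y0 ∧ l ∈ L ∧ g ∈ G ∧ Deep Dp x l g then
          WordB956.aw (iidEnvironmentLaw ν) 0 l * WordB956.aw (iidEnvironmentLaw ν) x g *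
          μ (x + (stepVec u - endp 0 l)) else 0) := tsum_congr fun l => ENNReal.tsum_comm
      _ = _ := ENNReal.tsum_comm
  refine hcmp.trans ((le_of_eq ?_).trans (hg.trans (add_le_add le_rfl ?_)))
  · refine tsum_congr fun x => tsum_congr fun l => tsum_congr fun g => ?_
    by_cases h : x ∈ Y0 ∧ l ∈ L ∧ g ∈ G ∧ Deep Dp x l g
    · rw [if_pos h, if_pos h]
    · rw [if_neg h, if_neg h]
  · have e2 : M / lam * (E.card * rt ν (opp u) s) = M * E.card * rt ν (opp u) s / lam := by
      simp only [div_eq_mul_inv]; ring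
    rw [← e2]
    refine mul_le_mul_right ?_ _
    refine le_trans (le_of_eq ?_) (sumTT ν Y0 (opp u) s E)
    refine tsum_congr fun x => tsum_congr fun t => ?_
    by_cases h : x ∈ Y0 ∧ t ∈ TT x
    · rw [if_pos h, if_pos (show x ∈ Y0 ∧ t ∈ {t : List (Step d) | x + endp 0 t ∈ E ∧
        t ∈ Turn (opp u) s} from h)]
    · rw [if_neg h, if_neg (show ¬ (x ∈ Y0 ∧ t ∈ {t : List (Step d) | x + endp 0 t ∈ E ∧
        t ∈ Turn (opp u) s}) from h)]

open Classical in
/-- **(3) for one common height** -/
theorem piece3 (ν : Measure (Row d)) [IsProbabilityMeasure ν] (u : Step d) (H s : ℕ)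
    (E : Finset (Site d)) (μ : Site d → ℝ≥0∞) (M lam : ℝ≥0∞) (hμ : ∑' w, μ w ≤ 1)
    (hM : ∀ w, μ w ≤ M) (h0 : lam ≠ 0) (ht : lam ≠ ⊤) :
    ∑' w : Site d, (if lev u w = 0 then μ w * ∑' π : List (Step d), ∑' γ : List (Step d),
      (if IsUp u H π ∧ IsDn u H γ ∧ endp 0 γ ∈ E ∧ (∃ k, k ∈ Cm u w π γ) ∧
        (∀ k ∈ Cm u w π γ, k + s ≤ H) then aw ν π * aw ν γ else 0) else 0)
      ≤ 4 * lam + M * E.card * rt ν u s / lam := by
  by_cases hzero : min M 1 = 0
  · have hμ0 : ∀ w, μ w = 0 := by
      intro w
      have h1 : μ w ≤ min M 1 := le_min (hM w) ((ENNReal.le_tsum w).trans hμ)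
      rw [hzero] at h1
      exact le_antisymm h1 zero_le
    refine le_of_eq_of_le (ENNReal.tsum_eq_zero.2 fun w => ?_) zero_le
    rw [hμ0 w, zero_mul]
    split_ifs <;> rfl
  set Y0 : Set (Site d) := {x | lev u x = 1 - H} with hY0
  set G : Set (List (Step d)) := {π | IsUp u H π} with hG
  set L : Set (List (Step d)) := {γ | IsDn u H γ ∧ endp 0 γ ∈ E} with hL
  set Cc : Site d → Set (List (Step d)) := fun v => {δ | (∀ z ∈ sitesL v δ, -(H : ℤ) < lev u z ∧
    lev u z ≤ 0) ∧ lev u (endp v δ) = -(H : ℤ) ∧ endp v δ ∈ E} with hCc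
  set Dp : Set (Site d) := {z | 1 - (H : ℤ) + s ≤ lev u z} with hDp
  set TT : Site d → Set (List (Step d)) := fun x => {t | x + endp 0 t ∈ E ∧ t ∈ Turn u s}
    with hTT
  have hg := gen3 Cc Y0 G L Dp TT ν (pf_up u H) (by
      intro l1 l2 h
      refine ⟨fun z hz => h.1.1 z ?_, ?_, ?_⟩
      · rw [sitesL_append]; exact List.mem_append_right _ hz
      · have := h.1.2; rw [endp_append] at this; exact this
      · have := h.2; rw [endp_append] at this; exact this) (by
      intro x hx r r2 δ hr hd hδ
      have hx' : lev u x = 1 - H := hx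
      have hd' : 1 - (H : ℤ) + s ≤ lev u (endp x r) := hd
      have e1 : endp x r = x + endp 0 r := endp_eq_add r x
      have e2 : x + endp 0 (r ++ δ) = endp (endp x r) δ := by
        rw [← endp_eq_add, endp_append]
      refine ⟨?_, ?_, ?_, ?_⟩
      · rw [e2]; exact hδ.2.2
      · intro y hy
        rw [sitesL_append, List.mem_append] at hy
        rcases hy with hy | hy
        · exact (hr.1 y (by rw [sitesL_append]; exact List.mem_append_left _ hy)).1
        · have h1 : y + x ∈ sitesL (endp x r) δ := by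
            rw [e1, add_comm x, mem_shift]; simpa using hy
          have h2 := (hδ.1 _ h1).1
          rw [lev_add, hx'] at h2
          omega
      · cases δ with
        | nil =>
          exfalso
          have := hδ.2.1
          simp only [endp] at this
          rw [this] at hd'
          omega
        | cons e b =>
          refine ⟨endp 0 r, endp_mem 0 r e b, ?_⟩
          rw [e1, lev_add, hx'] at hd'
          omega
      · have h1 := hδ.2.1
        rw [← e2, lev_add, hx'] at h1
        omega)
    (fun x π => μ (stepVec u - endp 0 π - x)) (min M 1) lam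
    (fun _ _ => le_min (hM _) ((ENNReal.le_tsum _).trans hμ)) hzero
    (ne_top_of_le_ne_top ENNReal.one_ne_top (min_le_right _ _)) (by
      intro l _
      refine le_trans (le_of_eq ?_) hμ
      exact (Equiv.subLeft (stepVec u - endp 0 l)).tsum_eq μ) h0 ht
      ((pf_dn u H).mono fun l hl => hl.1)
  have hcmp : ∑' w : Site d, (if lev u w = 0 then μ w * ∑' π : List (Step d),
      ∑' γ : List (Step d), (if IsUp u H π ∧ IsDn u H γ ∧ endp 0 γ ∈ E ∧
        (∃ k, k ∈ Cm u w π γ) ∧ (∀ k ∈ Cm u w π γ, k + s ≤ H) then aw ν π * aw ν γ else 0) else 0)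
      ≤ ∑' x, ∑' l, ∑' g, (if x ∈ Y0 ∧ l ∈ L ∧ g ∈ G ∧ Deep Dp x l g then
        WordB956.aw (iidEnvironmentLaw ν) 0 l * WordB956.aw (iidEnvironmentLaw ν) x g *
          μ (stepVec u - endp 0 g - x) else 0) := by
    calc ∑' w : Site d, (if lev u w = 0 then μ w * ∑' π : List (Step d),
      ∑' γ : List (Step d), (if IsUp u H π ∧ IsDn u H γ ∧ endp 0 γ ∈ E ∧
        (∃ k, k ∈ Cm u w π γ) ∧ (∀ k ∈ Cm u w π γ, k + s ≤ H) then aw ν π * aw ν γ else 0) else 0)
        = ∑' w : Site d, ∑' π : List (Step d), ∑' γ : List (Step d),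
          (if lev u w = 0 ∧ IsUp u H π ∧ IsDn u H γ ∧ endp 0 γ ∈ E ∧
          (∃ k, k ∈ Cm u w π γ) ∧ (∀ k ∈ Cm u w π γ, k + s ≤ H) then μ w * (aw ν π * aw ν γ)
            else 0) := by
          refine tsum_congr fun w => ?_
          by_cases hw : lev u w = 0
          · simp only [hw, if_true, true_and]
            rw [← ENNReal.tsum_mul_left]
            refine tsum_congr fun π => ?_
            rw [← ENNReal.tsum_mul_left]
            refine tsum_congr fun γ => ?_
            rw [mul_ite, mul_zero]
          · simp [hw]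
      _ = ∑' π : List (Step d), ∑' γ : List (Step d), ∑' w : Site d,
          (if lev u w = 0 ∧ IsUp u H π ∧ IsDn u H γ ∧ endp 0 γ ∈ E ∧
          (∃ k, k ∈ Cm u w π γ) ∧ (∀ k ∈ Cm u w π γ, k + s ≤ H) then μ w * (aw ν π * aw ν γ)
            else 0) := by
          rw [ENNReal.tsum_comm]
          refine tsum_congr fun π => ?_
          rw [ENNReal.tsum_comm]
      _ = ∑' γ : List (Step d), ∑' π : List (Step d), ∑' w : Site d,
          (if lev u w = 0 ∧ IsUp u H π ∧ IsDn u H γ ∧ endp 0 γ ∈ E ∧
          (∃ k, k ∈ Cm u w π γ) ∧ (∀ k ∈ Cm u w π γ, k + s ≤ H) then μ w * (aw ν π * aw ν γ)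
            else 0) := ENNReal.tsum_comm
      _ ≤ ∑' l : List (Step d), ∑' g : List (Step d), ∑' x : Site d,
          (if x ∈ Y0 ∧ l ∈ L ∧ g ∈ G ∧ Deep Dp x l g then
          WordB956.aw (iidEnvironmentLaw ν) 0 l * WordB956.aw (iidEnvironmentLaw ν) x g *
          μ (stepVec u - endp 0 g - x) else 0) := by
          refine ENNReal.tsum_le_tsum fun γ => ENNReal.tsum_le_tsum fun π => ?_
          rw [chg' _ (stepVec u - endp 0 π)]
          refine ENNReal.tsum_le_tsum fun x => ?_
          by_cases h : lev u (stepVec u - endp 0 π - x) = 0 ∧ IsUp u H π ∧ IsDn u H γ ∧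
            endp 0 γ ∈ E ∧ (∃ k, k ∈ Cm u (stepVec u - endp 0 π - x) π γ) ∧
            (∀ k ∈ Cm u (stepVec u - endp 0 π - x) π γ, k + s ≤ H)
          · obtain ⟨h1, h2, h3, h4, ⟨k, y, hy1, hy2, hy3⟩, h6⟩ := h
            have hxl : lev u x = 1 - H := by
              rw [lev_sub, lev_sub, lev_step_self, h2.2] at h1
              omega
            have hτ : stepVec u - endp 0 π - x + stepVec (opp u) = - (endp 0 π + x) := by
              rw [stepVec_opp]; abel
            have hπx : ∀ z : Site d, z ∈ sitesL x π ↔ z - (endp 0 π + x) ∈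
                sitesL (- endp 0 π) π := by
              intro z
              have := @mem_shift d z (- endp 0 π) (endp 0 π + x) π
              rw [← this]
              simp
            have hγ0 : ∀ z : Site d, z ∈ sitesL 0 γ ↔ z - (endp 0 π + x) ∈
                sitesL (stepVec u - endp 0 π - x + stepVec (opp u)) γ := by
              intro z
              rw [hτ]
              have := @mem_shift d z (- (endp 0 π + x)) (endp 0 π + x) γ
              rw [← this]
              simp
            have hdeep : Deep Dp x γ π := by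
              refine ⟨?_, ?_⟩
              · have hz1 : y + (endp 0 π + x) ∈ sitesL x π := (hπx _).2 (by simpa using hy1)
                have hz2 : y + (endp 0 π + x) ∈ sitesL 0 γ := (hγ0 _).2 (by simpa using hy2)
                obtain ⟨r1, e, r2, h7, h8⟩ := mem_sitesL.1 hz1
                exact ⟨r1, e :: r2, h7, by rw [h8]; exact hz2⟩
              · intro r r2 hr hV
                have hV' : endp x r ∈ sitesL 0 γ := hV
                have hb := h3.1 _ hV'
                have hne : r2 ≠ [] := by
                  rintro rfl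
                  rw [List.append_nil] at hr
                  have h9 := h2.2
                  have h10 : lev u (endp x r) = lev u x + lev u (endp 0 r) := by
                    rw [endp_eq_add, lev_add]
                  rw [← hr, h9, hxl] at h10
                  rw [← hr] at hb
                  omega
                obtain ⟨e, b, rfl⟩ := List.exists_cons_of_ne_nil hne
                have hz2 : endp x r ∈ sitesL x π := by rw [hr]; exact endp_mem x r e b
                have hk : (1 - lev u (endp x r)).toNat ∈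
                    Cm u (stepVec u - endp 0 π - x) π γ := by
                  refine ⟨endp x r - (endp 0 π + x), (hπx _).1 hz2, (hγ0 _).1 hV', ?_⟩
                  rw [lev_sub, lev_add, h2.2, hxl]
                  omega
                have h11 := h6 _ hk
                show 1 - (H : ℤ) + s ≤ lev u (endp x r)
                omega
            have hc : x ∈ Y0 ∧ γ ∈ L ∧ π ∈ G ∧ Deep Dp x γ π := ⟨hxl, ⟨h3, h4⟩, h2, hdeep⟩
            rw [if_pos hc, WordB956.aw_shift _ (Q561.iid_shift ν) x π]
            refine (ite_le_sup _ _ _).trans (le_of_eq ?_)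
            rw [max_eq_left zero_le, mul_comm (μ _), mul_comm (aw ν π)]
            rfl
          · rw [if_neg h]; exact zero_le
      _ = ∑' l : List (Step d), ∑' x : Site d, ∑' g : List (Step d),
          (if x ∈ Y0 ∧ l ∈ L ∧ g ∈ G ∧ Deep Dp x l g then
          WordB956.aw (iidEnvironmentLaw ν) 0 l * WordB956.aw (iidEnvironmentLaw ν) x g *
          μ (stepVec u - endp 0 g - x) else 0) := tsum_congr fun l => ENNReal.tsum_comm
      _ = _ := ENNReal.tsum_comm
  refine hcmp.trans ((le_of_eq ?_).trans (hg.trans (add_le_add le_rfl ?_)))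
  · refine tsum_congr fun x => tsum_congr fun l => tsum_congr fun g => ?_
    by_cases h : x ∈ Y0 ∧ l ∈ L ∧ g ∈ G ∧ Deep Dp x l g
    · rw [if_pos h, if_pos h]
    · rw [if_neg h, if_neg h]
  · have e2 : M / lam * (E.card * rt ν u s) = M * E.card * rt ν u s / lam := by
      simp only [div_eq_mul_inv]; ring
    rw [← e2]
    refine mul_le_mul' (ENNReal.div_le_div_right (min_le_left _ _) _) ?_
    refine le_trans (le_of_eq ?_) (sumTT ν Y0 u s E)
    refine tsum_congr fun x => tsum_congr fun t => ?_
    by_cases h : x ∈ Y0 ∧ t ∈ TT x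
    · rw [if_pos h, if_pos (show x ∈ Y0 ∧ t ∈ {t : List (Step d) | x + endp 0 t ∈ E ∧
        t ∈ Turn u s} from h)]
    · rw [if_neg h, if_neg (show ¬ (x ∈ Y0 ∧ t ∈ {t : List (Step d) | x + endp 0 t ∈ E ∧
        t ∈ Turn u s}) from h)]

open Classical in
/-- `rt → 0` -/
theorem rt_zero (ν : Measure (Row d)) [IsProbabilityMeasure ν]
    (hν : ∀ᵐ p ∂ν, ∀ e : Step d, 0 < p.1 e) (v : Step d)
    (h : annealed (iidEnvironmentLaw ν) 0 (escapeEvent (B2d.dirVec v)) ≠ 0)
    (ε : ℝ≥0∞) (hε : ε ≠ 0) : ∃ s0 : ℕ, ∀ s : ℕ, s0 ≤ s → rt ν v s ≤ ε := by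
  obtain ⟨s0, hs0⟩ := Us109.us_zero ν hν v h 0 ε hε
  refine ⟨s0, fun s hs => ?_⟩
  have hT : Us109.PF (Turn v s) := by
    intro l hl l' hl' hp
    obtain ⟨b, hb⟩ := hp
    cases b with
    | nil => rw [← hb, List.append_nil]
    | cons e b =>
      exfalso
      have h1 := hl'.1 (endp 0 l) (by rw [← hb]; exact endp_mem 0 l e b)
      have h2 := hl.2.2
      omega
  have hR : Turn v s ⊆ Us109.RetW v 0 s := by
    intro l hl
    obtain ⟨h1, ⟨y, hy, hys⟩, h3⟩ := hl
    obtain ⟨l1, e, l2, h4, h5⟩ := mem_sitesL.1 hy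
    refine ⟨⟨l1, e :: l2, h4, fun z hz => h1 z ?_, by rw [h5]; exact hys⟩, by rw [h3]; norm_num⟩
    rw [h4, sitesL_append]; exact List.mem_append_left _ hz
  have := hs0 s hs (Turn v s) hT hR
  unfold rt
  convert this

end Crest.Agent.R154.Piece321
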