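import Mathlib

/-!
# Planar crossing lemma (P0) and the river lemma (P1), deterministic part (d = 2 block of row 154)

`planar`: two nearest neighbour paths `a`, `b` in `ℤ²` such that `a` goes from the left of `b`
to the right of `b` and `b` goes from below `a` to above `a` have a common site.
-/

set_option autoImplicit false

namespace Crest.Agent.R154.Planar999

open Finset

/-- (possibly lazy) nearest neighbour step of `ℤ²` -/
def Stp (p q : ℤ × ℤ) : Prop :=
  (q.1 = p.1 ∧ q.2 = p.2) ∨ (q.1 = p.1 + 1 ∧ q.2 = p.2) ∨ (q.1 = p.1 - 1 ∧ q.2 = p.2) ∨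
    (q.1 = p.1 ∧ q.2 = p.2 + 1) ∨ (q.1 = p.1 ∧ q.2 = p.2 - 1)

/-- closed one-form on `ℤ² \ {0}` counting crossings of a ray -/
def cf (x y x' y' : ℤ) : ℤ :=
  if 1 ≤ x then ((if 1 ≤ y' then 1 else 0) - (if 1 ≤ y then 1 else 0)) + 0 * x' else 0

set_option maxHeartbeats 1000000 in
lemma square (x y s1 s2 t1 t2 : ℤ)
    (hs : (s1 = 0 ∧ s2 = 0) ∨ (s1 = 1 ∧ s2 = 0) ∨ (s1 = -1 ∧ s2 = 0) ∨ (s1 = 0 ∧ s2 = 1) ∨
      (s1 = 0 ∧ s2 = -1))
    (ht : (t1 = 0 ∧ t2 = 0) ∨ (t1 = 1 ∧ t2 = 0) ∨ (t1 = -1 ∧ t2 = 0) ∨ (t1 = 0 ∧ t2 = 1) ∨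
      (t1 = 0 ∧ t2 = -1))
    (h00 : ¬ (x = 0 ∧ y = 0)) (h10 : ¬ (x + s1 = 0 ∧ y + s2 = 0))
    (h01 : ¬ (x - t1 = 0 ∧ y - t2 = 0)) (h11 : ¬ (x + s1 - t1 = 0 ∧ y + s2 - t2 = 0)) :
    cf x y (x + s1) (y + s2) + cf (x + s1) (y + s2) (x + s1 - t1) (y + s2 - t2) =
      cf (x - t1) (y - t2) (x + s1 - t1) (y + s2 - t2) + cf x y (x - t1) (y - t2) := by
  rcases hs with ⟨rfl, rfl⟩ | ⟨rfl, rfl⟩ | ⟨rfl, rfl⟩ | ⟨rfl, rfl⟩ | ⟨rfl, rfl⟩ <;>
  rcases ht with ⟨rfl, rfl⟩ | ⟨rfl, rfl⟩ | ⟨rfl, rfl⟩ | ⟨rfl, rfl⟩ | ⟨rfl, rfl⟩ <;>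
  simp only [cf, zero_mul, add_zero] <;> split_ifs <;> omega

lemma stp_cases (x y x1 y1 : ℤ) (h : Stp (x, y) (x1, y1)) :
    (x1 - x = 0 ∧ y1 - y = 0) ∨ (x1 - x = 1 ∧ y1 - y = 0) ∨ (x1 - x = -1 ∧ y1 - y = 0) ∨
      (x1 - x = 0 ∧ y1 - y = 1) ∨ (x1 - x = 0 ∧ y1 - y = -1) := by
  simp only [Stp] at h
  rcases h with h | h | h | h | h <;> omega

/-- four integers, two steps: the form of the square identity used on the grid -/
lemma square' (x y x1 y1 x2 y2 x3 y3 : ℤ)
    (hs : Stp (x, y) (x1, y1)) (ht : Stp (x2, y2) (x, y)) (h3 : x3 = x1 + x2 - x)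
    (h3' : y3 = y1 + y2 - y)
    (h00 : ¬ (x = 0 ∧ y = 0)) (h10 : ¬ (x1 = 0 ∧ y1 = 0))
    (h01 : ¬ (x2 = 0 ∧ y2 = 0)) (h11 : ¬ (x3 = 0 ∧ y3 = 0)) :
    cf x y x1 y1 + cf x1 y1 x3 y3 = cf x2 y2 x3 y3 + cf x y x2 y2 := by
  have a1 := stp_cases _ _ _ _ hs
  have a2 := stp_cases _ _ _ _ ht
  clear hs ht
  have e1 : x + (x1 - x) = x1 := by ring
  have e2 : y + (y1 - y) = y1 := by ring
  have e3 : x - (x - x2) = x2 := by ring
  have e4 : y - (y - y2) = y2 := by ring
  have e5 : x1 - (x - x2) = x3 := by rw [h3]; ring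
  have e6 : y1 - (y - y2) = y3 := by rw [h3']; ring
  have := square x y (x1 - x) (y1 - y) (x - x2) (y - y2) a1 a2 h00 (by rwa [e1, e2])
    (by rwa [e3, e4]) (by rwa [e1, e2, e5, e6])
  rwa [e1, e2, e3, e4, e5, e6] at this

/-- the grid form: two families of differences -/
lemma grid (X Y : ℕ → ℕ → ℤ) (m n : ℕ)
    (hne : ∀ i ≤ m, ∀ j ≤ n, ¬ (X i j = 0 ∧ Y i j = 0))
    (hX : ∀ i < m, ∀ j < n, X (i + 1) (j + 1) = X (i + 1) j + X i (j + 1) - X i j)
    (hY : ∀ i < m, ∀ j < n, Y (i + 1) (j + 1) = Y (i + 1) j + Y i (j + 1) - Y i j)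
    (hs : ∀ i < m, ∀ j ≤ n, Stp (X i j, Y i j) (X (i + 1) j, Y (i + 1) j))
    (ht : ∀ i ≤ m, ∀ j < n, Stp (X i (j + 1), Y i (j + 1)) (X i j, Y i j))
    (h1 : ∀ j ≤ n, X 0 j ≤ 0) (h2 : ∀ j ≤ n, 0 ≤ X m j)
    (h3 : ∀ i ≤ m, 0 ≤ Y i 0) (h4 : ∀ i ≤ m, Y i n ≤ 0) : False := by
  obtain ⟨H, hH⟩ : ∃ H : ℕ → ℕ → ℤ, ∀ i j, H i j =
    cf (X i j) (Y i j) (X (i + 1) j) (Y (i + 1) j) := ⟨_, fun _ _ => rfl⟩
  obtain ⟨V, hV⟩ : ∃ V : ℕ → ℕ → ℤ, ∀ i j, V i j =
    cf (X i j) (Y i j) (X i (j + 1)) (Y i (j + 1)) := ⟨_, fun _ _ => rfl⟩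
  have hsq : ∀ i < m, ∀ j < n, H i j + V (i + 1) j = H i (j + 1) + V i j := by
    intro i hi j hj
    rw [hH, hV, hH, hV]
    exact square' _ _ _ _ _ _ _ _ (hs i hi j hj.le) (ht i hi.le j hj) (hX i hi j hj)
      (hY i hi j hj) (hne i hi.le j hj.le) (hne (i + 1) hi j hj.le) (hne i hi.le (j + 1) hj)
      (hne (i + 1) hi (j + 1) hj)
  have hsum : ∑ i ∈ range m, H i 0 + ∑ j ∈ range n, V m j =
      ∑ i ∈ range m, H i n + ∑ j ∈ range n, V 0 j := by
    have key : ∀ j ≤ n, ∀ k ≤ m, ∑ i ∈ range k, H i 0 + ∑ l ∈ range j, V k l =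
        ∑ i ∈ range k, H i j + ∑ l ∈ range j, V 0 l := by
      intro j
      induction j with
      | zero => intro _ k _; simp
      | succ j ih =>
        intro hj k hk
        have h0 := ih (by omega) k hk
        rw [sum_range_succ, sum_range_succ]
        have hrow : ∀ k ≤ m, ∑ i ∈ range k, H i j + V k j =
            ∑ i ∈ range k, H i (j + 1) + V 0 j := by
          intro k
          induction k with
          | zero => intro _; simp
          | succ k ihk =>
            intro hk'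
            have h1' := ihk (by omega)
            have h2' := hsq k (by omega) j (by omega)
            rw [sum_range_succ, sum_range_succ]
            linarith
        have := hrow k hk
        linarith
    exact key n le_rfl m le_rfl
  have hphi : ∀ k ≤ m, ∑ i ∈ range k, H i 0 =
      (if 1 ≤ Y k 0 ∨ X k 0 < 0 then 1 else 0) - (if 1 ≤ Y 0 0 ∨ X 0 0 < 0 then 1 else 0) := by
    intro k
    induction k with
    | zero => intro _; simp
    | succ k ih =>
      intro hk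
      rw [sum_range_succ, ih (by omega), hH]
      have hs' := hs k (by omega) 0 (by omega)
      have e1 := hne k (by omega) 0 (by omega)
      have e2 := hne (k + 1) hk 0 (by omega)
      have y1 := h3 k (by omega)
      have y2 := h3 (k + 1) hk
      simp only [cf, zero_mul, add_zero]
      simp only [Stp] at hs'
      split_ifs <;> omega
  have hpsi : ∀ k ≤ n, ∑ j ∈ range k, V m j =
      (if 1 ≤ Y m k then 1 else 0) - (if 1 ≤ Y m 0 then 1 else 0) := by
    intro k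
    induction k with
    | zero => intro _; simp
    | succ k ih =>
      intro hk
      rw [sum_range_succ, ih (by omega), hV]
      have hs' := ht m le_rfl k (by omega)
      have e1 := hne m le_rfl k (by omega)
      have e2 := hne m le_rfl (k + 1) hk
      have y1 := h2 k (by omega)
      have y2 := h2 (k + 1) hk
      simp only [cf, zero_mul, add_zero]
      simp only [Stp] at hs'
      split_ifs <;> omega
  have htop : ∑ i ∈ range m, H i n = 0 := by
    apply sum_eq_zero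
    intro i hi
    rw [mem_range] at hi
    have y1 := h4 i hi.le
    have y2 := h4 (i + 1) hi
    rw [hH]
    simp only [cf, zero_mul, add_zero]
    split_ifs <;> omega
  have hleft : ∑ j ∈ range n, V 0 j = 0 := by
    apply sum_eq_zero
    intro j hj
    rw [mem_range] at hj
    have y1 := h1 j hj.le
    rw [hV]
    simp only [cf, zero_mul, add_zero]
    split_ifs <;> omega
  rw [hphi m le_rfl, hpsi n le_rfl, htop, hleft] at hsum
  have e00 := hne 0 (by omega) 0 (by omega)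
  have em0 := hne m le_rfl 0 (by omega)
  have x00 := h1 0 (by omega)
  have y00 := h3 0 (by omega)
  have xm0 := h2 0 (by omega)
  have ymn := h4 m le_rfl
  split_ifs at hsum <;> omega

/-- **(P0)** planar crossing lemma. -/
theorem planar (a b : ℕ → ℤ × ℤ) (m n : ℕ)
    (ha : ∀ i < m, Stp (a i) (a (i + 1))) (hb : ∀ j < n, Stp (b j) (b (j + 1)))
    (h1 : ∀ j ≤ n, (a 0).1 ≤ (b j).1) (h2 : ∀ j ≤ n, (b j).1 ≤ (a m).1)
    (h3 : ∀ i ≤ m, (b 0).2 ≤ (a i).2) (h4 : ∀ i ≤ m, (a i).2 ≤ (b n).2) :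
    ∃ i ≤ m, ∃ j ≤ n, a i = b j := by
  by_contra hcon
  push Not at hcon
  refine grid (fun i j => (a i).1 - (b j).1) (fun i j => (a i).2 - (b j).2) m n ?_ ?_ ?_ ?_ ?_
    ?_ ?_ ?_ ?_
  · intro i hi j hj h
    apply hcon i hi j hj
    ext
    · have := h.1; omega
    · have := h.2; omega
  · intro i _ j _; omega
  · intro i _ j _; omega
  · intro i hi j _
    have := ha i hi
    simp only [Stp] at *
    omega
  · intro i _ j hj
    have := hb j hj
    simp only [Stp] at *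
    omega
  · intro j hj; have := h1 j hj; omega
  · intro j hj; have := h2 j hj; omega
  · intro i hi; have := h3 i hi; omega
  · intro i hi; have := h4 i hi; omega

/-! ## The river lemma (P1), deterministic part -/

/-- **(P1)** Maximum principle along a path.  `B` finite, `nb e z` = neighbour of `z` in direction
`e`, `w z e > 0` (`z ∈ B`), `∑ e, w z e = 1`, `u` subharmonic on `B`, and one direction `e0` along
which an integer height strictly increases.  From every `x ∈ B` there is a nearest neighbour path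
inside `{u ≥ u x}` which stays in `B` and ends at its first site outside `B`. -/
theorem river {V E : Type*} [Fintype E] (nb : E → V → V) (w : V → E → ℝ)
    (B : Set V) (hB : B.Finite) (hw : ∀ z ∈ B, ∀ e, 0 < w z e) (hw1 : ∀ z ∈ B, ∑ e, w z e = 1)
    (u : V → ℝ) (hu : ∀ z ∈ B, u z ≤ ∑ e, w z e * u (nb e z))
    (e0 : E) (f : V → ℤ) (hf : ∀ z, f z < f (nb e0 z)) (x : V) (hx : x ∈ B) :
    ∃ (k : ℕ) (p : ℕ → V), p 0 = x ∧ (∀ i < k, p i ∈ B ∧ ∃ e, p (i + 1) = nb e (p i)) ∧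
      (∀ i ≤ k, u x ≤ u (p i)) ∧ p k ∉ B := by
  classical
  by_contra hcon
  -- sites reached inside `B ∩ {u ≥ u x}`
  let Good : V → Prop := fun z => ∃ (k : ℕ) (p : ℕ → V), p 0 = x ∧ p k = z ∧
    (∀ i < k, ∃ e, p (i + 1) = nb e (p i)) ∧ (∀ i ≤ k, p i ∈ B ∧ u x ≤ u (p i))
  have hGx : Good x := ⟨0, fun _ => x, rfl, rfl, by simp, by intro i _; exact ⟨hx, le_rfl⟩⟩
  have hGB : ∀ z, Good z → z ∈ B ∧ u x ≤ u z := by
    rintro z ⟨k, p, -, hk, -, hp⟩
    have := hp k le_rfl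
    rwa [hk] at this
  have hext : ∀ z, Good z → ∀ e, u x ≤ u (nb e z) → Good (nb e z) := by
    rintro z ⟨k, p, h0, hk, hst, hp⟩ e hue
    have hup : ∀ i ≤ k, Function.update p (k + 1) (nb e z) i = p i := by
      intro i hi
      rw [Function.update_of_ne (by omega)]
    have hlast : Function.update p (k + 1) (nb e z) (k + 1) = nb e z := by simp
    have hsteps : ∀ i < k + 1, ∃ e', Function.update p (k + 1) (nb e z) (i + 1) =
        nb e' (Function.update p (k + 1) (nb e z) i) := by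
      intro i hi
      rcases Nat.lt_succ_iff_lt_or_eq.mp hi with h | h
      · rw [hup i h.le, hup (i + 1) h]
        exact hst i h
      · subst h
        rw [hup i le_rfl, hlast, hk]
        exact ⟨e, rfl⟩
    have hu' : ∀ i ≤ k + 1, u x ≤ u (Function.update p (k + 1) (nb e z) i) := by
      intro i hi
      rcases Nat.le_succ_iff.mp hi with h | h
      · rw [hup i h]
        exact (hp i h).2
      · subst h
        rw [hlast]
        exact hue
    by_cases hB' : nb e z ∈ B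
    · refine ⟨k + 1, Function.update p (k + 1) (nb e z), by rw [hup 0 (by omega), h0], hlast,
        hsteps, ?_⟩
      intro i hi
      refine ⟨?_, hu' i hi⟩
      rcases Nat.le_succ_iff.mp hi with h | h
      · rw [hup i h]
        exact (hp i h).1
      · subst h
        rw [hlast]
        exact hB'
    · exfalso
      apply hcon
      refine ⟨k + 1, Function.update p (k + 1) (nb e z), by rw [hup 0 (by omega), h0], ?_, hu', ?_⟩
      · intro i hi
        refine ⟨?_, hsteps i hi⟩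
        rw [hup i (by omega)]
        exact (hp i (by omega)).1
      · rw [hlast]
        exact hB'
  -- the finite set of good sites and its maximiser
  have hfin : {z | Good z}.Finite := hB.subset fun z hz => (hGB z hz).1
  obtain ⟨S, hS⟩ : ∃ S : Finset V, ∀ z, z ∈ S ↔ Good z := ⟨hfin.toFinset, by simp⟩
  obtain ⟨z1, hz1S, hz1⟩ := S.exists_max_image u ⟨x, (hS x).2 hGx⟩
  obtain ⟨z2, hz2S, hz2⟩ := (S.filter fun z => u z = u z1).exists_max_image f
    ⟨z1, by simp [hz1S]⟩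
  rw [Finset.mem_filter] at hz2S
  have hG2 := (hS z2).1 hz2S.1
  have hM : ∀ e, u (nb e z2) ≤ u z2 := by
    intro e
    by_cases h : u x ≤ u (nb e z2)
    · have := hext z2 hG2 e h
      rw [hz2S.2]
      exact hz1 _ ((hS _).2 this)
    · push Not at h
      exact h.le.trans (hGB z2 hG2).2
  have hz2B := (hGB z2 hG2).1
  have heq : u (nb e0 z2) = u z2 := by
    by_contra hne
    have hlt : u (nb e0 z2) < u z2 := lt_of_le_of_ne (hM e0) hne
    have h1 := hu z2 hz2B
    have h2 : ∑ e, w z2 e * u (nb e z2) < ∑ e, w z2 e * u z2 :=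
      Finset.sum_lt_sum (fun e _ => mul_le_mul_of_nonneg_left (hM e) (hw z2 hz2B e).le)
        ⟨e0, Finset.mem_univ _, mul_lt_mul_of_pos_left hlt (hw z2 hz2B e0)⟩
    rw [← Finset.sum_mul, hw1 z2 hz2B, one_mul] at h2
    linarith
  have hGn : Good (nb e0 z2) := hext z2 hG2 e0 (by rw [heq]; exact (hGB z2 hG2).2)
  have := hz2 (nb e0 z2) (by
    rw [Finset.mem_filter]
    exact ⟨(hS _).2 hGn, by rw [heq]; exact hz2S.2⟩)
  have := hf z2
  omega

end Crest.Agent.R154.Planar999
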