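import Crest.Agent.R154.Perc_272

/-!
R154 (helper272): many parallel planes at once (small heights).
-/

set_option autoImplicit false

open MeasureTheory
open scoped ENNReal NNReal

namespace Crest.Agent.R154.Perc272

/-- **Planes.**  A field on `ι × levels × cells` with `μ (A ∩ {K ⊆ bad}) ≤ M q^|K|`: the probability
that the clusters of `n s ≥ 1` adjacent sources die before the level `h + 1` in ALL planes `s ∈ S`
is at most `M ∏ 2 (12 q)^(n s)`. -/
theorem planes_le {Ω ι : Type*} [MeasurableSpace Ω] [DecidableEq ι] (μ : Measure Ω)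
    (M q : ℝ≥0∞) (bad : ι → ℕ → ℤ → Ω → Prop) (hq0 : q ≠ 0)
    (hq : q ≤ ((1 / 48 : ℝ≥0) : ℝ≥0∞)) (n : ι → ℕ) (h : ℕ) (S : Finset ι)
    (hn : ∀ s ∈ S, 1 ≤ n s) :
    ∀ (A : Set Ω),
      (∀ K : Finset (ι × ℕ × ℤ),
        (∀ p ∈ K, p.1 ∈ S ∧ p.2.1 ≤ h ∧ 0 ≤ p.2.2 ∧ p.2.2 < n p.1 + p.2.1) →
        μ (A ∩ {ω | ∀ p ∈ K, bad p.1 p.2.1 p.2.2 ω}) ≤ M * q ^ K.card) →
      μ (A ∩ {ω | ∀ s ∈ S, W (bad s) (n s) (h + 1) ω = ∅}) ≤
        M * ∏ s ∈ S, (2 * (12 * q) ^ n s) := by
  classical
  induction S using Finset.induction_on generalizing M with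
  | empty =>
    intro A hK
    have := hK ∅ (by simp)
    simpa using this
  | insert s S hs ih =>
    intro A hK
    have hcall := dead_le μ (A ∩ {ω | ∀ s ∈ S, W (bad s) (n s) (h + 1) ω = ∅})
      (M * ∏ s ∈ S, (2 * (12 * q) ^ n s)) q (bad s) hq0 hq (n s) h
      (hn s (Finset.mem_insert_self _ _)) (by
        intro K₁ hK₁
        -- use the induction hypothesis on the set `A ∩ {K₁ bad in the plane s}`
        have h1 := ih (M * q ^ K₁.card) (fun s' hs' => hn s' (Finset.mem_insert_of_mem hs'))
          (A ∩ {ω | ∀ p ∈ K₁, bad s p.1 p.2 ω}) (by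
            intro K hKl
            have hinj : Function.Injective (fun p : ℕ × ℤ => ((s, p) : ι × ℕ × ℤ)) :=
              fun a b hab => by simpa using hab
            set K₂ : Finset (ι × ℕ × ℤ) := K ∪ K₁.image (fun p => (s, p)) with hK₂
            have hdisj : Disjoint K (K₁.image (fun p => ((s, p) : ι × ℕ × ℤ))) := by
              rw [Finset.disjoint_left]
              intro p hp hp'
              rw [Finset.mem_image] at hp'
              obtain ⟨r, -, rfl⟩ := hp'
              exact hs (hKl _ hp).1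
            have hcard : K₂.card = K₁.card + K.card := by
              rw [hK₂, Finset.card_union_of_disjoint hdisj,
                Finset.card_image_of_injective _ hinj, add_comm]
            have h2 := hK K₂ (by
              intro p hp
              rw [hK₂, Finset.mem_union, Finset.mem_image] at hp
              rcases hp with hp | ⟨r, hr, rfl⟩
              · exact ⟨Finset.mem_insert_of_mem (hKl p hp).1, (hKl p hp).2⟩
              · exact ⟨Finset.mem_insert_self _ _, hK₁ r hr⟩)
            rw [hcard, pow_add, ← mul_assoc] at h2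
            refine (measure_mono ?_).trans h2
            rintro ω ⟨⟨hA, h₁⟩, h₂⟩
            refine ⟨hA, fun p hp => ?_⟩
            rw [hK₂, Finset.mem_union, Finset.mem_image] at hp
            rcases hp with hp | ⟨r, hr, rfl⟩
            · exact h₂ p hp
            · exact h₁ r hr)
        refine le_trans (measure_mono ?_) (h1.trans (le_of_eq (by ring)))
        rintro ω ⟨⟨hA, h₁⟩, h₂⟩
        exact ⟨⟨hA, h₂⟩, h₁⟩)
    rw [Finset.prod_insert hs]
    refine le_trans (measure_mono ?_) (hcall.trans (le_of_eq (by ring)))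
    rintro ω ⟨hA, h₁⟩
    exact ⟨⟨hA, fun s' hs' => h₁ s' (Finset.mem_insert_of_mem hs')⟩,
      h₁ s (Finset.mem_insert_self _ _)⟩

end Crest.Agent.R154.Perc272
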