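import Crest.Agent.R154.PointJ_527
import Crest.Agent.R154.B5Br_657

/-! Row 154, ROAD 801, pair frame (helper527): `HPoint` at the word instance of B5Inst_657. -/

set_option autoImplicit false

open MeasureTheory ProbabilityTheory Crest.ProbabilityR.RandomEnvironment
open scoped ENNReal

namespace Crest.Agent.R154.PointJ527

open Crest.Agent.R154.B5A
open Crest.Agent.R154.B5W
open Crest.Agent.R154.Flux566 (lw endp sitesL lev measurable_lw)

variable {d : ℕ}

lemma ae_pos (ν : Measure (Row d)) [IsProbabilityMeasure ν]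
    (hν : ∀ᵐ p ∂ν, ∀ e : Step d, 0 < p.1 e) :
    ∀ᵐ ω ∂(iidEnvironmentLaw ν), ∀ (x : Site d) (e : Step d), 0 < (ω x).1 e := by
  rw [ae_all_iff]
  intro x
  have hmap : (iidEnvironmentLaw ν).map (fun ω : Environment d => ω x) = ν := by
    rw [iidEnvironmentLaw]
    exact Measure.infinitePi_map_eval _ _
  have := hν
  rw [← hmap] at this
  exact ae_of_ae_map (measurable_pi_apply x).aemeasurable this

lemma lw_ne_zero (ω : Environment d) (h : ∀ (x : Site d) (e : Step d), 0 < (ω x).1 e)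
    (l : List (Step d)) : ∀ x, lw ω x l ≠ 0 := by
  induction l with
  | nil => intro x; simp [lw]
  | cons e l ih =>
    intro x
    simp only [lw]
    exact mul_ne_zero (by rw [Ne, ENNReal.ofReal_eq_zero]; exact not_le.2 (h x e)) (ih _)

lemma aw_ne_zero (ν : Measure (Row d)) [IsProbabilityMeasure ν]
    (hν : ∀ᵐ p ∂ν, ∀ e : Step d, 0 < p.1 e) (l : List (Step d)) :
    aw (iidEnvironmentLaw ν) l ≠ 0 := by
  intro h0
  rw [aw, lintegral_eq_zero_iff (measurable_lw 0 l)] at h0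
  have h2 : ∀ᵐ ω ∂(iidEnvironmentLaw ν), False := by
    filter_upwards [h0, ae_pos ν hν] with ω h3 h4
    exact lw_ne_zero ω h4 l 0 h3
  have h5 : (iidEnvironmentLaw ν) Set.univ = 0 := by
    have := ae_iff.1 h2
    simpa using this
  rw [measure_univ] at h5
  exact one_ne_zero h5

lemma irr_one (u : Step d) {x : List (Step d) × List (Step d)}
    (hx : x ∈ PC (hu u) (hdn u) 1) : Irr (hu u) (hdn u) x :=
  ⟨1, le_rfl, hx, fun a c k l ha hc he => by
    have := PC_height hx (he ▸ pm_mem ha hc)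
    omega⟩

lemma lev_self' (u : Step d) : lev u (stepVec u) = 1 := Flux566.lev_self u

lemma up_one (u : Step d) : [u] ∈ UpW (hu u) 1 := by
  refine ⟨by simp [lv, hu, lev_self'], fun p hp hne => ?_⟩
  rcases List.prefix_cons_iff.1 hp with rfl | ⟨t, rfl, ht⟩
  · simp
  · exact absurd (by rw [List.prefix_nil.1 ht]) hne

lemma lev_opp' (u : Step d) : lev u (stepVec (Flux132.opp u)) = -1 := by
  rw [stepVec_opp', Flux566.lev_neg, lev_self']

lemma dn_one (u : Step d) : [Flux132.opp u] ∈ UpW (hdn u) 1 := by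
  refine ⟨by simp [lv, hdn, lev_opp'], fun p hp hne => ?_⟩
  rcases List.prefix_cons_iff.1 hp with rfl | ⟨t, rfl, ht⟩
  · simp
  · exact absurd (by rw [List.prefix_nil.1 ht]) hne

lemma lev_lat {u e : Step d} (h : e.1 ≠ u.1) : lev u (stepVec e) = 0 :=
  Flux132.lev_step_of_ne h

lemma up_two {u e : Step d} (h : e.1 ≠ u.1) : [e, u] ∈ UpW (hu u) 1 := by
  refine ⟨by simp [lv, hu, lev_self', lev_lat h], fun p hp hne => ?_⟩
  rcases List.prefix_cons_iff.1 hp with rfl | ⟨t, rfl, ht⟩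
  · simp
  · rcases List.prefix_cons_iff.1 ht with rfl | ⟨t', rfl, ht'⟩
    · simp [lv, hu, lev_lat h]
    · exact absurd (by rw [List.prefix_nil.1 ht']) hne

/-- **HPoint at the word instance** -/
theorem hpoint_lat (ν : Measure (Row d)) [IsProbabilityMeasure ν] (u : Step d) (hd : 2 ≤ d)
    (hν : ∀ᵐ p ∂ν, ∀ e : Step d, 0 < p.1 e)
    (c : ℝ≥0∞) (hc : c ≠ 0) (hU : ∀ n, c ≤ U (Lam ν u) (ht u) n)
    (hU1 : ∀ n, U (Lam ν u) (ht u) n ≤ 1) :
    HPoint (Lam ν u) (ht u) (dl u) (cd u) := by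
  obtain ⟨i, hi⟩ : ∃ i : Fin d, i ≠ u.1 := by
    by_cases h0 : u.1 = ⟨0, by omega⟩
    · exact ⟨⟨1, by omega⟩, by rw [h0]; simp [Fin.ext_iff]⟩
    · exact ⟨⟨0, by omega⟩, fun h => h0 h.symm⟩
  set e : Step d := (i, true) with he
  have hei : e.1 ≠ u.1 := hi
  have hmA : (([u], [Flux132.opp u]) : List (Step d) × List (Step d)) ∈ PC (hu u) (hdn u) 1 :=
    ⟨up_one u, dn_one u⟩
  have hmB : (([e, u], [Flux132.opp u]) : List (Step d) × List (Step d)) ∈ PC (hu u) (hdn u) 1 :=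
    ⟨up_two hei, dn_one u⟩
  have hΛ : ∑' b, Lam ν u b = 1 := le_antisymm (mass_le_one (Lam ν u) (ht u) one_le_hb hU1)
    (mass_ge_one (Lam ν u) (ht u) c hc 0 (fun n _ => hU n))
  refine hpoint_of (Lam ν u) (ht u) (dl u) (cd u)
    (fun b : PB u => endp 0 b.1.1 + endp 0 b.1.2) (fun w : Lat u => w.1)
    (fun b w => by
      show w.1 + endp 0 b.1.1 + endp 0 b.1.2 = _
      rw [add_assoc])
    one_le_hb hΛ hU1 c hc (ne_top_of_le_ne_top ENNReal.one_ne_top ((hU 0).trans (hU1 0))) hU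
    (fun w b k hk => hcd u w b k hk) (hfar u)
    ⟨_, irr_one u hmA⟩ ⟨_, irr_one u hmB⟩ (hb_eq hmA) (hb_eq hmB) ?_ ?_ ?_
  · exact mul_ne_zero (aw_ne_zero ν hν _) (aw_ne_zero ν hν _)
  · exact mul_ne_zero (aw_ne_zero ν hν _) (aw_ne_zero ν hν _)
  · intro n hn h0
    have h1 : (endp 0 [e, u] + endp 0 [Flux132.opp u] - (endp 0 [u] + endp 0 [Flux132.opp u]) :
        Site d) = stepVec e := by
      simp only [endp]
      abel
    have h2 : n • (stepVec e : Site d) = 0 := by rw [← h1]; exact h0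
    have h3 := congrFun h2 i
    simp [stepVec, he] at h3
    exact hn h3

end Crest.Agent.R154.PointJ527
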