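import Crest.Agent.R154.GreenConc_666
import Crest.Agent.R154.B5Rec_566

/-! Row 154, T0219 (helper666): concentration in the list letters of B5A (`conc`), and the
one-level contact lemma `point` for two single-walker block systems (540's `hPt`). -/

set_option autoImplicit false

open Filter Topology
open scoped ENNReal

namespace Crest.Agent.R154.PointC666

open Crest.Agent.R154.B5A

variable {B G : Type*} [AddCommGroup G]

/-- total displacement -/
def Dp (zz : B → G) (L : List B) : G := (L.map zz).sum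

lemma Dp_nil (zz : B → G) : Dp zz [] = 0 := by simp [Dp]
lemma Dp_cons (zz : B → G) (b : B) (L : List B) : Dp zz (b :: L) = zz b + Dp zz L := by simp [Dp]
lemma Dp_append (zz : B → G) (A L : List B) : Dp zz (A ++ L) = Dp zz A + Dp zz L := by simp [Dp]

/-- trace of a list placed at position `x`, depth `a` -/
def T (ht : B → ℕ) (zz : B → G) (s : B → Set (G × ℕ)) : List B → G → ℕ → Set (G × ℕ)
  | [], _, _ => ∅
  | b :: L, x, a => {p | ∃ q ∈ s b, p = (x + q.1, a + q.2)} ∪ T ht zz s L (x + zz b) (a + ht b)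

lemma T_append (ht : B → ℕ) (zz : B → G) (s : B → Set (G × ℕ)) (A L : List B) (x : G) (a : ℕ) :
    T ht zz s (A ++ L) x a = T ht zz s A x a ∪ T ht zz s L (x + Dp zz A) (a + HT ht A) := by
  induction A generalizing x a with
  | nil => simp [T, Dp_nil, HT_nil]
  | cons b A ih =>
    simp only [List.cons_append, T, ih, Dp_cons, HT_cons, Set.union_assoc, add_assoc]

lemma T_depth (ht : B → ℕ) (zz : B → G) (s : B → Set (G × ℕ))
    (hs : ∀ b, ∀ q ∈ s b, 1 ≤ q.2 ∧ q.2 ≤ ht b) (L : List B) (x : G) (a : ℕ) (p : G × ℕ)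
    (hp : p ∈ T ht zz s L x a) : a < p.2 ∧ p.2 ≤ a + HT ht L := by
  induction L generalizing x a with
  | nil => simp [T] at hp
  | cons b L ih =>
    rw [HT_cons]
    rcases hp with ⟨q, hq, rfl⟩ | hp
    · have := hs b q hq; simp only; omega
    · have := ih _ _ hp; omega

/-- the block `b` after `A` covers depth `k` -/
def cov (ht : B → ℕ) (k : ℕ) (A : List B) (b : B) : Prop := HT ht A < k ∧ k ≤ HT ht A + ht b

lemma exists_cov (ht : B → ℕ) (L : List B) : ∀ k, 1 ≤ k → k ≤ HT ht L →
    ∃ A b R, L = A ++ b :: R ∧ cov ht k A b := by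
  induction L with
  | nil => intro k h1 h2; simp [HT_nil] at h2; omega
  | cons b L ih =>
    intro k h1 h2
    rw [HT_cons] at h2
    by_cases hk : k ≤ ht b
    · exact ⟨[], b, L, rfl, by rw [cov, HT_nil]; omega⟩
    · obtain ⟨A, c, R, rfl, hc⟩ := ih (k - ht b) (by omega) (by omega)
      refine ⟨b :: A, c, R, rfl, ?_⟩
      rw [cov, HT_cons]; rw [cov] at hc; omega

lemma T_cov (ht : B → ℕ) (zz : B → G) (s : B → Set (G × ℕ))
    (hs : ∀ b, ∀ q ∈ s b, 1 ≤ q.2 ∧ q.2 ≤ ht b) (A R : List B) (b : B) (x z : G) (k : ℕ)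
    (hc : cov ht k A b) (hp : (z, k) ∈ T ht zz s (A ++ b :: R) x 0) :
    (z - x - Dp zz A, k - HT ht A) ∈ s b := by
  rw [T_append] at hp
  rcases hp with hp | hp
  · have := T_depth ht zz s hs A x 0 _ hp; rw [cov] at hc; simp only at this; omega
  · rcases hp with ⟨q, hq, he⟩ | hp
    · simp only [Prod.mk.injEq] at he
      obtain ⟨e1, e2⟩ := he
      have : (z - x - Dp zz A, k - HT ht A) = q := by
        refine Prod.ext ?_ ?_
        · simp only; rw [e1]; abel
        · simp only; omega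
      rwa [this]
    · have := T_depth ht zz s hs R _ _ _ hp; rw [cov] at hc; simp only at this; omega

/-! ### concentration in list letters -/

open Classical in
/-- Green function -/
noncomputable def Gr (Λ : B → ℝ≥0∞) (ht : B → ℕ) (zz : B → G) (n : ℕ) (z : G) : ℝ≥0∞ :=
  ∑' L : List B, if HT ht L = n ∧ Dp zz L = z then LW Λ L else 0

lemma Gr_sum (Λ : B → ℝ≥0∞) (ht : B → ℕ) (zz : B → G) (n : ℕ) :
    ∑' z, Gr Λ ht zz n z = U Λ ht n := by
  classical
  rw [U]
  simp only [Gr]
  rw [ENNReal.tsum_comm]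
  refine tsum_congr fun L => ?_
  by_cases h : HT ht L = n
  · simp only [h, true_and, if_true]
    refine Eq.trans (tsum_congr fun z => ?_) (tsum_ite_eq (Dp zz L) (fun _ => LW Λ L))
    by_cases h2 : Dp zz L = z
    · rw [if_pos h2, if_pos h2.symm]
    · rw [if_neg h2, if_neg (fun e => h2 e.symm)]
  · simp [h]

lemma Gr_rec (Λ : B → ℝ≥0∞) (ht : B → ℕ) (zz : B → G) (n : ℕ) (z : G) (hn : 1 ≤ n) :
    Gr Λ ht zz n z ≤
      ∑' b, Λ b * (if ht b ≤ n then Gr Λ ht zz (n - ht b) (z - zz b) else 0) := by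
  classical
  rw [Gr, tsum_list, if_neg (by rw [HT_nil]; omega), zero_add]
  refine ENNReal.tsum_le_tsum fun b => ?_
  by_cases hb : ht b ≤ n
  · rw [if_pos hb, Gr, ← ENNReal.tsum_mul_left]
    refine ENNReal.tsum_le_tsum fun L => ?_
    by_cases h : HT ht (b :: L) = n ∧ Dp zz (b :: L) = z
    · rw [if_pos h, LW_cons, if_pos]
      rw [HT_cons, Dp_cons] at h
      exact ⟨by omega, by rw [← h.2]; abel⟩
    · rw [if_neg h]; exact zero_le
  · rw [if_neg hb, mul_zero]
    refine le_of_eq (ENNReal.tsum_eq_zero.2 fun L => ?_)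
    rw [if_neg]
    rw [HT_cons]; omega

lemma U_le_one (Λ : B → ℝ≥0∞) (ht : B → ℕ) (h1 : ∀ b, 1 ≤ ht b) (hΛ : ∑' b, Λ b = 1) (n : ℕ) :
    U Λ ht n ≤ 1 := by
  induction n using Nat.strong_induction_on with
  | _ n ih =>
    rcases Nat.eq_zero_or_pos n with rfl | hn
    · exact (U_zero Λ ht h1).le
    · classical
      rw [U, tsum_list, if_neg (by rw [HT_nil]; omega), zero_add]
      calc _ ≤ ∑' b, Λ b * 1 := by
            refine ENNReal.tsum_le_tsum fun b => ?_
            by_cases hb : ht b ≤ n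
            · refine le_trans ?_ (mul_le_mul_right (ih (n - ht b) (by have := h1 b; omega)) _)
              rw [U, ← ENNReal.tsum_mul_left]
              refine ENNReal.tsum_le_tsum fun L => ?_
              by_cases h : HT ht (b :: L) = n
              · rw [if_pos h, LW_cons, if_pos]
                rw [HT_cons] at h; omega
              · rw [if_neg h]; exact zero_le
            · have : (∑' L : List B, if HT ht (b :: L) = n then LW Λ (b :: L) else 0) = 0 :=
                ENNReal.tsum_eq_zero.2 fun L => by rw [if_neg]; rw [HT_cons]; omega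
              rw [this]; exact zero_le
        _ = 1 := by simpa using hΛ

/-- **concentration**: `sup_z P(renewal at `n`, displacement `z`) → 0`. -/
theorem conc (Λ : B → ℝ≥0∞) (ht : B → ℕ) (zz : B → G) (h1 : ∀ b, 1 ≤ ht b)
    (hΛ : ∑' b, Λ b = 1) (a b : B) (hta : ht a = 1) (htb : ht b = 1) (ha : Λ a ≠ 0) (hb : Λ b ≠ 0)
    (hf : ∀ n : ℕ, n ≠ 0 → n • (zz b - zz a) ≠ 0) (ε : ℝ≥0∞) (hε : ε ≠ 0) :
    ∃ H : ℕ, ∀ n, H ≤ n → ∀ z, Gr Λ ht zz n z ≤ ε :=
  GreenConc666.green_conc Λ ht zz (Gr Λ ht zz) hΛ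
    (fun n => by rw [Gr_sum]; exact U_le_one Λ ht h1 hΛ n) (fun n z hn => Gr_rec Λ ht zz n z hn)
    a b hta htb ha hb hf ε hε


/-! ### the one-level contact lemma -/

lemma tsum_cov (ht : B → ℕ) (k : ℕ) (hk : 1 ≤ k) (f : List B → ℝ≥0∞)
    (hf : ∀ L, f L ≠ 0 → k ≤ HT ht L) :
    ∑' L, f L ≤ ∑' A : List B, ∑' b : B, ∑' R : List B,
      Set.indicator {p : List B × B | cov ht k p.1 p.2} (fun _ => f (A ++ b :: R)) (A, b) := by
  classical
  calc ∑' L, f L ≤ ∑' L, ∑' x : List B × B × List B,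
        (if x.1 ++ x.2.1 :: x.2.2 = L ∧ cov ht k x.1 x.2.1 then f L else 0) := by
        refine ENNReal.tsum_le_tsum fun L => ?_
        by_cases h0 : f L = 0
        · rw [h0]; exact zero_le
        obtain ⟨A, b, R, rfl, hc⟩ := exists_cov ht L k hk (hf L h0)
        refine le_trans ?_ (ENNReal.le_tsum (A, b, R))
        rw [if_pos ⟨rfl, hc⟩]
    _ = ∑' x : List B × B × List B, ∑' L,
        (if x.1 ++ x.2.1 :: x.2.2 = L ∧ cov ht k x.1 x.2.1 then f L else 0) := ENNReal.tsum_comm
    _ = ∑' x : List B × B × List B,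
        (if cov ht k x.1 x.2.1 then f (x.1 ++ x.2.1 :: x.2.2) else 0) := by
        refine tsum_congr fun x => ?_
        by_cases hc : cov ht k x.1 x.2.1
        · simp only [hc, and_true, if_true]
          refine Eq.trans (tsum_congr fun L => ?_)
            (tsum_ite_eq (x.1 ++ x.2.1 :: x.2.2) (fun L => f L))
          by_cases h2 : x.1 ++ x.2.1 :: x.2.2 = L
          · rw [if_pos h2, if_pos h2.symm]
          · rw [if_neg h2, if_neg (fun e => h2 e.symm)]
        · simp [hc]
    _ = _ := by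
        rw [ENNReal.tsum_prod']
        refine tsum_congr fun A => ?_
        rw [ENNReal.tsum_prod']
        refine tsum_congr fun b => tsum_congr fun R => ?_
        by_cases hc : cov ht k A b
        · rw [Set.indicator_of_mem (show (A, b) ∈ {p : List B × B | cov ht k p.1 p.2} from hc),
            if_pos hc]
        · rw [Set.indicator_of_notMem (show (A, b) ∉ {p : List B × B | cov ht k p.1 p.2} from hc),
            if_neg hc]

end Crest.Agent.R154.PointC666
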