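import Crest.Agent.R154.PFDefs_692
import Crest.Agent.R154.GreenConc_666

/-! Row 154, ROAD 801, pair frame (helper527): `HPoint` (a contact at depth exactly `k` is unlikely)
in the letters of B5Abs_566 / PFDefs_692, from the point concentration of the displacement
(GreenConc_666) and a finite mean height. -/

set_option autoImplicit false

namespace Crest.Agent.R154.PointJ527

open scoped ENNReal
open Crest.Agent.R154.B5A

variable {B W : Type*} (Λ : B → ℝ≥0∞) (ht : B → ℕ) (dl : B → W → W) (cd : W → B → Set ℕ)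

lemma mem_CD_split (L : List B) : ∀ (w : W) (k : ℕ), k ∈ CD ht dl cd L w →
    ∃ L1 b R, L = L1 ++ b :: R ∧ ∃ j ∈ cd (act dl L1 w) b, k = HT ht L1 + j := by
  induction L with
  | nil => intro w k h; simp [CD] at h
  | cons b L ih =>
    intro w k h
    rcases h with h | ⟨k', hk', rfl⟩
    · exact ⟨[], b, L, rfl, k, h, by simp [HT]⟩
    · obtain ⟨L1, c, R, h1, j, hj, h2⟩ := ih _ _ hk'
      refine ⟨b :: L1, c, R, by rw [h1]; rfl, j, hj, ?_⟩
      simp only [HT_cons]; omega

open Classical in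
/-- the contact at depth `k` is in one block -/
lemma point_le (hU1 : ∀ n, U Λ ht n ≤ 1) (n k : ℕ) (w : W) :
    ∑' L : List B, (if HT ht L = n ∧ k ∈ CD ht dl cd L w then LW Λ L else 0) ≤
      ∑' b, Λ b * ∑' L1, (if ∃ j ∈ cd (act dl L1 w) b, k = HT ht L1 + j then LW Λ L1 else 0) := by
  have hex : ∀ L : {L : List B // HT ht L = n ∧ k ∈ CD ht dl cd L w},
      ∃ p : B × List B × List B, L.1 = p.2.1 ++ p.1 :: p.2.2 ∧
        ∃ j ∈ cd (act dl p.2.1 w) p.1, k = HT ht p.2.1 + j := fun L => by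
    obtain ⟨L1, b, R, e, h⟩ := mem_CD_split ht dl cd L.1 w k L.2.2
    exact ⟨(b, L1, R), e, h⟩
  choose φ hφ1 hφ2 using hex
  have hinjφ : Function.Injective φ := fun L L' e => Subtype.ext (by rw [hφ1, hφ1, e])
  calc ∑' L : List B, (if HT ht L = n ∧ k ∈ CD ht dl cd L w then LW Λ L else 0)
      = ∑' L : {L : List B // HT ht L = n ∧ k ∈ CD ht dl cd L w}, LW Λ L.1 := by
        rw [← tsum_subtype_eq_of_support_subset (s := {L : List B |
          HT ht L = n ∧ k ∈ CD ht dl cd L w})]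
        · exact tsum_congr fun L => if_pos L.2
        · intro L hL
          by_contra hn
          exact hL (if_neg hn)
    _ ≤ ∑' L : {L : List B // HT ht L = n ∧ k ∈ CD ht dl cd L w},
          (fun p : B × List B × List B => Λ p.1 *
            ((if ∃ j ∈ cd (act dl p.2.1 w) p.1, k = HT ht p.2.1 + j then LW Λ p.2.1 else 0) *
            (if HT ht p.2.2 = n - HT ht p.2.1 - ht p.1 then LW Λ p.2.2 else 0))) (φ L) := by
        refine ENNReal.tsum_le_tsum fun L => ?_
        have e := hφ1 L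
        have hh : HT ht L.1 = HT ht (φ L).2.1 + (ht (φ L).1 + HT ht (φ L).2.2) := by
          rw [e, HT_append, HT_cons]
        show _ ≤ Λ (φ L).1 *
            ((if ∃ j ∈ cd (act dl (φ L).2.1 w) (φ L).1, k = HT ht (φ L).2.1 + j
              then LW Λ (φ L).2.1 else 0) *
            (if HT ht (φ L).2.2 = n - HT ht (φ L).2.1 - ht (φ L).1 then LW Λ (φ L).2.2 else 0))
        rw [if_pos (hφ2 L), if_pos (by have := L.2.1; omega)]
        conv_lhs => rw [e, LW_append, LW_cons]
        exact le_of_eq (by ring)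
    _ ≤ ∑' p : B × List B × List B, Λ p.1 *
            ((if ∃ j ∈ cd (act dl p.2.1 w) p.1, k = HT ht p.2.1 + j then LW Λ p.2.1 else 0) *
            (if HT ht p.2.2 = n - HT ht p.2.1 - ht p.1 then LW Λ p.2.2 else 0)) :=
        ENNReal.tsum_comp_le_tsum_of_injective hinjφ _
    _ ≤ _ := by
        rw [ENNReal.tsum_prod']
        refine ENNReal.tsum_le_tsum fun b => ?_
        dsimp only
        rw [ENNReal.tsum_mul_left]
        refine mul_le_mul_right ?_ _
        rw [ENNReal.tsum_prod']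
        refine ENNReal.tsum_le_tsum fun L1 => ?_
        by_cases hc : ∃ j ∈ cd (act dl L1 w) b, k = HT ht L1 + j
        · simp only [if_pos hc]
          rw [ENNReal.tsum_mul_left]
          calc _ ≤ LW Λ L1 * 1 := mul_le_mul_right (hU1 _) _
            _ = _ := mul_one _
        · simp only [if_neg hc, zero_mul, tsum_zero]
          exact le_rfl

open Classical in
lemma g_le (hcd : ∀ w b k, k ∈ cd w b → 1 ≤ k ∧ k ≤ ht b) (k : ℕ) (w : W) (b : B) :
    ∑' L1, (if ∃ j ∈ cd (act dl L1 w) b, k = HT ht L1 + j then LW Λ L1 else 0) ≤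
      ∑ j ∈ Finset.Icc 1 (ht b), ∑' L1, (if HT ht L1 = k - j ∧ cd (act dl L1 w) b ≠ ∅
        then LW Λ L1 else 0) := by
  rw [← Summable.tsum_finsetSum (fun _ _ => ENNReal.summable)]
  refine ENNReal.tsum_le_tsum fun L1 => ?_
  split_ifs with h
  · obtain ⟨j, hj, hk⟩ := h
    have hj' := hcd _ _ _ hj
    refine le_trans ?_ (Finset.single_le_sum (f := fun j => if HT ht L1 = k - j ∧
      cd (act dl L1 w) b ≠ ∅ then LW Λ L1 else 0) (fun _ _ => zero_le)
      (Finset.mem_Icc.2 hj'))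
    rw [if_pos ⟨by omega, fun h0 => by rw [h0] at hj; exact hj⟩]
  · exact zero_le

open Classical in
/-- **HPoint** from point concentration -/
theorem hpoint (hU1 : ∀ n, U Λ ht n ≤ 1) (hmean : ∑' b, Λ b * (ht b : ℝ≥0∞) ≠ ⊤)
    (hcd : ∀ w b k, k ∈ cd w b → 1 ≤ k ∧ k ≤ ht b)
    (hfar : ∀ b, {w | cd w b ≠ ∅}.Finite)
    (hconc : ∀ ε : ℝ≥0∞, ε ≠ 0 → ∃ H : ℕ, ∀ h, H ≤ h → ∀ w w',
      (∑' L : List B, if HT ht L = h ∧ act dl L w = w' then LW Λ L else 0) ≤ ε) :
    HPoint Λ ht dl cd := by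
  intro ε hε
  have htz := ENNReal.tendsto_tsum_compl_atTop_zero hmean
  have hε2 : ε / 2 ≠ 0 := (ENNReal.half_pos hε).ne'
  have hev := (ENNReal.tendsto_nhds_zero.1 htz) (ε / 2) (pos_iff_ne_zero.2 hε2)
  obtain ⟨s, hs⟩ := hev.exists
  set C : ℝ≥0∞ := ∑ b ∈ s, Λ b * ((ht b : ℝ≥0∞) * ((hfar b).toFinset.card : ℝ≥0∞)) with hC
  have hΛt : ∀ b, Λ b * (ht b : ℝ≥0∞) ≠ ⊤ := fun b =>
    ne_top_of_le_ne_top hmean (ENNReal.le_tsum b)
  have hCt : C ≠ ⊤ := by
    refine ENNReal.sum_ne_top.2 fun b _ => ?_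
    rw [← mul_assoc]
    exact ENNReal.mul_ne_top (hΛt b) (ENNReal.natCast_ne_top _)
  have hη : ε / 2 / (C + 1) ≠ 0 := by
    refine (ENNReal.div_pos hε2 ?_).ne'
    exact ENNReal.add_ne_top.2 ⟨hCt, ENNReal.one_ne_top⟩
  obtain ⟨H, hH⟩ := hconc _ hη
  refine ⟨H + ∑ b ∈ s, ht b, fun k hk n _ w => ?_⟩
  refine (point_le Λ ht dl cd hU1 n k w).trans ?_
  set g : B → ℝ≥0∞ := fun b => Λ b *
    ∑' L1, (if ∃ j ∈ cd (act dl L1 w) b, k = HT ht L1 + j then LW Λ L1 else 0) with hg
  have hsplit : ∑' b, g b = ∑ b ∈ s, g b + ∑' b : {x // x ∉ s}, g b :=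
    (ENNReal.sum_add_tsum_compl s g).symm
  rw [hsplit]
  have hA : ∑ b ∈ s, g b ≤ ε / 2 := by
    have h1 : ∀ b ∈ s, g b ≤ (Λ b * ((ht b : ℝ≥0∞) * ((hfar b).toFinset.card : ℝ≥0∞))) *
        (ε / 2 / (C + 1)) := by
      intro b hb
      have hle : ht b ≤ ∑ b ∈ s, ht b := Finset.single_le_sum (fun _ _ => Nat.zero_le _) hb
      calc g b ≤ Λ b * ∑ j ∈ Finset.Icc 1 (ht b), ∑' L1, (if HT ht L1 = k - j ∧
            cd (act dl L1 w) b ≠ ∅ then LW Λ L1 else 0) :=
            mul_le_mul_right (g_le Λ ht dl cd hcd k w b) _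
        _ ≤ Λ b * ∑ j ∈ Finset.Icc 1 (ht b),
            (((hfar b).toFinset.card : ℝ≥0∞) * (ε / 2 / (C + 1))) := by
            refine mul_le_mul_right (Finset.sum_le_sum fun j hj => ?_) _
            have hj' := Finset.mem_Icc.1 hj
            calc ∑' L1, (if HT ht L1 = k - j ∧ cd (act dl L1 w) b ≠ ∅ then LW Λ L1 else 0)
                ≤ ∑' L1, ∑ w' ∈ (hfar b).toFinset,
                  (if HT ht L1 = k - j ∧ act dl L1 w = w' then LW Λ L1 else 0) := by
                  refine ENNReal.tsum_le_tsum fun L1 => ?_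
                  split_ifs with h
                  · refine le_trans ?_ (Finset.single_le_sum (f := fun w' =>
                      if HT ht L1 = k - j ∧ act dl L1 w = w' then LW Λ L1 else 0)
                      (fun _ _ => zero_le) ((hfar b).mem_toFinset.2 h.2))
                    rw [if_pos ⟨h.1, rfl⟩]
                  · exact zero_le
              _ = ∑ w' ∈ (hfar b).toFinset, ∑' L1,
                  (if HT ht L1 = k - j ∧ act dl L1 w = w' then LW Λ L1 else 0) :=
                  Summable.tsum_finsetSum (fun _ _ => ENNReal.summable)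
              _ ≤ ∑ w' ∈ (hfar b).toFinset, (ε / 2 / (C + 1)) :=
                  Finset.sum_le_sum fun w' _ => hH _ (by omega) w w'
              _ = _ := by rw [Finset.sum_const, nsmul_eq_mul]
        _ = _ := by
            rw [Finset.sum_const, nsmul_eq_mul, Nat.card_Icc, Nat.add_sub_cancel]
            ring
    calc ∑ b ∈ s, g b ≤ ∑ b ∈ s, (Λ b * ((ht b : ℝ≥0∞) * ((hfar b).toFinset.card : ℝ≥0∞))) *
          (ε / 2 / (C + 1)) := Finset.sum_le_sum h1
      _ = C * (ε / 2 / (C + 1)) := by rw [← Finset.sum_mul]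
      _ ≤ (C + 1) * (ε / 2 / (C + 1)) := mul_le_mul_left (le_add_right le_rfl) _
      _ ≤ ε / 2 := ENNReal.mul_div_le
  have hB : ∑' b : {x // x ∉ s}, g b ≤ ε / 2 := by
    refine le_trans (ENNReal.tsum_le_tsum fun b => ?_) hs
    refine mul_le_mul_right ?_ _
    refine (g_le Λ ht dl cd hcd k w b).trans ?_
    calc ∑ j ∈ Finset.Icc 1 (ht b), ∑' L1, (if HT ht L1 = k - j ∧
            cd (act dl L1 w) b ≠ ∅ then LW Λ L1 else 0)
        ≤ ∑ j ∈ Finset.Icc 1 (ht b), 1 := by
          refine Finset.sum_le_sum fun j _ => le_trans (ENNReal.tsum_le_tsum fun L1 => ?_)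
            (hU1 (k - j))
          by_cases h : HT ht L1 = k - j
          · rw [if_pos h]
            split_ifs
            · exact le_rfl
            · exact zero_le
          · rw [if_neg (fun h' => h h'.1)]; exact zero_le
      _ = (ht b : ℝ≥0∞) := by
          rw [Finset.sum_const, nsmul_eq_mul, mul_one, Nat.card_Icc, Nat.add_sub_cancel]
  calc _ ≤ ε / 2 + ε / 2 := add_le_add hA hB
    _ = ε := ENNReal.add_halves ε

open Classical in
/-- point concentration from `GreenConc666.green_conc`: displacements in an abelian group -/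
theorem hconc_of {V : Type*} [AddCommGroup V] (dz : B → V) (ι : W → V)
    (hι : ∀ b w, ι (dl b w) = ι w + dz b)
    (hΛ : ∑' b, Λ b = 1) (hU1 : ∀ n, U Λ ht n ≤ 1)
    (a b : B) (hta : ht a = 1) (htb : ht b = 1) (ha : Λ a ≠ 0) (hb : Λ b ≠ 0)
    (hf : ∀ n : ℕ, n ≠ 0 → n • (dz b - dz a) ≠ 0) (ε : ℝ≥0∞) (hε : ε ≠ 0) :
    ∃ H : ℕ, ∀ h, H ≤ h → ∀ w w',
      (∑' L : List B, if HT ht L = h ∧ act dl L w = w' then LW Λ L else 0) ≤ ε := by
  obtain ⟨H, hH⟩ := GreenConc666.green_conc Λ ht dz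
    (fun h z => ∑' L : List B, if HT ht L = h ∧ (L.map dz).sum = z then LW Λ L else 0) hΛ
    (fun h => by
      rw [ENNReal.tsum_comm]
      refine le_trans (le_of_eq (tsum_congr fun L => ?_)) (hU1 h)
      rw [tsum_eq_single (L.map dz).sum]
      · by_cases hc : HT ht L = h
        · rw [if_pos ⟨hc, rfl⟩, if_pos hc]
        · rw [if_neg (fun h => hc h.1), if_neg hc]
      · intro z hz
        exact if_neg (fun h => hz h.2.symm))
    (fun h z h1 => by
      rw [tsum_list]
      rw [if_neg (by rw [HT_nil]; omega), zero_add]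
      refine ENNReal.tsum_le_tsum fun c => ?_
      by_cases hc : ht c ≤ h
      · rw [if_pos hc, ← ENNReal.tsum_mul_left]
        refine ENNReal.tsum_le_tsum fun L => ?_
        by_cases hL : HT ht (c :: L) = h ∧ ((c :: L).map dz).sum = z
        · rw [if_pos hL, LW_cons, if_pos]
          have h2 := hL.1
          rw [HT_cons] at h2
          refine ⟨by omega, ?_⟩
          rw [← hL.2, List.map_cons, List.sum_cons]; abel
        · rw [if_neg hL]; exact zero_le
      · rw [if_neg hc, mul_zero]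
        refine le_of_eq ?_
        rw [ENNReal.tsum_eq_zero]
        intro L
        refine if_neg fun hL => hc ?_
        have h2 := hL.1
        rw [HT_cons] at h2
        omega)
    a b hta htb ha hb hf ε hε
  refine ⟨H, fun h hh w w' => le_trans (ENNReal.tsum_le_tsum fun L => ?_) (hH h hh (ι w' - ι w))⟩
  have hact : ∀ (L : List B) (w : W), ι (act dl L w) = ι w + (L.map dz).sum := by
    intro L
    induction L with
    | nil => intro w; simp [act]
    | cons c L ih =>
      intro w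
      show ι (act dl L (dl c w)) = _
      rw [ih, hι, List.map_cons, List.sum_cons, add_assoc]
  by_cases hc : HT ht L = h ∧ act dl L w = w'
  · rw [if_pos hc, if_pos ⟨hc.1, by rw [← hc.2, hact]; abel⟩]
  · rw [if_neg hc]; exact zero_le

/-- `HPoint` with everything plugged in -/
theorem hpoint_of {V : Type*} [AddCommGroup V] (dz : B → V) (ι : W → V)
    (hι : ∀ b w, ι (dl b w) = ι w + dz b)
    (h1 : ∀ b, 1 ≤ ht b) (hΛ : ∑' b, Λ b = 1) (hU1 : ∀ n, U Λ ht n ≤ 1)
    (c : ℝ≥0∞) (hc : c ≠ 0) (hc' : c ≠ ⊤) (hU : ∀ n, c ≤ U Λ ht n)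
    (hcd : ∀ w b k, k ∈ cd w b → 1 ≤ k ∧ k ≤ ht b)
    (hfar : ∀ b, {w | cd w b ≠ ∅}.Finite)
    (a b : B) (hta : ht a = 1) (htb : ht b = 1) (ha : Λ a ≠ 0) (hb : Λ b ≠ 0)
    (hf : ∀ n : ℕ, n ≠ 0 → n • (dz b - dz a) ≠ 0) : HPoint Λ ht dl cd := by
  refine hpoint Λ ht dl cd hU1 ?_ hcd hfar
    (hconc_of Λ ht dl dz ι hι hΛ hU1 a b hta htb ha hb hf)
  exact ne_top_of_le_ne_top (ENNReal.inv_ne_top.2 hc) (mean_le Λ ht h1 hΛ c hc hc' 0
    (fun n _ => hU n))

end Crest.Agent.R154.PointJ527
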