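import Crest.Agent.R154.Conc_357

/-! Row 154, ROAD 801: contact at ONE depth has small weight (POINT) and the thin slab (H5),
for two independent renewal lists, abstract letters (helper357). -/

set_option autoImplicit false

namespace Crest.Agent.R154.Point357

open scoped ENNReal
open Filter
open Crest.Agent.R154.B5A
open Crest.Agent.R154.Conc357

section one

variable {B : Type*} (Λ : B → ℝ≥0∞) (ht : B → ℕ)

/-- a sum over the lists of height `n` is at most the sum over the splittings. -/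
lemma split_le (hU : ∀ n, U Λ ht n ≤ 1) (n : ℕ) (g : List B → ℝ≥0∞) (g' : List B → B → ℝ≥0∞)
    (hg : ∀ L, g L ≠ 0 → ∃ P b R, L = P ++ b :: R ∧ g L ≤ g' P b) :
    ∑' L, (if HT ht L = n then LW Λ L * g L else 0)
      ≤ ∑' P, ∑' b, LW Λ P * (Λ b * g' P b) := by
  classical
  have h1 : ∀ L : List B, (if HT ht L = n then LW Λ L * g L else 0)
      ≤ ∑' i : List B × B × List B,
        (if L = i.1 ++ i.2.1 :: i.2.2 ∧ HT ht L = n then LW Λ L * g' i.1 i.2.1 else 0) := by
    intro L
    by_cases hn : HT ht L = n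
    · rw [if_pos hn]
      by_cases h0 : g L = 0
      · rw [h0, mul_zero]; exact zero_le
      · obtain ⟨P, b, R, hL, hle⟩ := hg L h0
        refine le_trans ?_ (ENNReal.le_tsum (P, b, R))
        rw [if_pos ⟨hL, hn⟩]
        exact mul_le_mul_right hle _
    · rw [if_neg hn]; exact zero_le
  refine (ENNReal.tsum_le_tsum h1).trans ?_
  rw [ENNReal.tsum_comm]
  have h2 : ∀ i : List B × B × List B,
      (∑' L : List B, (if L = i.1 ++ i.2.1 :: i.2.2 ∧ HT ht L = n
        then LW Λ L * g' i.1 i.2.1 else 0))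
      = (if HT ht i.1 + ht i.2.1 + HT ht i.2.2 = n then
          (LW Λ i.1 * (Λ i.2.1 * g' i.1 i.2.1)) * LW Λ i.2.2 else 0) := by
    rintro ⟨P, b, R⟩
    rw [tsum_eq_single (P ++ b :: R)]
    · simp only [true_and, HT_append, HT_cons, LW_append, LW_cons]
      rw [← add_assoc]
      split_ifs
      · ring
      · rfl
    · intro L hL
      rw [if_neg (fun h => hL h.1)]
  rw [tsum_congr h2, ENNReal.tsum_prod']
  refine ENNReal.tsum_le_tsum fun P => ?_
  rw [ENNReal.tsum_prod']
  refine ENNReal.tsum_le_tsum fun b => ?_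
  calc _ = (LW Λ P * (Λ b * g' P b)) * ∑' R, (if HT ht P + ht b + HT ht R = n then LW Λ R else 0) := by
        rw [← ENNReal.tsum_mul_left]
        refine tsum_congr fun R => ?_
        split_ifs <;> simp
    _ ≤ (LW Λ P * (Λ b * g' P b)) * 1 := by
        refine mul_le_mul_right ?_ _
        refine le_trans (ENNReal.tsum_le_tsum fun R => ?_) (hU (n - (HT ht P + ht b)))
        by_cases h : HT ht P + ht b + HT ht R = n
        · rw [if_pos h, if_pos (by omega)]
        · rw [if_neg h]; exact zero_le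
    _ = _ := mul_one _

/-- lists whose height lies in a window of `m` levels -/
lemma window_le (hU : ∀ n, U Λ ht n ≤ 1) (k m : ℕ) :
    ∑' P, (if HT ht P < k ∧ k ≤ HT ht P + m then LW Λ P else 0) ≤ m := by
  classical
  calc _ ≤ ∑' P, ∑ a ∈ Finset.Ico (k - m) k, (if HT ht P = a then LW Λ P else 0) := by
        refine ENNReal.tsum_le_tsum fun P => ?_
        by_cases h : HT ht P < k ∧ k ≤ HT ht P + m
        · rw [if_pos h]
          refine le_trans ?_ (Finset.single_le_sum (f := fun a => (if HT ht P = a then LW Λ P else 0))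
            (fun _ _ => zero_le) (Finset.mem_Ico.2 ⟨by omega, h.1⟩ : HT ht P ∈ Finset.Ico (k - m) k))
          simp
        · rw [if_neg h]; exact zero_le
    _ = ∑ a ∈ Finset.Ico (k - m) k, U Λ ht a := by
        rw [Summable.tsum_finsetSum (fun _ _ => ENNReal.summable)]
        rfl
    _ ≤ ∑ _a ∈ Finset.Ico (k - m) k, 1 := Finset.sum_le_sum fun a _ => hU a
    _ ≤ m := by
        rw [Finset.sum_const, Nat.card_Ico, nsmul_eq_mul, mul_one]
        exact_mod_cast (by omega : k - (k - m) ≤ m)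

/-- finite set of blocks carrying almost all the mean height -/
lemma exists_fin [DecidableEq B] (hE : ∑' b, Λ b * (ht b : ℝ≥0∞) ≠ ⊤) (η : ℝ≥0∞) (hη : η ≠ 0) :
    ∃ F : Finset B, ∑' b, (if b ∈ F then 0 else Λ b * (ht b : ℝ≥0∞)) ≤ η := by
  classical
  obtain ⟨s, hs'⟩ := (ENNReal.tendsto_tsum_compl_atTop_zero hE).eventually
    (gt_mem_nhds (pos_iff_ne_zero.2 hη)) |>.exists
  refine ⟨s, le_trans ?_ hs'.le⟩
  have e : ∑' b : {x // x ∉ s}, Λ b * (ht b : ℝ≥0∞)
      = ∑' b, ({b | b ∉ s} : Set B).indicator (fun b => Λ b * (ht b : ℝ≥0∞)) b :=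
    tsum_subtype ({b | b ∉ s} : Set B) (fun b => Λ b * (ht b : ℝ≥0∞))
  rw [e]
  refine ENNReal.tsum_le_tsum fun b => ?_
  by_cases hb : b ∈ s
  · rw [if_pos hb]; exact zero_le
  · rw [if_neg hb, Set.indicator_of_mem (by exact hb)]

end one

section two

variable {BX BY G : Type*} [AddCommGroup G]
  (ΛX : BX → ℝ≥0∞) (ΛY : BY → ℝ≥0∞) (hX : BX → ℕ) (hY : BY → ℕ) (zX : BX → G) (zY : BY → G)
  (sX : BX → Set (G × ℕ)) (sY : BY → Set (G × ℕ))
  (TX : List BX → G → ℕ → Set (G × ℕ)) (TY : List BY → G → ℕ → Set (G × ℕ))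

open Classical in
/-- weight of the pairs of lists of height `n` with a common site at depth exactly `k` -/
noncomputable def Pt (n k : ℕ) (w : G) : ℝ≥0∞ :=
  ∑' LX : List BX, ∑' LY : List BY,
    if HT hX LX = n ∧ HT hY LY = n ∧ ∃ z, (z, k) ∈ TX LX 0 0 ∧ (z, k) ∈ TY LY w 0
    then LW ΛX LX * LW ΛY LY else 0

/-- **POINT** -/
theorem point (h1X : ∀ b, 1 ≤ hX b) (h1Y : ∀ b, 1 ≤ hY b) (hΛX : ∑' b, ΛX b = 1)
    (hΛY : ∑' b, ΛY b = 1) (hEX : ∑' b, ΛX b * (hX b : ℝ≥0∞) ≠ ⊤)
    (hEY : ∑' b, ΛY b * (hY b : ℝ≥0∞) ≠ ⊤)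
    (fX : ∀ b, (sX b).Finite) (fY : ∀ b, (sY b).Finite)
    (dX : ∀ b, ∀ p ∈ sX b, 1 ≤ p.2 ∧ p.2 ≤ hX b) (dY : ∀ b, ∀ p ∈ sY b, 1 ≤ p.2 ∧ p.2 ≤ hY b)
    (hTX : ∀ L x a q, q ∈ TX L x a → ∃ P b R, L = P ++ b :: R ∧
      ∃ p ∈ sX b, q.1 = x + (P.map zX).sum + p.1 ∧ q.2 = a + HT hX P + p.2)
    (hTY : ∀ L x a q, q ∈ TY L x a → ∃ P b R, L = P ++ b :: R ∧
      ∃ p ∈ sY b, q.1 = x + (P.map zY).sum + p.1 ∧ q.2 = a + HT hY P + p.2)
    (hconc : ∀ ε : ℝ≥0∞, ε ≠ 0 → ∃ N : ℕ, ∀ n, N ≤ n → ∀ x, V ΛX hX zX n x ≤ ε) :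
    ∀ ε : ℝ≥0∞, ε ≠ 0 → ∃ k0 : ℕ, ∀ k, k0 ≤ k → ∀ n w, Pt ΛX ΛY hX hY TX TY n k w ≤ ε := by
  classical
  have hUX := U_le_one ΛX hX h1X hΛX
  have hUY := U_le_one ΛY hY h1Y hΛY
  intro ε hε
  set EX := ∑' b, ΛX b * (hX b : ℝ≥0∞) with hEXd
  set EY := ∑' b, ΛY b * (hY b : ℝ≥0∞) with hEYd
  -- small parameters
  have hε3 : ε / 3 ≠ 0 := by
    rw [Ne, ENNReal.div_eq_zero_iff, not_or]; exact ⟨hε, by norm_num⟩
  obtain ⟨δ, hδ0, hδX, hδY⟩ : ∃ δ : ℝ≥0∞, δ ≠ 0 ∧ δ * EY ≤ ε / 3 ∧ EX * δ ≤ ε / 3 := by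
    have hsum : EX + EY + 1 ≠ ⊤ :=
      ENNReal.add_ne_top.2 ⟨ENNReal.add_ne_top.2 ⟨hEX, hEY⟩, ENNReal.one_ne_top⟩
    have hsum0 : EX + EY + 1 ≠ 0 := by simp
    refine ⟨ε / 3 / (EX + EY + 1), ?_, ?_, ?_⟩
    · rw [Ne, ENNReal.div_eq_zero_iff, not_or]; exact ⟨hε3, hsum⟩
    · calc _ ≤ ε / 3 / (EX + EY + 1) * (EX + EY + 1) :=
            mul_le_mul_right (le_add_right le_add_self) _
        _ = ε / 3 := ENNReal.div_mul_cancel hsum0 hsum
    · rw [mul_comm]
      calc _ ≤ ε / 3 / (EX + EY + 1) * (EX + EY + 1) :=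
            mul_le_mul_right (by rw [add_assoc]; exact le_self_add) _
        _ = ε / 3 := ENNReal.div_mul_cancel hsum0 hsum
  obtain ⟨F, hF⟩ := exists_fin ΛX hX hEX δ hδ0
  obtain ⟨F', hF'⟩ := exists_fin ΛY hY hEY δ hδ0
  -- number of pairs of sites
  set K : ℕ := ∑ b ∈ F, ∑ b' ∈ F', (fX b).toFinset.card * (fY b').toFinset.card with hK
  obtain ⟨N, hN⟩ := hconc (ε / 3 / (K + 1)) (by
    rw [Ne, ENNReal.div_eq_zero_iff, not_or]
    exact ⟨hε3, ENNReal.add_ne_top.2 ⟨ENNReal.natCast_ne_top K, ENNReal.one_ne_top⟩⟩)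
  refine ⟨N + F.sup hX, fun k hk n w => ?_⟩
  -- indicator on the splitting data
  set I : List BX → BX → List BY → BY → ℝ≥0∞ := fun P b P' b' =>
    if ∃ p ∈ sX b, ∃ p' ∈ sY b', HT hX P + p.2 = k ∧ HT hY P' + p'.2 = k ∧
      (P.map zX).sum + p.1 = w + (P'.map zY).sum + p'.1 then 1 else 0 with hI
  have step1 : Pt ΛX ΛY hX hY TX TY n k w
      ≤ ∑' P, ∑' b, LW ΛX P * (ΛX b * ∑' P', ∑' b', LW ΛY P' * (ΛY b' * I P b P' b')) := by
    have e : Pt ΛX ΛY hX hY TX TY n k w = ∑' LX, (if HT hX LX = n then LW ΛX LX *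
        (∑' LY, (if HT hY LY = n then LW ΛY LY *
          (if ∃ z, (z, k) ∈ TX LX 0 0 ∧ (z, k) ∈ TY LY w 0 then 1 else 0) else 0)) else 0) := by
      rw [Pt]
      refine tsum_congr fun LX => ?_
      by_cases hn : HT hX LX = n
      · rw [if_pos hn, ← ENNReal.tsum_mul_left]
        refine tsum_congr fun LY => ?_
        by_cases hn' : HT hY LY = n
        · by_cases hz : ∃ z, (z, k) ∈ TX LX 0 0 ∧ (z, k) ∈ TY LY w 0
          · rw [if_pos ⟨hn, hn', hz⟩, if_pos hn', if_pos hz, mul_one]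
          · rw [if_neg (fun h => hz h.2.2), if_pos hn', if_neg hz, mul_zero, mul_zero]
        · rw [if_neg (fun h => hn' h.2.1), if_neg hn', mul_zero]
      · rw [if_neg hn]
        rw [ENNReal.tsum_eq_zero]
        intro LY
        rw [if_neg (fun h => hn h.1)]
    rw [e]
    refine split_le ΛX hX hUX n _ (fun P b => ∑' P', ∑' b', LW ΛY P' * (ΛY b' * I P b P' b')) ?_
    intro LX hLX
    -- the depth `k` is read by one block of `LX`
    by_cases hex : ∃ z, (z, k) ∈ TX LX 0 0
    · obtain ⟨z, hz⟩ := hex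
      obtain ⟨P, b, R, hL, p, hp, hp1, hp2⟩ := hTX LX 0 0 (z, k) hz
      have hkP : HT hX P < k ∧ k ≤ HT hX P + hX b := by
        have := dX b p hp
        simp only at hp2
        omega
      refine ⟨P, b, R, hL, ?_⟩
      refine split_le ΛY hY hUY n _ (fun P' b' => I P b P' b') ?_
      intro LY hLY
      have hex2 : ∃ z, (z, k) ∈ TX LX 0 0 ∧ (z, k) ∈ TY LY w 0 := by
        by_contra hcon
        exact hLY (if_neg hcon)
      obtain ⟨z2, hz2, hz2'⟩ := hex2
      obtain ⟨P', b', R', hL', p', hp', hp1', hp2'⟩ := hTY LY w 0 (z2, k) hz2'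
      obtain ⟨Q, c, S, hQ, r, hr, hr1, hr2⟩ := hTX LX 0 0 (z2, k) hz2
      -- the splitting of `LX` is unique
      have hkQ : HT hX Q < k ∧ k ≤ HT hX Q + hX c := by
        have := dX c r hr
        simp only at hr2
        omega
      have huniq : P = Q ∧ b = c := by
        have hEq : P ++ b :: R = Q ++ c :: S := by rw [← hL, hQ]
        rcases List.append_eq_append_iff.1 hEq with ⟨T, hT1, hT2⟩ | ⟨T, hT1, hT2⟩
        · cases T with
          | nil =>
            simp only [List.append_nil] at hT1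
            simp only [List.nil_append, List.cons.injEq] at hT2
            exact ⟨hT1.symm, hT2.1⟩
          | cons t T =>
            simp only [List.cons_append, List.cons.injEq] at hT2
            exfalso
            rw [hT1, HT_append, HT_cons, ← hT2.1] at hkQ
            omega
        · cases T with
          | nil =>
            simp only [List.append_nil] at hT1
            simp only [List.nil_append, List.cons.injEq] at hT2
            exact ⟨hT1, hT2.1.symm⟩
          | cons t T =>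
            simp only [List.cons_append, List.cons.injEq] at hT2
            exfalso
            rw [hT1, HT_append, HT_cons, ← hT2.1] at hkP
            omega
      obtain ⟨rfl, rfl⟩ := huniq
      refine ⟨P', b', R', hL', ?_⟩
      rw [if_pos ⟨z2, hz2, hz2'⟩]
      simp only [hI]
      rw [if_pos]
      refine ⟨r, hr, p', hp', ?_, ?_, ?_⟩
      · simp only at hr2; omega
      · simp only at hp2'; omega
      · simp only [zero_add] at hr1
        simp only at hp1'
        rw [← hr1, hp1']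
    · exfalso
      apply hLX
      rw [ENNReal.tsum_eq_zero]
      intro LY
      rw [if_neg (c := ∃ z, (z, k) ∈ TX LX 0 0 ∧ (z, k) ∈ TY LY w 0)
        (fun h => hex ⟨h.choose, h.choose_spec.1⟩), mul_zero]
      split_ifs <;> rfl
  -- windows
  set WX : List BX → BX → ℝ≥0∞ := fun P b =>
    if HT hX P < k ∧ k ≤ HT hX P + hX b then 1 else 0 with hWX
  set WY : List BY → BY → ℝ≥0∞ := fun P' b' =>
    if HT hY P' < k ∧ k ≤ HT hY P' + hY b' then 1 else 0 with hWY
  have hIW : ∀ P b P' b', I P b P' b' ≤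
      (if b ∈ F then 0 else WX P b) * WY P' b' + WX P b * (if b' ∈ F' then 0 else WY P' b')
        + (if b ∈ F then (if b' ∈ F' then I P b P' b' else 0) else 0) := by
    intro P b P' b'
    by_cases hex : ∃ p ∈ sX b, ∃ p' ∈ sY b', HT hX P + p.2 = k ∧ HT hY P' + p'.2 = k ∧
      (P.map zX).sum + p.1 = w + (P'.map zY).sum + p'.1
    · have hex' := hex
      obtain ⟨p, hp, p', hp', h1, h2, -⟩ := hex'
      have a1 := dX b p hp
      have a2 := dY b' p' hp'
      have w1 : WX P b = 1 := by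
        simp only [hWX]; rw [if_pos ⟨by omega, by omega⟩]
      have w2 : WY P' b' = 1 := by
        simp only [hWY]; rw [if_pos ⟨by omega, by omega⟩]
      by_cases hb : b ∈ F
      · by_cases hb' : b' ∈ F'
        · rw [if_pos hb, if_pos hb', if_pos hb, if_pos hb']
          exact le_add_self
        · rw [if_pos hb, if_neg hb', w1, w2]
          have : I P b P' b' ≤ 1 := by simp only [hI]; split_ifs <;> simp
          refine this.trans ?_
          simp
      · rw [if_neg hb, w1, w2]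
        have : I P b P' b' ≤ 1 := by simp only [hI]; split_ifs <;> simp
        refine this.trans ?_
        rw [one_mul, add_assoc]
        exact le_self_add
    · have : I P b P' b' = 0 := by simp only [hI]; rw [if_neg hex]
      rw [this]; exact zero_le
  -- the three sums
  set SX : ℝ≥0∞ := ∑' P, ∑' b, LW ΛX P * (ΛX b * WX P b) with hSX
  set SX' : ℝ≥0∞ := ∑' P, ∑' b, LW ΛX P * (ΛX b * (if b ∈ F then 0 else WX P b)) with hSX'
  set SY : ℝ≥0∞ := ∑' P', ∑' b', LW ΛY P' * (ΛY b' * WY P' b') with hSY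
  set SY' : ℝ≥0∞ := ∑' P', ∑' b', LW ΛY P' * (ΛY b' * (if b' ∈ F' then 0 else WY P' b')) with hSY'
  have bX : SX ≤ EX := by
    rw [hSX, ENNReal.tsum_comm, hEXd]
    refine ENNReal.tsum_le_tsum fun b => ?_
    calc _ = ΛX b * ∑' P, (if HT hX P < k ∧ k ≤ HT hX P + hX b then LW ΛX P else 0) := by
          rw [← ENNReal.tsum_mul_left]
          refine tsum_congr fun P => ?_
          simp only [hWX]
          split_ifs <;> ring
      _ ≤ _ := mul_le_mul_right (window_le ΛX hX hUX k (hX b)) _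
  have bY : SY ≤ EY := by
    rw [hSY, ENNReal.tsum_comm, hEYd]
    refine ENNReal.tsum_le_tsum fun b => ?_
    calc _ = ΛY b * ∑' P, (if HT hY P < k ∧ k ≤ HT hY P + hY b then LW ΛY P else 0) := by
          rw [← ENNReal.tsum_mul_left]
          refine tsum_congr fun P => ?_
          simp only [hWY]
          split_ifs <;> ring
      _ ≤ _ := mul_le_mul_right (window_le ΛY hY hUY k (hY b)) _
  have bX' : SX' ≤ δ := by
    refine le_trans ?_ hF
    rw [hSX', ENNReal.tsum_comm]
    refine ENNReal.tsum_le_tsum fun b => ?_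
    by_cases hb : b ∈ F
    · simp only [if_pos hb, mul_zero, tsum_zero]; exact le_rfl
    · simp only [if_neg hb]
      calc _ = ΛX b * ∑' P, (if HT hX P < k ∧ k ≤ HT hX P + hX b then LW ΛX P else 0) := by
            rw [← ENNReal.tsum_mul_left]
            refine tsum_congr fun P => ?_
            simp only [hWX]
            split_ifs <;> ring
        _ ≤ _ := mul_le_mul_right (window_le ΛX hX hUX k (hX b)) _
  have bY' : SY' ≤ δ := by
    refine le_trans ?_ hF'
    rw [hSY', ENNReal.tsum_comm]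
    refine ENNReal.tsum_le_tsum fun b => ?_
    by_cases hb : b ∈ F'
    · simp only [if_pos hb, mul_zero, tsum_zero]; exact le_rfl
    · simp only [if_neg hb]
      calc _ = ΛY b * ∑' P, (if HT hY P < k ∧ k ≤ HT hY P + hY b then LW ΛY P else 0) := by
            rw [← ENNReal.tsum_mul_left]
            refine tsum_congr fun P => ?_
            simp only [hWY]
            split_ifs <;> ring
        _ ≤ _ := mul_le_mul_right (window_le ΛY hY hUY k (hY b)) _
  -- finite part
  have b3 : ∑' P, ∑' b, LW ΛX P * (ΛX b * ∑' P', ∑' b', LW ΛY P' * (ΛY b' *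
      (if b ∈ F then (if b' ∈ F' then I P b P' b' else 0) else 0))) ≤ ε / 3 := by
    have c1 : ∀ b ∈ F, ∀ b' ∈ F', ∑' P, LW ΛX P * ∑' P', LW ΛY P' * I P b P' b'
        ≤ ((fX b).toFinset.card * (fY b').toFinset.card : ℕ) * (ε / 3 / (K + 1)) := by
      intro b hb b' hb'
      have hIs : ∀ P P', I P b P' b' ≤ ∑ p ∈ (fX b).toFinset, ∑ p' ∈ (fY b').toFinset,
          (if HT hX P = k - p.2 ∧ HT hY P' = k - p'.2 ∧
            (P.map zX).sum = w + (P'.map zY).sum + p'.1 - p.1 then 1 else 0) := by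
        intro P P'
        simp only [hI]
        split_ifs with h
        · obtain ⟨p, hp, p', hp', h1, h2, h3⟩ := h
          refine le_trans ?_ (Finset.single_le_sum (fun _ _ => zero_le)
            ((fX b).mem_toFinset.2 hp))
          refine le_trans ?_ (Finset.single_le_sum (fun _ _ => zero_le)
            ((fY b').mem_toFinset.2 hp'))
          rw [if_pos ⟨by omega, by omega, by rw [← h3]; abel⟩]
        · exact zero_le
      have hpp : ∀ p ∈ (fX b).toFinset, ∀ p' ∈ (fY b').toFinset,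
          ∑' P, LW ΛX P * ∑' P', LW ΛY P' *
            (if HT hX P = k - p.2 ∧ HT hY P' = k - p'.2 ∧
              (P.map zX).sum = w + (P'.map zY).sum + p'.1 - p.1 then 1 else 0)
            ≤ ε / 3 / (K + 1) := by
        intro p hp p' hp'
        have hp2 := dX b p ((fX b).mem_toFinset.1 hp)
        have hkp : N ≤ k - p.2 := by
          have := Finset.le_sup (f := hX) hb
          omega
        calc _ = ∑' P', (if HT hY P' = k - p'.2 then LW ΛY P' *
              V ΛX hX zX (k - p.2) (w + (P'.map zY).sum + p'.1 - p.1) else 0) := by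
              simp_rw [← ENNReal.tsum_mul_left]
              rw [ENNReal.tsum_comm]
              refine tsum_congr fun P' => ?_
              by_cases h : HT hY P' = k - p'.2
              · rw [if_pos h, V, ← ENNReal.tsum_mul_left]
                refine tsum_congr fun P => ?_
                by_cases h2 : HT hX P = k - p.2 ∧ (P.map zX).sum = w + (P'.map zY).sum + p'.1 - p.1
                · rw [if_pos ⟨h2.1, h, h2.2⟩, if_pos h2]; ring
                · rw [if_neg (fun h3 => h2 ⟨h3.1, h3.2.2⟩), if_neg h2]; simp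
              · rw [if_neg h, ENNReal.tsum_eq_zero]
                intro P
                rw [if_neg (fun h3 => h h3.2.1)]; simp
          _ ≤ ∑' P', (if HT hY P' = k - p'.2 then LW ΛY P' else 0) * (ε / 3 / (K + 1)) := by
              refine ENNReal.tsum_le_tsum fun P' => ?_
              by_cases h : HT hY P' = k - p'.2
              · rw [if_pos h, if_pos h]
                exact mul_le_mul_right (hN _ hkp _) _
              · rw [if_neg h]; exact zero_le
          _ = U ΛY hY (k - p'.2) * (ε / 3 / (K + 1)) := by rw [ENNReal.tsum_mul_right]; rfl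
          _ ≤ 1 * (ε / 3 / (K + 1)) := mul_le_mul_left (hUY _) _
          _ = _ := one_mul _
      calc _ ≤ ∑' P, LW ΛX P * ∑' P', LW ΛY P' * ∑ p ∈ (fX b).toFinset, ∑ p' ∈ (fY b').toFinset,
            (if HT hX P = k - p.2 ∧ HT hY P' = k - p'.2 ∧
              (P.map zX).sum = w + (P'.map zY).sum + p'.1 - p.1 then 1 else 0) := by
            refine ENNReal.tsum_le_tsum fun P => mul_le_mul_right ?_ _
            exact ENNReal.tsum_le_tsum fun P' => mul_le_mul_right (hIs P P') _
        _ = ∑ p ∈ (fX b).toFinset, ∑ p' ∈ (fY b').toFinset, ∑' P, LW ΛX P * ∑' P', LW ΛY P' *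
            (if HT hX P = k - p.2 ∧ HT hY P' = k - p'.2 ∧
              (P.map zX).sum = w + (P'.map zY).sum + p'.1 - p.1 then 1 else 0) := by
            simp_rw [Finset.mul_sum]
            simp_rw [Summable.tsum_finsetSum (fun _ _ => ENNReal.summable), Finset.mul_sum]
            simp_rw [Summable.tsum_finsetSum (fun _ _ => ENNReal.summable)]
        _ ≤ ∑ p ∈ (fX b).toFinset, ∑ p' ∈ (fY b').toFinset, (ε / 3 / (K + 1)) :=
            Finset.sum_le_sum fun p hp => Finset.sum_le_sum fun p' hp' => hpp p hp p' hp'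
        _ = _ := by
            simp only [Finset.sum_const, nsmul_eq_mul]
            push_cast; ring
    calc _ = ∑' b, ∑' b', (if b ∈ F then (if b' ∈ F' then ΛX b * ΛY b' *
          ∑' P, LW ΛX P * ∑' P', LW ΛY P' * I P b P' b' else 0) else 0) := by
          rw [ENNReal.tsum_comm]
          refine tsum_congr fun b => ?_
          by_cases hb : b ∈ F
          · simp only [if_pos hb]
            have : ∀ P, LW ΛX P * (ΛX b * ∑' P', ∑' b', LW ΛY P' * (ΛY b' *
                (if b' ∈ F' then I P b P' b' else 0)))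
                = ∑' b', LW ΛX P * (ΛX b * ∑' P', LW ΛY P' * (ΛY b' *
                (if b' ∈ F' then I P b P' b' else 0))) := by
              intro P
              rw [ENNReal.tsum_comm, ENNReal.tsum_mul_left, ENNReal.tsum_mul_left]
            rw [tsum_congr this, ENNReal.tsum_comm]
            refine tsum_congr fun b' => ?_
            by_cases hb' : b' ∈ F'
            · simp only [if_pos hb']
              rw [← ENNReal.tsum_mul_left]
              refine tsum_congr fun P => ?_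
              rw [← ENNReal.tsum_mul_left, ← ENNReal.tsum_mul_left, ← ENNReal.tsum_mul_left,
                ← ENNReal.tsum_mul_left]
              refine tsum_congr fun P' => ?_
              ring
            · simp only [if_neg hb', mul_zero, tsum_zero]
          · simp only [if_neg hb, mul_zero, tsum_zero]
      _ = ∑ b ∈ F, ∑ b' ∈ F', ΛX b * ΛY b' *
          ∑' P, LW ΛX P * ∑' P', LW ΛY P' * I P b P' b' := by
          rw [tsum_eq_sum (s := F)]
          · refine Finset.sum_congr rfl fun b hb => ?_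
            rw [tsum_eq_sum (s := F')]
            · refine Finset.sum_congr rfl fun b' hb' => ?_
              rw [if_pos hb, if_pos hb']
            · intro b' hb'
              rw [if_neg hb', ite_self]
          · intro b hb
            simp only [if_neg hb, tsum_zero]
      _ ≤ ∑ b ∈ F, ∑ b' ∈ F',
          (((fX b).toFinset.card * (fY b').toFinset.card : ℕ) * (ε / 3 / (K + 1))) := by
          refine Finset.sum_le_sum fun b hb => Finset.sum_le_sum fun b' hb' => ?_
          have q1 : ΛX b ≤ 1 := hΛX ▸ ENNReal.le_tsum b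
          have q2 : ΛY b' ≤ 1 := hΛY ▸ ENNReal.le_tsum b'
          have q3 : ΛX b * ΛY b' ≤ 1 := by
            calc ΛX b * ΛY b' ≤ 1 * 1 := mul_le_mul' q1 q2
              _ = 1 := one_mul 1
          have q4 := c1 b hb b' hb'
          calc ΛX b * ΛY b' * ∑' P, LW ΛX P * ∑' P', LW ΛY P' * I P b P' b'
              ≤ 1 * ∑' P, LW ΛX P * ∑' P', LW ΛY P' * I P b P' b' := mul_le_mul_left q3 _
            _ = ∑' P, LW ΛX P * ∑' P', LW ΛY P' * I P b P' b' := one_mul _
            _ ≤ _ := q4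
      _ = K * (ε / 3 / (K + 1)) := by
          rw [hK]
          push_cast
          simp_rw [Finset.sum_mul]
      _ ≤ (K + 1) * (ε / 3 / (K + 1)) := mul_le_mul_left le_self_add _
      _ = ε / 3 := ENNReal.mul_div_cancel (by simp)
          (ENNReal.add_ne_top.2 ⟨ENNReal.natCast_ne_top K, ENNReal.one_ne_top⟩)
  calc Pt ΛX ΛY hX hY TX TY n k w
      ≤ ∑' P, ∑' b, LW ΛX P * (ΛX b * ∑' P', ∑' b', LW ΛY P' * (ΛY b' * I P b P' b')) := step1
    _ ≤ ∑' P, ∑' b, LW ΛX P * (ΛX b * ∑' P', ∑' b', LW ΛY P' * (ΛY b' *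
        ((if b ∈ F then 0 else WX P b) * WY P' b' + WX P b * (if b' ∈ F' then 0 else WY P' b')
        + (if b ∈ F then (if b' ∈ F' then I P b P' b' else 0) else 0)))) := by
        refine ENNReal.tsum_le_tsum fun P => ENNReal.tsum_le_tsum fun b => ?_
        refine mul_le_mul_right (mul_le_mul_right ?_ _) _
        refine ENNReal.tsum_le_tsum fun P' => ENNReal.tsum_le_tsum fun b' => ?_
        exact mul_le_mul_right (mul_le_mul_right (hIW P b P' b') _) _
    _ = SX' * SY + SX * SY' + ∑' P, ∑' b, LW ΛX P * (ΛX b * ∑' P', ∑' b', LW ΛY P' * (ΛY b' *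
      (if b ∈ F then (if b' ∈ F' then I P b P' b' else 0) else 0))) := by
        have e1 : SX' * SY = ∑' P, ∑' b, LW ΛX P * (ΛX b * ∑' P', ∑' b', LW ΛY P' * (ΛY b' *
            ((if b ∈ F then 0 else WX P b) * WY P' b'))) := by
          rw [hSX', ← ENNReal.tsum_mul_right]
          refine tsum_congr fun P => ?_
          rw [← ENNReal.tsum_mul_right]
          refine tsum_congr fun b => ?_
          rw [hSY, mul_assoc, mul_assoc, ← ENNReal.tsum_mul_left]
          congr 2
          refine tsum_congr fun P' => ?_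
          rw [← ENNReal.tsum_mul_left]
          refine tsum_congr fun b' => ?_
          ring
        have e2 : SX * SY' = ∑' P, ∑' b, LW ΛX P * (ΛX b * ∑' P', ∑' b', LW ΛY P' * (ΛY b' *
            (WX P b * (if b' ∈ F' then 0 else WY P' b')))) := by
          rw [hSX, ← ENNReal.tsum_mul_right]
          refine tsum_congr fun P => ?_
          rw [← ENNReal.tsum_mul_right]
          refine tsum_congr fun b => ?_
          rw [hSY', mul_assoc, mul_assoc, ← ENNReal.tsum_mul_left]
          congr 2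
          refine tsum_congr fun P' => ?_
          rw [← ENNReal.tsum_mul_left]
          refine tsum_congr fun b' => ?_
          ring
        rw [e1, e2, ← ENNReal.tsum_add, ← ENNReal.tsum_add]
        refine tsum_congr fun P => ?_
        rw [← ENNReal.tsum_add, ← ENNReal.tsum_add]
        refine tsum_congr fun b => ?_
        rw [← mul_add, ← mul_add, ← mul_add, ← mul_add, ← ENNReal.tsum_add, ← ENNReal.tsum_add]
        congr 2
        refine tsum_congr fun P' => ?_
        rw [← ENNReal.tsum_add, ← ENNReal.tsum_add]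
        refine tsum_congr fun b' => ?_
        ring
    _ ≤ δ * EY + EX * δ + ε / 3 := by
        refine add_le_add (add_le_add ?_ ?_) b3
        · exact mul_le_mul' bX' bY
        · exact mul_le_mul' bX bY'
    _ ≤ ε / 3 + ε / 3 + ε / 3 := by gcongr
    _ = ε := by
        have h3 : (3 : ℝ≥0∞) * (ε / 3) = ε := ENNReal.mul_div_cancel (by norm_num) (by norm_num)
        calc ε / 3 + ε / 3 + ε / 3 = 3 * (ε / 3) := by ring
          _ = ε := h3

open Classical in
/-- **H5** (thin slab), 540's literal -/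
theorem slab (h1X : ∀ b, 1 ≤ hX b) (h1Y : ∀ b, 1 ≤ hY b) (hΛX : ∑' b, ΛX b = 1)
    (hΛY : ∑' b, ΛY b = 1) (hEX : ∑' b, ΛX b * (hX b : ℝ≥0∞) ≠ ⊤)
    (hEY : ∑' b, ΛY b * (hY b : ℝ≥0∞) ≠ ⊤)
    (fX : ∀ b, (sX b).Finite) (fY : ∀ b, (sY b).Finite)
    (dX : ∀ b, ∀ p ∈ sX b, 1 ≤ p.2 ∧ p.2 ≤ hX b) (dY : ∀ b, ∀ p ∈ sY b, 1 ≤ p.2 ∧ p.2 ≤ hY b)
    (hTX : ∀ L x a q, q ∈ TX L x a → ∃ P b R, L = P ++ b :: R ∧
      ∃ p ∈ sX b, q.1 = x + (P.map zX).sum + p.1 ∧ q.2 = a + HT hX P + p.2)
    (hTY : ∀ L x a q, q ∈ TY L x a → ∃ P b R, L = P ++ b :: R ∧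
      ∃ p ∈ sY b, q.1 = x + (P.map zY).sum + p.1 ∧ q.2 = a + HT hY P + p.2)
    (hconc : ∀ ε : ℝ≥0∞, ε ≠ 0 → ∃ N : ℕ, ∀ n, N ≤ n → ∀ x, V ΛX hX zX n x ≤ ε) :
    ∀ s : ℕ, ∀ η : ℝ≥0∞, η ≠ 0 → ∃ T : ℕ, ∀ a, T ≤ a → ∀ n w,
      ∑' LX : List BX, ∑' LY : List BY,
        (if HT hX LX = n ∧ HT hY LY = n ∧ ∃ z k, a ≤ k ∧ k < a + s ∧
            (z, k) ∈ TX LX 0 0 ∧ (z, k) ∈ TY LY w 0
          then LW ΛX LX * LW ΛY LY else 0) ≤ η := by
  intro s η hη
  obtain ⟨T, hT⟩ := point ΛX ΛY hX hY zX zY sX sY TX TY h1X h1Y hΛX hΛY hEX hEY fX fY dX dY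
    hTX hTY hconc (η / (s + 1)) (by
      rw [Ne, ENNReal.div_eq_zero_iff, not_or]
      exact ⟨hη, ENNReal.add_ne_top.2 ⟨ENNReal.natCast_ne_top s, ENNReal.one_ne_top⟩⟩)
  refine ⟨T, fun a ha n w => ?_⟩
  calc _ ≤ ∑' LX : List BX, ∑' LY : List BY, ∑ k ∈ Finset.Ico a (a + s),
        (if HT hX LX = n ∧ HT hY LY = n ∧ ∃ z, (z, k) ∈ TX LX 0 0 ∧ (z, k) ∈ TY LY w 0
          then LW ΛX LX * LW ΛY LY else 0) := by
        refine ENNReal.tsum_le_tsum fun LX => ENNReal.tsum_le_tsum fun LY => ?_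
        split_ifs with h
        · obtain ⟨h1, h2, z, k, hk1, hk2, h3, h4⟩ := h
          refine le_trans ?_ (Finset.single_le_sum (fun _ _ => zero_le)
            (Finset.mem_Ico.2 ⟨hk1, hk2⟩))
          rw [if_pos ⟨h1, h2, z, h3, h4⟩]
        · exact zero_le
    _ = ∑ k ∈ Finset.Ico a (a + s), Pt ΛX ΛY hX hY TX TY n k w := by
        simp_rw [Summable.tsum_finsetSum (fun _ _ => ENNReal.summable)]
        rfl
    _ ≤ ∑ _k ∈ Finset.Ico a (a + s), η / (s + 1) := by
        refine Finset.sum_le_sum fun k hk => ?_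
        exact hT k (ha.trans (Finset.mem_Ico.1 hk).1) n w
    _ = s * (η / (s + 1)) := by
        rw [Finset.sum_const, Nat.card_Ico, nsmul_eq_mul]
        congr 2
        omega
    _ ≤ (s + 1) * (η / (s + 1)) := mul_le_mul_left le_self_add _
    _ = η := ENNReal.mul_div_cancel (by simp)
        (ENNReal.add_ne_top.2 ⟨ENNReal.natCast_ne_top s, ENNReal.one_ne_top⟩)

omit ΛX in
/-- the splitting property from the recursion equations of `TX` -/
lemma split_of_rec (h0 : ∀ x a, TX [] x a = ∅)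
    (hc : ∀ b L x a, TX (b :: L) x a
      ⊆ (fun p : G × ℕ => (x + p.1, a + p.2)) '' sX b ∪ TX L (x + zX b) (a + hX b)) :
    ∀ L x a q, q ∈ TX L x a → ∃ P b R, L = P ++ b :: R ∧
      ∃ p ∈ sX b, q.1 = x + (P.map zX).sum + p.1 ∧ q.2 = a + HT hX P + p.2 := by
  intro L
  induction L with
  | nil => intro x a q hq; rw [h0] at hq; exact absurd hq (Set.notMem_empty q)
  | cons b L ih =>
    intro x a q hq
    rcases hc b L x a hq with ⟨p, hp, rfl⟩ | hq'
    · exact ⟨[], b, L, rfl, p, hp, by simp, by simp [HT]⟩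
    · obtain ⟨P, c, R, hL, p, hp, h1, h2⟩ := ih _ _ _ hq'
      refine ⟨b :: P, c, R, by rw [hL]; rfl, p, hp, ?_, ?_⟩
      · rw [h1, List.map_cons, List.sum_cons]; abel
      · rw [h2, HT_cons]; omega

end two

end Crest.Agent.R154.Point357
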