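import Crest.Agent.R154.B5Abs_566

set_option autoImplicit false

namespace Crest.Agent.R154.Point754

open Crest.Agent.R154.B5A
open scoped ENNReal Topology

variable {B G : Type*} [AddCommGroup G]

open Classical in
/-- mass of the lists of height `n` and displacement `x` -/
noncomputable def fm (Λ : B → ℝ≥0∞) (ht : B → ℕ) (z : B → G) (n : ℕ) (x : G) : ℝ≥0∞ :=
  ∑' L : List B, if HT ht L = n ∧ (L.map z).sum = x then LW Λ L else 0

lemma fm_le_one (Λ : B → ℝ≥0∞) (ht : B → ℕ) (z : B → G) (hU1 : ∀ n, U Λ ht n ≤ 1) (n : ℕ) (x : G) :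
    fm Λ ht z n x ≤ 1 := by
  classical
  refine le_trans (ENNReal.tsum_le_tsum fun L => ?_) (hU1 n)
  by_cases h : HT ht L = n
  · rw [if_pos h]; split_ifs <;> simp
  · rw [if_neg (by tauto)]; exact zero_le

lemma sum_fm_le (Λ : B → ℝ≥0∞) (ht : B → ℕ) (z : B → G) (hU1 : ∀ n, U Λ ht n ≤ 1) (n : ℕ)
    (S : Finset G) : ∑ x ∈ S, fm Λ ht z n x ≤ 1 := by
  classical
  refine le_trans ?_ (hU1 n)
  simp only [fm]
  rw [← Summable.tsum_finsetSum (fun _ _ => ENNReal.summable)]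
  refine ENNReal.tsum_le_tsum fun L => ?_
  by_cases h : HT ht L = n
  · rw [if_pos h]
    by_cases hx : (L.map z).sum ∈ S
    · rw [Finset.sum_eq_single ((L.map z).sum)]
      · rw [if_pos ⟨h, rfl⟩]
      · intro y _ hy; rw [if_neg (fun hh => hy hh.2.symm)]
      · intro h2; exact absurd hx h2
    · rw [Finset.sum_eq_zero]
      · exact zero_le
      · intro y hy
        rw [if_neg]; rintro ⟨_, h2⟩; exact hx (h2 ▸ hy)
  · rw [Finset.sum_eq_zero]
    · exact zero_le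
    · intro y hy; rw [if_neg (by tauto)]

open Classical in
lemma fm_rec (Λ : B → ℝ≥0∞) (ht : B → ℕ) (z : B → G) (n : ℕ) (hn : 1 ≤ n) (x : G) :
    fm Λ ht z n x = ∑' b, if ht b ≤ n then Λ b * fm Λ ht z (n - ht b) (x - z b) else 0 := by
  rw [fm, tsum_list]
  simp only [HT_nil, HT_cons, LW_cons, List.map_cons, List.sum_cons]
  rw [if_neg (by omega), zero_add]
  refine tsum_congr fun b => ?_
  by_cases hb : ht b ≤ n
  · rw [if_pos hb, fm, ← ENNReal.tsum_mul_left]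
    refine tsum_congr fun L => ?_
    have e1 : (ht b + HT ht L = n) ↔ (HT ht L = n - ht b) := by omega
    have e2 : (z b + (L.map z).sum = x) ↔ ((L.map z).sum = x - z b) := by
      constructor
      · intro h; rw [← h]; abel
      · intro h; rw [h]; abel
    by_cases h : HT ht L = n - ht b ∧ (L.map z).sum = x - z b
    · rw [if_pos h, if_pos ⟨e1.2 h.1, e2.2 h.2⟩]
    · rw [if_neg h, if_neg (fun hh => h ⟨e1.1 hh.1, e2.1 hh.2⟩), mul_zero]
  · rw [if_neg hb, ENNReal.tsum_eq_zero]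
    intro L
    rw [if_neg (by omega)]

/-- one step of the recursion, one letter isolated -/
lemma fm_step (Λ : B → ℝ≥0∞) (ht : B → ℕ) (z : B → G) (hΛ : ∑' b, Λ b = 1)
    (hU1 : ∀ n, U Λ ht n ≤ 1) (A : ℝ) (hA0 : 0 ≤ A) (N : ℕ)
    (hA : ∀ m, N ≤ m → ∀ y, (fm Λ ht z m y).toReal ≤ A) (T : ℕ) (η : ℝ) (hη0 : 0 ≤ η)
    (hT : tail Λ ht T ≤ ENNReal.ofReal η) (b1 : B) (hb1 : Λ b1 ≠ 0) (n : ℕ) (hn1 : 1 ≤ n)
    (hn : N + T ≤ n) (hb : ht b1 ≤ n) (x : G) (δ : ℝ)
    (hlow : A - δ ≤ (fm Λ ht z n x).toReal) :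
    A - (δ + η) / (Λ b1).toReal ≤ (fm Λ ht z (n - ht b1) (x - z b1)).toReal := by
  classical
  have hb1le : Λ b1 ≤ 1 := hΛ ▸ ENNReal.le_tsum b1
  have hb1top : Λ b1 ≠ ⊤ := ne_top_of_le_ne_top ENNReal.one_ne_top hb1le
  have hpos : 0 < (Λ b1).toReal := ENNReal.toReal_pos hb1 hb1top
  have hf1 := fm_le_one Λ ht z hU1
  have hftop : ∀ n x, fm Λ ht z n x ≠ ⊤ := fun n x =>
    ne_top_of_le_ne_top ENNReal.one_ne_top (hf1 n x)
  have hAe : ∀ m, N ≤ m → ∀ y, fm Λ ht z m y ≤ ENNReal.ofReal A := by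
    intro m hm y
    rw [ENNReal.le_ofReal_iff_toReal_le (hftop m y) hA0]
    exact hA m hm y
  have hsum : Λ b1 + ∑' b, (if b = b1 then 0 else Λ b) = 1 := by
    rw [← hΛ]; exact (ENNReal.tsum_eq_add_tsum_ite b1).symm
  set R : ℝ≥0∞ := ∑' b, (if b = b1 then 0 else Λ b) with hR
  have hRtop : R ≠ ⊤ := ne_top_of_le_ne_top ENNReal.one_ne_top (hsum ▸ le_add_self)
  have key : fm Λ ht z n x ≤ Λ b1 * fm Λ ht z (n - ht b1) (x - z b1) + R * ENNReal.ofReal A
      + ENNReal.ofReal η := by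
    rw [fm_rec Λ ht z n hn1 x]
    refine le_trans ?_ (add_le_add le_rfl hT)
    rw [ENNReal.tsum_eq_add_tsum_ite b1, if_pos hb, add_assoc]
    refine add_le_add le_rfl ?_
    rw [hR, ← ENNReal.tsum_mul_right, tail, ← ENNReal.tsum_add]
    refine ENNReal.tsum_le_tsum fun b => ?_
    by_cases hbb : b = b1
    · rw [if_pos hbb]; exact zero_le
    · rw [if_neg hbb, if_neg hbb]
      by_cases hbn : ht b ≤ n
      · rw [if_pos hbn]
        by_cases h2 : T < ht b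
        · rw [if_pos h2]
          refine le_trans ?_ le_add_self
          calc Λ b * fm Λ ht z (n - ht b) (x - z b) ≤ Λ b * 1 := mul_le_mul_right (hf1 _ _) _
            _ = Λ b := mul_one _
        · rw [if_neg h2, add_zero]
          exact mul_le_mul_right (hAe _ (by omega) _) _
      · rw [if_neg hbn]; exact zero_le
  have hreal : (fm Λ ht z n x).toReal ≤ (Λ b1).toReal * (fm Λ ht z (n - ht b1) (x - z b1)).toReal
      + R.toReal * A + η := by
    have h1 := ENNReal.toReal_mono (by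
      refine ENNReal.add_ne_top.2 ⟨ENNReal.add_ne_top.2 ⟨?_, ?_⟩, ENNReal.ofReal_ne_top⟩
      · exact ENNReal.mul_ne_top hb1top (hftop _ _)
      · exact ENNReal.mul_ne_top hRtop ENNReal.ofReal_ne_top) key
    rw [ENNReal.toReal_add (ENNReal.add_ne_top.2 ⟨ENNReal.mul_ne_top hb1top (hftop _ _),
        ENNReal.mul_ne_top hRtop ENNReal.ofReal_ne_top⟩) ENNReal.ofReal_ne_top,
      ENNReal.toReal_add (ENNReal.mul_ne_top hb1top (hftop _ _))
        (ENNReal.mul_ne_top hRtop ENNReal.ofReal_ne_top),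
      ENNReal.toReal_mul, ENNReal.toReal_mul, ENNReal.toReal_ofReal hA0,
      ENNReal.toReal_ofReal hη0] at h1
    exact h1
  have hRr : (Λ b1).toReal + R.toReal = 1 := by
    rw [← ENNReal.toReal_add hb1top hRtop, hsum]; simp
  set l := (Λ b1).toReal with hl
  have hRr' : R.toReal = 1 - l := by linarith
  rw [hRr'] at hreal
  have h3 : l * (A - (fm Λ ht z (n - ht b1) (x - z b1)).toReal) ≤ δ + η := by nlinarith
  have h4 : A - (fm Λ ht z (n - ht b1) (x - z b1)).toReal ≤ (δ + η) / l := by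
    rw [le_div_iff₀ hpos]; linarith
  linarith

/-- `δ j` after `j` steps -/
noncomputable def dl (δ lam : ℝ) : ℕ → ℝ
  | 0 => δ
  | j + 1 => (dl δ lam j + δ) / lam

lemma dl_lin (δ lam : ℝ) (j : ℕ) : dl δ lam j = δ * dl 1 lam j := by
  induction j with
  | zero => simp [dl]
  | succ j ih => rw [dl, dl, ih]; ring

lemma dl_nonneg (δ lam : ℝ) (hδ : 0 ≤ δ) (hlam : 0 < lam) (j : ℕ) : 0 ≤ dl δ lam j := by
  induction j with
  | zero => exact hδ
  | succ j ih => rw [dl]; positivity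

/-- `r` steps: `i` times `b1` and `r - i` times `b2` -/
lemma fm_steps (Λ : B → ℝ≥0∞) (ht : B → ℕ) (z : B → G) (hΛ : ∑' b, Λ b = 1)
    (h1 : ∀ b, 1 ≤ ht b)
    (hU1 : ∀ n, U Λ ht n ≤ 1) (A : ℝ) (hA0 : 0 ≤ A) (N : ℕ)
    (hA : ∀ m, N ≤ m → ∀ y, (fm Λ ht z m y).toReal ≤ A) (T : ℕ) (δ : ℝ) (hδ0 : 0 ≤ δ)
    (hT : tail Λ ht T ≤ ENNReal.ofReal δ) (b1 b2 : B) (hb1 : Λ b1 ≠ 0) (hb2 : Λ b2 ≠ 0)
    (hh : ht b1 = ht b2) (lam : ℝ) (hlam : 0 < lam) (hl1 : lam ≤ (Λ b1).toReal)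
    (hl2 : lam ≤ (Λ b2).toReal) (r : ℕ) : ∀ (n : ℕ), N + T + r * ht b1 ≤ n → ∀ (x : G),
    A - δ ≤ (fm Λ ht z n x).toReal → ∀ i j, i + j = r →
    A - dl δ lam r ≤ (fm Λ ht z (n - r * ht b1) (x - (i • z b1 + j • z b2))).toReal := by
  induction r with
  | zero =>
    intro n _ x hx i j hij
    have hi : i = 0 := by omega
    have hj : j = 0 := by omega
    subst hi; subst hj
    simpa [dl] using hx
  | succ r ih =>
    intro n hn x hx i j hij
    have hmul : (r + 1) * ht b1 = r * ht b1 + ht b1 := by ring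
    have hh1 := h1 b1
    rcases Nat.eq_zero_or_pos i with hi | hi
    · have hj : j = r + 1 := by omega
      subst hj; subst hi
      have h2 := ih n (by omega) x hx 0 r (by omega)
      have h3 := fm_step Λ ht z hΛ hU1 A hA0 N hA T δ hδ0 hT b2 hb2 (n - r * ht b1) (by omega)
        (by omega) (by omega) _ _ h2
      have e1 : n - r * ht b1 - ht b2 = n - (r + 1) * ht b1 := by omega
      have e2 : x - (0 • z b1 + r • z b2) - z b2 = x - (0 • z b1 + (r + 1) • z b2) := by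
        rw [succ_nsmul]; abel
      rw [e1, e2] at h3
      refine le_trans ?_ h3
      have h4 : (dl δ lam r + δ) / (Λ b2).toReal ≤ (dl δ lam r + δ) / lam :=
        div_le_div_of_nonneg_left (by have := dl_nonneg δ lam hδ0 hlam r; linarith) hlam hl2
      rw [dl]; linarith
    · obtain ⟨i', rfl⟩ : ∃ i', i = i' + 1 := ⟨i - 1, by omega⟩
      have h2 := ih n (by omega) x hx i' j (by omega)
      have h3 := fm_step Λ ht z hΛ hU1 A hA0 N hA T δ hδ0 hT b1 hb1 (n - r * ht b1) (by omega)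
        (by omega) (by omega) _ _ h2
      have e1 : n - r * ht b1 - ht b1 = n - (r + 1) * ht b1 := by omega
      have e2 : x - (i' • z b1 + j • z b2) - z b1 = x - ((i' + 1) • z b1 + j • z b2) := by
        rw [succ_nsmul]; abel
      rw [e1, e2] at h3
      refine le_trans ?_ h3
      have h4 : (dl δ lam r + δ) / (Λ b1).toReal ≤ (dl δ lam r + δ) / lam :=
        div_le_div_of_nonneg_left (by have := dl_nonneg δ lam hδ0 hlam r; linarith) hlam hl1
      rw [dl]; linarith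

lemma tail_small (Λ : B → ℝ≥0∞) (ht : B → ℕ) (hΛ : ∑' b, Λ b = 1) (η : ℝ) (hη : 0 < η) :
    ∃ T, tail Λ ht T ≤ ENNReal.ofReal η := by
  classical
  have hsum : ∑' b, Λ b ≠ ⊤ := by rw [hΛ]; exact ENNReal.one_ne_top
  have h1 := ENNReal.tendsto_tsum_compl_atTop_zero hsum
  have h2 := (ENNReal.tendsto_nhds_zero.1 h1) (ENNReal.ofReal η) (ENNReal.ofReal_pos.2 hη)
  obtain ⟨F, hF⟩ := h2.exists
  refine ⟨F.sup ht, le_trans ?_ hF⟩
  have e : ∑' b : {x // x ∉ F}, Λ ↑b = ∑' b, ({x | x ∉ F} : Set B).indicator Λ b :=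
    tsum_subtype ({x | x ∉ F} : Set B) Λ
  rw [e, tail]
  refine ENNReal.tsum_le_tsum fun b => ?_
  by_cases hb : F.sup ht < ht b
  · have hbF : b ∈ ({x | x ∉ F} : Set B) := fun h => absurd (Finset.le_sup (f := ht) h) (by omega)
    rw [if_pos hb, Set.indicator_of_mem hbF]
  · rw [if_neg hb]; exact zero_le

/-- **concentration**: the mass of one renewal point tends to zero -/
theorem conc (Λ : B → ℝ≥0∞) (ht : B → ℕ) (z : B → G) (hΛ : ∑' b, Λ b = 1)
    (h1 : ∀ b, 1 ≤ ht b) (hU1 : ∀ n, U Λ ht n ≤ 1) (b1 b2 : B) (hb1 : Λ b1 ≠ 0) (hb2 : Λ b2 ≠ 0)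
    (hh : ht b1 = ht b2) (hz : ∀ k : ℕ, k ≠ 0 → k • (z b2 - z b1) ≠ 0) :
    ∀ ε : ℝ≥0∞, ε ≠ 0 → ∃ N, ∀ n, N ≤ n → ∀ x, fm Λ ht z n x ≤ ε := by
  classical
  have hf1 := fm_le_one Λ ht z hU1
  have hftop : ∀ n x, fm Λ ht z n x ≠ ⊤ := fun n x =>
    ne_top_of_le_ne_top ENNReal.one_ne_top (hf1 n x)
  by_contra hcon
  push Not at hcon
  obtain ⟨ε, hε, hcon⟩ := hcon
  set a : ℕ → ℝ := fun N => ⨆ p : {p : ℕ × G // N ≤ p.1}, (fm Λ ht z p.1.1 p.1.2).toReal with ha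
  have hbdd : ∀ N, BddAbove (Set.range fun p : {p : ℕ × G // N ≤ p.1} =>
      (fm Λ ht z p.1.1 p.1.2).toReal) := by
    intro N
    refine ⟨1, ?_⟩
    rintro _ ⟨p, rfl⟩
    have := ENNReal.toReal_mono ENNReal.one_ne_top (hf1 p.1.1 p.1.2)
    simpa using this
  have hale : ∀ N m, N ≤ m → ∀ y, (fm Λ ht z m y).toReal ≤ a N := by
    intro N m hm y
    exact le_ciSup (hbdd N) (⟨(m, y), hm⟩ : {p : ℕ × G // N ≤ p.1})
  have hε' : 0 < (min ε 1).toReal := ENNReal.toReal_pos (by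
    rw [Ne, min_eq_iff]; push Not; exact ⟨fun h => absurd h hε, fun h => absurd h one_ne_zero⟩)
    (ne_top_of_le_ne_top ENNReal.one_ne_top (min_le_right _ _))
  set e := (min ε 1).toReal with he
  have hae : ∀ N, e ≤ a N := by
    intro N
    obtain ⟨n, hn, x, hx⟩ := hcon N
    refine le_trans ?_ (hale N n hn x)
    exact ENNReal.toReal_mono (hftop n x) (le_trans (min_le_left _ _) hx.le)
  set M := ⨅ N, a N with hM
  have hbb : BddBelow (Set.range a) := ⟨e, by rintro _ ⟨N, rfl⟩; exact hae N⟩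
  have hMe : e ≤ M := le_ciInf hae
  have hMpos : 0 < M := lt_of_lt_of_le hε' hMe
  -- constants
  set lam : ℝ := min (Λ b1).toReal (Λ b2).toReal with hlam
  have htop : ∀ b, Λ b ≠ ⊤ := fun b =>
    ne_top_of_le_ne_top ENNReal.one_ne_top (hΛ ▸ ENNReal.le_tsum b)
  have hlampos : 0 < lam := lt_min (ENNReal.toReal_pos hb1 (htop b1))
    (ENNReal.toReal_pos hb2 (htop b2))
  obtain ⟨r, hr⟩ := exists_nat_gt (2 / M)
  have hd1 := dl_nonneg 1 lam zero_le_one hlampos r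
  set δ : ℝ := M / (2 * (dl 1 lam r + 1)) with hδ
  have hδpos : 0 < δ := by positivity
  have hδd : dl δ lam r ≤ M / 2 := by
    rw [dl_lin, hδ]
    rw [div_mul_eq_mul_div, div_le_div_iff₀ (by positivity) (by norm_num)]
    nlinarith
  obtain ⟨T, hT⟩ := tail_small Λ ht hΛ δ hδpos
  -- `N` with `a N ≤ M + δ / 2`
  obtain ⟨N, hN⟩ := exists_lt_of_ciInf_lt (show M < M + δ / 2 by linarith)
  -- a point almost reaching
  set N' := N + T + r * ht b1 with hN'
  have h5 : M - δ / 2 < a N' := lt_of_lt_of_le (by linarith) (ciInf_le hbb N')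
  have : Nonempty {p : ℕ × G // N' ≤ p.1} := ⟨⟨(N', 0), le_rfl⟩⟩
  obtain ⟨⟨⟨n, x⟩, hn⟩, hx⟩ := exists_lt_of_lt_ciSup h5
  simp only at hn hx
  have hA0 : 0 ≤ a N := le_trans hε'.le (hae N)
  have h6 := fm_steps Λ ht z hΛ h1 hU1 (a N) hA0 N (hale N) T δ hδpos.le hT b1 b2 hb1 hb2 hh lam
    hlampos (min_le_left _ _) (min_le_right _ _) r n hn x (by linarith)
  -- distinct points
  have hinj : Set.InjOn (fun j : ℕ => x - ((r - j) • z b1 + j • z b2))
      (Finset.range (r + 1) : Set ℕ) := by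
    have aux : ∀ i j : ℕ, i ≤ r → j ≤ r → i < j →
        x - ((r - i) • z b1 + i • z b2) ≠ x - ((r - j) • z b1 + j • z b2) := by
      intro i j hi hj hij h
      have h7 : (r - i) • z b1 + i • z b2 = (r - j) • z b1 + j • z b2 := sub_right_injective h
      have e1 : r - i = (r - j) + (j - i) := by omega
      have e2 : j = i + (j - i) := by omega
      rw [e1, add_nsmul] at h7
      have h8 : j • z b2 = i • z b2 + (j - i) • z b2 := by
        rw [← add_nsmul]; congr 1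
      rw [h8] at h7
      have h9 : (j - i) • z b1 = (j - i) • z b2 := by
        have : (r - j) • z b1 + (j - i) • z b1 + i • z b2
            - ((r - j) • z b1 + i • z b2) = (r - j) • z b1 + (i • z b2 + (j - i) • z b2)
            - ((r - j) • z b1 + i • z b2) := by rw [h7]
        have h10 : (r - j) • z b1 + (j - i) • z b1 + i • z b2
            - ((r - j) • z b1 + i • z b2) = (j - i) • z b1 := by abel
        have h11 : (r - j) • z b1 + (i • z b2 + (j - i) • z b2)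
            - ((r - j) • z b1 + i • z b2) = (j - i) • z b2 := by abel
        rw [h10, h11] at this; exact this
      apply hz (j - i) (by omega)
      rw [nsmul_sub, h9, sub_self]
    intro i hi j hj hij
    have hi' : i ≤ r := by simpa [Nat.lt_succ_iff] using hi
    have hj' : j ≤ r := by simpa [Nat.lt_succ_iff] using hj
    rcases lt_trichotomy i j with h | h | h
    · exact absurd hij (aux i j hi' hj' h)
    · exact h
    · exact absurd hij.symm (aux j i hj' hi' h)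
  have h12 := sum_fm_le Λ ht z hU1 (n - r * ht b1)
    ((Finset.range (r + 1)).image (fun j : ℕ => x - ((r - j) • z b1 + j • z b2)))
  rw [Finset.sum_image hinj] at h12
  have h13 : ((r + 1 : ℕ) : ℝ) * (M / 2) ≤ 1 := by
    have h14 : ENNReal.toReal (∑ j ∈ Finset.range (r + 1),
        fm Λ ht z (n - r * ht b1) (x - ((r - j) • z b1 + j • z b2))) ≤ 1 := by
      have := ENNReal.toReal_mono ENNReal.one_ne_top h12
      simpa using this
    rw [ENNReal.toReal_sum (fun j _ => hftop _ _)] at h14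
    refine le_trans ?_ h14
    rw [← nsmul_eq_mul, ← Finset.card_range (r + 1), ← Finset.sum_const, Finset.card_range]
    refine Finset.sum_le_sum fun j hj => ?_
    have hj' : j ≤ r := by simpa [Nat.lt_succ_iff] using hj
    have h15 := h6 (r - j) j (by omega)
    have h16 : M ≤ a N := ciInf_le hbb N
    linarith
  have h17 : (1 : ℝ) < r * (M / 2) := by
    rw [div_lt_iff₀ hMpos] at hr
    linarith
  push_cast at h13
  nlinarith

/-! ### the point lemma -/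

variable {B' : Type*}

open Classical in
lemma split_le (f : List B × List B' → ℝ≥0∞) (P : List B × B → List B' × B' → Prop)
    (hP : ∀ p, f p ≠ 0 → ∃ (t : List B × B) (t' : List B' × B') (L2 : List B) (L2' : List B'),
      p = (t.1 ++ t.2 :: L2, t'.1 ++ t'.2 :: L2') ∧ P t t') :
    ∑' p, f p ≤ ∑' t, ∑' t', if P t t' then
      ∑' L2, ∑' L2', f (t.1 ++ t.2 :: L2, t'.1 ++ t'.2 :: L2') else 0 := by
  set g : ((List B × B) × (List B' × B')) × (List B × List B') → ℝ≥0∞ := fun s =>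
    if P s.1.1 s.1.2 then f (s.1.1.1 ++ s.1.1.2 :: s.2.1, s.1.2.1 ++ s.1.2.2 :: s.2.2) else 0
    with hg
  have hR : (∑' t, ∑' t', if P t t' then
      ∑' L2, ∑' L2', f (t.1 ++ t.2 :: L2, t'.1 ++ t'.2 :: L2') else 0) = ∑' s, g s := by
    have e1 : ∑' s, g s = ∑' t, ∑' t', ∑' L2, ∑' L2', g ((t, t'), (L2, L2')) := by
      rw [ENNReal.tsum_prod', ENNReal.tsum_prod']
      refine tsum_congr fun t => ?_
      refine tsum_congr fun t' => ?_
      rw [ENNReal.tsum_prod']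
    rw [e1]
    refine tsum_congr fun t => ?_
    refine tsum_congr fun t' => ?_
    by_cases h : P t t'
    · rw [if_pos h]
      refine tsum_congr fun L2 => tsum_congr fun L2' => ?_
      simp only [hg]; rw [if_pos h]
    · rw [if_neg h]
      symm
      rw [ENNReal.tsum_eq_zero]; intro L2
      rw [ENNReal.tsum_eq_zero]; intro L2'
      simp only [hg]; rw [if_neg h]
  rw [hR]
  have hch : ∀ p : Function.support f, ∃ s : ((List B × B) × (List B' × B')) × (List B × List B'),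
      p.1 = (s.1.1.1 ++ s.1.1.2 :: s.2.1, s.1.2.1 ++ s.1.2.2 :: s.2.2) ∧ P s.1.1 s.1.2 := by
    rintro ⟨p, hp⟩
    obtain ⟨t, t', L2, L2', h1, h2⟩ := hP p hp
    exact ⟨((t, t'), (L2, L2')), h1, h2⟩
  choose s hs1 hs2 using hch
  have hinj : Function.Injective s := by
    intro p q h
    apply Subtype.ext
    rw [hs1 p, hs1 q, h]
  rw [← tsum_subtype_support f]
  refine le_trans (le_of_eq ?_) (ENNReal.tsum_comp_le_tsum_of_injective hinj g)
  refine tsum_congr fun p => ?_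
  simp only [hg]
  rw [if_pos (hs2 p), ← hs1 p]

lemma cover_b (Λ : B → ℝ≥0∞) (ht : B → ℕ) (hU1 : ∀ n, U Λ ht n ≤ 1) (k h : ℕ) :
    ∑' L : List B, (if HT ht L < k ∧ k ≤ HT ht L + h then LW Λ L else 0) ≤ (h : ℝ≥0∞) := by
  classical
  calc ∑' L : List B, (if HT ht L < k ∧ k ≤ HT ht L + h then LW Λ L else 0)
      ≤ ∑' L : List B, ∑ j ∈ Finset.Ico (k - h) k, (if HT ht L = j then LW Λ L else 0) := by
        refine ENNReal.tsum_le_tsum fun L => ?_
        by_cases hc : HT ht L < k ∧ k ≤ HT ht L + h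
        · rw [if_pos hc, Finset.sum_eq_single (HT ht L)]
          · rw [if_pos rfl]
          · intro j _ hj; rw [if_neg (Ne.symm hj)]
          · intro hj; exact absurd (Finset.mem_Ico.2 (by omega)) hj
        · rw [if_neg hc]; exact zero_le
    _ = ∑ j ∈ Finset.Ico (k - h) k, U Λ ht j := by
        rw [Summable.tsum_finsetSum (fun _ _ => ENNReal.summable)]
        rfl
    _ ≤ ∑ _j ∈ Finset.Ico (k - h) k, 1 := Finset.sum_le_sum fun j _ => hU1 j
    _ ≤ (h : ℝ≥0∞) := by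
        rw [Finset.sum_const, nsmul_eq_mul, mul_one, Nat.card_Ico]
        exact_mod_cast (show k - (k - h) ≤ h by omega)

open Classical in
lemma cover_sum (Λ : B → ℝ≥0∞) (ht : B → ℕ) (hU1 : ∀ n, U Λ ht n ≤ 1) (k : ℕ) (F : Finset B) :
    ∑' t : List B × B, (if HT ht t.1 < k ∧ k ≤ HT ht t.1 + ht t.2 ∧ t.2 ∉ F
        then LW Λ t.1 * Λ t.2 else 0)
      ≤ ∑' b, (if b ∉ F then Λ b * (ht b : ℝ≥0∞) else 0) := by
  rw [ENNReal.tsum_prod', ENNReal.tsum_comm]
  refine ENNReal.tsum_le_tsum fun b => ?_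
  by_cases hb : b ∉ F
  · rw [if_pos hb]
    calc ∑' L : List B, (if HT ht (L, b).1 < k ∧ k ≤ HT ht (L, b).1 + ht (L, b).2 ∧ (L, b).2 ∉ F
          then LW Λ (L, b).1 * Λ (L, b).2 else 0)
        = ∑' L : List B, Λ b * (if HT ht L < k ∧ k ≤ HT ht L + ht b then LW Λ L else 0) := by
          refine tsum_congr fun L => ?_
          by_cases hc : HT ht L < k ∧ k ≤ HT ht L + ht b
          · rw [if_pos hc, if_pos ⟨hc.1, hc.2, hb⟩, mul_comm]
          · rw [if_neg hc, if_neg (fun h => hc ⟨h.1, h.2.1⟩), mul_zero]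
      _ = Λ b * ∑' L : List B, (if HT ht L < k ∧ k ≤ HT ht L + ht b then LW Λ L else 0) :=
          ENNReal.tsum_mul_left
      _ ≤ Λ b * (ht b : ℝ≥0∞) := mul_le_mul_right (cover_b Λ ht hU1 k (ht b)) _
  · rw [if_neg hb]
    refine le_of_eq ?_
    rw [ENNReal.tsum_eq_zero]
    intro L
    rw [if_neg (fun h => hb h.2.2)]

/-- choice of a finite set of letters -/
lemma fin_choice (f : B → ℝ≥0∞) (hf : ∑' b, f b ≠ ⊤) (ε : ℝ≥0∞) (hε : ε ≠ 0) :
    ∃ F : Finset B, (∑' b, open Classical in (if b ∉ F then f b else 0)) ≤ ε := by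
  classical
  have h1 := ENNReal.tendsto_tsum_compl_atTop_zero hf
  have h2 := (ENNReal.tendsto_nhds_zero.1 h1) ε (pos_iff_ne_zero.2 hε)
  obtain ⟨F, hF⟩ := h2.exists
  refine ⟨F, le_trans (le_of_eq ?_) hF⟩
  have e : ∑' b : {x // x ∉ F}, f ↑b = ∑' b, ({x | x ∉ F} : Set B).indicator f b :=
    tsum_subtype ({x | x ∉ F} : Set B) f
  rw [e]
  refine tsum_congr fun b => ?_
  by_cases hb : b ∉ F
  · rw [if_pos hb, Set.indicator_of_mem (show b ∈ ({x | x ∉ F} : Set B) from hb)]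
  · rw [if_neg hb, Set.indicator_of_notMem (show b ∉ ({x | x ∉ F} : Set B) from hb)]

lemma sw_aux {ι κ : Type*} (S : Finset ι) (f : κ → ι → ℝ≥0∞) :
    (∑' x, ∑ i ∈ S, f x i) = ∑ i ∈ S, ∑' x, f x i :=
  Summable.tsum_finsetSum (fun _ _ => ENNReal.summable)

open Classical in
/-- one pair of offsets -/
lemma pair_le (Λ : B → ℝ≥0∞) (ht : B → ℕ) (z : B → G) (Λ' : B' → ℝ≥0∞) (ht' : B' → ℕ)
    (z' : B' → G) (hU1' : ∀ n, U Λ' ht' n ≤ 1) (ε' : ℝ≥0∞) (N : ℕ)
    (hN : ∀ n, N ≤ n → ∀ x, fm Λ ht z n x ≤ ε') (k : ℕ) (p p' : G × ℕ) (hk : N + p.2 ≤ k)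
    (w : G) :
    ∑' L : List B, ∑' L' : List B', (if HT ht L + p.2 = k ∧ HT ht' L' + p'.2 = k ∧
      (L.map z).sum + p.1 = w + (L'.map z').sum + p'.1 then LW Λ L * LW Λ' L' else 0) ≤ ε' := by
  rw [ENNReal.tsum_comm]
  calc ∑' L' : List B', ∑' L : List B, (if HT ht L + p.2 = k ∧ HT ht' L' + p'.2 = k ∧
      (L.map z).sum + p.1 = w + (L'.map z').sum + p'.1 then LW Λ L * LW Λ' L' else 0)
      ≤ ∑' L' : List B', ε' * (if HT ht' L' = k - p'.2 then LW Λ' L' else 0) := by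
        refine ENNReal.tsum_le_tsum fun L' => ?_
        by_cases h : HT ht' L' + p'.2 = k
        · rw [if_pos (by omega)]
          calc ∑' L : List B, (if HT ht L + p.2 = k ∧ HT ht' L' + p'.2 = k ∧
                (L.map z).sum + p.1 = w + (L'.map z').sum + p'.1 then LW Λ L * LW Λ' L' else 0)
              = ∑' L : List B, (if HT ht L = k - p.2 ∧
                (L.map z).sum = w + (L'.map z').sum + p'.1 - p.1 then LW Λ L else 0)
                  * LW Λ' L' := by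
                refine tsum_congr fun L => ?_
                by_cases hc : HT ht L = k - p.2 ∧
                  (L.map z).sum = w + (L'.map z').sum + p'.1 - p.1
                · rw [if_pos hc, if_pos ⟨by omega, h, by rw [hc.2]; abel⟩]
                · rw [if_neg hc, zero_mul, if_neg]
                  rintro ⟨h1, _, h3⟩
                  exact hc ⟨by omega, by rw [← h3]; abel⟩
            _ = fm Λ ht z (k - p.2) (w + (L'.map z').sum + p'.1 - p.1) * LW Λ' L' := by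
                rw [ENNReal.tsum_mul_right, fm]
            _ ≤ ε' * LW Λ' L' := mul_le_mul_left (hN _ (by omega) _) _
        · refine le_trans (le_of_eq ?_) zero_le
          rw [ENNReal.tsum_eq_zero]
          intro L
          rw [if_neg (fun hh => h hh.2.1)]
    _ = ε' * U Λ' ht' (k - p'.2) := ENNReal.tsum_mul_left
    _ ≤ ε' * 1 := mul_le_mul_right (hU1' _) _
    _ = ε' := mul_one _

open Classical in
/-- **POINT** (801 (5), 926): the mass of a contact at one given depth tends to zero. -/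
theorem point (Λ : B → ℝ≥0∞) (ht : B → ℕ) (z : B → G) (s : B → Set (G × ℕ))
    (Λ' : B' → ℝ≥0∞) (ht' : B' → ℕ) (z' : B' → G) (s' : B' → Set (G × ℕ))
    (hΛ1 : ∀ b, Λ b ≤ 1) (hΛ1' : ∀ b, Λ' b ≤ 1)
    (hU1 : ∀ n, U Λ ht n ≤ 1) (hU1' : ∀ n, U Λ' ht' n ≤ 1)
    (hm : ∑' b, Λ b * (ht b : ℝ≥0∞) ≠ ⊤) (hm' : ∑' b, Λ' b * (ht' b : ℝ≥0∞) ≠ ⊤)
    (hs : ∀ b, (s b).Finite) (hs' : ∀ b, (s' b).Finite)
    (hd : ∀ b, ∀ p ∈ s b, 1 ≤ p.2 ∧ p.2 ≤ ht b) (hd' : ∀ b, ∀ p ∈ s' b, 1 ≤ p.2 ∧ p.2 ≤ ht' b)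
    (hconc : ∀ ε : ℝ≥0∞, ε ≠ 0 → ∃ N, ∀ n, N ≤ n → ∀ x, fm Λ ht z n x ≤ ε) :
    ∀ ε : ℝ≥0∞, ε ≠ 0 → ∃ k0, ∀ k, k0 ≤ k → ∀ (n n' : ℕ) (w : G)
      (C : List B → List B' → Prop),
      (∀ L L', C L L' → ∃ L1 b L2 L1' b' L2', L = L1 ++ b :: L2 ∧ L' = L1' ++ b' :: L2' ∧
        ∃ p ∈ s b, ∃ p' ∈ s' b', HT ht L1 + p.2 = k ∧ HT ht' L1' + p'.2 = k ∧
          (L1.map z).sum + p.1 = w + (L1'.map z').sum + p'.1) →
      ∑' L, ∑' L', (if HT ht L = n ∧ HT ht' L' = n' ∧ C L L' then LW Λ L * LW Λ' L' else 0)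
        ≤ ε := by
  intro ε hε
  set E := ∑' b, Λ b * (ht b : ℝ≥0∞) with hE
  set E' := ∑' b, Λ' b * (ht' b : ℝ≥0∞) with hE'
  have hε3 : ε / 3 ≠ 0 := ENNReal.div_ne_zero.2 ⟨hε, by norm_num⟩
  have hE1 : E + 1 ≠ ⊤ := ENNReal.add_ne_top.2 ⟨hm, ENNReal.one_ne_top⟩
  have hE1' : E' + 1 ≠ ⊤ := ENNReal.add_ne_top.2 ⟨hm', ENNReal.one_ne_top⟩
  obtain ⟨F, hF⟩ := fin_choice (fun b => Λ b * (ht b : ℝ≥0∞)) hm (ε / 3 / (E' + 1))
    (ENNReal.div_ne_zero.2 ⟨hε3, hE1'⟩)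
  obtain ⟨F', hF'⟩ := fin_choice (fun b => Λ' b * (ht' b : ℝ≥0∞)) hm' (ε / 3 / (E + 1))
    (ENNReal.div_ne_zero.2 ⟨hε3, hE1⟩)
  set Cn : ℕ := ∑ b ∈ F, ∑ b' ∈ F', ∑ _p ∈ (hs b).toFinset, ∑ _p' ∈ (hs' b').toFinset, 1 with hCn
  have hCtop : ((Cn : ℝ≥0∞) + 1) ≠ ⊤ :=
    ENNReal.add_ne_top.2 ⟨ENNReal.natCast_ne_top _, ENNReal.one_ne_top⟩
  obtain ⟨N, hN⟩ := hconc (ε / 3 / ((Cn : ℝ≥0∞) + 1)) (ENNReal.div_ne_zero.2 ⟨hε3, hCtop⟩)
  refine ⟨N + F.sup ht, fun k hk n n' w C hC => ?_⟩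
  set Pk : List B × B → List B' × B' → Prop := fun t t' =>
    ∃ p ∈ s t.2, ∃ p' ∈ s' t'.2, HT ht t.1 + p.2 = k ∧ HT ht' t'.1 + p'.2 = k ∧
          (t.1.map z).sum + p.1 = w + (t'.1.map z').sum + p'.1 with hPk
  set W : List B × B → ℝ≥0∞ := fun t => LW Λ t.1 * Λ t.2 with hW
  set W' : List B' × B' → ℝ≥0∞ := fun t => LW Λ' t.1 * Λ' t.2 with hW'
  -- step 1
  have step1 : ∑' L, ∑' L', (if HT ht L = n ∧ HT ht' L' = n' ∧ C L L'
      then LW Λ L * LW Λ' L' else 0) ≤ ∑' t, ∑' t', if Pk t t' then W t * W' t' else 0 := by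
    rw [← ENNReal.tsum_prod (f := fun L L' => (if HT ht L = n ∧ HT ht' L' = n' ∧ C L L'
      then LW Λ L * LW Λ' L' else 0))]
    refine le_trans (split_le _ Pk ?_) ?_
    · rintro ⟨L, L'⟩ hp
      have hc : C L L' := by
        by_contra hcn
        apply hp
        exact if_neg (fun h => hcn h.2.2)
      obtain ⟨L1, b, L2, L1', b', L2', e1, e2, hh⟩ := hC L L' hc
      exact ⟨(L1, b), (L1', b'), L2, L2', by rw [e1, e2], hh⟩
    · refine ENNReal.tsum_le_tsum fun t => ENNReal.tsum_le_tsum fun t' => ?_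
      by_cases h : Pk t t'
      · rw [if_pos h, if_pos h]
        calc ∑' (L2 : List B) (L2' : List B'), (if HT ht (t.1 ++ t.2 :: L2) = n ∧
                HT ht' (t'.1 ++ t'.2 :: L2') = n' ∧ C (t.1 ++ t.2 :: L2) (t'.1 ++ t'.2 :: L2')
                then LW Λ (t.1 ++ t.2 :: L2) * LW Λ' (t'.1 ++ t'.2 :: L2') else 0)
            ≤ ∑' (L2 : List B) (L2' : List B'), (W t * (if HT ht L2 = n - HT ht t.1 - ht t.2 then
                LW Λ L2 else 0)) * (W' t' * (if HT ht' L2' = n' - HT ht' t'.1 - ht' t'.2 then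
                LW Λ' L2' else 0)) := by
              refine ENNReal.tsum_le_tsum fun L2 => ENNReal.tsum_le_tsum fun L2' => ?_
              split_ifs with h1 h2 h3 h3
              · rw [LW_append, LW_append, LW_cons, LW_cons]
                simp only [hW, hW']
                refine le_of_eq ?_
                ring
              · exfalso
                have h5 := h1.2.1
                rw [HT_append, HT_cons] at h5
                omega
              · exfalso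
                have h5 := h1.1
                rw [HT_append, HT_cons] at h5
                omega
              · exfalso
                have h5 := h1.1
                rw [HT_append, HT_cons] at h5
                omega
              all_goals exact zero_le
          _ = W t * U Λ ht (n - HT ht t.1 - ht t.2) * (W' t' *
                U Λ' ht' (n' - HT ht' t'.1 - ht' t'.2)) := by
              simp only [ENNReal.tsum_mul_left, ENNReal.tsum_mul_right, U]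
          _ ≤ W t * 1 * (W' t' * 1) := by
              gcongr
              · exact hU1 _
              · exact hU1' _
          _ = W t * W' t' := by ring
      · rw [if_neg h, if_neg h]
  refine step1.trans ?_
  -- step 2
  set cv : List B × B → Prop := fun t => HT ht t.1 < k ∧ k ≤ HT ht t.1 + ht t.2 with hcv
  set cv' : List B' × B' → Prop := fun t => HT ht' t.1 < k ∧ k ≤ HT ht' t.1 + ht' t.2 with hcv'
  have hPcv : ∀ t t', Pk t t' → cv t ∧ cv' t' := by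
    rintro t t' ⟨p, hp, p', hp', h1, h2, _⟩
    have h3 := hd _ p hp
    have h4 := hd' _ p' hp'
    exact ⟨⟨by omega, by omega⟩, ⟨by omega, by omega⟩⟩
  have step2 : (∑' t, ∑' t', if Pk t t' then W t * W' t' else 0)
      ≤ (∑' t, ∑' t', (if cv t ∧ t.2 ∉ F then W t else 0) * (if cv' t' ∧ t'.2 ∉ (∅ : Finset B')
          then W' t' else 0))
        + (∑' t, ∑' t', (if cv t ∧ t.2 ∉ (∅ : Finset B) then W t else 0) *
          (if cv' t' ∧ t'.2 ∉ F' then W' t' else 0))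
        + ∑' t, ∑' t', (if (t.2 ∈ F ∧ t'.2 ∈ F') ∧ Pk t t' then W t * W' t' else 0) := by
    rw [← ENNReal.tsum_add, ← ENNReal.tsum_add]
    refine ENNReal.tsum_le_tsum fun t => ?_
    rw [← ENNReal.tsum_add, ← ENNReal.tsum_add]
    refine ENNReal.tsum_le_tsum fun t' => ?_
    by_cases h : Pk t t'
    · have h2 := hPcv t t' h
      rw [if_pos h]
      by_cases hb : t.2 ∈ F
      · by_cases hb' : t'.2 ∈ F'
        · rw [if_pos (show (t.2 ∈ F ∧ t'.2 ∈ F') ∧ Pk t t' from ⟨⟨hb, hb'⟩, h⟩)]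
          exact le_add_self
        · rw [if_pos (show cv' t' ∧ t'.2 ∉ F' from ⟨h2.2, hb'⟩),
            if_pos (show cv t ∧ t.2 ∉ (∅ : Finset B) from ⟨h2.1, by simp⟩)]
          exact le_trans le_add_self le_self_add
      · rw [if_pos (show cv t ∧ t.2 ∉ F from ⟨h2.1, hb⟩),
            if_pos (show cv' t' ∧ t'.2 ∉ (∅ : Finset B') from ⟨h2.2, by simp⟩), add_assoc]
        exact le_self_add
    · rw [if_neg h]; exact zero_le
  refine step2.trans ?_
  have hprod : ∀ (f : List B × B → ℝ≥0∞) (g : List B' × B' → ℝ≥0∞),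
      (∑' t, ∑' t', f t * g t') = (∑' t, f t) * ∑' t', g t' := by
    intro f g
    simp only [ENNReal.tsum_mul_left, ENNReal.tsum_mul_right]
  rw [hprod, hprod]
  have c1 := cover_sum Λ ht hU1 k F
  have c2 := cover_sum Λ' ht' hU1' k F'
  have c3 := cover_sum Λ ht hU1 k (∅ : Finset B)
  have c4 := cover_sum Λ' ht' hU1' k (∅ : Finset B')
  have r1 : (∑' t, if cv t ∧ t.2 ∉ F then W t else 0) ≤ ε / 3 / (E' + 1) := by
    refine le_trans ?_ (le_trans c1 hF)
    refine ENNReal.tsum_le_tsum fun t => ?_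
    by_cases h : cv t ∧ t.2 ∉ F
    · rw [if_pos h, if_pos ⟨h.1.1, h.1.2, h.2⟩]
    · rw [if_neg h]; exact zero_le
  have r2 : (∑' t, if cv' t ∧ t.2 ∉ F' then W' t else 0) ≤ ε / 3 / (E + 1) := by
    refine le_trans ?_ (le_trans c2 hF')
    refine ENNReal.tsum_le_tsum fun t => ?_
    by_cases h : cv' t ∧ t.2 ∉ F'
    · rw [if_pos h, if_pos ⟨h.1.1, h.1.2, h.2⟩]
    · rw [if_neg h]; exact zero_le
  have r3 : (∑' t, if cv t ∧ t.2 ∉ (∅ : Finset B) then W t else 0) ≤ E := by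
    refine le_trans ?_ (le_trans c3 ?_)
    · refine ENNReal.tsum_le_tsum fun t => ?_
      by_cases h : cv t ∧ t.2 ∉ (∅ : Finset B)
      · rw [if_pos h, if_pos ⟨h.1.1, h.1.2, h.2⟩]
      · rw [if_neg h]; exact zero_le
    · refine ENNReal.tsum_le_tsum fun b => ?_
      split_ifs <;> simp
  have r4 : (∑' t, if cv' t ∧ t.2 ∉ (∅ : Finset B') then W' t else 0) ≤ E' := by
    refine le_trans ?_ (le_trans c4 ?_)
    · refine ENNReal.tsum_le_tsum fun t => ?_
      by_cases h : cv' t ∧ t.2 ∉ (∅ : Finset B')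
      · rw [if_pos h, if_pos ⟨h.1.1, h.1.2, h.2⟩]
      · rw [if_neg h]; exact zero_le
    · refine ENNReal.tsum_le_tsum fun b => ?_
      split_ifs <;> simp
  -- third term
  have r5 : (∑' t, ∑' t', (if (t.2 ∈ F ∧ t'.2 ∈ F') ∧ Pk t t' then W t * W' t' else 0))
      ≤ (Cn : ℝ≥0∞) * (ε / 3 / ((Cn : ℝ≥0∞) + 1)) := by
    calc (∑' t, ∑' t', (if (t.2 ∈ F ∧ t'.2 ∈ F') ∧ Pk t t' then W t * W' t' else 0))
        ≤ ∑' t : List B × B, ∑' t' : List B' × B', ∑ b ∈ F, ∑ b' ∈ F',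
            ∑ p ∈ (hs b).toFinset, ∑ p' ∈ (hs' b').toFinset,
            (if t.2 = b ∧ t'.2 = b' ∧ HT ht t.1 + p.2 = k ∧ HT ht' t'.1 + p'.2 = k ∧
              (t.1.map z).sum + p.1 = w + (t'.1.map z').sum + p'.1
              then LW Λ t.1 * LW Λ' t'.1 else 0) := by
          refine ENNReal.tsum_le_tsum fun t => ENNReal.tsum_le_tsum fun t' => ?_
          by_cases h : (t.2 ∈ F ∧ t'.2 ∈ F') ∧ Pk t t'
          · rw [if_pos h]
            obtain ⟨⟨hb, hb'⟩, p, hp, p', hp', h1, h2, h3⟩ := h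
            refine le_trans ?_ (Finset.single_le_sum (fun _ _ => zero_le) hb)
            refine le_trans ?_ (Finset.single_le_sum (fun _ _ => zero_le) hb')
            refine le_trans ?_ (Finset.single_le_sum (fun _ _ => zero_le)
              ((hs t.2).mem_toFinset.2 hp))
            refine le_trans ?_ (Finset.single_le_sum (fun _ _ => zero_le)
              ((hs' t'.2).mem_toFinset.2 hp'))
            rw [if_pos ⟨rfl, rfl, h1, h2, h3⟩]
            simp only [hW, hW']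
            calc LW Λ t.1 * Λ t.2 * (LW Λ' t'.1 * Λ' t'.2)
                ≤ LW Λ t.1 * 1 * (LW Λ' t'.1 * 1) := by
                  gcongr
                  · exact hΛ1 _
                  · exact hΛ1' _
              _ = LW Λ t.1 * LW Λ' t'.1 := by ring
          · rw [if_neg h]; exact zero_le
      _ = ∑ b ∈ F, ∑ b' ∈ F', ∑ p ∈ (hs b).toFinset, ∑ p' ∈ (hs' b').toFinset,
            ∑' t : List B × B, ∑' t' : List B' × B',
            (if t.2 = b ∧ t'.2 = b' ∧ HT ht t.1 + p.2 = k ∧ HT ht' t'.1 + p'.2 = k ∧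
              (t.1.map z).sum + p.1 = w + (t'.1.map z').sum + p'.1
              then LW Λ t.1 * LW Λ' t'.1 else 0) := by
          simp only [sw_aux]
      _ ≤ ∑ b ∈ F, ∑ b' ∈ F', ∑ p ∈ (hs b).toFinset, ∑ p' ∈ (hs' b').toFinset,
            (ε / 3 / ((Cn : ℝ≥0∞) + 1)) := by
          refine Finset.sum_le_sum fun b hb => Finset.sum_le_sum fun b' _ =>
            Finset.sum_le_sum fun p hp => Finset.sum_le_sum fun p' _ => ?_
          have hpb := hd b p ((hs b).mem_toFinset.1 hp)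
          have hbs : ht b ≤ F.sup ht := Finset.le_sup hb
          refine le_trans ?_ (pair_le Λ ht z Λ' ht' z' hU1' _ N hN k p p' (by omega) w)
          rw [ENNReal.tsum_prod']
          refine ENNReal.tsum_le_tsum fun L => ?_
          calc ∑' (c : B) (t' : List B' × B'),
                (if (L, c).2 = b ∧ t'.2 = b' ∧ HT ht (L, c).1 + p.2 = k ∧ HT ht' t'.1 + p'.2 = k ∧
                ((L, c).1.map z).sum + p.1 = w + (t'.1.map z').sum + p'.1
                then LW Λ (L, c).1 * LW Λ' t'.1 else 0)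
              = ∑' (t' : List B' × B'),
                (if t'.2 = b' ∧ HT ht L + p.2 = k ∧ HT ht' t'.1 + p'.2 = k ∧
                (L.map z).sum + p.1 = w + (t'.1.map z').sum + p'.1
                then LW Λ L * LW Λ' t'.1 else 0) := by
                rw [tsum_eq_single b]
                · refine tsum_congr fun t' => ?_
                  by_cases hq : t'.2 = b' ∧ HT ht L + p.2 = k ∧ HT ht' t'.1 + p'.2 = k ∧
                    (L.map z).sum + p.1 = w + (t'.1.map z').sum + p'.1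
                  · rw [if_pos hq, if_pos ⟨rfl, hq⟩]
                  · rw [if_neg hq, if_neg (fun hh => hq hh.2)]
                · intro c hc
                  rw [ENNReal.tsum_eq_zero]
                  intro t'
                  rw [if_neg (fun hh => hc hh.1)]
            _ = ∑' L' : List B', (if HT ht L + p.2 = k ∧ HT ht' L' + p'.2 = k ∧
                (L.map z).sum + p.1 = w + (L'.map z').sum + p'.1
                then LW Λ L * LW Λ' L' else 0) := by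
                rw [ENNReal.tsum_prod']
                refine tsum_congr fun L' => ?_
                rw [tsum_eq_single b']
                · by_cases hq : HT ht L + p.2 = k ∧ HT ht' L' + p'.2 = k ∧
                    (L.map z).sum + p.1 = w + (L'.map z').sum + p'.1
                  · rw [if_pos hq, if_pos ⟨rfl, hq⟩]
                  · rw [if_neg hq, if_neg (fun hh => hq hh.2)]
                · intro c hc
                  rw [if_neg (fun hh => hc hh.1)]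
            _ ≤ _ := le_rfl
      _ = (Cn : ℝ≥0∞) * (ε / 3 / ((Cn : ℝ≥0∞) + 1)) := by
          rw [hCn]
          push_cast
          simp only [Finset.sum_mul, one_mul]
  -- total
  have t1 : ε / 3 / (E' + 1) * E' ≤ ε / 3 := by
    calc ε / 3 / (E' + 1) * E' ≤ ε / 3 / (E' + 1) * (E' + 1) := mul_le_mul_right le_self_add _
      _ = ε / 3 := ENNReal.div_mul_cancel (by simp) hE1'
  have t2 : E * (ε / 3 / (E + 1)) ≤ ε / 3 := by
    rw [mul_comm]
    calc ε / 3 / (E + 1) * E ≤ ε / 3 / (E + 1) * (E + 1) := mul_le_mul_right le_self_add _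
      _ = ε / 3 := ENNReal.div_mul_cancel (by simp) hE1
  have t3 : (Cn : ℝ≥0∞) * (ε / 3 / ((Cn : ℝ≥0∞) + 1)) ≤ ε / 3 := by
    rw [mul_comm]
    calc ε / 3 / ((Cn : ℝ≥0∞) + 1) * Cn ≤ ε / 3 / ((Cn : ℝ≥0∞) + 1) * (Cn + 1) :=
          mul_le_mul_right le_self_add _
      _ = ε / 3 := ENNReal.div_mul_cancel (by simp) hCtop
  calc _ ≤ ε / 3 / (E' + 1) * E' + E * (ε / 3 / (E + 1))
        + (Cn : ℝ≥0∞) * (ε / 3 / ((Cn : ℝ≥0∞) + 1)) :=
        add_le_add (add_le_add (mul_le_mul' r1 r4) (mul_le_mul' r3 r2)) r5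
    _ ≤ ε / 3 + ε / 3 + ε / 3 := add_le_add (add_le_add t1 t2) t3
    _ = ε := ENNReal.add_thirds ε


/-! ### 540's letters -/

/-- sites (position, depth) read by a list placed with its top at `x`, depth `a` (540's `TX`) -/
def TX (h : B → ℕ) (z : B → G) (s : B → Set (G × ℕ)) : List B → G → ℕ → Set (G × ℕ)
  | [], _, _ => ∅
  | b :: L, x, a => {p | ∃ q ∈ s b, p = (x + q.1, a + q.2)} ∪ TX h z s L (x + z b) (a + h b)

lemma mem_TX (h : B → ℕ) (z : B → G) (s : B → Set (G × ℕ)) (L : List B) :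
    ∀ (x : G) (a : ℕ) (y : G) (k : ℕ), (y, k) ∈ TX h z s L x a →
    ∃ L1 b L2, L = L1 ++ b :: L2 ∧ ∃ p ∈ s b, a + HT h L1 + p.2 = k ∧
      x + (L1.map z).sum + p.1 = y := by
  induction L with
  | nil => intro x a y k hk; exact absurd hk (by simp [TX])
  | cons c L ih =>
    intro x a y k hk
    rcases hk with ⟨q, hq, he⟩ | hk
    · have e1 : y = x + q.1 := congrArg Prod.fst he
      have e2 : k = a + q.2 := congrArg Prod.snd he
      exact ⟨[], c, L, rfl, q, hq, by rw [HT_nil]; omega, by rw [e1]; simp⟩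
    · obtain ⟨L1, b, L2, hL, p, hp, h1, h2⟩ := ih _ _ _ _ hk
      refine ⟨c :: L1, b, L2, by rw [hL]; rfl, p, hp, by rw [HT_cons]; omega, ?_⟩
      rw [← h2, List.map_cons, List.sum_cons]
      abel

open Classical in
/-- **hPt** in 540's / 391's letters: contact at depth exactly `k`. -/
theorem hPt (Λ : B → ℝ≥0∞) (ht : B → ℕ) (z : B → G) (s : B → Set (G × ℕ))
    (Λ' : B' → ℝ≥0∞) (ht' : B' → ℕ) (z' : B' → G) (s' : B' → Set (G × ℕ))
    (hΛ1 : ∀ b, Λ b ≤ 1) (hΛ1' : ∀ b, Λ' b ≤ 1)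
    (hU1 : ∀ n, U Λ ht n ≤ 1) (hU1' : ∀ n, U Λ' ht' n ≤ 1)
    (hm : ∑' b, Λ b * (ht b : ℝ≥0∞) ≠ ⊤) (hm' : ∑' b, Λ' b * (ht' b : ℝ≥0∞) ≠ ⊤)
    (hs : ∀ b, (s b).Finite) (hs' : ∀ b, (s' b).Finite)
    (hd : ∀ b, ∀ p ∈ s b, 1 ≤ p.2 ∧ p.2 ≤ ht b) (hd' : ∀ b, ∀ p ∈ s' b, 1 ≤ p.2 ∧ p.2 ≤ ht' b)
    (hconc : ∀ ε : ℝ≥0∞, ε ≠ 0 → ∃ N, ∀ n, N ≤ n → ∀ x, fm Λ ht z n x ≤ ε) :
    ∀ ε : ℝ≥0∞, ε ≠ 0 → ∃ k0, ∀ k, k0 ≤ k → ∀ (n n' : ℕ) (w : G),
      ∑' L, ∑' L', (if HT ht L = n ∧ HT ht' L' = n' ∧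
        (∃ y, (y, k) ∈ TX ht z s L 0 0 ∧ (y, k) ∈ TX ht' z' s' L' w 0)
        then LW Λ L * LW Λ' L' else 0) ≤ ε := by
  intro ε hε
  obtain ⟨k0, h0⟩ := point Λ ht z s Λ' ht' z' s' hΛ1 hΛ1' hU1 hU1' hm hm' hs hs' hd hd' hconc ε hε
  refine ⟨k0, fun k hk n n' w => h0 k hk n n' w
    (fun L L' => ∃ y, (y, k) ∈ TX ht z s L 0 0 ∧ (y, k) ∈ TX ht' z' s' L' w 0) ?_⟩
  rintro L L' ⟨y, hy, hy'⟩
  obtain ⟨L1, b, L2, hL, p, hp, h1, h2⟩ := mem_TX _ _ _ _ _ _ _ _ hy
  obtain ⟨L1', b', L2', hL', p', hp', h1', h2'⟩ := mem_TX _ _ _ _ _ _ _ _ hy'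
  refine ⟨L1, b, L2, L1', b', L2', hL, hL', p, hp, p', hp', by omega, by omega, ?_⟩
  rw [h2', ← h2, zero_add]

open Classical in
/-- **H5** (thin slab) in 540's letters: contact in `s0` consecutive depths. -/
theorem slab (Λ : B → ℝ≥0∞) (ht : B → ℕ) (z : B → G) (s : B → Set (G × ℕ))
    (Λ' : B' → ℝ≥0∞) (ht' : B' → ℕ) (z' : B' → G) (s' : B' → Set (G × ℕ))
    (hΛ1 : ∀ b, Λ b ≤ 1) (hΛ1' : ∀ b, Λ' b ≤ 1)
    (hU1 : ∀ n, U Λ ht n ≤ 1) (hU1' : ∀ n, U Λ' ht' n ≤ 1)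
    (hm : ∑' b, Λ b * (ht b : ℝ≥0∞) ≠ ⊤) (hm' : ∑' b, Λ' b * (ht' b : ℝ≥0∞) ≠ ⊤)
    (hs : ∀ b, (s b).Finite) (hs' : ∀ b, (s' b).Finite)
    (hd : ∀ b, ∀ p ∈ s b, 1 ≤ p.2 ∧ p.2 ≤ ht b) (hd' : ∀ b, ∀ p ∈ s' b, 1 ≤ p.2 ∧ p.2 ≤ ht' b)
    (hconc : ∀ ε : ℝ≥0∞, ε ≠ 0 → ∃ N, ∀ n, N ≤ n → ∀ x, fm Λ ht z n x ≤ ε) (s0 : ℕ) :
    ∀ ε : ℝ≥0∞, ε ≠ 0 → ∃ k0, ∀ a, k0 ≤ a → ∀ (n n' : ℕ) (w : G),
      ∑' L, ∑' L', (if HT ht L = n ∧ HT ht' L' = n' ∧
        (∃ y k, a ≤ k ∧ k < a + s0 ∧ (y, k) ∈ TX ht z s L 0 0 ∧ (y, k) ∈ TX ht' z' s' L' w 0)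
        then LW Λ L * LW Λ' L' else 0) ≤ ε := by
  intro ε hε
  have hε' : ε / ((s0 : ℝ≥0∞) + 1) ≠ 0 := ENNReal.div_ne_zero.2 ⟨hε,
    ENNReal.add_ne_top.2 ⟨ENNReal.natCast_ne_top _, ENNReal.one_ne_top⟩⟩
  obtain ⟨k0, h0⟩ := hPt Λ ht z s Λ' ht' z' s' hΛ1 hΛ1' hU1 hU1' hm hm' hs hs' hd hd' hconc
    (ε / ((s0 : ℝ≥0∞) + 1)) hε'
  refine ⟨k0, fun a ha n n' w => ?_⟩
  calc ∑' L, ∑' L', (if HT ht L = n ∧ HT ht' L' = n' ∧
        (∃ y k, a ≤ k ∧ k < a + s0 ∧ (y, k) ∈ TX ht z s L 0 0 ∧ (y, k) ∈ TX ht' z' s' L' w 0)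
        then LW Λ L * LW Λ' L' else 0)
      ≤ ∑' L, ∑' L', ∑ k ∈ Finset.Ico a (a + s0), (if HT ht L = n ∧ HT ht' L' = n' ∧
        (∃ y, (y, k) ∈ TX ht z s L 0 0 ∧ (y, k) ∈ TX ht' z' s' L' w 0)
        then LW Λ L * LW Λ' L' else 0) := by
        refine ENNReal.tsum_le_tsum fun L => ENNReal.tsum_le_tsum fun L' => ?_
        by_cases h : HT ht L = n ∧ HT ht' L' = n' ∧ (∃ y k, a ≤ k ∧ k < a + s0 ∧
          (y, k) ∈ TX ht z s L 0 0 ∧ (y, k) ∈ TX ht' z' s' L' w 0)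
        · rw [if_pos h]
          obtain ⟨h1, h2, y, k, hk1, hk2, hy, hy'⟩ := h
          refine le_trans ?_ (Finset.single_le_sum (fun _ _ => zero_le)
            (Finset.mem_Ico.2 ⟨hk1, hk2⟩))
          rw [if_pos ⟨h1, h2, y, hy, hy'⟩]
        · rw [if_neg h]; exact zero_le
    _ = ∑ k ∈ Finset.Ico a (a + s0), ∑' L, ∑' L', (if HT ht L = n ∧ HT ht' L' = n' ∧
        (∃ y, (y, k) ∈ TX ht z s L 0 0 ∧ (y, k) ∈ TX ht' z' s' L' w 0)
        then LW Λ L * LW Λ' L' else 0) := by simp only [sw_aux]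
    _ ≤ ∑ _k ∈ Finset.Ico a (a + s0), ε / ((s0 : ℝ≥0∞) + 1) :=
        Finset.sum_le_sum fun k hk => h0 k (by have := Finset.mem_Ico.1 hk; omega) n n' w
    _ = (s0 : ℝ≥0∞) * (ε / ((s0 : ℝ≥0∞) + 1)) := by
        rw [Finset.sum_const, nsmul_eq_mul, Nat.card_Ico]; congr 2; omega
    _ ≤ ((s0 : ℝ≥0∞) + 1) * (ε / ((s0 : ℝ≥0∞) + 1)) := mul_le_mul_left le_self_add _
    _ = ε := by
        rw [mul_comm]
        exact ENNReal.div_mul_cancel (by simp) (ENNReal.add_ne_top.2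
          ⟨ENNReal.natCast_ne_top _, ENNReal.one_ne_top⟩)

end Crest.Agent.R154.Point754
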