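import Crest.Agent.R154.Conc_926

/-! Row 154 (helper926): one level.  Two independent single-walker block lists, hung at a common
top: the weight of a common site at depth exactly `k` tends to `0` with `k`, uniformly in the
heights and in the offset. -/

set_option autoImplicit false

namespace Crest.Agent.R154.Conc926

open Filter Crest.Agent.R154.B5A
open scoped ENNReal Topology

section one
variable {B G : Type*} [AddCommGroup G] (Λ : B → ℝ≥0∞) (ht : B → ℕ) (dsp : B → G)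
  (tr : B → ℕ → Finset G)

/-- sites at depth `k ≥ 1` of a list hung at its top -/
def St : List B → ℕ → Set G
  | [], _ => ∅
  | b :: L, k => if k ≤ ht b then (tr b k : Set G) else (fun z => dsp b + z) '' St L (k - ht b)

lemma St_dec (L : List B) : ∀ k : ℕ, 1 ≤ k → (St ht dsp tr L k).Nonempty →
    ∃ L1 b L2, L = L1 ++ b :: L2 ∧ HT ht L1 < k ∧ k ≤ HT ht L1 + ht b ∧
      St ht dsp tr L k = (fun z => (L1.map dsp).sum + z) '' (tr b (k - HT ht L1) : Set G) := by
  induction L with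
  | nil => intro k _ h; simp [St] at h
  | cons b L ih =>
    intro k hk h
    by_cases hb : k ≤ ht b
    · refine ⟨[], b, L, rfl, by rw [HT_nil]; omega, by rw [HT_nil]; omega, ?_⟩
      simp [St, hb, HT_nil]
    · have e : St ht dsp tr (b :: L) k = (fun z => dsp b + z) '' St ht dsp tr L (k - ht b) := by
        simp [St, hb]
      rw [e] at h
      obtain ⟨L1, b', L2, h1, h2, h3, h4⟩ := ih (k - ht b) (by omega) h.of_image
      refine ⟨b :: L1, b', L2, by rw [h1]; rfl, by rw [HT_cons]; omega,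
        by rw [HT_cons]; omega, ?_⟩
      rw [e, h4, Set.image_image]
      rw [show k - HT ht (b :: L1) = k - ht b - HT ht L1 by rw [HT_cons]; omega]
      refine Set.image_congr fun z _ => ?_
      rw [List.map_cons, List.sum_cons, add_assoc]

lemma split_le (hU1 : ∀ n, U Λ ht n ≤ 1) (k n : ℕ) (Ψ : List B → ℝ≥0∞)
    (φ : List B → B → ℝ≥0∞)
    (h : ∀ L, Ψ L ≠ 0 → ∃ L1 b L2, L = L1 ++ b :: L2 ∧ HT ht L1 < k ∧ k ≤ HT ht L1 + ht b ∧
      Ψ L ≤ φ L1 b) :
    ∑' L, (if HT ht L = n then LW Λ L * Ψ L else 0)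
      ≤ ∑' L1, ∑' b, (if HT ht L1 < k ∧ k ≤ HT ht L1 + ht b then LW Λ L1 * Λ b * φ L1 b
          else 0) := by
  classical
  have hA : ∀ L, (if HT ht L = n then LW Λ L * Ψ L else 0)
      ≤ ∑' L1, ∑' b, ∑' L2, (if L = L1 ++ b :: L2 ∧ HT ht L = n ∧ HT ht L1 < k ∧
          k ≤ HT ht L1 + ht b then LW Λ L1 * Λ b * φ L1 b * LW Λ L2 else 0) := by
    intro L
    by_cases hn : HT ht L = n
    · rw [if_pos hn]
      by_cases h0 : Ψ L = 0
      · rw [h0, mul_zero]; exact zero_le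
      · obtain ⟨L1, b, L2, e, h2, h3, h4⟩ := h L h0
        refine le_trans ?_ (ENNReal.le_tsum L1)
        refine le_trans ?_ (ENNReal.le_tsum b)
        refine le_trans ?_ (ENNReal.le_tsum L2)
        rw [if_pos ⟨e, hn, h2, h3⟩]
        calc LW Λ L * Ψ L ≤ LW Λ L * φ L1 b := mul_le_mul_right h4 _
          _ = LW Λ L1 * Λ b * φ L1 b * LW Λ L2 := by
            rw [e, LW_append, LW_cons]; ring
    · rw [if_neg hn]; exact zero_le
  refine (ENNReal.tsum_le_tsum hA).trans ?_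
  rw [ENNReal.tsum_comm]
  refine ENNReal.tsum_le_tsum fun L1 => ?_
  rw [ENNReal.tsum_comm]
  refine ENNReal.tsum_le_tsum fun b => ?_
  rw [ENNReal.tsum_comm]
  by_cases hc : HT ht L1 < k ∧ k ≤ HT ht L1 + ht b
  · rw [if_pos hc]
    calc ∑' L2, ∑' L, (if L = L1 ++ b :: L2 ∧ HT ht L = n ∧ HT ht L1 < k ∧
          k ≤ HT ht L1 + ht b then LW Λ L1 * Λ b * φ L1 b * LW Λ L2 else 0)
        ≤ ∑' L2, LW Λ L1 * Λ b * φ L1 b *
            (if HT ht L2 = n - (HT ht L1 + ht b) then LW Λ L2 else 0) := by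
          refine ENNReal.tsum_le_tsum fun L2 => ?_
          rw [tsum_eq_single (L1 ++ b :: L2)]
          · by_cases hh : HT ht (L1 ++ b :: L2) = n
            · rw [if_pos ⟨rfl, hh, hc.1, hc.2⟩, if_pos]
              rw [HT_append, HT_cons] at hh
              omega
            · rw [if_neg fun hx => hh hx.2.1]; exact zero_le
          · intro L hL
            rw [if_neg fun hx => hL hx.1]
      _ = LW Λ L1 * Λ b * φ L1 b * U Λ ht (n - (HT ht L1 + ht b)) := by
          rw [ENNReal.tsum_mul_left, U]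
      _ ≤ LW Λ L1 * Λ b * φ L1 b * 1 := mul_le_mul_right (hU1 _) _
      _ = _ := mul_one _
  · rw [if_neg hc]
    refine le_of_eq ?_
    have : ∀ L2 L, (if L = L1 ++ b :: L2 ∧ HT ht L = n ∧ HT ht L1 < k ∧
          k ≤ HT ht L1 + ht b then LW Λ L1 * Λ b * φ L1 b * LW Λ L2 else 0) = 0 := by
      intro L2 L
      rw [if_neg fun hx => hc ⟨hx.2.2.1, hx.2.2.2⟩]
    simp only [this, tsum_zero]

/-- regroup a sum over lists by their height -/
lemma sum_by_height (f : ℕ → ℝ≥0∞) :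
    ∑' L : List B, LW Λ L * f (HT ht L) = ∑' r, U Λ ht r * f r := by
  classical
  simp only [U, ← ENNReal.tsum_mul_right]
  rw [ENNReal.tsum_comm]
  refine tsum_congr fun L => ?_
  rw [tsum_eq_single (HT ht L)]
  · rw [if_pos rfl]
  · intro r hr
    rw [if_neg (Ne.symm hr), zero_mul]

end one

section two
variable {B B' G : Type*} [AddCommGroup G]
  (Λ : B → ℝ≥0∞) (ht : B → ℕ) (dsp : B → G) (tr : B → ℕ → Finset G)
  (Λ' : B' → ℝ≥0∞) (ht' : B' → ℕ) (dsp' : B' → G) (tr' : B' → ℕ → Finset G)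

open Classical in
/-- weight of a common site at depth exactly `k` -/
noncomputable def PT (n n' k : ℕ) (w : G) : ℝ≥0∞ :=
  ∑' L, ∑' L', if HT ht L = n ∧ HT ht' L' = n' ∧
    (∃ x ∈ St ht dsp tr L k, ∃ x' ∈ St ht' dsp' tr' L' k, x = w + x')
    then LW Λ L * LW Λ' L' else 0

open Classical in
/-- the dominated integrand -/
noncomputable def gk (k : ℕ) (q : ℕ × ℕ × B × B') : ℝ≥0∞ :=
  if 1 ≤ q.1 ∧ q.1 ≤ ht q.2.2.1 ∧ 1 ≤ q.2.1 ∧ q.2.1 ≤ ht' q.2.2.2 ∧ q.1 ≤ k ∧ q.2.1 ≤ k then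
    Λ q.2.2.1 * Λ' q.2.2.2 *
      min 1 (((tr q.2.2.1 q.1).card * (tr' q.2.2.2 q.2.1).card : ℕ) *
        ⨆ x, WX Λ ht dsp (k - q.1) x) else 0

set_option maxHeartbeats 1000000 in
lemma gk_tendsto (hE : ∑' b, Λ b * (ht b : ℝ≥0∞) ≠ ⊤) (hE' : ∑' b, Λ' b * (ht' b : ℝ≥0∞) ≠ ⊤)
    (hΛ : ∑' b, Λ b = 1) (hΛ' : ∑' b, Λ' b = 1)
    (hc : Tendsto (fun n => ⨆ x, WX Λ ht dsp n x) atTop (𝓝 0)) :
    Tendsto (fun k => ∑' q, gk Λ ht dsp tr Λ' ht' tr' k q) atTop (𝓝 0) := by
  classical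
  let _ : MeasurableSpace (ℕ × ℕ × B × B') := ⊤
  set h : ℕ × ℕ × B × B' → ℝ≥0∞ := fun q =>
    if 1 ≤ q.1 ∧ q.1 ≤ ht q.2.2.1 ∧ 1 ≤ q.2.1 ∧ q.2.1 ≤ ht' q.2.2.2 then
      Λ q.2.2.1 * Λ' q.2.2.2 else 0 with hh
  have hsum : ∑' q, h q ≠ ⊤ := by
    have hcount : ∀ (N : ℕ) (c : ℝ≥0∞), ∑' i : ℕ, (if 1 ≤ i ∧ i ≤ N then c else 0) = N * c := by
      intro N c
      rw [tsum_eq_sum (s := Finset.Icc 1 N)]
      · rw [Finset.sum_congr rfl (fun i hi => if_pos (Finset.mem_Icc.1 hi))]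
        simp
      · intro i hi
        rw [if_neg (fun hx => hi (Finset.mem_Icc.2 hx))]
    have e1 : ∑' q, h q = ∑' b, ∑' b', (ht b : ℝ≥0∞) * (ht' b' * (Λ b * Λ' b')) := by
      rw [ENNReal.tsum_prod']
      rw [show (fun i : ℕ => ∑' q : ℕ × B × B', h (i, q)) =
        fun i => ∑' i' : ℕ, ∑' b, ∑' b', h (i, i', b, b') from by
          funext i
          rw [ENNReal.tsum_prod']
          refine tsum_congr fun i' => ?_
          rw [ENNReal.tsum_prod']]
      rw [show (fun i : ℕ => ∑' i' : ℕ, ∑' b, ∑' b', h (i, i', b, b')) =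
        fun i => ∑' b, ∑' i' : ℕ, ∑' b', h (i, i', b, b') from by
          funext i
          rw [ENNReal.tsum_comm]]
      rw [ENNReal.tsum_comm]
      refine tsum_congr fun b => ?_
      rw [show (fun i : ℕ => ∑' i' : ℕ, ∑' b', h (i, i', b, b')) =
        fun i => ∑' b', ∑' i' : ℕ, h (i, i', b, b') from by
          funext i
          rw [ENNReal.tsum_comm]]
      rw [ENNReal.tsum_comm]
      refine tsum_congr fun b' => ?_
      rw [← hcount (ht b)]
      refine tsum_congr fun i => ?_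
      by_cases hi : 1 ≤ i ∧ i ≤ ht b
      · rw [if_pos hi, ← hcount (ht' b')]
        refine tsum_congr fun i' => ?_
        by_cases hi' : 1 ≤ i' ∧ i' ≤ ht' b'
        · rw [if_pos hi']
          simp only [hh]
          rw [if_pos ⟨hi.1, hi.2, hi'.1, hi'.2⟩]
        · rw [if_neg hi']
          simp only [hh]
          rw [if_neg fun hx => hi' ⟨hx.2.2.1, hx.2.2.2⟩]
      · rw [if_neg hi]
        have : ∀ i', h (i, i', b, b') = 0 := by
          intro i'
          simp only [hh]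
          rw [if_neg fun hx => hi ⟨hx.1, hx.2.1⟩]
        simp only [this, tsum_zero]
    have e2 : ∑' q, h q = (∑' b, Λ b * (ht b : ℝ≥0∞)) * ∑' b', Λ' b' * (ht' b' : ℝ≥0∞) := by
      rw [e1, ← ENNReal.tsum_mul_right]
      refine tsum_congr fun b => ?_
      rw [← ENNReal.tsum_mul_left]
      refine tsum_congr fun b' => ?_
      ring
    rw [e2]
    exact ENNReal.mul_ne_top hE hE'
  have hdom := MeasureTheory.tendsto_lintegral_of_dominated_convergence
    (μ := MeasureTheory.Measure.count) (F := fun k q => gk Λ ht dsp tr Λ' ht' tr' k q)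
    (f := fun _ => 0) h (fun n => measurable_from_top)
    (fun n => Eventually.of_forall fun q => by
      simp only [gk, hh]
      by_cases hq : 1 ≤ q.1 ∧ q.1 ≤ ht q.2.2.1 ∧ 1 ≤ q.2.1 ∧ q.2.1 ≤ ht' q.2.2.2
      · rw [if_pos hq]
        split_ifs with h7
        · exact (mul_le_mul_right (min_le_left _ _) _).trans (mul_one _).le
        · exact zero_le
      · rw [if_neg hq, if_neg (fun hx => hq ⟨hx.1, hx.2.1, hx.2.2.1, hx.2.2.2.1⟩)])
    (by rw [MeasureTheory.lintegral_count]; exact hsum)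
    (Eventually.of_forall fun q => by
      have hΛ1 : Λ q.2.2.1 ≠ ⊤ := ne_top_of_le_ne_top ENNReal.one_ne_top (hΛ ▸ ENNReal.le_tsum _)
      have hΛ2 : Λ' q.2.2.2 ≠ ⊤ :=
        ne_top_of_le_ne_top ENNReal.one_ne_top (hΛ' ▸ ENNReal.le_tsum _)
      have hc2 : Tendsto (fun k => ⨆ x, WX Λ ht dsp (k - q.1) x) atTop (𝓝 0) :=
        hc.comp (tendsto_sub_atTop_nat q.1)
      have hc3 : Tendsto (fun k => Λ q.2.2.1 * Λ' q.2.2.2 *
          ((((tr q.2.2.1 q.1).card * (tr' q.2.2.2 q.2.1).card : ℕ) : ℝ≥0∞) *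
            ⨆ x, WX Λ ht dsp (k - q.1) x)) atTop (𝓝 0) := by
        have h8 := ENNReal.Tendsto.const_mul (a := (((tr q.2.2.1 q.1).card *
          (tr' q.2.2.2 q.2.1).card : ℕ) : ℝ≥0∞)) hc2 (Or.inr (ENNReal.natCast_ne_top _))
        rw [mul_zero] at h8
        have h9 := ENNReal.Tendsto.const_mul (a := Λ q.2.2.1 * Λ' q.2.2.2) h8
          (Or.inr (ENNReal.mul_ne_top hΛ1 hΛ2))
        rw [mul_zero] at h9
        exact h9
      refine tendsto_of_tendsto_of_tendsto_of_le_of_le tendsto_const_nhds hc3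
        (fun k => zero_le) (fun k => ?_)
      simp only [gk]
      split_ifs with h7
      · exact mul_le_mul_right (min_le_right _ _) _
      · exact zero_le)
  simp only [MeasureTheory.lintegral_count, tsum_zero] at hdom
  exact hdom

end two

lemma swap6 {a b c d e f : Type*} (H : e → f → b → d → a → c → ℝ≥0∞) :
    ∑' x, ∑' y, ∑' z, ∑' t, ∑' i, ∑' j, H i j y t x z
      = ∑' i, ∑' j, ∑' y, ∑' t, ∑' x, ∑' z, H i j y t x z := by
  have h1 : ∑' x, ∑' y, ∑' z, ∑' t, ∑' i, ∑' j, H i j y t x z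
      = ∑' p : a × b × c × d × e × f,
        H p.2.2.2.2.1 p.2.2.2.2.2 p.2.1 p.2.2.2.1 p.1 p.2.2.1 := by
    simp only [ENNReal.tsum_prod']
  have h2 : ∑' i, ∑' j, ∑' y, ∑' t, ∑' x, ∑' z, H i j y t x z
      = ∑' p : e × f × b × d × a × c,
        H p.1 p.2.1 p.2.2.1 p.2.2.2.1 p.2.2.2.2.1 p.2.2.2.2.2 := by
    simp only [ENNReal.tsum_prod']
  rw [h1, h2]
  let σ : e × f × b × d × a × c ≃ a × b × c × d × e × f :=
    { toFun := fun p => (p.2.2.2.2.1, p.2.2.1, p.2.2.2.2.2, p.2.2.2.1, p.1, p.2.1)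
      invFun := fun p => (p.2.2.2.2.1, p.2.2.2.2.2, p.2.1, p.2.2.2.1, p.1, p.2.2.1)
      left_inv := fun _ => rfl
      right_inv := fun _ => rfl }
  exact (σ.tsum_eq (fun p : a × b × c × d × e × f =>
    H p.2.2.2.2.1 p.2.2.2.2.2 p.2.1 p.2.2.2.1 p.1 p.2.2.1)).symm

section three
variable {B B' G : Type*} [AddCommGroup G]
  (Λ : B → ℝ≥0∞) (ht : B → ℕ) (dsp : B → G) (tr : B → ℕ → Finset G)
  (Λ' : B' → ℝ≥0∞) (ht' : B' → ℕ) (dsp' : B' → G) (tr' : B' → ℕ → Finset G)

open Classical in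
/-- meeting indicator of two blocks -/
noncomputable def II (w : G) (S : Finset G) (S' : Finset G) (z z' : G) : ℝ≥0∞ :=
  if ∃ p ∈ S, ∃ p' ∈ S', z + p = w + (z' + p') then 1 else 0

lemma inner_le (hU1 : ∀ n, U Λ ht n ≤ 1) (hU1' : ∀ n, U Λ' ht' n ≤ 1) (r r' : ℕ) (w : G)
    (S S' : Finset G) :
    ∑' L1, ∑' L1', (if HT ht L1 = r ∧ HT ht' L1' = r' then
        LW Λ L1 * (LW Λ' L1' * II w S S' (L1.map dsp).sum (L1'.map dsp').sum) else 0)
      ≤ min 1 (((S.card * S'.card : ℕ) : ℝ≥0∞) * ⨆ x, WX Λ ht dsp r x) := by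
  classical
  refine le_min ?_ ?_
  · calc ∑' L1, ∑' L1', (if HT ht L1 = r ∧ HT ht' L1' = r' then
        LW Λ L1 * (LW Λ' L1' * II w S S' (L1.map dsp).sum (L1'.map dsp').sum) else 0)
        ≤ ∑' L1, ∑' L1', (if HT ht L1 = r then LW Λ L1 else 0) *
            (if HT ht' L1' = r' then LW Λ' L1' else 0) := by
          refine ENNReal.tsum_le_tsum fun L1 => ENNReal.tsum_le_tsum fun L1' => ?_
          by_cases h : HT ht L1 = r ∧ HT ht' L1' = r'
          · rw [if_pos h, if_pos h.1, if_pos h.2]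
            refine mul_le_mul_right ?_ _
            calc LW Λ' L1' * II w S S' (L1.map dsp).sum (L1'.map dsp').sum
                ≤ LW Λ' L1' * 1 := mul_le_mul_right (by rw [II]; split_ifs <;> simp) _
              _ = _ := mul_one _
          · rw [if_neg h]; exact zero_le
      _ = U Λ ht r * U Λ' ht' r' := by
          simp only [ENNReal.tsum_mul_left, ENNReal.tsum_mul_right, U]
      _ ≤ 1 * 1 := mul_le_mul' (hU1 _) (hU1' _)
      _ = 1 := one_mul _
  · have hI : ∀ z z', II w S S' z z'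
        ≤ ∑ p ∈ S, ∑ p' ∈ S', (if z = w + (z' + p') - p then 1 else 0) := by
      intro z z'
      rw [II]
      split_ifs with h
      · obtain ⟨p, hp, p', hp', e⟩ := h
        refine le_trans ?_ (Finset.single_le_sum (fun _ _ => zero_le) hp)
        refine le_trans ?_ (Finset.single_le_sum (fun _ _ => zero_le) hp')
        rw [if_pos (by rw [← e]; abel)]
      · exact zero_le
    rw [ENNReal.tsum_comm]
    calc ∑' L1', ∑' L1, (if HT ht L1 = r ∧ HT ht' L1' = r' then
        LW Λ L1 * (LW Λ' L1' * II w S S' (L1.map dsp).sum (L1'.map dsp').sum) else 0)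
        ≤ ∑' L1', (if HT ht' L1' = r' then LW Λ' L1' else 0) *
            (((S.card * S'.card : ℕ) : ℝ≥0∞) * ⨆ x, WX Λ ht dsp r x) := by
          refine ENNReal.tsum_le_tsum fun L1' => ?_
          by_cases h' : HT ht' L1' = r'
          · rw [if_pos h']
            calc ∑' L1, (if HT ht L1 = r ∧ HT ht' L1' = r' then
                LW Λ L1 * (LW Λ' L1' * II w S S' (L1.map dsp).sum (L1'.map dsp').sum) else 0)
                ≤ ∑' L1, LW Λ' L1' * ∑ p ∈ S, ∑ p' ∈ S',
                    (if HT ht L1 = r ∧ (L1.map dsp).sum = w + ((L1'.map dsp').sum + p') - p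
                      then LW Λ L1 else 0) := by
                  refine ENNReal.tsum_le_tsum fun L1 => ?_
                  by_cases h : HT ht L1 = r
                  · rw [if_pos ⟨h, h'⟩]
                    calc LW Λ L1 * (LW Λ' L1' * II w S S' (L1.map dsp).sum (L1'.map dsp').sum)
                        ≤ LW Λ L1 * (LW Λ' L1' * ∑ p ∈ S, ∑ p' ∈ S',
                          (if (L1.map dsp).sum = w + ((L1'.map dsp').sum + p') - p then 1
                            else 0)) :=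
                          mul_le_mul_right (mul_le_mul_right (hI _ _) _) _
                      _ = LW Λ' L1' * (LW Λ L1 * ∑ p ∈ S, ∑ p' ∈ S',
                          (if (L1.map dsp).sum = w + ((L1'.map dsp').sum + p') - p then 1
                            else 0)) := by ring
                      _ = _ := by
                          congr 1
                          rw [Finset.mul_sum]
                          refine Finset.sum_congr rfl fun p _ => ?_
                          rw [Finset.mul_sum]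
                          refine Finset.sum_congr rfl fun p' _ => ?_
                          by_cases hx : (L1.map dsp).sum = w + ((L1'.map dsp').sum + p') - p
                          · rw [if_pos hx, if_pos ⟨h, hx⟩, mul_one]
                          · rw [if_neg hx, if_neg fun hh => hx hh.2, mul_zero]
                  · rw [if_neg fun hh => h hh.1]; exact zero_le
              _ = LW Λ' L1' * ∑ p ∈ S, ∑ p' ∈ S',
                    WX Λ ht dsp r (w + ((L1'.map dsp').sum + p') - p) := by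
                  rw [ENNReal.tsum_mul_left]
                  congr 1
                  rw [Summable.tsum_finsetSum (fun _ _ => ENNReal.summable)]
                  refine Finset.sum_congr rfl fun p _ => ?_
                  rw [Summable.tsum_finsetSum (fun _ _ => ENNReal.summable)]
                  rfl
              _ ≤ LW Λ' L1' * ∑ _p ∈ S, ∑ _p' ∈ S', ⨆ x, WX Λ ht dsp r x := by
                  refine mul_le_mul_right (Finset.sum_le_sum fun p _ =>
                    Finset.sum_le_sum fun p' _ => ?_) _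
                  exact le_iSup (fun x => WX Λ ht dsp r x) _
              _ = _ := by
                  simp only [Finset.sum_const, nsmul_eq_mul]
                  push_cast
                  ring
          · rw [if_neg h', zero_mul]
            refine le_of_eq ?_
            have : ∀ L1, (if HT ht L1 = r ∧ HT ht' L1' = r' then
              LW Λ L1 * (LW Λ' L1' * II w S S' (L1.map dsp).sum (L1'.map dsp').sum)
                else 0) = 0 := fun L1 => by rw [if_neg fun hh => h' hh.2]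
            simp only [this, tsum_zero]
      _ = U Λ' ht' r' * (((S.card * S'.card : ℕ) : ℝ≥0∞) * ⨆ x, WX Λ ht dsp r x) := by
          rw [ENNReal.tsum_mul_right, U]
      _ ≤ 1 * (((S.card * S'.card : ℕ) : ℝ≥0∞) * ⨆ x, WX Λ ht dsp r x) :=
          mul_le_mul_left (hU1' _) _
      _ = _ := one_mul _

set_option maxHeartbeats 1000000 in
lemma PT_le (hU1 : ∀ n, U Λ ht n ≤ 1) (hU1' : ∀ n, U Λ' ht' n ≤ 1) (n n' k : ℕ) (hk : 1 ≤ k)
    (w : G) :
    PT Λ ht dsp tr Λ' ht' dsp' tr' n n' k w ≤ ∑' q, gk Λ ht dsp tr Λ' ht' tr' k q := by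
  classical
  set Ψ' : List B → List B' → ℝ≥0∞ := fun L L' =>
    if ∃ x ∈ St ht dsp tr L k, ∃ x' ∈ St ht' dsp' tr' L' k, x = w + x' then 1 else 0 with hΨ'
  set Ψ : List B → ℝ≥0∞ := fun L =>
    ∑' L', (if HT ht' L' = n' then LW Λ' L' * Ψ' L L' else 0) with hΨ
  set φ : List B → B → ℝ≥0∞ := fun L1 b =>
    ∑' L1', ∑' b', (if HT ht' L1' < k ∧ k ≤ HT ht' L1' + ht' b' then
      LW Λ' L1' * Λ' b' * II w (tr b (k - HT ht L1)) (tr' b' (k - HT ht' L1'))
        (L1.map dsp).sum (L1'.map dsp').sum else 0) with hφ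
  have e1 : PT Λ ht dsp tr Λ' ht' dsp' tr' n n' k w
      = ∑' L, (if HT ht L = n then LW Λ L * Ψ L else 0) := by
    rw [PT]
    refine tsum_congr fun L => ?_
    by_cases h : HT ht L = n
    · rw [if_pos h, hΨ]
      simp only
      rw [← ENNReal.tsum_mul_left]
      refine tsum_congr fun L' => ?_
      by_cases h' : HT ht' L' = n'
      · rw [if_pos h']
        simp only [hΨ']
        by_cases hx : ∃ x ∈ St ht dsp tr L k, ∃ x' ∈ St ht' dsp' tr' L' k, x = w + x'
        · rw [if_pos hx, if_pos ⟨h, h', hx⟩, mul_one]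
        · rw [if_neg hx, if_neg fun hh => hx hh.2.2, mul_zero, mul_zero]
      · rw [if_neg h', if_neg fun hh => h' hh.2.1, mul_zero]
    · rw [if_neg h]
      have : ∀ L', (if HT ht L = n ∧ HT ht' L' = n' ∧
        (∃ x ∈ St ht dsp tr L k, ∃ x' ∈ St ht' dsp' tr' L' k, x = w + x')
          then LW Λ L * LW Λ' L' else 0) = 0 := fun L' => by rw [if_neg fun hh => h hh.1]
      simp only [this, tsum_zero]
  rw [e1]
  refine (split_le Λ ht hU1 k n Ψ φ ?_).trans ?_
  · intro L hL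
    have hne : (St ht dsp tr L k).Nonempty := by
      by_contra hcon
      rw [Set.not_nonempty_iff_eq_empty] at hcon
      apply hL
      simp only [hΨ, hΨ', hcon]
      simp
    obtain ⟨L1, b, L2, h1, h2, h3, h4⟩ := St_dec ht dsp tr L k hk hne
    refine ⟨L1, b, L2, h1, h2, h3, ?_⟩
    simp only [hΨ, hφ]
    refine split_le Λ' ht' hU1' k n' (fun L' => Ψ' L L')
      (fun L1' b' => II w (tr b (k - HT ht L1)) (tr' b' (k - HT ht' L1'))
        (L1.map dsp).sum (L1'.map dsp').sum) ?_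
    intro L' hL'
    have hx : ∃ x ∈ St ht dsp tr L k, ∃ x' ∈ St ht' dsp' tr' L' k, x = w + x' := by
      by_contra hcon
      apply hL'
      simp only [hΨ']
      rw [if_neg hcon]
    obtain ⟨x, hx1, x', hx2, hx3⟩ := hx
    obtain ⟨L1', b', L2', h1', h2', h3', h4'⟩ := St_dec ht' dsp' tr' L' k hk ⟨x', hx2⟩
    refine ⟨L1', b', L2', h1', h2', h3', ?_⟩
    rw [h4] at hx1
    rw [h4'] at hx2
    obtain ⟨p, hp, rfl⟩ := hx1
    obtain ⟨p', hp', rfl⟩ := hx2
    simp only [hΨ', II]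
    rw [if_pos (show ∃ p ∈ tr b (k - HT ht L1), ∃ p' ∈ tr' b' (k - HT ht' L1'),
      (L1.map dsp).sum + p = w + ((L1'.map dsp').sum + p') from ⟨p, hp, p', hp', hx3⟩)]
    split_ifs <;> simp
  -- regroup
  have hA : ∀ L1 b, (if HT ht L1 < k ∧ k ≤ HT ht L1 + ht b then LW Λ L1 * Λ b * φ L1 b else 0)
      ≤ ∑' L1', ∑' b', ∑' i : ℕ, ∑' i' : ℕ,
        (if 1 ≤ i ∧ i ≤ ht b ∧ 1 ≤ i' ∧ i' ≤ ht' b' ∧ i ≤ k ∧ i' ≤ k then
          Λ b * Λ' b' * (if HT ht L1 = k - i ∧ HT ht' L1' = k - i' then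
            LW Λ L1 * (LW Λ' L1' * II w (tr b i) (tr' b' i')
              (L1.map dsp).sum (L1'.map dsp').sum) else 0) else 0) := by
    intro L1 b
    by_cases hc : HT ht L1 < k ∧ k ≤ HT ht L1 + ht b
    · rw [if_pos hc, hφ]
      simp only
      rw [← ENNReal.tsum_mul_left]
      refine ENNReal.tsum_le_tsum fun L1' => ?_
      rw [← ENNReal.tsum_mul_left]
      refine ENNReal.tsum_le_tsum fun b' => ?_
      by_cases hc' : HT ht' L1' < k ∧ k ≤ HT ht' L1' + ht' b'
      · rw [if_pos hc']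
        refine le_trans ?_ (ENNReal.le_tsum (k - HT ht L1))
        refine le_trans ?_ (ENNReal.le_tsum (k - HT ht' L1'))
        rw [if_pos ⟨by omega, by omega, by omega, by omega, by omega, by omega⟩,
          if_pos ⟨by omega, by omega⟩]
        refine le_of_eq ?_
        ring
      · rw [if_neg hc', mul_zero]; exact zero_le
    · rw [if_neg hc]; exact zero_le
  refine (ENNReal.tsum_le_tsum fun L1 => ENNReal.tsum_le_tsum fun b => hA L1 b).trans ?_
  rw [swap6 (fun (i i' : ℕ) (b : B) (b' : B') (L1 : List B) (L1' : List B') =>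
    (if 1 ≤ i ∧ i ≤ ht b ∧ 1 ≤ i' ∧ i' ≤ ht' b' ∧ i ≤ k ∧ i' ≤ k then
          Λ b * Λ' b' * (if HT ht L1 = k - i ∧ HT ht' L1' = k - i' then
            LW Λ L1 * (LW Λ' L1' * II w (tr b i) (tr' b' i')
              (L1.map dsp).sum (L1'.map dsp').sum) else 0) else 0))]
  simp only [ENNReal.tsum_prod']
  refine ENNReal.tsum_le_tsum fun i => ENNReal.tsum_le_tsum fun i' =>
    ENNReal.tsum_le_tsum fun b => ENNReal.tsum_le_tsum fun b' => ?_
  simp only [gk]
  by_cases hc : 1 ≤ i ∧ i ≤ ht b ∧ 1 ≤ i' ∧ i' ≤ ht' b' ∧ i ≤ k ∧ i' ≤ k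
  · simp only [if_pos hc, ENNReal.tsum_mul_left]
    refine mul_le_mul_right ?_ _
    exact inner_le Λ ht dsp Λ' ht' dsp' hU1 hU1' (k - i) (k - i') w (tr b i) (tr' b' i')
  · simp only [if_neg hc, tsum_zero]
    exact le_rfl

/-- **ONE LEVEL**: the weight of a common site at depth exactly `k` tends to `0`. -/
theorem point (h1 : ∀ b, 1 ≤ ht b) (hΛ : ∑' b, Λ b = 1) (hU1 : ∀ n, U Λ ht n ≤ 1)
    (hE : ∑' b, Λ b * (ht b : ℝ≥0∞) ≠ ⊤)
    (hΛ' : ∑' b, Λ' b = 1) (hU1' : ∀ n, U Λ' ht' n ≤ 1)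
    (hE' : ∑' b, Λ' b * (ht' b : ℝ≥0∞) ≠ ⊤) {b1 b2 : B} (hh : ht b1 = ht b2)
    (hw1 : Λ b1 ≠ 0) (hw2 : Λ b2 ≠ 0)
    (hv : ∀ k : ℕ, k ≠ 0 → k • (dsp b2 - dsp b1) ≠ 0) (ε : ℝ≥0∞) (hε : ε ≠ 0) :
    ∃ k0 : ℕ, ∀ k, k0 ≤ k → ∀ (n n' : ℕ) (w : G),
      PT Λ ht dsp tr Λ' ht' dsp' tr' n n' k w ≤ ε := by
  have hc : Tendsto (fun n => ⨆ x, WX Λ ht dsp n x) atTop (𝓝 0) := by
    rw [ENNReal.tendsto_atTop_zero]
    intro δ hδ
    obtain ⟨N, hN⟩ := conc Λ ht dsp h1 hΛ hU1 hE hh hw1 hw2 hv δ (ne_of_gt hδ)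
    exact ⟨N, fun n hn => iSup_le fun x => hN n hn x⟩
  have ht0 := gk_tendsto Λ ht dsp tr Λ' ht' tr' hE hE' hΛ hΛ' hc
  obtain ⟨N, hN⟩ := (ENNReal.tendsto_atTop_zero.1 ht0) ε (pos_iff_ne_zero.2 hε)
  refine ⟨max N 1, fun k hk n n' w => ?_⟩
  exact (PT_le Λ ht dsp tr Λ' ht' dsp' tr' hU1 hU1' n n' k
    (le_trans (le_max_right _ _) hk) w).trans (hN k (le_trans (le_max_left _ _) hk))

end three

end Crest.Agent.R154.Conc926
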