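import Crest.Agent.R154.HcE_663

/-! Row 154, B8, TILE_RUN (helper663): (POP) for random laws and the energy sum on the kernel
system `kS` of the natural climbs. -/

set_option autoImplicit false
set_option linter.unusedSectionVars false
set_option linter.unusedVariables false
set_option linter.deprecated false

namespace Crest.Agent.R154.PopK663

open MeasureTheory ProbabilityTheory Set Filter Crest.ProbabilityR.RandomEnvironment
open Crest.Agent.R154.Mk561 Crest.Agent.R154.Q561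
open Crest.Agent.R154.Flux132 (lev)
open Crest.Agent.R154.RatioR872 Crest.Agent.R154.RatioR872.KerSys Crest.Agent.R154.Tile872
open Crest.Agent.R154.Pop663 Crest.Agent.R154.HcE663
open Crest.Agent.R154.B6I (SP PSm)
open scoped ENNReal Topology

variable {d : ℕ}

/-- threshold of (POP) for weights of mass `≥ p / 4` -/
noncomputable def e1 (p : ℝ≥0∞) : ℝ≥0∞ := (p / 4) ^ 2 * eM p 1

lemma e1_div (p : ℝ≥0∞) (M : ℕ) : e1 p / M = (p / 4) ^ 2 * eM p M := by
  unfold e1 eM
  rw [Nat.cast_one, mul_one, ENNReal.div_eq_inv_mul (b := (M : ℝ≥0∞)),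
    ENNReal.div_eq_inv_mul (b := 2 * (M : ℝ≥0∞)), ENNReal.mul_inv (Or.inl (by simp))
      (Or.inl (by simp)), ENNReal.div_eq_inv_mul (a := (p / 16) ^ 2) (b := (2 : ℝ≥0∞))]
  simp only [div_eq_mul_inv]
  ring

lemma e1_ne_zero {p : ℝ≥0∞} (h : p ≠ 0) : e1 p ≠ 0 := by
  unfold e1 eM
  have h1 : ∀ c : ℝ≥0∞, c ≠ ∞ → p / c ≠ 0 := fun c hc => (ENNReal.div_pos h hc).ne'
  refine mul_ne_zero (pow_ne_zero 2 (h1 4 (by norm_num))) (mul_ne_zero
    (pow_ne_zero 2 (h1 2 (by norm_num))) ?_)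
  refine (ENNReal.div_pos (ENNReal.div_pos (pow_ne_zero 2 (h1 16 (by norm_num))) (by simp)).ne'
    (by norm_num)).ne'

lemma e1_ne_top {p : ℝ≥0∞} (h : p ≠ ∞) : e1 p ≠ ∞ := by
  unfold e1 eM
  have h1 : ∀ c : ℝ≥0∞, c ≠ 0 → p / c ≠ ∞ := fun c hc => ENNReal.div_ne_top h hc
  refine ENNReal.mul_ne_top (ENNReal.pow_ne_top (h1 4 (by norm_num))) (ENNReal.mul_ne_top
    (ENNReal.pow_ne_top (h1 2 (by norm_num))) ?_)
  exact ENNReal.div_ne_top (ENNReal.div_ne_top (ENNReal.pow_ne_top (h1 16 (by norm_num)))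
    (by simp)) (by norm_num)

section bind

variable (u : Step d) (R : ℕ) (κ : ℝ) (Q : Measure (Environment d)) [IsProbabilityMeasure Q]
  (hstat : ∀ z : Site d, MeasurePreserving (shiftEnv z) Q Q) (hR : IsFiniteRangeDependent Q R)

lemma N_kS {a : ℕ} (b : ℕ) (ω : Environment d) {x : Site d} (hx : lev u x = a) :
    (kS u R κ Q hstat hR).N a b ω x = mkLaw κ ω x (ClA u R x b) := by
  rw [← tsum_gk]
  unfold KerSys.N
  refine tsum_congr fun y => ?_
  change (if lev u x = (a : ℤ) then gk u R κ b ω x y else 0) = _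
  rw [if_pos hx]

include hstat in
/-- the annealed mass of a natural climb -/
lemma ann_ge {p : ℝ≥0∞} (hp : ∀ n, p ≤ hn u R κ Q n) {a b : ℕ} (hab : a ≤ b) {x : Site d}
    (hx : lev u x = a) : p ≤ mkAnn κ Q x (ClA u R x b) := by
  rw [ClA_eq' u R hx hab, hn_eq_Nt u R κ Q hstat]
  exact hp _

/-- **(POP) for random laws** on `kS` -/
theorem popR {p : ℝ≥0∞} (hp0 : p ≠ 0) (hp1 : p ≤ 1) (hp : ∀ n, p ≤ hn u R κ Q n) :
    PopR (kS u R κ Q hstat hR) p (1 - p / 8) (e1 p) := by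
  classical
  intro b c hbc w hw hw1 M hM B hB
  set A := kS u R κ Q hstat hR with hA
  have hpt : p ≠ ∞ := ne_top_of_le_ne_top ENNReal.one_ne_top hp1
  have hp4 : p / 4 ≠ 0 := (ENNReal.div_pos hp0 (by norm_num)).ne'
  have hp4t : p / 4 ≠ ∞ := ENNReal.div_ne_top hpt (by norm_num)
  have hEm := meas_energy (b := c) hw
  -- the class
  set cls : Set (Site d → ℝ≥0∞) := {ν | ∑' x, ν x = 1 ∧ (∀ x, lev u x ≠ b → ν x = 0) ∧
    en u R κ Q b c ν ≤ eM p M} with hcls
  set S1 : Set (Environment d) := {ω | p / 4 ≤ tot w ω ∧ A.energy b c w ω ≤ e1 p / M} with hS1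
  have hS1m : MeasurableSet[A.F b] S1 :=
    MeasurableSet.inter (hw.meas_tot measurableSet_Ici) (hEm measurableSet_Iic)
  have hmem : ∀ ω ∈ S1, (fun x => w ω x / tot w ω) ∈ cls := by
    rintro ω ⟨h1, h2⟩
    have ht0 : tot w ω ≠ 0 := fun h => hp4 (le_antisymm (h ▸ h1) zero_le)
    have htt : tot w ω ≠ ∞ := ne_top_of_le_ne_top ENNReal.one_ne_top (hw1 ω)
    refine ⟨?_, ?_, ?_⟩
    · simp_rw [div_eq_mul_inv]
      rw [ENNReal.tsum_mul_right]
      exact ENNReal.mul_inv_cancel ht0 htt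
    · intro x hx
      change w ω x / tot w ω = 0
      rw [hw.supp ω x (fun h => hx h), ENNReal.zero_div]
    · have e3 : en u R κ Q b c (fun x => w ω x / tot w ω)
          = (tot w ω)⁻¹ ^ 2 * A.energy b c w ω := by
        unfold en energy
        rw [← ENNReal.tsum_mul_left]
        refine tsum_congr fun x => ?_
        rw [← ENNReal.tsum_mul_left]
        refine tsum_congr fun x' => ?_
        change w ω x / tot w ω * (w ω x' / tot w ω) * Kc u R κ Q b c x x'
          = (tot w ω)⁻¹ ^ 2 * (w ω x * w ω x' * Kc u R κ Q b c x x')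
        simp only [div_eq_mul_inv]
        ring
      rw [e3]
      calc (tot w ω)⁻¹ ^ 2 * A.energy b c w ω ≤ (p / 4)⁻¹ ^ 2 * (e1 p / M) := by
            gcongr
        _ = (p / 4)⁻¹ ^ 2 * ((p / 4) ^ 2 * eM p M) := by rw [e1_div]
        _ = eM p M := by
            rw [← mul_assoc, ← mul_pow, ENNReal.inv_mul_cancel hp4 hp4t, one_pow, one_mul]
  by_cases hne : cls = ∅
  · have : B ∩ {ω | p / 4 ≤ tot w ω ∧ A.energy b c w ω ≤ e1 p / M ∧
        tot (A.push b c w) ω < p ^ 2 / 32} = ∅ := by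
      rw [Set.eq_empty_iff_forall_notMem]
      rintro ω ⟨_, h1, h2, _⟩
      have := hmem ω ⟨h1, h2⟩
      rw [hne] at this
      exact this
    rw [this, measure_empty]
    exact zero_le
  obtain ⟨w0, hw0⟩ := Set.nonempty_iff_ne_empty.2 hne
  set f : Environment d → Site d → ℝ≥0∞ := fun ω =>
    if ω ∈ S1 then (fun x => w ω x / tot w ω) else w0 with hfd
  have hfm : Measurable[A.F b] f := by
    refine Measurable.ite hS1m ?_ (@measurable_const _ _ _ (A.F b) _)
    refine @measurable_pi_lambda _ _ _ (A.F b) _ _ fun y => ?_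
    exact (hw.meas y).div hw.meas_tot
  have hfc : ∀ ω, f ω ∈ cls := by
    intro ω
    simp only [hfd]
    split_ifs with h
    · exact hmem ω h
    · exact hw0
  set Bad : Set ((Site d → ℝ≥0∞) × Environment d) :=
    {q | ∑' x, q.1 x * A.N b c q.2 x < p / 8} with hBadd
  have hBad : @MeasurableSet _ (MeasurableSpace.pi.prod (A.H b)) Bad := by
    have hl : ∀ y, @Measurable _ _ (MeasurableSpace.pi.prod (A.H b)) _
        fun q : (Site d → ℝ≥0∞) × Environment d => q.1 y := fun y =>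
      (measurable_pi_apply y).comp (@measurable_fst _ _ MeasurableSpace.pi (A.H b))
    have hg' : ∀ y, @Measurable _ _ (MeasurableSpace.pi.prod (A.H b)) _
        fun q : (Site d → ℝ≥0∞) × Environment d => A.N b c q.2 y := fun y =>
      (A.meas_N_H hbc y).comp (@measurable_snd _ _ MeasurableSpace.pi (A.H b))
    have hm : @Measurable _ _ (MeasurableSpace.pi.prod (A.H b)) _
        fun q : (Site d → ℝ≥0∞) × Environment d => ∑' x, q.1 x * A.N b c q.2 x :=
      Measurable.ennreal_tsum fun y => (hl y).mul (hg' y)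
    exact hm measurableSet_Iio
  have hst2 := TileInd748.rand_state (m1 := A.F b) (m2 := A.H b) Q (A.F.le b) (A.H_le b)
    (A.indep b) Bad hBad f hfm cls hfc ((1 - p / 8) ^ M) (fun ν hν => by
      have e1 : {ω | (ν, ω) ∈ Bad} = {ω | ∑' x, ν x * mkLaw κ ω x (ClA u R x c) < p / 8} := by
        ext ω
        simp only [hBadd, mem_setOf_eq]
        have : ∑' x, ν x * A.N b c ω x = ∑' x, ν x * mkLaw κ ω x (ClA u R x c) := by
          refine tsum_congr fun x => ?_
          by_cases hx : lev u x = b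
          · rw [hA, N_kS u R κ Q hstat hR c ω hx]
          · rw [hν.2.1 x hx, zero_mul, zero_mul]
        rw [this]
      rw [e1]
      exact pop u R κ Q hstat hR hp0 hp1 hbc
        (fun x hx => ann_ge u R κ Q hstat hp hbc hx) hM hν.1 hν.2.1 hν.2.2) B hB
  refine (measure_mono ?_).trans hst2
  rintro ω ⟨hωB, h1, h2, h3⟩
  refine ⟨hωB, ?_⟩
  have hS : ω ∈ S1 := ⟨h1, h2⟩
  have ht0 : tot w ω ≠ 0 := fun h => hp4 (le_antisymm (h ▸ h1) zero_le)
  have htt : tot w ω ≠ ∞ := ne_top_of_le_ne_top ENNReal.one_ne_top (hw1 ω)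
  change ∑' x, f ω x * A.N b c ω x < p / 8
  have e4 : ∑' x, f ω x * A.N b c ω x = tot (A.push b c w) ω / tot w ω := by
    simp only [hfd, if_pos hS]
    rw [tot_push, div_eq_mul_inv, ← ENNReal.tsum_mul_right]
    refine tsum_congr fun x => ?_
    rw [div_eq_mul_inv]
    ring
  rw [e4, ENNReal.div_lt_iff (Or.inl ht0) (Or.inl htt)]
  refine h3.trans_le ?_
  calc p ^ 2 / 32 = p / 8 * (p / 4) := by
        rw [div_eq_mul_inv, div_eq_mul_inv, div_eq_mul_inv,
          show (32 : ℝ≥0∞) = 8 * 4 by norm_num, ENNReal.mul_inv (by norm_num) (by norm_num)]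
        ring
    _ ≤ p / 8 * tot w ω := by gcongr

/-- the energy sum on `kS` from the contact probabilities of one pair of starts -/
lemma ce_kS {l0 h : ℕ} (I : Finset ℕ) (lv : ℕ → ℕ) (hlv : ∀ b ∈ I, l0 ≤ lv b) {Ce : ℝ≥0∞}
    (hCE : ∀ s : SP u, ∑ b ∈ I, PSm κ Q s.1.1 s.1.2
      (bc u R (lv b - l0) (lv b + h - l0) s) ≤ Ce) :
    ∀ x ∈ (kS u R κ Q hstat hR).L l0, ∀ x' ∈ (kS u R κ Q hstat hR).L l0,
      ∑ b ∈ I, ∑' z, ∑' z', (∫⁻ ω, (kS u R κ Q hstat hR).G l0 (lv b) ω x z *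
        (kS u R κ Q hstat hR).G l0 (lv b) ω x' z' ∂Q) *
          (kS u R κ Q hstat hR).K (lv b) (lv b + h) z z' ≤ Ce := by
  intro x hx x' hx'
  have hx0 : lev u x = l0 := hx
  have hx0' : lev u x' = l0 := hx'
  refine (Finset.sum_le_sum fun b hb => ?_).trans (hCE ⟨(x, x'), hx0.trans hx0'.symm⟩)
  obtain ⟨n, hn⟩ := Nat.exists_eq_add_of_le (hlv b hb)
  have e : ∀ z z' : Site d, (∫⁻ ω, (kS u R κ Q hstat hR).G l0 (lv b) ω x z
      * (kS u R κ Q hstat hR).G l0 (lv b) ω x' z' ∂Q)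
      = ∫⁻ ω, gk u R κ (l0 + n : ℕ) ω x z * gk u R κ (l0 + n : ℕ) ω x' z' ∂Q := by
    intro z z'
    refine lintegral_congr fun ω => ?_
    simp only [kS, kerSys, hx0, hx0', if_true, hn]
  simp_rw [e]
  have e2 : ∀ z z', (kS u R κ Q hstat hR).K (lv b) (lv b + h) z z'
      = Kc u R κ Q (l0 + n) (lv b + h) z z' := by
    intro z z'
    rw [← hn]
    rfl
  simp_rw [e2]
  refine (energy_le u R κ Q hR (by omega : l0 + n ≤ lv b + h) hx0 hx0').trans ?_
  rw [show lv b - l0 = n by omega]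

end bind

end Crest.Agent.R154.PopK663
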