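import Crest.Agent.R154.KSHalf_480

/-! Row 154, B8, TILE_RUN (helper663): **(POP) the population lemma without geometry.**
A law `w` on one level whose pair energy (`en`, helper872: both natural, contact, same environment)
is at most `c_g / M` climbs naturally with mass `≥ g / 8` off probability `(1 - g/8) ^ M`.
This is `KS480.ksm_explicit` (helper480, helper402) with one index. -/

set_option autoImplicit false
set_option linter.unusedSectionVars false

namespace Crest.Agent.R154.Pop663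

open MeasureTheory ProbabilityTheory Set Filter Crest.ProbabilityR.RandomEnvironment
open Crest.Agent.R154.Mk561 Crest.Agent.R154.Q561
open Crest.Agent.R154.Flux132 (lev)
open Crest.Agent.R154.RatioR872 Crest.Agent.R154.Tile872 Crest.Agent.R154.KS480
open scoped ENNReal

variable {d : ℕ}

/-- energy threshold for `M` rounds -/
noncomputable def eM (g : ℝ≥0∞) (M : ℕ) : ℝ≥0∞ :=
  (g / 2) ^ 2 * ((g / 16) ^ 2 / (2 * M) / 2)

lemma succ_univ (u : Step d) (R : ℕ) (b : ℤ) (x : Site d) :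
    succ u R b (univ : Set (Site d)) x = ClA u R x b := by
  unfold succ succM ClA
  simp

/-- **(POP)** -/
theorem pop (u : Step d) (R : ℕ) (κ : ℝ) (Q : Measure (Environment d)) [IsProbabilityMeasure Q]
    (hstat : ∀ z : Site d, MeasurePreserving (shiftEnv z) Q Q)
    (hR : IsFiniteRangeDependent Q R) {g : ℝ≥0∞} (hg0 : g ≠ 0) (hg1 : g ≤ 1) {a b : ℕ}
    (hab : a ≤ b) (hg : ∀ x, lev u x = a → g ≤ mkAnn κ Q x (ClA u R x b)) {M : ℕ} (hM : 1 ≤ M)
    {w : Site d → ℝ≥0∞} (hw1 : ∑' x, w x = 1) (hwa : ∀ x, lev u x ≠ a → w x = 0)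
    (hen : en u R κ Q a b w ≤ eM g M) :
    Q {ω | ∑' x, w x * mkLaw κ ω x (ClA u R x b) < g / 8} ≤ (1 - g / 8) ^ M := by
  have hgt : g ≠ ∞ := ne_top_of_le_ne_top ENNReal.one_ne_top hg1
  have hM0 : (M : ℝ≥0∞) ≠ 0 := by
    have : M ≠ 0 := by omega
    exact_mod_cast this
  have hMt : (M : ℝ≥0∞) ≠ ∞ := ENNReal.natCast_ne_top M
  have h2M0 : (2 * (M : ℝ≥0∞)) ≠ 0 := mul_ne_zero (by norm_num) hM0
  have h2Mt : (2 * (M : ℝ≥0∞)) ≠ ∞ := ENNReal.mul_ne_top (by norm_num) hMt
  have hg16 : g / 16 ≠ 0 := (ENNReal.div_pos hg0 (by norm_num)).ne'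
  have hg16t : g / 16 ≠ ∞ := ENNReal.div_ne_top hgt (by norm_num)
  set kt : ℝ≥0∞ := (g / 16) ^ 2 / (2 * M) with hkt
  have hkt0 : kt ≠ 0 := (ENNReal.div_pos (pow_ne_zero 2 hg16) h2Mt).ne'
  have hktt : kt ≠ ∞ := ENNReal.div_ne_top (ENNReal.pow_ne_top hg16t) h2M0
  have hkt2 : 2 * (M * kt) ≤ (g / 16) ^ 2 := by
    rw [← mul_assoc, hkt, ENNReal.mul_div_cancel h2M0 h2Mt]
  have key := ksm_explicit u R κ Q hstat hR hg0 hg1 (q := (1 - g / 8) ^ M) (M := M) le_rfl hkt0
    hktt hkt2 a b hab Unit (fun _ => {x | lev u x = a}) (fun _ => univ) (fun _ x hx => hx)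
    (fun _ x hx => by rw [succ_univ]; exact hg x hx) ?_ (fun _ => w) {()} ?_
  · rw [Finset.card_singleton, pow_one] at key
    refine (measure_mono ?_).trans key
    intro ω hω l _
    refine lt_of_le_of_lt ?_ hω
    unfold Fd gg
    refine ENNReal.tsum_le_tsum fun x => ?_
    gcongr
    rw [← succ_univ]
    exact iUnion_mono fun m M hM => hM.1
  · intro l x _ K hl
    have : K = ∅ := by
      rw [Finset.eq_empty_iff_forall_notMem]
      intro y hy
      exact hl (by rwa [Subsingleton.elim l y])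
    rw [this]
    simp
  · intro l _
    exact ⟨hw1, fun x hx => hwa x hx, hen⟩

end Crest.Agent.R154.Pop663
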