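import Crest.Agent.R154.MkWS_850

/-! Row 154, B0d: walk spaces with the Markov property; quenched strong Markov property of one and
two walkers; annealed fresh restart (same environment, range `R`). -/

set_option autoImplicit false
set_option linter.deprecated false

namespace Crest.Agent.R154

open MeasureTheory ProbabilityTheory Crest.ProbabilityR.RandomEnvironment
open scoped ENNReal

variable {d : ℕ}

/-! ### functions of the environment measurable up to null sets -/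

/-- `f` is a.e. equal to a function of the rows in `V`. -/
def AEM (Q : Measure (Environment d)) (V : Set (Site d)) (f : Environment d → ℝ≥0∞) : Prop :=
  ∃ g : Environment d → ℝ≥0∞, Measurable[coordSigmaAlgebra V] g ∧ f =ᵐ[Q] g

namespace AEM

variable {Q : Measure (Environment d)} {U V : Set (Site d)} {f g : Environment d → ℝ≥0∞}

lemma mono (h : AEM Q U f) (hUV : U ⊆ V) : AEM Q V f := by
  obtain ⟨k, hk, hf⟩ := h
  exact ⟨k, hk.mono (coordSigmaAlgebra_mono hUV) le_rfl, hf⟩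

lemma const (c : ℝ≥0∞) : AEM Q V (fun _ => c) := ⟨fun _ => c, measurable_const, Filter.EventuallyEq.rfl⟩

lemma mul (hf : AEM Q V f) (hg : AEM Q V g) : AEM Q V (fun ω => f ω * g ω) := by
  obtain ⟨k, hk, hf⟩ := hf
  obtain ⟨l, hl, hg⟩ := hg
  exact ⟨fun ω => k ω * l ω, hk.mul hl, hf.mul hg⟩

lemma add (hf : AEM Q V f) (hg : AEM Q V g) : AEM Q V (fun ω => f ω + g ω) := by
  obtain ⟨k, hk, hf⟩ := hf
  obtain ⟨l, hl, hg⟩ := hg
  exact ⟨fun ω => k ω + l ω, hk.add hl, hf.add hg⟩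

lemma sub (hf : AEM Q V f) (hg : AEM Q V g) : AEM Q V (fun ω => f ω - g ω) := by
  obtain ⟨k, hk, hf⟩ := hf
  obtain ⟨l, hl, hg⟩ := hg
  exact ⟨fun ω => k ω - l ω, hk.sub hl, hf.sub hg⟩

lemma congr (hf : AEM Q V f) (h : ∀ ω, g ω = f ω) : AEM Q V g := by
  have : g = f := funext h
  rw [this]; exact hf

lemma tsum {ι : Type*} [Countable ι] {F : ι → Environment d → ℝ≥0∞} (h : ∀ i, AEM Q V (F i)) :
    AEM Q V (fun ω => ∑' i, F i ω) := by
  choose k hk hf using h
  refine ⟨fun ω => ∑' i, k i ω, Measurable.ennreal_tsum hk, ?_⟩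
  filter_upwards [ae_all_iff.2 hf] with ω hω
  exact tsum_congr hω

lemma iInf {ι : Type*} [Countable ι] {F : ι → Environment d → ℝ≥0∞} (h : ∀ i, AEM Q V (F i)) :
    AEM Q V (fun ω => ⨅ i, F i ω) := by
  choose k hk hf using h
  refine ⟨fun ω => ⨅ i, k i ω, Measurable.iInf hk, ?_⟩
  filter_upwards [ae_all_iff.2 hf] with ω hω
  exact iInf_congr hω

lemma iSup {ι : Type*} [Countable ι] {F : ι → Environment d → ℝ≥0∞} (h : ∀ i, AEM Q V (F i)) :
    AEM Q V (fun ω => ⨆ i, F i ω) := by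
  choose k hk hf using h
  refine ⟨fun ω => ⨆ i, k i ω, Measurable.iSup hk, ?_⟩
  filter_upwards [ae_all_iff.2 hf] with ω hω
  exact iSup_congr hω

lemma const_mul (c : ℝ≥0∞) (hf : AEM Q V f) : AEM Q V (fun ω => c * f ω) := (const c).mul hf

/-- product formula for functions of separated rows. -/
lemma lintegral_mul {R : ℕ} (hQ : IndepAt R Q) (hUV : V ⊆ far R U)
    (hf : AEM Q U f) (hg : AEM Q V g) :
    ∫⁻ ω, f ω * g ω ∂Q = (∫⁻ ω, f ω ∂Q) * ∫⁻ ω, g ω ∂Q := by
  obtain ⟨k, hk, hf⟩ := hf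
  obtain ⟨l, hl, hg⟩ := hg
  have hfg : (fun ω => f ω * g ω) =ᵐ[Q] fun ω => k ω * l ω := hf.mul hg
  rw [lintegral_congr_ae hfg, lintegral_congr_ae hf, lintegral_congr_ae hg]
  exact lintegral_mul_eq_lintegral_mul_lintegral_of_independent_measurableSpace
    (coordSigmaAlgebra_le _) (coordSigmaAlgebra_le _)
    (hQ U V fun a ha b hb => hUV hb a ha) hk hl

end AEM

/-! ### spaces with finite histories and read sites -/

/-- a space with countable histories and read sites. -/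
structure HistSpace (d : ℕ) (E : Type) [mE : MeasurableSpace E] where
  /-- histories -/
  H : ℕ → Type
  countH : ∀ n, Countable (H n)
  /-- history -/
  hist : ∀ n, E → H n
  mono : ∀ {m n : ℕ} (X Y : E), m ≤ n → hist n X = hist n Y → hist m X = hist m Y
  gen : mE
    = MeasurableSpace.generateFrom {s | ∃ (X : E) (n : ℕ), s = {Y | hist n Y = hist n X}}
  /-- read sites -/
  read : E → ℕ → Set (Site d)
  read_det : ∀ (n : ℕ) (X Y : E), hist n X = hist n Y → read X n = read Y n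
  read_mono : ∀ (X : E) {m n : ℕ}, m ≤ n → read X m ⊆ read X n

namespace HistSpace

variable {E : Type} [MeasurableSpace E] (S : HistSpace d E)

instance (n : ℕ) : Countable (S.H n) := S.countH n

/-- cylinder -/
def cyl (X : E) (n : ℕ) : Set E := {Y | S.hist n Y = S.hist n X}

lemma measurableSet_cyl (X : E) (n : ℕ) : MeasurableSet (S.cyl X n) := by
  have h : MeasurableSet[MeasurableSpace.generateFrom
      {s | ∃ (X : E) (n : ℕ), s = {Y | S.hist n Y = S.hist n X}}] (S.cyl X n) :=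
    MeasurableSpace.measurableSet_generateFrom ⟨X, n, rfl⟩
  rwa [← S.gen] at h

/-- determined by the history at time `n`. -/
def Det (n : ℕ) (A : Set E) : Prop := ∀ X Y, S.hist n X = S.hist n Y → X ∈ A → Y ∈ A

lemma Det.mono' {n m : ℕ} (hnm : n ≤ m) {A : Set E} (h : S.Det n A) : S.Det m A :=
  fun X Y hXY => h X Y (S.mono X Y hnm hXY)

/-- decomposition of a determined set. -/
lemma det_eq_iUnion {n : ℕ} {A : Set E} (hA : S.Det n A) :
    A = ⋃ h : {h : S.H n // ∃ X ∈ A, S.hist n X = h}, {Y | S.hist n Y = h.1} := by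
  ext X
  simp only [Set.mem_iUnion, Subtype.exists, Set.mem_ofPred_eq]
  constructor
  · intro hX
    exact ⟨S.hist n X, ⟨X, hX, rfl⟩, rfl⟩
  · rintro ⟨h, ⟨Y, hY, rfl⟩, hX⟩
    exact hA Y X hX.symm hY

lemma Det.measurableSet {n : ℕ} {A : Set E} (hA : S.Det n A) : MeasurableSet A := by
  rw [S.det_eq_iUnion hA]
  refine MeasurableSet.iUnion fun h => ?_
  obtain ⟨h, X, hX, rfl⟩ := h
  exact S.measurableSet_cyl X n

lemma measure_det {n : ℕ} {A : Set E} (hA : S.Det n A) (μ : Measure E) :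
    μ A = ∑' h : {h : S.H n // ∃ X ∈ A, S.hist n X = h}, μ {Y | S.hist n Y = h.1} := by
  conv_lhs => rw [S.det_eq_iUnion hA]
  refine measure_iUnion ?_ ?_
  · intro h h' hne
    rw [Function.onFun, Set.disjoint_left]
    intro X hX hX'
    exact hne (Subtype.ext (hX.symm.trans hX'))
  · rintro ⟨h, X, hX, rfl⟩
    exact S.measurableSet_cyl X n

/-- sets determined at a finite time. -/
def alg : Set (Set E) := {A | ∃ n, S.Det n A}

lemma isPiSystem_alg : IsPiSystem S.alg := by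
  rintro A ⟨n, hA⟩ B ⟨m, hB⟩ _
  refine ⟨max n m, fun X Y h hX => ⟨?_, ?_⟩⟩
  · exact (Det.mono' S (le_max_left n m) hA) X Y h hX.1
  · exact (Det.mono' S (le_max_right n m) hB) X Y h hX.2

lemma gen_alg : (inferInstance : MeasurableSpace E) = MeasurableSpace.generateFrom S.alg := by
  apply le_antisymm
  · conv_lhs => rw [S.gen]
    refine MeasurableSpace.generateFrom_mono ?_
    rintro _ ⟨X, n, rfl⟩
    exact ⟨n, fun Y Z h hY => h.symm.trans hY⟩
  · refine MeasurableSpace.generateFrom_le ?_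
    rintro A ⟨n, hA⟩
    exact Det.measurableSet S hA

/-- the kernel `K` reads only the read sites. -/
def Reads (Q : Measure (Environment d)) (K : Kernel (Environment d) E) : Prop :=
  ∀ (γ : E) (n : ℕ), AEM Q (S.read γ n) (fun ω => K ω (S.cyl γ n))

/-- all the sites read are in `V`. -/
def Rd (V : Set (Site d)) : Set E := {X | ∀ n, S.read X n ⊆ V}

/-- all the sites read before `n` are in `V`. -/
def RdB (V : Set (Site d)) (n : ℕ) : Set E := {X | S.read X n ⊆ V}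

lemma det_RdB (V : Set (Site d)) (n : ℕ) : S.Det n (S.RdB V n) := by
  intro X Y h hX
  change S.read Y n ⊆ V
  rw [← S.read_det n X Y h]
  exact hX

lemma Rd_eq (V : Set (Site d)) : S.Rd V = ⋂ n, S.RdB V n := by
  ext X; simp [Rd, RdB]

lemma RdB_anti (V : Set (Site d)) : Antitone (S.RdB V) :=
  fun _ _ h X hX => (S.read_mono X h).trans hX

lemma measurableSet_Rd (V : Set (Site d)) : MeasurableSet (S.Rd V) := by
  rw [Rd_eq]
  exact MeasurableSet.iInter fun n => Det.measurableSet S (S.det_RdB V n)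

section reading

variable {Q : Measure (Environment d)} {K : Kernel (Environment d) E}

lemma aem_det (hK : S.Reads Q K) (V : Set (Site d)) {n : ℕ} {A : Set E} (hA : S.Det n A)
    (hAV : A ⊆ S.RdB V n) : AEM Q V (fun ω => K ω A) := by
  refine (AEM.tsum (F := fun (h : {h : S.H n // ∃ X ∈ A, S.hist n X = h}) ω =>
    K ω {Y | S.hist n Y = h.1}) fun h => ?_).congr fun ω => S.measure_det hA (K ω)
  obtain ⟨h, X, hX, rfl⟩ := h
  exact (hK X n).mono (hAV hX)

lemma aem_alg [IsFiniteKernel K] (hK : S.Reads Q K) (V : Set (Site d)) {A : Set E}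
    (hA : A ∈ S.alg) : AEM Q V (fun ω => K ω (A ∩ S.Rd V)) := by
  obtain ⟨m, hA⟩ := hA
  have h1 : ∀ ω, K ω (A ∩ S.Rd V) = ⨅ n, K ω (A ∩ S.RdB V (m + n)) := by
    intro ω
    have e : A ∩ S.Rd V = ⋂ n, A ∩ S.RdB V (m + n) := by
      rw [← Set.inter_iInter]
      congr 1
      rw [Rd_eq]
      ext X
      simp only [Set.mem_iInter]
      constructor
      · intro h n; exact h _
      · intro h n; exact S.RdB_anti V (Nat.le_add_left n m) (h n)
    rw [e]
    refine Antitone.measure_iInter ?_ ?_ ⟨0, measure_ne_top _ _⟩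
    · intro a b hab
      exact Set.inter_subset_inter_right A (S.RdB_anti V (by omega))
    · intro n
      exact ((Det.measurableSet S hA).inter
        (Det.measurableSet S (S.det_RdB V _))).nullMeasurableSet
  refine (AEM.iInf fun n => ?_).congr h1
  refine S.aem_det hK V (n := m + n) (fun X Y h hX => ⟨?_, ?_⟩) Set.inter_subset_right
  · exact (Det.mono' S (Nat.le_add_right m n) hA) X Y h hX.1
  · exact S.det_RdB V (m + n) X Y h hX.2

/-- **reading lemma for events**. -/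
lemma aem_set [IsFiniteKernel K] (hK : S.Reads Q K) (V : Set (Site d)) {A : Set E}
    (hA : MeasurableSet A) : AEM Q V (fun ω => K ω (A ∩ S.Rd V)) := by
  have huniv : AEM Q V (fun ω => K ω (S.Rd V)) := by
    have := S.aem_alg hK V (A := Set.univ) ⟨0, fun _ _ _ _ => trivial⟩
    simpa using this
  induction A, hA using MeasurableSpace.induction_on_inter S.gen_alg S.isPiSystem_alg with
  | empty => simpa using AEM.const (Q := Q) (V := V) 0
  | basic A hA => exact S.aem_alg hK V hA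
  | compl A hA ih =>
    refine (huniv.sub ih).congr fun ω => ?_
    have e : Aᶜ ∩ S.Rd V = S.Rd V \ (A ∩ S.Rd V) := by
      ext X; simp only [Set.mem_inter_iff, Set.mem_compl_iff, Set.mem_sdiff]; tauto
    rw [e, measure_sdiff Set.inter_subset_right
      (hA.inter (S.measurableSet_Rd V)).nullMeasurableSet (measure_ne_top _ _)]
  | iUnion f hd hf ih =>
    refine (AEM.tsum ih).congr fun ω => ?_
    rw [Set.iUnion_inter, measure_iUnion]
    · intro i j hij
      exact (hd hij).mono Set.inter_subset_left Set.inter_subset_left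
    · intro i
      exact (hf i).inter (S.measurableSet_Rd V)

/-- **reading lemma for functionals**. -/
lemma aem_fun [IsFiniteKernel K] (hK : S.Reads Q K) (V : Set (Site d)) {g : E → ℝ≥0∞}
    (hg : Measurable g) (hgV : ∀ X, g X ≠ 0 → X ∈ S.Rd V) :
    AEM Q V (fun ω => ∫⁻ X, g X ∂(K ω)) := by
  have h1 : AEM Q V (fun ω => ∫⁻ X in S.Rd V, g X ∂(K ω)) := by
    refine Measurable.ennreal_induction
      (motive := fun g : E → ℝ≥0∞ => AEM Q V (fun ω => ∫⁻ X in S.Rd V, g X ∂(K ω)))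
      ?_ ?_ ?_ hg
    · intro c s hs
      refine ((S.aem_set hK V hs).const_mul c).congr fun ω => ?_
      rw [lintegral_indicator hs, setLIntegral_const, Measure.restrict_apply hs]
    · intro f g _ hf hg ihf ihg
      refine (ihf.add ihg).congr fun ω => ?_
      exact lintegral_add_left hf _
    · intro f hf hmono ih
      refine (AEM.iSup ih).congr fun ω => ?_
      exact lintegral_iSup hf hmono
  refine h1.congr fun ω => ?_
  rw [← lintegral_indicator (S.measurableSet_Rd V)]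
  refine lintegral_congr fun X => ?_
  by_cases hX : X ∈ S.Rd V
  · rw [Set.indicator_of_mem hX]
  · rw [Set.indicator_of_notMem hX]
    by_contra hne
    exact hX (hgV X hne)

end reading

end HistSpace

namespace WalkSpace

variable {Ω : Type} [MeasurableSpace Ω] (W : WalkSpace d Ω)

/-- one walker as a history space. -/
def hs : HistSpace d Ω where
  H := W.H
  countH := W.countH
  hist := W.hist
  mono := W.mono
  gen := W.gen
  read := W.read
  read_det := W.read_det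
  read_mono := W.read_mono

lemma hs_reads {Q : Measure (Environment d)} {P : Kernel (Environment d) Ω}
    (h : W.ReadsOnly Q P) : W.hs.Reads Q P := by
  intro γ n
  obtain ⟨f, hf, hfe⟩ := h γ n
  exact ⟨f, hf, hfe⟩

/-- a pair of walkers as a history space. -/
def hs2 [Nonempty Ω] : HistSpace d (Ω × Ω) where
  H n := W.H n × W.H n
  countH n := inferInstance
  hist n p := (W.hist n p.1, W.hist n p.2)
  mono := by
    intro m n X Y hmn h
    obtain ⟨h1, h2⟩ := Prod.ext_iff.1 h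
    exact Prod.ext (W.mono _ _ hmn h1) (W.mono _ _ hmn h2)
  gen := by
    set C : Set (Set (Ω × Ω)) := {s | ∃ (X : Ω × Ω) (n : ℕ),
      s = {Y | (W.hist n Y.1, W.hist n Y.2) = (W.hist n X.1, W.hist n X.2)}} with hC
    apply le_antisymm
    · refine (le_of_eq W.gen_prod).trans ?_
      refine MeasurableSpace.generateFrom_le ?_
      rintro _ ⟨_, ⟨γ, n, rfl⟩, _, ⟨δ, m, rfl⟩, rfl⟩
      have : ({Y | W.hist n Y = W.hist n γ} ×ˢ {Y | W.hist m Y = W.hist m δ} : Set (Ω × Ω))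
          = ⋃ h : {h : W.H (max n m) × W.H (max n m) //
              W.hist n (W.ext _ h.1) = W.hist n γ ∧ W.hist m (W.ext _ h.2) = W.hist m δ},
              {Y : Ω × Ω | (W.hist (max n m) Y.1, W.hist (max n m) Y.2) = h.1} := by
        ext Y
        simp only [Set.mem_prod, Set.mem_ofPred_eq, Set.mem_iUnion, Subtype.exists]
        constructor
        · rintro ⟨h1, h2⟩
          refine ⟨(W.hist _ Y.1, W.hist _ Y.2), ⟨?_, ?_⟩, rfl⟩
          · rw [← h1]
            exact W.mono _ _ (le_max_left n m) (W.hist_ext _ _)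
          · rw [← h2]
            exact W.mono _ _ (le_max_right n m) (W.hist_ext _ _)
        · rintro ⟨h, ⟨h1, h2⟩, hY⟩
          subst hY
          refine ⟨?_, ?_⟩
          · rw [← h1]
            exact (W.mono _ _ (le_max_left n m) (W.hist_ext _ _)).symm
          · rw [← h2]
            exact (W.mono _ _ (le_max_right n m) (W.hist_ext _ _)).symm
      beta_reduce
      rw [this]
      refine MeasurableSet.iUnion fun h => MeasurableSpace.measurableSet_generateFrom ?_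
      refine ⟨(W.ext _ h.1.1, W.ext _ h.1.2), max n m, ?_⟩
      simp only [W.hist_ext]
    · refine MeasurableSpace.generateFrom_le ?_
      rintro _ ⟨X, n, rfl⟩
      have : {Y : Ω × Ω | (W.hist n Y.1, W.hist n Y.2) = (W.hist n X.1, W.hist n X.2)}
          = W.cyl X.1 n ×ˢ W.cyl X.2 n := by
        ext Y
        simp only [Set.mem_ofPred_eq, Prod.mk.injEq, Set.mem_prod, cyl]
      rw [this]
      exact (W.measurableSet_cyl _ _).prod (W.measurableSet_cyl _ _)
  read p n := W.read p.1 n ∪ W.read p.2 n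
  read_det := by
    intro n X Y h
    obtain ⟨h1, h2⟩ := Prod.ext_iff.1 h
    rw [W.read_det n _ _ h1, W.read_det n _ _ h2]
  read_mono := fun X _ _ h => Set.union_subset_union (W.read_mono _ h) (W.read_mono _ h)

lemma hs2_reads [Nonempty Ω] {Q : Measure (Environment d)} {P₁ P₂ : Kernel (Environment d) Ω}
    [IsSFiniteKernel P₁] [IsSFiniteKernel P₂]
    (h₁ : W.ReadsOnly Q P₁) (h₂ : W.ReadsOnly Q P₂) : W.hs2.Reads Q (P₁ ×ₖ P₂) := by
  intro γ n
  have h1 : AEM Q (W.read γ.1 n) (fun ω => P₁ ω (W.cyl γ.1 n)) := W.hs_reads h₁ γ.1 n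
  have h2 : AEM Q (W.read γ.2 n) (fun ω => P₂ ω (W.cyl γ.2 n)) := W.hs_reads h₂ γ.2 n
  refine ((h1.mono Set.subset_union_left).mul (h2.mono Set.subset_union_right)).congr fun ω => ?_
  have : W.hs2.cyl γ n = W.cyl γ.1 n ×ˢ W.cyl γ.2 n := by
    ext Y
    change (W.hist n Y.1, W.hist n Y.2) = (W.hist n γ.1, W.hist n γ.2) ↔ _
    simp only [Prod.mk.injEq, Set.mem_prod, cyl, Set.mem_ofPred_eq]
  rw [this, Kernel.prod_apply, Measure.prod_prod]

/-! ### pieces of a stopping time -/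

/-- the walks stopped with a given history. -/
def piece (T : Ω → ℕ∞) (p : Σ n, W.H n) : Set Ω := {X | T X = p.1 ∧ W.hist p.1 X = p.2}

lemma iUnion_piece (T : Ω → ℕ∞) : ⋃ p, W.piece T p = {X | T X < ⊤} := by
  ext X
  simp only [Set.mem_iUnion, piece, Set.mem_ofPred_eq]
  constructor
  · rintro ⟨p, hp, _⟩
    rw [hp]; exact ENat.natCast_lt_top _
  · intro h
    obtain ⟨n, hn⟩ := ENat.ne_top_iff_exists.1 h.ne
    exact ⟨⟨n, W.hist n X⟩, hn.symm, rfl⟩

lemma pairwise_piece (T : Ω → ℕ∞) : Pairwise (Function.onFun Disjoint (W.piece T)) := by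
  rintro ⟨n, h⟩ ⟨m, h'⟩ hne
  rw [Function.onFun, Set.disjoint_left]
  rintro X ⟨h1, h2⟩ ⟨h3, h4⟩
  simp only at h1 h2 h3 h4
  rw [h1] at h3
  have h5 : n = m := by exact_mod_cast h3
  subst h5
  exact hne (by rw [← h2, ← h4])

lemma det_piece {T : Ω → ℕ∞} (hT : W.IsStop T) (p : Σ n, W.H n) :
    W.hs.Det p.1 (W.piece T p) := by
  rintro X Y h ⟨h1, h2⟩
  exact ⟨hT X Y p.1 h h1, Eq.trans (Eq.symm h) h2⟩

lemma measurableSet_piece {T : Ω → ℕ∞} (hT : W.IsStop T) (p : Σ n, W.H n) :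
    MeasurableSet (W.piece T p) := HistSpace.Det.measurableSet W.hs (W.det_piece hT p)

lemma piece_eq {T : Ω → ℕ∞} (hT : W.IsStop T) (p : Σ n, W.H n) :
    W.piece T p = ∅ ∨ W.piece T p = W.cyl (W.ext p.1 p.2) p.1 := by
  rcases (W.piece T p).eq_empty_or_nonempty with h | ⟨X, hX⟩
  · exact Or.inl h
  · refine Or.inr (Set.ext fun Y => ⟨fun hY => ?_, fun hY => ?_⟩)
    · exact hY.2.trans (W.hist_ext _ _).symm
    · have h1 : W.hist p.1 Y = W.hist p.1 X :=
        Eq.trans (Eq.trans hY (W.hist_ext _ _)) hX.2.symm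
      exact W.det_piece hT p X Y h1.symm hX

lemma lintegral_pieces {T : Ω → ℕ∞} (hT : W.IsStop T) (μ : Measure Ω) (F : Ω → ℝ≥0∞) :
    ∫⁻ X in {X | T X < ⊤}, F X ∂μ = ∑' p, ∫⁻ X in W.piece T p, F X ∂μ := by
  rw [← W.iUnion_piece T]
  exact lintegral_iUnion (fun p => W.measurableSet_piece hT p) (W.pairwise_piece T) _

lemma lintegral_pieces2 {T T' : Ω → ℕ∞} (hT : W.IsStop T) (hT' : W.IsStop T')
    (μ : Measure (Ω × Ω)) (F : Ω × Ω → ℝ≥0∞) :
    ∫⁻ z in {z | T z.1 < ⊤ ∧ T' z.2 < ⊤}, F z ∂μ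
      = ∑' p : (Σ n, W.H n) × (Σ n, W.H n), ∫⁻ z in W.piece T p.1 ×ˢ W.piece T' p.2, F z ∂μ := by
  have e : {z : Ω × Ω | T z.1 < ⊤ ∧ T' z.2 < ⊤}
      = ⋃ p : (Σ n, W.H n) × (Σ n, W.H n), W.piece T p.1 ×ˢ W.piece T' p.2 := by
    have h1 : {z : Ω × Ω | T z.1 < ⊤ ∧ T' z.2 < ⊤} = {X | T X < ⊤} ×ˢ {X | T' X < ⊤} := by
      ext z; simp
    rw [h1, ← W.iUnion_piece T, ← W.iUnion_piece T', Set.iUnion_prod]
  rw [e]
  refine lintegral_iUnion (fun p : (Σ n, W.H n) × (Σ n, W.H n) =>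
    (W.measurableSet_piece hT p.1).prod (W.measurableSet_piece hT' p.2)) ?_ _
  intro p q hpq
  rw [Function.onFun, Set.disjoint_left]
  rintro z ⟨h1, h2⟩ ⟨h3, h4⟩
  apply hpq
  refine Prod.ext ?_ ?_
  · by_contra hne
    exact Set.disjoint_left.1 (W.pairwise_piece T hne) h1 h3
  · by_contra hne
    exact Set.disjoint_left.1 (W.pairwise_piece T' hne) h2 h4

end WalkSpace

/-! ### Markov walk spaces -/

/-- shift and quenched laws with the Markov property. -/
structure MarkovWS {Ω : Type} [MeasurableSpace Ω] (W : WalkSpace d Ω) where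
  /-- shift -/
  sh : ℕ → Ω → Ω
  meas_sh : ∀ n, Measurable (sh n)
  /-- quenched laws -/
  P : Site d → Kernel (Environment d) Ω
  prob : ∀ x, IsMarkovKernel (P x)
  markov : ∀ (ω : Environment d) (x : Site d) (γ : Ω) (n : ℕ) (B : Set Ω), MeasurableSet B →
    P x ω (W.cyl γ n ∩ sh n ⁻¹' B) = P x ω (W.cyl γ n) * P (W.pos γ n) ω B
  pos_sh : ∀ n X k, W.pos (sh n X) k = W.pos X (n + k)
  reads : ∀ (Q : Measure (Environment d)) x, W.ReadsOnly Q (P x)

namespace MarkovWS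

open WalkSpace

variable {Ω : Type} [MeasurableSpace Ω] {W : WalkSpace d Ω} (M : MarkovWS W)

instance (x : Site d) : IsMarkovKernel (M.P x) := M.prob x

lemma piece_markov {T : Ω → ℕ∞} (hT : W.IsStop T) (p : Σ n, W.H n) (ω : Environment d)
    (x : Site d) {g : Ω → ℝ≥0∞} (hg : Measurable g) :
    ∫⁻ X in W.piece T p, g (M.sh p.1 X) ∂(M.P x ω)
      = M.P x ω (W.piece T p) * ∫⁻ Y, g Y ∂(M.P (W.pos (W.ext p.1 p.2) p.1) ω) := by
  have h : ((M.P x ω).restrict (W.piece T p)).map (M.sh p.1)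
      = M.P x ω (W.piece T p) • M.P (W.pos (W.ext p.1 p.2) p.1) ω := by
    refine Measure.ext fun B hB => ?_
    rw [Measure.map_apply (M.meas_sh _) hB, Measure.restrict_apply (M.meas_sh _ hB),
      Measure.smul_apply, smul_eq_mul]
    rcases W.piece_eq hT p with h | h
    · rw [h]; simp
    · rw [h, Set.inter_comm]
      exact M.markov ω x _ _ B hB
  rw [← lintegral_map hg (M.meas_sh _), h, lintegral_smul_measure, smul_eq_mul]

lemma piece_markov2 {T T' : Ω → ℕ∞} (hT : W.IsStop T) (hT' : W.IsStop T')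
    (p q : Σ n, W.H n) (ω : Environment d) (x x' : Site d) {g : Ω × Ω → ℝ≥0∞}
    (hg : Measurable g) :
    ∫⁻ z in W.piece T p ×ˢ W.piece T' q, g (M.sh p.1 z.1, M.sh q.1 z.2)
        ∂((M.P x ω).prod (M.P x' ω))
      = M.P x ω (W.piece T p) * M.P x' ω (W.piece T' q) *
        ∫⁻ z, g z ∂((M.P (W.pos (W.ext p.1 p.2) p.1) ω).prod
          (M.P (W.pos (W.ext q.1 q.2) q.1) ω)) := by
  have hm : Measurable fun z : Ω × Ω => g (M.sh p.1 z.1, M.sh q.1 z.2) :=
    hg.comp (((M.meas_sh _).comp measurable_fst).prodMk ((M.meas_sh _).comp measurable_snd))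
  rw [← Measure.prod_restrict, lintegral_prod _ hm.aemeasurable]
  have h1 : ∀ X : Ω, ∫⁻ Y in W.piece T' q, g (M.sh p.1 X, M.sh q.1 Y) ∂(M.P x' ω)
      = M.P x' ω (W.piece T' q) *
        ∫⁻ Y, g (M.sh p.1 X, Y) ∂(M.P (W.pos (W.ext q.1 q.2) q.1) ω) := by
    intro X
    exact M.piece_markov hT' q ω x' (g := fun Y => g (M.sh p.1 X, Y))
      (hg.comp measurable_prodMk_left)
  simp_rw [h1]
  have hm2 : Measurable fun X : Ω =>
      ∫⁻ Y, g (X, Y) ∂(M.P (W.pos (W.ext q.1 q.2) q.1) ω) := hg.lintegral_prod_right'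
  rw [lintegral_const_mul' _ _ (measure_ne_top _ _),
    M.piece_markov hT p ω x (g := fun X => ∫⁻ Y, g (X, Y) ∂(M.P (W.pos (W.ext q.1 q.2) q.1) ω))
      hm2, lintegral_prod _ hg.aemeasurable]
  ring

/-- **Quenched strong Markov property, one walker.** -/
theorem strong {T : Ω → ℕ∞} (hT : W.IsStop T) {G : Ω → Ω → ℝ≥0∞} (hG1 : W.DetBy T G)
    (hG2 : ∀ X, Measurable (G X)) (ω : Environment d) (x : Site d) :
    ∫⁻ X in {X | T X < ⊤}, G X (M.sh (T X).toNat X) ∂(M.P x ω)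
      = ∫⁻ X in {X | T X < ⊤}, ∫⁻ Y, G X Y ∂(M.P (W.pos X (T X).toNat) ω) ∂(M.P x ω) := by
  rw [W.lintegral_pieces hT, W.lintegral_pieces hT]
  refine tsum_congr fun p => ?_
  have hl : ∫⁻ X in W.piece T p, G X (M.sh (T X).toNat X) ∂(M.P x ω)
      = ∫⁻ X in W.piece T p, G (W.ext p.1 p.2) (M.sh p.1 X) ∂(M.P x ω) := by
    refine setLIntegral_congr_fun (W.measurableSet_piece hT p) fun X hX => ?_
    obtain ⟨h1, h2⟩ := hX
    rw [hG1 X (W.ext p.1 p.2) p.1 (by rw [W.hist_ext, h2]) h1, h1, ENat.toNat_natCast]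
  have hr : ∫⁻ X in W.piece T p, ∫⁻ Y, G X Y ∂(M.P (W.pos X (T X).toNat) ω) ∂(M.P x ω)
      = ∫⁻ _ in W.piece T p, ∫⁻ Y, G (W.ext p.1 p.2) Y
          ∂(M.P (W.pos (W.ext p.1 p.2) p.1) ω) ∂(M.P x ω) := by
    refine setLIntegral_congr_fun (W.measurableSet_piece hT p) fun X hX => ?_
    obtain ⟨h1, h2⟩ := hX
    have h3 : W.hist p.1 X = W.hist p.1 (W.ext p.1 p.2) := by rw [W.hist_ext, h2]
    rw [hG1 X (W.ext p.1 p.2) p.1 h3 h1, h1, ENat.toNat_natCast, W.pos_det p.1 _ _ h3]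
  rw [hl, hr, M.piece_markov hT p ω x (hG2 _), setLIntegral_const, mul_comm]

/-- determined by the two walks up to `(T, T')`. -/
def Det2 {α : Type*} (W : WalkSpace d Ω) (T T' : Ω → ℕ∞) (G : Ω × Ω → α) : Prop :=
  ∀ (p q : Ω × Ω) (n m : ℕ), W.hist n p.1 = W.hist n q.1 → W.hist m p.2 = W.hist m q.2 →
    T p.1 = n → T' p.2 = m → G p = G q

/-- **Quenched strong Markov property, two walkers.** -/
theorem strong2 {T T' : Ω → ℕ∞} (hT : W.IsStop T) (hT' : W.IsStop T')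
    {G : Ω × Ω → Ω × Ω → ℝ≥0∞} (hG1 : Det2 W T T' G) (hG2 : ∀ p, Measurable (G p))
    (ω : Environment d) (x x' : Site d) :
    ∫⁻ z in {z | T z.1 < ⊤ ∧ T' z.2 < ⊤},
        G z (M.sh (T z.1).toNat z.1, M.sh (T' z.2).toNat z.2) ∂((M.P x ω).prod (M.P x' ω))
      = ∫⁻ z in {z | T z.1 < ⊤ ∧ T' z.2 < ⊤}, ∫⁻ y, G z y
          ∂((M.P (W.pos z.1 (T z.1).toNat) ω).prod (M.P (W.pos z.2 (T' z.2).toNat) ω))
          ∂((M.P x ω).prod (M.P x' ω)) := by
  rw [W.lintegral_pieces2 hT hT', W.lintegral_pieces2 hT hT']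
  refine tsum_congr fun p => ?_
  obtain ⟨p, q⟩ := p
  have hms := (W.measurableSet_piece hT p).prod (W.measurableSet_piece hT' q)
  have hl : ∫⁻ z in W.piece T p ×ˢ W.piece T' q,
        G z (M.sh (T z.1).toNat z.1, M.sh (T' z.2).toNat z.2) ∂((M.P x ω).prod (M.P x' ω))
      = ∫⁻ z in W.piece T p ×ˢ W.piece T' q,
        G (W.ext p.1 p.2, W.ext q.1 q.2) (M.sh p.1 z.1, M.sh q.1 z.2)
          ∂((M.P x ω).prod (M.P x' ω)) := by
    refine setLIntegral_congr_fun hms fun z hz => ?_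
    obtain ⟨⟨h1, h2⟩, h3, h4⟩ := hz
    have h5 : G z = G (W.ext p.1 p.2, W.ext q.1 q.2) :=
      hG1 z _ p.1 q.1 (by rw [W.hist_ext, h2]) (by rw [W.hist_ext, h4]) h1 h3
    simp only [h5, h1, h3, ENat.toNat_natCast]
  have hr : ∫⁻ z in W.piece T p ×ˢ W.piece T' q, ∫⁻ y, G z y
          ∂((M.P (W.pos z.1 (T z.1).toNat) ω).prod (M.P (W.pos z.2 (T' z.2).toNat) ω))
          ∂((M.P x ω).prod (M.P x' ω))
      = ∫⁻ _ in W.piece T p ×ˢ W.piece T' q, ∫⁻ y, G (W.ext p.1 p.2, W.ext q.1 q.2) y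
          ∂((M.P (W.pos (W.ext p.1 p.2) p.1) ω).prod (M.P (W.pos (W.ext q.1 q.2) q.1) ω))
          ∂((M.P x ω).prod (M.P x' ω)) := by
    refine setLIntegral_congr_fun hms fun z hz => ?_
    obtain ⟨⟨h1, h2⟩, h3, h4⟩ := hz
    have h6 : W.hist p.1 z.1 = W.hist p.1 (W.ext p.1 p.2) := by rw [W.hist_ext, h2]
    have h7 : W.hist q.1 z.2 = W.hist q.1 (W.ext q.1 q.2) := by rw [W.hist_ext, h4]
    have h5 : G z = G (W.ext p.1 p.2, W.ext q.1 q.2) := hG1 z _ p.1 q.1 h6 h7 h1 h3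
    simp only [h5, h1, h3, ENat.toNat_natCast, W.pos_det p.1 _ _ h6, W.pos_det q.1 _ _ h7]
  rw [hl, hr, M.piece_markov2 hT hT' p q ω x x' (hG2 _), setLIntegral_const,
    Measure.prod_prod, mul_comm]

section annealed

variable {Q : Measure (Environment d)} {R : ℕ}

lemma aem_piece {T : Ω → ℕ∞} (hT : W.IsStop T) (x : Site d) (p : Σ n, W.H n) :
    AEM Q (W.read (W.ext p.1 p.2) p.1) (fun ω => M.P x ω (W.piece T p)) := by
  refine W.hs.aem_det (W.hs_reads (M.reads Q x)) _ (W.det_piece hT p) ?_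
  rintro X ⟨_, h2⟩
  change W.read X p.1 ⊆ _
  rw [W.read_det p.1 X (W.ext p.1 p.2) (by rw [W.hist_ext, h2])]

lemma setLIntegral_bind {E : Type*} [MeasurableSpace E] (K : Kernel (Environment d) E)
    {A : Set E} (hA : MeasurableSet A) {g : E → ℝ≥0∞} (hg : Measurable g) :
    ∫⁻ z in A, g z ∂(Q.bind K) = ∫⁻ ω, ∫⁻ z in A, g z ∂(K ω) ∂Q := by
  rw [← lintegral_indicator hA, Measure.lintegral_bind (Kernel.measurable _).aemeasurable
    (hg.indicator hA).aemeasurable]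
  refine lintegral_congr fun ω => ?_
  rw [lintegral_indicator hA]

/-- **Annealed fresh restart, one walker.** -/
theorem fresh1 (hQ : IndepAt R Q) {T : Ω → ℕ∞} (hT : W.IsStop T) {G : Ω → Ω → ℝ≥0∞}
    (hG1 : W.DetBy T G) (hG2 : ∀ X, Measurable (G X))
    (hG3 : ∀ X Y, T X < ⊤ → G X Y ≠ 0 → ∀ n, W.read Y n ⊆ far R (W.readE X (T X)))
    (x : Site d) :
    ∫⁻ X in {X | T X < ⊤}, G X (M.sh (T X).toNat X) ∂(Q.bind (M.P x))
      = ∫⁻ X in {X | T X < ⊤}, ∫⁻ Y, G X Y ∂(Q.bind (M.P (W.pos X (T X).toNat)))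
          ∂(Q.bind (M.P x)) := by
  rw [W.lintegral_pieces hT, W.lintegral_pieces hT]
  refine tsum_congr fun p => ?_
  rcases (W.piece T p).eq_empty_or_nonempty with he | ⟨X₀, hX₀⟩
  · rw [he]; simp
  have hms := W.measurableSet_piece hT p
  have hl : ∫⁻ X in W.piece T p, G X (M.sh (T X).toNat X) ∂(Q.bind (M.P x))
      = ∫⁻ X in W.piece T p, G (W.ext p.1 p.2) (M.sh p.1 X) ∂(Q.bind (M.P x)) := by
    refine setLIntegral_congr_fun hms fun X hX => ?_
    obtain ⟨h1, h2⟩ := hX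
    rw [hG1 X (W.ext p.1 p.2) p.1 (by rw [W.hist_ext, h2]) h1, h1, ENat.toNat_natCast]
  have hr : ∫⁻ X in W.piece T p, ∫⁻ Y, G X Y ∂(Q.bind (M.P (W.pos X (T X).toNat)))
        ∂(Q.bind (M.P x))
      = ∫⁻ _ in W.piece T p, ∫⁻ Y, G (W.ext p.1 p.2) Y
          ∂(Q.bind (M.P (W.pos (W.ext p.1 p.2) p.1))) ∂(Q.bind (M.P x)) := by
    refine setLIntegral_congr_fun hms fun X hX => ?_
    obtain ⟨h1, h2⟩ := hX
    have h3 : W.hist p.1 X = W.hist p.1 (W.ext p.1 p.2) := by rw [W.hist_ext, h2]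
    rw [hG1 X (W.ext p.1 p.2) p.1 h3 h1, h1, ENat.toNat_natCast, W.pos_det p.1 _ _ h3]
  rw [hl, hr, setLIntegral_const,
    setLIntegral_bind _ hms (g := fun X => G (W.ext p.1 p.2) (M.sh p.1 X))
      ((hG2 (W.ext p.1 p.2)).comp (M.meas_sh p.1)),
    Measure.bind_apply hms (Kernel.measurable _).aemeasurable,
    Measure.lintegral_bind (Kernel.measurable _).aemeasurable (hG2 _).aemeasurable, mul_comm]
  have h1 : ∀ ω, ∫⁻ X in W.piece T p, G (W.ext p.1 p.2) (M.sh p.1 X) ∂(M.P x ω)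
      = M.P x ω (W.piece T p) *
        ∫⁻ Y, G (W.ext p.1 p.2) Y ∂(M.P (W.pos (W.ext p.1 p.2) p.1) ω) :=
    fun ω => M.piece_markov hT p ω x (hG2 _)
  simp_rw [h1]
  have he : T (W.ext p.1 p.2) = p.1 :=
    hT X₀ _ p.1 (by rw [W.hist_ext]; exact hX₀.2) hX₀.1
  refine AEM.lintegral_mul (U := W.read (W.ext p.1 p.2) p.1)
    (V := far R (W.read (W.ext p.1 p.2) p.1)) hQ subset_rfl (M.aem_piece hT x p) ?_
  refine W.hs.aem_fun (W.hs_reads (M.reads Q _)) _ (hG2 _) fun Y hY n => ?_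
  have := hG3 (W.ext p.1 p.2) Y (he ▸ ENat.natCast_lt_top _) hY n
  rwa [he, W.readE_coe] at this

/-- **Annealed fresh restart, two walkers in the same environment.** -/
theorem fresh2 [Nonempty Ω] (hQ : IndepAt R Q) {T T' : Ω → ℕ∞} (hT : W.IsStop T)
    (hT' : W.IsStop T') {G : Ω × Ω → Ω × Ω → ℝ≥0∞}
    (hG1 : Det2 W T T' G) (hG2 : ∀ p, Measurable (G p))
    (hG3 : ∀ p q, T p.1 < ⊤ → T' p.2 < ⊤ → G p q ≠ 0 → ∀ n,
      W.read q.1 n ∪ W.read q.2 n ⊆ far R (W.readE p.1 (T p.1) ∪ W.readE p.2 (T' p.2)))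
    (x x' : Site d) :
    ∫⁻ z in {z | T z.1 < ⊤ ∧ T' z.2 < ⊤},
        G z (M.sh (T z.1).toNat z.1, M.sh (T' z.2).toNat z.2) ∂(same Q (M.P x) (M.P x'))
      = ∫⁻ z in {z | T z.1 < ⊤ ∧ T' z.2 < ⊤}, ∫⁻ y, G z y
          ∂(same Q (M.P (W.pos z.1 (T z.1).toNat)) (M.P (W.pos z.2 (T' z.2).toNat)))
          ∂(same Q (M.P x) (M.P x')) := by
  rw [W.lintegral_pieces2 hT hT', W.lintegral_pieces2 hT hT']
  refine tsum_congr fun pq => ?_
  obtain ⟨p, q⟩ := pq
  simp only
  rcases (W.piece T p).eq_empty_or_nonempty with he | ⟨X₀, hX₀⟩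
  · rw [he]; simp
  rcases (W.piece T' q).eq_empty_or_nonempty with he | ⟨Y₀, hY₀⟩
  · rw [he]; simp
  have hms := (W.measurableSet_piece hT p).prod (W.measurableSet_piece hT' q)
  have hl : ∫⁻ z in W.piece T p ×ˢ W.piece T' q,
        G z (M.sh (T z.1).toNat z.1, M.sh (T' z.2).toNat z.2) ∂(same Q (M.P x) (M.P x'))
      = ∫⁻ z in W.piece T p ×ˢ W.piece T' q,
        G (W.ext p.1 p.2, W.ext q.1 q.2) (M.sh p.1 z.1, M.sh q.1 z.2)
          ∂(same Q (M.P x) (M.P x')) := by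
    refine setLIntegral_congr_fun hms fun z hz => ?_
    obtain ⟨⟨h1, h2⟩, h3, h4⟩ := hz
    have h5 : G z = G (W.ext p.1 p.2, W.ext q.1 q.2) :=
      hG1 z _ p.1 q.1 (by rw [W.hist_ext, h2]) (by rw [W.hist_ext, h4]) h1 h3
    simp only [h5, h1, h3, ENat.toNat_natCast]
  have hr : ∫⁻ z in W.piece T p ×ˢ W.piece T' q, ∫⁻ y, G z y
          ∂(same Q (M.P (W.pos z.1 (T z.1).toNat)) (M.P (W.pos z.2 (T' z.2).toNat)))
          ∂(same Q (M.P x) (M.P x'))
      = ∫⁻ _ in W.piece T p ×ˢ W.piece T' q, ∫⁻ y, G (W.ext p.1 p.2, W.ext q.1 q.2) y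
          ∂(same Q (M.P (W.pos (W.ext p.1 p.2) p.1)) (M.P (W.pos (W.ext q.1 q.2) q.1)))
          ∂(same Q (M.P x) (M.P x')) := by
    refine setLIntegral_congr_fun hms fun z hz => ?_
    obtain ⟨⟨h1, h2⟩, h3, h4⟩ := hz
    have h6 : W.hist p.1 z.1 = W.hist p.1 (W.ext p.1 p.2) := by rw [W.hist_ext, h2]
    have h7 : W.hist q.1 z.2 = W.hist q.1 (W.ext q.1 q.2) := by rw [W.hist_ext, h4]
    have h5 : G z = G (W.ext p.1 p.2, W.ext q.1 q.2) := hG1 z _ p.1 q.1 h6 h7 h1 h3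
    simp only [h5, h1, h3, ENat.toNat_natCast, W.pos_det p.1 _ _ h6, W.pos_det q.1 _ _ h7]
  set e : Ω × Ω := (W.ext p.1 p.2, W.ext q.1 q.2) with hedef
  have hmg : Measurable fun z : Ω × Ω => G e (M.sh p.1 z.1, M.sh q.1 z.2) :=
    (hG2 e).comp (((M.meas_sh _).comp measurable_fst).prodMk
      ((M.meas_sh _).comp measurable_snd))
  rw [hl, hr, setLIntegral_const, same_apply _ _ _ hms, same, same, setLIntegral_bind _ hms hmg,
    Measure.lintegral_bind (Kernel.measurable _).aemeasurable (hG2 _).aemeasurable, mul_comm]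
  have h1 : ∀ ω, ∫⁻ z in W.piece T p ×ˢ W.piece T' q, G e (M.sh p.1 z.1, M.sh q.1 z.2)
        ∂((M.P x ×ₖ M.P x') ω)
      = M.P x ω (W.piece T p) * M.P x' ω (W.piece T' q) *
        ∫⁻ z, G e z ∂((M.P (W.pos (W.ext p.1 p.2) p.1) ×ₖ
          M.P (W.pos (W.ext q.1 q.2) q.1)) ω) := by
    intro ω
    rw [Kernel.prod_apply, Kernel.prod_apply]
    exact M.piece_markov2 hT hT' p q ω x x' (hG2 _)
  simp_rw [h1, Measure.prod_prod]
  have hep : T (W.ext p.1 p.2) = p.1 :=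
    hT X₀ _ p.1 (by rw [W.hist_ext]; exact hX₀.2) hX₀.1
  have heq : T' (W.ext q.1 q.2) = q.1 :=
    hT' Y₀ _ q.1 (by rw [W.hist_ext]; exact hY₀.2) hY₀.1
  refine AEM.lintegral_mul
    (U := W.read (W.ext p.1 p.2) p.1 ∪ W.read (W.ext q.1 q.2) q.1)
    (V := far R (W.read (W.ext p.1 p.2) p.1 ∪ W.read (W.ext q.1 q.2) q.1)) hQ subset_rfl
    (((M.aem_piece hT x p).mono Set.subset_union_left).mul
      ((M.aem_piece hT' x' q).mono Set.subset_union_right)) ?_
  refine W.hs2.aem_fun (W.hs2_reads (M.reads Q _) (M.reads Q _)) _ (hG2 _) fun Y hY n => ?_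
  have := hG3 e Y (by rw [hedef, hep]; exact ENat.natCast_lt_top _)
    (by rw [hedef, heq]; exact ENat.natCast_lt_top _) hY n
  rw [hedef, hep, heq, W.readE_coe, W.readE_coe] at this
  exact this

end annealed

end MarkovWS

end Crest.Agent.R154
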