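import Crest.Agent.R154.ConKap_402
import Crest.Agent.R154.Restart_850

/-! Row 154, B7 (helper850): stopped walk spaces, frozen walkers, product walk spaces (pair tests
of the K-set bounds). -/

set_option autoImplicit false
set_option linter.unusedVariables false
set_option linter.unusedSectionVars false

namespace Crest.Agent.R154

open MeasureTheory ProbabilityTheory Crest.ProbabilityR.RandomEnvironment
open scoped ENNReal

variable {d : ℕ} {Ω : Type} [MeasurableSpace Ω]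

namespace WalkSpace

variable (W : WalkSpace d Ω)

lemma stop_congr {S : Ω → ℕ∞} (hS : W.IsStop S) {n : ℕ} {X Y : Ω} (h : W.hist n X = W.hist n Y)
    (hn : S X ≤ n) : S Y = S X := by
  obtain ⟨m, hm⟩ := ENat.ne_top_iff_exists.1 (lt_of_le_of_lt hn (ENat.natCast_lt_top n)).ne
  rw [← hm] at hn ⊢
  exact hS X Y m (W.mono X Y (by exact_mod_cast hn) h) hm.symm

lemma le_stop_congr {S : Ω → ℕ∞} (hS : W.IsStop S) {n m : ℕ} {X Y : Ω}
    (h : W.hist n X = W.hist n Y) (hmn : m ≤ n) (hm : (m : ℕ∞) ≤ S X) : (m : ℕ∞) ≤ S Y := by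
  by_contra hlt
  rw [not_le] at hlt
  have h1 : S X = S Y := W.stop_congr hS h.symm (hlt.le.trans (by exact_mod_cast hmn))
  rw [h1] at hm
  exact absurd hm (not_le.2 hlt)

/-- **the stopped walk space**: the rows read after the stopping time are not counted. -/
def stopped (S : Ω → ℕ∞) (hS : W.IsStop S) : WalkSpace d Ω where
  H := W.H
  countH := W.countH
  hist := W.hist
  ext := W.ext
  hist_ext := W.hist_ext
  mono := W.mono
  gen := W.gen
  pos := W.pos
  pos_det := W.pos_det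
  read X n := {z | ∃ m : ℕ, m ≤ n ∧ (m : ℕ∞) ≤ S X ∧ z ∈ W.read X m}
  read_det := by
    intro n X Y h
    have key : ∀ X Y : Ω, W.hist n X = W.hist n Y →
        {z | ∃ m : ℕ, m ≤ n ∧ (m : ℕ∞) ≤ S X ∧ z ∈ W.read X m}
          ⊆ {z | ∃ m : ℕ, m ≤ n ∧ (m : ℕ∞) ≤ S Y ∧ z ∈ W.read Y m} := by
      rintro X Y h z ⟨m, hm, hmS, hz⟩
      exact ⟨m, hm, W.le_stop_congr hS h hm hmS, by rw [← W.read_det m X Y (W.mono X Y hm h)]; exact hz⟩
    exact Set.Subset.antisymm (key X Y h) (key Y X h.symm)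
  read_sub := by
    rintro X n z ⟨m, hm, _, hz⟩
    obtain ⟨i, hi, rfl⟩ := W.read_sub X m hz
    exact ⟨i, by omega, rfl⟩
  read_mono := by
    rintro X m n hmn z ⟨k, hk, hkS, hz⟩
    exact ⟨k, by omega, hkS, hz⟩

variable {W}

lemma stopped_read_eq {S : Ω → ℕ∞} (hS : W.IsStop S) {X : Ω} {m n : ℕ} (hmn : m ≤ n)
    (hm : (m : ℕ∞) ≤ S X) (h : m = n ∨ S X = m) : (W.stopped S hS).read X n = W.read X m := by
  ext z
  constructor
  · rintro ⟨k, hk, hkS, hz⟩
    refine W.read_mono X ?_ hz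
    rcases h with h | h
    · omega
    · rw [h] at hkS
      exact_mod_cast hkS
  · intro hz
    exact ⟨m, hmn, hm, hz⟩

lemma isStop_stopped {S T : Ω → ℕ∞} (hS : W.IsStop S) (hT : W.IsStop T) :
    (W.stopped S hS).IsStop T := hT

lemma detBy_stopped {α : Type*} {S T : Ω → ℕ∞} (hS : W.IsStop S) {F : Ω → α}
    (hF : W.DetBy T F) : (W.stopped S hS).DetBy T F := hF

variable (W)

open Classical in
/-- **the frozen walker**. -/
noncomputable def frz (S : Ω → ℕ∞) (X : Ω) : Ω :=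
  if S X = ⊤ then X else W.ext (S X).toNat (W.hist (S X).toNat X)

lemma frz_top {S : Ω → ℕ∞} {X : Ω} (h : S X = ⊤) : W.frz S X = X := by
  unfold frz; rw [if_pos h]

lemma frz_coe {S : Ω → ℕ∞} {X : Ω} {n : ℕ} (h : S X = n) : W.frz S X = W.ext n (W.hist n X) := by
  unfold frz
  rw [if_neg (by rw [h]; exact ENat.natCast_ne_top n), h]
  rfl

lemma hist_frz {S : Ω → ℕ∞} {X : Ω} {n : ℕ} (h : (n : ℕ∞) ≤ S X) :
    W.hist n (W.frz S X) = W.hist n X := by
  by_cases ht : S X = ⊤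
  · rw [W.frz_top ht]
  · obtain ⟨m, hm⟩ := ENat.ne_top_iff_exists.1 ht
    rw [W.frz_coe hm.symm]
    rw [← hm] at h
    exact W.mono _ _ (by exact_mod_cast h) (W.hist_ext m _)

lemma stop_frz {S : Ω → ℕ∞} (hS : W.IsStop S) (X : Ω) : S (W.frz S X) = S X := by
  by_cases ht : S X = ⊤
  · rw [W.frz_top ht]
  · obtain ⟨m, hm⟩ := ENat.ne_top_iff_exists.1 ht
    rw [← hm]
    exact hS X _ m (W.hist_frz hm.le).symm hm.symm

lemma frz_det {S : Ω → ℕ∞} (hS : W.IsStop S) {X Y : Ω} {n : ℕ}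
    (h : W.hist n X = W.hist n Y) : W.hist n (W.frz S X) = W.hist n (W.frz S Y) := by
  rcases le_total (S X) (n : ℕ∞) with h1 | h1
  · have h2 := W.stop_congr hS h h1
    obtain ⟨m, hm⟩ := ENat.ne_top_iff_exists.1 (lt_of_le_of_lt h1 (ENat.natCast_lt_top n)).ne
    rw [W.frz_coe hm.symm, W.frz_coe (h2.trans hm.symm)]
    rw [← hm] at h1
    rw [W.mono X Y (by exact_mod_cast h1) h]
  · rw [W.hist_frz h1, W.hist_frz (W.le_stop_congr hS h le_rfl h1), h]

lemma measurable_frz {S : Ω → ℕ∞} (hS : W.IsStop S) : Measurable (W.frz S) := by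
  have : @Measurable Ω Ω _ (MeasurableSpace.generateFrom
      {s | ∃ (X : Ω) (n : ℕ), s = {Y | W.hist n Y = W.hist n X}}) (W.frz S) := by
    refine measurable_generateFrom ?_
    rintro _ ⟨X, n, rfl⟩
    refine W.measurableSet_of_hist n _ fun Y Z h hY => ?_
    exact (W.frz_det hS h).symm.trans hY
  rwa [← W.gen] at this

lemma frz_eq_of {S : Ω → ℕ∞} (hS : W.IsStop S) {X Y : Ω} {n : ℕ}
    (h : W.hist n X = W.hist n Y) (hn : S X = n) : W.frz S X = W.frz S Y := by
  rw [W.frz_coe hn, W.frz_coe (hS X Y n h hn), h]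

lemma detBy_comp_frz {α : Type*} {S : Ω → ℕ∞} {F : Ω → α} (hS : W.IsStop S) (hF : W.DetBy S F)
    {X : Ω} (h : S X < ⊤) : F (W.frz S X) = F X := by
  obtain ⟨m, hm⟩ := ENat.ne_top_iff_exists.1 h.ne
  exact (hF X _ m (W.hist_frz hm.le).symm hm.symm).symm

/-- **the frozen law reads only the rows read before the stopping time.** -/
theorem readsOnly_frz {S : Ω → ℕ∞} (hS : W.IsStop S) {Q : Measure (Environment d)}
    {P : Kernel (Environment d) Ω} (hP : W.ReadsOnly Q P) :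
    (W.stopped S hS).ReadsOnly Q (P.map (W.frz S)) := by
  intro γ n
  change AEM Q ((W.stopped S hS).read γ n) (fun ω => (P.map (W.frz S)) ω ((W.stopped S hS).cyl γ n))
  -- the stopping time `min S n`
  set A : Set Ω := {X | W.hist n (W.frz S X) = W.hist n γ} with hA
  have hval : ∀ ω, (P.map (W.frz S)) ω ((W.stopped S hS).cyl γ n) = P ω A := by
    intro ω
    rw [Kernel.map_apply' _ (W.measurable_frz hS) _ ((W.stopped S hS).measurableSet_cyl γ n)]
    rfl
  -- pieces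
  let ι := Σ m : ℕ, {h : W.H m // m ≤ n ∧ ∃ X ∈ A, W.hist m X = h ∧ (m : ℕ∞) = min (S X) n}
  have : Countable ι := inferInstance
  have hAU : A = ⋃ p : ι, W.hcyl p.1 p.2.1 := by
    ext X
    simp only [Set.mem_iUnion]
    constructor
    · intro hX
      obtain ⟨m, hm⟩ := ENat.ne_top_iff_exists.1
        (lt_of_le_of_lt (min_le_right (S X) (n : ℕ∞)) (ENat.natCast_lt_top n)).ne
      have hmn : m ≤ n := by
        have : (m : ℕ∞) ≤ n := hm ▸ min_le_right _ _
        exact_mod_cast this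
      exact ⟨⟨m, W.hist m X, hmn, X, hX, rfl, hm⟩, rfl⟩
    · rintro ⟨⟨m, h, hmn, Y, hY, rfl, hm⟩, hX⟩
      change W.hist m X = W.hist m Y at hX
      change W.hist n (W.frz S X) = W.hist n γ
      rw [← (show W.hist n (W.frz S Y) = W.hist n γ from hY)]
      rcases le_total (S Y) (n : ℕ∞) with h1 | h1
      · rw [min_eq_left h1] at hm
        rw [W.frz_eq_of hS hX.symm hm.symm]
      · rw [min_eq_right h1] at hm
        have : m = n := by exact_mod_cast hm
        subst this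
        exact W.frz_det hS hX
  have hdisj : Pairwise (Function.onFun Disjoint fun p : ι => W.hcyl p.1 p.2.1) := by
    rintro ⟨m, h, hmn, Y, hY, rfl, hm⟩ ⟨m', h', hmn', Y', hY', rfl, hm'⟩ hne
    rw [Function.onFun, Set.disjoint_left]
    intro X hX hX'
    change W.hist m X = W.hist m Y at hX
    change W.hist m' X = W.hist m' Y' at hX'
    have key : ∀ (m : ℕ) (Y : Ω), m ≤ n → (m : ℕ∞) = min (S Y) n → W.hist m X = W.hist m Y →
        (m : ℕ∞) = min (S X) n := by
      intro m Y hmn hm hX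
      rcases le_total (S Y) (n : ℕ∞) with h1 | h1
      · rw [min_eq_left h1] at hm
        have h2 := hS Y X m hX.symm hm.symm
        rw [h2, min_eq_left (by exact_mod_cast hmn)]
      · rw [min_eq_right h1] at hm
        have : m = n := by exact_mod_cast hm
        subst this
        rw [min_eq_right (W.le_stop_congr hS hX.symm le_rfl h1)]
    have e : m = m' := by
      have := (key m Y hmn hm hX).trans (key m' Y' hmn' hm' hX').symm
      exact_mod_cast this
    subst e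
    refine hne ?_
    congr 1
    exact Subtype.ext (hX.symm.trans hX')
  refine (AEM.tsum (F := fun (p : ι) ω => P ω (W.hcyl p.1 p.2.1)) fun p => ?_).congr fun ω => ?_
  · obtain ⟨m, h, hmn, Y, hY, rfl, hm⟩ := p
    have hr : W.read Y m ⊆ (W.stopped S hS).read γ n := by
      have hY' : W.hist n (W.frz S Y) = W.hist n γ := hY
      rw [← (W.stopped S hS).read_det n _ _ hY']
      intro z hz
      have hle : (m : ℕ∞) ≤ S Y := hm ▸ min_le_left _ _
      refine ⟨m, hmn, by rw [W.stop_frz hS]; exact hle, ?_⟩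
      rw [W.read_det m _ _ (W.hist_frz hle)]
      exact hz
    exact AEM.mono (hP Y m) hr
  · exact (hval ω).trans ((congrArg (fun s => P ω s) hAU).trans
      (measure_iUnion hdisj fun p => W.measurableSet_hcyl _ _))

end WalkSpace

/-! ### product -/

section prod

variable {A B : Type} [MeasurableSpace A] [MeasurableSpace B]

/-- **the product walk space** (interleaved histories). -/
def prodWS [Nonempty A] [Nonempty B] (W₁ : WalkSpace d A) (W₂ : WalkSpace d B) :
    WalkSpace d (A × B) where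
  H n := W₁.H ((n + 1) / 2) × W₂.H (n / 2)
  countH n := inferInstance
  hist n p := (W₁.hist ((n + 1) / 2) p.1, W₂.hist (n / 2) p.2)
  ext n h := (W₁.ext _ h.1, W₂.ext _ h.2)
  hist_ext n h := Prod.ext (W₁.hist_ext _ _) (W₂.hist_ext _ _)
  mono := by
    intro m n X Y hmn h
    obtain ⟨h1, h2⟩ := Prod.ext_iff.1 h
    exact Prod.ext (W₁.mono _ _ (by omega) h1) (W₂.mono _ _ (by omega) h2)
  gen := by
    apply le_antisymm
    · have hg : (inferInstance : MeasurableSpace (A × B)) =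
          MeasurableSpace.generateFrom (Set.image2 (· ×ˢ ·) W₁.cyls W₂.cyls) :=
        (generateFrom_eq_prod W₁.gen.symm W₂.gen.symm W₁.isCountablySpanning_cyls
          W₂.isCountablySpanning_cyls).symm
      refine (le_of_eq hg).trans ?_
      refine MeasurableSpace.generateFrom_le ?_
      rintro _ ⟨_, ⟨γ, n, rfl⟩, _, ⟨δ, m, rfl⟩, rfl⟩
      set N : ℕ := 2 * max n m with hN
      have hn : n ≤ (N + 1) / 2 := by have := le_max_left n m; omega
      have hm : m ≤ N / 2 := by have := le_max_right n m; omega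
      have : ({Y | W₁.hist n Y = W₁.hist n γ} ×ˢ {Y | W₂.hist m Y = W₂.hist m δ} : Set (A × B))
          = ⋃ h : {h : W₁.H ((N + 1) / 2) × W₂.H (N / 2) //
              W₁.hist n (W₁.ext _ h.1) = W₁.hist n γ ∧ W₂.hist m (W₂.ext _ h.2) = W₂.hist m δ},
              {Y : A × B | (W₁.hist ((N + 1) / 2) Y.1, W₂.hist (N / 2) Y.2) = h.1} := by
        ext Y
        simp only [Set.mem_prod, Set.mem_ofPred_eq, Set.mem_iUnion, Subtype.exists]
        constructor
        · rintro ⟨h1, h2⟩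
          refine ⟨(W₁.hist _ Y.1, W₂.hist _ Y.2), ⟨?_, ?_⟩, rfl⟩
          · rw [← h1]
            exact W₁.mono _ _ hn (W₁.hist_ext _ _)
          · rw [← h2]
            exact W₂.mono _ _ hm (W₂.hist_ext _ _)
        · rintro ⟨h, ⟨h1, h2⟩, hY⟩
          subst hY
          refine ⟨?_, ?_⟩
          · rw [← h1]
            exact (W₁.mono _ _ hn (W₁.hist_ext _ _)).symm
          · rw [← h2]
            exact (W₂.mono _ _ hm (W₂.hist_ext _ _)).symm
      beta_reduce
      rw [this]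
      refine MeasurableSet.iUnion fun h => MeasurableSpace.measurableSet_generateFrom ?_
      refine ⟨(W₁.ext _ h.1.1, W₂.ext _ h.1.2), N, ?_⟩
      simp only [WalkSpace.hist_ext]
    · refine MeasurableSpace.generateFrom_le ?_
      rintro _ ⟨X, n, rfl⟩
      have : {Y : A × B | (W₁.hist ((n + 1) / 2) Y.1, W₂.hist (n / 2) Y.2)
            = (W₁.hist ((n + 1) / 2) X.1, W₂.hist (n / 2) X.2)}
          = W₁.cyl X.1 ((n + 1) / 2) ×ˢ W₂.cyl X.2 (n / 2) := by
        ext Y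
        simp only [Set.mem_ofPred_eq, Prod.mk.injEq, Set.mem_prod, WalkSpace.cyl]
      rw [this]
      exact (W₁.measurableSet_cyl _ _).prod (W₂.measurableSet_cyl _ _)
  pos p n := if n % 2 = 0 then W₁.pos p.1 (n / 2) else W₂.pos p.2 (n / 2)
  pos_det := by
    intro n X Y h
    obtain ⟨h1, h2⟩ := Prod.ext_iff.1 h
    beta_reduce
    split_ifs with hn
    · exact W₁.pos_det _ _ _ (W₁.mono _ _ (by omega) h1)
    · exact W₂.pos_det _ _ _ h2
  read p n := W₁.read p.1 ((n + 1) / 2) ∪ W₂.read p.2 (n / 2)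
  read_det := by
    intro n X Y h
    obtain ⟨h1, h2⟩ := Prod.ext_iff.1 h
    rw [W₁.read_det _ _ _ h1, W₂.read_det _ _ _ h2]
  read_sub := by
    rintro X n z (hz | hz)
    · obtain ⟨i, hi, rfl⟩ := W₁.read_sub _ _ hz
      refine ⟨2 * i, by omega, ?_⟩
      rw [if_pos (by omega)]
      congr 1
      omega
    · obtain ⟨i, hi, rfl⟩ := W₂.read_sub _ _ hz
      refine ⟨2 * i + 1, by omega, ?_⟩
      rw [if_neg (by omega)]
      congr 1
      omega
  read_mono := fun X m n h => Set.union_subset_union (W₁.read_mono _ (by omega))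
    (W₂.read_mono _ (by omega))

variable [Nonempty A] [Nonempty B] {W₁ : WalkSpace d A} {W₂ : WalkSpace d B}

lemma prodWS_hist (W₁ : WalkSpace d A) (W₂ : WalkSpace d B) (n : ℕ) (p : A × B) :
    (prodWS W₁ W₂).hist n p = (W₁.hist ((n + 1) / 2) p.1, W₂.hist (n / 2) p.2) := rfl

lemma prodWS_hist_eq {n : ℕ} {p q : A × B} :
    (prodWS W₁ W₂).hist n p = (prodWS W₁ W₂).hist n q ↔
      W₁.hist ((n + 1) / 2) p.1 = W₁.hist ((n + 1) / 2) q.1 ∧
        W₂.hist (n / 2) p.2 = W₂.hist (n / 2) q.2 := Prod.ext_iff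

lemma prodWS_cyl (γ : A × B) (n : ℕ) :
    (prodWS W₁ W₂).cyl γ n = W₁.cyl γ.1 ((n + 1) / 2) ×ˢ W₂.cyl γ.2 (n / 2) := by
  ext Y
  exact prodWS_hist_eq

theorem readsOnly_prod {Q : Measure (Environment d)} {P₁ : Kernel (Environment d) A}
    {P₂ : Kernel (Environment d) B} [IsSFiniteKernel P₁] [IsSFiniteKernel P₂]
    (h₁ : W₁.ReadsOnly Q P₁) (h₂ : W₂.ReadsOnly Q P₂) :
    (prodWS W₁ W₂).ReadsOnly Q (P₁ ×ₖ P₂) := by
  intro γ n
  have h1 : AEM Q (W₁.read γ.1 ((n + 1) / 2)) (fun ω => P₁ ω (W₁.cyl γ.1 ((n + 1) / 2))) :=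
    h₁ γ.1 _
  have h2 : AEM Q (W₂.read γ.2 (n / 2)) (fun ω => P₂ ω (W₂.cyl γ.2 (n / 2))) := h₂ γ.2 _
  refine ((h1.mono Set.subset_union_left).mul (h2.mono Set.subset_union_right)).congr fun ω => ?_
  rw [prodWS_cyl, Kernel.prod_apply, Measure.prod_prod]

/-- reading times of the product. -/
def rdP (rd₁ : A → ℕ → Prop) (rd₂ : B → ℕ → Prop) (p : A × B) (n : ℕ) : Prop :=
  if n % 2 = 0 then rd₁ p.1 (n / 2) else rd₂ p.2 (n / 2)

lemma rdSpace_prod {rd₁ : A → ℕ → Prop} {rd₂ : B → ℕ → Prop} (h₁ : Cont.RdSpace W₁ rd₁)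
    (h₂ : Cont.RdSpace W₂ rd₂) : Cont.RdSpace (prodWS W₁ W₂) (rdP rd₁ rd₂) where
  det := by
    intro n X Y h
    obtain ⟨h1, h2⟩ := prodWS_hist_eq.1 h
    unfold rdP
    split_ifs with hn
    · exact h₁.det _ _ _ (W₁.mono _ _ (by omega) h1)
    · exact h₂.det _ _ _ h2
  read_iff X n z := by
    change (z ∈ W₁.read X.1 ((n + 1) / 2) ∪ W₂.read X.2 (n / 2)) ↔ ∃ i, i < n ∧ rdP rd₁ rd₂ X i ∧
      (if i % 2 = 0 then W₁.pos X.1 (i / 2) else W₂.pos X.2 (i / 2)) = z
    rw [Set.mem_union, h₁.read_iff, h₂.read_iff]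
    constructor
    · rintro (⟨i, hi, hr, hz⟩ | ⟨i, hi, hr, hz⟩)
      · refine ⟨2 * i, by omega, ?_, ?_⟩
        · unfold rdP
          rw [if_pos (by omega)]
          have : 2 * i / 2 = i := by omega
          rw [this]; exact hr
        · rw [if_pos (by omega)]
          have : 2 * i / 2 = i := by omega
          rw [this]; exact hz
      · refine ⟨2 * i + 1, by omega, ?_, ?_⟩
        · unfold rdP
          rw [if_neg (by omega)]
          have : (2 * i + 1) / 2 = i := by omega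
          rw [this]; exact hr
        · rw [if_neg (by omega)]
          have : (2 * i + 1) / 2 = i := by omega
          rw [this]; exact hz
    · rintro ⟨i, hi, hr, hz⟩
      unfold rdP at hr
      split_ifs at hr hz with h
      · exact Or.inl ⟨i / 2, by omega, hr, hz⟩
      · exact Or.inr ⟨i / 2, by omega, hr, hz⟩

end prod

/-! ### reading times of the stopped space -/

/-- reading times before the stopping time. -/
def rdS (S : Ω → ℕ∞) (rd : Ω → ℕ → Prop) (X : Ω) (i : ℕ) : Prop := rd X i ∧ (i : ℕ∞) < S X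

lemma rdSpace_stopped {W : WalkSpace d Ω} {rd : Ω → ℕ → Prop} {S : Ω → ℕ∞} (hS : W.IsStop S)
    (h : Cont.RdSpace W rd) : Cont.RdSpace (W.stopped S hS) (rdS S rd) where
  det := by
    intro n X Y hXY
    have h1 := h.det n X Y hXY
    have h2 := Cont.pdet_lt_stop hS n X Y hXY
    unfold rdS
    simp only [h1, h2]
  read_iff X n z := by
    constructor
    · rintro ⟨m, hm, hmS, hz⟩
      obtain ⟨i, hi, hr, hz⟩ := (h.read_iff X m z).1 hz
      refine ⟨i, by omega, ⟨hr, lt_of_lt_of_le ?_ hmS⟩, hz⟩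
      exact_mod_cast hi
    · rintro ⟨i, hi, ⟨hr, hiS⟩, hz⟩
      refine ⟨i + 1, by omega, ?_, (h.read_iff X (i + 1) z).2 ⟨i, Nat.lt_succ_self i, hr, hz⟩⟩
      have := Order.add_one_le_of_lt hiS
      exact_mod_cast this

/-! ### labels (helper402's `WalkSpace.lab` is the version used in `PairK3_402`) -/

namespace Lab850

section lab

variable {ι : Type} [Countable ι] [MeasurableSpace ι] [MeasurableSingletonClass ι]

/-- walkers with a label. -/
def labWS (ι : Type) [Countable ι] [MeasurableSpace ι] [MeasurableSingletonClass ι]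
    (W : WalkSpace d Ω) : WalkSpace d (ι × Ω) where
  H n := ι × W.H n
  countH n := inferInstance
  hist n p := (p.1, W.hist n p.2)
  ext n h := (h.1, W.ext n h.2)
  hist_ext n h := Prod.ext rfl (W.hist_ext n h.2)
  mono := by
    intro m n X Y hmn h
    obtain ⟨h1, h2⟩ := Prod.ext_iff.1 h
    exact Prod.ext h1 (W.mono _ _ hmn h2)
  gen := by
    apply le_antisymm
    · set G : MeasurableSpace (ι × Ω) := MeasurableSpace.generateFrom
        {s | ∃ (X : ι × Ω) (n : ℕ), s = {Y : ι × Ω | (Y.1, W.hist n Y.2) = (X.1, W.hist n X.2)}}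
        with hG
      have h1 : @Measurable (ι × Ω) ι G _ Prod.fst := by
        refine @measurable_to_countable' ι (ι × Ω) _ _ G Prod.fst fun l => ?_
        have : (Prod.fst ⁻¹' {l} : Set (ι × Ω)) = ⋃ h : W.H 0,
            {Y : ι × Ω | (Y.1, W.hist 0 Y.2) = (l, W.hist 0 (W.ext 0 h))} := by
          ext Y
          simp only [Set.mem_preimage, Set.mem_singleton_iff, Set.mem_iUnion, Set.mem_ofPred_eq,
            Prod.mk.injEq, W.hist_ext, exists_and_left, exists_eq', and_true]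
        rw [this]
        exact MeasurableSet.iUnion fun h =>
          MeasurableSpace.measurableSet_generateFrom ⟨(l, W.ext 0 h), 0, rfl⟩
      have h2 : @Measurable (ι × Ω) Ω G _ Prod.snd := by
        have h3 : @Measurable (ι × Ω) Ω G (MeasurableSpace.generateFrom
            {s | ∃ (X : Ω) (n : ℕ), s = {Y | W.hist n Y = W.hist n X}}) Prod.snd := by
          refine @measurable_generateFrom (ι × Ω) Ω G _ _ ?_
          rintro _ ⟨X, n, rfl⟩
          have : (Prod.snd ⁻¹' {Y | W.hist n Y = W.hist n X} : Set (ι × Ω)) = ⋃ l : ι,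
              {Y : ι × Ω | (Y.1, W.hist n Y.2) = (l, W.hist n X)} := by
            ext Y
            simp only [Set.mem_preimage, Set.mem_iUnion, Set.mem_ofPred_eq,
              Prod.mk.injEq, exists_and_right, exists_eq', true_and]
          rw [this]
          exact MeasurableSet.iUnion fun l =>
            MeasurableSpace.measurableSet_generateFrom ⟨(l, X), n, rfl⟩
        rwa [← W.gen] at h3
      exact sup_le (measurable_iff_comap_le.1 h1) (measurable_iff_comap_le.1 h2)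
    · refine MeasurableSpace.generateFrom_le ?_
      rintro _ ⟨X, n, rfl⟩
      have : {Y : ι × Ω | (Y.1, W.hist n Y.2) = (X.1, W.hist n X.2)}
          = {X.1} ×ˢ W.cyl X.2 n := by
        ext Y
        simp only [Set.mem_ofPred_eq, Prod.mk.injEq, Set.mem_prod, WalkSpace.cyl,
          Set.mem_singleton_iff]
      rw [this]
      exact (measurableSet_singleton _).prod (W.measurableSet_cyl _ _)
  pos p n := W.pos p.2 n
  pos_det := by
    intro n X Y h
    obtain ⟨h1, h2⟩ := Prod.ext_iff.1 h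
    exact W.pos_det n _ _ h2
  read p n := W.read p.2 n
  read_det := by
    intro n X Y h
    obtain ⟨h1, h2⟩ := Prod.ext_iff.1 h
    exact W.read_det n _ _ h2
  read_sub := fun X n => W.read_sub X.2 n
  read_mono := fun X m n h => W.read_mono X.2 h

variable {W : WalkSpace d Ω}

lemma labWS_hist_eq {n : ℕ} {p q : ι × Ω} :
    (labWS ι W).hist n p = (labWS ι W).hist n q ↔ p.1 = q.1 ∧ W.hist n p.2 = W.hist n q.2 :=
  Prod.ext_iff

/-- stopping time of labelled walkers. -/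
def labS (S : ι → Ω → ℕ∞) (p : ι × Ω) : ℕ∞ := S p.1 p.2

lemma isStop_lab {S : ι → Ω → ℕ∞} (hS : ∀ l, W.IsStop (S l)) : (labWS ι W).IsStop (labS S) := by
  intro X Y n h hn
  obtain ⟨h1, h2⟩ := labWS_hist_eq.1 h
  have hn' : S X.1 X.2 = n := hn
  change S Y.1 Y.2 = n
  rw [← h1]
  exact hS _ _ _ n h2 hn'

lemma rdSpace_lab {rd : Ω → ℕ → Prop} (hW : Cont.RdSpace W rd) :
    Cont.RdSpace (labWS ι W) (fun p n => rd p.2 n) where
  det := by
    intro n X Y h
    exact hW.det n _ _ (labWS_hist_eq.1 h).2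
  read_iff X n z := hW.read_iff X.2 n z

/-- the frozen walker with its label. -/
noncomputable def frzL (W : WalkSpace d Ω) (S : ι → Ω → ℕ∞) (l : ι) (X : Ω) : ι × Ω :=
  (l, W.frz (S l) X)

lemma frzL_eq (S : ι → Ω → ℕ∞) (l : ι) (X : Ω) :
    frzL W S l X = (labWS ι W).frz (labS S) (l, X) := by
  by_cases ht : S l X = ⊤
  · rw [WalkSpace.frz_top _ (show labS S (l, X) = ⊤ from ht)]
    unfold frzL
    rw [W.frz_top ht]
  · obtain ⟨m, hm⟩ := ENat.ne_top_iff_exists.1 ht
    rw [WalkSpace.frz_coe _ (show labS S (l, X) = m from hm.symm)]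
    unfold frzL
    rw [W.frz_coe hm.symm]
    rfl

lemma measurable_frzL {S : ι → Ω → ℕ∞} (hS : ∀ l, W.IsStop (S l)) (l : ι) :
    Measurable (frzL W S l) :=
  measurable_const.prodMk (W.measurable_frz (hS l))

lemma readsOnly_lab {Q : Measure (Environment d)} {P : Kernel (Environment d) Ω}
    (hP : W.ReadsOnly Q P) (l : ι) : (labWS ι W).ReadsOnly Q (P.map (Prod.mk l)) := by
  intro γ n
  have hm : Measurable (Prod.mk l : Ω → ι × Ω) := measurable_const.prodMk measurable_id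
  change AEM Q (W.read γ.2 n) _
  have hval : ∀ ω, (P.map (Prod.mk l)) ω ((labWS ι W).cyl γ n)
      = P ω (Prod.mk l ⁻¹' (labWS ι W).cyl γ n) := fun ω =>
    Kernel.map_apply' _ hm _ ((labWS ι W).measurableSet_cyl γ n)
  by_cases hl : γ.1 = l
  · have h1 : AEM Q (W.read γ.2 n) (fun ω => P ω (W.cyl γ.2 n)) := hP γ.2 n
    refine h1.congr fun ω => ?_
    rw [hval]
    congr 1
    ext X
    change (labWS ι W).hist n (l, X) = (labWS ι W).hist n γ ↔ W.hist n X = W.hist n γ.2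
    rw [labWS_hist_eq]
    simp [hl]
  · refine (AEM.const (Q := Q) (V := W.read γ.2 n) 0).congr fun ω => ?_
    rw [hval]
    have : (Prod.mk l ⁻¹' (labWS ι W).cyl γ n : Set Ω) = ∅ := by
      ext X
      simp only [Set.mem_preimage, Set.mem_empty_iff_false, iff_false]
      intro h
      exact hl ((labWS_hist_eq.1 h).1).symm
    rw [this, measure_empty]

/-- the labelled, stopped walk space. -/
noncomputable def lsWS (W : WalkSpace d Ω) {S : ι → Ω → ℕ∞} (hS : ∀ l, W.IsStop (S l)) :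
    WalkSpace d (ι × Ω) := (labWS ι W).stopped (labS S) (isStop_lab hS)

lemma readsOnly_frzL {S : ι → Ω → ℕ∞} (hS : ∀ l, W.IsStop (S l)) {Q : Measure (Environment d)}
    {P : Kernel (Environment d) Ω} (hP : W.ReadsOnly Q P) (l : ι) :
    (lsWS W hS).ReadsOnly Q (P.map (frzL W S l)) := by
  have h := (labWS ι W).readsOnly_frz (isStop_lab hS) (readsOnly_lab hP l)
  have e : (P.map (Prod.mk l)).map ((labWS ι W).frz (labS S)) = P.map (frzL W S l) := by
    ext ω s hs
    have hm : Measurable (Prod.mk l : Ω → ι × Ω) := measurable_const.prodMk measurable_id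
    have hf := (labWS ι W).measurable_frz (isStop_lab hS)
    rw [Kernel.map_apply' _ hf _ hs, Kernel.map_apply' _ hm _ (hf hs),
      Kernel.map_apply' _ (measurable_frzL hS l) _ hs]
    congr 1
    ext X
    simp only [Set.mem_preimage, frzL_eq]
  rw [e] at h
  exact h

end lab

end Lab850

/-! ### decision time of a pair -/

section pT

variable {A B : Type} [MeasurableSpace A] [MeasurableSpace B] [Nonempty A] [Nonempty B]
  {W₁ : WalkSpace d A} {W₂ : WalkSpace d B} {S₁ : A → ℕ∞} {S₂ : B → ℕ∞}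

/-- decision time of a pair. -/
noncomputable def pT (S₁ : A → ℕ∞) (S₂ : B → ℕ∞) (p : A × B) : ℕ∞ :=
  KExp.fst fun n => S₁ p.1 ≤ (((n + 1) / 2 : ℕ) : ℕ∞) ∧ S₂ p.2 ≤ ((n / 2 : ℕ) : ℕ∞)

lemma isStop_pT (h₁ : W₁.IsStop S₁) (h₂ : W₂.IsStop S₂) :
    (prodWS W₁ W₂).IsStop (pT S₁ S₂) := by
  refine KExp.isStop_fst (prodWS W₁ W₂) (p := fun n p =>
    S₁ p.1 ≤ (((n + 1) / 2 : ℕ) : ℕ∞) ∧ S₂ p.2 ≤ ((n / 2 : ℕ) : ℕ∞)) fun n X Y h => ?_
  obtain ⟨h1, h2⟩ := prodWS_hist_eq.1 h
  exact and_congr (Cont.pdet_stop_le h₁ _ _ _ h1) (Cont.pdet_stop_le h₂ _ _ _ h2)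

lemma pT_spec {p : A × B} {n : ℕ} (h : pT S₁ S₂ p = n) :
    S₁ p.1 ≤ (((n + 1) / 2 : ℕ) : ℕ∞) ∧ S₂ p.2 ≤ ((n / 2 : ℕ) : ℕ∞) := by
  have h1 : pT S₁ S₂ p < ((n + 1 : ℕ) : ℕ∞) := by
    rw [h]; exact_mod_cast Nat.lt_succ_self n
  obtain ⟨m, hm, hp⟩ := KExp.fst_exists h1
  have h2 : pT S₁ S₂ p ≤ m := KExp.fst_le hp
  rw [h] at h2
  have h3 : n ≤ m := by exact_mod_cast h2
  have h4 : m < n + 1 := by exact_mod_cast hm
  have : m = n := by omega
  subst this
  exact hp

lemma pT_lt_top {p : A × B} : pT S₁ S₂ p < ⊤ ↔ S₁ p.1 < ⊤ ∧ S₂ p.2 < ⊤ := by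
  constructor
  · intro h
    obtain ⟨n, hn⟩ := ENat.ne_top_iff_exists.1 h.ne
    obtain ⟨h1, h2⟩ := pT_spec hn.symm
    exact ⟨lt_of_le_of_lt h1 (ENat.natCast_lt_top _), lt_of_le_of_lt h2 (ENat.natCast_lt_top _)⟩
  · rintro ⟨h1, h2⟩
    obtain ⟨a, ha⟩ := ENat.ne_top_iff_exists.1 h1.ne
    obtain ⟨b, hb⟩ := ENat.ne_top_iff_exists.1 h2.ne
    refine lt_of_le_of_lt (KExp.fst_le (n := 2 * (a + b)) ⟨?_, ?_⟩) (ENat.natCast_lt_top _)
    · rw [← ha]
      have : a ≤ (2 * (a + b) + 1) / 2 := by omega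
      exact_mod_cast this
    · rw [← hb]
      have : b ≤ (2 * (a + b)) / 2 := by omega
      exact_mod_cast this

lemma detBy_pT {α : Type*} {F : A × B → α}
    (hF : ∀ (p q : A × B) (a b : ℕ), S₁ p.1 = a → S₂ p.2 = b → W₁.hist a p.1 = W₁.hist a q.1 →
      W₂.hist b p.2 = W₂.hist b q.2 → F p = F q) :
    (prodWS W₁ W₂).DetBy (pT S₁ S₂) F := by
  intro X Y n h hn
  obtain ⟨h1, h2⟩ := pT_spec hn
  obtain ⟨h3, h4⟩ := prodWS_hist_eq.1 h
  obtain ⟨a, ha⟩ := ENat.ne_top_iff_exists.1 (lt_of_le_of_lt h1 (ENat.natCast_lt_top _)).ne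
  obtain ⟨b, hb⟩ := ENat.ne_top_iff_exists.1 (lt_of_le_of_lt h2 (ENat.natCast_lt_top _)).ne
  rw [← ha] at h1
  rw [← hb] at h2
  exact hF X Y a b ha.symm hb.symm (W₁.mono _ _ (by exact_mod_cast h1) h3)
    (W₂.mono _ _ (by exact_mod_cast h2) h4)

variable {rd₁ : A → ℕ → Prop} {rd₂ : B → ℕ → Prop} {R : ℕ}

/-- contact of a pair of stopped walkers. -/
lemma kap_prod_lt (h₁ : W₁.IsStop S₁) (h₂ : W₂.IsStop S₂) {V : Set (Site d)} {p : A × B} {t : ℕ∞}
    (h : Cont.kap (prodWS (W₁.stopped S₁ h₁) (W₂.stopped S₂ h₂)) (rdP (rdS S₁ rd₁) (rdS S₂ rd₂))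
      R V p < t) :
    Cont.kap W₁ rd₁ R V p.1 < S₁ p.1 ∨ Cont.kap W₂ rd₂ R V p.2 < S₂ p.2 := by
  obtain ⟨n, hn, hr, a, ha, hR⟩ := Cont.kap_lt_iff.1 h
  unfold rdP at hr
  change ∀ i, |a i - (if n % 2 = 0 then W₁.pos p.1 (n / 2) else W₂.pos p.2 (n / 2)) i| ≤ (R : ℤ)
    at hR
  split_ifs at hr hR with h0
  · exact Or.inl (Cont.kap_lt_iff.2 ⟨n / 2, hr.2, hr.1, a, ha, hR⟩)
  · exact Or.inr (Cont.kap_lt_iff.2 ⟨n / 2, hr.2, hr.1, a, ha, hR⟩)

/-- rows of a pair of stopped walkers. -/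
lemma rows_prod_subset (h₁ : W₁.IsStop S₁) (h₂ : W₂.IsStop S₂) (p : A × B) (t : ℕ∞) :
    Cont.rows (prodWS (W₁.stopped S₁ h₁) (W₂.stopped S₂ h₂)) (rdP (rdS S₁ rd₁) (rdS S₂ rd₂)) p t
      ⊆ Cont.rows W₁ rd₁ p.1 (S₁ p.1) ∪ Cont.rows W₂ rd₂ p.2 (S₂ p.2) := by
  rintro z ⟨n, hn, hr, hz⟩
  unfold rdP at hr
  change (if n % 2 = 0 then W₁.pos p.1 (n / 2) else W₂.pos p.2 (n / 2)) = z at hz
  split_ifs at hr hz with h0
  · exact Or.inl ⟨n / 2, hr.2, hr.1, hz⟩
  · exact Or.inr ⟨n / 2, hr.2, hr.1, hz⟩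

end pT

end Crest.Agent.R154
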