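import Crest.Agent.R154.D2V_36
import Crest.Agent.R154.WChain_9
import Crest.Agent.R154.Cont_244

/-!
Row 154, block `d = 2`, D2.11 / D2.12 (helper244): 916's one-point statements from 36's `LLN`.

* `qt`     : `LLN`, `SlabP`, `ScaleP`, `wd → ∞` ⟹ `QT` (quenched confinement to a tube);
* `qe`     : `LLN`, `HitP`, `LB` (annealed lower bound) ⟹ `QE`;
* `mobfix` : `QE`, `QT` ⟹ `MOBFIX`.
-/

set_option autoImplicit false
set_option linter.unusedVariables false
set_option linter.unusedSectionVars false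

namespace Crest.Agent.R154.QT244

open MeasureTheory ProbabilityTheory Filter Crest.ProbabilityR.RandomEnvironment Crest.Agent.R154
open Crest.Agent.R154.Flux132 (lev)
open Crest.Agent.R154.ExK9 Crest.Agent.R154.Resamp9
open Crest.Agent.R154.River916 (Ev meas_Ev le_of_nn)
open Crest.Agent.R154.P2916
open Crest.Agent.R154.D2V36
open Crest.Agent.R154.Doob804 (quenched_start)
open Crest.Agent.R154.Cont244 (cut cut_mem cut_one cut_zero cut_lip)
open scoped ENNReal

variable {u : Step 2} {i : Fin 2} {θ : ℝ}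

/-! ### steps -/

lemma lev_zero : lev u (0 : Site 2) = 0 := by
  unfold lev
  simp

lemma coord_step (z : Site 2) (e : Step 2) (i : Fin 2) :
    |((z + stepVec e) i : ℝ) - (z i : ℝ)| ≤ 1 := by
  have h : |(z + stepVec e) i - z i| ≤ 1 := by
    rw [Pi.add_apply, add_sub_cancel_left]
    rcases e with ⟨j, b⟩
    by_cases h : i = j
    · subst h
      simp only [stepVec, Pi.single_eq_same]
      split_ifs <;> simp
    · have : stepVec ((j, b) : Step 2) i = 0 := by
        simp only [stepVec]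
        exact Pi.single_eq_of_ne h _
      rw [this]
      simp
  exact_mod_cast h

lemma lev_stp (u : Step 2) (z : Site 2) (e : Step 2) :
    |((lev u (z + stepVec e) : ℤ) : ℝ) - (lev u z : ℝ)| ≤ 1 := by
  have h : |lev u (z + stepVec e) - lev u z| ≤ 1 := by
    have h := coord_step z e u.1
    have h' : |(z + stepVec e) u.1 - z u.1| ≤ 1 := by exact_mod_cast h
    unfold lev
    split_ifs
    · exact h'
    · have : -(z + stepVec e) u.1 - -z u.1 = -((z + stepVec e) u.1 - z u.1) := by ring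
      rw [this, abs_neg]
      exact h'
  exact_mod_cast h

lemma sl_step (z : Site 2) (e : Step 2) :
    |sl u i θ (z + stepVec e) - sl u i θ z| ≤ 1 + |θ| := by
  unfold sl
  have h1 := coord_step z e i
  have h2 := lev_stp u z e
  have e1 : ((z + stepVec e) i : ℝ) - θ * (lev u (z + stepVec e) : ℝ) - ((z i : ℝ)
      - θ * (lev u z : ℝ)) = (((z + stepVec e) i : ℝ) - (z i : ℝ))
      - θ * ((lev u (z + stepVec e) : ℝ) - (lev u z : ℝ)) := by ring
  rw [e1]
  refine (abs_sub _ _).trans ?_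
  rw [abs_mul]
  have : |θ| * |((lev u (z + stepVec e) : ℤ) : ℝ) - (lev u z : ℝ)| ≤ |θ| * 1 := by gcongr
  linarith

lemma sl_zero : sl u i θ 0 = 0 := by
  unfold sl
  rw [lev_zero]
  simp

lemma notMem_Sb {l : ℕ} {y : Site 2} : y ∉ Sb u l ↔ (l : ℤ) ≤ lev u y := by
  unfold Sb
  simp

/-! ### slab events -/

/-- the path does not leave the column of its start through the top -/
def Bs (u : Step 2) (i : Fin 2) (θ : ℝ) (l g h : ℕ) (r : ℝ) : Set (Path 2) :=
  {X | X ∉ Ev (Col u i θ l g h r (X 0)) (Lvl u (l + g))}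

/-- the same after the first visit of the level `l` -/
def SlE (u : Step 2) (i : Fin 2) (θ : ℝ) (l g h : ℕ) (r : ℝ) : Set (Path 2) :=
  {X | exT (Sb u l) X ≠ ⊤ ∧ shift (exT (Sb u l) X).toNat X ∈ Bs u i θ l g h r}

lemma meas_Bs (l g h : ℕ) (r : ℝ) : MeasurableSet (Bs u i θ l g h r) := by
  have : Bs u i θ l g h r = ⋃ z : Site 2, ({X : Path 2 | X 0 = z} ∩
      (Ev (Col u i θ l g h r z) (Lvl u (l + g)))ᶜ) := by
    ext X
    simp [Bs]
  rw [this]
  refine MeasurableSet.iUnion fun z => MeasurableSet.inter ?_ (meas_Ev _ _).compl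
  have h0 : Measurable fun X : Path 2 => X 0 := measurable_pi_apply 0
  exact h0 (measurableSet_singleton z)

lemma quenched_Bs (ω : Environment 2) (z : Site 2) (l g h : ℕ) (r : ℝ) :
    quenchedLaw ω z (Bs u i θ l g h r) =
      quenchedLaw ω z (Ev (Col u i θ l g h r z) (Lvl u (l + g)))ᶜ := by
  refine measure_congr ?_
  filter_upwards [quenched_start ω z] with X hX
  apply propext
  change X ∉ Ev (Col u i θ l g h r (X 0)) (Lvl u (l + g)) ↔
    X ∉ Ev (Col u i θ l g h r z) (Lvl u (l + g))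
  rw [hX]

lemma meas_SlE (l g h : ℕ) (r : ℝ) : MeasurableSet (SlE u i θ l g h r) :=
  (WChain9.meas_exit (Sb u l)).inter (WChain9.meas_sh (Sb u l) (meas_Bs l g h r))

lemma quenched_SlE (ω : Environment 2) (x : Site 2) (l g h : ℕ) (r : ℝ) :
    quenchedLaw ω x (SlE u i θ l g h r) = ∑' y : Site 2, EK ω (Sb u l) x y *
      quenchedLaw ω y (Ev (Col u i θ l g h r y) (Lvl u (l + g)))ᶜ := by
  unfold SlE
  rw [exit_markov ω (Sb u l) x (meas_Bs l g h r)]
  exact tsum_congr fun z => by rw [quenched_Bs]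

/-! ### containment -/

lemma exT_of {l n : ℕ} {X : Path 2} (h1 : (l : ℤ) ≤ lev u (X n))
    (h2 : ∀ j < n, lev u (X j) < (l : ℤ)) : exT (Sb u l) X = n :=
  exT_eq_iff.2 ⟨notMem_Sb.2 h1, fun j hj => h2 j hj⟩

lemma contain {l : ℕ → ℕ} {m H : ℕ} (hl0 : l 0 = 0) (hlm : Monotone l) (hlH : l m = H)
    (hm : 1 ≤ m) {h : ℕ} {ρ r δ A g : ℝ} (hρ : 0 ≤ ρ) (hhδ : (h : ℝ) ≤ δ * H)
    (hA : ρ + r ≤ A * g) {X : Path 2} (hX0 : X 0 = 0)
    (hS : ∀ j < m, X ∉ SlE u i θ (l j) (l (j + 1) - l j) h r)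
    (hsk : ∀ j, 1 ≤ j → j < m → |sl u i θ (xT u (l j) X)| ≤ ρ) :
    X ∈ Ev (Rg u i θ g δ A H) (Tp u H) := by
  classical
  have hT0 : exT (Sb u (l 0)) X = (0 : ℕ) := by
    refine exT_of ?_ fun j hj => absurd hj (Nat.not_lt_zero j)
    rw [hX0, lev_zero, hl0]
    rfl
  -- one slab
  have hstep : ∀ j < m, ∀ T : ℕ, exT (Sb u (l j)) X = T → ∃ n : ℕ,
      exT (Sb u (l (j + 1))) X = (T + n : ℕ) ∧ lev u (X (T + n)) = l (j + 1) ∧
      ∀ k < n, X (T + k) ∈ Col u i θ (l j) (l (j + 1) - l j) h r (X T) := by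
    intro j hj T hT
    have hle : l j ≤ l (j + 1) := hlm (Nat.le_succ j)
    have h1 : ¬ (exT (Sb u (l j)) X ≠ ⊤ ∧ shift (exT (Sb u (l j)) X).toNat X ∈
      Bs u i θ (l j) (l (j + 1) - l j) h r) := hS j hj
    rw [hT, ENat.toNat_natCast] at h1
    have h2 : shift T X ∈ Ev (Col u i θ (l j) (l (j + 1) - l j) h r (shift T X 0))
        (Lvl u (l j + (l (j + 1) - l j))) := by
      by_contra hcon
      exact h1 ⟨ENat.natCast_ne_top T, hcon⟩
    have e0 : shift T X 0 = X T := by simp [shift]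
    rw [e0] at h2
    obtain ⟨n, hn1, hn2⟩ := h2
    have hn1' : lev u (X (T + n)) = ((l j + (l (j + 1) - l j) : ℕ) : ℤ) := hn1
    rw [Nat.add_sub_cancel' hle] at hn1'
    have hTT := exT_eq_iff.1 hT
    refine ⟨n, exT_of hn1'.ge fun k hk => ?_, hn1', fun k hk => hn2 k hk⟩
    by_cases hkT : k < T
    · have h3 : lev u (X k) < (l j : ℤ) := hTT.2 k hkT
      have h4 : (l j : ℤ) ≤ l (j + 1) := by exact_mod_cast hle
      omega
    · have h3 := hn2 (k - T) (by omega)
      have h4 : X (T + (k - T)) ∈ Col u i θ (l j) (l (j + 1) - l j) h r (X T) := h3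
      rw [show T + (k - T) = k by omega] at h4
      have h5 := h4.2.1
      have h6 : ((l j : ℤ) + ((l (j + 1) - l j : ℕ) : ℤ)) = l (j + 1) := by
        push_cast [Nat.cast_sub hle]
        ring
      omega
  have hfin : ∀ j ≤ m, ∃ T : ℕ, exT (Sb u (l j)) X = T := by
    intro j
    induction j with
    | zero => intro _; exact ⟨0, hT0⟩
    | succ j ih =>
      intro hj
      obtain ⟨T, hT⟩ := ih (by omega)
      obtain ⟨n, hn, _⟩ := hstep j (by omega) T hT
      exact ⟨_, hn⟩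
  obtain ⟨T, hT⟩ := hfin m le_rfl
  have hTp : lev u (X T) = (H : ℤ) := by
    obtain ⟨T', hT'⟩ := hfin (m - 1) (by omega)
    obtain ⟨n, hn1, hn2, _⟩ := hstep (m - 1) (by omega) T' hT'
    rw [show m - 1 + 1 = m by omega] at hn1 hn2
    rw [hT] at hn1
    have : T = T' + n := by exact_mod_cast hn1
    rw [this, hn2, hlH]
  refine ⟨T, hTp, fun k hk => ?_⟩
  -- the current slab
  have hP0 : ∃ T' ≤ k, exT (Sb u (l 0)) X = T' := ⟨0, Nat.zero_le _, hT0⟩
  have hPm : ¬ ∃ T' ≤ k, exT (Sb u (l m)) X = T' := by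
    rintro ⟨T', hT', he⟩
    rw [hT] at he
    have : T = T' := by exact_mod_cast he
    omega
  obtain ⟨j, hjm, hj1, hj2⟩ : ∃ j < m, (∃ T' ≤ k, exT (Sb u (l j)) X = T') ∧
      ¬ ∃ T' ≤ k, exT (Sb u (l (j + 1))) X = T' := by
    by_contra hcon
    push Not at hcon
    have : ∀ j ≤ m, ∃ T' ≤ k, exT (Sb u (l j)) X = (T' : ℕ∞) := by
      intro j
      induction j with
      | zero => intro _; exact hP0
      | succ j ih =>
        intro hj
        obtain ⟨T', h1, h2⟩ := hcon j (by omega) (ih (by omega))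
        exact ⟨T', h1, h2⟩
    exact hPm (this m le_rfl)
  obtain ⟨T', hT'k, hT'⟩ := hj1
  obtain ⟨n, hn1, hn2, hn3⟩ := hstep j hjm T' hT'
  have hkn : k < T' + n := by
    by_contra hcon
    exact hj2 ⟨T' + n, not_lt.1 hcon, hn1⟩
  have h3 := hn3 (k - T') (by omega)
  rw [show T' + (k - T') = k by omega] at h3
  obtain ⟨c1, c2, c3⟩ := h3
  have hle : l j ≤ l (j + 1) := hlm (Nat.le_succ j)
  have hleH : l (j + 1) ≤ H := hlH ▸ hlm (by omega)
  refine ⟨?_, ?_, ?_⟩
  · have h4 : -(h : ℤ) ≤ lev u (X k) := by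
      have : (0 : ℤ) ≤ l j := by positivity
      omega
    have h5 : -(h : ℝ) ≤ (lev u (X k) : ℝ) := by exact_mod_cast h4
    linarith
  · have h6 : ((l j : ℤ) + ((l (j + 1) - l j : ℕ) : ℤ)) = l (j + 1) := by
      push_cast [Nat.cast_sub hle]
      ring
    have h7 : ((l (j + 1) : ℕ) : ℤ) ≤ (H : ℤ) := by exact_mod_cast hleH
    omega
  · have h8 : |sl u i θ (X T')| ≤ ρ := by
      rcases Nat.eq_zero_or_pos j with hj0 | hj0
      · subst hj0
        rw [hT0] at hT'
        have : T' = 0 := by exact_mod_cast hT'.symm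
        rw [this, hX0, sl_zero, abs_zero]
        exact hρ
      · have h9 := hsk j hj0 hjm
        unfold xT at h9
        rwa [hT', ENat.toNat_natCast] at h9
    have h10 : |sl u i θ (X k)| ≤ |sl u i θ (X T')| + |sl u i θ (X k) - sl u i θ (X T')| := by
      have := abs_add_le (sl u i θ (X T')) (sl u i θ (X k) - sl u i θ (X T'))
      rwa [add_sub_cancel] at this
    linarith

/-- positions at the intermediate levels of a path which climbs inside the column of `0` -/
lemma skel_of_slab {H h L : ℕ} (hL : L ≤ H) {r : ℝ} {X : Path 2} (hX0 : X 0 = 0)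
    (hnn : ∀ n, ∃ e : Step 2, X (n + 1) = X n + stepVec e)
    (hS : X ∉ SlE u i θ 0 H h r) (hr : 0 ≤ r) :
    |sl u i θ (xT u L X)| ≤ r + (1 + |θ|) := by
  have hT0 : exT (Sb u 0) X = (0 : ℕ) := by
    refine exT_of ?_ fun j hj => absurd hj (Nat.not_lt_zero j)
    rw [hX0, lev_zero]
    rfl
  have h1 : ¬ (exT (Sb u 0) X ≠ ⊤ ∧ shift (exT (Sb u 0) X).toNat X ∈ Bs u i θ 0 H h r) := hS
  rw [hT0, ENat.toNat_natCast] at h1
  have e00 : shift 0 X = X := by
    funext k; simp [shift]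
  rw [e00] at h1
  have h2 : X ∈ Ev (Col u i θ 0 H h r (X 0)) (Lvl u (0 + H)) := by
    by_contra hcon
    exact h1 ⟨ENat.natCast_ne_top 0, hcon⟩
  obtain ⟨n, hn1, hn2⟩ := h2
  have hn1' : lev u (X n) = ((0 + H : ℕ) : ℤ) := hn1
  rw [zero_add] at hn1'
  classical
  have hex : ∃ k, (L : ℤ) ≤ lev u (X k) := ⟨n, by rw [hn1']; exact_mod_cast hL⟩
  have hT : exT (Sb u L) X = (Nat.find hex : ℕ) :=
    exT_of (Nat.find_spec hex) fun j hj => not_le.1 (Nat.find_min hex hj)
  have hle : Nat.find hex ≤ n := Nat.find_le (by rw [hn1']; exact_mod_cast hL)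
  unfold xT
  rw [hT, ENat.toNat_natCast]
  have hcol : ∀ k < n, |sl u i θ (X k)| ≤ r := by
    intro k hk
    have := (hn2 k hk).2.2
    rwa [hX0, sl_zero, sub_zero] at this
  rcases Nat.lt_or_ge (Nat.find hex) n with h | h
  · have := hcol _ h
    have := abs_nonneg θ
    linarith
  · have hfn : Nat.find hex = n := le_antisymm hle h
    rw [hfn]
    rcases Nat.eq_zero_or_pos n with hn0 | hn0
    · rw [hn0, hX0, sl_zero, abs_zero]
      positivity
    · obtain ⟨k, rfl⟩ : ∃ k, n = k + 1 := ⟨n - 1, by omega⟩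
      obtain ⟨e, he⟩ := hnn k
      have h3 := hcol k (Nat.lt_succ_self k)
      have h4 := sl_step (u := u) (i := i) (θ := θ) (X k) e
      rw [← he] at h4
      have h5 : |sl u i θ (X (k + 1))| ≤ |sl u i θ (X k)| +
          |sl u i θ (X (k + 1)) - sl u i θ (X k)| := by
        have := abs_add_le (sl u i θ (X k)) (sl u i θ (X (k + 1)) - sl u i θ (X k))
        rwa [add_sub_cancel] at this
      linarith

/-! ### the quenched functional -/

section fe

variable {m : ℕ} {L : Fin m → ℕ} {χ : Fin m → Site 2 → ℝ}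

lemma meas_PX : Measurable (PX u L χ) := by
  unfold PX
  exact Finset.measurable_prod _ fun j _ =>
    (measurable_of_countable (χ j)).comp (WChain9.meas_xT (Sb u (L j)))

lemma PX_mem (hχ : ∀ j z, 0 ≤ χ j z ∧ χ j z ≤ 1) (X : Path 2) :
    0 ≤ PX u L χ X ∧ PX u L χ X ≤ 1 :=
  ⟨Finset.prod_nonneg fun j _ => (hχ j _).1,
    Finset.prod_le_one (fun j _ => (hχ j _).1) fun j _ => (hχ j _).2⟩

lemma int_PX (hχ : ∀ j z, 0 ≤ χ j z ∧ χ j z ≤ 1) (ω : Environment 2) (y : Site 2) :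
    Integrable (PX u L χ) (quenchedLaw ω y) := by
  refine Integrable.of_bound meas_PX.aestronglyMeasurable 1 (Eventually.of_forall fun X => ?_)
  rw [Real.norm_eq_abs, abs_of_nonneg (PX_mem hχ X).1]
  exact (PX_mem hχ X).2

lemma FE_mem (hχ : ∀ j z, 0 ≤ χ j z ∧ χ j z ≤ 1) (ω : Environment 2) (y : Site 2) :
    0 ≤ FE u L χ ω y ∧ FE u L χ ω y ≤ 1 := by
  refine ⟨integral_nonneg fun X => (PX_mem hχ X).1, ?_⟩
  calc FE u L χ ω y ≤ ∫ _, (1 : ℝ) ∂(quenchedLaw ω y) :=
        integral_mono (int_PX hχ ω y) (integrable_const 1) fun X => (PX_mem hχ X).2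
    _ = 1 := by simp

lemma meas_FE (hχ : ∀ j z, 0 ≤ χ j z ∧ χ j z ≤ 1) (y : Site 2) :
    Measurable fun ω : Environment 2 => FE u L χ ω y := by
  have hk : Measurable fun ω : Environment 2 => (quenchedLaw ω y : Measure (Path 2)) :=
    Measure.measurable_of_measurable_coe _ fun E hE => Q561.measurable_quenched_apply y hE
  have h1 : (fun ω : Environment 2 => FE u L χ ω y) =
      fun ω => (∫⁻ X, ENNReal.ofReal (PX u L χ X) ∂(quenchedLaw ω y)).toReal := by
    funext ω
    unfold FE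
    rw [integral_eq_lintegral_of_nonneg_ae (Eventually.of_forall fun X => (PX_mem hχ X).1)
      meas_PX.aestronglyMeasurable]
  rw [h1]
  exact ((Measure.measurable_lintegral meas_PX.ennreal_ofReal).comp hk).ennreal_toReal

lemma FE_le (hχ : ∀ j z, 0 ≤ χ j z ∧ χ j z ≤ 1) {E : Set (Path 2)} (hE : MeasurableSet E)
    (h : ∀ X ∉ E, PX u L χ X = 0) (ω : Environment 2) (y : Site 2) :
    FE u L χ ω y ≤ (quenchedLaw ω y).real E := by
  have h1 : FE u L χ ω y ≤ ∫ X, E.indicator 1 X ∂(quenchedLaw ω y) := by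
    refine integral_mono (int_PX hχ ω y) ((integrable_const 1).indicator hE) fun X => ?_
    by_cases hX : X ∈ E
    · rw [Set.indicator_of_mem hX]
      exact (PX_mem hχ X).2
    · rw [Set.indicator_of_notMem hX, h X hX]
  rwa [integral_indicator_one hE] at h1

lemma le_FE (hχ : ∀ j z, 0 ≤ χ j z ∧ χ j z ≤ 1) {E : Set (Path 2)} (hE : MeasurableSet E)
    {ω : Environment 2} {y : Site 2} (h : ∀ᵐ X ∂(quenchedLaw ω y), X ∈ E → PX u L χ X = 1) :
    (quenchedLaw ω y).real E ≤ FE u L χ ω y := by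
  have h1 : ∫ X, E.indicator 1 X ∂(quenchedLaw ω y) ≤ FE u L χ ω y := by
    refine integral_mono_ae ((integrable_const 1).indicator hE) (int_PX hχ ω y) ?_
    filter_upwards [h] with X hX
    by_cases hXE : X ∈ E
    · rw [Set.indicator_of_mem hXE, hX hXE]
      exact le_rfl
    · rw [Set.indicator_of_notMem hXE]
      exact (PX_mem hχ X).1
  rwa [integral_indicator_one hE] at h1

end fe

lemma chi_mem {n : ℕ} {χ : Fin n → ℝ → ℝ} (h : ∀ j x, 0 ≤ χ j x ∧ χ j x ≤ 1) (w : ℝ) :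
    ∀ (j : Fin n) (z : Site 2), 0 ≤ (fun j z => χ j (sl u i θ z / w)) j z ∧
      (fun j z => χ j (sl u i θ z / w)) j z ≤ 1 := fun j z => h j _

/-- Markov for an `L¹` bound -/
lemma markov_L1 {Q : Measure (Environment 2)} [IsProbabilityMeasure Q] {G : Environment 2 → ℝ}
    (hG : Measurable G) (h0 : ∀ ω, 0 ≤ G ω ∧ G ω ≤ 1) {a e : ℝ} (ha : 0 < a)
    (h : ∫ ω, |G ω - ∫ η, G η ∂Q| ∂Q ≤ e) :
    Q {ω | a ≤ |G ω - ∫ η, G η ∂Q|} ≤ ENNReal.ofReal (e / a) := by
  have hm : Measurable fun ω => |G ω - ∫ η, G η ∂Q| := (hG.sub_const _).abs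
  have hi : Integrable (fun ω => |G ω - ∫ η, G η ∂Q|) Q := by
    refine Integrable.of_bound hm.aestronglyMeasurable (1 + |∫ η, G η ∂Q|)
      (Eventually.of_forall fun ω => ?_)
    rw [Real.norm_eq_abs, abs_abs]
    refine (abs_sub _ _).trans ?_
    rw [abs_of_nonneg (h0 ω).1]
    linarith [(h0 ω).2]
  have h1 := mul_meas_ge_le_integral_of_nonneg (Eventually.of_forall fun ω => abs_nonneg _) hi a
  have h2 : Q.real {ω | a ≤ |G ω - ∫ η, G η ∂Q|} ≤ e / a := by
    rw [le_div_iff₀ ha]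
    linarith
  rw [← ofReal_measureReal]
  exact ENNReal.ofReal_le_ofReal h2

section main

variable {ν : Measure (Row 2)} [IsProbabilityMeasure ν] {wd : ℕ → ℕ}

lemma exists_A {C c κ' : ℝ} (hC : 0 < C) (hc : 0 < c) (hκ : 0 < κ') :
    ∃ A : ℝ, 1 ≤ A ∧ C * Real.exp (-(c * A)) ≤ κ' := by
  refine ⟨max 1 (Real.log (C / κ') / c), le_max_left _ _, ?_⟩
  have h1 : Real.log (C / κ') ≤ c * max 1 (Real.log (C / κ') / c) := by
    have := le_max_right 1 (Real.log (C / κ') / c)
    rw [div_le_iff₀ hc] at this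
    linarith
  calc C * Real.exp (-(c * max 1 (Real.log (C / κ') / c)))
      ≤ C * Real.exp (-(Real.log (C / κ'))) := by gcongr
    _ = κ' := by
        rw [Real.exp_neg, Real.exp_log (by positivity)]
        field_simp

lemma exists_m {C c D η δ : ℝ} (hC : 0 < C) (hc : 0 < c) (hD : 0 < D) (hη : 0 < η) (hδ : 0 < δ) :
    ∃ m : ℕ, 1 ≤ m ∧ 2 ≤ δ * m ∧ 1 ≤ Real.sqrt m / D ∧
      m * (C * Real.exp (-(c * (Real.sqrt m / D)))) ≤ η := by
  set c' : ℝ := c / D with hc'
  have hc'0 : 0 < c' := by positivity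
  obtain ⟨m, hm⟩ := exists_nat_ge (max (max 1 (2 / δ)) (max (D ^ 2) (24 * C / (c' ^ 4 * η))))
  have h1 : (1 : ℝ) ≤ m := ((le_max_left _ _).trans (le_max_left _ _)).trans hm
  have h2 : 2 / δ ≤ m := ((le_max_right _ _).trans (le_max_left _ _)).trans hm
  have h3 : D ^ 2 ≤ m := ((le_max_left _ _).trans (le_max_right _ _)).trans hm
  have h4 : 24 * C / (c' ^ 4 * η) ≤ m := ((le_max_right _ _).trans (le_max_right _ _)).trans hm
  have hm0 : (0 : ℝ) < m := by linarith
  refine ⟨m, by exact_mod_cast h1, ?_, ?_, ?_⟩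
  · rw [div_le_iff₀ hδ] at h2
    linarith
  · rw [le_div_iff₀ hD, one_mul]
    exact Real.le_sqrt_of_sq_le h3
  · have e1 : c * (Real.sqrt m / D) = c' * Real.sqrt m := by rw [hc']; ring
    rw [e1]
    set x : ℝ := c' * Real.sqrt m with hx
    have hx0 : 0 < x := by positivity
    have hx4 : x ^ 4 = c' ^ 4 * (m : ℝ) ^ 2 := by
      rw [hx, mul_pow]
      congr 1
      calc Real.sqrt m ^ 4 = (Real.sqrt m ^ 2) ^ 2 := by ring
        _ = (m : ℝ) ^ 2 := by rw [Real.sq_sqrt hm0.le]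
    have h5 := Real.pow_div_factorial_le_exp x hx0.le 4
    have h6 : ((Nat.factorial 4 : ℕ) : ℝ) = 24 := by norm_num [Nat.factorial]
    rw [h6, hx4] at h5
    have h7 : Real.exp (-x) ≤ 24 / (c' ^ 4 * (m : ℝ) ^ 2) := by
      rw [Real.exp_neg, ← one_div]
      rw [div_le_iff₀ (Real.exp_pos x)]
      have h8 : 0 < c' ^ 4 * (m : ℝ) ^ 2 := by positivity
      have h9 : c' ^ 4 * (m : ℝ) ^ 2 ≤ 24 * Real.exp x := by
        rw [div_le_iff₀ (by norm_num)] at h5
        linarith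
      rw [div_mul_eq_mul_div, le_div_iff₀ h8]
      linarith
    rw [div_le_iff₀ (by positivity)] at h4
    calc (m : ℝ) * (C * Real.exp (-x)) ≤ m * (C * (24 / (c' ^ 4 * (m : ℝ) ^ 2))) := by gcongr
      _ = 24 * C / (c' ^ 4 * m) := by field_simp
      _ ≤ η := by
          rw [div_le_iff₀ (by positivity)]
          nlinarith

set_option maxHeartbeats 1000000 in
/-- **QT from LLN.** -/
theorem qt (hLLN : LLN u i θ ν wd) (hSlab : SlabP u i θ ν wd) (hScale : ScaleP wd)
    (hwd : ∀ K : ℕ, ∃ N0 : ℕ, ∀ N ≥ N0, K ≤ wd N) : QT u i θ (iidEnvironmentLaw ν) wd := by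
  intro δ hδ κ' hκ'
  obtain ⟨Cs, cs, hCs, hcs, hS⟩ := hSlab
  obtain ⟨Cd, hCd, hSc⟩ := hScale
  obtain ⟨A1, hA1, hA1'⟩ := exists_A hCs hcs (show 0 < κ' / 16 by positivity)
  refine ⟨A1 + 3, fun ε hε => ?_⟩
  obtain ⟨m, hm1, hmδ, hA', hmη⟩ := exists_m hCs hcs hCd (show 0 < ε * κ' / 8 by positivity) hδ
  have hm0 : (0 : ℝ) < m := by exact_mod_cast hm1
  set A' : ℝ := Real.sqrt m / Cd with hA'def
  obtain ⟨h0, hh0⟩ := hS A' hA' (ε * κ' / 8 / m) (by positivity)
  obtain ⟨h1, hh1⟩ := hS A1 hA1 (κ' / 16) (by positivity)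
  obtain ⟨N1, hN1⟩ := hSc m hm1
  obtain ⟨N2, hN2⟩ := hLLN m (fun _ => cut (A1 + 1)) 1 (fun _ x => cut_mem _ x)
    (fun _ x y => cut_lip _ x y) (ε * κ' / 8) (by positivity)
  obtain ⟨N3, hN3⟩ := hwd ⌈1 + |θ|⌉₊
  obtain ⟨N4, hN4⟩ := exists_nat_ge (2 / δ)
  refine ⟨max (max (max N1 N2) (max N3 N4)) (max h1 (m * h0)), fun H hH => ?_⟩
  have hH1 : N1 ≤ H := (((le_max_left _ _).trans (le_max_left _ _)).trans (le_max_left _ _)).trans hH
  have hH2 : N2 ≤ H := (((le_max_right _ _).trans (le_max_left _ _)).trans (le_max_left _ _)).trans hH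
  have hH3 : N3 ≤ H := (((le_max_left _ _).trans (le_max_right _ _)).trans (le_max_left _ _)).trans hH
  have hH4 : N4 ≤ H := (((le_max_right _ _).trans (le_max_right _ _)).trans (le_max_left _ _)).trans hH
  have hH5 : h1 ≤ H := ((le_max_left _ _).trans (le_max_right _ _)).trans hH
  have hH6 : m * h0 ≤ H := ((le_max_right _ _).trans (le_max_right _ _)).trans hH
  have hwdθ : 1 + |θ| ≤ wd H := (Nat.le_ceil _).trans (by exact_mod_cast hN3 H hH3)
  have hwd0 : (0 : ℝ) < wd H := lt_of_lt_of_le (by positivity) hwdθ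
  set h : ℕ := H / m + 1 with hh
  have hhh0 : h0 ≤ h := by
    have : h0 ≤ H / m := (Nat.le_div_iff_mul_le (by omega)).2 (by rw [mul_comm]; exact hH6)
    omega
  have hδH : (2 : ℝ) ≤ δ * H := by
    have h2 : (2 : ℝ) / δ ≤ H := hN4.trans (by exact_mod_cast hH4)
    rw [div_le_iff₀ hδ] at h2
    linarith
  have hhδ : (h : ℝ) ≤ δ * H := by
    have h2 : ((H / m : ℕ) : ℝ) ≤ H / m := Nat.cast_div_le
    have h3 : (H : ℝ) / m ≤ δ * H / 2 := by
      rw [div_le_iff₀ hm0]
      have : (0:ℝ) ≤ H := Nat.cast_nonneg H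
      nlinarith
    rw [hh]
    push_cast
    linarith
  -- levels
  set l : ℕ → ℕ := fun j => j * H / m with hl
  have hl0 : l 0 = 0 := by simp [hl]
  have hlm : Monotone l := fun a b hab => Nat.div_le_div_right (Nat.mul_le_mul_right _ hab)
  have hlH : l m = H := Nat.mul_div_cancel_left _ (by omega)
  have hg : ∀ j, l (j + 1) - l j ≤ h := by
    intro j
    have e1 : (j + 1) * H = j * H + H := by ring
    simp only [hl]
    rw [e1, Nat.add_div (by omega : 0 < m)]
    split_ifs <;> omega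
  set Q := iidEnvironmentLaw ν with hQ
  -- slabs
  set r : ℝ := A' * wd h with hr
  have hrle : r ≤ wd H := by
    have h2 := hN1 H hH1
    rw [← hh] at h2
    calc r ≤ A' * (Cd / Real.sqrt m * wd H) := by
          rw [hr]
          gcongr
      _ = wd H := by
          rw [hA'def]
          have : Real.sqrt m ≠ 0 := (Real.sqrt_pos.2 hm0).ne'
          field_simp
  have hslab : ∀ j < m, ∫⁻ ω, quenchedLaw ω 0 (SlE u i θ (l j) (l (j + 1) - l j) h r) ∂Q ≤
      ENNReal.ofReal (Cs * Real.exp (-(cs * A')) + ε * κ' / 8 / m) := by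
    intro j hj
    have h2 := hh0 h hhh0 (l j) (l (j + 1) - l j) (hg j)
    refine le_trans (le_of_eq ?_) h2
    exact lintegral_congr fun ω => quenched_SlE ω 0 _ _ _ _
  have hslab0 : ∫⁻ ω, quenchedLaw ω 0 (SlE u i θ 0 H H (A1 * wd H)) ∂Q ≤
      ENNReal.ofReal (κ' / 8) := by
    have h2 := hh1 H hH5 0 H le_rfl
    refine le_trans (le_of_eq ?_) (h2.trans (ENNReal.ofReal_le_ofReal (by linarith)))
    exact lintegral_congr fun ω => quenched_SlE ω 0 _ _ _ _
  -- the functional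
  set L : Fin m → ℕ := fun j => ((j : ℕ) + 1) * H / m with hLdef
  set χ : Fin m → Site 2 → ℝ := fun j z => cut (A1 + 1) (sl u i θ z / wd H) with hχdef
  have hχ : ∀ j z, 0 ≤ χ j z ∧ χ j z ≤ 1 := fun j z => cut_mem _ _
  set G : Environment 2 → ℝ := fun ω => FE u L χ ω 0 with hG
  have hGm : Measurable G := meas_FE hχ 0
  have hG01 : ∀ ω, 0 ≤ G ω ∧ G ω ≤ 1 := fun ω => FE_mem hχ ω 0
  have hGi : Integrable G Q := by
    refine Integrable.of_bound hGm.aestronglyMeasurable 1 (Eventually.of_forall fun ω => ?_)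
    rw [Real.norm_eq_abs, abs_of_nonneg (hG01 ω).1]
    exact (hG01 ω).2
  have hL1 : ∫ ω, |G ω - ∫ η, G η ∂Q| ∂Q ≤ ε * κ' / 8 := hN2 H hH2
  -- upper bound of G
  set E1 : Set (Path 2) := {X | ∀ j : Fin m, |sl u i θ (xT u (L j) X)| ≤ (A1 + 2) * wd H} with hE1
  have hE1m : MeasurableSet E1 := by
    have : E1 = ⋂ j : Fin m, (WChain9.xT (Sb u (L j))) ⁻¹'
        {z | |sl u i θ z| ≤ (A1 + 2) * wd H} := by
      ext X
      simp only [hE1, Set.mem_ofPred_eq, Set.mem_iInter, Set.mem_preimage]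
      rfl
    rw [this]
    exact MeasurableSet.iInter fun j => WChain9.meas_xT _ (Set.to_countable _).measurableSet
  have hG1 : ∀ ω, G ω ≤ (quenchedLaw ω 0).real E1 := by
    intro ω
    refine FE_le hχ hE1m (fun X hX => ?_) ω 0
    have hX' : ∃ j : Fin m, (A1 + 2) * wd H < |sl u i θ (xT u (L j) X)| := by
      by_contra hcon
      push Not at hcon
      exact hX hcon
    obtain ⟨j, hj⟩ := hX'
    refine Finset.prod_eq_zero (Finset.mem_univ j) ?_
    refine cut_zero ?_
    rw [abs_div, abs_of_pos hwd0, le_div_iff₀ hwd0]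
    linarith
  -- mean
  have hmean : 1 - κ' / 8 ≤ ∫ η, G η ∂Q := by
    have h2 : ∀ ω, 1 - (quenchedLaw ω 0).real (SlE u i θ 0 H H (A1 * wd H)) ≤ G ω := by
      intro ω
      rw [← probReal_compl_eq_one_sub (meas_SlE _ _ _ _)]
      refine le_FE hχ (meas_SlE _ _ _ _).compl ?_
      filter_upwards [quenched_start ω 0, quenched_nn ω 0] with X hX0 hXs hX
      refine Finset.prod_eq_one fun j _ => ?_
      have hLj : L j ≤ H := by
        have h3 : (j : ℕ) + 1 ≤ m := j.2
        calc L j ≤ m * H / m := Nat.div_le_div_right (Nat.mul_le_mul_right _ h3)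
          _ = H := Nat.mul_div_cancel_left _ (by omega)
      have h3 := skel_of_slab hLj hX0 hXs hX (by positivity)
      refine cut_one ?_
      rw [abs_div, abs_of_pos hwd0, div_le_iff₀ hwd0]
      linarith
    have hi : Integrable (fun ω => (quenchedLaw ω 0).real (SlE u i θ 0 H H (A1 * wd H))) Q := by
      refine Integrable.of_bound
        (Q561.measurable_quenched_apply 0 (meas_SlE _ _ _ _)).ennreal_toReal.aestronglyMeasurable
        1 (Eventually.of_forall fun ω => ?_)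
      rw [Real.norm_eq_abs, abs_of_nonneg measureReal_nonneg]
      exact measureReal_le_one
    have h3 : ∫ ω, (quenchedLaw ω 0).real (SlE u i θ 0 H H (A1 * wd H)) ∂Q ≤ κ' / 8 := by
      have e1 : ∫ ω, (quenchedLaw ω 0).real (SlE u i θ 0 H H (A1 * wd H)) ∂Q =
          (∫⁻ ω, quenchedLaw ω 0 (SlE u i θ 0 H H (A1 * wd H)) ∂Q).toReal :=
        integral_toReal (Q561.measurable_quenched_apply 0 (meas_SlE _ _ _ _)).aemeasurable
          (Eventually.of_forall fun ω => measure_lt_top _ _)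
      rw [e1]
      have h4 := ENNReal.toReal_mono ENNReal.ofReal_ne_top hslab0
      rwa [ENNReal.toReal_ofReal (by positivity)] at h4
    calc 1 - κ' / 8 ≤ 1 - ∫ ω, (quenchedLaw ω 0).real (SlE u i θ 0 H H (A1 * wd H)) ∂Q := by
          linarith
      _ = ∫ ω, (1 - (quenchedLaw ω 0).real (SlE u i θ 0 H H (A1 * wd H))) ∂Q := by
          rw [integral_sub (integrable_const 1) hi]
          simp
      _ ≤ ∫ η, G η ∂Q := integral_mono ((integrable_const 1).sub hi) hGi h2
  -- inclusion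
  have hsub : {ω | ENNReal.ofReal κ' < quenchedLaw ω 0
      (Ev (Rg u i θ (wd H) δ (A1 + 3) H) (Tp u H))ᶜ} ⊆
      {ω | κ' / 4 ≤ |G ω - ∫ η, G η ∂Q|} ∪ {ω | ENNReal.ofReal (κ' / 2) ≤
        ∑ j ∈ Finset.range m, quenchedLaw ω 0 (SlE u i θ (l j) (l (j + 1) - l j) h r)} := by
    intro ω hω
    by_contra hcon
    simp only [Set.mem_union, Set.mem_ofPred_eq, not_or, not_le] at hcon
    obtain ⟨c1, c2⟩ := hcon
    have c3 : 1 - κ' / 2 ≤ (quenchedLaw ω 0).real E1 := by
      have := (abs_lt.1 c1).1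
      have := hG1 ω
      linarith
    have c4 : quenchedLaw ω 0 E1ᶜ ≤ ENNReal.ofReal (κ' / 2) := by
      rw [← ofReal_measureReal, probReal_compl_eq_one_sub hE1m]
      exact ENNReal.ofReal_le_ofReal (by linarith)
    have c5 : quenchedLaw ω 0 (Ev (Rg u i θ (wd H) δ (A1 + 3) H) (Tp u H))ᶜ ≤
        quenchedLaw ω 0 (E1ᶜ ∪ ⋃ j ∈ Finset.range m, SlE u i θ (l j) (l (j + 1) - l j) h r) := by
      refine measure_mono_ae ?_
      filter_upwards [quenched_start ω 0] with X hX0 hX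
      by_contra hno
      have hno' : ¬ (X ∈ E1ᶜ ∪ ⋃ j ∈ Finset.range m, SlE u i θ (l j) (l (j + 1) - l j) h r) := hno
      simp only [Set.mem_union, Set.mem_compl_iff, Set.mem_iUnion, Finset.mem_range, not_or,
        not_not, not_exists] at hno'
      refine hX (contain hl0 hlm hlH hm1 (h := h) (ρ := (A1 + 2) * wd H) (r := r) (by positivity)
        hhδ (by linarith) hX0 (fun j hj => hno'.2 j hj) fun j hj1 hj2 => ?_)
      have h2 := hno'.1 ⟨j - 1, by omega⟩
      have e1 : L ⟨j - 1, by omega⟩ = l j := by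
        simp only [hLdef, hl]
        rw [Nat.sub_add_cancel hj1]
      rwa [e1] at h2
    have c6 : quenchedLaw ω 0 (Ev (Rg u i θ (wd H) δ (A1 + 3) H) (Tp u H))ᶜ <
        ENNReal.ofReal κ' := by
      calc quenchedLaw ω 0 (Ev (Rg u i θ (wd H) δ (A1 + 3) H) (Tp u H))ᶜ
          ≤ quenchedLaw ω 0 E1ᶜ + ∑ j ∈ Finset.range m,
            quenchedLaw ω 0 (SlE u i θ (l j) (l (j + 1) - l j) h r) := by
            refine c5.trans ((measure_union_le _ _).trans ?_)
            gcongr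
            exact measure_biUnion_finset_le _ _
        _ ≤ ENNReal.ofReal (κ' / 2) + ∑ j ∈ Finset.range m,
            quenchedLaw ω 0 (SlE u i θ (l j) (l (j + 1) - l j) h r) := by gcongr
        _ < ENNReal.ofReal (κ' / 2) + ENNReal.ofReal (κ' / 2) :=
            (ENNReal.add_lt_add_iff_left ENNReal.ofReal_ne_top).2 c2
        _ = ENNReal.ofReal κ' := by
            rw [← ENNReal.ofReal_add (by positivity) (by positivity)]
            congr 1
            ring
    exact absurd hω (not_lt.2 c6.le)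
  refine (measure_mono hsub).trans ((measure_union_le _ _).trans ?_)
  have p1 := markov_L1 hGm hG01 (show 0 < κ' / 4 by positivity) hL1
  have p2 : Q {ω | ENNReal.ofReal (κ' / 2) ≤ ∑ j ∈ Finset.range m,
      quenchedLaw ω 0 (SlE u i θ (l j) (l (j + 1) - l j) h r)} ≤ ENNReal.ofReal (ε / 2) := by
    have hm2 : Measurable fun ω : Environment 2 => ∑ j ∈ Finset.range m,
        quenchedLaw ω 0 (SlE u i θ (l j) (l (j + 1) - l j) h r) :=
      Finset.measurable_sum _ fun j _ => Q561.measurable_quenched_apply 0 (meas_SlE _ _ _ _)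
    refine (meas_ge_le_lintegral_div hm2.aemeasurable
      (by rw [Ne, ENNReal.ofReal_eq_zero, not_le]; positivity) ENNReal.ofReal_ne_top).trans ?_
    rw [lintegral_finsetSum _ fun j _ => Q561.measurable_quenched_apply 0 (meas_SlE _ _ _ _)]
    have h2 : ∑ j ∈ Finset.range m, ∫⁻ ω, quenchedLaw ω 0
        (SlE u i θ (l j) (l (j + 1) - l j) h r) ∂Q ≤ ENNReal.ofReal (ε * κ' / 4) := by
      calc ∑ j ∈ Finset.range m, ∫⁻ ω, quenchedLaw ω 0
            (SlE u i θ (l j) (l (j + 1) - l j) h r) ∂Q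
          ≤ ∑ _j ∈ Finset.range m, ENNReal.ofReal (Cs * Real.exp (-(cs * A')) +
              ε * κ' / 8 / m) := Finset.sum_le_sum fun j hj => hslab j (Finset.mem_range.1 hj)
        _ = ENNReal.ofReal (m * (Cs * Real.exp (-(cs * A')) + ε * κ' / 8 / m)) := by
            rw [Finset.sum_const, Finset.card_range, nsmul_eq_mul,
              ENNReal.ofReal_mul (Nat.cast_nonneg _), ENNReal.ofReal_natCast]
        _ ≤ ENNReal.ofReal (ε * κ' / 4) := by
            refine ENNReal.ofReal_le_ofReal ?_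
            rw [mul_add]
            have h3 : (m : ℝ) * (ε * κ' / 8 / m) = ε * κ' / 8 := by field_simp
            rw [h3]
            linarith
    calc (∑ j ∈ Finset.range m, ∫⁻ ω, quenchedLaw ω 0
            (SlE u i θ (l j) (l (j + 1) - l j) h r) ∂Q) / ENNReal.ofReal (κ' / 2)
        ≤ ENNReal.ofReal (ε * κ' / 4) / ENNReal.ofReal (κ' / 2) := by gcongr
      _ = ENNReal.ofReal (ε / 2) := by
          rw [← ENNReal.ofReal_div_of_pos (by positivity)]
          congr 1
          field_simp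
          ring
  calc Q {ω | κ' / 4 ≤ |G ω - ∫ η, G η ∂Q|} + Q {ω | ENNReal.ofReal (κ' / 2) ≤
        ∑ j ∈ Finset.range m, quenchedLaw ω 0 (SlE u i θ (l j) (l (j + 1) - l j) h r)}
      ≤ ENNReal.ofReal (ε * κ' / 8 / (κ' / 4)) + ENNReal.ofReal (ε / 2) := add_le_add p1 p2
    _ = ENNReal.ofReal ε := by
        rw [← ENNReal.ofReal_add (by positivity) (by positivity)]
        congr 1
        field_simp
        ring

end main

end Crest.Agent.R154.QT244
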