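import Mathlib

/-!
Row 154, `d = 2` (helper730): variance of the quenched mean of a bounded test function
(Lindeberg / martingale over slabs), skeleton form.

* `B` finite set of states, `q k ω y` = quenched (sub-)law at slab `k` (`F k`-measurable),
  `D k ω y` = centred increment (`∫ w D = 0` for every bounded `F k`-measurable `w`),
  `M (k+1) - M k = ∑ q D`, and the pair covariance bound
  `∫ w D(y) D(y') ≤ ∫ w (c₁ 1{near y y'} + c₂)` for bounded `0 ≤ w` `F k`-measurable.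
* `sq_sum`: `∫ (M n - M 0)^2 ≤ ∑_{k<n} (c₁ ∫ ∑∑ q q' 1{near} + c₂)`.
* `incr`: the identity `M (k+1) - M k = ∑ q D` for `M = ∑ q φ`, `D y = ∑ K y z φ' z - φ y`.
* `cheb`: `P {M < c} ≤ (∫ (M - m)^2) / c^2` if `2 c ≤ m`.
-/

set_option autoImplicit false
set_option linter.unusedSectionVars false

namespace Crest.Agent.R154.QVar730

open MeasureTheory Finset
open scoped ENNReal BigOperators

variable {Ω : Type*} {m0 : MeasurableSpace Ω} {S : Type*}

/-- data of the slab martingale. -/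
structure Sys (P : Measure Ω) (F : ℕ → MeasurableSpace Ω) (B : Finset S) (n : ℕ)
    (q D : ℕ → Ω → S → ℝ) (M : ℕ → Ω → ℝ) : Prop where
  le : ∀ k, F k ≤ m0
  mono : ∀ k, F k ≤ F (k + 1)
  q0 : ∀ k ω y, 0 ≤ q k ω y
  q1 : ∀ k ω, ∑ y ∈ B, q k ω y ≤ 1
  qm : ∀ k y, StronglyMeasurable[F k] (fun ω => q k ω y)
  Dm : ∀ k y, StronglyMeasurable (fun ω => D k ω y)
  D1 : ∀ k ω y, |D k ω y| ≤ 1
  Mm : ∀ k, StronglyMeasurable[F k] (M k)
  M1 : ∀ k ω, |M k ω| ≤ 1
  inc : ∀ k < n, ∀ ω, M (k + 1) ω - M k ω = ∑ y ∈ B, q k ω y * D k ω y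
  cen : ∀ k < n, ∀ w : Ω → ℝ, StronglyMeasurable[F k] w → (∃ C, ∀ ω, |w ω| ≤ C) →
    ∀ y ∈ B, ∫ ω, w ω * D k ω y ∂P = 0

section
variable {P : Measure Ω} [IsProbabilityMeasure P] {F : ℕ → MeasurableSpace Ω} {B : Finset S}
  {n : ℕ} {q D : ℕ → Ω → S → ℝ} {M : ℕ → Ω → ℝ}

lemma int_of_bdd {f : Ω → ℝ} (hf : StronglyMeasurable f) {C : ℝ} (hC : ∀ ω, |f ω| ≤ C) :
    Integrable f P :=
  Integrable.of_bound (C := C) hf.aestronglyMeasurable
    (Filter.Eventually.of_forall fun ω => by rw [Real.norm_eq_abs]; exact hC ω)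

lemma Sys.q_le_one (h : Sys P F B n q D M) (k : ℕ) (ω : Ω) {y : S} (hy : y ∈ B) :
    q k ω y ≤ 1 :=
  (Finset.single_le_sum (f := fun y => q k ω y) (fun z _ => h.q0 k ω z) hy).trans (h.q1 k ω)

lemma Sys.mono' (h : Sys P F B n q D M) {j k : ℕ} (hjk : j ≤ k) : F j ≤ F k := by
  induction hjk with
  | refl => exact le_rfl
  | step _ ih => exact ih.trans (h.mono _)

/-- orthogonality of the increments. -/
theorem Sys.pyth (h : Sys P F B n q D M) {k : ℕ} (hk : k ≤ n) :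
    ∫ ω, (M k ω - M 0 ω) ^ 2 ∂P = ∑ j ∈ range k, ∫ ω, (M (j + 1) ω - M j ω) ^ 2 ∂P := by
  induction k with
  | zero => simp
  | succ k ih =>
    have hkn : k < n := hk
    rw [Finset.sum_range_succ, ← ih (by omega)]
    have hMk : ∀ j, StronglyMeasurable (M j) := fun j => (h.Mm j).mono (h.le j)
    have i1 : Integrable (fun ω => (M k ω - M 0 ω) ^ 2) P :=
      int_of_bdd (C := 4) (((hMk k).sub (hMk 0)).pow 2) fun ω => by
        have a := abs_le.1 (h.M1 k ω)
        have b := abs_le.1 (h.M1 0 ω)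
        rw [abs_le]
        constructor <;> nlinarith [sq_nonneg (M k ω - M 0 ω)]
    have i2 : Integrable (fun ω => (M (k + 1) ω - M k ω) ^ 2) P :=
      int_of_bdd (C := 4) (((hMk (k + 1)).sub (hMk k)).pow 2) fun ω => by
        have a := abs_le.1 (h.M1 (k + 1) ω)
        have b := abs_le.1 (h.M1 k ω)
        rw [abs_le]
        constructor <;> nlinarith [sq_nonneg (M (k + 1) ω - M k ω)]
    have i3 : Integrable (fun ω => 2 * (M k ω - M 0 ω) * (M (k + 1) ω - M k ω)) P :=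
      int_of_bdd (C := 8) ((((hMk k).sub (hMk 0)).const_mul 2).mul ((hMk (k + 1)).sub (hMk k)))
        fun ω => by
          have a := abs_le.1 (h.M1 k ω)
          have b := abs_le.1 (h.M1 0 ω)
          have c := abs_le.1 (h.M1 (k + 1) ω)
          simp only [abs_mul]
          have e1 : |M k ω - M 0 ω| ≤ 2 := by rw [abs_le]; constructor <;> linarith
          have e2 : |M (k + 1) ω - M k ω| ≤ 2 := by rw [abs_le]; constructor <;> linarith
          have e3 : |(2 : ℝ)| = 2 := by norm_num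
          rw [e3]
          nlinarith [abs_nonneg (M k ω - M 0 ω), abs_nonneg (M (k + 1) ω - M k ω)]
    have hz : ∫ ω, 2 * (M k ω - M 0 ω) * (M (k + 1) ω - M k ω) ∂P = 0 := by
      have : ∀ ω, 2 * (M k ω - M 0 ω) * (M (k + 1) ω - M k ω) =
          ∑ y ∈ B, (2 * (M k ω - M 0 ω) * q k ω y) * D k ω y := by
        intro ω
        rw [h.inc k hkn ω, Finset.mul_sum]
        exact Finset.sum_congr rfl fun y _ => by ring
      simp_rw [this]
      have hw : ∀ y, StronglyMeasurable[F k] (fun ω => 2 * (M k ω - M 0 ω) * q k ω y) := by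
        intro y
        have h0 : StronglyMeasurable[F k] (M 0) := (h.Mm 0).mono (h.mono' (Nat.zero_le k))
        exact (((h.Mm k).sub h0).const_mul 2).mul (h.qm k y)
      have hb : ∀ y ∈ B, ∀ ω, |2 * (M k ω - M 0 ω) * q k ω y| ≤ 4 := by
        intro y hy ω
        have a := abs_le.1 (h.M1 k ω)
        have b := abs_le.1 (h.M1 0 ω)
        have e1 : |M k ω - M 0 ω| ≤ 2 := by rw [abs_le]; constructor <;> linarith
        have q0 := h.q0 k ω y
        have q1 := h.q_le_one k ω hy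
        rw [abs_mul, abs_mul, abs_of_nonneg q0, abs_of_nonneg (by norm_num : (0 : ℝ) ≤ 2)]
        nlinarith [abs_nonneg (M k ω - M 0 ω), mul_le_mul e1 q1 q0 (by norm_num)]
      rw [integral_finsetSum]
      · exact Finset.sum_eq_zero fun y hy => h.cen k hkn _ (hw y) ⟨4, hb y hy⟩ y hy
      · intro y hy
        refine int_of_bdd (C := 4) (((hw y).mono (h.le k)).mul (h.Dm k y)) fun ω => ?_
        show |2 * (M k ω - M 0 ω) * q k ω y * D k ω y| ≤ 4
        rw [abs_mul]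
        have := hb y hy ω
        have d1 := h.D1 k ω y
        nlinarith [abs_nonneg (2 * (M k ω - M 0 ω) * q k ω y), abs_nonneg (D k ω y)]
    have e : (fun ω => (M (k + 1) ω - M 0 ω) ^ 2) = fun ω =>
        ((M k ω - M 0 ω) ^ 2 + 2 * (M k ω - M 0 ω) * (M (k + 1) ω - M k ω)) +
          (M (k + 1) ω - M k ω) ^ 2 := by
      funext ω; ring
    have i13 : Integrable (fun ω => (M k ω - M 0 ω) ^ 2 +
        2 * (M k ω - M 0 ω) * (M (k + 1) ω - M k ω)) P := i1.add i3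
    rw [e, integral_add i13 i2, integral_add i1 i3, hz, add_zero]

/-- one increment. -/
theorem Sys.incr_sq (h : Sys P F B n q D M) {k : ℕ} (hk : k < n)
    (near : S → S → Prop) [DecidableRel near] {c₁ c₂ : ℝ} (hc₂ : 0 ≤ c₂)
    (hcov : ∀ w : Ω → ℝ, StronglyMeasurable[F k] w → (∀ ω, 0 ≤ w ω) → (∀ ω, w ω ≤ 1) →
      ∀ y ∈ B, ∀ y' ∈ B, ∫ ω, w ω * (D k ω y * D k ω y') ∂P ≤
        ∫ ω, w ω * (c₁ * (if near y y' then 1 else 0) + c₂) ∂P) :
    ∫ ω, (M (k + 1) ω - M k ω) ^ 2 ∂P ≤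
      c₁ * ∫ ω, ∑ y ∈ B, ∑ y' ∈ B, q k ω y * q k ω y' * (if near y y' then 1 else 0) ∂P + c₂ := by
  have hq : ∀ y, StronglyMeasurable (fun ω => q k ω y) := fun y => (h.qm k y).mono (h.le k)
  have hb : ∀ y ∈ B, ∀ y' ∈ B, ∀ ω, 0 ≤ q k ω y * q k ω y' ∧ q k ω y * q k ω y' ≤ 1 := by
    intro y hy y' hy' ω
    have a0 := h.q0 k ω y
    have b0 := h.q0 k ω y'
    have a1 := h.q_le_one k ω hy
    have b1 := h.q_le_one k ω hy'
    exact ⟨mul_nonneg a0 b0, by nlinarith⟩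
  have e : (fun ω => (M (k + 1) ω - M k ω) ^ 2) = fun ω =>
      ∑ y ∈ B, ∑ y' ∈ B, q k ω y * q k ω y' * (D k ω y * D k ω y') := by
    funext ω
    rw [h.inc k hk ω, sq, Finset.sum_mul_sum]
    exact Finset.sum_congr rfl fun y _ => Finset.sum_congr rfl fun y' _ => by ring
  have iD : ∀ y ∈ B, ∀ y' ∈ B,
      Integrable (fun ω => q k ω y * q k ω y' * (D k ω y * D k ω y')) P := by
    intro y hy y' hy'
    refine int_of_bdd (C := 1) (((hq y).mul (hq y')).mul ((h.Dm k y).mul (h.Dm k y'))) fun ω => ?_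
    have := hb y hy y' hy' ω
    have d1 := h.D1 k ω y
    have d2 := h.D1 k ω y'
    show |q k ω y * q k ω y' * (D k ω y * D k ω y')| ≤ 1
    rw [abs_mul, abs_of_nonneg this.1, abs_mul]
    have : |D k ω y| * |D k ω y'| ≤ 1 := by
      nlinarith [abs_nonneg (D k ω y), abs_nonneg (D k ω y')]
    nlinarith [mul_nonneg (abs_nonneg (D k ω y)) (abs_nonneg (D k ω y'))]
  have iN : ∀ (c : ℝ), ∀ y ∈ B, ∀ y' ∈ B,
      Integrable (fun ω => q k ω y * q k ω y' * c) P := by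
    intro c y hy y' hy'
    refine int_of_bdd (C := |c|) (((hq y).mul (hq y')).mul_const c) fun ω => ?_
    have := hb y hy y' hy' ω
    show |q k ω y * q k ω y' * c| ≤ |c|
    rw [abs_mul, abs_of_nonneg this.1]
    nlinarith [abs_nonneg c]
  rw [e, integral_finsetSum _ (fun y hy => integrable_finsetSum _ fun y' hy' => iD y hy y' hy')]
  have step : ∀ y ∈ B, ∫ ω, ∑ y' ∈ B, q k ω y * q k ω y' * (D k ω y * D k ω y') ∂P ≤
      ∫ ω, ∑ y' ∈ B, q k ω y * q k ω y' * (c₁ * (if near y y' then 1 else 0) + c₂) ∂P := by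
    intro y hy
    rw [integral_finsetSum _ (fun y' hy' => iD y hy y' hy'),
      integral_finsetSum _ (fun y' hy' => iN _ y hy y' hy')]
    refine Finset.sum_le_sum fun y' hy' => ?_
    exact hcov (fun ω => q k ω y * q k ω y') ((h.qm k y).mul (h.qm k y'))
      (fun ω => (hb y hy y' hy' ω).1) (fun ω => (hb y hy y' hy' ω).2) y hy y' hy'
  refine (Finset.sum_le_sum step).trans ?_
  rw [← integral_finsetSum _ (fun y hy => integrable_finsetSum _ fun y' hy' => iN _ y hy y' hy')]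
  have i1 : Integrable (fun ω => ∑ y ∈ B, ∑ y' ∈ B,
      q k ω y * q k ω y' * (if near y y' then (1 : ℝ) else 0)) P :=
    integrable_finsetSum _ fun y hy => integrable_finsetSum _ fun y' hy' => iN _ y hy y' hy'
  have i2 : Integrable (fun ω => ∑ y ∈ B, ∑ y' ∈ B, q k ω y * q k ω y' * c₂) P :=
    integrable_finsetSum _ fun y hy => integrable_finsetSum _ fun y' hy' => iN _ y hy y' hy'
  have e2 : (fun ω => ∑ y ∈ B, ∑ y' ∈ B,
      q k ω y * q k ω y' * (c₁ * (if near y y' then 1 else 0) + c₂)) = fun ω =>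
      c₁ * (∑ y ∈ B, ∑ y' ∈ B, q k ω y * q k ω y' * (if near y y' then (1 : ℝ) else 0)) +
        ∑ y ∈ B, ∑ y' ∈ B, q k ω y * q k ω y' * c₂ := by
    funext ω
    rw [Finset.mul_sum, ← Finset.sum_add_distrib]
    refine Finset.sum_congr rfl fun y _ => ?_
    rw [Finset.mul_sum, ← Finset.sum_add_distrib]
    exact Finset.sum_congr rfl fun y' _ => by ring
  rw [e2, integral_add (i1.const_mul c₁) i2, integral_const_mul]
  gcongr
  calc ∫ ω, ∑ y ∈ B, ∑ y' ∈ B, q k ω y * q k ω y' * c₂ ∂P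
      ≤ ∫ _ω, c₂ ∂P := by
        refine integral_mono i2 (integrable_const _) fun ω => ?_
        have : ∑ y ∈ B, ∑ y' ∈ B, q k ω y * q k ω y' * c₂ =
            (∑ y ∈ B, q k ω y) * (∑ y ∈ B, q k ω y) * c₂ := by
          rw [Finset.sum_mul_sum, Finset.sum_mul]
          exact Finset.sum_congr rfl fun y _ => by rw [Finset.sum_mul]
        simp only [this]
        have s0 : 0 ≤ ∑ y ∈ B, q k ω y := Finset.sum_nonneg fun y _ => h.q0 k ω y
        have s1 := h.q1 k ω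
        have : (∑ y ∈ B, q k ω y) * (∑ y ∈ B, q k ω y) ≤ 1 := by nlinarith
        nlinarith
    _ = c₂ := by simp

/-- **variance of the quenched mean.** -/
theorem Sys.sq_sum (h : Sys P F B n q D M)
    (near : ℕ → S → S → Prop) [∀ k, DecidableRel (near k)] {c₁ c₂ : ℝ} (hc₂ : 0 ≤ c₂)
    (hcov : ∀ k < n, ∀ w : Ω → ℝ, StronglyMeasurable[F k] w → (∀ ω, 0 ≤ w ω) → (∀ ω, w ω ≤ 1) →
      ∀ y ∈ B, ∀ y' ∈ B, ∫ ω, w ω * (D k ω y * D k ω y') ∂P ≤
        ∫ ω, w ω * (c₁ * (if near k y y' then 1 else 0) + c₂) ∂P) :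
    ∫ ω, (M n ω - M 0 ω) ^ 2 ∂P ≤ ∑ k ∈ range n,
      (c₁ * ∫ ω, ∑ y ∈ B, ∑ y' ∈ B, q k ω y * q k ω y' * (if near k y y' then 1 else 0) ∂P
        + c₂) := by
  rw [h.pyth le_rfl]
  exact Finset.sum_le_sum fun k hk =>
    h.incr_sq (Finset.mem_range.1 hk) (near k) hc₂ (hcov k (Finset.mem_range.1 hk))

end

/-- the increment identity: `M = ∑ q φ`, `q' z = ∑ q y K y z`, `D y = ∑ K y z φ' z - φ y`. -/
theorem incr (B : Finset S) (q q' φ φ' : S → ℝ) (K : S → S → ℝ)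
    (hq : ∀ z ∈ B, q' z = ∑ y ∈ B, q y * K y z) :
    ∑ z ∈ B, q' z * φ' z - ∑ y ∈ B, q y * φ y =
      ∑ y ∈ B, q y * ((∑ z ∈ B, K y z * φ' z) - φ y) := by
  have : ∑ z ∈ B, q' z * φ' z = ∑ y ∈ B, q y * ∑ z ∈ B, K y z * φ' z := by
    calc ∑ z ∈ B, q' z * φ' z = ∑ z ∈ B, ∑ y ∈ B, q y * K y z * φ' z :=
          Finset.sum_congr rfl fun z hz => by rw [hq z hz, Finset.sum_mul]
      _ = ∑ y ∈ B, ∑ z ∈ B, q y * K y z * φ' z := Finset.sum_comm
      _ = _ := Finset.sum_congr rfl fun y _ => by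
          rw [Finset.mul_sum]
          exact Finset.sum_congr rfl fun z _ => by ring
  rw [this, ← Finset.sum_sub_distrib]
  exact Finset.sum_congr rfl fun y _ => by ring

/-- Chebyshev: a random variable close to `m ≥ 2 c` in `L²` is rarely below `c`. -/
theorem cheb {P : Measure Ω} [IsProbabilityMeasure P] {M : Ω → ℝ} (hM : StronglyMeasurable M)
    {C : ℝ} (hC : ∀ ω, |M ω| ≤ C) {m c : ℝ} (hc : 0 < c) (hm : 2 * c ≤ m) :
    P.real {ω | M ω < c} ≤ (∫ ω, (M ω - m) ^ 2 ∂P) / c ^ 2 := by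
  have i1 : Integrable (fun ω => (M ω - m) ^ 2) P :=
    int_of_bdd (C := (C + |m|) ^ 2) ((hM.sub stronglyMeasurable_const).pow 2) fun ω => by
      have h1 := abs_le.1 (hC ω)
      have h2 := abs_le.1 (le_refl |m|)
      have e : |M ω - m| ≤ C + |m| := by rw [abs_le]; constructor <;> linarith
      rw [abs_pow]
      exact pow_le_pow_left₀ (abs_nonneg _) e 2
  have hsub : {ω | M ω < c} ⊆ {ω | c ^ 2 ≤ (M ω - m) ^ 2} := by
    intro ω hω
    simp only [Set.mem_ofPred_eq] at hω ⊢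
    nlinarith
  have hmk := mul_meas_ge_le_integral_of_nonneg (μ := P) (f := fun ω => (M ω - m) ^ 2)
    (Filter.Eventually.of_forall fun ω => sq_nonneg _) i1 (c ^ 2)
  rw [le_div_iff₀ (by positivity), mul_comm]
  refine le_trans ?_ hmk
  exact mul_le_mul_of_nonneg_left (measureReal_mono hsub) (sq_nonneg c)

end Crest.Agent.R154.QVar730
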