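import Crest.Prelude.Def_RWRE

/-! R154 B0: the quenched law of the walk: cylinders, extensionality, measurability in the
environment, Markov and strong Markov property, locality, shift covariance. -/

set_option autoImplicit false

open MeasureTheory ProbabilityTheory
open scoped ENNReal

namespace Crest.Agent.R154.Q561

open Crest.ProbabilityR.RandomEnvironment

variable {d : ℕ}

/-- paths -/
abbrev Path (d : ℕ) : Type := ℕ → Site d

/-- cylinder: the paths which agree with `γ` up to time `n` -/
def Cyl (γ : Path d) (n : ℕ) : Set (Path d) := {X | ∀ k ≤ n, X k = γ k}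

/-- quenched probability of one step from `x` to `y` -/
noncomputable def stepP (ω : Environment d) (x y : Site d) : ℝ≥0∞ := oneStepLaw ω x {y}

/-- quenched weight of the first `n` steps of `γ` -/
noncomputable def pathW (ω : Environment d) (γ : Path d) (n : ℕ) : ℝ≥0∞ :=
  ∏ k ∈ Finset.range n, stepP ω (γ k) (γ (k + 1))

/-- the set `A` depends on the coordinates `0, …, n` only -/
def DepOn (n : ℕ) (A : Set (Path d)) : Prop :=
  ∀ X Y : Path d, (∀ k ≤ n, X k = Y k) → X ∈ A → Y ∈ A

/-- time shift of a path -/
def sh (n : ℕ) (X : Path d) : Path d := fun k => X (n + k)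

theorem measurableSet_cyl (γ : Path d) (n : ℕ) : MeasurableSet (Cyl γ n) := by
  have : Cyl γ n = ⋂ k ∈ Finset.range (n + 1), (fun X : Path d => X k) ⁻¹' {γ k} := by
    ext X; simp [Cyl]
  rw [this]
  exact Finset.measurableSet_biInter _ fun k _ =>
    measurable_pi_apply k (measurableSet_singleton _)

theorem mem_cyl_self (γ : Path d) (n : ℕ) : γ ∈ Cyl γ n := fun _ _ => rfl

theorem measurable_sh (n : ℕ) : Measurable (sh n : Path d → Path d) :=
  measurable_pi_lambda _ fun k => measurable_pi_apply (n + k)

instance isProb_quenchedLaw (ω : Environment d) (x : Site d) :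
    IsProbabilityMeasure (quenchedLaw ω x) := by
  unfold quenchedLaw; infer_instance

theorem isProb_oneStepLaw (ω : Environment d) (x : Site d) :
    IsProbabilityMeasure (oneStepLaw ω x) := by
  refine ⟨?_⟩
  have hx := (ω x).2
  simp only [oneStepLaw, Measure.coe_finsetSum, Measure.coe_smul, Finset.sum_apply,
    Pi.smul_apply, measure_univ, smul_eq_mul, mul_one]
  rw [← ENNReal.ofReal_sum_of_nonneg (fun e _ => hx.1 e), hx.2, ENNReal.ofReal_one]

attribute [instance] isProb_oneStepLaw

theorem stepP_eq (ω : Environment d) (x y : Site d) :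
    stepP ω x y = ∑ e : Step d, if x + stepVec e = y then ENNReal.ofReal ((ω x).1 e) else 0 := by
  unfold stepP oneStepLaw
  simp only [Measure.coe_finsetSum, Measure.coe_smul, Finset.sum_apply,
    Pi.smul_apply, smul_eq_mul]
  refine Finset.sum_congr rfl fun e _ => ?_
  rw [Measure.dirac_apply' _ (measurableSet_singleton y)]
  by_cases h : x + stepVec e = y
  · simp [h]
  · simp [h]

theorem map_zero (ω : Environment d) (x : Site d) :
    (quenchedLaw ω x).map (fun X => X 0) = Measure.dirac x := by
  have h1 : (quenchedLaw ω x).map (Preorder.frestrictLe 0)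
      = (Measure.dirac x).map (MeasurableEquiv.piUnique _).symm := by
    unfold quenchedLaw
    rw [Kernel.trajMeasure, Measure.map_comp _ _ (by fun_prop),
      Kernel.traj_map_frestrictLe, Kernel.partialTraj_self, Measure.id_comp]
  have h2 : (fun X : ℕ → Site d => X 0)
      = (fun x : (i : Finset.Iic 0) → Site d => x ⟨0, by simp⟩) ∘ (Preorder.frestrictLe 0) := by
    funext π; rfl
  rw [h2, ← Measure.map_map (measurable_pi_apply _) (by fun_prop), h1,
    Measure.map_map (measurable_pi_apply _) (by fun_prop)]
  have h3 : (fun x : (i : Finset.Iic 0) → Site d => x ⟨0, by simp⟩) ∘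
      (MeasurableEquiv.piUnique (fun _ : Finset.Iic 0 => Site d)).symm = id := by
    funext y
    rfl
  exact (congrArg (fun f => Measure.map f (Measure.dirac x)) h3).trans Measure.map_id

/-- **(q1)** probability of a cylinder -/
theorem quenched_cyl (ω : Environment d) (x : Site d) (γ : Path d) (n : ℕ) :
    quenchedLaw ω x (Cyl γ n) = if γ 0 = x then pathW ω γ n else 0 := by
  induction n with
  | zero =>
    have h : Cyl γ 0 = (fun X : Path d => X 0) ⁻¹' {γ 0} := by
      ext X; simp [Cyl]
    rw [h, ← Measure.map_apply (measurable_pi_apply 0) (measurableSet_singleton _), map_zero,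
      Measure.dirac_apply' _ (measurableSet_singleton _)]
    by_cases h0 : γ 0 = x
    · simp [h0, pathW]
    · have : x ≠ γ 0 := fun h => h0 h.symm
      simp [h0, this]
  | succ n ih =>
    set P := quenchedLaw ω x with hP
    have hmap : P.map (Preorder.frestrictLe n) ⊗ₘ historyKernel ω n
        = P.map (fun x => (Preorder.frestrictLe n x, x (n + 1))) :=
      Kernel.map_frestrictLe_trajMeasure_compProd_eq_map_trajMeasure
    have hfl : Measurable (Preorder.frestrictLe (π := fun _ : ℕ => Site d) n) := by fun_prop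
    have : IsProbabilityMeasure (P.map (Preorder.frestrictLe (π := fun _ : ℕ => Site d) n)) :=
      Measure.isProbabilityMeasure_map hfl.aemeasurable
    have hset : Cyl γ (n + 1) = (fun x : Path d => (Preorder.frestrictLe n x, x (n + 1))) ⁻¹'
        ({Preorder.frestrictLe n γ} ×ˢ {γ (n + 1)}) := by
      ext X
      simp only [Cyl, Set.mem_ofPred_eq, Set.mem_preimage, Set.mem_prod, Set.mem_singleton_iff]
      constructor
      · intro h
        refine ⟨?_, h _ le_rfl⟩
        funext i
        exact h i.1 (Nat.le_succ_of_le (Finset.mem_Iic.1 i.2))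
      · rintro ⟨h1, h2⟩ k hk
        rcases Nat.lt_or_ge k (n + 1) with h | h
        · have := congrFun h1 ⟨k, Finset.mem_Iic.2 (Nat.lt_succ_iff.1 h)⟩
          exact this
        · have : k = n + 1 := le_antisymm hk h
          subst this; exact h2
    have hset' : Cyl γ n = (Preorder.frestrictLe (π := fun _ : ℕ => Site d) n) ⁻¹'
        {Preorder.frestrictLe n γ} := by
      ext X
      simp only [Cyl, Set.mem_ofPred_eq, Set.mem_preimage, Set.mem_singleton_iff]
      constructor
      · intro h
        funext i
        exact h i.1 (Finset.mem_Iic.1 i.2)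
      · intro h1 k hk
        exact congrFun h1 ⟨k, Finset.mem_Iic.2 hk⟩
    rw [hset, ← Measure.map_apply (by fun_prop)
      ((measurableSet_singleton _).prod (measurableSet_singleton _)), ← hmap,
      Measure.compProd_apply_prod (measurableSet_singleton _) (measurableSet_singleton _),
      lintegral_singleton, Measure.map_apply hfl (measurableSet_singleton _), ← hset', ih]
    have hk : historyKernel ω n (Preorder.frestrictLe n γ) {γ (n + 1)}
        = stepP ω (γ n) (γ (n + 1)) := rfl
    rw [hk]
    by_cases h0 : γ 0 = x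
    · simp only [h0, if_true, pathW]
      rw [Finset.prod_range_succ, mul_comm]
    · simp [h0]


/-! ### finite histories -/

/-- extension of a finite history by `0` -/
noncomputable def extH (n : ℕ) (h : (Finset.Iic n) → Site d) : Path d :=
  fun k => if hk : k ≤ n then h ⟨k, Finset.mem_Iic.2 hk⟩ else 0

theorem mem_cyl_extH (n : ℕ) (X : Path d) :
    X ∈ Cyl (extH n (fun i : Finset.Iic n => X i.1)) n := by
  intro k hk
  simp [extH, hk]

theorem cyl_extH_disjoint (n : ℕ) {h h' : (Finset.Iic n) → Site d} (hne : h ≠ h') :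
    Disjoint (Cyl (extH n h) n) (Cyl (extH n h') n) := by
  rw [Set.disjoint_left]
  intro X h1 h2
  apply hne
  funext i
  have hi : i.1 ≤ n := Finset.mem_Iic.1 i.2
  have e1 := h1 i.1 hi
  have e2 := h2 i.1 hi
  simp only [extH, hi, dite_true] at e1 e2
  exact e1.symm.trans e2

theorem DepOn.eq_iUnion {n : ℕ} {A : Set (Path d)} (hA : DepOn n A) :
    A = ⋃ h : {h : (Finset.Iic n) → Site d // extH n h ∈ A}, Cyl (extH n h.1) n := by
  ext X
  simp only [Set.mem_iUnion]
  constructor
  · intro hX
    have hc := mem_cyl_extH n X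
    exact ⟨⟨_, hA X _ hc hX⟩, hc⟩
  · rintro ⟨h, hX⟩
    exact hA _ X (fun k hk => (hX k hk).symm) h.2

theorem DepOn.measurableSet {n : ℕ} {A : Set (Path d)} (hA : DepOn n A) : MeasurableSet A := by
  rw [hA.eq_iUnion]
  exact MeasurableSet.iUnion fun h => measurableSet_cyl _ _

theorem DepOn.mono {n m : ℕ} (hnm : n ≤ m) {A : Set (Path d)} (hA : DepOn n A) : DepOn m A :=
  fun X Y h hX => hA X Y (fun k hk => h k (hk.trans hnm)) hX

theorem DepOn.inter {n : ℕ} {A B : Set (Path d)} (hA : DepOn n A) (hB : DepOn n B) :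
    DepOn n (A ∩ B) := fun X Y h hX => ⟨hA X Y h hX.1, hB X Y h hX.2⟩

theorem DepOn.union {n : ℕ} {A B : Set (Path d)} (hA : DepOn n A) (hB : DepOn n B) :
    DepOn n (A ∪ B) := fun X Y h hX => hX.imp (hA X Y h) (hB X Y h)

theorem DepOn.compl {n : ℕ} {A : Set (Path d)} (hA : DepOn n A) : DepOn n Aᶜ :=
  fun X Y h hX hY => hX (hA Y X (fun k hk => (h k hk).symm) hY)

theorem DepOn.diff {n : ℕ} {A B : Set (Path d)} (hA : DepOn n A) (hB : DepOn n B) :
    DepOn n (A \ B) := hA.inter hB.compl

theorem depOn_cyl (γ : Path d) (n : ℕ) : DepOn n (Cyl γ n) :=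
  fun X Y h hX k hk => (h k hk).symm.trans (hX k hk)

theorem depOn_univ (n : ℕ) : DepOn n (Set.univ : Set (Path d)) := fun _ _ _ _ => trivial

theorem depOn_iUnion {ι : Sort*} {n : ℕ} {A : ι → Set (Path d)} (h : ∀ i, DepOn n (A i)) :
    DepOn n (⋃ i, A i) := by
  intro X Y hXY hX
  obtain ⟨i, hi⟩ := Set.mem_iUnion.1 hX
  exact Set.mem_iUnion.2 ⟨i, h i X Y hXY hi⟩

theorem depOn_iInter {ι : Sort*} {n : ℕ} {A : ι → Set (Path d)} (h : ∀ i, DepOn n (A i)) :
    DepOn n (⋂ i, A i) := by
  intro X Y hXY hX
  exact Set.mem_iInter.2 fun i => h i X Y hXY (Set.mem_iInter.1 hX i)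

/-- the events at one time -/
theorem depOn_coord {n k : ℕ} (hk : k ≤ n) (S : Set (Site d)) : DepOn n {X : Path d | X k ∈ S} := by
  intro X Y h hX
  have := h k hk
  change Y k ∈ S
  rw [← this]; exact hX

theorem isPiSystem_cyl : IsPiSystem {A : Set (Path d) | ∃ γ n, A = Cyl γ n} := by
  rintro _ ⟨γ, n, rfl⟩ _ ⟨δ, m, rfl⟩ ⟨X, hX1, hX2⟩
  rcases le_total n m with h | h
  · refine ⟨δ, m, ?_⟩
    ext Y
    refine ⟨fun hY => hY.2, fun hY => ⟨fun k hk => ?_, hY⟩⟩
    rw [hY k (hk.trans h), ← hX2 k (hk.trans h), hX1 k hk]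
  · refine ⟨γ, n, ?_⟩
    ext Y
    refine ⟨fun hY => hY.1, fun hY => ⟨hY, fun k hk => ?_⟩⟩
    rw [hY k (hk.trans h), ← hX1 k (hk.trans h), hX2 k hk]

theorem generateFrom_cyl :
    (MeasurableSpace.pi : MeasurableSpace (Path d))
      = MeasurableSpace.generateFrom {A : Set (Path d) | ∃ γ n, A = Cyl γ n} := by
  apply le_antisymm
  · refine iSup_le fun k => ?_
    rintro A ⟨S, -, rfl⟩
    have hd : DepOn k ((fun X : Path d => X k) ⁻¹' S) := depOn_coord le_rfl S
    rw [hd.eq_iUnion]
    exact MeasurableSet.iUnion fun h => MeasurableSpace.measurableSet_generateFrom ⟨_, _, rfl⟩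
  · refine MeasurableSpace.generateFrom_le ?_
    rintro _ ⟨γ, n, rfl⟩
    exact measurableSet_cyl γ n

/-- a finite measure on paths is determined by the cylinders -/
theorem ext_cyl {μ ν : Measure (Path d)} [IsFiniteMeasure μ] (huniv : μ Set.univ = ν Set.univ)
    (h : ∀ γ n, μ (Cyl γ n) = ν (Cyl γ n)) : μ = ν := by
  refine ext_of_generate_finite _ generateFrom_cyl isPiSystem_cyl ?_ huniv
  rintro _ ⟨γ, n, rfl⟩
  exact h γ n

theorem ext_cyl_prob {μ ν : Measure (Path d)} [IsProbabilityMeasure μ] [IsProbabilityMeasure ν]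
    (h : ∀ γ n, μ (Cyl γ n) = ν (Cyl γ n)) : μ = ν :=
  ext_cyl (by simp) h

/-- the measure of a set depending on finitely many coordinates -/
theorem measure_depOn (μ : Measure (Path d)) {n : ℕ} {A : Set (Path d)} (hA : DepOn n A) :
    μ A = ∑' h : {h : (Finset.Iic n) → Site d // extH n h ∈ A}, μ (Cyl (extH n h.1) n) := by
  conv_lhs => rw [hA.eq_iUnion]
  refine measure_iUnion ?_ fun h => measurableSet_cyl _ _
  intro h h' hne
  exact cyl_extH_disjoint n fun he => hne (Subtype.ext he)

theorem lintegral_depOn (μ : Measure (Path d)) {n : ℕ} {A : Set (Path d)} (hA : DepOn n A)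
    (F : Path d → ℝ≥0∞) :
    ∫⁻ X in A, F X ∂μ
      = ∑' h : {h : (Finset.Iic n) → Site d // extH n h ∈ A}, ∫⁻ X in Cyl (extH n h.1) n, F X ∂μ := by
  conv_lhs => rw [hA.eq_iUnion]
  refine lintegral_iUnion (fun h => measurableSet_cyl _ _) ?_ _
  intro h h' hne
  exact cyl_extH_disjoint n fun he => hne (Subtype.ext he)

/-! ### measurability in the environment -/

theorem measurable_stepP (x y : Site d) : Measurable fun ω : Environment d => stepP ω x y := by
  simp only [stepP_eq]
  refine Finset.measurable_sum _ fun e _ => ?_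
  split_ifs
  · have h1 : Measurable fun ω : Environment d => (ω x).1 e := by
      have : Measurable fun r : Row d => r.1 e :=
        (measurable_pi_apply e).comp measurable_subtype_coe
      exact this.comp (measurable_pi_apply x)
    exact ENNReal.measurable_ofReal.comp h1
  · exact measurable_const

theorem measurable_pathW (γ : Path d) (n : ℕ) :
    Measurable fun ω : Environment d => pathW ω γ n :=
  Finset.measurable_prod _ fun k _ => measurable_stepP _ _

theorem measurable_quenchedLaw (x : Site d) :
    Measurable fun ω : Environment d => quenchedLaw ω x := by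
  refine Measurable.measure_of_isPiSystem_of_isProbabilityMeasure generateFrom_cyl
    isPiSystem_cyl ?_
  rintro _ ⟨γ, n, rfl⟩
  simp only [quenched_cyl]
  split_ifs
  · exact measurable_pathW γ n
  · exact measurable_const

theorem measurable_quenched_apply (x : Site d) {B : Set (Path d)} (hB : MeasurableSet B) :
    Measurable fun ω : Environment d => quenchedLaw ω x B :=
  (Measure.measurable_coe hB).comp (measurable_quenchedLaw x)

/-- the quenched law as a kernel -/
noncomputable def qK (x : Site d) : Kernel (Environment d) (Path d) :=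
  ⟨fun ω => quenchedLaw ω x, measurable_quenchedLaw x⟩

instance (x : Site d) : IsMarkovKernel (qK x) := ⟨fun ω => isProb_quenchedLaw ω x⟩

theorem qK_apply (x : Site d) (ω : Environment d) : qK x ω = quenchedLaw ω x := rfl

/-- the annealed law -/
noncomputable def annLaw (Q : Measure (Environment d)) (x : Site d) : Measure (Path d) :=
  Q.bind (qK x)

theorem annLaw_apply (Q : Measure (Environment d)) (x : Site d) {B : Set (Path d)}
    (hB : MeasurableSet B) : annLaw Q x B = annealedProb Q x B := by
  unfold annLaw annealedProb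
  rw [Measure.bind_apply hB (qK x).measurable.aemeasurable]
  rfl

instance annLaw_isProb (Q : Measure (Environment d)) [IsProbabilityMeasure Q] (x : Site d) :
    IsProbabilityMeasure (annLaw Q x) := by
  refine ⟨?_⟩
  rw [annLaw_apply Q x MeasurableSet.univ]
  simp [annealedProb]

theorem annealedProb_cyl (Q : Measure (Environment d)) (x : Site d) (γ : Path d) (n : ℕ) :
    annealedProb Q x (Cyl γ n) = if γ 0 = x then ∫⁻ ω, pathW ω γ n ∂Q else 0 := by
  unfold annealedProb
  simp only [quenched_cyl]
  split_ifs <;> simp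

end Crest.Agent.R154.Q561
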