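import Crest.Agent.R154.MS_797

/-!
Row 154, block B8 (TILE, irregular runs): [RW1] (539 #30193 (3)).  If the tail of the (symmetrised)
jump measure is slowly varying above `b₀` (it loses at most the fraction `1 - q` of its mass when
the threshold is multiplied by `320`), then the concentration function at window `b₀` is at most
a large negative power of the number of jumps above `b₀`.
-/

open MeasureTheory Set
open scoped BigOperators ENNReal NNReal

namespace Crest.Agent.R154.RW1797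

open Crest.Agent.R154.MS797

/-- The (open) tail. -/
noncomputable def G (ν : Measure ℝ) (b : ℝ) : ℝ := ν.real {x | b < |x|}

theorem measurableSet_tail (b : ℝ) : MeasurableSet {x : ℝ | b < |x|} :=
  measurableSet_lt measurable_const (by fun_prop)

theorem G_nonneg (ν : Measure ℝ) (b : ℝ) : 0 ≤ G ν b := measureReal_nonneg

theorem G_anti (ν : Measure ℝ) [IsFiniteMeasure ν] {b b' : ℝ} (h : b ≤ b') : G ν b' ≤ G ν b :=
  measureReal_mono (fun _ hx => lt_of_le_of_lt h hx)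

/-- If the tail at `lo` exceeds `M`, some range `[lo, lo 2^n]` has mass at least `M`. -/
theorem exists_range (ν : Measure ℝ) [IsFiniteMeasure ν] {lo M : ℝ} (hlo : 0 < lo)
    (h : M < G ν lo) : ∃ n : ℕ, M ≤ ν.real (Rg lo (lo * 2 ^ n)) := by
  have h1 : Filter.Tendsto (fun n : ℕ => ν (Rg lo (lo * 2 ^ n))) Filter.atTop
      (nhds (ν (⋃ n : ℕ, Rg lo (lo * 2 ^ n)))) := by
    refine tendsto_measure_iUnion_atTop ?_
    intro n n' hn x hx
    refine ⟨hx.1, hx.2.trans ?_⟩
    exact mul_le_mul_of_nonneg_left (pow_le_pow_right₀ (by norm_num) hn) hlo.le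
  have h2 : {x : ℝ | lo < |x|} ⊆ ⋃ n : ℕ, Rg lo (lo * 2 ^ n) := by
    intro x hx
    obtain ⟨n, hn⟩ := pow_unbounded_of_one_lt (|x| / lo) (by norm_num : (1:ℝ) < 2)
    refine mem_iUnion.2 ⟨n, (le_of_lt hx), ?_⟩
    rw [div_lt_iff₀ hlo] at hn
    linarith
  have h3 : Filter.Tendsto (fun n : ℕ => ν.real (Rg lo (lo * 2 ^ n))) Filter.atTop
      (nhds (ν.real (⋃ n : ℕ, Rg lo (lo * 2 ^ n)))) :=
    (ENNReal.tendsto_toReal (measure_ne_top _ _)).comp h1
  have h4 : M < ν.real (⋃ n : ℕ, Rg lo (lo * 2 ^ n)) :=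
    h.trans_le (measureReal_mono h2)
  obtain ⟨n, hn⟩ := (h3.eventually (lt_mem_nhds h4)).exists
  exact ⟨n, hn.le⟩

/-- One greedy step. -/
theorem greedy_step (ν : Measure ℝ) [IsFiniteMeasure ν] {b₀ q τ M lo : ℝ} (hM : 0 ≤ M)
    (hb₀ : 0 < b₀) (hq : 0 ≤ q)
    (hslow : ∀ b, b₀ ≤ b → τ ≤ G ν b → q * G ν b ≤ G ν (32 * (1 + M) * b))
    (hlo : b₀ ≤ lo) (hτ : 0 < τ) (hG : M + τ ≤ G ν lo) :
    ∃ hi lo' : ℝ, M ≤ ν.real (Rg lo hi) ∧ 16 * (1 + M) * hi ≤ lo' ∧ b₀ ≤ lo' ∧
      q * (G ν lo - M) ≤ G ν lo' := by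
  classical
  have hlo0 : 0 < lo := by linarith
  have hex := exists_range ν hlo0 (M := M) (by linarith)
  set n := Nat.find hex with hn
  have hn1 : M ≤ ν.real (Rg lo (lo * 2 ^ n)) := Nat.find_spec hex
  -- the base point
  obtain ⟨b, hb1, hb2, hb3⟩ : ∃ b, lo ≤ b ∧ lo * 2 ^ n ≤ 2 * b ∧ G ν lo - M ≤ G ν b := by
    rcases Nat.eq_zero_or_pos n with h0 | h0
    · refine ⟨lo, le_rfl, ?_, by linarith⟩
      rw [h0]; linarith
    · refine ⟨lo * 2 ^ (n - 1), ?_, ?_, ?_⟩
      · exact le_mul_of_one_le_right hlo0.le (one_le_pow₀ (by norm_num))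
      · have : (2:ℝ) ^ n = 2 * 2 ^ (n - 1) := by
          rw [← pow_succ']; congr 1; omega
        rw [this]; linarith [this]
      · have h1 : ν.real (Rg lo (lo * 2 ^ (n - 1))) < M :=
          not_le.1 (Nat.find_min hex (by omega))
        have h2 : {x : ℝ | lo < |x|} ⊆
            Rg lo (lo * 2 ^ (n - 1)) ∪ {x : ℝ | lo * 2 ^ (n - 1) < |x|} := by
          intro x hx
          rcases le_or_gt |x| (lo * 2 ^ (n - 1)) with h3 | h3
          · exact Or.inl ⟨le_of_lt hx, h3⟩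
          · exact Or.inr h3
        have h3 : G ν lo ≤ ν.real (Rg lo (lo * 2 ^ (n - 1))) + G ν (lo * 2 ^ (n - 1)) :=
          (measureReal_mono h2).trans (measureReal_union_le _ _)
        linarith
  have hb0 : 0 < b := by linarith
  refine ⟨lo * 2 ^ n, 32 * (1 + M) * b, hn1, ?_, ?_, ?_⟩
  · calc 16 * (1 + M) * (lo * 2 ^ n) ≤ 16 * (1 + M) * (2 * b) :=
          mul_le_mul_of_nonneg_left hb2 (by positivity)
      _ = _ := by ring
  · nlinarith [mul_nonneg hM hb0.le]
  · refine le_trans ?_ (hslow b (by linarith) (by linarith))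
    exact mul_le_mul_of_nonneg_left hb3 hq

/-- The lower bound for the tail after `r` greedy steps. -/
noncomputable def tt (q M t : ℝ) : ℕ → ℝ
  | 0 => t
  | r + 1 => q * (tt q M t r - M)

theorem tt_shift (q M t : ℝ) (r : ℕ) : tt q M (q * (t - M)) r = tt q M t (r + 1) := by
  induction r with
  | zero => rfl
  | succ r ih =>
    change q * (tt q M (q * (t - M)) r - M) = q * (tt q M t (r + 1) - M)
    rw [ih]

theorem tt_mono {q M : ℝ} (hq : 0 ≤ q) {t t' : ℝ} (h : t ≤ t') (r : ℕ) :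
    tt q M t r ≤ tt q M t' r := by
  induction r with
  | zero => exact h
  | succ r ih => exact mul_le_mul_of_nonneg_left (by linarith) hq

/-- The greedy construction of `k` separated ranges of mass at least `M`. -/
theorem greedy (ν : Measure ℝ) [IsFiniteMeasure ν] {b₀ q τ M : ℝ} (hM : 0 ≤ M)
    (hb₀ : 0 < b₀) (hq : 0 ≤ q) (hτ : 0 < τ)
    (hslow : ∀ b, b₀ ≤ b → τ ≤ G ν b → q * G ν b ≤ G ν (32 * (1 + M) * b)) :
    ∀ (k : ℕ) (lo₀ t : ℝ), b₀ ≤ lo₀ → t ≤ G ν lo₀ → (∀ r < k, M + τ ≤ tt q M t r) →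
    ∃ lo hi : ℕ → ℝ, lo 0 = lo₀ ∧ (∀ r < k, M ≤ ν.real (Rg (lo r) (hi r))) ∧
      (∀ r, r + 1 < k → 16 * (1 + M) * hi r ≤ lo (r + 1)) := by
  intro k
  induction k with
  | zero =>
    intro lo₀ t _ _ _
    exact ⟨fun _ => lo₀, fun _ => 0, rfl, fun r h => absurd h (by omega),
      fun r h => absurd h (by omega)⟩
  | succ k ih =>
    intro lo₀ t hlo ht hr
    have h0 := hr 0 (by omega)
    have h0' : M + τ ≤ t := h0
    obtain ⟨hi0, lo', h1, h2, h3, h4⟩ := greedy_step ν hM hb₀ hq hslow hlo hτ (h0'.trans ht)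
    have h5 : q * (t - M) ≤ G ν lo' :=
      (mul_le_mul_of_nonneg_left (by linarith) hq).trans h4
    obtain ⟨lo, hi, e0, e1, e2⟩ := ih lo' (q * (t - M)) h3 h5 (fun r h => by
      rw [tt_shift]; exact hr (r + 1) (by omega))
    refine ⟨fun r => Nat.casesOn r lo₀ lo, fun r => Nat.casesOn r hi0 hi, rfl, ?_, ?_⟩
    · intro r h
      cases r with
      | zero => exact h1
      | succ r => exact e1 r (by omega)
    · intro r h
      cases r with
      | zero =>
        change 16 * (1 + M) * hi0 ≤ lo 0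
        rw [e0]; exact h2
      | succ r => exact e2 r (by omega)

theorem tt_eq {q M : ℝ} (hq1 : q < 1) (t : ℝ) (r : ℕ) :
    tt q M t r = (t + M * q / (1 - q)) * q ^ r - M * q / (1 - q) := by
  have h1 : (1 - q) ≠ 0 := by linarith
  induction r with
  | zero => simp [tt]
  | succ r ih =>
    change q * (tt q M t r - M) = _
    rw [ih]
    field_simp
    ring

/-- **[RW1], measure form.**  `320 = 32 (1 + 9)`; `p` is any exponent with `1/3 ≤ q^p`. -/
theorem rw1_cf (μ : Measure ℝ) [IsProbabilityMeasure μ] (ν : Measure ℝ) [IsFiniteMeasure ν]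
    {b₀ q τ : ℝ} (hb₀ : 0 < b₀) (hq : 0 < q) (hq1 : q < 1) (hτ : 0 < τ)
    (hcf : ∀ θ : ℝ, |θ| ≤ 1 / b₀ → ‖charFun μ θ‖ ≤ Real.exp (-∫ x, (1 - Real.cos (θ * x)) ∂ν))
    (hslow : ∀ b, b₀ ≤ b → τ ≤ G ν b → q * G ν b ≤ G ν (320 * b))
    {p : ℕ} (hp : 1 / 3 ≤ q ^ p) (z : ℝ) :
    μ.real {x | |x - z| ≤ b₀} ≤
      12 * ((9 / (1 - q) + τ) / (9 * q / (1 - q) + G ν b₀)) ^ p := by
  have hq' : 0 < 1 - q := by linarith
  set t := G ν b₀ with ht
  have ht0 : 0 ≤ t := G_nonneg ν b₀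
  set U : ℝ := 9 / (1 - q) + τ with hU
  set V : ℝ := 9 * q / (1 - q) + t with hV
  have hU0 : 0 < U := by positivity
  have hV0 : 0 < V := by positivity
  rcases lt_or_ge V U with hVU | hVU
  · have h1 : 1 ≤ (U / V) ^ p := one_le_pow₀ ((one_le_div hV0).2 hVU.le)
    have h2 : μ.real {x | |x - z| ≤ b₀} ≤ 1 := measureReal_le_one
    linarith
  · -- the number of ranges
    obtain ⟨k, hk1, hk2⟩ := exists_nat_pow_near (x := V / U) (y := 1 / q)
      ((one_le_div hU0).2 hVU) ((one_lt_div hq).2 hq1)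
    rw [one_div, inv_pow, inv_eq_one_div, le_div_iff₀ hU0, one_div_mul_eq_div,
      div_le_iff₀ (by positivity)] at hk1
    rw [one_div, inv_pow, inv_eq_one_div, div_lt_div_iff₀ hU0 (by positivity)] at hk2
    have hs : ∀ b, b₀ ≤ b → τ ≤ G ν b → q * G ν b ≤ G ν (32 * (1 + 9) * b) := by
      intro b h1 h2
      have := hslow b h1 h2
      norm_num at this ⊢
      exact this
    obtain ⟨lo, hi, e0, e1, e2⟩ := greedy ν (M := 9) (by norm_num) hb₀ hq.le hτ hs (k + 1)
      b₀ t le_rfl le_rfl (by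
        intro r hr
        rw [tt_eq hq1]
        have h1 : q ^ k ≤ q ^ r := pow_le_pow_of_le_one hq.le hq1.le (by omega)
        have h2 : U ≤ V * q ^ r := hk1.trans (mul_le_mul_of_nonneg_left h1 hV0.le)
        have h3 : 9 / (1 - q) = 9 + 9 * q / (1 - q) := by field_simp; ring
        rw [hU, hV, h3] at h2
        linarith)
    have h1 := conc_of_cf μ ν hb₀ hcf (k := k + 1) (lo := lo) (hi := hi) (m := fun _ => 9)
      (by rw [e0]) (fun _ _ => by norm_num) e2 e1 z
    refine h1.trans (mul_le_mul_of_nonneg_left ?_ (by norm_num))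
    have h9 : √(9:ℝ) = 3 := by
      rw [show (9:ℝ) = 3 ^ 2 by norm_num, Real.sqrt_sq (by norm_num)]
    rw [Finset.prod_const, Finset.card_range, h9]
    have h2 : q ^ (k + 1) ≤ U / V := by
      rw [le_div_iff₀ hV0]
      nlinarith
    calc (1 / 3 : ℝ) ^ (k + 1) ≤ (q ^ p) ^ (k + 1) := pow_le_pow_left₀ (by norm_num) hp _
      _ = (q ^ (k + 1)) ^ p := by rw [← pow_mul, ← pow_mul, mul_comm]
      _ ≤ (U / V) ^ p := pow_le_pow_left₀ (by positivity) h2 _

/-! ### Sums of independent variables -/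

variable {Ω κ : Type*} [Fintype κ] [MeasurableSpace Ω]

/-- Half of the total symmetrised jump measure. -/
noncomputable def nuH (P : Measure Ω) (X : κ → Ω → ℝ) : Measure ℝ :=
  ∑ j, (1/2 : ℝ≥0) • symm (P.map (X j))

theorem isFiniteMeasure_nuH (P : Measure Ω) [IsProbabilityMeasure P] {X : κ → Ω → ℝ}
    (hX : ∀ j, Measurable (X j)) : IsFiniteMeasure (nuH P X) := by
  have hp : ∀ j, IsProbabilityMeasure (P.map (X j)) := fun j =>
    Measure.isProbabilityMeasure_map (μ := P) (hX j).aemeasurable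
  unfold nuH; infer_instance

theorem nuH_real (P : Measure Ω) [IsProbabilityMeasure P] {X : κ → Ω → ℝ}
    (hX : ∀ j, Measurable (X j)) (A : Set ℝ) :
    (nuH P X).real A = (1/2) * ∑ j, (symm (P.map (X j))).real A := by
  have hp : ∀ j, IsProbabilityMeasure (P.map (X j)) := fun j =>
    Measure.isProbabilityMeasure_map (μ := P) (hX j).aemeasurable
  rw [nuH, measureReal_def, Measure.finsetSum_apply, ENNReal.toReal_sum]
  · have h3 : ∀ j, ((((1/2 : ℝ≥0) • symm (P.map (X j))) A).toReal) =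
        (1/2) * (symm (P.map (X j))).real A := by
      intro j
      rw [Measure.smul_apply, ENNReal.smul_def, smul_eq_mul, ENNReal.toReal_mul]
      simp [measureReal_def]
    simp only [h3]
    rw [← Finset.mul_sum]
  · intro j _; exact measure_ne_top _ _

theorem norm_charFun_sum_le_nuH (P : Measure Ω) [IsProbabilityMeasure P] {X : κ → Ω → ℝ}
    (hX : ∀ j, Measurable (X j)) (hind : ProbabilityTheory.iIndepFun X P) (θ : ℝ) :
    ‖charFun (P.map fun ω => ∑ j, X j ω) θ‖ ≤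
      Real.exp (-∫ x, (1 - Real.cos (θ * x)) ∂(nuH P X)) := by
  have hp : ∀ j, IsProbabilityMeasure (P.map (X j)) := fun j =>
    Measure.isProbabilityMeasure_map (μ := P) (hX j).aemeasurable
  refine (norm_charFun_sum_le P hX hind θ).trans (Real.exp_le_exp.2 (neg_le_neg ?_))
  rw [nuH, integral_finsetSum_measure fun j _ => ?_]
  · refine Finset.sum_le_sum fun j _ => ?_
    rw [integral_smul_nnreal_measure]
    exact le_of_eq (by simp [NNReal.smul_def])
  · exact integrable_one_sub_cos _ θ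

/-- **[RW1], independent variables.** -/
theorem rw1_indep (P : Measure Ω) [IsProbabilityMeasure P] {X : κ → Ω → ℝ}
    (hX : ∀ j, Measurable (X j)) (hind : ProbabilityTheory.iIndepFun X P)
    {b₀ q τ : ℝ} (hb₀ : 0 < b₀) (hq : 0 < q) (hq1 : q < 1) (hτ : 0 < τ)
    (hslow : ∀ b, b₀ ≤ b → τ ≤ (1/2) * ∑ j, (symm (P.map (X j))).real {x | b < |x|} →
      q * ∑ j, (symm (P.map (X j))).real {x | b < |x|} ≤
        ∑ j, (symm (P.map (X j))).real {x | 320 * b < |x|})
    {p : ℕ} (hp : 1 / 3 ≤ q ^ p) (z : ℝ) :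
    P.real {ω | |∑ j, X j ω - z| ≤ b₀} ≤
      12 * ((9 / (1 - q) + τ) / (9 * q / (1 - q) +
        (1/2) * ∑ j, (symm (P.map (X j))).real {x | b₀ < |x|})) ^ p := by
  have hSm : Measurable fun ω => ∑ j, X j ω := by fun_prop
  have := Measure.isProbabilityMeasure_map (μ := P) hSm.aemeasurable
  have := isFiniteMeasure_nuH P hX
  have h1 := rw1_cf (P.map fun ω => ∑ j, X j ω) (nuH P X) hb₀ hq hq1 hτ
    (fun θ _ => norm_charFun_sum_le_nuH P hX hind θ) (by
      intro b h1 h2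
      simp only [G, nuH_real P hX] at h2 ⊢
      have := hslow b h1 h2
      linarith) hp z
  rw [map_measureReal_apply hSm (measurableSet_le (by fun_prop) measurable_const)] at h1
  simp only [G, nuH_real P hX] at h1
  exact h1

/-- **[RW1], iid variables.**  `g b = P(|ξ - ξ'| > b)`. -/
theorem rw1_iid {n : ℕ} (P : Measure Ω) [IsProbabilityMeasure P] {X : Fin n → Ω → ℝ}
    (hX : ∀ j, Measurable (X j)) (hind : ProbabilityTheory.iIndepFun X P)
    {μ : Measure ℝ} (hlaw : ∀ j, P.map (X j) = μ)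
    {b₀ q γ : ℝ} (hb₀ : 0 < b₀) (hq : 0 < q) (hq1 : q < 1) (hγ : 0 < γ)
    (hslow : ∀ b, b₀ ≤ b → γ ≤ (symm μ).real {x | b < |x|} →
      q * (symm μ).real {x | b < |x|} ≤ (symm μ).real {x | 320 * b < |x|})
    {p : ℕ} (hp : 1 / 3 ≤ q ^ p) (z : ℝ) :
    P.real {ω | |∑ j, X j ω - z| ≤ b₀} ≤
      12 * ((9 / (1 - q) + n * γ / 2) / (9 * q / (1 - q) +
        n * (symm μ).real {x | b₀ < |x|} / 2)) ^ p := by
  have hq' : 0 < 1 - q := by linarith
  rcases Nat.eq_zero_or_pos n with h0 | h0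
  · subst h0
    have h1 : (1:ℝ) ≤ (9 / (1 - q)) / (9 * q / (1 - q)) := by
      rw [one_le_div (by positivity)]
      gcongr
      linarith
    have h2 := one_le_pow₀ (n := p) h1
    have h3 : P.real {ω | |∑ j, X j ω - z| ≤ b₀} ≤ 1 := measureReal_le_one
    refine h3.trans (h2.trans ?_)
    simp only [Nat.cast_zero, zero_mul, zero_div, add_zero]
    exact le_mul_of_one_le_left (by linarith) (by norm_num)
  · have hn : (0:ℝ) < n := by exact_mod_cast h0
    have h1 := rw1_indep P hX hind hb₀ hq hq1 (τ := n * γ / 2) (by positivity) (by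
      intro b h1 h2
      simp only [hlaw, Finset.sum_const, Finset.card_univ, Fintype.card_fin, nsmul_eq_mul] at h2 ⊢
      have h3 : γ ≤ (symm μ).real {x | b < |x|} := by
        have : n * γ ≤ n * (symm μ).real {x | b < |x|} := by linarith
        exact le_of_mul_le_mul_left this hn
      have h4 := hslow b h1 h3
      calc q * (n * (symm μ).real {x | b < |x|}) = n * (q * (symm μ).real {x | b < |x|}) := by ring
        _ ≤ _ := mul_le_mul_of_nonneg_left h4 hn.le) hp z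
    simp only [hlaw, Finset.sum_const, Finset.card_univ, Fintype.card_fin, nsmul_eq_mul] at h1
    refine h1.trans (le_of_eq ?_)
    congr 4
    ring

/-! ### The hypothesis from truncated second moments -/

/-- The truncated second moment. -/
noncomputable def V2 (ν : Measure ℝ) (b : ℝ) : ℝ := ∫ x in {x : ℝ | |x| ≤ b}, x ^ 2 ∂ν

theorem measurableSet_le_abs (b : ℝ) : MeasurableSet {x : ℝ | |x| ≤ b} :=
  measurableSet_le (by fun_prop) measurable_const

/-- The mass between `b` and `c b` is at most `b⁻² V2 (c b)`. -/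
theorem G_le_add (ν : Measure ℝ) [IsFiniteMeasure ν] {b c : ℝ} (hb : 0 < b) :
    G ν b ≤ G ν (c * b) + V2 ν (c * b) / b ^ 2 := by
  have h1 : {x : ℝ | b < |x|} ⊆ {x : ℝ | c * b < |x|} ∪ ({x | b < |x|} ∩ {x : ℝ | |x| ≤ c * b}) := by
    intro x hx
    rcases le_or_gt |x| (c * b) with h | h
    · exact Or.inr ⟨hx, h⟩
    · exact Or.inl h
  have h2 : G ν b ≤ G ν (c * b) + ν.real ({x | b < |x|} ∩ {x : ℝ | |x| ≤ c * b}) :=
    (measureReal_mono h1).trans (measureReal_union_le _ _)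
  have hint : IntegrableOn (fun x : ℝ => x ^ 2) {x : ℝ | |x| ≤ c * b} ν := by
    refine Integrable.of_bound (C := (c * b) ^ 2) (Measurable.aestronglyMeasurable (by fun_prop)) ?_
    filter_upwards [ae_restrict_mem (measurableSet_le_abs (c * b))] with x hx
    rw [Real.norm_of_nonneg (sq_nonneg x), ← sq_abs]
    exact pow_le_pow_left₀ (abs_nonneg x) hx 2
  have h3 : b ^ 2 * ν.real ({x | b < |x|} ∩ {x : ℝ | |x| ≤ c * b}) ≤ V2 ν (c * b) := by
    have h4 : ∫ x in ({x | b < |x|} ∩ {x : ℝ | |x| ≤ c * b}), (b ^ 2 : ℝ) ∂ν ≤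
        ∫ x in ({x | b < |x|} ∩ {x : ℝ | |x| ≤ c * b}), x ^ 2 ∂ν := by
      refine setIntegral_mono_on (integrableOn_const (measure_ne_top _ _))
        (hint.mono_set inter_subset_right)
        ((measurableSet_tail b).inter (measurableSet_le_abs _)) fun x hx => ?_
      rw [← sq_abs x]
      exact pow_le_pow_left₀ hb.le (le_of_lt hx.1) 2
    rw [setIntegral_const, smul_eq_mul] at h4
    have h5 : ∫ x in ({x | b < |x|} ∩ {x : ℝ | |x| ≤ c * b}), x ^ 2 ∂ν ≤ V2 ν (c * b) :=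
      setIntegral_mono_set hint (ae_of_all _ fun x => sq_nonneg x)
        (Filter.Eventually.of_forall inter_subset_right)
    linarith
  have h6 : ν.real ({x | b < |x|} ∩ {x : ℝ | |x| ≤ c * b}) ≤ V2 ν (c * b) / b ^ 2 := by
    rw [le_div_iff₀ (by positivity)]; linarith
  linarith

/-- **[RW1], octave form** (539's letters): `g b = P(|ξ - ξ'| > b)`,
`V2 (symm μ) b = E[(ξ - ξ')² ; |ξ - ξ'| ≤ b]`.  If every octave `N 2^j`, `j ≤ J`, is bad
(`N 2^j g(b) ≤ C₁ → N 2^j b⁻² V2 b ≤ c₁`), then for every `n` the concentration of `S_n` at a window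
`b₀` with `N g(b₀) ≤ C₁` is a power of `1/n` until the end of the run. -/
theorem rw1_octaves {n : ℕ} (P : Measure Ω) [IsProbabilityMeasure P] {X : Fin n → Ω → ℝ}
    (hX : ∀ j, Measurable (X j)) (hind : ProbabilityTheory.iIndepFun X P)
    {μ : Measure ℝ} [IsProbabilityMeasure μ] (hlaw : ∀ j, P.map (X j) = μ)
    {b₀ C₁ c₁ N : ℝ} {J : ℕ} (hb₀ : 0 < b₀) (hN : 0 < N) (hC₁ : 0 < C₁) (hc₁ : 0 < c₁)
    (hbad : ∀ j ≤ J, ∀ b, 0 < b → N * 2 ^ j * G (symm μ) b ≤ C₁ →
      N * 2 ^ j * V2 (symm μ) b ≤ c₁ * b ^ 2)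
    (hstart : N * G (symm μ) b₀ ≤ C₁) {q : ℝ} (hq : 0 < q)
    (hqq : 204800 * c₁ ≤ (1 - q) * C₁) {p : ℕ} (hp : 1 / 3 ≤ q ^ p) (z : ℝ) :
    P.real {ω | |∑ j, X j ω - z| ≤ b₀} ≤
      12 * ((9 / (1 - q) + n * (C₁ / (N * 2 ^ J)) / 2) / (9 * q / (1 - q) +
        n * (symm μ).real {x | b₀ < |x|} / 2)) ^ p := by
  have hq1 : q < 1 := by
    by_contra hcon
    have : (1 - q) * C₁ ≤ 0 := mul_nonpos_of_nonpos_of_nonneg (by linarith) hC₁.le
    linarith
  refine rw1_iid P hX hind hlaw hb₀ hq hq1 (γ := C₁ / (N * 2 ^ J)) (by positivity) ?_ hp z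
  intro b hb hγ
  change q * G (symm μ) b ≤ G (symm μ) (320 * b)
  change C₁ / (N * 2 ^ J) ≤ G (symm μ) b at hγ
  have hb0 : 0 < b := by linarith
  rw [div_le_iff₀ (by positivity)] at hγ
  -- the octave of `b`
  have h0 : N * 2 ^ 0 * G (symm μ) b ≤ C₁ := by
    have := G_anti (symm μ) hb
    have h1 : N * G (symm μ) b ≤ N * G (symm μ) b₀ := mul_le_mul_of_nonneg_left this hN.le
    simpa using h1.trans hstart
  obtain ⟨j, hjJ, hj1, hj2⟩ : ∃ j ≤ J, N * 2 ^ j * G (symm μ) b ≤ C₁ ∧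
      C₁ ≤ 2 * (N * 2 ^ j * G (symm μ) b) := by
    classical
    have hex : ∃ j, C₁ ≤ N * 2 ^ j * G (symm μ) b := ⟨J, by linarith⟩
    set i := Nat.find hex with hi
    have h1 : C₁ ≤ N * 2 ^ i * G (symm μ) b := Nat.find_spec hex
    have h2 : i ≤ J := Nat.find_min' hex (by linarith)
    rcases Nat.eq_zero_or_pos i with h3 | h3
    · refine ⟨0, Nat.zero_le _, h0, ?_⟩
      rw [h3] at h1
      have : 0 ≤ N * 2 ^ 0 * G (symm μ) b := by
        have := G_nonneg (symm μ) b; positivity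
      linarith
    · refine ⟨i - 1, by omega, le_of_lt (not_le.1 (Nat.find_min hex (by omega))), ?_⟩
      have h4 : (2:ℝ) ^ i = 2 * 2 ^ (i - 1) := by
        rw [← pow_succ']; congr 1; omega
      rw [h4] at h1
      linarith
  have h1 : N * 2 ^ j * G (symm μ) (320 * b) ≤ C₁ := by
    refine le_trans (mul_le_mul_of_nonneg_left (G_anti (symm μ) ?_) (by positivity)) hj1
    linarith
  have h2 := hbad j hjJ (320 * b) (by positivity) h1
  have h3 := G_le_add (symm μ) (c := 320) hb0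
  have h4 : 0 < N * 2 ^ j := by positivity
  have h5 : V2 (symm μ) (320 * b) / b ^ 2 ≤ (1 - q) * G (symm μ) b := by
    rw [div_le_iff₀ (by positivity)]
    refine le_of_mul_le_mul_left ?_ h4
    have h6 : 204800 * c₁ ≤ (1 - q) * (2 * (N * 2 ^ j * G (symm μ) b)) :=
      hqq.trans (mul_le_mul_of_nonneg_left hj2 (by linarith))
    calc N * 2 ^ j * V2 (symm μ) (320 * b) ≤ c₁ * (320 * b) ^ 2 := h2
      _ = (204800 * c₁) * (b ^ 2 / 2) := by ring
      _ ≤ ((1 - q) * (2 * (N * 2 ^ j * G (symm μ) b))) * (b ^ 2 / 2) :=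
          mul_le_mul_of_nonneg_right h6 (by positivity)
      _ = _ := by ring
  linarith

end Crest.Agent.R154.RW1797
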