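import Crest.Agent.R154.RatioB_872

/-! Row 154, B8, step (R): the field `R` of 402's `Comp.Proc` from the field `W`, the lower bound
`p` for the annealed natural climbs and the small pair energy (B6). -/

set_option autoImplicit false
set_option linter.unusedSectionVars false
set_option linter.deprecated false

namespace Crest.Agent.R154.RatioR872

open MeasureTheory ProbabilityTheory Set Filter
open scoped ENNReal

namespace KerSys

variable {S : Type*} [Countable S] {Ω : Type*} {m0 : MeasurableSpace Ω} {P : Measure Ω}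

/-- number of attempts -/
lemma exists_T {p : ℝ≥0∞} (hp0 : p ≠ 0) {δ : ℝ≥0∞} (hδ : δ ≠ 0) :
    ∃ T : ℕ, 0 < T ∧ (1 - p / 2) ^ T ≤ δ := by
  have hlt : 1 - p / 2 < 1 := by
    refine ENNReal.sub_lt_self ENNReal.one_ne_top one_ne_zero ?_
    simp [hp0]
  have h := ENNReal.tendsto_pow_atTop_nhds_zero_of_lt_one hlt
  have h2 : ∀ᶠ n : ℕ in atTop, (1 - p / 2) ^ n < δ := (tendsto_order.1 h).2 δ (pos_iff_ne_zero.2 hδ)
  obtain ⟨T, hT⟩ := (h2.and (eventually_gt_atTop 0)).exists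
  exact ⟨T, hT.2, hT.1.le⟩

/-- **(R), multiplicative form.** For all `b`, `k` there is `i1`, depending only on `p` and the
modulus `n0` of the pair energy. -/
theorem ratio_mul (p : ℝ≥0∞) (hp0 : p ≠ 0) (hpt : p ≠ ∞) (n0 : ℕ → ℝ≥0∞ → ℕ) (δ : ℝ≥0∞)
    (hδ : δ ≠ 0) (k : ℕ) (hk : 1 ≤ k) :
    ∃ i1 : ℕ, ∀ {S : Type*} [Countable S] {Ω : Type*} {m0 : MeasurableSpace Ω} {P : Measure Ω}
      [IsProbabilityMeasure P] (A : KerSys S P), (∀ n, p ≤ A.h n) → (∀ n, A.h n ≤ 1) →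
      (∀ μ, A.Start μ → ∀ h, ∀ᵐ ω ∂P, A.Sh μ h ω ≠ 0) → A.SmallEnergy n0 →
      ∀ i, i1 ≤ i → ∀ μ, A.Start μ → ∀ B, MeasurableSet[A.F (10 ^ i)] B →
      P (B ∩ {ω | A.Sh μ (10 ^ (i + 1 + k)) ω < p ^ 2 / 4 * A.Sh μ (10 ^ (i + 2)) ω})
        ≤ δ * P B := by
  have hδ2 : δ / 2 ≠ 0 := by simp [hδ]
  obtain ⟨T, hT0, hT⟩ := exists_T hp0 hδ2
  set ε : ℝ≥0∞ := (δ / 2) / T * p ^ 4 / 16 with hε
  by_cases hδt : δ = ∞
  · refine ⟨0, ?_⟩
    intro S _ Ω m0 P _ A _ _ _ _ i _ μ _ B _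
    by_cases hB : P B = 0
    · rw [hB, mul_zero]
      exact (measure_mono_null inter_subset_left hB).le
    · rw [hδt, ENNReal.top_mul hB]
      exact le_top
  have hTt : (T : ℝ≥0∞) ≠ 0 := by exact_mod_cast hT0.ne'
  have hε0 : ε ≠ 0 := by
    rw [hε]
    refine (ENNReal.div_pos (mul_ne_zero (ENNReal.div_pos hδ2 (ENNReal.natCast_ne_top T)).ne'
      (pow_ne_zero _ hp0)) (by norm_num)).ne'
  have hεT : T * (16 * ε / p ^ 4) ≤ δ / 2 := by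
    have hp4 : p ^ 4 ≠ 0 := pow_ne_zero _ hp0
    have hp4t : p ^ 4 ≠ ∞ := ENNReal.pow_ne_top hpt
    have e1 : 16 * ε = (δ / 2) / T * p ^ 4 := by
      rw [hε]
      exact ENNReal.mul_div_cancel (by norm_num) (by norm_num)
    rw [e1, ENNReal.mul_div_cancel_right hp4 hp4t,
      ENNReal.mul_div_cancel hTt (ENNReal.natCast_ne_top T)]
  set r : ℕ := 10 ^ k * T with hr
  set m : ℕ := n0 r ε with hm
  refine ⟨T * (m + 1), ?_⟩
  intro S _ Ω m0 P _ A hp hh hpos hSE i hi μ hμ B hB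
  have hH : T * (m + 1) ≤ 10 ^ (i + 1) := by
    calc T * (m + 1) ≤ i := hi
      _ ≤ i + 1 := Nat.le_succ i
      _ ≤ 10 ^ (i + 1) := (Nat.lt_pow_self (by norm_num)).le
  have hB' : MeasurableSet[A.F (10 ^ (i + 1))] B :=
    A.F.mono (Nat.pow_le_pow_right (by norm_num) (Nat.le_succ i)) _ hB
  have h := core hp0 hp hh hpos hT0 (r := r) (n0 := m) (ε := ε)
    (fun n hn a c h1 h2 x hx x' hx' => hSE r ε hε0 n hn a c h1 h2 x hx x' hx')
    hk hH le_rfl hμ hB'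
  have e1 : 10 ^ k * 10 ^ (i + 1) = 10 ^ (i + 1 + k) := by rw [← pow_add]; congr 1; ring
  have e2 : 10 * 10 ^ (i + 1) = 10 ^ (i + 2) := by ring
  rw [e1, e2] at h
  refine h.trans ?_
  gcongr
  calc (1 - p / 2) ^ T + T * (16 * ε / p ^ 4) ≤ δ / 2 + δ / 2 := by gcongr
    _ = δ := ENNReal.add_halves δ

/-- **(R) = field `R` of `Comp.Proc`.** `k0`, `i1` depend only on `u0`, `p` and `n0`. -/
theorem procR (p : ℝ≥0∞) (hp0 : p ≠ 0) (hpt : p ≠ ∞) (n0 : ℕ → ℝ≥0∞ → ℕ) (u0 : ℝ → ℝ) :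
    ∃ (k0 : ℝ → ℝ → ℕ) (i1 : ℝ → ℝ → ℕ → ℕ),
      ∀ {S : Type*} [Countable S] {Ω : Type*} {m0 : MeasurableSpace Ω} {P : Measure Ω}
      [IsProbabilityMeasure P] (A : KerSys S P), (∀ n, p ≤ A.h n) → (∀ n, A.h n ≤ 1) →
      (∀ μ, A.Start μ → ∀ h, ∀ᵐ ω ∂P, A.Sh μ h ω ≠ 0) → A.SmallEnergy n0 →
      ∀ μ, A.Start μ → ∀ a : ℕ → Ω → ℝ,
      (∀ i, ∀ᵐ ω ∂P, a i ω = - Real.log (A.Sh μ (10 ^ i) ω).toReal) →
      (∀ lam : ℝ, 0 < lam → ∀ i : ℕ, ∀ u : ℝ, u0 lam ≤ u → ∀ B, MeasurableSet[A.F (10 ^ i)] B →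
        P (B ∩ {ω | u ≤ a (i + 2) ω - a (i + 1) ω})
          ≤ ENNReal.ofReal (Real.exp (-(lam * u))) * P B) →
      ∀ ε b : ℝ, 0 < ε → 0 < b → ∀ k : ℕ, k0 ε b ≤ k → 0 < k → ∀ i : ℕ, i1 ε b k ≤ i →
      ∀ B, MeasurableSet[A.F (10 ^ i)] B →
      P (B ∩ {ω | ε * k ≤ a (i + 1 + k) ω - a (i + 1) ω})
        ≤ ENNReal.ofReal (Real.exp (-(b * k))) * P B := by
  classical
  have hτ0 : p ^ 2 / 4 ≠ 0 := (ENNReal.div_pos (pow_ne_zero _ hp0) (by norm_num)).ne'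
  have hτt : p ^ 2 / 4 ≠ ∞ := ENNReal.div_ne_top (ENNReal.pow_ne_top hpt) (by norm_num)
  set ℓ : ℝ := - Real.log (p ^ 2 / 4).toReal with hℓ
  set lam : ℝ → ℝ → ℝ := fun ε b => 2 * (b + 1) / ε with hlam
  -- choice of the constants
  have hk0 : ∀ ε b : ℝ, ∃ K : ℕ, 0 < ε → ∀ k : ℕ, K ≤ k → u0 (lam ε b) ≤ ε * k / 2 ∧
      ℓ < ε * k / 2 := by
    intro ε b
    by_cases hε : 0 < ε
    · obtain ⟨K, hK⟩ := exists_nat_gt (max (u0 (lam ε b)) ℓ * 2 / ε)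
      refine ⟨K, fun _ k hk => ?_⟩
      have h1 : max (u0 (lam ε b)) ℓ * 2 / ε < k := hK.trans_le (by exact_mod_cast hk)
      rw [div_lt_iff₀ hε] at h1
      have h2 := le_max_left (u0 (lam ε b)) ℓ
      have h3 := le_max_right (u0 (lam ε b)) ℓ
      constructor <;> nlinarith
    · exact ⟨0, fun h => absurd h hε⟩
  choose K hK using hk0
  have hδ : ∀ (b : ℝ) (k : ℕ), ENNReal.ofReal (Real.exp (-((b + 1) * k))) ≠ 0 := by
    intro b k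
    simp [Real.exp_pos]
  refine ⟨K, fun ε b k => if hk : 1 ≤ k then
    Classical.choose (ratio_mul p hp0 hpt n0 _ (hδ b k) k hk) else 0, ?_⟩
  intro S _ Ω m0 P _ A hp hh hpos hSE μ hμ a ha hW ε b hε hb k hk hk1 i hi B hB
  obtain ⟨hk2, hk3⟩ := hK ε b hε k hk
  have hi' : Classical.choose (ratio_mul p hp0 hpt n0 _ (hδ b k) k hk1) ≤ i := by
    have : (if hk : 1 ≤ k then
      Classical.choose (ratio_mul p hp0 hpt n0 _ (hδ b k) k hk) else 0) ≤ i := hi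
    rwa [dif_pos (show 1 ≤ k from hk1)] at this
  have h1 := Classical.choose_spec (ratio_mul p hp0 hpt n0 _ (hδ b k) k hk1) A hp hh hpos hSE i
    hi' μ hμ B hB
  have h2 := hW (lam ε b) (by rw [hlam]; positivity) i (ε * k / 2) hk2 B hB
  have hlamk : lam ε b * (ε * k / 2) = (b + 1) * k := by
    rw [hlam]; field_simp
  rw [hlamk] at h2
  have hsub : (B ∩ {ω | ε * k ≤ a (i + 1 + k) ω - a (i + 1) ω} : Set Ω) ≤ᵐ[P]
      ((B ∩ {ω | ε * k / 2 ≤ a (i + 2) ω - a (i + 1) ω}) ∪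
        (B ∩ {ω | A.Sh μ (10 ^ (i + 1 + k)) ω < p ^ 2 / 4 * A.Sh μ (10 ^ (i + 2)) ω}) : Set Ω) := by
    filter_upwards [ha (i + 1 + k), ha (i + 2), ha (i + 1), hpos μ hμ (10 ^ (i + 1 + k)),
      hpos μ hμ (10 ^ (i + 2))] with ω e1 e2 e3 p1 p2
    rintro ⟨hωB, hω⟩
    have hω' : ε * k ≤ a (i + 1 + k) ω - a (i + 1) ω := hω
    by_contra hcon
    have hcon' : ¬ ((ω ∈ B ∩ {ω | ε * k / 2 ≤ a (i + 2) ω - a (i + 1) ω}) ∨
        (ω ∈ B ∩ {ω | A.Sh μ (10 ^ (i + 1 + k)) ω < p ^ 2 / 4 * A.Sh μ (10 ^ (i + 2)) ω})) := hcon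
    rw [not_or] at hcon'
    have c1 : a (i + 2) ω - a (i + 1) ω < ε * k / 2 := by
      by_contra h
      exact hcon'.1 ⟨hωB, not_lt.1 h⟩
    have c2 : p ^ 2 / 4 * A.Sh μ (10 ^ (i + 2)) ω ≤ A.Sh μ (10 ^ (i + 1 + k)) ω := by
      by_contra h
      exact hcon'.2 ⟨hωB, not_le.1 h⟩
    have t1 : A.Sh μ (10 ^ (i + 1 + k)) ω ≠ ∞ :=
      ne_top_of_le_ne_top ENNReal.one_ne_top (Sh_le_one hμ _ ω)
    have t2 : A.Sh μ (10 ^ (i + 2)) ω ≠ ∞ :=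
      ne_top_of_le_ne_top ENNReal.one_ne_top (Sh_le_one hμ _ ω)
    have q1 : 0 < (A.Sh μ (10 ^ (i + 1 + k)) ω).toReal := ENNReal.toReal_pos p1 t1
    have q2 : 0 < (A.Sh μ (10 ^ (i + 2)) ω).toReal := ENNReal.toReal_pos p2 t2
    have q3 : 0 < (p ^ 2 / 4).toReal := ENNReal.toReal_pos hτ0 hτt
    have c3 : (p ^ 2 / 4).toReal * (A.Sh μ (10 ^ (i + 2)) ω).toReal
        ≤ (A.Sh μ (10 ^ (i + 1 + k)) ω).toReal := by
      rw [← ENNReal.toReal_mul]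
      exact ENNReal.toReal_mono t1 c2
    have c4 := Real.log_le_log (mul_pos q3 q2) c3
    rw [Real.log_mul q3.ne' q2.ne'] at c4
    rw [e1] at hω'
    rw [e2] at c1
    linarith
  calc P (B ∩ {ω | ε * k ≤ a (i + 1 + k) ω - a (i + 1) ω})
      ≤ P (B ∩ {ω | ε * k / 2 ≤ a (i + 2) ω - a (i + 1) ω}) +
        P (B ∩ {ω | A.Sh μ (10 ^ (i + 1 + k)) ω < p ^ 2 / 4 * A.Sh μ (10 ^ (i + 2)) ω}) :=
        (measure_mono_ae hsub).trans (measure_union_le _ _)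
    _ ≤ ENNReal.ofReal (Real.exp (-((b + 1) * k))) * P B
        + ENNReal.ofReal (Real.exp (-((b + 1) * k))) * P B := add_le_add h2 h1
    _ = ENNReal.ofReal (2 * Real.exp (-((b + 1) * k))) * P B := by
        rw [← add_mul, ← ENNReal.ofReal_add (Real.exp_pos _).le (Real.exp_pos _).le, two_mul]
    _ ≤ ENNReal.ofReal (Real.exp (-(b * k))) * P B := by
        gcongr
        have h5 : (1:ℝ) ≤ k := by exact_mod_cast hk1
        have h6 : Real.exp (-((b + 1) * k)) = Real.exp (-(b * k)) * Real.exp (-(k:ℝ)) := by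
          rw [← Real.exp_add]; congr 1; ring
        have h7 : Real.exp (-(k:ℝ)) ≤ 1 / 2 := by
          have h8 : (2:ℝ) ≤ Real.exp k := by
            have := Real.add_one_le_exp (k:ℝ)
            linarith
          rw [Real.exp_neg, one_div]
          exact inv_anti₀ (by norm_num) h8
        rw [h6]
        have := Real.exp_pos (-(b * k))
        nlinarith

end KerSys

end Crest.Agent.R154.RatioR872
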