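import Crest.Agent.R154.RatioC_872

/-! Row 154, B8, step (R), one-window form (no hypothesis on the previous window): the loss of
`[10^(i+1), 10^(i+1+k)]` is the loss of `[10^(i+1), 10^(i+2)]` plus a constant, off a small set. -/

set_option autoImplicit false
set_option linter.unusedSectionVars false
set_option linter.deprecated false

namespace Crest.Agent.R154.RatioR872

open MeasureTheory ProbabilityTheory Set Filter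
open scoped ENNReal

namespace KerSys

/-- the constant of `step_R` -/
noncomputable def lc (p : ℝ≥0∞) : ℝ := - Real.log (p ^ 2 / 4).toReal

/-- **(R), one-window form.** -/
theorem step_R (p : ℝ≥0∞) (hp0 : p ≠ 0) (hpt : p ≠ ∞) (n0 : ℕ → ℝ≥0∞ → ℕ) (δ : ℝ≥0∞)
    (hδ : δ ≠ 0) (k : ℕ) (hk : 1 ≤ k) :
    ∃ i1 : ℕ, ∀ {S : Type*} [Countable S] {Ω : Type*} {m0 : MeasurableSpace Ω} {P : Measure Ω}
      [IsProbabilityMeasure P] (A : KerSys S P), (∀ n, p ≤ A.h n) → (∀ n, A.h n ≤ 1) →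
      (∀ μ, A.Start μ → ∀ h, ∀ᵐ ω ∂P, A.Sh μ h ω ≠ 0) → A.SmallEnergy n0 →
      ∀ μ, A.Start μ → ∀ a : ℕ → Ω → ℝ,
      (∀ i, ∀ᵐ ω ∂P, a i ω = - Real.log (A.Sh μ (10 ^ i) ω).toReal) →
      ∀ i, i1 ≤ i → ∀ v ℓ : ℝ, lc p < ℓ → ∀ B, MeasurableSet[A.F (10 ^ i)] B →
      P (B ∩ {ω | v + ℓ ≤ a (i + 1 + k) ω - a (i + 1) ω})
        ≤ P (B ∩ {ω | v ≤ a (i + 2) ω - a (i + 1) ω}) + δ * P B := by
  obtain ⟨i1, hi1⟩ := ratio_mul p hp0 hpt n0 δ hδ k hk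
  refine ⟨i1, ?_⟩
  intro S _ Ω m0 P _ A hp hh hpos hSE μ hμ a ha i hi v ℓ hℓ B hB
  have hτ0 : p ^ 2 / 4 ≠ 0 := (ENNReal.div_pos (pow_ne_zero _ hp0) (by norm_num)).ne'
  have hτt : p ^ 2 / 4 ≠ ∞ := ENNReal.div_ne_top (ENNReal.pow_ne_top hpt) (by norm_num)
  have h1 := hi1 A hp hh hpos hSE i hi μ hμ B hB
  have hsub : (B ∩ {ω | v + ℓ ≤ a (i + 1 + k) ω - a (i + 1) ω} : Set Ω) ≤ᵐ[P]
      ((B ∩ {ω | v ≤ a (i + 2) ω - a (i + 1) ω}) ∪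
        (B ∩ {ω | A.Sh μ (10 ^ (i + 1 + k)) ω < p ^ 2 / 4 * A.Sh μ (10 ^ (i + 2)) ω}) : Set Ω) := by
    filter_upwards [ha (i + 1 + k), ha (i + 2), ha (i + 1), hpos μ hμ (10 ^ (i + 1 + k)),
      hpos μ hμ (10 ^ (i + 2))] with ω e1 e2 e3 p1 p2
    rintro ⟨hωB, hω⟩
    have hω' : v + ℓ ≤ a (i + 1 + k) ω - a (i + 1) ω := hω
    by_contra hcon
    have hcon' : ¬ ((ω ∈ B ∩ {ω | v ≤ a (i + 2) ω - a (i + 1) ω}) ∨
        (ω ∈ B ∩ {ω | A.Sh μ (10 ^ (i + 1 + k)) ω < p ^ 2 / 4 * A.Sh μ (10 ^ (i + 2)) ω})) := hcon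
    rw [not_or] at hcon'
    have c1 : a (i + 2) ω - a (i + 1) ω < v := by
      by_contra h
      exact hcon'.1 ⟨hωB, not_lt.1 h⟩
    have c2 : p ^ 2 / 4 * A.Sh μ (10 ^ (i + 2)) ω ≤ A.Sh μ (10 ^ (i + 1 + k)) ω := by
      by_contra h
      exact hcon'.2 ⟨hωB, not_le.1 h⟩
    have t1 : A.Sh μ (10 ^ (i + 1 + k)) ω ≠ ∞ :=
      ne_top_of_le_ne_top ENNReal.one_ne_top (Sh_le_one hμ _ ω)
    have t2 : A.Sh μ (10 ^ (i + 2)) ω ≠ ∞ :=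
      ne_top_of_le_ne_top ENNReal.one_ne_top (Sh_le_one hμ _ ω)
    have q2 : 0 < (A.Sh μ (10 ^ (i + 2)) ω).toReal := ENNReal.toReal_pos p2 t2
    have q3 : 0 < (p ^ 2 / 4).toReal := ENNReal.toReal_pos hτ0 hτt
    have c3 : (p ^ 2 / 4).toReal * (A.Sh μ (10 ^ (i + 2)) ω).toReal
        ≤ (A.Sh μ (10 ^ (i + 1 + k)) ω).toReal := by
      rw [← ENNReal.toReal_mul]
      exact ENNReal.toReal_mono t1 c2
    have c4 := Real.log_le_log (mul_pos q3 q2) c3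
    rw [Real.log_mul q3.ne' q2.ne'] at c4
    rw [e1] at hω'
    rw [e2] at c1
    have hl : lc p = - Real.log (p ^ 2 / 4).toReal := rfl
    linarith
  calc P (B ∩ {ω | v + ℓ ≤ a (i + 1 + k) ω - a (i + 1) ω})
      ≤ P (B ∩ {ω | v ≤ a (i + 2) ω - a (i + 1) ω}) +
        P (B ∩ {ω | A.Sh μ (10 ^ (i + 1 + k)) ω < p ^ 2 / 4 * A.Sh μ (10 ^ (i + 2)) ω}) :=
        (measure_mono_ae hsub).trans (measure_union_le _ _)
    _ ≤ P (B ∩ {ω | v ≤ a (i + 2) ω - a (i + 1) ω}) + δ * P B := by gcongr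

end KerSys

end Crest.Agent.R154.RatioR872
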