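import Mathlib

/-!
Row 154, TILE_RUN (998's multiscale argument), parts (i) + (ii): the recursion of exponential
moments over dyadic windows.  Abstract, Mathlib only.
-/

open MeasureTheory Finset
open scoped ENNReal

namespace Crest.Agent.R154.Rec927

variable {Ω : Type*} {m0 : MeasurableSpace Ω}

/-- from sets to functions: a conditional bound on all past events is a bound against all past
weights. -/
theorem fun_of_set {Ω : Type*} {m m0 : MeasurableSpace Ω} (hm : m ≤ m0) (P : Measure Ω) (g : Ω → ℝ≥0∞)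
    (hg : Measurable g) (c : ℝ≥0∞)
    (h : ∀ B, MeasurableSet[m] B → ∫⁻ ω in B, g ω ∂P ≤ c * P B)
    (f : Ω → ℝ≥0∞) (hf : Measurable[m] f) :
    ∫⁻ ω, f ω * g ω ∂P ≤ c * ∫⁻ ω, f ω ∂P := by
  have hf0 : Measurable f := hf.mono hm le_rfl
  have h1 : ((P.withDensity g).trim hm) ≤ ((c • P).trim hm) := by
    refine Measure.le_iff.2 fun B hB => ?_
    rw [trim_measurableSet_eq hm hB, trim_measurableSet_eq hm hB, withDensity_apply _ (hm _ hB)]
    simpa using h B hB
  calc ∫⁻ ω, f ω * g ω ∂P = ∫⁻ ω, f ω ∂(P.withDensity g) := by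
        rw [lintegral_withDensity_eq_lintegral_mul _ hg hf0]
        refine lintegral_congr fun ω => ?_
        simp [mul_comm]
    _ = ∫⁻ ω, f ω ∂((P.withDensity g).trim hm) := (lintegral_trim hm hf).symm
    _ ≤ ∫⁻ ω, f ω ∂((c • P).trim hm) := lintegral_mono' h1 le_rfl
    _ = ∫⁻ ω, f ω ∂(c • P) := lintegral_trim hm hf
    _ = c * ∫⁻ ω, f ω ∂P := by simp

/-- the partial sums. -/
noncomputable def SW (W : ℕ → Ω → ℝ) (j k : ℕ) (ω : Ω) : ℝ := ∑ i ∈ Ico j k, W i ω

theorem SW_add (W : ℕ → Ω → ℝ) {j k l : ℕ} (h1 : j ≤ k) (h2 : k ≤ l) (ω : Ω) :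
    SW W j l ω = SW W j k ω + SW W k l ω := by
  unfold SW; rw [← Finset.sum_Ico_consecutive _ h1 h2]

theorem SW_meas (G : ℕ → MeasurableSpace Ω) (hG : Monotone G) (W : ℕ → Ω → ℝ)
    (hW : ∀ j, Measurable[G (j + 1)] (W j)) (j k : ℕ) : Measurable[G k] (SW W j k) := by
  unfold SW
  refine Finset.measurable_fun_sum _ fun i hi => ?_
  have hi' := (Finset.mem_Ico.1 hi).2
  exact (hW i).mono (hG (by omega)) le_rfl

/-- the exponential weight. -/
noncomputable def ex (lam : ℝ) (x : ℝ) : ℝ≥0∞ := ENNReal.ofReal (Real.exp (lam * x))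

theorem ex_add (lam x y : ℝ) : ex lam (x + y) = ex lam x * ex lam y := by
  unfold ex; rw [← ENNReal.ofReal_mul (Real.exp_pos _).le, ← Real.exp_add]; ring_nf

theorem ex_mono {lam : ℝ} (hl : 0 ≤ lam) {x y : ℝ} (h : x ≤ y) : ex lam x ≤ ex lam y :=
  ENNReal.ofReal_le_ofReal (Real.exp_le_exp.2 (mul_le_mul_of_nonneg_left h hl))

theorem ex_meas {m : MeasurableSpace Ω} (lam : ℝ) {X : Ω → ℝ} (hX : Measurable[m] X) :
    Measurable[m] fun ω => ex lam (X ω) := by
  unfold ex
  exact ENNReal.measurable_ofReal.comp (Real.measurable_exp.comp (hX.const_mul lam))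

/-- THE RECURSION: `E_{k+1} ≤ a² q + 2 a E_k + E_k²`, in closed form. -/
theorem rec_heavy (P : Measure Ω) (G : ℕ → MeasurableSpace Ω) (hG : Monotone G)
    (hle : ∀ j, G j ≤ m0) (W : ℕ → Ω → ℝ) (hW : ∀ j, Measurable[G (j + 1)] (W j))
    {lam v0 R : ℝ} (hl : 0 ≤ lam) (hR : ∀ j ω, W j ω ≤ R) {q : ℝ≥0∞}
    (hF : ∀ j k, j ≤ k → ∀ B, MeasurableSet[G j] B → P (B ∩ {ω | v0 < SW W j k ω}) ≤ q * P B)
    {l : ℕ} (small : (2 * ex lam v0 + 2) ^ l * ((ex lam R + ex lam v0 ^ 2) * q) ≤ 1)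
    (k : ℕ) (hk : k ≤ l) (j : ℕ) (B : Set Ω) (hB : MeasurableSet[G j] B) :
    ∫⁻ ω in B, {ω | v0 < SW W j (j + 2 ^ k) ω}.indicator
        (fun ω => ex lam (SW W j (j + 2 ^ k) ω)) ω ∂P ≤
      (2 * ex lam v0 + 2) ^ k * ((ex lam R + ex lam v0 ^ 2) * q) * P B := by
  have hmX : ∀ j k, Measurable (SW W j k) := fun j k =>
    (SW_meas G hG W hW j k).mono (hle k) le_rfl
  have hset : ∀ j k, MeasurableSet {ω | v0 < SW W j k ω} := fun j k =>
    measurableSet_lt measurable_const (hmX j k)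
  induction k generalizing j B with
  | zero =>
    have h1 : ∀ ω, {ω | v0 < SW W j (j + 2 ^ 0) ω}.indicator
        (fun ω => ex lam (SW W j (j + 2 ^ 0) ω)) ω ≤
        {ω | v0 < SW W j (j + 2 ^ 0) ω}.indicator (fun _ => ex lam R) ω := by
      intro ω
      refine Set.indicator_le_indicator ?_
      refine ex_mono hl ?_
      have : SW W j (j + 2 ^ 0) ω = W j ω := by unfold SW; simp
      rw [this]; exact hR j ω
    calc ∫⁻ ω in B, {ω | v0 < SW W j (j + 2 ^ 0) ω}.indicator
          (fun ω => ex lam (SW W j (j + 2 ^ 0) ω)) ω ∂P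
        ≤ ∫⁻ ω in B, {ω | v0 < SW W j (j + 2 ^ 0) ω}.indicator (fun _ => ex lam R) ω ∂P :=
          lintegral_mono h1
      _ = ex lam R * P (B ∩ {ω | v0 < SW W j (j + 2 ^ 0) ω}) := by
          rw [lintegral_indicator_const (hset _ _), Measure.restrict_apply (hset _ _),
            Set.inter_comm]
      _ ≤ ex lam R * (q * P B) := by gcongr; exact hF j _ (by omega) B hB
      _ ≤ (2 * ex lam v0 + 2) ^ 0 * ((ex lam R + ex lam v0 ^ 2) * q) * P B := by
          rw [pow_zero, one_mul, add_mul, add_mul, mul_assoc]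
          exact le_self_add
  | succ k ih =>
    set a := ex lam v0 with ha
    set C : ℝ≥0∞ := (ex lam R + a ^ 2) * q with hC
    set e : ℝ≥0∞ := (2 * a + 2) ^ k * C with he
    have h1le : (1 : ℝ≥0∞) ≤ 2 * a + 2 :=
      le_trans (by norm_num) (le_add_self : (2 : ℝ≥0∞) ≤ 2 * a + 2)
    have hkl : k ≤ l := by omega
    have hp0 : 0 < 2 ^ k := Nat.two_pow_pos k
    have he1 : e ≤ 1 := by
      refine le_trans ?_ small
      rw [he]
      exact mul_le_mul' (pow_le_pow_right₀ h1le hkl) le_rfl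
    have hqe : a ^ 2 * q ≤ e := by
      have h2 : a ^ 2 * q ≤ C := by rw [hC, add_mul]; exact le_add_self
      refine h2.trans ?_
      rw [he]
      calc C = 1 * C := (one_mul C).symm
        _ ≤ (2 * a + 2) ^ k * C := by gcongr; exact one_le_pow₀ h1le
    set j' := j + 2 ^ k with hj'
    have hpow : j + 2 ^ (k + 1) = j' + 2 ^ k := by rw [hj', pow_succ]; ring
    rw [hpow]
    set X1 := SW W j j' with hX1
    set X2 := SW W j' (j' + 2 ^ k) with hX2
    have hX : ∀ ω, SW W j (j' + 2 ^ k) ω = X1 ω + X2 ω := fun ω =>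
      SW_add W (by omega) (by omega) ω
    have hBj' : MeasurableSet[G j'] B := hG (by omega) _ hB
    have hB0 : MeasurableSet B := hle j _ hB
    have ih1 := ih (by omega) j B hB
    have ih2 := ih (by omega) j' B hBj'
    -- functional form for the second half
    set g2 : Ω → ℝ≥0∞ := {ω | v0 < X2 ω}.indicator (fun ω => ex lam (X2 ω)) with hg2
    set g1 : Ω → ℝ≥0∞ := {ω | v0 < X1 ω}.indicator (fun ω => ex lam (X1 ω)) with hg1
    have hg2m : Measurable g2 := (ex_meas lam (hmX _ _)).indicator (hset _ _)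
    have hg1m' : Measurable[G j'] g1 := by
      refine Measurable.indicator (ex_meas lam (SW_meas G hG W hW j j')) ?_
      exact measurableSet_lt (measurable_const : Measurable[G j'] fun _ => v0)
        (SW_meas G hG W hW j j')
    have hg1m : Measurable g1 := hg1m'.mono (hle _) le_rfl
    have hprod : ∫⁻ ω in B, g1 ω * g2 ω ∂P ≤ e * (e * P B) := by
      have h3 := fun_of_set (hle j') P g2 hg2m e
        (fun B' hB' => by simpa [he] using ih (by omega) j' B' hB')
        (B.indicator g1) (hg1m'.indicator hBj')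
      have h4 : ∫⁻ ω, B.indicator g1 ω * g2 ω ∂P = ∫⁻ ω in B, g1 ω * g2 ω ∂P := by
        rw [← lintegral_indicator hB0]
        refine lintegral_congr fun ω => ?_
        by_cases hω : ω ∈ B <;> simp [hω]
      rw [h4, lintegral_indicator hB0] at h3
      refine h3.trans ?_
      gcongr
    have hpt : ∀ ω, {ω | v0 < SW W j (j' + 2 ^ k) ω}.indicator
        (fun ω => ex lam (SW W j (j' + 2 ^ k) ω)) ω ≤
        a ^ 2 * {ω | v0 < SW W j (j' + 2 ^ k) ω}.indicator (fun _ => (1 : ℝ≥0∞)) ω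
          + a * g1 ω + a * g2 ω + g1 ω * g2 ω := by
      intro ω
      by_cases hω : v0 < SW W j (j' + 2 ^ k) ω
      · rw [Set.indicator_of_mem (by exact hω), Set.indicator_of_mem (by exact hω)]
        rw [hX ω, ex_add]
        by_cases h1 : v0 < X1 ω
        · have e1 : g1 ω = ex lam (X1 ω) := by rw [hg1, Set.indicator_of_mem (by exact h1)]
          by_cases h2 : v0 < X2 ω
          · have e2 : g2 ω = ex lam (X2 ω) := by rw [hg2, Set.indicator_of_mem (by exact h2)]
            rw [e1, e2]; exact le_add_self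
          · rw [e1]
            calc ex lam (X1 ω) * ex lam (X2 ω) ≤ ex lam (X1 ω) * a := by
                  gcongr; exact ex_mono hl (not_lt.1 h2)
              _ = a * ex lam (X1 ω) := mul_comm _ _
              _ ≤ a ^ 2 * 1 + a * ex lam (X1 ω) := le_add_self
              _ ≤ _ := by rw [add_assoc]; exact le_self_add
        · by_cases h2 : v0 < X2 ω
          · have e2 : g2 ω = ex lam (X2 ω) := by rw [hg2, Set.indicator_of_mem (by exact h2)]
            rw [e2]
            calc ex lam (X1 ω) * ex lam (X2 ω) ≤ a * ex lam (X2 ω) := by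
                  gcongr; exact ex_mono hl (not_lt.1 h1)
              _ ≤ a ^ 2 * 1 + a * g1 ω + a * ex lam (X2 ω) := le_add_self
              _ ≤ _ := le_self_add
          · calc ex lam (X1 ω) * ex lam (X2 ω) ≤ a * a :=
                  mul_le_mul' (ex_mono hl (not_lt.1 h1)) (ex_mono hl (not_lt.1 h2))
              _ = a ^ 2 * 1 := by ring
              _ ≤ _ := by rw [add_assoc, add_assoc]; exact le_self_add
      · rw [Set.indicator_of_notMem (by exact hω)]; exact bot_le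
    calc ∫⁻ ω in B, {ω | v0 < SW W j (j' + 2 ^ k) ω}.indicator
          (fun ω => ex lam (SW W j (j' + 2 ^ k) ω)) ω ∂P
        ≤ ∫⁻ ω in B, (a ^ 2 * {ω | v0 < SW W j (j' + 2 ^ k) ω}.indicator
            (fun _ => (1 : ℝ≥0∞)) ω + a * g1 ω + a * g2 ω + g1 ω * g2 ω) ∂P :=
          lintegral_mono hpt
      _ = a ^ 2 * P (B ∩ {ω | v0 < SW W j (j' + 2 ^ k) ω}) + a * ∫⁻ ω in B, g1 ω ∂P
            + a * ∫⁻ ω in B, g2 ω ∂P + ∫⁻ ω in B, g1 ω * g2 ω ∂P := by
          have hi : Measurable ({ω | v0 < SW W j (j' + 2 ^ k) ω}.indicator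
              (fun _ => (1 : ℝ≥0∞))) := measurable_const.indicator (hset _ _)
          have hpm : Measurable fun ω => g1 ω * g2 ω := hg1m.mul hg2m
          rw [lintegral_add_right _ hpm, lintegral_add_right _ (hg2m.const_mul a),
            lintegral_add_right _ (hg1m.const_mul a), lintegral_const_mul _ hi,
            lintegral_const_mul _ hg1m, lintegral_const_mul _ hg2m,
            lintegral_indicator_const (hset _ _), Measure.restrict_apply (hset _ _),
            Set.inter_comm, one_mul]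
      _ ≤ a ^ 2 * (q * P B) + a * (e * P B) + a * (e * P B) + e * (e * P B) := by
          gcongr
          exact hF j _ (by omega) B hB
      _ = (a ^ 2 * q + a * e + a * e + e * e) * P B := by ring
      _ ≤ (e + a * e + a * e + 1 * e) * P B := by gcongr
      _ = (2 * a + 2) ^ (k + 1) * C * P B := by rw [he, pow_succ]; ring

/-- **the exponential moment over `r` roots of `2^l` units.** -/
theorem rec_exp (P : Measure Ω) (G : ℕ → MeasurableSpace Ω) (hG : Monotone G)
    (hle : ∀ j, G j ≤ m0) (W : ℕ → Ω → ℝ) (hW : ∀ j, Measurable[G (j + 1)] (W j))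
    {lam v0 R : ℝ} (hl : 0 ≤ lam) (hR : ∀ j ω, W j ω ≤ R) {q : ℝ≥0∞}
    (hF : ∀ j k, j ≤ k → ∀ B, MeasurableSet[G j] B → P (B ∩ {ω | v0 < SW W j k ω}) ≤ q * P B)
    {l : ℕ} (small : (2 * ex lam v0 + 2) ^ l * ((ex lam R + ex lam v0 ^ 2) * q) ≤ 1)
    (r j : ℕ) (B : Set Ω) (hB : MeasurableSet[G j] B) :
    ∫⁻ ω in B, ex lam (SW W j (j + r * 2 ^ l) ω) ∂P ≤ (ex lam v0 + 1) ^ r * P B := by
  have hmX : ∀ j k, Measurable (SW W j k) := fun j k =>
    (SW_meas G hG W hW j k).mono (hle k) le_rfl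
  have one : ∀ j B, MeasurableSet[G j] B →
      ∫⁻ ω in B, ex lam (SW W j (j + 2 ^ l) ω) ∂P ≤ (ex lam v0 + 1) * P B := by
    intro j B hB
    have hpt : ∀ ω, ex lam (SW W j (j + 2 ^ l) ω) ≤ ex lam v0 +
        {ω | v0 < SW W j (j + 2 ^ l) ω}.indicator
          (fun ω => ex lam (SW W j (j + 2 ^ l) ω)) ω := by
      intro ω
      by_cases hω : v0 < SW W j (j + 2 ^ l) ω
      · rw [Set.indicator_of_mem (by exact hω)]; exact le_add_self
      · exact (ex_mono hl (not_lt.1 hω)).trans le_self_add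
    calc ∫⁻ ω in B, ex lam (SW W j (j + 2 ^ l) ω) ∂P
        ≤ ∫⁻ ω in B, (ex lam v0 + {ω | v0 < SW W j (j + 2 ^ l) ω}.indicator
          (fun ω => ex lam (SW W j (j + 2 ^ l) ω)) ω) ∂P := lintegral_mono hpt
      _ = ex lam v0 * P B + ∫⁻ ω in B, {ω | v0 < SW W j (j + 2 ^ l) ω}.indicator
          (fun ω => ex lam (SW W j (j + 2 ^ l) ω)) ω ∂P := by
          rw [lintegral_add_left measurable_const, setLIntegral_const]
      _ ≤ ex lam v0 * P B + (2 * ex lam v0 + 2) ^ l * ((ex lam R + ex lam v0 ^ 2) * q) * P B := by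
          gcongr
          exact rec_heavy P G hG hle W hW hl hR hF small l le_rfl j B hB
      _ ≤ ex lam v0 * P B + 1 * P B := by gcongr
      _ = (ex lam v0 + 1) * P B := by ring
  induction r generalizing j B with
  | zero => simp [SW, ex]
  | succ r ih =>
    set j' := j + 2 ^ l with hj'
    have hidx : j + (r + 1) * 2 ^ l = j' + r * 2 ^ l := by rw [hj']; ring
    have hp0 : 0 < 2 ^ l := Nat.two_pow_pos l
    rw [hidx]
    clear hidx
    have hB0 : MeasurableSet B := hle j _ hB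
    have hBj' : MeasurableSet[G j'] B := hG (by omega) _ hB
    have hX : ∀ ω, ex lam (SW W j (j' + r * 2 ^ l) ω) =
        ex lam (SW W j j' ω) * ex lam (SW W j' (j' + r * 2 ^ l) ω) := fun ω => by
      rw [SW_add W (show j ≤ j' by omega) (Nat.le_add_right j' (r * 2 ^ l)) ω, ex_add]
    have h3 := fun_of_set (hle j') P (fun ω => ex lam (SW W j' (j' + r * 2 ^ l) ω))
      (ex_meas lam (hmX _ _)) ((ex lam v0 + 1) ^ r) (fun B' hB' => ih j' B' hB')
      (B.indicator fun ω => ex lam (SW W j j' ω))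
      ((ex_meas lam (SW_meas G hG W hW j j')).indicator hBj')
    have h4 : ∫⁻ ω, B.indicator (fun ω => ex lam (SW W j j' ω)) ω *
        ex lam (SW W j' (j' + r * 2 ^ l) ω) ∂P =
        ∫⁻ ω in B, ex lam (SW W j (j' + r * 2 ^ l) ω) ∂P := by
      rw [← lintegral_indicator hB0]
      refine lintegral_congr fun ω => ?_
      by_cases hω : ω ∈ B <;> simp [hω, hX]
    rw [h4, lintegral_indicator hB0] at h3
    refine h3.trans ?_
    calc (ex lam v0 + 1) ^ r * ∫⁻ ω in B, ex lam (SW W j j' ω) ∂P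
        ≤ (ex lam v0 + 1) ^ r * ((ex lam v0 + 1) * P B) := by gcongr; exact one j B hB
      _ = (ex lam v0 + 1) ^ (r + 1) * P B := by rw [pow_succ]; ring

/-- Chebyshev form. -/
theorem rec_prob (P : Measure Ω) (G : ℕ → MeasurableSpace Ω) (hG : Monotone G)
    (hle : ∀ j, G j ≤ m0) (W : ℕ → Ω → ℝ) (hW : ∀ j, Measurable[G (j + 1)] (W j))
    {lam v0 R : ℝ} (hl : 0 ≤ lam) (hR : ∀ j ω, W j ω ≤ R) {q : ℝ≥0∞}
    (hF : ∀ j k, j ≤ k → ∀ B, MeasurableSet[G j] B → P (B ∩ {ω | v0 < SW W j k ω}) ≤ q * P B)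
    {l : ℕ} (small : (2 * ex lam v0 + 2) ^ l * ((ex lam R + ex lam v0 ^ 2) * q) ≤ 1)
    (r j : ℕ) (B : Set Ω) (hB : MeasurableSet[G j] B) (x : ℝ) :
    P (B ∩ {ω | x ≤ SW W j (j + r * 2 ^ l) ω}) ≤
      ENNReal.ofReal (Real.exp (-(lam * x))) * (ex lam v0 + 1) ^ r * P B := by
  have hB0 : MeasurableSet B := hle j _ hB
  have hmX : Measurable (SW W j (j + r * 2 ^ l)) :=
    (SW_meas G hG W hW _ _).mono (hle _) le_rfl
  have hs : MeasurableSet {ω | x ≤ SW W j (j + r * 2 ^ l) ω} :=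
    measurableSet_le measurable_const hmX
  have h1 : ex lam x * P (B ∩ {ω | x ≤ SW W j (j + r * 2 ^ l) ω}) ≤
      (ex lam v0 + 1) ^ r * P B := by
    refine le_trans ?_ (rec_exp P G hG hle W hW hl hR hF small r j B hB)
    calc ex lam x * P (B ∩ {ω | x ≤ SW W j (j + r * 2 ^ l) ω})
        = ∫⁻ ω in B, {ω | x ≤ SW W j (j + r * 2 ^ l) ω}.indicator (fun _ => ex lam x) ω ∂P := by
          rw [lintegral_indicator_const hs, Measure.restrict_apply hs, Set.inter_comm]
      _ ≤ ∫⁻ ω in B, ex lam (SW W j (j + r * 2 ^ l) ω) ∂P := by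
          refine lintegral_mono fun ω => ?_
          by_cases hω : x ≤ SW W j (j + r * 2 ^ l) ω
          · rw [Set.indicator_of_mem (by exact hω)]; exact ex_mono hl hω
          · rw [Set.indicator_of_notMem (by exact hω)]; exact bot_le
  have h2 : ENNReal.ofReal (Real.exp (-(lam * x))) * ex lam x = 1 := by
    unfold ex
    rw [← ENNReal.ofReal_mul (Real.exp_pos _).le, ← Real.exp_add]
    simp
  calc P (B ∩ {ω | x ≤ SW W j (j + r * 2 ^ l) ω})
      = ENNReal.ofReal (Real.exp (-(lam * x))) *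
        (ex lam x * P (B ∩ {ω | x ≤ SW W j (j + r * 2 ^ l) ω})) := by
        rw [← mul_assoc, h2, one_mul]
    _ ≤ ENNReal.ofReal (Real.exp (-(lam * x))) * ((ex lam v0 + 1) ^ r * P B) := by gcongr
    _ = _ := by rw [mul_assoc]

end Crest.Agent.R154.Rec927
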