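import Crest.Agent.R154.Ren_263

/-!
Row 154, block B1 (abstract part 2): the mean height of a regeneration block is finite.
-/

set_option autoImplicit false
set_option linter.unusedSectionVars false
set_option linter.deprecated false
open MeasureTheory Filter Set
open scoped ENNReal Topology symmDiff

namespace Crest.Agent.R154.Ren263

variable {S : Type*}

/-- paths in `Stay` whose regeneration times `≥ 1` all have height at least `t` -/
def Big (h : S → ℝ) (t : ℝ) : Set (ℕ → S) :=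
  {s | s ∈ Stay h ∧ ∀ n, 1 ≤ n → Reg h s n → t ≤ hgt h s n}

lemma big_subset (h : S → ℝ) (t : ℝ) : Big h t ⊆ Stay h := fun _ hs => hs.1

lemma reg_shift {h : S → ℝ} {s : ℕ → S} {n m : ℕ} (hnm : n ≤ m) (hm : Reg h s m) :
    Reg h (shift n s) (m - n) := by
  obtain ⟨j, rfl⟩ := Nat.exists_eq_add_of_le hnm
  rw [Nat.add_sub_cancel_left]
  refine ⟨fun k hk => ?_, ?_⟩
  · rw [hgt_shift, hgt_shift]
    have := hm.1 (n + k) (by omega)
    linarith
  · rw [shift_shift]; exact hm.2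

section measurable

variable [Countable S] [MeasurableSpace S] [MeasurableSingletonClass S]

lemma measurableSet_Big (h : S → ℝ) (t : ℝ) : MeasurableSet (Big h t) := by
  have : Big h t = Stay h ∩ ⋂ n : ℕ, ⋂ _ : 1 ≤ n, ({s | Reg h s n}ᶜ ∪ {s | t ≤ hgt h s n}) := by
    ext s
    simp only [Big, mem_setOf_eq, mem_inter_iff, mem_iInter, mem_union, mem_compl_iff]
    refine and_congr Iff.rfl (forall_congr' fun n => forall_congr' fun _ => ?_)
    tauto
  rw [this]
  exact (measurableSet_Stay h).inter <| MeasurableSet.iInter fun n => MeasurableSet.iInter fun _ =>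
    (measurableSet_Reg h n).compl.union (measurableSet_le measurable_const (measurable_hgt h n))

lemma fp_lt {h : S → ℝ} {c : ℝ} (hc0 : 0 < c) {k n : ℕ} {s : ℕ → S}
    (hc : ∀ i, h (s i) ≤ c) (hs : s ∈ FP h (k * c) n) : hgt h s n < (k + 1) * c := by
  rcases Nat.eq_zero_or_pos n with rfl | hn
  · rw [hgt_zero]; positivity
  · obtain ⟨m, rfl⟩ := Nat.exists_eq_succ_of_ne_zero hn.ne'
    have h1 := hs.2 m (Nat.lt_succ_self m)
    rw [Nat.succ_eq_add_one, hgt_succ]
    have := hc m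
    linarith

lemma measurableSet_le_letters (h : S → ℝ) (c : ℝ) :
    MeasurableSet {s : ℕ → S | ∀ i, h (s i) ≤ c} := by
  have : {s : ℕ → S | ∀ i, h (s i) ≤ c} = ⋂ i : ℕ, {s | h (s i) ≤ c} := by ext s; simp
  rw [this]
  exact MeasurableSet.iInter fun i =>
    measurableSet_le ((measurable_of_countable h).comp (measurable_pi_apply i)) measurable_const

theorem Renewal.sum_big_ae {h : S → ℝ} {P : Measure (ℕ → S)} [IsProbabilityMeasure P]
    (R : Renewal h P) (hp : P (Stay h) ≠ 0)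
    (hT : ∀ᵐ s ∂P, s ∈ Stay h → ∀ M : ℝ, ∃ n, M ≤ hgt h s n)
    {c : ℝ} (hc : ∀ᵐ s ∂P, ∀ i, h (s i) ≤ c) (hc0 : 0 < c) (K : ℕ) :
    ∑ k ∈ Finset.range K, P (Big h ((K - k : ℝ) * c)) ≤ 1 := by
  -- the events
  set E : ℕ → Set (ℕ → S) := fun k =>
    {s | s ∈ Stay h ∧ ∃ n, s ∈ FP h (k * c) n ∧ shift n s ∈ Big h ((K - k : ℝ) * c)} with hE
  set C : ℕ → ℕ → Set (ℕ → S) := fun k n =>
    {s | (∀ j ≤ n, 0 ≤ hgt h s j) ∧ s ∈ FP h (k * c) n} with hC
  have hCdet : ∀ k n, Det n (C k n) := by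
    intro k n
    have key : ∀ s s' : ℕ → S, (∀ i < n, s i = s' i) → s ∈ C k n → s' ∈ C k n := by
      rintro s s' H ⟨h1, h2⟩
      exact ⟨fun j hj => by rw [← hgt_congr h H hj]; exact h1 j hj, (det_FP h _ n s s' H).1 h2⟩
    exact fun s s' H => ⟨key s s' H, key s' s fun i hi => (H i hi).symm⟩
  have hEeq : ∀ k, E k = ⋃ n, (C k n ∩ shift n ⁻¹' Big h ((K - k : ℝ) * c)) := by
    intro k
    ext s
    simp only [hE, hC, mem_setOf_eq, mem_iUnion, mem_inter_iff, mem_preimage]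
    constructor
    · rintro ⟨h1, n, h2, h3⟩
      exact ⟨n, ⟨fun j _ => h1 j, h2⟩, h3⟩
    · rintro ⟨n, ⟨h1, h2⟩, h3⟩
      refine ⟨fun j => ?_, n, h2, h3⟩
      rcases le_total j n with hj | hj
      · exact h1 j hj
      · exact (h1 n le_rfl).trans (mem_shift_Stay.1 h3.1 j hj)
  have hEmeas : ∀ k, MeasurableSet (E k) := by
    intro k
    rw [hEeq]
    exact MeasurableSet.iUnion fun n => (hCdet k n).measurableSet.inter
      (measurable_shift n (measurableSet_Big h _))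
  have hCdisj : ∀ k, Pairwise (Function.onFun Disjoint (C k)) := by
    intro k n m hnm
    rw [Function.onFun, Set.disjoint_left]
    intro s hs hs'
    exact hnm (FP_unique hs.2 hs'.2)
  have hPE : ∀ k, P (E k) = P (⋃ n, C k n) * P (Big h ((K - k : ℝ) * c)) := by
    intro k
    rw [hEeq, measure_iUnion, measure_iUnion (hCdisj k) fun n => (hCdet k n).measurableSet,
      ← ENNReal.tsum_mul_right]
    · congr 1
      funext n
      exact R.ren n _ _ (hCdet k n) (fun s hs => record_of_FP hs.2) (measurableSet_Big h _)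
        (big_subset h _)
    · intro n m hnm
      exact (hCdisj k hnm).mono inter_subset_left inter_subset_left
    · exact fun n => (hCdet k n).measurableSet.inter (measurable_shift n (measurableSet_Big h _))
  have hPC : ∀ k, P (Stay h) ≤ P (⋃ n, C k n) := by
    intro k
    refine measure_mono_ae ?_
    filter_upwards [hT] with s hs hst
    obtain ⟨n, hn⟩ := exists_FP (hs hst (k * c))
    exact mem_iUnion.2 ⟨n, fun j _ => hst j, hn⟩
  set Gd : Set (ℕ → S) := {s | ∀ i, h (s i) ≤ c} with hGd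
  have hGdm : MeasurableSet Gd := measurableSet_le_letters h c
  have hEdisj : ∀ k j, k < j → j < K → Disjoint (E k ∩ Gd) (E j ∩ Gd) := by
    intro k j hkj hjK
    rw [Set.disjoint_left]
    rintro s ⟨⟨_, n, hn, hbn⟩, hg⟩ ⟨⟨_, m, hm, hbm⟩, _⟩
    have e1 : hgt h s n < (k + 1) * c := fp_lt hc0 hg hn
    have e2 : hgt h s m < (j + 1) * c := fp_lt hc0 hg hm
    have hkj' : (k : ℝ) + 1 ≤ j := by exact_mod_cast hkj
    have hjK' : (j : ℝ) + 1 ≤ K := by exact_mod_cast hjK
    have e3 : (j : ℝ) * c ≤ hgt h s m := hm.1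
    have e4 : (k : ℝ) * c ≤ hgt h s n := hn.1
    have hnm : n < m := by
      by_contra hcon
      rcases (not_lt.1 hcon).eq_or_lt with he | hl
      · subst he; nlinarith
      · have := record_of_FP hn m hl
        nlinarith
    have hreg : Reg h s m := ⟨record_of_FP hm, hbm.1⟩
    have e5 := hbn.2 (m - n) (by omega) (reg_shift hnm.le hreg)
    rw [hgt_shift, Nat.add_sub_cancel' hnm.le] at e5
    nlinarith
  have hEG : ∀ k, P (E k) = P (E k ∩ Gd) := by
    intro k
    refine measure_congr ?_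
    filter_upwards [hc] with s hs
    exact propext ⟨fun H => ⟨H, hs⟩, fun H => H.1⟩
  have hsum : ∑ k ∈ Finset.range K, P (E k) ≤ P (Stay h) := by
    rw [Finset.sum_congr rfl fun k _ => hEG k]
    rw [← measure_biUnion_finset]
    · refine measure_mono ?_
      intro s hs
      simp only [mem_iUnion] at hs
      obtain ⟨k, _, hk⟩ := hs
      exact hk.1.1
    · intro k hk j hj hkj
      simp only [Finset.coe_range, mem_Iio] at hk hj
      rcases lt_or_gt_of_ne hkj with H | H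
      · exact hEdisj k j H hj
      · exact (hEdisj j k H hk).symm
    · exact fun k _ => (hEmeas k).inter hGdm
  have h1 : (∑ k ∈ Finset.range K, P (Big h ((K - k : ℝ) * c))) * P (Stay h) ≤ 1 * P (Stay h) := by
    rw [one_mul, Finset.sum_mul]
    refine le_trans (Finset.sum_le_sum fun k _ => ?_) hsum
    rw [hPE, mul_comm]
    exact mul_le_mul' (hPC k) le_rfl
  exact (ENNReal.mul_le_mul_iff_left hp (measure_ne_top _ _)).1 h1

/-- tail sum of the first regeneration height -/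
theorem Renewal.tsum_big_ae {h : S → ℝ} {P : Measure (ℕ → S)} [IsProbabilityMeasure P]
    (R : Renewal h P) (hp : P (Stay h) ≠ 0)
    (hT : ∀ᵐ s ∂P, s ∈ Stay h → ∀ M : ℝ, ∃ n, M ≤ hgt h s n)
    {c : ℝ} (hc : ∀ᵐ s ∂P, ∀ i, h (s i) ≤ c) (hc0 : 0 < c) :
    ∑' k : ℕ, P (Big h ((k + 1 : ℝ) * c)) ≤ 1 := by
  rw [ENNReal.tsum_eq_iSup_nat]
  refine iSup_le fun K => ?_
  rw [← Finset.sum_range_reflect]
  refine le_trans (le_of_eq (Finset.sum_congr rfl fun k hk => ?_)) (R.sum_big_ae hp hT hc hc0 K)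
  have hk' := Finset.mem_range.1 hk
  have : ((K - 1 - k : ℕ) : ℝ) + 1 = (K : ℝ) - k := by
    have h1 : (K - 1 - k : ℕ) + 1 + k = K := by omega
    have h2 : ((K - 1 - k : ℕ) : ℝ) + 1 + k = K := by exact_mod_cast h1
    linarith
  rw [this]

/-- the law of the first block height: `P (Big t) = P(Stay) * Σ_n P(Good n, height ≥ t)` -/
theorem Renewal.big_eq {h : S → ℝ} {P : Measure (ℕ → S)} [IsProbabilityMeasure P]
    (R : Renewal h P) (hp : P (Stay h) ≠ 0)
    (hT : ∀ᵐ s ∂P, s ∈ Stay h → ∀ M : ℝ, ∃ n, M ≤ hgt h s n) (t : ℝ) :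
    P (Big h t) = (∑' n, P (Good h n ∩ {s | t ≤ hgt h s n})) * P (Stay h) := by
  have hdet : ∀ n, Det n (Good h n ∩ {s : ℕ → S | t ≤ hgt h s n}) := by
    intro n
    refine (det_Good h n).inter ?_
    intro s s' H
    simp only [mem_setOf_eq]
    rw [hgt_congr h H le_rfl]
  have h1 : P (Big h t) =
      P (⋃ n, ((Good h n ∩ {s | t ≤ hgt h s n}) ∩ shift n ⁻¹' Stay h)) := by
    refine measure_congr ?_
    filter_upwards [R.ae_tendsto hp, hT] with s hs1 hs2
    refine propext ⟨fun hs => ?_, fun hs => ?_⟩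
    · classical
      obtain ⟨n, hn1, hn2⟩ := (hs1 (hs2 hs.1)).1 1
      have hex : ∃ n, 1 ≤ n ∧ Reg h s n := ⟨n, hn1, hn2⟩
      have hg := good_iff.2 ⟨hs.1, (Nat.find_spec hex).1,
        (Nat.find_spec hex).2, fun m hm1 hm2 hm3 => Nat.find_min hex hm2 ⟨hm1, hm3⟩⟩
      exact mem_iUnion.2 ⟨Nat.find hex, ⟨hg.1, hs.2 _ (Nat.find_spec hex).1
        (Nat.find_spec hex).2⟩, hg.2⟩
    · obtain ⟨n, ⟨hn1, hn2⟩, hn3⟩ := mem_iUnion.1 hs
      have hg := good_iff.1 ⟨hn1, hn3⟩
      refine ⟨hg.1, fun m hm hr => ?_⟩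
      have hnm : n ≤ m := by
        by_contra hcon
        exact hg.2.2.2 m hm (not_le.1 hcon) hr
      exact le_trans hn2 (mem_shift_Stay.1 hn3 m hnm)
  rw [h1, measure_iUnion, ← ENNReal.tsum_mul_right]
  · congr 1
    funext n
    exact R.block (hdet n) inter_subset_left (measurableSet_Stay h) subset_rfl
  · intro n m hnm
    rw [Function.onFun, Set.disjoint_left]
    rintro s ⟨⟨hs1, _⟩, hs2⟩ ⟨⟨hs1', _⟩, hs2'⟩
    exact hnm (good_unique ⟨hs1, hs2⟩ ⟨hs1', hs2'⟩)
  · exact fun n => (hdet n).measurableSet.inter (measurable_shift n (measurableSet_Stay h))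

/-- finite mean of the block height: `E Y ≤ c (1 + 1/p)` -/
theorem Renewal.mean_le_ae {h : S → ℝ} {P : Measure (ℕ → S)} [IsProbabilityMeasure P]
    (R : Renewal h P) (hp : P (Stay h) ≠ 0)
    (hT : ∀ᵐ s ∂P, s ∈ Stay h → ∀ M : ℝ, ∃ n, M ≤ hgt h s n)
    {c : ℝ} (hc : ∀ᵐ s ∂P, ∀ i, h (s i) ≤ c) (hc0 : 0 < c) :
    ∑' n, ∫⁻ s in Good h n, ENNReal.ofReal (hgt h s n) ∂P ≤
      ENNReal.ofReal c * (1 + (P (Stay h))⁻¹) := by
  -- pointwise bound of the height by a sum of indicators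
  have hpt : ∀ (n : ℕ) (s : ℕ → S), ENNReal.ofReal (hgt h s n) ≤
      ENNReal.ofReal c * (1 + ∑' k : ℕ,
        ({s : ℕ → S | ((k + 1 : ℝ) * c) ≤ hgt h s n}.indicator (fun _ => (1 : ℝ≥0∞)) s)) := by
    intro n s
    set y := hgt h s n with hy
    rcases le_or_gt y 0 with hy0 | hy0
    · rw [ENNReal.ofReal_of_nonpos hy0]; exact zero_le
    set N := ⌊y / c⌋₊ with hN
    have h1 : y / c < N + 1 := Nat.lt_floor_add_one _
    have h2 : (N : ℝ≥0∞) ≤ ∑' k : ℕ,
        ({s : ℕ → S | ((k + 1 : ℝ) * c) ≤ hgt h s n}.indicator (fun _ => (1 : ℝ≥0∞)) s) := by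
      refine le_trans ?_ (ENNReal.sum_le_tsum (Finset.range N))
      have : ∀ k ∈ Finset.range N,
          ({s : ℕ → S | ((k + 1 : ℝ) * c) ≤ hgt h s n}.indicator (fun _ => (1 : ℝ≥0∞)) s) = 1 := by
        intro k hk
        rw [indicator_of_mem]
        simp only [mem_setOf_eq]
        have hk' : ((k : ℝ) + 1) ≤ N := by exact_mod_cast Finset.mem_range.1 hk
        have hNy : (N : ℝ) ≤ y / c := Nat.floor_le (by positivity)
        have : ((k : ℝ) + 1) ≤ y / c := hk'.trans hNy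
        rwa [le_div_iff₀ hc0] at this
      rw [Finset.sum_congr rfl this]
      simp
    calc ENNReal.ofReal y ≤ ENNReal.ofReal (c * (1 + N)) := by
          refine ENNReal.ofReal_le_ofReal ?_
          rw [div_lt_iff₀ hc0] at h1
          nlinarith
      _ = ENNReal.ofReal c * (1 + (N : ℝ≥0∞)) := by
          rw [ENNReal.ofReal_mul hc0.le, ENNReal.ofReal_add zero_le_one (by positivity),
            ENNReal.ofReal_one, ENNReal.ofReal_natCast]
      _ ≤ _ := by gcongr
  have hmeas : ∀ (n k : ℕ), MeasurableSet {s : ℕ → S | ((k + 1 : ℝ) * c) ≤ hgt h s n} :=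
    fun n k => measurableSet_le measurable_const (measurable_hgt h n)
  have hI : ∀ n, ∫⁻ s in Good h n, ENNReal.ofReal (hgt h s n) ∂P ≤
      ENNReal.ofReal c * (P (Good h n) + ∑' k : ℕ,
        P (Good h n ∩ {s : ℕ → S | ((k + 1 : ℝ) * c) ≤ hgt h s n})) := by
    intro n
    calc ∫⁻ s in Good h n, ENNReal.ofReal (hgt h s n) ∂P
        ≤ ∫⁻ s in Good h n, ENNReal.ofReal c * (1 + ∑' k : ℕ,
        ({s : ℕ → S | ((k + 1 : ℝ) * c) ≤ hgt h s n}.indicator (fun _ => (1 : ℝ≥0∞)) s)) ∂P :=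
          lintegral_mono fun s => hpt n s
      _ = ENNReal.ofReal c * (P (Good h n) + ∑' k : ℕ,
        P (Good h n ∩ {s : ℕ → S | ((k + 1 : ℝ) * c) ≤ hgt h s n})) := by
          rw [lintegral_const_mul' _ _ ENNReal.ofReal_ne_top, lintegral_add_left measurable_const,
            lintegral_tsum]
          · congr 2
            · simp
            · congr 1
              funext k
              rw [lintegral_indicator (hmeas n k), lintegral_const, Measure.restrict_restrict (hmeas n k)]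
              rw [one_mul, Measure.restrict_apply_univ, inter_comm]
          · intro k
            exact (measurable_const.indicator (hmeas n k)).aemeasurable
  have hbig : ∀ k : ℕ, ∑' n, P (Good h n ∩ {s : ℕ → S | ((k + 1 : ℝ) * c) ≤ hgt h s n}) =
      P (Big h ((k + 1 : ℝ) * c)) * (P (Stay h))⁻¹ := by
    intro k
    rw [R.big_eq hp hT, mul_assoc, ENNReal.mul_inv_cancel hp (measure_ne_top _ _), mul_one]
  calc ∑' n, ∫⁻ s in Good h n, ENNReal.ofReal (hgt h s n) ∂P
      ≤ ∑' n, ENNReal.ofReal c * (P (Good h n) + ∑' k : ℕ,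
        P (Good h n ∩ {s : ℕ → S | ((k + 1 : ℝ) * c) ≤ hgt h s n})) := ENNReal.tsum_le_tsum hI
    _ = ENNReal.ofReal c * (∑' n, P (Good h n) + ∑' n, ∑' k : ℕ,
        P (Good h n ∩ {s : ℕ → S | ((k + 1 : ℝ) * c) ≤ hgt h s n})) := by
        rw [ENNReal.tsum_mul_left, ENNReal.tsum_add]
    _ = ENNReal.ofReal c * (1 + ∑' k : ℕ, P (Big h ((k + 1 : ℝ) * c)) * (P (Stay h))⁻¹) := by
        rw [R.tsum_good hp hT, ENNReal.tsum_comm]
        congr 2
        congr 1
        funext k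
        exact hbig k
    _ ≤ ENNReal.ofReal c * (1 + 1 * (P (Stay h))⁻¹) := by
        rw [ENNReal.tsum_mul_right]
        gcongr
        exact R.tsum_big_ae hp hT hc hc0
    _ = _ := by rw [one_mul]

theorem Renewal.sum_big {h : S → ℝ} {P : Measure (ℕ → S)} [IsProbabilityMeasure P]
    (R : Renewal h P) (hp : P (Stay h) ≠ 0)
    (hT : ∀ᵐ s ∂P, s ∈ Stay h → ∀ M : ℝ, ∃ n, M ≤ hgt h s n)
    {c : ℝ} (hc : ∀ a, h a ≤ c) (hc0 : 0 < c) (K : ℕ) :
    ∑ k ∈ Finset.range K, P (Big h ((K - k : ℝ) * c)) ≤ 1 :=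
  R.sum_big_ae hp hT (Eventually.of_forall fun s i => hc (s i)) hc0 K

theorem Renewal.tsum_big {h : S → ℝ} {P : Measure (ℕ → S)} [IsProbabilityMeasure P]
    (R : Renewal h P) (hp : P (Stay h) ≠ 0)
    (hT : ∀ᵐ s ∂P, s ∈ Stay h → ∀ M : ℝ, ∃ n, M ≤ hgt h s n)
    {c : ℝ} (hc : ∀ a, h a ≤ c) (hc0 : 0 < c) :
    ∑' k : ℕ, P (Big h ((k + 1 : ℝ) * c)) ≤ 1 :=
  R.tsum_big_ae hp hT (Eventually.of_forall fun s i => hc (s i)) hc0

theorem Renewal.mean_le {h : S → ℝ} {P : Measure (ℕ → S)} [IsProbabilityMeasure P]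
    (R : Renewal h P) (hp : P (Stay h) ≠ 0)
    (hT : ∀ᵐ s ∂P, s ∈ Stay h → ∀ M : ℝ, ∃ n, M ≤ hgt h s n)
    {c : ℝ} (hc : ∀ a, h a ≤ c) (hc0 : 0 < c) :
    ∑' n, ∫⁻ s in Good h n, ENNReal.ofReal (hgt h s n) ∂P ≤
      ENNReal.ofReal c * (1 + (P (Stay h))⁻¹) :=
  R.mean_le_ae hp hT (Eventually.of_forall fun s i => hc (s i)) hc0

end measurable

end Crest.Agent.R154.Ren263
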