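import Crest.Agent.R154.RenG_263

/-!
Row 154, block B1 for range `R > 0`, part 2: finite mean of the block height; iid words.
-/

set_option autoImplicit false
set_option linter.unusedSectionVars false
set_option linter.deprecated false
open MeasureTheory Filter Set ProbabilityTheory
open scoped ENNReal Topology

namespace Crest.Agent.R154.RenG263

open Crest.Agent.R154.Ren263

variable {S : Type*} {h : S → ℝ}

section measurable

variable [Countable S] [MeasurableSpace S] [MeasurableSingletonClass S]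
variable {ρ : RecSys h} {P : Measure (ℕ → S)} [IsProbabilityMeasure P]

theorem RenewalG.sum_big (R : RenewalG ρ P) (hp : P (Stay h) ≠ 0)
    (hT : ∀ᵐ s ∂P, s ∈ Stay h → ∀ M : ℝ, ∃ n, M ≤ hgt h s n)
    {c b : ℝ} (hc : ∀ a, h a ≤ c) (hc0 : 0 < c) (hb : (ρ.K + 1) * c ≤ b) (N : ℕ) :
    (∑ k ∈ Finset.range N, P (Big ρ ((N - k : ℝ) * b))) * ρ.δ ≤ 1 := by
  have hb0 : 0 < b := lt_of_lt_of_le (by positivity) hb
  -- the events
  set C : ℕ → ℕ → Set (ℕ → S) := fun k n =>
    {s | (∀ j ≤ n, 0 ≤ hgt h s j) ∧ s ∈ FP h (k * b) n} with hC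
  set E : ℕ → Set (ℕ → S) := fun k =>
    ⋃ n, ((C k n ∩ Climb ρ n) ∩ shift (n + ρ.K) ⁻¹' Big ρ ((N - k : ℝ) * b)) with hE
  have hCdet : ∀ k n, Det n (C k n) := by
    intro k n
    have key : ∀ s s' : ℕ → S, (∀ i < n, s i = s' i) → s ∈ C k n → s' ∈ C k n := by
      rintro s s' H ⟨h1, h2⟩
      exact ⟨fun j hj => by rw [← hgt_congr h H hj]; exact h1 j hj, (det_FP h _ n s s' H).1 h2⟩
    exact fun s s' H => ⟨key s s' H, key s' s fun i hi => (H i hi).symm⟩
  have hEm : ∀ k n, MeasurableSet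
      ((C k n ∩ Climb ρ n) ∩ shift (n + ρ.K) ⁻¹' Big ρ ((N - k : ℝ) * b)) := fun k n =>
    ((hCdet k n).measurableSet.inter (det_Climb ρ n).measurableSet).inter
      (measurable_shift _ (measurableSet_Big ρ _))
  have hEmeas : ∀ k, MeasurableSet (E k) := fun k => MeasurableSet.iUnion fun n => hEm k n
  have hCdisj : ∀ k, Pairwise (Function.onFun Disjoint (C k)) := by
    intro k n m hnm
    rw [Function.onFun, Set.disjoint_left]
    intro s hs hs'
    exact hnm (FP_unique hs.2 hs'.2)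
  have hPE : ∀ k, P (E k) = P (⋃ n, C k n) * (ρ.δ * P (Big ρ ((N - k : ℝ) * b))) := by
    intro k
    rw [hE]
    simp only
    rw [measure_iUnion, measure_iUnion (hCdisj k) fun n => (hCdet k n).measurableSet,
      ← ENNReal.tsum_mul_right]
    · congr 1
      funext n
      exact R.climb_ren (hCdet k n) (fun s hs => record_of_FP hs.2) (measurableSet_Big ρ _)
        (big_subset ρ _)
    · intro n m hnm
      refine (hCdisj k hnm).mono ?_ ?_
      · exact fun s hs => hs.1.1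
      · exact fun s hs => hs.1.1
    · exact fun n => hEm k n
  have hPC : ∀ k, P (Stay h) ≤ P (⋃ n, C k n) := by
    intro k
    refine measure_mono_ae ?_
    filter_upwards [hT] with s hs hst
    obtain ⟨n, hn⟩ := exists_FP (hs hst (k * b))
    exact mem_iUnion.2 ⟨n, fun j _ => hst j, hn⟩
  -- height of a first passage and of the end of the climb
  have hfp : ∀ (k n : ℕ) (s : ℕ → S), s ∈ FP h (k * b) n → hgt h s n < k * b + c := by
    intro k n s hs
    rcases Nat.eq_zero_or_pos n with rfl | hn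
    · rw [hgt_zero]; positivity
    · obtain ⟨m, rfl⟩ := Nat.exists_eq_succ_of_ne_zero hn.ne'
      have h1 := hs.2 m (Nat.lt_succ_self m)
      rw [Nat.succ_eq_add_one, hgt_succ]
      have := hc (s m)
      linarith
  have hend : ∀ (k n : ℕ) (s : ℕ → S), s ∈ FP h (k * b) n →
      hgt h s (n + ρ.K) < (k + 1) * b := by
    intro k n s hs
    have h1 := hfp k n s hs
    have h2 := climb_hgt_le (n := n) (s := s) hc ρ.K
    nlinarith
  have hEsub : ∀ k, E k ⊆ Stay h := by
    intro k s hs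
    obtain ⟨n, ⟨⟨h1, h2⟩, h3⟩, h4⟩ := mem_iUnion.1 hs
    intro j
    rcases le_total j n with hj | hj
    · exact h1 j hj
    · rcases le_total j (n + ρ.K) with hj2 | hj2
      · obtain ⟨i, rfl⟩ := Nat.exists_eq_add_of_le hj
        have := climb_hgt h3 (j := i) (by omega)
        have := h1 n le_rfl
        linarith
      · have e1 := climb_hgt h3 (j := ρ.K) le_rfl
        have e2 := h1 n le_rfl
        have e3 := mem_shift_Stay.1 h4.1 j hj2
        linarith
  have hEdisj : ∀ k j, k < j → j < N → Disjoint (E k) (E j) := by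
    intro k j hkj hjK
    rw [Set.disjoint_left]
    intro s hsk hsj
    obtain ⟨n, ⟨⟨_, hn⟩, hcn⟩, hbn⟩ := mem_iUnion.1 hsk
    obtain ⟨m, ⟨⟨_, hm⟩, hcm⟩, hbm⟩ := mem_iUnion.1 hsj
    have e1 := hend k n s hn
    have e2 := hend j m s hm
    have hkj' : (k : ℝ) + 1 ≤ j := by exact_mod_cast hkj
    have hjK' : (j : ℝ) + 1 ≤ N := by exact_mod_cast hjK
    have e3 : (j : ℝ) * b ≤ hgt h s m := hm.1
    have e4 : (k : ℝ) * b ≤ hgt h s n := hn.1
    have e5 := climb_hgt hcn (j := ρ.K) le_rfl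
    have e5' := hfp k n s hn
    have hnm : n < m := by
      by_contra hcon
      rcases (not_lt.1 hcon).eq_or_lt with he | hl
      · subst he
        have : c ≤ b := by
          refine le_trans ?_ hb
          nlinarith [(Nat.cast_nonneg ρ.K : (0:ℝ) ≤ ρ.K)]
        nlinarith
      · have := record_of_FP hn m hl
        have : c ≤ b := by
          refine le_trans ?_ hb
          nlinarith [(Nat.cast_nonneg ρ.K : (0:ℝ) ≤ ρ.K)]
        nlinarith
    have hreg : Reg ρ s (m + ρ.K) := ⟨ρ.climb (record_of_FP hm) hcm, hbm.1⟩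
    have e6 := hbn.2 (m + ρ.K - (n + ρ.K)) (by omega) (reg_shift (by omega) hreg)
    rw [hgt_shift, Nat.add_sub_cancel' (by omega : n + ρ.K ≤ m + ρ.K)] at e6
    nlinarith
  have hsum : ∑ k ∈ Finset.range N, P (E k) ≤ P (Stay h) := by
    rw [← measure_biUnion_finset]
    · refine measure_mono ?_
      intro s hs
      simp only [mem_iUnion] at hs
      obtain ⟨k, _, hk⟩ := hs
      exact hEsub k hk
    · intro k hk j hj hkj
      simp only [Finset.coe_range, mem_Iio] at hk hj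
      rcases lt_or_gt_of_ne hkj with H | H
      · exact hEdisj k j H hj
      · exact (hEdisj j k H hk).symm
    · exact fun k _ => hEmeas k
  have h1 : ((∑ k ∈ Finset.range N, P (Big ρ ((N - k : ℝ) * b))) * ρ.δ) * P (Stay h) ≤
      1 * P (Stay h) := by
    rw [one_mul, mul_assoc, Finset.sum_mul]
    refine le_trans (Finset.sum_le_sum fun k _ => ?_) hsum
    rw [hPE, mul_comm, mul_comm ρ.δ, mul_assoc]
    exact mul_le_mul' (hPC k) le_rfl
  exact (ENNReal.mul_le_mul_iff_left hp (measure_ne_top _ _)).1 h1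

/-- tail sum of the first regeneration height -/
theorem RenewalG.tsum_big (R : RenewalG ρ P) (hp : P (Stay h) ≠ 0)
    (hT : ∀ᵐ s ∂P, s ∈ Stay h → ∀ M : ℝ, ∃ n, M ≤ hgt h s n)
    {c b : ℝ} (hc : ∀ a, h a ≤ c) (hc0 : 0 < c) (hb : (ρ.K + 1) * c ≤ b) :
    ∑' k : ℕ, P (Big ρ ((k + 1 : ℝ) * b)) ≤ ρ.δ⁻¹ := by
  rw [ENNReal.tsum_eq_iSup_nat]
  refine iSup_le fun N => ?_
  rw [← Finset.sum_range_reflect]
  have hδ : ρ.δ ≠ ⊤ := ne_top_of_le_ne_top ENNReal.one_ne_top R.δ_le
  have h0 := R.sum_big hp hT hc hc0 hb N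
  have h1 : ∑ k ∈ Finset.range N, P (Big ρ ((N - k : ℝ) * b)) ≤ ρ.δ⁻¹ := by
    rw [ENNReal.le_inv_iff_mul_le]
    exact h0
  refine le_trans (le_of_eq (Finset.sum_congr rfl fun k hk => ?_)) h1
  have hk' := Finset.mem_range.1 hk
  have : ((N - 1 - k : ℕ) : ℝ) + 1 = (N : ℝ) - k := by
    have h1 : (N - 1 - k : ℕ) + 1 + k = N := by omega
    have h2 : ((N - 1 - k : ℕ) : ℝ) + 1 + k = N := by exact_mod_cast h1
    linarith
  rw [this]

/-- the law of the first block height: `P (Big t) = P(Stay) * Σ_n P(Good n, height ≥ t)` -/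
theorem RenewalG.big_eq (R : RenewalG ρ P) (hp : P (Stay h) ≠ 0)
    (hT : ∀ᵐ s ∂P, s ∈ Stay h → ∀ M : ℝ, ∃ n, M ≤ hgt h s n) (t : ℝ) :
    P (Big ρ t) = (∑' n, P (Good ρ n ∩ {s | t ≤ hgt h s n})) * P (Stay h) := by
  have hdet : ∀ n, Det n (Good ρ n ∩ {s : ℕ → S | t ≤ hgt h s n}) := by
    intro n
    refine (det_Good ρ n).inter ?_
    intro s s' H
    simp only [mem_setOf_eq]
    rw [hgt_congr h H le_rfl]
  have h1 : P (Big ρ t) =
      P (⋃ n, ((Good ρ n ∩ {s | t ≤ hgt h s n}) ∩ shift n ⁻¹' Stay h)) := by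
    refine measure_congr ?_
    filter_upwards [R.ae_tendsto hp, hT] with s hs1 hs2
    refine propext ⟨fun hs => ?_, fun hs => ?_⟩
    · classical
      obtain ⟨n, hn1, hn2⟩ := (hs1 (hs2 hs.1)).1 1
      have hex : ∃ n, 1 ≤ n ∧ Reg ρ s n := ⟨n, hn1, hn2⟩
      have hg := good_iff.2 ⟨hs.1, (Nat.find_spec hex).1,
        (Nat.find_spec hex).2, fun m hm1 hm2 hm3 => Nat.find_min hex hm2 ⟨hm1, hm3⟩⟩
      exact mem_iUnion.2 ⟨Nat.find hex, ⟨hg.1, hs.2 _ (Nat.find_spec hex).1
        (Nat.find_spec hex).2⟩, hg.2⟩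
    · obtain ⟨n, ⟨hn1, hn2⟩, hn3⟩ := mem_iUnion.1 hs
      have hg := good_iff.1 ⟨hn1, hn3⟩
      refine ⟨hg.1, fun m hm hr => ?_⟩
      have hnm : n ≤ m := by
        by_contra hcon
        exact hg.2.2.2 m hm (not_le.1 hcon) hr
      exact le_trans hn2 (mem_shift_Stay.1 hn3 m hnm)
  rw [h1, measure_iUnion, ← ENNReal.tsum_mul_right]
  · congr 1
    funext n
    exact R.block (hdet n) inter_subset_left (measurableSet_Stay h) subset_rfl
  · intro n m hnm
    rw [Function.onFun, Set.disjoint_left]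
    rintro s ⟨⟨hs1, _⟩, hs2⟩ ⟨⟨hs1', _⟩, hs2'⟩
    exact hnm (good_unique ⟨hs1, hs2⟩ ⟨hs1', hs2'⟩)
  · exact fun n => (hdet n).measurableSet.inter (measurable_shift n (measurableSet_Stay h))

/-- finite mean of the block height -/
theorem RenewalG.mean_le (R : RenewalG ρ P) (hp : P (Stay h) ≠ 0)
    (hT : ∀ᵐ s ∂P, s ∈ Stay h → ∀ M : ℝ, ∃ n, M ≤ hgt h s n)
    {c b : ℝ} (hc : ∀ a, h a ≤ c) (hc0 : 0 < c) (hb : (ρ.K + 1) * c ≤ b) :
    ∑' n, ∫⁻ s in Good ρ n, ENNReal.ofReal (hgt h s n) ∂P ≤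
      ENNReal.ofReal b * (1 + ρ.δ⁻¹ * (P (Stay h))⁻¹) := by
  have hb0 : 0 < b := lt_of_lt_of_le (by positivity) hb
  -- pointwise bound of the height by a sum of indicators
  have hpt : ∀ (n : ℕ) (s : ℕ → S), ENNReal.ofReal (hgt h s n) ≤
      ENNReal.ofReal b * (1 + ∑' k : ℕ,
        ({s : ℕ → S | ((k + 1 : ℝ) * b) ≤ hgt h s n}.indicator (fun _ => (1 : ℝ≥0∞)) s)) := by
    intro n s
    set y := hgt h s n with hy
    rcases le_or_gt y 0 with hy0 | hy0
    · rw [ENNReal.ofReal_of_nonpos hy0]; exact zero_le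
    set N := ⌊y / b⌋₊ with hN
    have h1 : y / b < N + 1 := Nat.lt_floor_add_one _
    have h2 : (N : ℝ≥0∞) ≤ ∑' k : ℕ,
        ({s : ℕ → S | ((k + 1 : ℝ) * b) ≤ hgt h s n}.indicator (fun _ => (1 : ℝ≥0∞)) s) := by
      refine le_trans ?_ (ENNReal.sum_le_tsum (Finset.range N))
      have : ∀ k ∈ Finset.range N,
          ({s : ℕ → S | ((k + 1 : ℝ) * b) ≤ hgt h s n}.indicator (fun _ => (1 : ℝ≥0∞)) s) = 1 := by
        intro k hk
        rw [indicator_of_mem]
        simp only [mem_setOf_eq]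
        have hk' : ((k : ℝ) + 1) ≤ N := by exact_mod_cast Finset.mem_range.1 hk
        have hNy : (N : ℝ) ≤ y / b := Nat.floor_le (by positivity)
        have : ((k : ℝ) + 1) ≤ y / b := hk'.trans hNy
        rwa [le_div_iff₀ hb0] at this
      rw [Finset.sum_congr rfl this]
      simp
    calc ENNReal.ofReal y ≤ ENNReal.ofReal (b * (1 + N)) := by
          refine ENNReal.ofReal_le_ofReal ?_
          rw [div_lt_iff₀ hb0] at h1
          nlinarith
      _ = ENNReal.ofReal b * (1 + (N : ℝ≥0∞)) := by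
          rw [ENNReal.ofReal_mul hb0.le, ENNReal.ofReal_add zero_le_one (by positivity),
            ENNReal.ofReal_one, ENNReal.ofReal_natCast]
      _ ≤ _ := by gcongr
  have hmeas : ∀ (n k : ℕ), MeasurableSet {s : ℕ → S | ((k + 1 : ℝ) * b) ≤ hgt h s n} :=
    fun n k => measurableSet_le measurable_const (measurable_hgt h n)
  have hI : ∀ n, ∫⁻ s in Good ρ n, ENNReal.ofReal (hgt h s n) ∂P ≤
      ENNReal.ofReal b * (P (Good ρ n) + ∑' k : ℕ,
        P (Good ρ n ∩ {s : ℕ → S | ((k + 1 : ℝ) * b) ≤ hgt h s n})) := by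
    intro n
    calc ∫⁻ s in Good ρ n, ENNReal.ofReal (hgt h s n) ∂P
        ≤ ∫⁻ s in Good ρ n, ENNReal.ofReal b * (1 + ∑' k : ℕ,
        ({s : ℕ → S | ((k + 1 : ℝ) * b) ≤ hgt h s n}.indicator (fun _ => (1 : ℝ≥0∞)) s)) ∂P :=
          lintegral_mono fun s => hpt n s
      _ = ENNReal.ofReal b * (P (Good ρ n) + ∑' k : ℕ,
        P (Good ρ n ∩ {s : ℕ → S | ((k + 1 : ℝ) * b) ≤ hgt h s n})) := by
          rw [lintegral_const_mul' _ _ ENNReal.ofReal_ne_top, lintegral_add_left measurable_const,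
            lintegral_tsum]
          · congr 2
            · simp
            · congr 1
              funext k
              rw [lintegral_indicator (hmeas n k), lintegral_const, Measure.restrict_restrict (hmeas n k)]
              rw [one_mul, Measure.restrict_apply_univ, inter_comm]
          · intro k
            exact (measurable_const.indicator (hmeas n k)).aemeasurable
  have hbig : ∀ k : ℕ, ∑' n, P (Good ρ n ∩ {s : ℕ → S | ((k + 1 : ℝ) * b) ≤ hgt h s n}) =
      P (Big ρ ((k + 1 : ℝ) * b)) * (P (Stay h))⁻¹ := by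
    intro k
    rw [R.big_eq hp hT, mul_assoc, ENNReal.mul_inv_cancel hp (measure_ne_top _ _), mul_one]
  calc ∑' n, ∫⁻ s in Good ρ n, ENNReal.ofReal (hgt h s n) ∂P
      ≤ ∑' n, ENNReal.ofReal b * (P (Good ρ n) + ∑' k : ℕ,
        P (Good ρ n ∩ {s : ℕ → S | ((k + 1 : ℝ) * b) ≤ hgt h s n})) := ENNReal.tsum_le_tsum hI
    _ = ENNReal.ofReal b * (∑' n, P (Good ρ n) + ∑' n, ∑' k : ℕ,
        P (Good ρ n ∩ {s : ℕ → S | ((k + 1 : ℝ) * b) ≤ hgt h s n})) := by
        rw [ENNReal.tsum_mul_left, ENNReal.tsum_add]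
    _ = ENNReal.ofReal b * (1 + ∑' k : ℕ, P (Big ρ ((k + 1 : ℝ) * b)) * (P (Stay h))⁻¹) := by
        rw [R.tsum_good hp hT, ENNReal.tsum_comm]
        congr 2
        congr 1
        funext k
        exact hbig k
    _ ≤ ENNReal.ofReal b * (1 + ρ.δ⁻¹ * (P (Stay h))⁻¹) := by
        rw [ENNReal.tsum_mul_right]
        gcongr
        exact R.tsum_big hp hT hc hc0 hb

end measurable

end Crest.Agent.R154.RenG263
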