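import Crest.Agent.R154.Ren3_263

/-!
Row 154 (helper247): helper263's abstract renewal theory (Ren_263, Ren2_263, Ren3_263) for a GENERAL
candidate predicate `C n s` instead of `Record h s n`, so that one file serves S0219 (`C = Record`,
`G = 0`) and S0221 (`C n` = record at time `n - G` followed by `G` forced steps).
Text adapted from helper263's files.
-/

set_option autoImplicit false
set_option linter.unusedSectionVars false
set_option linter.deprecated false
open MeasureTheory Filter Set ProbabilityTheory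
open scoped ENNReal Topology symmDiff

namespace Crest.Agent.R154.RenG247

open Crest.Agent.R154.Ren263 (hgt shift Stay Det Record FP Word pre catF cat lev trial hgt_zero hgt_succ
  hgt_congr hgt_shift shift_shift shift_zero mem_shift_Stay det_FP det_Record record_of_FP FP_unique
  exists_FP measurable_hgt measurable_shift measurableSet_Stay measurableSet_Record hgt_lt_lev lev_congr
  len_pre letter_pre ht_pre pre_congr det_pre catF_fuel cat_lt cat_add shift_cat measurable_pre
  measurable_catF measurable_cat fp_lt)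

variable {S : Type*}

/-- A candidate system with waiting time `G`: `C n s` says that `n` is a candidate regeneration time of
`s`; it depends on the first `n` letters, implies that `n` is a strict record, and is inherited by the
shifted sequence as soon as `n + G ≤ m`. -/
structure Cand (h : S → ℝ) (G : ℕ) (C : ℕ → (ℕ → S) → Prop) : Prop where
  det : ∀ n, Det n {s | C n s}
  record : ∀ n s, C n s → Record h s n
  shift : ∀ n m s, n + G ≤ m → C m s → C (m - n) (shift n s)
  up : ∀ n s, C (n + G) s → ∀ k, n ≤ k → k ≤ n + G → hgt h s n ≤ hgt h s k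

/-- The renewal property with waiting time `G` and success probability `θ` of the forced steps. -/
structure RenewalC [MeasurableSpace S] (h : S → ℝ) (G : ℕ) (C : ℕ → (ℕ → S) → Prop) (θ : ℝ≥0∞)
    (P : Measure (ℕ → S)) : Prop where
  cand : Cand h G C
  ne_zero : θ ≠ 0
  ren : ∀ (n : ℕ) (A B : Set (ℕ → S)), Det n A → (∀ s ∈ A, C n s) → MeasurableSet B →
    B ⊆ Stay h → P (A ∩ shift n ⁻¹' B) = P A * P B
  forced : ∀ (n : ℕ) (A : Set (ℕ → S)), Det n A → (∀ s ∈ A, Record h s n) →
    ∃ A' : Set (ℕ → S), A' ⊆ A ∧ Det (n + G) A' ∧ (∀ s ∈ A', C (n + G) s) ∧ θ * P A ≤ P A'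

/-- the old renewal property is the case `G = 0`, `C = Record`, `θ = 1` -/
theorem of_renewal {h : S → ℝ} [MeasurableSpace S] {P : Measure (ℕ → S)}
    (R : Crest.Agent.R154.Ren263.Renewal h P) :
    RenewalC h 0 (fun n s => Record h s n) 1 P where
  cand :=
    { det := fun n => det_Record h n
      record := fun _ _ hs => hs
      shift := by
        intro n m s hnm hs k hk
        rw [hgt_shift, hgt_shift]
        have := hs (n + k) (by omega)
        have e : n + (m - n) = m := by omega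
        rw [e]
        linarith
      up := by
        intro n s _ k h1 h2
        have : k = n := by omega
        rw [this] }
  ne_zero := one_ne_zero
  ren := R.ren
  forced := fun n A hA hr => ⟨A, subset_rfl, hA, hr, by rw [one_mul]⟩

variable (h : S → ℝ) (C : ℕ → (ℕ → S) → Prop)

/-- `n` is a regeneration time: candidate, never below afterwards -/
def Reg (s : ℕ → S) (n : ℕ) : Prop := C n s ∧ shift n s ∈ Stay h

/-- `n` is the first regeneration time `≥ 1` of a path in `Stay`, as an event of the first `n`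
letters -/
def Good (n : ℕ) : Set (ℕ → S) :=
  {s | 1 ≤ n ∧ C n s ∧ (∀ k ≤ n, 0 ≤ hgt h s k) ∧
    ∀ m, 1 ≤ m → m < n → ¬ (C m s ∧ ∀ k, m ≤ k → k ≤ n → hgt h s m ≤ hgt h s k)}

/-- first regeneration time `≥ 1` -/
noncomputable def tau (s : ℕ → S) : ℕ := sInf {n | 1 ≤ n ∧ Reg h C s n}

/-- first block -/
noncomputable def blk0 (s : ℕ → S) : Word S := pre (tau h C s) s

/-- the path after the first block -/
noncomputable def rest (s : ℕ → S) : ℕ → S := shift (tau h C s) s

/-- all blocks -/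
noncomputable def blks (s : ℕ → S) (k : ℕ) : Word S := blk0 h C ((rest h C)^[k] s)

/-- paths which stay above the start and have infinitely many regeneration times -/
def RegInf : Set (ℕ → S) := {s | s ∈ Stay h ∧ ∀ j, ∃ n, j ≤ n ∧ Reg h C s n}

/-- law of one regeneration block -/
noncomputable def wordLaw [MeasurableSpace S] (P : Measure (ℕ → S)) : Measure (Word S) :=
  Measure.sum fun n => (P.restrict (Good h C n)).map (pre n)

/-- paths in `Stay` whose regeneration times `≥ 1` all have height at least `t` -/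
def Big (t : ℝ) : Set (ℕ → S) :=
  {s | s ∈ Stay h ∧ ∀ n, 1 ≤ n → Reg h C s n → t ≤ hgt h s n}

variable {h C}

lemma cand_congr {G : ℕ} (hC : Cand h G C) {s s' : ℕ → S} {n : ℕ} (H : ∀ i < n, s i = s' i) {m : ℕ}
    (hm : m ≤ n) : C m s ↔ C m s' :=
  (hC.det m) s s' fun i hi => H i (lt_of_lt_of_le hi hm)

lemma det_Good {G : ℕ} (hC : Cand h G C) (n : ℕ) : Det n (Good h C n) := by
  have key : ∀ s s' : ℕ → S, (∀ i < n, s i = s' i) → s ∈ Good h C n → s' ∈ Good h C n := by
    rintro s s' H ⟨h1, h2, h3, h4⟩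
    refine ⟨h1, (cand_congr hC H le_rfl).1 h2, fun k hk => ?_, fun m hm1 hm2 hm3 => ?_⟩
    · rw [← hgt_congr h H hk]; exact h3 k hk
    · refine h4 m hm1 hm2 ⟨(cand_congr hC H hm2.le).2 hm3.1, fun k hk1 hk2 => ?_⟩
      rw [hgt_congr h H hk2, hgt_congr h H hm2.le]
      exact hm3.2 k hk1 hk2
  exact fun s s' H => ⟨key s s' H, key s' s fun i hi => (H i hi).symm⟩

/-- the first regeneration time is `n` -/
lemma good_iff {n : ℕ} {s : ℕ → S} :
    (s ∈ Good h C n ∧ shift n s ∈ Stay h) ↔
      (s ∈ Stay h ∧ 1 ≤ n ∧ Reg h C s n ∧ ∀ m, 1 ≤ m → m < n → ¬ Reg h C s m) := by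
  constructor
  · rintro ⟨⟨h1, h2, h3, h4⟩, h5⟩
    have h6 := mem_shift_Stay.1 h5
    refine ⟨fun k => ?_, h1, ⟨h2, h5⟩, fun m hm1 hm2 hm3 => ?_⟩
    · rcases le_total k n with hk | hk
      · exact h3 k hk
      · exact (h3 n le_rfl).trans (h6 k hk)
    · exact h4 m hm1 hm2 ⟨hm3.1, fun k hk1 _ => mem_shift_Stay.1 hm3.2 k hk1⟩
  · rintro ⟨h1, h2, h3, h4⟩
    refine ⟨⟨h2, h3.1, fun k _ => h1 k, fun m hm1 hm2 hm3 => ?_⟩, h3.2⟩
    refine h4 m hm1 hm2 ⟨hm3.1, mem_shift_Stay.2 fun k hk => ?_⟩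
    rcases le_total k n with hkn | hkn
    · exact hm3.2 k hk hkn
    · exact (hm3.2 n hm2.le le_rfl).trans (mem_shift_Stay.1 h3.2 k hkn)

lemma good_unique {n m : ℕ} {s : ℕ → S} (hn : s ∈ Good h C n ∧ shift n s ∈ Stay h)
    (hm : s ∈ Good h C m ∧ shift m s ∈ Stay h) : n = m := by
  have h1 := good_iff.1 hn
  have h2 := good_iff.1 hm
  rcases lt_trichotomy n m with H | H | H
  · exact absurd h1.2.2.1 (h2.2.2.2 n h1.2.1 H)
  · exact H
  · exact absurd h2.2.2.1 (h1.2.2.2 m h2.2.1 H)

lemma reg_shift {G : ℕ} (hC : Cand h G C) {s : ℕ → S} {n m : ℕ} (hnm : n + G ≤ m)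
    (hm : Reg h C s m) : Reg h C (shift n s) (m - n) := by
  refine ⟨hC.shift n m s hnm hm.1, ?_⟩
  rw [shift_shift]
  have e : n + (m - n) = m := by omega
  rw [e]
  exact hm.2

lemma blks_zero (s : ℕ → S) : blks h C s 0 = blk0 h C s := rfl

lemma blks_succ (s : ℕ → S) (k : ℕ) : blks h C s (k + 1) = blks h C (rest h C s) k := rfl

lemma tau_spec {s : ℕ → S} (hs : s ∈ RegInf h C) :
    1 ≤ tau h C s ∧ Reg h C s (tau h C s) := by
  obtain ⟨n, hn⟩ := hs.2 1
  exact Nat.sInf_mem (s := {n | 1 ≤ n ∧ Reg h C s n}) ⟨n, hn⟩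

lemma tau_min {s : ℕ → S} {m : ℕ} (h1 : 1 ≤ m) (hm : m < tau h C s) : ¬ Reg h C s m :=
  fun hr => Nat.notMem_of_lt_sInf hm ⟨h1, hr⟩

lemma good_tau {s : ℕ → S} (hs : s ∈ RegInf h C) :
    s ∈ Good h C (tau h C s) ∧ shift (tau h C s) s ∈ Stay h :=
  good_iff.2 ⟨hs.1, (tau_spec hs).1, (tau_spec hs).2, fun _ h1 h2 => tau_min h1 h2⟩

lemma tau_eq {s : ℕ → S} {n : ℕ} (hs : s ∈ Good h C n ∧ shift n s ∈ Stay h) :
    tau h C s = n := by
  have h1 := good_iff.1 hs
  refine le_antisymm (Nat.sInf_le ⟨h1.2.1, h1.2.2.1⟩) ?_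
  have h2 : tau h C s ∈ {n | 1 ≤ n ∧ Reg h C s n} :=
    Nat.sInf_mem (s := {n | 1 ≤ n ∧ Reg h C s n}) ⟨n, h1.2.1, h1.2.2.1⟩
  by_contra hcon
  exact h1.2.2.2 _ h2.1 (not_le.1 hcon) h2.2

lemma rest_mem {G : ℕ} (hC : Cand h G C) {s : ℕ → S} (hs : s ∈ RegInf h C) :
    rest h C s ∈ RegInf h C := by
  refine ⟨(tau_spec hs).2.2, fun j => ?_⟩
  obtain ⟨n, hn, hr⟩ := hs.2 (tau h C s + G + j)
  exact ⟨n - tau h C s, by omega, reg_shift hC (by omega) hr⟩

lemma catF_blks [Inhabited S] {G : ℕ} (hC : Cand h G C) : ∀ (f k : ℕ) (s : ℕ → S), k < f →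
    s ∈ RegInf h C → catF f k (blks h C s) = s k := by
  intro f
  induction f with
  | zero => intro k s hk; exact absurd hk (Nat.not_lt_zero _)
  | succ f ih =>
    intro k s hk hs
    have h1 := tau_spec hs
    have hl : (blks h C s 0).len = tau h C s := by rw [blks_zero, blk0, len_pre]
    simp only [catF]
    split_ifs with hlt
    · rw [hl] at hlt
      rw [blks_zero, blk0, letter_pre hlt]
    · rw [hl] at hlt ⊢
      have : (fun i => blks h C s (i + 1)) = blks h C (rest h C s) := rfl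
      rw [this, ih _ _ (by omega) (rest_mem hC hs)]
      simp only [rest, shift]
      congr 1
      omega

lemma cat_blks [Inhabited S] {G : ℕ} (hC : Cand h G C) {s : ℕ → S} (hs : s ∈ RegInf h C) :
    cat (blks h C s) = s := by
  funext k
  exact catF_blks hC (k + 1) k s (Nat.lt_succ_self k) hs

lemma big_subset (t : ℝ) : Big h C t ⊆ Stay h := fun _ hs => hs.1

section measurable

variable [Countable S] [MeasurableSpace S] [MeasurableSingletonClass S]

lemma measurableSet_Cand {G : ℕ} (hC : Cand h G C) (n : ℕ) : MeasurableSet {s : ℕ → S | C n s} :=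
  (hC.det n).measurableSet

lemma measurableSet_Reg {G : ℕ} (hC : Cand h G C) (n : ℕ) :
    MeasurableSet {s : ℕ → S | Reg h C s n} :=
  (measurableSet_Cand hC n).inter (measurable_shift n (measurableSet_Stay h))

variable {G : ℕ} {θ : ℝ≥0∞} {P : Measure (ℕ → S)} [IsProbabilityMeasure P]

/-- one trial: after a strict record the conditional probability of no regeneration at time `n + G` is at
most `1 - θ p` -/
lemma RenewalC.fail (R : RenewalC h G C θ P) {n : ℕ} {A : Set (ℕ → S)} (hA : Det n A)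
    (hrec : ∀ s ∈ A, Record h s n) :
    P (A ∩ {s | ¬ Reg h C s (n + G)}) ≤ (1 - θ * P (Stay h)) * P A := by
  obtain ⟨A', h1, h2, h3, h4⟩ := R.forced n A hA hrec
  have hD : MeasurableSet (A' ∩ shift (n + G) ⁻¹' Stay h) :=
    h2.measurableSet.inter (measurable_shift _ (measurableSet_Stay h))
  have hsub : A ∩ {s | ¬ Reg h C s (n + G)} ⊆ A \ (A' ∩ shift (n + G) ⁻¹' Stay h) := by
    rintro s ⟨hs1, hs2⟩
    exact ⟨hs1, fun hs3 => hs2 ⟨h3 s hs3.1, hs3.2⟩⟩
  have hPD : P (A' ∩ shift (n + G) ⁻¹' Stay h) = P A' * P (Stay h) :=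
    R.ren _ _ _ h2 h3 (measurableSet_Stay h) subset_rfl
  calc P (A ∩ {s | ¬ Reg h C s (n + G)})
      ≤ P (A \ (A' ∩ shift (n + G) ⁻¹' Stay h)) := measure_mono hsub
    _ = P A - P (A' ∩ shift (n + G) ⁻¹' Stay h) :=
        measure_diff (inter_subset_left.trans h1) hD.nullMeasurableSet (measure_ne_top _ _)
    _ ≤ P A - θ * P (Stay h) * P A := by
        refine tsub_le_tsub_left ?_ _
        rw [hPD, mul_right_comm]
        gcongr
    _ = (1 - θ * P (Stay h)) * P A := by
        rw [ENNReal.sub_mul (fun _ _ => measure_ne_top _ _), one_mul]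

/-- infinitely many regeneration times as soon as the height is unbounded above -/
theorem RenewalC.reg_io (R : RenewalC h G C θ P) (hp : P (Stay h) ≠ 0) (j : ℕ) :
    P {s | (∀ M : ℝ, ∃ n, M ≤ hgt h s n) ∧ ∀ n, j ≤ n → ¬ Reg h C s n} = 0 := by
  have hlt : 1 - θ * P (Stay h) < 1 :=
    ENNReal.sub_lt_self ENNReal.one_ne_top one_ne_zero (mul_ne_zero R.ne_zero hp)
  refine trial P ?_ hlt fun n0 A hA => ?_
  · have e1 : MeasurableSet {s : ℕ → S | ∀ M : ℝ, ∃ n, M ≤ hgt h s n} := by
      have : {s : ℕ → S | ∀ M : ℝ, ∃ n, M ≤ hgt h s n} =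
          ⋂ m : ℕ, ⋃ n : ℕ, {s | (m : ℝ) ≤ hgt h s n} := by
        ext s
        simp only [mem_setOf_eq, mem_iInter, mem_iUnion]
        constructor
        · intro H m; exact H m
        · intro H M
          obtain ⟨m, hm⟩ := exists_nat_ge M
          obtain ⟨n, hn⟩ := H m
          exact ⟨n, hm.trans hn⟩
      rw [this]
      exact MeasurableSet.iInter fun m => MeasurableSet.iUnion fun n =>
        measurableSet_le measurable_const (measurable_hgt h n)
    have e2 : MeasurableSet {s : ℕ → S | ∀ n, j ≤ n → ¬ Reg h C s n} := by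
      have : {s : ℕ → S | ∀ n, j ≤ n → ¬ Reg h C s n} =
          ⋂ n : ℕ, ⋂ _ : j ≤ n, {s | Reg h C s n}ᶜ := by
        ext s; simp
      rw [this]
      exact MeasurableSet.iInter fun n => MeasurableSet.iInter fun _ =>
        (measurableSet_Reg R.cand n).compl
    exact e1.inter e2
  · set N := max n0 j with hN
    set D : ℕ → Set (ℕ → S) := fun n => {s | s ∈ A ∧ N < n ∧ s ∈ FP h (lev h N s) n} with hD
    have hDdet : ∀ n, Det n (D n) := by
      intro n s s' H
      by_cases hn : N < n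
      · have e1 := (hA.mono ((le_max_left n0 j).trans hn.le)) s s' H
        have e2 : lev h N s = lev h N s' := lev_congr h fun i hi => H i (hi.trans hn)
        have e3 := det_FP h (lev h N s) n s s' H
        simp only [hD, mem_setOf_eq]
        rw [← e2]
        exact and_congr e1 (and_congr Iff.rfl e3)
      · simp only [hD, mem_setOf_eq]
        constructor
        · rintro ⟨_, h2, _⟩; exact absurd h2 hn
        · rintro ⟨_, h2, _⟩; exact absurd h2 hn
    have hDrec : ∀ n, ∀ s ∈ D n, Record h s n := fun n s hs => record_of_FP hs.2.2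
    have hDdisj : Pairwise (Function.onFun Disjoint D) := by
      intro n m hnm
      rw [Function.onFun, Set.disjoint_left]
      intro s hs hs'
      exact hnm (FP_unique hs.2.2 hs'.2.2)
    have hsub : (A ∩ {s | (∀ M : ℝ, ∃ n, M ≤ hgt h s n) ∧ ∀ n, j ≤ n → ¬ Reg h C s n}) ⊆
        ⋃ n, (D n ∩ {s | ¬ Reg h C s (n + G)}) := by
      rintro s ⟨hsA, hs1, hs2⟩
      obtain ⟨n, hn⟩ := exists_FP (hs1 (lev h N s))
      have hNn : N < n := by
        by_contra hcon
        exact absurd hn.1 (not_le.2 (hgt_lt_lev h (not_lt.1 hcon) s))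
      refine mem_iUnion.2 ⟨n, ⟨hsA, hNn, hn⟩, ?_⟩
      exact hs2 (n + G) (((le_max_right n0 j).trans hNn.le).trans (Nat.le_add_right _ _))
    calc P (A ∩ {s | (∀ M : ℝ, ∃ n, M ≤ hgt h s n) ∧ ∀ n, j ≤ n → ¬ Reg h C s n})
        ≤ P (⋃ n, (D n ∩ {s | ¬ Reg h C s (n + G)})) := measure_mono hsub
      _ ≤ ∑' n, P (D n ∩ {s | ¬ Reg h C s (n + G)}) := measure_iUnion_le _
      _ ≤ ∑' n, (1 - θ * P (Stay h)) * P (D n) :=
          ENNReal.tsum_le_tsum fun n => R.fail (hDdet n) (hDrec n)
      _ = (1 - θ * P (Stay h)) * ∑' n, P (D n) := ENNReal.tsum_mul_left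
      _ = (1 - θ * P (Stay h)) * P (⋃ n, D n) := by
          rw [measure_iUnion hDdisj fun n => (hDdet n).measurableSet]
      _ ≤ (1 - θ * P (Stay h)) * P A := by
          gcongr
          exact iUnion_subset fun n s hs => hs.1

/-- Kalikow: if `P(Stay) ≠ 0` then almost surely: height unbounded above implies that there are
infinitely many regeneration times, and the height tends to `+∞` -/
theorem RenewalC.ae_tendsto (R : RenewalC h G C θ P) (hp : P (Stay h) ≠ 0) :
    ∀ᵐ s ∂P, (∀ M : ℝ, ∃ n, M ≤ hgt h s n) →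
      (∀ j, ∃ n, j ≤ n ∧ Reg h C s n) ∧ Tendsto (fun n => hgt h s n) atTop atTop := by
  have H : ∀ᵐ s ∂P, ∀ j, ¬ ((∀ M : ℝ, ∃ n, M ≤ hgt h s n) ∧ ∀ n, j ≤ n → ¬ Reg h C s n) := by
    rw [ae_all_iff]
    intro j
    exact measure_eq_zero_iff_ae_notMem.1 (R.reg_io hp j)
  filter_upwards [H] with s hs hM
  have h1 : ∀ j, ∃ n, j ≤ n ∧ Reg h C s n := by
    intro j
    by_contra hcon
    push Not at hcon
    exact hs j ⟨hM, hcon⟩
  refine ⟨h1, tendsto_atTop.2 fun M => ?_⟩
  obtain ⟨n, hn⟩ := hM M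
  obtain ⟨m, hm, hr⟩ := h1 (n + 1)
  refine eventually_atTop.2 ⟨m, fun k hk => ?_⟩
  have e1 := R.cand.record _ _ hr.1 n (Nat.lt_of_succ_le hm)
  have e2 := mem_shift_Stay.1 hr.2 k hk
  linarith

/-- first block and fresh future -/
theorem RenewalC.block (R : RenewalC h G C θ P) {n : ℕ} {A B : Set (ℕ → S)} (hA : Det n A)
    (hAG : A ⊆ Good h C n) (hB : MeasurableSet B) (hBs : B ⊆ Stay h) :
    P (A ∩ shift n ⁻¹' B) = P A * P B :=
  R.ren n A B hA (fun _ hs => (hAG hs).2.1) hB hBs

/-- the total mass of the good words is one -/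
theorem RenewalC.tsum_good (R : RenewalC h G C θ P) (hp : P (Stay h) ≠ 0)
    (hT : ∀ᵐ s ∂P, s ∈ Stay h → ∀ M : ℝ, ∃ n, M ≤ hgt h s n) :
    ∑' n, P (Good h C n) = 1 := by
  have hdisj : Pairwise (Function.onFun Disjoint fun n => Good h C n ∩ shift n ⁻¹' Stay h) := by
    intro n m hnm
    rw [Function.onFun, Set.disjoint_left]
    intro s hs hs'
    exact hnm (good_unique hs hs')
  have hmeas : ∀ n, MeasurableSet (Good h C n ∩ shift n ⁻¹' Stay h) := fun n =>
    (det_Good R.cand n).measurableSet.inter (measurable_shift n (measurableSet_Stay h))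
  have h1 : P (⋃ n, (Good h C n ∩ shift n ⁻¹' Stay h)) = P (Stay h) := by
    refine measure_congr ?_
    filter_upwards [R.ae_tendsto hp, hT] with s hs1 hs2
    refine propext ⟨fun hs => ?_, fun hs => ?_⟩
    · obtain ⟨n, hn⟩ := mem_iUnion.1 hs
      exact (good_iff.1 hn).1
    · classical
      obtain ⟨n, hn1, hn2⟩ := (hs1 (hs2 hs)).1 1
      have hex : ∃ n, 1 ≤ n ∧ Reg h C s n := ⟨n, hn1, hn2⟩
      refine mem_iUnion.2 ⟨Nat.find hex, good_iff.2 ⟨hs, (Nat.find_spec hex).1,
        (Nat.find_spec hex).2, fun m hm1 hm2 hm3 => Nat.find_min hex hm2 ⟨hm1, hm3⟩⟩⟩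
  rw [measure_iUnion hdisj hmeas] at h1
  have h2 : ∀ n, P (Good h C n ∩ shift n ⁻¹' Stay h) = P (Good h C n) * P (Stay h) := fun n =>
    R.block (det_Good R.cand n) subset_rfl (measurableSet_Stay h) subset_rfl
  simp_rw [h2] at h1
  rw [ENNReal.tsum_mul_right] at h1
  have h3 : (∑' n, P (Good h C n)) * P (Stay h) = 1 * P (Stay h) := by rw [h1, one_mul]
  exact (ENNReal.mul_left_inj hp (measure_ne_top _ _)).1 h3

/-! ### mean height of a block -/

lemma measurableSet_Big (hC : Cand h G C) (t : ℝ) : MeasurableSet (Big h C t) := by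
  have : Big h C t =
      Stay h ∩ ⋂ n : ℕ, ⋂ _ : 1 ≤ n, ({s | Reg h C s n}ᶜ ∪ {s | t ≤ hgt h s n}) := by
    ext s
    simp only [Big, mem_setOf_eq, mem_inter_iff, mem_iInter, mem_union, mem_compl_iff]
    refine and_congr Iff.rfl (forall_congr' fun n => forall_congr' fun _ => ?_)
    tauto
  rw [this]
  exact (measurableSet_Stay h).inter <| MeasurableSet.iInter fun n => MeasurableSet.iInter fun _ =>
    (measurableSet_Reg hC n).compl.union (measurableSet_le measurable_const (measurable_hgt h n))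

omit [Countable S] [MeasurableSpace S] [MeasurableSingletonClass S] in
lemma hgt_add_le {c : ℝ} (hc : ∀ a, h a ≤ c) (s : ℕ → S) (n k : ℕ) :
    hgt h s (n + k) ≤ hgt h s n + k * c := by
  induction k with
  | zero => simp
  | succ k ih =>
    rw [← add_assoc, hgt_succ]
    have := hc (s (n + k))
    push_cast
    linarith

omit [Countable S] [MeasurableSpace S] [MeasurableSingletonClass S] in
lemma fp_lt' {c : ℝ} (hc : ∀ a, h a ≤ c) {t : ℝ} (ht : 0 ≤ t) (hc0 : 0 < c) {n : ℕ} {s : ℕ → S}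
    (hs : s ∈ FP h t n) : hgt h s n < t + c := by
  rcases Nat.eq_zero_or_pos n with rfl | hn
  · rw [hgt_zero]; positivity
  · obtain ⟨m, rfl⟩ := Nat.exists_eq_succ_of_ne_zero hn.ne'
    have h1 := hs.2 m (Nat.lt_succ_self m)
    rw [Nat.succ_eq_add_one, hgt_succ]
    have := hc (s m)
    linarith

theorem RenewalC.sum_big (R : RenewalC h G C θ P) (hp : P (Stay h) ≠ 0)
    (hT : ∀ᵐ s ∂P, s ∈ Stay h → ∀ M : ℝ, ∃ n, M ≤ hgt h s n)
    {c : ℝ} (hc : ∀ a, h a ≤ c) (hc0 : 0 < c) (K : ℕ) :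
    θ * ∑ k ∈ Finset.range K, P (Big h C ((K - k : ℝ) * ((G + 1) * c))) ≤ 1 := by
  set b : ℝ := (G + 1) * c with hb
  have hb0 : 0 < b := by positivity
  -- first passages and their forced continuation
  set D : ℕ → ℕ → Set (ℕ → S) := fun k n =>
    {s | (∀ j ≤ n, 0 ≤ hgt h s j) ∧ s ∈ FP h (k * b) n} with hD
  have hDdet : ∀ k n, Det n (D k n) := by
    intro k n
    have key : ∀ s s' : ℕ → S, (∀ i < n, s i = s' i) → s ∈ D k n → s' ∈ D k n := by
      rintro s s' H ⟨h1, h2⟩
      exact ⟨fun j hj => by rw [← hgt_congr h H hj]; exact h1 j hj, (det_FP h _ n s s' H).1 h2⟩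
    exact fun s s' H => ⟨key s s' H, key s' s fun i hi => (H i hi).symm⟩
  have hex : ∀ k n, ∃ A' : Set (ℕ → S), A' ⊆ D k n ∧ Det (n + G) A' ∧
      (∀ s ∈ A', C (n + G) s) ∧ θ * P (D k n) ≤ P A' :=
    fun k n => R.forced n (D k n) (hDdet k n) (fun s hs => record_of_FP hs.2)
  choose A hA1 hA2 hA3 hA4 using hex
  set E : ℕ → Set (ℕ → S) := fun k =>
    ⋃ n, (A k n ∩ shift (n + G) ⁻¹' Big h C ((K - k : ℝ) * b)) with hE
  have hEmeas : ∀ k, MeasurableSet (E k) := by
    intro k
    exact MeasurableSet.iUnion fun n => (hA2 k n).measurableSet.inter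
      (measurable_shift _ (measurableSet_Big R.cand _))
  have hDdisj : ∀ k, Pairwise (Function.onFun Disjoint (D k)) := by
    intro k n m hnm
    rw [Function.onFun, Set.disjoint_left]
    intro s hs hs'
    exact hnm (FP_unique hs.2 hs'.2)
  have hPE : ∀ k, θ * P (⋃ n, D k n) * P (Big h C ((K - k : ℝ) * b)) ≤ P (E k) := by
    intro k
    have hEk : E k = ⋃ n, (A k n ∩ shift (n + G) ⁻¹' Big h C ((K - k : ℝ) * b)) := rfl
    rw [measure_iUnion (hDdisj k) fun n => (hDdet k n).measurableSet,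
      ← ENNReal.tsum_mul_left, ← ENNReal.tsum_mul_right, hEk, measure_iUnion]
    · refine ENNReal.tsum_le_tsum fun n => ?_
      rw [R.ren (n + G) _ _ (hA2 k n) (hA3 k n) (measurableSet_Big R.cand _) (big_subset _)]
      gcongr
      exact hA4 k n
    · intro n m hnm
      exact (hDdisj k hnm).mono (inter_subset_left.trans (hA1 k n))
        (inter_subset_left.trans (hA1 k m))
    · exact fun n => (hA2 k n).measurableSet.inter (measurable_shift _ (measurableSet_Big R.cand _))
  have hPC : ∀ k, P (Stay h) ≤ P (⋃ n, D k n) := by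
    intro k
    refine measure_mono_ae ?_
    filter_upwards [hT] with s hs hst
    obtain ⟨n, hn⟩ := exists_FP (hs hst (k * b))
    exact mem_iUnion.2 ⟨n, fun j _ => hst j, hn⟩
  have hEdisj : ∀ k j, k < j → j < K → Disjoint (E k) (E j) := by
    intro k j hkj hjK
    rw [Set.disjoint_left]
    intro s hsk hsj
    obtain ⟨n, hn, hbn⟩ := mem_iUnion.1 hsk
    obtain ⟨m, hm, hbm⟩ := mem_iUnion.1 hsj
    have fn : s ∈ FP h (k * b) n := (hA1 k n hn).2
    have fm : s ∈ FP h (j * b) m := (hA1 j m hm).2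
    have hkj' : (k : ℝ) + 1 ≤ j := by exact_mod_cast hkj
    have hjK' : (j : ℝ) + 1 ≤ K := by exact_mod_cast hjK
    have e1 : hgt h s n < k * b + c := fp_lt' hc (by positivity) hc0 fn
    have e2 : hgt h s m < j * b + c := fp_lt' hc (by positivity) hc0 fm
    have e3 : (j : ℝ) * b ≤ hgt h s m := fm.1
    have e4 : (k : ℝ) * b ≤ hgt h s n := fn.1
    have e5 : hgt h s (m + G) < (j + 1) * b := by
      have := hgt_add_le hc s m G
      have : hgt h s (m + G) < j * b + c + G * c := by linarith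
      have e : (j + 1) * b = j * b + c + G * c := by rw [hb]; ring
      rw [e]; exact this
    have hnm : n + G < m := by
      by_contra hcon
      have hcon := not_lt.1 hcon
      rcases le_total m n with hmn | hmn
      · have : hgt h s m ≤ hgt h s n := by
          rcases hmn.eq_or_lt with he | hl
          · rw [he]
          · exact (record_of_FP fn m hl).le
        have : (j : ℝ) * b < k * b + c := by linarith
        have : c ≤ b := by rw [hb]; nlinarith [(Nat.cast_nonneg G : (0:ℝ) ≤ G)]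
        nlinarith
      · obtain ⟨i, rfl⟩ := Nat.exists_eq_add_of_le hmn
        have h1 := hgt_add_le hc s n i
        have h2 : (i : ℝ) ≤ G := by
          have : i ≤ G := by omega
          exact_mod_cast this
        have h3 : hgt h s (n + i) < k * b + c + G * c := by nlinarith
        have e : ((k : ℝ) + 1) * b = k * b + c + G * c := by rw [hb]; ring
        nlinarith
    have hreg : Reg h C s (m + G) := ⟨hA3 j m s hm, hbm.1⟩
    have e6 := hbn.2 (m + G - (n + G)) (by omega) (reg_shift R.cand (by omega) hreg)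
    rw [hgt_shift] at e6
    have e7 : n + G + (m + G - (n + G)) = m + G := by omega
    rw [e7] at e6
    have e8 : hgt h s n ≤ hgt h s (n + G) :=
      R.cand.up n s (hA3 k n s hn) (n + G) (Nat.le_add_right _ _) le_rfl
    nlinarith
  have hsum : ∑ k ∈ Finset.range K, P (E k) ≤ P (Stay h) := by
    rw [← measure_biUnion_finset]
    · refine measure_mono ?_
      intro s hs
      simp only [mem_iUnion] at hs
      obtain ⟨k, _, hk⟩ := hs
      obtain ⟨n, hn, hbn⟩ := mem_iUnion.1 hk
      intro j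
      rcases le_total j (n + G) with hj | hj
      · rcases le_total j n with hjn | hjn
        · exact (hA1 k n hn).1 j hjn
        · -- between `n` and `n + G`: above the record at `n`
          have h0 : 0 ≤ hgt h s n := (hA1 k n hn).1 n le_rfl
          exact h0.trans (R.cand.up n s (hA3 k n s hn) j hjn hj)
      · have h1 := mem_shift_Stay.1 hbn.1 j hj
        have h2 : 0 ≤ hgt h s (n + G) := by
          rcases Nat.eq_zero_or_pos (n + G) with hG | hG
          · rw [hG, hgt_zero]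
          · have := R.cand.record _ _ (hA3 k n s hn) 0 hG
            rw [hgt_zero] at this
            exact this.le
        exact h2.trans h1
    · intro k hk j hj hkj
      simp only [Finset.coe_range, mem_Iio] at hk hj
      rcases lt_or_gt_of_ne hkj with H | H
      · exact hEdisj k j H hj
      · exact (hEdisj j k H hk).symm
    · exact fun k _ => hEmeas k
  have h1 : (θ * ∑ k ∈ Finset.range K, P (Big h C ((K - k : ℝ) * b))) * P (Stay h) ≤
      1 * P (Stay h) := by
    rw [one_mul, mul_assoc, Finset.sum_mul, Finset.mul_sum]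
    refine le_trans (Finset.sum_le_sum fun k _ => ?_) hsum
    refine le_trans ?_ (hPE k)
    rw [mul_comm (P (Big h C ((K - k : ℝ) * b))), ← mul_assoc]
    exact mul_le_mul' (mul_le_mul' le_rfl (hPC k)) le_rfl
  exact (ENNReal.mul_le_mul_iff_left hp (measure_ne_top _ _)).1 h1

/-- tail sum of the first regeneration height -/
theorem RenewalC.tsum_big (R : RenewalC h G C θ P) (hp : P (Stay h) ≠ 0)
    (hT : ∀ᵐ s ∂P, s ∈ Stay h → ∀ M : ℝ, ∃ n, M ≤ hgt h s n)
    {c : ℝ} (hc : ∀ a, h a ≤ c) (hc0 : 0 < c) :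
    θ * ∑' k : ℕ, P (Big h C ((k + 1 : ℝ) * ((G + 1) * c))) ≤ 1 := by
  rw [ENNReal.tsum_eq_iSup_nat, ENNReal.mul_iSup]
  refine iSup_le fun K => ?_
  rw [← Finset.sum_range_reflect]
  refine le_trans (le_of_eq (congrArg (θ * ·) (Finset.sum_congr rfl fun k hk => ?_)))
    (R.sum_big hp hT hc hc0 K)
  have hk' := Finset.mem_range.1 hk
  have : ((K - 1 - k : ℕ) : ℝ) + 1 = (K : ℝ) - k := by
    have h1 : (K - 1 - k : ℕ) + 1 + k = K := by omega
    have h2 : ((K - 1 - k : ℕ) : ℝ) + 1 + k = K := by exact_mod_cast h1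
    linarith
  rw [this]

/-- the law of the first block height: `P (Big t) = P(Stay) * Σ_n P(Good n, height ≥ t)`
(inequality `≥` only: a later regeneration time is higher) -/
theorem RenewalC.big_eq (R : RenewalC h G C θ P) (hp : P (Stay h) ≠ 0)
    (hT : ∀ᵐ s ∂P, s ∈ Stay h → ∀ M : ℝ, ∃ n, M ≤ hgt h s n) (t : ℝ) :
    P (Big h C t) = (∑' n, P (Good h C n ∩ {s | t ≤ hgt h s n})) * P (Stay h) := by
  have hdet : ∀ n, Det n (Good h C n ∩ {s : ℕ → S | t ≤ hgt h s n}) := by
    intro n
    refine (det_Good R.cand n).inter ?_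
    intro s s' H
    simp only [mem_setOf_eq]
    rw [hgt_congr h H le_rfl]
  have h1 : P (Big h C t) =
      P (⋃ n, ((Good h C n ∩ {s | t ≤ hgt h s n}) ∩ shift n ⁻¹' Stay h)) := by
    refine measure_congr ?_
    filter_upwards [R.ae_tendsto hp, hT] with s hs1 hs2
    refine propext ⟨fun hs => ?_, fun hs => ?_⟩
    · classical
      obtain ⟨n, hn1, hn2⟩ := (hs1 (hs2 hs.1)).1 1
      have hex : ∃ n, 1 ≤ n ∧ Reg h C s n := ⟨n, hn1, hn2⟩
      have hg := good_iff.2 ⟨hs.1, (Nat.find_spec hex).1,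
        (Nat.find_spec hex).2, fun m hm1 hm2 hm3 => Nat.find_min hex hm2 ⟨hm1, hm3⟩⟩
      exact mem_iUnion.2 ⟨Nat.find hex, ⟨hg.1, hs.2 _ (Nat.find_spec hex).1
        (Nat.find_spec hex).2⟩, hg.2⟩
    · obtain ⟨n, ⟨hn1, hn2⟩, hn3⟩ := mem_iUnion.1 hs
      have hg := good_iff.1 ⟨hn1, hn3⟩
      refine ⟨hg.1, fun m hm hr => ?_⟩
      have hnm : n ≤ m := by
        by_contra hcon
        exact hg.2.2.2 m hm (not_le.1 hcon) hr
      exact le_trans hn2 (mem_shift_Stay.1 hn3 m hnm)
  rw [h1, measure_iUnion, ← ENNReal.tsum_mul_right]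
  · congr 1
    funext n
    exact R.block (hdet n) inter_subset_left (measurableSet_Stay h) subset_rfl
  · intro n m hnm
    rw [Function.onFun, Set.disjoint_left]
    rintro s ⟨⟨hs1, _⟩, hs2⟩ ⟨⟨hs1', _⟩, hs2'⟩
    exact hnm (good_unique ⟨hs1, hs2⟩ ⟨hs1', hs2'⟩)
  · exact fun n => (hdet n).measurableSet.inter (measurable_shift n (measurableSet_Stay h))

/-- finite mean of the block height: `E Y ≤ c (G + 1) (1 + 1/(θ p))` -/
theorem RenewalC.mean_le (R : RenewalC h G C θ P) (hp : P (Stay h) ≠ 0)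
    (hT : ∀ᵐ s ∂P, s ∈ Stay h → ∀ M : ℝ, ∃ n, M ≤ hgt h s n)
    {c : ℝ} (hc : ∀ a, h a ≤ c) (hc0 : 0 < c) :
    θ * ∑' n, ∫⁻ s in Good h C n, ENNReal.ofReal (hgt h s n) ∂P ≤
      ENNReal.ofReal ((G + 1) * c) * (θ + (P (Stay h))⁻¹) := by
  set b : ℝ := (G + 1) * c with hb
  have hb0 : 0 < b := by positivity
  -- pointwise bound of the height by a sum of indicators
  have hpt : ∀ (n : ℕ) (s : ℕ → S), ENNReal.ofReal (hgt h s n) ≤
      ENNReal.ofReal b * (1 + ∑' k : ℕ,
        ({s : ℕ → S | ((k + 1 : ℝ) * b) ≤ hgt h s n}.indicator (fun _ => (1 : ℝ≥0∞)) s)) := by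
    intro n s
    set y := hgt h s n with hy
    rcases le_or_gt y 0 with hy0 | hy0
    · rw [ENNReal.ofReal_of_nonpos hy0]; exact zero_le
    set N := ⌊y / b⌋₊ with hN
    have h1 : y / b < N + 1 := Nat.lt_floor_add_one _
    have h2 : (N : ℝ≥0∞) ≤ ∑' k : ℕ,
        ({s : ℕ → S | ((k + 1 : ℝ) * b) ≤ hgt h s n}.indicator (fun _ => (1 : ℝ≥0∞)) s) := by
      refine le_trans ?_ (ENNReal.sum_le_tsum (Finset.range N))
      have : ∀ k ∈ Finset.range N,
          ({s : ℕ → S | ((k + 1 : ℝ) * b) ≤ hgt h s n}.indicator (fun _ => (1 : ℝ≥0∞)) s) = 1 := by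
        intro k hk
        rw [indicator_of_mem]
        simp only [mem_setOf_eq]
        have hk' : ((k : ℝ) + 1) ≤ N := by exact_mod_cast Finset.mem_range.1 hk
        have hNy : (N : ℝ) ≤ y / b := Nat.floor_le (by positivity)
        have : ((k : ℝ) + 1) ≤ y / b := hk'.trans hNy
        rwa [le_div_iff₀ hb0] at this
      rw [Finset.sum_congr rfl this]
      simp
    calc ENNReal.ofReal y ≤ ENNReal.ofReal (b * (1 + N)) := by
          refine ENNReal.ofReal_le_ofReal ?_
          rw [div_lt_iff₀ hb0] at h1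
          nlinarith
      _ = ENNReal.ofReal b * (1 + (N : ℝ≥0∞)) := by
          rw [ENNReal.ofReal_mul hb0.le, ENNReal.ofReal_add zero_le_one (by positivity),
            ENNReal.ofReal_one, ENNReal.ofReal_natCast]
      _ ≤ _ := by gcongr
  have hmeas : ∀ (n k : ℕ), MeasurableSet {s : ℕ → S | ((k + 1 : ℝ) * b) ≤ hgt h s n} :=
    fun n k => measurableSet_le measurable_const (measurable_hgt h n)
  have hI : ∀ n, ∫⁻ s in Good h C n, ENNReal.ofReal (hgt h s n) ∂P ≤
      ENNReal.ofReal b * (P (Good h C n) + ∑' k : ℕ,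
        P (Good h C n ∩ {s : ℕ → S | ((k + 1 : ℝ) * b) ≤ hgt h s n})) := by
    intro n
    calc ∫⁻ s in Good h C n, ENNReal.ofReal (hgt h s n) ∂P
        ≤ ∫⁻ s in Good h C n, ENNReal.ofReal b * (1 + ∑' k : ℕ,
        ({s : ℕ → S | ((k + 1 : ℝ) * b) ≤ hgt h s n}.indicator (fun _ => (1 : ℝ≥0∞)) s)) ∂P :=
          lintegral_mono fun s => hpt n s
      _ = ENNReal.ofReal b * (P (Good h C n) + ∑' k : ℕ,
        P (Good h C n ∩ {s : ℕ → S | ((k + 1 : ℝ) * b) ≤ hgt h s n})) := by
          rw [lintegral_const_mul' _ _ ENNReal.ofReal_ne_top, lintegral_add_left measurable_const,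
            lintegral_tsum]
          · congr 2
            · simp
            · congr 1
              funext k
              rw [lintegral_indicator (hmeas n k), lintegral_const, Measure.restrict_restrict (hmeas n k)]
              rw [one_mul, Measure.restrict_apply_univ, inter_comm]
          · intro k
            exact (measurable_const.indicator (hmeas n k)).aemeasurable
  have hbig : ∀ k : ℕ, ∑' n, P (Good h C n ∩ {s : ℕ → S | ((k + 1 : ℝ) * b) ≤ hgt h s n}) =
      P (Big h C ((k + 1 : ℝ) * b)) * (P (Stay h))⁻¹ := by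
    intro k
    rw [R.big_eq hp hT, mul_assoc, ENNReal.mul_inv_cancel hp (measure_ne_top _ _), mul_one]
  have hmain : ∑' n, ∫⁻ s in Good h C n, ENNReal.ofReal (hgt h s n) ∂P ≤
      ENNReal.ofReal b * (1 + (∑' k : ℕ, P (Big h C ((k + 1 : ℝ) * b))) * (P (Stay h))⁻¹) := by
    calc ∑' n, ∫⁻ s in Good h C n, ENNReal.ofReal (hgt h s n) ∂P
      ≤ ∑' n, ENNReal.ofReal b * (P (Good h C n) + ∑' k : ℕ,
        P (Good h C n ∩ {s : ℕ → S | ((k + 1 : ℝ) * b) ≤ hgt h s n})) := ENNReal.tsum_le_tsum hI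
      _ = ENNReal.ofReal b * (∑' n, P (Good h C n) + ∑' n, ∑' k : ℕ,
        P (Good h C n ∩ {s : ℕ → S | ((k + 1 : ℝ) * b) ≤ hgt h s n})) := by
        rw [ENNReal.tsum_mul_left, ENNReal.tsum_add]
      _ = ENNReal.ofReal b * (1 + ∑' k : ℕ, P (Big h C ((k + 1 : ℝ) * b)) * (P (Stay h))⁻¹) := by
        rw [R.tsum_good hp hT, ENNReal.tsum_comm]
        congr 2
        congr 1
        funext k
        exact hbig k
      _ = _ := by rw [ENNReal.tsum_mul_right]
  calc θ * ∑' n, ∫⁻ s in Good h C n, ENNReal.ofReal (hgt h s n) ∂P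
      ≤ θ * (ENNReal.ofReal b * (1 + (∑' k : ℕ, P (Big h C ((k + 1 : ℝ) * b))) * (P (Stay h))⁻¹)) := by
        gcongr
    _ = ENNReal.ofReal b * (θ + (θ * ∑' k : ℕ, P (Big h C ((k + 1 : ℝ) * b))) * (P (Stay h))⁻¹) := by
        ring
    _ ≤ ENNReal.ofReal b * (θ + 1 * (P (Stay h))⁻¹) := by
        gcongr
        exact R.tsum_big hp hT hc hc0
    _ = _ := by rw [one_mul]

/-! ### representation by iid words -/

lemma measurable_tau (hC : Cand h G C) : Measurable (tau h C) := by
  classical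
  have hle : ∀ n, 1 ≤ n → MeasurableSet {s : ℕ → S | 1 ≤ tau h C s ∧ tau h C s ≤ n} := by
    intro n hn
    have : {s : ℕ → S | 1 ≤ tau h C s ∧ tau h C s ≤ n} =
        ⋃ m ∈ Finset.Icc 1 n, {s | Reg h C s m} := by
      ext s
      simp only [mem_setOf_eq, mem_iUnion, Finset.mem_Icc, exists_prop]
      constructor
      · rintro ⟨h1, h2⟩
        have h3 : tau h C s ∈ {n | 1 ≤ n ∧ Reg h C s n} :=
          Nat.sInf_mem (Nat.nonempty_of_pos_sInf h1)
        exact ⟨tau h C s, ⟨h1, h2⟩, h3.2⟩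
      · rintro ⟨m, ⟨h1, h2⟩, h3⟩
        have h4 : tau h C s ∈ {n | 1 ≤ n ∧ Reg h C s n} := Nat.sInf_mem ⟨m, h1, h3⟩
        exact ⟨h4.1, (Nat.sInf_le (s := {n | 1 ≤ n ∧ Reg h C s n}) ⟨h1, h3⟩).trans h2⟩
    rw [this]
    exact MeasurableSet.biUnion (Finset.countable_toSet _) fun m _ => measurableSet_Reg hC m
  have hpos : MeasurableSet {s : ℕ → S | 1 ≤ tau h C s} := by
    have : {s : ℕ → S | 1 ≤ tau h C s} = ⋃ n : ℕ, {s | 1 ≤ tau h C s ∧ tau h C s ≤ n + 1} := by
      ext s
      simp only [mem_setOf_eq, mem_iUnion]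
      exact ⟨fun H => ⟨tau h C s, H, Nat.le_succ _⟩, fun ⟨_, H, _⟩ => H⟩
    rw [this]
    exact MeasurableSet.iUnion fun n => hle (n + 1) (Nat.succ_le_succ (Nat.zero_le _))
  refine measurable_to_countable' fun n => ?_
  rcases Nat.eq_zero_or_pos n with rfl | hn
  · have : tau h C ⁻¹' {0} = {s : ℕ → S | 1 ≤ tau h C s}ᶜ := by
      ext s
      simp only [mem_preimage, mem_singleton_iff, mem_compl_iff, mem_setOf_eq]
      omega
    rw [this]; exact hpos.compl
  · have : tau h C ⁻¹' {n} = {s : ℕ → S | 1 ≤ tau h C s ∧ tau h C s ≤ n} \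
        {s : ℕ → S | 2 ≤ n ∧ 1 ≤ tau h C s ∧ tau h C s ≤ n - 1} := by
      ext s
      simp only [mem_preimage, mem_singleton_iff, mem_diff, mem_setOf_eq]
      omega
    rw [this]
    refine (hle n hn).diff ?_
    by_cases h2 : 2 ≤ n
    · have := hle (n - 1) (by omega)
      simpa [h2] using this
    · simp [h2]

lemma measurable_rest (hC : Cand h G C) : Measurable (rest h C) := by
  have h1 : Measurable fun p : ℕ × (ℕ → S) => shift p.1 p.2 :=
    measurable_from_prod_countable_right fun n => measurable_shift n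
  exact h1.comp ((measurable_tau hC).prodMk measurable_id)

lemma measurable_blk0 (hC : Cand h G C) : Measurable (blk0 h C) := by
  have h1 : Measurable fun p : ℕ × (ℕ → S) => pre p.1 p.2 :=
    measurable_from_prod_countable_right fun n => measurable_pre n
  exact h1.comp ((measurable_tau hC).prodMk measurable_id)

lemma measurable_blks (hC : Cand h G C) : Measurable (blks h C) :=
  measurable_pi_lambda _ fun k => (measurable_blk0 hC).comp ((measurable_rest hC).iterate k)

lemma wordLaw_apply (P : Measure (ℕ → S)) (T : Set (Word S)) :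
    wordLaw h C P T = ∑' n, P.restrict (Good h C n) {s | pre n s ∈ T} := by
  unfold wordLaw
  rw [Measure.sum_apply _ (MeasurableSet.of_discrete)]
  congr 1
  funext n
  rw [Measure.map_apply (measurable_pre n) MeasurableSet.of_discrete]
  rfl

lemma wordLaw_apply' (P : Measure (ℕ → S)) (T : Set (Word S)) :
    wordLaw h C P T = ∑' n, P (Good h C n ∩ {s | pre n s ∈ T}) := by
  rw [wordLaw_apply]
  congr 1
  funext n
  rw [Measure.restrict_apply (det_pre n T).measurableSet, inter_comm]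

theorem RenewalC.isProb (R : RenewalC h G C θ P) (hp : P (Stay h) ≠ 0)
    (hT : ∀ᵐ s ∂P, s ∈ Stay h → ∀ M : ℝ, ∃ n, M ≤ hgt h s n) :
    IsProbabilityMeasure (wordLaw h C P) := by
  refine ⟨?_⟩
  rw [wordLaw_apply']
  simp only [mem_univ, setOf_true, inter_univ]
  exact R.tsum_good hp hT

theorem RenewalC.ae_regInf (R : RenewalC h G C θ P) (hp : P (Stay h) ≠ 0)
    (hT : ∀ᵐ s ∂P, s ∈ Stay h → ∀ M : ℝ, ∃ n, M ≤ hgt h s n) :
    ∀ᵐ s ∂P, s ∈ Stay h → s ∈ RegInf h C := by
  filter_upwards [R.ae_tendsto hp, hT] with s h1 h2 h3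
  exact ⟨h3, (h1 (h2 h3)).1⟩

/-- one step: first block and the rest -/
theorem RenewalC.one_step (R : RenewalC h G C θ P) (hp : P (Stay h) ≠ 0)
    (hT : ∀ᵐ s ∂P, s ∈ Stay h → ∀ M : ℝ, ∃ n, M ≤ hgt h s n)
    (T : Set (Word S)) {B : Set (ℕ → S)} (hB : MeasurableSet B) :
    P (Stay h ∩ {s | blk0 h C s ∈ T ∧ rest h C s ∈ B}) = wordLaw h C P T * P (Stay h ∩ B) := by
  have h1 : P (Stay h ∩ {s | blk0 h C s ∈ T ∧ rest h C s ∈ B}) =
      P (⋃ n, ((Good h C n ∩ {s | pre n s ∈ T}) ∩ shift n ⁻¹' (Stay h ∩ B))) := by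
    refine measure_congr ?_
    filter_upwards [R.ae_regInf hp hT] with s hs
    refine propext ⟨fun H => ?_, fun H => ?_⟩
    · have hg := good_tau (hs H.1)
      exact mem_iUnion.2 ⟨tau h C s, ⟨hg.1, H.2.1⟩, hg.2, H.2.2⟩
    · obtain ⟨n, ⟨hn1, hn2⟩, hn3, hn4⟩ := mem_iUnion.1 H
      have he := tau_eq ⟨hn1, hn3⟩
      refine ⟨(good_iff.1 ⟨hn1, hn3⟩).1, ?_, ?_⟩
      · show pre (tau h C s) s ∈ T
        rw [he]; exact hn2
      · show shift (tau h C s) s ∈ B
        rw [he]; exact hn4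
  rw [h1, measure_iUnion, wordLaw_apply', ← ENNReal.tsum_mul_right]
  · congr 1
    funext n
    exact R.block ((det_Good R.cand n).inter (det_pre n T)) inter_subset_left
      ((measurableSet_Stay h).inter hB) inter_subset_left
  · intro n m hnm
    rw [Function.onFun, Set.disjoint_left]
    rintro s ⟨⟨hs1, _⟩, hs2, _⟩ ⟨⟨hs1', _⟩, hs2', _⟩
    exact hnm (good_unique ⟨hs1, hs2⟩ ⟨hs1', hs2'⟩)
  · exact fun n => ((det_Good R.cand n).inter (det_pre n T)).measurableSet.inter
      (measurable_shift n ((measurableSet_Stay h).inter hB))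

/-- the first `n` blocks and the rest -/
theorem RenewalC.n_step (R : RenewalC h G C θ P) (hp : P (Stay h) ≠ 0)
    (hT : ∀ᵐ s ∂P, s ∈ Stay h → ∀ M : ℝ, ∃ n, M ≤ hgt h s n) (n : ℕ) :
    ∀ (t : ℕ → Set (Word S)) (B : Set (ℕ → S)), MeasurableSet B →
    P (Stay h ∩ {s | (∀ i < n, blks h C s i ∈ t i) ∧ (rest h C)^[n] s ∈ B}) =
      (∏ i ∈ Finset.range n, wordLaw h C P (t i)) * P (Stay h ∩ B) := by
  induction n with
  | zero =>
    intro t B _
    simp
  | succ n ih =>
    intro t B hB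
    have hB' : MeasurableSet
        {s : ℕ → S | (∀ i < n, blks h C s i ∈ t (i + 1)) ∧ (rest h C)^[n] s ∈ B} := by
      have e1 : MeasurableSet {s : ℕ → S | ∀ i < n, blks h C s i ∈ t (i + 1)} := by
        have : {s : ℕ → S | ∀ i < n, blks h C s i ∈ t (i + 1)} =
            ⋂ i : ℕ, ⋂ _ : i < n, {s | blks h C s i ∈ t (i + 1)} := by ext s; simp
        rw [this]
        exact MeasurableSet.iInter fun i => MeasurableSet.iInter fun _ =>
          ((measurable_pi_apply i).comp (measurable_blks R.cand)) MeasurableSet.of_discrete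
      exact e1.inter ((measurable_rest R.cand).iterate n hB)
    have h1 : {s : ℕ → S | (∀ i < n + 1, blks h C s i ∈ t i) ∧ (rest h C)^[n + 1] s ∈ B} =
        {s | blk0 h C s ∈ t 0 ∧ rest h C s ∈
          {s : ℕ → S | (∀ i < n, blks h C s i ∈ t (i + 1)) ∧ (rest h C)^[n] s ∈ B}} := by
      ext s
      simp only [mem_setOf_eq, Function.iterate_succ, Function.comp]
      constructor
      · rintro ⟨H1, H2⟩
        exact ⟨H1 0 (Nat.succ_pos _), fun i hi => H1 (i + 1) (Nat.succ_lt_succ hi), H2⟩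
      · rintro ⟨H0, H1, H2⟩
        refine ⟨fun i hi => ?_, H2⟩
        rcases i with _ | i
        · exact H0
        · exact H1 i (Nat.lt_of_succ_lt_succ hi)
    rw [h1, R.one_step hp hT (t 0) hB', ih (fun i => t (i + 1)) B hB, Finset.prod_range_succ',
      ← mul_assoc, mul_comm (wordLaw h C P (t 0))]

/-- under `P( . | Stay)` the blocks are iid with law `wordLaw` -/
theorem RenewalC.map_blks (R : RenewalC h G C θ P) (hp : P (Stay h) ≠ 0)
    (hT : ∀ᵐ s ∂P, s ∈ Stay h → ∀ M : ℝ, ∃ n, M ≤ hgt h s n) :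
    (cond P (Stay h)).map (blks h C) = Measure.infinitePi fun _ : ℕ => wordLaw h C P := by
  classical
  have := R.isProb hp hT
  refine Measure.eq_infinitePi _ fun s t _ => ?_
  obtain ⟨N, hN⟩ : ∃ N, s ⊆ Finset.range N := ⟨s.sup id + 1, fun i hi =>
    Finset.mem_range.2 (Nat.lt_succ_of_le (Finset.le_sup (f := id) hi))⟩
  set t' : ℕ → Set (Word S) := fun i => if i ∈ s then t i else univ with ht'
  have hset : blks h C ⁻¹' (Set.pi s t) = {σ : ℕ → S | (∀ i < N, blks h C σ i ∈ t' i) ∧
      (rest h C)^[N] σ ∈ (univ : Set (ℕ → S))} := by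
    ext σ
    simp only [mem_preimage, Set.mem_pi, mem_setOf_eq, mem_univ, and_true, Finset.mem_coe, ht']
    constructor
    · intro H i _
      split_ifs with his
      · exact H i his
      · exact mem_univ _
    · intro H i hi
      have := H i (Finset.mem_range.1 (hN hi))
      rwa [if_pos hi] at this
  have hms : MeasurableSet (Set.pi (s : Set ℕ) t) :=
    MeasurableSet.pi s.countable_toSet fun i _ => MeasurableSet.of_discrete
  rw [Measure.map_apply (measurable_blks R.cand) hms, cond_apply (measurableSet_Stay h), hset,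
    R.n_step hp hT N t' univ MeasurableSet.univ, inter_univ]
  have hprod : ∏ i ∈ Finset.range N, wordLaw h C P (t' i) = ∏ i ∈ s, wordLaw h C P (t i) := by
    rw [← Finset.prod_subset hN]
    · refine Finset.prod_congr rfl fun i hi => ?_
      simp only [ht', if_pos hi]
    · intro i _ hi
      simp only [ht', if_neg hi]
      exact measure_univ
  rw [hprod, mul_comm, mul_assoc, ENNReal.mul_inv_cancel hp (measure_ne_top _ _), mul_one]

/-- REPRESENTATION: the law conditioned to stay is the law of the concatenation of iid words -/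
theorem RenewalC.law_eq [Inhabited S] (R : RenewalC h G C θ P) (hp : P (Stay h) ≠ 0)
    (hT : ∀ᵐ s ∂P, s ∈ Stay h → ∀ M : ℝ, ∃ n, M ≤ hgt h s n) :
    cond P (Stay h) = (Measure.infinitePi fun _ : ℕ => wordLaw h C P).map cat := by
  rw [← R.map_blks hp hT, Measure.map_map measurable_cat (measurable_blks R.cand)]
  have hae : (cat ∘ blks h C) =ᵐ[cond P (Stay h)] id := by
    have h1 : ∀ᵐ s ∂(P.restrict (Stay h)), s ∈ RegInf h C := by
      rw [ae_restrict_iff' (measurableSet_Stay h)]
      exact R.ae_regInf hp hT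
    have h2 : ∀ᵐ s ∂(cond P (Stay h)), s ∈ RegInf h C := by
      unfold ProbabilityTheory.cond
      exact Measure.ae_smul_measure h1 _
    filter_upwards [h2] with s hs
    exact cat_blks R.cand hs
  rw [Measure.map_congr hae, Measure.map_id]

/-- mean height of a block -/
theorem RenewalC.lintegral_ht_le (R : RenewalC h G C θ P) (hp : P (Stay h) ≠ 0)
    (hT : ∀ᵐ s ∂P, s ∈ Stay h → ∀ M : ℝ, ∃ n, M ≤ hgt h s n)
    {c : ℝ} (hc : ∀ a, h a ≤ c) (hc0 : 0 < c) :
    θ * ∫⁻ u, ENNReal.ofReal (Word.ht h u) ∂(wordLaw h C P) ≤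
      ENNReal.ofReal ((G + 1) * c) * (θ + (P (Stay h))⁻¹) := by
  unfold wordLaw
  rw [lintegral_sum_measure]
  refine le_trans (le_of_eq ?_) (R.mean_le hp hT hc hc0)
  congr 2
  funext n
  rw [lintegral_map (measurable_of_countable _) (measurable_pre n)]
  simp only [ht_pre]

/-- the block height has finite mean -/
theorem RenewalC.lintegral_ht_ne_top (R : RenewalC h G C θ P) (hp : P (Stay h) ≠ 0)
    (hT : ∀ᵐ s ∂P, s ∈ Stay h → ∀ M : ℝ, ∃ n, M ≤ hgt h s n)
    {c : ℝ} (hc : ∀ a, h a ≤ c) (hc0 : 0 < c) (hθ : θ ≠ ∞) :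
    ∫⁻ u, ENNReal.ofReal (Word.ht h u) ∂(wordLaw h C P) ≠ ∞ := by
  intro H
  have h1 := R.lintegral_ht_le hp hT hc hc0
  rw [H, ENNReal.mul_top R.ne_zero, top_le_iff] at h1
  exact (ENNReal.mul_ne_top ENNReal.ofReal_ne_top
    (ENNReal.add_ne_top.2 ⟨hθ, ENNReal.inv_ne_top.2 hp⟩)) h1

/-- structure of a good word -/
def GoodWord (h : S → ℝ) (u : Word S) : Prop :=
  1 ≤ u.len ∧ 0 < Word.ht h u ∧ ∀ k < u.len, 0 ≤ Word.ht h (List.take k u) ∧
    Word.ht h (List.take k u) < Word.ht h u

lemma ae_goodWord (hC : Cand h G C) (P : Measure (ℕ → S)) :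
    ∀ᵐ u ∂(wordLaw h C P), GoodWord h u := by
  rw [ae_iff, wordLaw_apply', ENNReal.tsum_eq_zero]
  intro n
  have : Good h C n ∩ {s | pre n s ∈ {a | ¬ GoodWord h a}} = ∅ := by
    rw [eq_empty_iff_forall_notMem]
    rintro s ⟨⟨h1, h2', h3, _⟩, hs⟩
    have h2 := hC.record _ _ h2'
    refine hs ⟨by rw [len_pre]; exact h1, ?_, fun k hk => ?_⟩
    · rw [ht_pre]
      have := h2 0 h1
      rwa [hgt_zero] at this
    · rw [len_pre] at hk
      have hpre : (List.take k (pre n s) : List S) = pre k s := by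
        unfold pre
        rw [← List.map_take, List.take_range, Nat.min_eq_left hk.le]
      rw [hpre]
      have e1 := ht_pre h k s
      have e2 := ht_pre h n s
      rw [e1, e2]
      exact ⟨h3 k hk.le, h2 k hk⟩
  rw [this, measure_empty]

end measurable

/-! ### the candidate system of forced letters -/

/-- record at time `n - G`, then `G` letters equal to `a` -/
def CandF (h : S → ℝ) (a : S) (G : ℕ) (n : ℕ) (s : ℕ → S) : Prop :=
  G ≤ n ∧ Record h s (n - G) ∧ ∀ i, n - G ≤ i → i < n → s i = a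

lemma hgt_forced (h : S → ℝ) {a : S} {s : ℕ → S} {n : ℕ} {k : ℕ}
    (H : ∀ i, n ≤ i → i < n + k → s i = a) : hgt h s (n + k) = hgt h s n + k * h a := by
  induction k with
  | zero => simp
  | succ k ih =>
    rw [← add_assoc, hgt_succ, ih (fun i h1 h2 => H i h1 (by omega)), H (n + k) (by omega) (by omega)]
    push_cast
    ring

theorem cand_candF (h : S → ℝ) {a : S} (ha : 0 < h a) (G : ℕ) : Cand h G (CandF h a G) where
  det := by
    intro n
    have key : ∀ s s' : ℕ → S, (∀ i < n, s i = s' i) → CandF h a G n s → CandF h a G n s' := by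
      rintro s s' H ⟨h1, h2, h3⟩
      refine ⟨h1, ?_, fun i hi1 hi2 => ?_⟩
      · exact (det_Record h (n - G) s s' fun i hi => H i (by omega)).1 h2
      · rw [← H i hi2]; exact h3 i hi1 hi2
    exact fun s s' H => ⟨key s s' H, key s' s fun i hi => (H i hi).symm⟩
  record := by
    rintro n s ⟨h1, h2, h3⟩
    obtain ⟨m, rfl⟩ := Nat.exists_eq_add_of_le' h1
    rw [Nat.add_sub_cancel] at h2 h3
    have hn := hgt_forced h (n := m) (k := G) h3
    intro k hk
    rcases lt_or_ge k m with hkm | hkm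
    · have := h2 k hkm
      have h4 : 0 ≤ (G : ℝ) * h a := by positivity
      linarith
    · obtain ⟨j, rfl⟩ := Nat.exists_eq_add_of_le hkm
      rw [hn, hgt_forced h (n := m) (k := j) (fun i hi1 hi2 => h3 i hi1 (by omega))]
      have h5 : (j : ℝ) < G := by
        have : j < G := by omega
        exact_mod_cast this
      nlinarith
  shift := by
    rintro n m s hnm ⟨h1, h2, h3⟩
    refine ⟨by omega, fun k hk => ?_, fun i hi1 hi2 => ?_⟩
    · rw [hgt_shift, hgt_shift]
      have e : n + (m - n - G) = m - G := by omega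
      rw [e]
      have := h2 (n + k) (by omega)
      linarith
    · exact h3 (n + i) (by omega) (by omega)
  up := by
    rintro n s ⟨h1, h2, h3⟩ k hk1 hk2
    rw [Nat.add_sub_cancel] at h2 h3
    obtain ⟨j, rfl⟩ := Nat.exists_eq_add_of_le hk1
    rw [hgt_forced h (n := n) (k := j) (fun i hi1 hi2 => h3 i hi1 (by omega))]
    have : 0 ≤ (j : ℝ) * h a := by positivity
    linarith

lemma det_letters (a : S) (n k : ℕ) :
    Det (n + k) {s : ℕ → S | ∀ i, n ≤ i → i < n + k → s i = a} := by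
  intro s s' H
  simp only [mem_setOf_eq]
  refine forall_congr' fun i => forall_congr' fun _ => forall_congr' fun hi => ?_
  rw [H i hi]

/-- **RenewalC for forced letters**: fresh restart after a candidate plus conditional probability at least
`q` of the forced letter `a` at every time. -/
theorem renewalC_candF [Countable S] [MeasurableSpace S] [MeasurableSingletonClass S]
    {h : S → ℝ} {a : S} (ha : 0 < h a) {G : ℕ} {q : ℝ≥0∞} (hq : q ≠ 0) {P : Measure (ℕ → S)}
    (hren : ∀ (n : ℕ) (A B : Set (ℕ → S)), Det n A → (∀ s ∈ A, CandF h a G n s) →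
      MeasurableSet B → B ⊆ Stay h → P (A ∩ shift n ⁻¹' B) = P A * P B)
    (hf : ∀ (n : ℕ) (A : Set (ℕ → S)), Det n A → q * P A ≤ P (A ∩ {s | s n = a})) :
    RenewalC h G (CandF h a G) (q ^ G) P where
  cand := cand_candF h ha G
  ne_zero := pow_ne_zero _ hq
  ren := hren
  forced := by
    intro n A hA hrec
    refine ⟨A ∩ {s : ℕ → S | ∀ i, n ≤ i → i < n + G → s i = a}, inter_subset_left,
      (hA.mono (Nat.le_add_right _ _)).inter (det_letters a n G), ?_, ?_⟩
    · rintro s ⟨hs1, hs2⟩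
      refine ⟨Nat.le_add_left _ _, ?_, fun i hi1 hi2 => ?_⟩
      · rw [Nat.add_sub_cancel]; exact hrec s hs1
      · rw [Nat.add_sub_cancel] at hi1
        exact hs2 i hi1 hi2
    · have key : ∀ k : ℕ, q ^ k * P A ≤ P (A ∩ {s : ℕ → S | ∀ i, n ≤ i → i < n + k → s i = a}) := by
        intro k
        induction k with
        | zero =>
          rw [pow_zero, one_mul]
          refine measure_mono fun s hs => ⟨hs, fun i h1 h2 => ?_⟩
          omega
        | succ k ih =>
          have e : A ∩ {s : ℕ → S | ∀ i, n ≤ i → i < n + (k + 1) → s i = a} =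
              (A ∩ {s : ℕ → S | ∀ i, n ≤ i → i < n + k → s i = a}) ∩ {s | s (n + k) = a} := by
            ext s
            simp only [mem_inter_iff, mem_setOf_eq]
            constructor
            · rintro ⟨h1, h2⟩
              exact ⟨⟨h1, fun i hi1 hi2 => h2 i hi1 (by omega)⟩, h2 _ (by omega) (by omega)⟩
            · rintro ⟨⟨h1, h2⟩, h3⟩
              refine ⟨h1, fun i hi1 hi2 => ?_⟩
              rcases lt_or_ge i (n + k) with hi | hi
              · exact h2 i hi1 hi
              · have : i = n + k := by omega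
                rw [this]; exact h3
          rw [e, pow_succ', mul_assoc]
          refine le_trans (mul_le_mul' le_rfl ih) (hf (n + k) _ ?_)
          exact (hA.mono (Nat.le_add_right _ _)).inter (det_letters a n k)
      exact key G

end Crest.Agent.R154.RenG247
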