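import Crest.Agent.R154.Ren3_263

/-!
Row 154, block B1 for range `R > 0`: renewal structure with restricted record times and a forced
climb.  `RecSys h` = the class of admissible record times.
-/

set_option autoImplicit false
set_option linter.unusedSectionVars false
set_option linter.deprecated false
open MeasureTheory Filter Set
open scoped ENNReal Topology

namespace Crest.Agent.R154.RenG263

open Crest.Agent.R154.Ren263

variable {S : Type*}

/-- admissible record times, and a word which leads from a record to an admissible record -/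
structure RecSys (h : S → ℝ) where
  /-- `n` is an admissible record time -/
  Rec : (ℕ → S) → ℕ → Prop
  det : ∀ {s s' : ℕ → S} {n : ℕ}, (∀ i < n, s i = s' i) → (Rec s n ↔ Rec s' n)
  record : ∀ {s : ℕ → S} {n : ℕ}, Rec s n → Record h s n
  add : ∀ {s : ℕ → S} {n k : ℕ}, Rec s n → Rec (shift n s) k → Rec s (n + k)
  sub : ∀ {s : ℕ → S} {n k : ℕ}, Rec s (n + k) → Rec (shift n s) k
  /-- length of the climb -/
  K : ℕ
  /-- letters of the climb -/
  f : ℕ → S
  f_up : ∀ i < K, 0 ≤ h (f i)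
  climb : ∀ {s : ℕ → S} {n : ℕ}, Record h s n → (∀ i < K, s (n + i) = f i) → Rec s (n + K)
  /-- conditional probability of the climb -/
  δ : ℝ≥0∞

/-- the ordinary case: every strict record is admissible -/
def RecSys.std (h : S → ℝ) [Inhabited S] : RecSys h where
  Rec s n := Record h s n
  det {s s' n} H := det_Record h n s s' H
  record hs := hs
  add {s n k} h1 h2 := by
    intro i hi
    rcases Nat.eq_zero_or_pos k with rfl | hk
    · exact h1 i hi
    · rcases lt_or_ge i n with hin | hin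
      · have e1 := h1 i hin
        have e2 := h2 0 hk
        rw [hgt_zero, hgt_shift] at e2
        linarith
      · obtain ⟨j, rfl⟩ := Nat.exists_eq_add_of_le hin
        have e2 := h2 j (by omega)
        rw [hgt_shift, hgt_shift] at e2
        linarith
  sub {s n k} h1 := by
    intro i hi
    have e2 := h1 (n + i) (by omega)
    rw [hgt_shift, hgt_shift]
    linarith
  K := 0
  f := fun _ => default
  f_up := fun i hi => absurd hi (Nat.not_lt_zero _)
  climb {s n} h1 _ := h1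
  δ := 1

variable {h : S → ℝ}

/-- regeneration time -/
def Reg (ρ : RecSys h) (s : ℕ → S) (n : ℕ) : Prop := ρ.Rec s n ∧ shift n s ∈ Stay h

lemma Reg.reg {ρ : RecSys h} {s : ℕ → S} {n : ℕ} (H : Reg ρ s n) : Ren263.Reg h s n :=
  ⟨ρ.record H.1, H.2⟩

/-- the climb at time `n` -/
def Climb (ρ : RecSys h) (n : ℕ) : Set (ℕ → S) := {s | ∀ i < ρ.K, s (n + i) = ρ.f i}

lemma det_Climb (ρ : RecSys h) (n : ℕ) : Det (n + ρ.K) (Climb ρ n) := by
  intro s s' H
  simp only [Climb, mem_setOf_eq]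
  refine forall_congr' fun i => forall_congr' fun hi => ?_
  rw [H (n + i) (by omega)]

lemma climb_hgt {ρ : RecSys h} {n : ℕ} {s : ℕ → S} (hs : s ∈ Climb ρ n) {j : ℕ} (hj : j ≤ ρ.K) :
    hgt h s n ≤ hgt h s (n + j) := by
  induction j with
  | zero => exact le_rfl
  | succ j ih =>
    rw [← Nat.add_assoc, hgt_succ, hs j (by omega)]
    have := ρ.f_up j (by omega)
    have := ih (by omega)
    linarith

lemma climb_hgt_le {n : ℕ} {s : ℕ → S} {c : ℝ} (hc : ∀ a, h a ≤ c) (j : ℕ) :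
    hgt h s (n + j) ≤ hgt h s n + j * c := by
  induction j with
  | zero => simp
  | succ j ih =>
    rw [← Nat.add_assoc, hgt_succ]
    have := hc (s (n + j))
    push_cast
    linarith

lemma rec_congr (ρ : RecSys h) {s s' : ℕ → S} {n : ℕ} (H : ∀ i < n, s i = s' i) {m : ℕ}
    (hm : m ≤ n) : ρ.Rec s m ↔ ρ.Rec s' m :=
  ρ.det fun i hi => H i (lt_of_lt_of_le hi hm)

lemma det_Rec (ρ : RecSys h) (n : ℕ) : Det n {s | ρ.Rec s n} := fun _ _ H => ρ.det H

/-- `n` is the first regeneration time `≥ 1` of a path in `Stay`, as an event of the first `n`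
letters -/
def Good (ρ : RecSys h) (n : ℕ) : Set (ℕ → S) :=
  {s | 1 ≤ n ∧ ρ.Rec s n ∧ (∀ k ≤ n, 0 ≤ hgt h s k) ∧
    ∀ m, 1 ≤ m → m < n → ¬ (ρ.Rec s m ∧ ∀ k, m ≤ k → k ≤ n → hgt h s m ≤ hgt h s k)}

lemma det_Good (ρ : RecSys h) (n : ℕ) : Det n (Good ρ n) := by
  have key : ∀ s s' : ℕ → S, (∀ i < n, s i = s' i) → s ∈ Good ρ n → s' ∈ Good ρ n := by
    rintro s s' H ⟨h1, h2, h3, h4⟩
    refine ⟨h1, (rec_congr ρ H le_rfl).1 h2, fun k hk => ?_, fun m hm1 hm2 hm3 => ?_⟩
    · rw [← hgt_congr h H hk]; exact h3 k hk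
    · refine h4 m hm1 hm2 ⟨(rec_congr ρ H hm2.le).2 hm3.1, fun k hk1 hk2 => ?_⟩
      rw [hgt_congr h H hk2, hgt_congr h H hm2.le]
      exact hm3.2 k hk1 hk2
  exact fun s s' H => ⟨key s s' H, key s' s fun i hi => (H i hi).symm⟩

lemma good_rec {ρ : RecSys h} {n : ℕ} {s : ℕ → S} (hs : s ∈ Good ρ n) : ρ.Rec s n := hs.2.1

/-- the first regeneration time is `n` -/
lemma good_iff {ρ : RecSys h} {n : ℕ} {s : ℕ → S} :
    (s ∈ Good ρ n ∧ shift n s ∈ Stay h) ↔
      (s ∈ Stay h ∧ 1 ≤ n ∧ Reg ρ s n ∧ ∀ m, 1 ≤ m → m < n → ¬ Reg ρ s m) := by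
  constructor
  · rintro ⟨⟨h1, h2, h3, h4⟩, h5⟩
    have h6 := mem_shift_Stay.1 h5
    refine ⟨fun k => ?_, h1, ⟨h2, h5⟩, fun m hm1 hm2 hm3 => ?_⟩
    · rcases le_total k n with hk | hk
      · exact h3 k hk
      · exact (h3 n le_rfl).trans (h6 k hk)
    · exact h4 m hm1 hm2 ⟨hm3.1, fun k hk1 _ => mem_shift_Stay.1 hm3.2 k hk1⟩
  · rintro ⟨h1, h2, h3, h4⟩
    refine ⟨⟨h2, h3.1, fun k _ => h1 k, fun m hm1 hm2 hm3 => ?_⟩, h3.2⟩
    refine h4 m hm1 hm2 ⟨hm3.1, mem_shift_Stay.2 fun k hk => ?_⟩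
    rcases le_total k n with hkn | hkn
    · exact hm3.2 k hk hkn
    · exact (hm3.2 n hm2.le le_rfl).trans (mem_shift_Stay.1 h3.2 k hkn)

lemma good_unique {ρ : RecSys h} {n m : ℕ} {s : ℕ → S} (hn : s ∈ Good ρ n ∧ shift n s ∈ Stay h)
    (hm : s ∈ Good ρ m ∧ shift m s ∈ Stay h) : n = m := by
  have h1 := good_iff.1 hn
  have h2 := good_iff.1 hm
  rcases lt_trichotomy n m with H | H | H
  · exact absurd h1.2.2.1 (h2.2.2.2 n h1.2.1 H)
  · exact H
  · exact absurd h2.2.2.1 (h1.2.2.2 m h2.2.1 H)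

/-- paths in `Stay` whose regeneration times `≥ 1` all have height at least `t` -/
def Big (ρ : RecSys h) (t : ℝ) : Set (ℕ → S) :=
  {s | s ∈ Stay h ∧ ∀ n, 1 ≤ n → Reg ρ s n → t ≤ hgt h s n}

lemma big_subset (ρ : RecSys h) (t : ℝ) : Big ρ t ⊆ Stay h := fun _ hs => hs.1

lemma reg_shift {ρ : RecSys h} {s : ℕ → S} {n m : ℕ} (hnm : n ≤ m) (hm : Reg ρ s m) :
    Reg ρ (shift n s) (m - n) := by
  obtain ⟨j, rfl⟩ := Nat.exists_eq_add_of_le hnm
  rw [Nat.add_sub_cancel_left]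
  exact ⟨ρ.sub hm.1, by rw [shift_shift]; exact hm.2⟩

lemma reg_add {ρ : RecSys h} {s : ℕ → S} {n k : ℕ} (h1 : ρ.Rec s n) (h2 : Reg ρ (shift n s) k) :
    Reg ρ s (n + k) :=
  ⟨ρ.add h1 h2.1, by rw [← shift_shift]; exact h2.2⟩

section measurable

variable [Countable S] [MeasurableSpace S] [MeasurableSingletonClass S]

lemma measurableSet_Reg (ρ : RecSys h) (n : ℕ) : MeasurableSet {s : ℕ → S | Reg ρ s n} :=
  (det_Rec ρ n).measurableSet.inter (measurable_shift n (measurableSet_Stay h))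

lemma measurableSet_Big (ρ : RecSys h) (t : ℝ) : MeasurableSet (Big ρ t) := by
  have : Big ρ t = Stay h ∩ ⋂ n : ℕ, ⋂ _ : 1 ≤ n, ({s | Reg ρ s n}ᶜ ∪ {s | t ≤ hgt h s n}) := by
    ext s
    simp only [Big, mem_setOf_eq, mem_inter_iff, mem_iInter, mem_union, mem_compl_iff]
    refine and_congr Iff.rfl (forall_congr' fun n => forall_congr' fun _ => ?_)
    tauto
  rw [this]
  exact (measurableSet_Stay h).inter <| MeasurableSet.iInter fun n => MeasurableSet.iInter fun _ =>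
    (measurableSet_Reg ρ n).compl.union (measurableSet_le measurable_const (measurable_hgt h n))

/-- The renewal property at admissible record times, and the climb -/
structure RenewalG (ρ : RecSys h) (P : Measure (ℕ → S)) : Prop where
  ren : ∀ (n : ℕ) (A B : Set (ℕ → S)), Det n A → (∀ s ∈ A, ρ.Rec s n) → MeasurableSet B →
    B ⊆ Stay h → P (A ∩ shift n ⁻¹' B) = P A * P B
  δ_ne : ρ.δ ≠ 0
  clm : ∀ (n : ℕ) (A : Set (ℕ → S)), Det n A → P (A ∩ Climb ρ n) = ρ.δ * P A

/-- the ordinary case -/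
theorem renewalG_std [Inhabited S] {P : Measure (ℕ → S)} (R : Renewal h P) :
    RenewalG (RecSys.std h) P where
  ren := R.ren
  δ_ne := one_ne_zero
  clm := by
    intro n A _
    have : Climb (RecSys.std h) n = univ := by
      ext s
      simp only [Climb, mem_setOf_eq, mem_univ, iff_true]
      intro i hi
      exact absurd hi (Nat.not_lt_zero _)
    rw [this, inter_univ]
    simp [RecSys.std]

variable {ρ : RecSys h} {P : Measure (ℕ → S)} [IsProbabilityMeasure P]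

/-- climb and then stay -/
lemma RenewalG.climb_ren (R : RenewalG ρ P) {n : ℕ} {A B : Set (ℕ → S)} (hA : Det n A)
    (hrec : ∀ s ∈ A, Record h s n) (hB : MeasurableSet B) (hBS : B ⊆ Stay h) :
    P ((A ∩ Climb ρ n) ∩ shift (n + ρ.K) ⁻¹' B) = P A * (ρ.δ * P B) := by
  rw [R.ren (n + ρ.K) (A ∩ Climb ρ n) B ((hA.mono (Nat.le_add_right _ _)).inter (det_Climb ρ n))
    (fun s hs => ρ.climb (hrec s hs.1) hs.2) hB hBS, R.clm n A hA]
  ring

lemma RenewalG.δ_le (R : RenewalG ρ P) : ρ.δ ≤ 1 := by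
  have h1 := R.clm 0 univ (Det.univ 0)
  rw [measure_univ, mul_one, univ_inter] at h1
  rw [← h1]
  exact prob_le_one

lemma RenewalG.fail (R : RenewalG ρ P) {n : ℕ} {A : Set (ℕ → S)} (hA : Det n A)
    (hrec : ∀ s ∈ A, Record h s n) :
    P (A \ (Climb ρ n ∩ shift (n + ρ.K) ⁻¹' Stay h)) = (1 - ρ.δ * P (Stay h)) * P A := by
  have h1 := R.climb_ren hA hrec (measurableSet_Stay h) subset_rfl
  have hm : MeasurableSet (Climb ρ n ∩ shift (n + ρ.K) ⁻¹' Stay h) :=
    (det_Climb ρ n).measurableSet.inter (measurable_shift _ (measurableSet_Stay h))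
  have h2 : P (A ∩ (Climb ρ n ∩ shift (n + ρ.K) ⁻¹' Stay h)) +
      P (A \ (Climb ρ n ∩ shift (n + ρ.K) ⁻¹' Stay h)) = P A :=
    measure_inter_add_diff A hm
  rw [← inter_assoc, h1] at h2
  have h3 : (1 - ρ.δ * P (Stay h)) * P A = P A - (ρ.δ * P (Stay h)) * P A := by
    rw [ENNReal.sub_mul (fun _ _ => measure_ne_top _ _), one_mul]
  have hfin : P A * (ρ.δ * P (Stay h)) ≠ ⊤ :=
    ENNReal.mul_ne_top (measure_ne_top _ _)
      (ENNReal.mul_ne_top (ne_top_of_le_ne_top ENNReal.one_ne_top R.δ_le) (measure_ne_top _ _))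
  rw [h3, mul_comm (ρ.δ * P (Stay h))]
  refine ENNReal.eq_sub_of_add_eq hfin ?_
  rw [add_comm]; exact h2

/-- infinitely many regeneration times as soon as the height is unbounded above -/
theorem RenewalG.reg_io (R : RenewalG ρ P) (hp : P (Stay h) ≠ 0) (j : ℕ) :
    P {s | (∀ M : ℝ, ∃ n, M ≤ hgt h s n) ∧ ∀ n, j ≤ n → ¬ Reg ρ s n} = 0 := by
  have hlt : 1 - ρ.δ * P (Stay h) < 1 :=
    ENNReal.sub_lt_self ENNReal.one_ne_top one_ne_zero (mul_ne_zero R.δ_ne hp)
  refine trial P ?_ hlt fun n0 A hA => ?_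
  · have e1 : MeasurableSet {s : ℕ → S | ∀ M : ℝ, ∃ n, M ≤ hgt h s n} := by
      have : {s : ℕ → S | ∀ M : ℝ, ∃ n, M ≤ hgt h s n} =
          ⋂ m : ℕ, ⋃ n : ℕ, {s | (m : ℝ) ≤ hgt h s n} := by
        ext s
        simp only [mem_setOf_eq, mem_iInter, mem_iUnion]
        constructor
        · intro H m; exact H m
        · intro H M
          obtain ⟨m, hm⟩ := exists_nat_ge M
          obtain ⟨n, hn⟩ := H m
          exact ⟨n, hm.trans hn⟩
      rw [this]
      exact MeasurableSet.iInter fun m => MeasurableSet.iUnion fun n =>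
        measurableSet_le measurable_const (measurable_hgt h n)
    have e2 : MeasurableSet {s : ℕ → S | ∀ n, j ≤ n → ¬ Reg ρ s n} := by
      have : {s : ℕ → S | ∀ n, j ≤ n → ¬ Reg ρ s n} = ⋂ n : ℕ, ⋂ _ : j ≤ n, {s | Reg ρ s n}ᶜ := by
        ext s; simp
      rw [this]
      exact MeasurableSet.iInter fun n => MeasurableSet.iInter fun _ => (measurableSet_Reg ρ n).compl
    exact e1.inter e2
  · set N := max n0 j with hN
    set C : ℕ → Set (ℕ → S) := fun n => {s | s ∈ A ∧ N < n ∧ s ∈ FP h (lev h N s) n} with hC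
    have hCdet : ∀ n, Det n (C n) := by
      intro n s s' H
      by_cases hn : N < n
      · have e1 := (hA.mono ((le_max_left n0 j).trans hn.le)) s s' H
        have e2 : lev h N s = lev h N s' := lev_congr h fun i hi => H i (hi.trans hn)
        have e3 := det_FP h (lev h N s) n s s' H
        simp only [hC, mem_setOf_eq]
        rw [← e2]
        exact and_congr e1 (and_congr Iff.rfl e3)
      · simp only [hC, mem_setOf_eq]
        constructor
        · rintro ⟨_, h2, _⟩; exact absurd h2 hn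
        · rintro ⟨_, h2, _⟩; exact absurd h2 hn
    have hCrec : ∀ n, ∀ s ∈ C n, Record h s n := fun n s hs => record_of_FP hs.2.2
    have hCdisj : Pairwise (Function.onFun Disjoint C) := by
      intro n m hnm
      rw [Function.onFun, Set.disjoint_left]
      intro s hs hs'
      exact hnm (FP_unique hs.2.2 hs'.2.2)
    have hsub : (A ∩ {s | (∀ M : ℝ, ∃ n, M ≤ hgt h s n) ∧ ∀ n, j ≤ n → ¬ Reg ρ s n}) ⊆
        ⋃ n, (C n \ (Climb ρ n ∩ shift (n + ρ.K) ⁻¹' Stay h)) := by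
      rintro s ⟨hsA, hs1, hs2⟩
      obtain ⟨n, hn⟩ := exists_FP (hs1 (lev h N s))
      have hNn : N < n := by
        by_contra hcon
        exact absurd hn.1 (not_le.2 (hgt_lt_lev h (not_lt.1 hcon) s))
      refine mem_iUnion.2 ⟨n, ⟨hsA, hNn, hn⟩, fun hst => ?_⟩
      have hj : j ≤ n := (le_max_right n0 j).trans hNn.le
      exact hs2 (n + ρ.K) (by omega) ⟨ρ.climb (record_of_FP hn) hst.1, hst.2⟩
    calc P (A ∩ {s | (∀ M : ℝ, ∃ n, M ≤ hgt h s n) ∧ ∀ n, j ≤ n → ¬ Reg ρ s n})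
        ≤ P (⋃ n, (C n \ (Climb ρ n ∩ shift (n + ρ.K) ⁻¹' Stay h))) := measure_mono hsub
      _ ≤ ∑' n, P (C n \ (Climb ρ n ∩ shift (n + ρ.K) ⁻¹' Stay h)) := measure_iUnion_le _
      _ = ∑' n, (1 - ρ.δ * P (Stay h)) * P (C n) := by
          congr 1; funext n; exact R.fail (hCdet n) (hCrec n)
      _ = (1 - ρ.δ * P (Stay h)) * ∑' n, P (C n) := ENNReal.tsum_mul_left
      _ = (1 - ρ.δ * P (Stay h)) * P (⋃ n, C n) := by
          rw [measure_iUnion hCdisj fun n => (hCdet n).measurableSet]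
      _ ≤ (1 - ρ.δ * P (Stay h)) * P A := by
          gcongr
          exact iUnion_subset fun n s hs => hs.1

/-- Kalikow: if `P(Stay) ≠ 0` then almost surely: height unbounded above implies that there are
infinitely many regeneration times, and the height tends to `+∞` -/
theorem RenewalG.ae_tendsto (R : RenewalG ρ P) (hp : P (Stay h) ≠ 0) :
    ∀ᵐ s ∂P, (∀ M : ℝ, ∃ n, M ≤ hgt h s n) →
      (∀ j, ∃ n, j ≤ n ∧ Reg ρ s n) ∧ Tendsto (fun n => hgt h s n) atTop atTop := by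
  have H : ∀ᵐ s ∂P, ∀ j, ¬ ((∀ M : ℝ, ∃ n, M ≤ hgt h s n) ∧ ∀ n, j ≤ n → ¬ Reg ρ s n) := by
    rw [ae_all_iff]
    intro j
    exact measure_eq_zero_iff_ae_notMem.1 (R.reg_io hp j)
  filter_upwards [H] with s hs hM
  have h1 : ∀ j, ∃ n, j ≤ n ∧ Reg ρ s n := by
    intro j
    by_contra hcon
    push Not at hcon
    exact hs j ⟨hM, hcon⟩
  refine ⟨h1, tendsto_atTop.2 fun M => ?_⟩
  obtain ⟨n, hn⟩ := hM M
  obtain ⟨m, hm, hr⟩ := h1 (n + 1)
  refine eventually_atTop.2 ⟨m, fun k hk => ?_⟩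
  have e1 := ρ.record hr.1 n (Nat.lt_of_succ_le hm)
  have e2 := mem_shift_Stay.1 hr.2 k hk
  linarith

/-- first block and fresh future -/
theorem RenewalG.block (R : RenewalG ρ P) {n : ℕ} {A B : Set (ℕ → S)} (hA : Det n A)
    (hAG : A ⊆ Good ρ n) (hB : MeasurableSet B) (hBs : B ⊆ Stay h) :
    P (A ∩ shift n ⁻¹' B) = P A * P B :=
  R.ren n A B hA (fun _ hs => good_rec (hAG hs)) hB hBs

/-- the total mass of the good words is one -/
theorem RenewalG.tsum_good (R : RenewalG ρ P) (hp : P (Stay h) ≠ 0)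
    (hT : ∀ᵐ s ∂P, s ∈ Stay h → ∀ M : ℝ, ∃ n, M ≤ hgt h s n) :
    ∑' n, P (Good ρ n) = 1 := by
  have hdisj : Pairwise (Function.onFun Disjoint fun n => Good ρ n ∩ shift n ⁻¹' Stay h) := by
    intro n m hnm
    rw [Function.onFun, Set.disjoint_left]
    intro s hs hs'
    exact hnm (good_unique hs hs')
  have hmeas : ∀ n, MeasurableSet (Good ρ n ∩ shift n ⁻¹' Stay h) := fun n =>
    (det_Good ρ n).measurableSet.inter (measurable_shift n (measurableSet_Stay h))
  have h1 : P (⋃ n, (Good ρ n ∩ shift n ⁻¹' Stay h)) = P (Stay h) := by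
    refine measure_congr ?_
    filter_upwards [R.ae_tendsto hp, hT] with s hs1 hs2
    refine propext ⟨fun hs => ?_, fun hs => ?_⟩
    · obtain ⟨n, hn⟩ := mem_iUnion.1 hs
      exact (good_iff.1 hn).1
    · classical
      obtain ⟨n, hn1, hn2⟩ := (hs1 (hs2 hs)).1 1
      have hex : ∃ n, 1 ≤ n ∧ Reg ρ s n := ⟨n, hn1, hn2⟩
      refine mem_iUnion.2 ⟨Nat.find hex, good_iff.2 ⟨hs, (Nat.find_spec hex).1,
        (Nat.find_spec hex).2, fun m hm1 hm2 hm3 => Nat.find_min hex hm2 ⟨hm1, hm3⟩⟩⟩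
  rw [measure_iUnion hdisj hmeas] at h1
  have h2 : ∀ n, P (Good ρ n ∩ shift n ⁻¹' Stay h) = P (Good ρ n) * P (Stay h) := fun n =>
    R.block (det_Good ρ n) subset_rfl (measurableSet_Stay h) subset_rfl
  simp_rw [h2] at h1
  rw [ENNReal.tsum_mul_right] at h1
  have h3 : (∑' n, P (Good ρ n)) * P (Stay h) = 1 * P (Stay h) := by rw [h1, one_mul]
  exact (ENNReal.mul_left_inj hp (measure_ne_top _ _)).1 h3

end measurable

end Crest.Agent.R154.RenG263
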