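import Mathlib

/-!
Row 154, B1d (abstract part): a delayed renewal sequence of nonnegative i.i.d. gaps such that every
window `[jc, (j+1)c + G)` contains a renewal point with probability at least `p > 0` has integrable gaps,
with mean at most `(G + 2c)/p`. Mathlib only.
-/

set_option autoImplicit false

open MeasureTheory ProbabilityTheory Filter Finset
open scoped ENNReal Topology BigOperators

namespace Crest.Agent.R154.Renew157

/-- number of windows containing a point -/
lemma count_window (c G : ℝ) (hc : 0 < c) (hG : 0 ≤ G) (s : ℝ) (J : ℕ) :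
    (((range J).filter (fun j : ℕ => (j : ℝ) * c ≤ s ∧ s < ((j : ℝ) + 1) * c + G)).card : ℝ)
      ≤ G / c + 2 := by
  classical
  set W := (range J).filter (fun j : ℕ => (j : ℝ) * c ≤ s ∧ s < ((j : ℝ) + 1) * c + G) with hW
  rcases W.eq_empty_or_nonempty with h | h
  · rw [h]; simp; positivity
  · have hmin := W.min'_mem h
    have hmax := W.max'_mem h
    set a := W.min' h
    set b := W.max' h
    have ha : s < ((a : ℝ) + 1) * c + G := (Finset.mem_filter.1 hmin).2.2
    have hb : (b : ℝ) * c ≤ s := (Finset.mem_filter.1 hmax).2.1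
    have hab : a ≤ b := Finset.min'_le _ _ hmax
    have hsub : W ⊆ Finset.Icc a b := by
      intro x hx
      exact Finset.mem_Icc.2 ⟨Finset.min'_le _ _ hx, Finset.le_max' _ _ hx⟩
    have hcard : (W.card : ℝ) ≤ (b : ℝ) - a + 1 := by
      have h1 := Finset.card_le_card hsub
      rw [Nat.card_Icc] at h1
      have h2 : (W.card : ℝ) ≤ ((b + 1 - a : ℕ) : ℝ) := by exact_mod_cast h1
      rw [Nat.cast_sub (by omega)] at h2
      push_cast at h2
      linarith
    have h3 : ((b : ℝ) - a) * c ≤ c + G := by nlinarith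
    have h4 : (b : ℝ) - a ≤ G / c + 1 := by
      have : (b : ℝ) - a ≤ (c + G) / c := by
        rw [le_div_iff₀ hc]; exact h3
      calc (b : ℝ) - a ≤ (c + G) / c := this
        _ = G / c + 1 := by field_simp; ring
    linarith

/-- deterministic count: if `a k ≤ S k` for `k ≥ k0`, few windows are hit -/
lemma count_hit (c G a : ℝ) (hc : 0 < c) (hG : 0 ≤ G) (ha : 0 < a) (S : ℕ → ℝ) (k0 : ℕ)
    (hS : ∀ k, k0 ≤ k → a * k ≤ S k) (J : ℕ) (D : Finset ℕ) (hD : D ⊆ range J)
    (hit : ∀ j ∈ D, ∃ k : ℕ, (j : ℝ) * c ≤ S k ∧ S k < ((j : ℝ) + 1) * c + G) :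
    (D.card : ℝ) ≤ (G / c + 2) * (k0 + ((J : ℝ) * c + G) / a + 1) := by
  classical
  set K : ℕ := k0 + ⌈((J : ℝ) * c + G) / a⌉₊ with hK
  have hnn : 0 ≤ ((J : ℝ) * c + G) / a := by positivity
  have hsub : D ⊆ (range K).biUnion (fun k =>
      (range J).filter (fun j : ℕ => (j : ℝ) * c ≤ S k ∧ S k < ((j : ℝ) + 1) * c + G)) := by
    intro j hj
    obtain ⟨k, h1, h2⟩ := hit j hj
    have hjJ : j < J := Finset.mem_range.1 (hD hj)
    refine Finset.mem_biUnion.2 ⟨k, ?_, Finset.mem_filter.2 ⟨hD hj, h1, h2⟩⟩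
    rw [Finset.mem_range]
    by_contra hk
    push Not at hk
    have hk0 : k0 ≤ k := by omega
    have h3 := hS k hk0
    have h4 : (⌈((J : ℝ) * c + G) / a⌉₊ : ℝ) ≤ k := by
      have : ⌈((J : ℝ) * c + G) / a⌉₊ ≤ k := by omega
      exact_mod_cast this
    have h5 : ((J : ℝ) * c + G) / a ≤ k := le_trans (Nat.le_ceil _) h4
    rw [div_le_iff₀ ha] at h5
    have h6 : ((j : ℝ) + 1) ≤ J := by exact_mod_cast hjJ
    have h7 : ((j : ℝ) + 1) * c ≤ J * c := mul_le_mul_of_nonneg_right h6 hc.le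
    nlinarith
  have h1 : (D.card : ℝ) ≤ ∑ k ∈ range K,
      (((range J).filter (fun j : ℕ => (j : ℝ) * c ≤ S k ∧ S k < ((j : ℝ) + 1) * c + G)).card : ℝ) := by
    have := (Finset.card_le_card hsub).trans Finset.card_biUnion_le
    exact_mod_cast this
  have h2 : ∑ k ∈ range K,
      (((range J).filter (fun j : ℕ => (j : ℝ) * c ≤ S k ∧ S k < ((j : ℝ) + 1) * c + G)).card : ℝ)
      ≤ ∑ k ∈ range K, (G / c + 2) :=
    Finset.sum_le_sum (fun k _ => count_window c G hc hG (S k) J)
  rw [Finset.sum_const, Finset.card_range, nsmul_eq_mul] at h2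
  have h3 : (K : ℝ) ≤ k0 + ((J : ℝ) * c + G) / a + 1 := by
    rw [hK]; push_cast
    have := (Nat.ceil_lt_add_one hnn).le
    linarith
  have h4 : 0 ≤ G / c + 2 := by positivity
  calc (D.card : ℝ) ≤ K * (G / c + 2) := h1.trans h2
    _ ≤ (k0 + ((J : ℝ) * c + G) / a + 1) * (G / c + 2) := mul_le_mul_of_nonneg_right h3 h4
    _ = _ := by ring

variable {Ω : Type*} [MeasurableSpace Ω] {P : Measure Ω} [IsProbabilityMeasure P]

/-- Key estimate: linear growth at rate `a` forces `p ≤ (G+2c)/a`. -/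
theorem key (S : ℕ → Ω → ℝ) (c G p a : ℝ) (hc : 0 < c) (hG : 0 ≤ G) (ha : 0 < a)
    (B : ℕ → Set Ω) (hBm : ∀ j, MeasurableSet (B j)) (hBp : ∀ j, ENNReal.ofReal p ≤ P (B j))
    (hB : ∀ j, ∀ ω ∈ B j, ∃ k : ℕ, (j : ℝ) * c ≤ S k ω ∧ S k ω < ((j : ℝ) + 1) * c + G)
    (hS : ∀ᵐ ω ∂P, ∀ᶠ k : ℕ in atTop, a * k ≤ S k ω) :
    p ≤ (G + 2 * c) / a := by
  classical
  -- the fraction of hit windows
  let f : ℕ → Ω → ℝ := fun J ω => (∑ j ∈ range J, (B j).indicator (fun _ => (1 : ℝ)) ω) / J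
  have hfm : ∀ J, Measurable (f J) := by
    intro J
    refine Measurable.div_const ?_ _
    exact Finset.measurable_sum _ (fun j _ => measurable_const.indicator (hBm j))
  have hf0 : ∀ J ω, 0 ≤ f J ω := by
    intro J ω
    refine div_nonneg (Finset.sum_nonneg fun j _ => ?_) (Nat.cast_nonneg _)
    exact Set.indicator_nonneg (fun _ _ => zero_le_one) _
  have hf1 : ∀ J ω, f J ω ≤ 1 := by
    intro J ω
    refine div_le_one_of_le₀ ?_ (Nat.cast_nonneg _)
    calc ∑ j ∈ range J, (B j).indicator (fun _ => (1 : ℝ)) ω ≤ ∑ j ∈ range J, (1 : ℝ) := by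
          refine Finset.sum_le_sum fun j _ => ?_
          by_cases h : ω ∈ B j <;> simp [h]
      _ = J := by simp
  have hint : ∀ J, 1 ≤ J → p ≤ ∫ ω, f J ω ∂P := by
    intro J hJ
    have hJ' : (0 : ℝ) < J := by exact_mod_cast hJ
    have h1 : ∫ ω, f J ω ∂P = (∑ j ∈ range J, (P (B j)).toReal) / J := by
      simp only [f]
      rw [integral_div, integral_finsetSum]
      · congr 1
        refine Finset.sum_congr rfl fun j _ => ?_
        rw [integral_indicator (hBm j)]
        simp [Measure.real]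
      · intro j _
        exact (integrable_const (1 : ℝ)).indicator (hBm j)
    rw [h1, le_div_iff₀ hJ']
    have h2 : ∀ j ∈ range J, p ≤ (P (B j)).toReal := by
      intro j _
      rcases le_or_gt p 0 with hp | hp
      · exact hp.trans ENNReal.toReal_nonneg
      · exact (ENNReal.ofReal_le_iff_le_toReal (measure_ne_top _ _)).1 (hBp j)
    calc p * J = ∑ j ∈ range J, p := by simp; ring
      _ ≤ _ := Finset.sum_le_sum h2
  -- a.e. bound on the limsup, and conclusion by truncation at `C + ε`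
  by_contra hcon
  push Not at hcon
  set C := (G + 2 * c) / a with hCdef
  obtain ⟨e, he1, he2⟩ := exists_between hcon
  -- g J = max (f J) e - e → 0
  have hlim : ∀ᵐ ω ∂P, ∀ᶠ J : ℕ in atTop, f J ω ≤ e := by
    filter_upwards [hS] with ω hω
    obtain ⟨k0, hk0⟩ := eventually_atTop.1 hω
    have hbound : ∀ J : ℕ, 1 ≤ J → f J ω ≤ (G / c + 2) * (k0 + ((J : ℝ) * c + G) / a + 1) / J := by
      intro J hJ
      have hJ' : (0 : ℝ) < J := by exact_mod_cast hJ
      have h1 : ∑ j ∈ range J, (B j).indicator (fun _ => (1 : ℝ)) ω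
          = (((range J).filter (fun j => ω ∈ B j)).card : ℝ) := by
        rw [Finset.card_filter]
        push_cast
        refine Finset.sum_congr rfl fun j _ => ?_
        by_cases h : ω ∈ B j <;> simp [h]
      simp only [f]
      rw [h1]
      refine div_le_div_of_nonneg_right ?_ hJ'.le
      refine count_hit c G a hc hG ha (fun k => S k ω) k0 (fun k hk => hk0 k hk) J _
        (Finset.filter_subset _ _) ?_
      intro j hj
      exact hB j ω (Finset.mem_filter.1 hj).2
    have hten : Tendsto (fun J : ℕ => (G / c + 2) * (k0 + ((J : ℝ) * c + G) / a + 1) / J) atTop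
        (𝓝 C) := by
      have h1 : Tendsto (fun J : ℕ => ((G / c + 2) * (k0 + G / a + 1)) * (1 / (J : ℝ))
          + (G / c + 2) * (c / a)) atTop
          (𝓝 (((G / c + 2) * (k0 + G / a + 1)) * 0 + (G / c + 2) * (c / a))) :=
        (tendsto_one_div_atTop_nhds_zero_nat.const_mul _).add tendsto_const_nhds
      have h2 : ((G / c + 2) * (k0 + G / a + 1)) * 0 + (G / c + 2) * (c / a) = C := by
        rw [hCdef]; field_simp; ring
      rw [h2] at h1
      refine h1.congr' ?_
      filter_upwards [eventually_ge_atTop 1] with J hJ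
      have hJ' : (J : ℝ) ≠ 0 := by positivity
      field_simp
      ring
    have hev : ∀ᶠ J : ℕ in atTop, (G / c + 2) * (k0 + ((J : ℝ) * c + G) / a + 1) / J < e :=
      hten.eventually (gt_mem_nhds he1)
    filter_upwards [hev, eventually_ge_atTop 1] with J h1 h2
    exact (hbound J h2).trans h1.le
  have hg : Tendsto (fun J : ℕ => ∫ ω, (max (f J ω) e - e) ∂P) atTop (𝓝 (∫ _, (0 : ℝ) ∂P)) := by
    refine tendsto_integral_of_dominated_convergence (fun _ => 1 + |e|) ?_ (integrable_const _) ?_ ?_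
    · intro J
      exact (((hfm J).max measurable_const).sub measurable_const).aestronglyMeasurable
    · intro J
      refine Eventually.of_forall fun ω => ?_
      rw [Real.norm_eq_abs, abs_of_nonneg (by simp)]
      rcases le_total (f J ω) e with h | h
      · rw [max_eq_right h]; simp; positivity
      · rw [max_eq_left h]
        have := hf1 J ω
        have := neg_abs_le e
        linarith
    · filter_upwards [hlim] with ω hω
      refine tendsto_const_nhds.congr' ?_
      filter_upwards [hω] with J hJ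
      rw [max_eq_right hJ]; simp
  simp only [integral_zero] at hg
  have hlow : ∀ J : ℕ, 1 ≤ J → p - e ≤ ∫ ω, (max (f J ω) e - e) ∂P := by
    intro J hJ
    have hfi : Integrable (f J) P := by
      refine Integrable.of_bound (hfm J).aestronglyMeasurable 1 (Eventually.of_forall fun ω => ?_)
      rw [Real.norm_eq_abs, abs_of_nonneg (hf0 J ω)]; exact hf1 J ω
    have h1 : ∫ ω, (f J ω - e) ∂P ≤ ∫ ω, (max (f J ω) e - e) ∂P := by
      refine integral_mono (hfi.sub (integrable_const _)) ?_ ?_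
      · exact ((hfi.sup (integrable_const e)).sub (integrable_const _))
      · intro ω; simp
    rw [integral_sub hfi (integrable_const _)] at h1
    have h2 := hint J hJ
    simp at h1
    linarith
  have := ge_of_tendsto hg (eventually_atTop.2 ⟨1, hlow⟩)
  linarith

/-- truncated means are unbounded when not integrable -/
lemma exists_trunc (Y : Ω → ℝ) (hm : Measurable Y) (h0 : ∀ ω, 0 ≤ Y ω) (hni : ¬ Integrable Y P)
    (a : ℝ) : ∃ M : ℕ, a < ∫ ω, min (Y ω) M ∂P := by
  by_contra hcon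
  push Not at hcon
  apply hni
  have hmeas : ∀ M : ℕ, Measurable (fun ω => ENNReal.ofReal (min (Y ω) M)) :=
    fun M => (hm.min measurable_const).ennreal_ofReal
  have hmono : Monotone (fun M : ℕ => fun ω => ENNReal.ofReal (min (Y ω) M)) := by
    intro M N h ω
    refine ENNReal.ofReal_le_ofReal (min_le_min_left _ ?_)
    exact_mod_cast h
  have hsup : ∀ ω, ⨆ M : ℕ, ENNReal.ofReal (min (Y ω) M) = ENNReal.ofReal (Y ω) := by
    intro ω
    apply le_antisymm
    · exact iSup_le fun M => ENNReal.ofReal_le_ofReal (min_le_left _ _)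
    · obtain ⟨M, hM⟩ := exists_nat_ge (Y ω)
      refine le_trans ?_ (le_iSup _ M)
      rw [min_eq_left hM]
  have h1 : ∫⁻ ω, ENNReal.ofReal (Y ω) ∂P = ⨆ M : ℕ, ∫⁻ ω, ENNReal.ofReal (min (Y ω) M) ∂P := by
    rw [← lintegral_iSup hmeas hmono]
    exact lintegral_congr fun ω => (hsup ω).symm
  have h2 : ∀ M : ℕ, ∫⁻ ω, ENNReal.ofReal (min (Y ω) M) ∂P ≤ ENNReal.ofReal a := by
    intro M
    have hi : Integrable (fun ω => min (Y ω) M) P := by
      refine Integrable.of_bound (hm.min measurable_const).aestronglyMeasurable (M : ℝ)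
        (Eventually.of_forall fun ω => ?_)
      rw [Real.norm_eq_abs, abs_of_nonneg (le_min (h0 ω) (Nat.cast_nonneg _))]
      exact min_le_right _ _
    rw [← ofReal_integral_eq_lintegral_ofReal hi
      (Eventually.of_forall fun ω => le_min (h0 ω) (Nat.cast_nonneg _))]
    exact ENNReal.ofReal_le_ofReal (hcon M)
  have h3 : ∫⁻ ω, ENNReal.ofReal (Y ω) ∂P < ⊤ := by
    rw [h1]
    exact lt_of_le_of_lt (iSup_le h2) ENNReal.ofReal_lt_top
  refine ⟨hm.aestronglyMeasurable, ?_⟩
  rw [hasFiniteIntegral_iff_ofReal (Eventually.of_forall h0)]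
  exact h3

/-- Sequence growth: gaps with `E min(Y,M) > a` give `a k ≤ S k` eventually. -/
lemma growth (Y : ℕ → Ω → ℝ) (hm : ∀ i, Measurable (Y i)) (h0 : ∀ i ω, 0 ≤ Y i ω)
    (hindep : Pairwise (fun i j => IndepFun (Y i) (Y j) P))
    (hident : ∀ i, IdentDistrib (Y i) (Y 0) P P) (Z : Ω → ℝ) (hZ : ∀ ω, 0 ≤ Z ω)
    (a : ℝ) (M : ℕ) (hM : a < ∫ ω, min (Y 0 ω) M ∂P) :
    ∀ᵐ ω ∂P, ∀ᶠ k : ℕ in atTop, a * k ≤ Z ω + ∑ i ∈ range k, Y i ω := by
  let T : ℝ → ℝ := fun y => min y M
  have hT : Measurable T := measurable_id.min measurable_const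
  have hi : Integrable (fun ω => min (Y 0 ω) M) P := by
    refine Integrable.of_bound ((hm 0).min measurable_const).aestronglyMeasurable (M : ℝ)
      (Eventually.of_forall fun ω => ?_)
    rw [Real.norm_eq_abs, abs_of_nonneg (le_min (h0 0 ω) (Nat.cast_nonneg _))]
    exact min_le_right _ _
  have hslln := strong_law_ae_real (μ := P) (fun i ω => T (Y i ω)) hi
    (fun i j hij => (hindep hij).comp hT hT) (fun i => (hident i).comp hT)
  filter_upwards [hslln] with ω hω
  have hev := hω.eventually (lt_mem_nhds hM)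
  filter_upwards [hev, eventually_ge_atTop 1] with k hk hk1
  have hk' : (0 : ℝ) < k := by exact_mod_cast hk1
  rw [lt_div_iff₀ hk'] at hk
  have h1 : ∑ i ∈ range k, T (Y i ω) ≤ ∑ i ∈ range k, Y i ω :=
    Finset.sum_le_sum fun i _ => min_le_left _ _
  have := hZ ω
  linarith

/-- B1d abstract: integrability of the gaps. -/
theorem renew_integrable (Y : ℕ → Ω → ℝ) (hm : ∀ i, Measurable (Y i)) (h0 : ∀ i ω, 0 ≤ Y i ω)
    (hindep : Pairwise (fun i j => IndepFun (Y i) (Y j) P))
    (hident : ∀ i, IdentDistrib (Y i) (Y 0) P P) (Z : Ω → ℝ) (hZ : ∀ ω, 0 ≤ Z ω)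
    (c G p : ℝ) (hc : 0 < c) (hG : 0 ≤ G) (hp : 0 < p)
    (B : ℕ → Set Ω) (hBm : ∀ j, MeasurableSet (B j)) (hBp : ∀ j, ENNReal.ofReal p ≤ P (B j))
    (hB : ∀ j, ∀ ω ∈ B j, ∃ k : ℕ, (j : ℝ) * c ≤ Z ω + ∑ i ∈ range k, Y i ω ∧
      Z ω + ∑ i ∈ range k, Y i ω < ((j : ℝ) + 1) * c + G) :
    Integrable (Y 0) P := by
  by_contra hni
  obtain ⟨M, hM⟩ := exists_trunc (Y 0) (hm 0) (h0 0) hni ((G + 2 * c) / p + 1)
  have hpos : 0 < (G + 2 * c) / p + 1 := by positivity
  have h1 := key (fun k ω => Z ω + ∑ i ∈ range k, Y i ω) c G p ((G + 2 * c) / p + 1) hc hG hpos B hBm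
    hBp hB (growth Y hm h0 hindep hident Z hZ _ M hM)
  rw [le_div_iff₀ hpos] at h1
  have h2 : p * ((G + 2 * c) / p + 1) = G + 2 * c + p := by field_simp
  linarith

/-- B1d abstract: quantitative bound of the mean gap. -/
theorem renew_mean_le (Y : ℕ → Ω → ℝ) (hm : ∀ i, Measurable (Y i)) (h0 : ∀ i ω, 0 ≤ Y i ω)
    (hindep : Pairwise (fun i j => IndepFun (Y i) (Y j) P))
    (hident : ∀ i, IdentDistrib (Y i) (Y 0) P P) (Z : Ω → ℝ) (hZ : ∀ ω, 0 ≤ Z ω)
    (c G p : ℝ) (hc : 0 < c) (hG : 0 ≤ G) (hp : 0 < p)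
    (B : ℕ → Set Ω) (hBm : ∀ j, MeasurableSet (B j)) (hBp : ∀ j, ENNReal.ofReal p ≤ P (B j))
    (hB : ∀ j, ∀ ω ∈ B j, ∃ k : ℕ, (j : ℝ) * c ≤ Z ω + ∑ i ∈ range k, Y i ω ∧
      Z ω + ∑ i ∈ range k, Y i ω < ((j : ℝ) + 1) * c + G) :
    ∫ ω, Y 0 ω ∂P ≤ (G + 2 * c) / p := by
  by_contra hcon
  push Not at hcon
  have hint := renew_integrable Y hm h0 hindep hident Z hZ c G p hc hG hp B hBm hBp hB
  obtain ⟨a, ha1, ha2⟩ := exists_between hcon
  have hapos : 0 < a := lt_of_le_of_lt (by positivity) ha1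
  have hslln := strong_law_ae_real (μ := P) Y hint (fun i j hij => hindep hij) hident
  have hgr : ∀ᵐ ω ∂P, ∀ᶠ k : ℕ in atTop, a * k ≤ Z ω + ∑ i ∈ range k, Y i ω := by
    filter_upwards [hslln] with ω hω
    have hev := hω.eventually (lt_mem_nhds ha2)
    filter_upwards [hev, eventually_ge_atTop 1] with k hk hk1
    have hk' : (0 : ℝ) < k := by exact_mod_cast hk1
    rw [lt_div_iff₀ hk'] at hk
    have := hZ ω
    linarith
  have h1 := key (fun k ω => Z ω + ∑ i ∈ range k, Y i ω) c G p a hc hG hapos B hBm hBp hB hgr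
  rw [le_div_iff₀ hapos] at h1
  rw [div_lt_iff₀ hp] at ha1
  linarith

end Crest.Agent.R154.Renew157
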