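import Crest.Agent.R154.Resamp_9

/-!
# Row 154, helper9: the variance telescope of the quenched law, real form

* `E1 p h = ∑' y, (p y).toReal * h y` : expectation of a bounded real function under a sub-law;
* `cndR ν S f` : pointwise conditional expectation on the rows of `S` (bounded real functions, iid law);
* `Chain` : `p (k+1) = p k K k`, `p k` reads the rows of `S k`; `m k = E1 (p k) (v k)`, `v k` reads
  the rows of `S k`, `D k y = E1 (K k y) (v (k+1)) - v k y`;
* `telescope` : `∫ (m n - c)² ≤ ∑_k [ ∫ (E1 (p k) (D k))² + 4 ∫ E1 (p k) |cndR (S k) (D k ·)| ]` for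
  `m 0 = c`; `sq_pair` : `(E1 p D)² = E1 p (E1 p (D y D y'))`;
* `exitChain` : the chain of the exit kernels of increasing sets.
-/

set_option autoImplicit false
set_option linter.unusedVariables false
set_option linter.unusedSectionVars false

namespace Crest.Agent.R154.Resamp9

open MeasureTheory ProbabilityTheory Crest.ProbabilityR.RandomEnvironment Crest.Agent.R154
open Crest.Agent.R154.ExK9
open scoped ENNReal

variable {d : ℕ}

/-! ### bounded functions under a sub-law -/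

section E1
variable {ι : Type*} [Countable ι]

/-- expectation under a sub-law -/
noncomputable def E1 (p : ι → ℝ≥0∞) (h : ι → ℝ) : ℝ := ∑' y, (p y).toReal * h y

lemma summable_p {p : ι → ℝ≥0∞} (hp : ∑' y, p y ≤ 1) : Summable fun y => (p y).toReal :=
  ENNReal.summable_toReal (ne_top_of_le_ne_top ENNReal.one_ne_top hp)

lemma tsum_p_le {p : ι → ℝ≥0∞} (hp : ∑' y, p y ≤ 1) : ∑' y, (p y).toReal ≤ 1 := by
  have h0 : ∀ y, p y ≠ ∞ := fun y => ne_top_of_le_ne_top ENNReal.one_ne_top
    ((ENNReal.le_tsum y).trans hp)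
  rw [← ENNReal.tsum_toReal_eq h0]
  exact ENNReal.toReal_mono ENNReal.one_ne_top hp

lemma summable_E1 {p : ι → ℝ≥0∞} (hp : ∑' y, p y ≤ 1) {h : ι → ℝ} {C : ℝ} (hC : ∀ y, |h y| ≤ C) :
    Summable fun y => (p y).toReal * h y := by
  refine Summable.of_norm_bounded ((summable_p hp).mul_right C) fun y => ?_
  rw [Real.norm_eq_abs, abs_mul, abs_of_nonneg ENNReal.toReal_nonneg]
  exact mul_le_mul_of_nonneg_left (hC y) ENNReal.toReal_nonneg

lemma abs_E1_le {p : ι → ℝ≥0∞} (hp : ∑' y, p y ≤ 1) {h : ι → ℝ} {C : ℝ} (hC0 : 0 ≤ C)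
    (hC : ∀ y, |h y| ≤ C) : |E1 p h| ≤ C := by
  unfold E1
  have h1 : Summable fun y => ‖(p y).toReal * h y‖ := (summable_E1 hp hC).norm
  calc |∑' y, (p y).toReal * h y| ≤ ∑' y, ‖(p y).toReal * h y‖ := norm_tsum_le_tsum_norm h1
    _ ≤ ∑' y, (p y).toReal * C := by
        refine Summable.tsum_le_tsum (fun y => ?_) h1 ((summable_p hp).mul_right C)
        rw [Real.norm_eq_abs, abs_mul, abs_of_nonneg ENNReal.toReal_nonneg]
        exact mul_le_mul_of_nonneg_left (hC y) ENNReal.toReal_nonneg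
    _ = (∑' y, (p y).toReal) * C := tsum_mul_right
    _ ≤ 1 * C := mul_le_mul_of_nonneg_right (tsum_p_le hp) hC0
    _ = C := one_mul C

lemma E1_sub {p : ι → ℝ≥0∞} (hp : ∑' y, p y ≤ 1) {h g : ι → ℝ} {C : ℝ} (hC : ∀ y, |h y| ≤ C)
    (hC' : ∀ y, |g y| ≤ C) : E1 p h - E1 p g = E1 p fun y => h y - g y := by
  unfold E1
  rw [← Summable.tsum_sub (summable_E1 hp hC) (summable_E1 hp hC')]
  exact tsum_congr fun y => by ring

lemma E1_add {p : ι → ℝ≥0∞} (hp : ∑' y, p y ≤ 1) {h g : ι → ℝ} {C : ℝ} (hC : ∀ y, |h y| ≤ C)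
    (hC' : ∀ y, |g y| ≤ C) : E1 p h + E1 p g = E1 p fun y => h y + g y := by
  unfold E1
  rw [← Summable.tsum_add (summable_E1 hp hC) (summable_E1 hp hC')]
  exact tsum_congr fun y => by ring

lemma E1_mul_left (p : ι → ℝ≥0∞) (h : ι → ℝ) (c : ℝ) : c * E1 p h = E1 p fun y => c * h y := by
  unfold E1
  rw [← tsum_mul_left]
  exact tsum_congr fun y => by ring

lemma E1_mul_right (p : ι → ℝ≥0∞) (h : ι → ℝ) (c : ℝ) : E1 p h * c = E1 p fun y => h y * c := by
  unfold E1
  rw [← tsum_mul_right]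
  exact tsum_congr fun y => by ring

lemma E1_mono {p : ι → ℝ≥0∞} (hp : ∑' y, p y ≤ 1) {h g : ι → ℝ} {C : ℝ} (hC : ∀ y, |h y| ≤ C)
    (hC' : ∀ y, |g y| ≤ C) (hle : ∀ y, p y ≠ 0 → h y ≤ g y) : E1 p h ≤ E1 p g := by
  refine Summable.tsum_le_tsum (fun y => ?_) (summable_E1 hp hC) (summable_E1 hp hC')
  by_cases h0 : p y = 0
  · simp [h0]
  · exact mul_le_mul_of_nonneg_left (hle y h0) ENNReal.toReal_nonneg

lemma abs_E1_le_E1 {p : ι → ℝ≥0∞} (hp : ∑' y, p y ≤ 1) {h : ι → ℝ} {C : ℝ} (hC : ∀ y, |h y| ≤ C) :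
    |E1 p h| ≤ E1 p fun y => |h y| := by
  have h1 : Summable fun y => ‖(p y).toReal * h y‖ := (summable_E1 hp hC).norm
  have h2 := norm_tsum_le_tsum_norm h1
  refine h2.trans (le_of_eq (tsum_congr fun y => ?_))
  rw [Real.norm_eq_abs, abs_mul, abs_of_nonneg ENNReal.toReal_nonneg]

lemma E1_nonneg {p : ι → ℝ≥0∞} {h : ι → ℝ} (h0 : ∀ y, 0 ≤ h y) : 0 ≤ E1 p h :=
  tsum_nonneg fun y => mul_nonneg ENNReal.toReal_nonneg (h0 y)

/-- product of two expectations = expectation over the pair -/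
lemma E1_mul_E1 (p p' : ι → ℝ≥0∞) (h h' : ι → ℝ) :
    E1 p h * E1 p' h' = E1 p fun y => E1 p' fun y' => h y * h' y' := by
  rw [E1_mul_right]
  unfold E1
  refine tsum_congr fun y => ?_
  congr 1
  show h y * ∑' y', (p' y').toReal * h' y' = ∑' y', (p' y').toReal * (h y * h' y')
  rw [← tsum_mul_left]
  exact tsum_congr fun y' => by ring

theorem sq_pair (p : ι → ℝ≥0∞) (h : ι → ℝ) :
    E1 p h ^ 2 = E1 p fun y => E1 p fun y' => h y * h y' := by
  rw [sq, E1_mul_E1]

/-- push forward -/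
lemma E1_push {p p' : ι → ℝ≥0∞} {K : ι → ι → ℝ≥0∞} (hp : ∑' y, p y ≤ 1)
    (hK : ∀ y, ∑' z, K y z ≤ 1) (hpp : ∀ z, p' z = ∑' y, p y * K y z) {h : ι → ℝ} {C : ℝ}
    (hC : ∀ z, |h z| ≤ C) : E1 p' h = E1 p fun y => E1 (K y) h := by
  have hpt : ∀ y, p y ≠ ∞ := fun y => ne_top_of_le_ne_top ENNReal.one_ne_top
    ((ENNReal.le_tsum y).trans hp)
  have hKt : ∀ y z, K y z ≠ ∞ := fun y z => ne_top_of_le_ne_top ENNReal.one_ne_top
    ((ENNReal.le_tsum z).trans (hK y))
  have hp1 : ∑' z, p' z ≤ 1 := by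
    simp_rw [hpp]
    rw [ENNReal.tsum_comm]
    refine le_trans (ENNReal.tsum_le_tsum fun y => ?_) hp
    rw [ENNReal.tsum_mul_left]
    calc p y * ∑' z, K y z ≤ p y * 1 := by gcongr; exact hK y
      _ = p y := mul_one _
  have e1 : ∀ z, (p' z).toReal = ∑' y, (p y).toReal * (K y z).toReal := by
    intro z
    rw [hpp, ENNReal.tsum_toReal_eq fun y => ENNReal.mul_ne_top (hpt y) (hKt y z)]
    exact tsum_congr fun y => ENNReal.toReal_mul
  -- double summability
  have hs : Summable (Function.uncurry fun (y z : ι) => (p y).toReal * ((K y z).toReal * h z)) := by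
    rw [← summable_norm_iff]
    refine (summable_prod_of_nonneg fun q => norm_nonneg _).2 ⟨fun y => ?_, ?_⟩
    · exact ((summable_E1 (hK y) hC).mul_left ((p y).toReal)).norm
    · refine Summable.of_norm_bounded ((summable_p hp).mul_right C) fun y => ?_
      have hC0 : 0 ≤ C := (abs_nonneg _).trans (hC y)
      rw [Real.norm_eq_abs, abs_of_nonneg (tsum_nonneg fun z => norm_nonneg _)]
      have h1 : ∀ z, ‖Function.uncurry (fun (y z : ι) => (p y).toReal * ((K y z).toReal * h z))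
          (y, z)‖ ≤ (p y).toReal * ((K y z).toReal * C) := by
        intro z
        show ‖(p y).toReal * ((K y z).toReal * h z)‖ ≤ _
        rw [Real.norm_eq_abs, abs_mul, abs_mul, abs_of_nonneg ENNReal.toReal_nonneg,
          abs_of_nonneg ENNReal.toReal_nonneg]
        exact mul_le_mul_of_nonneg_left (mul_le_mul_of_nonneg_left (hC z) ENNReal.toReal_nonneg)
          ENNReal.toReal_nonneg
      have h2 : Summable fun z => (p y).toReal * ((K y z).toReal * C) :=
        ((summable_p (hK y)).mul_right C).mul_left _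
      refine (Summable.tsum_le_tsum h1 (Summable.of_nonneg_of_le (fun z => norm_nonneg _) h1 h2)
        h2).trans ?_
      rw [tsum_mul_left, tsum_mul_right]
      have h3 := tsum_p_le (hK y)
      calc (p y).toReal * ((∑' z, (K y z).toReal) * C) ≤ (p y).toReal * (1 * C) := by
            exact mul_le_mul_of_nonneg_left (mul_le_mul_of_nonneg_right h3 hC0)
              ENNReal.toReal_nonneg
        _ = _ := by rw [one_mul]
  unfold E1
  calc ∑' z, (p' z).toReal * h z = ∑' z, ∑' y, (p y).toReal * ((K y z).toReal * h z) := by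
        refine tsum_congr fun z => ?_
        rw [e1, ← tsum_mul_right]
        exact tsum_congr fun y => by ring
    _ = ∑' y, ∑' z, (p y).toReal * ((K y z).toReal * h z) := hs.tsum_comm
    _ = _ := tsum_congr fun y => tsum_mul_left

end E1

/-! ### real conditional expectation -/

section cndR
variable (ν : Measure (Row d)) [IsProbabilityMeasure ν]

lemma intg {Q : Measure (Environment d)} [IsFiniteMeasure Q] {f : Environment d → ℝ}
    (hf : Measurable f) {C : ℝ} (hC : ∀ ω, |f ω| ≤ C) : Integrable f Q :=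
  Integrable.of_bound (C := C) hf.aestronglyMeasurable
    (Filter.Eventually.of_forall fun ω => by rw [Real.norm_eq_abs]; exact hC ω)

/-- Fubini for gluing, real form -/
theorem int_glue (S : Set (Site d)) {f : Environment d → ℝ} (hf : Measurable f) {C : ℝ}
    (hC : ∀ ω, |f ω| ≤ C) :
    ∫ ω, f ω ∂(iidEnvironmentLaw ν) =
      ∫ ω, ∫ ω', f (glue S ω ω') ∂(iidEnvironmentLaw ν) ∂(iidEnvironmentLaw ν) := by
  conv_lhs => rw [← map_glue ν S]
  rw [integral_map (measurable_glue S).aemeasurable hf.aestronglyMeasurable]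
  refine integral_prod (fun p : Environment d × Environment d => f (glue S p.1 p.2)) ?_
  exact Integrable.of_bound (C := C) (hf.comp (measurable_glue S)).aestronglyMeasurable
    (Filter.Eventually.of_forall fun p => by rw [Real.norm_eq_abs]; exact hC _)

/-- **pointwise conditional expectation on the rows of `S`**, real form -/
noncomputable def cndR (S : Set (Site d)) (f : Environment d → ℝ) (ω : Environment d) : ℝ :=
  ∫ ω', f (glue S ω ω') ∂(iidEnvironmentLaw ν)

variable {ν}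

lemma meas_cndR (S : Set (Site d)) {f : Environment d → ℝ} (hf : Measurable f) :
    Measurable (cndR ν S f) := by
  have h : StronglyMeasurable (fun p : Environment d × Environment d => f (glue S p.1 p.2)) :=
    (hf.comp (measurable_glue S)).stronglyMeasurable
  exact h.integral_prod_right.measurable

lemma locOn_cndR (S : Set (Site d)) (f : Environment d → ℝ) : Q561.LocOn S (cndR ν S f) := by
  intro ω₁ ω₂ h
  unfold cndR
  simp only [glue_congr h]

lemma abs_cndR_le (S : Set (Site d)) {f : Environment d → ℝ} {C : ℝ} (hC : ∀ ω, |f ω| ≤ C)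
    (ω : Environment d) : |cndR ν S f ω| ≤ C := by
  have h := norm_integral_le_of_norm_le_const (μ := iidEnvironmentLaw ν)
    (f := fun ω' => f (glue S ω ω')) (C := C)
    (Filter.Eventually.of_forall fun ω' => by rw [Real.norm_eq_abs]; exact hC _)
  unfold cndR
  rw [← Real.norm_eq_abs]
  simpa using h

lemma cndR_of_loc {S : Set (Site d)} {f : Environment d → ℝ} (hf : Q561.LocOn S f)
    (ω : Environment d) : cndR ν S f ω = f ω := by
  unfold cndR
  simp only [loc_glue hf]
  simp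

lemma cndR_const (S : Set (Site d)) (c : ℝ) (ω : Environment d) :
    cndR ν S (fun _ => c) ω = c := by simp [cndR]

lemma cndR_pull {S : Set (Site d)} {w f : Environment d → ℝ} (hw : Q561.LocOn S w)
    (ω : Environment d) : cndR ν S (fun ω => w ω * f ω) ω = w ω * cndR ν S f ω := by
  unfold cndR
  simp only [loc_glue hw]
  exact integral_const_mul _ _

lemma cndR_sub (S : Set (Site d)) {f g : Environment d → ℝ} (hf : Measurable f)
    (hg : Measurable g) {C : ℝ} (hC : ∀ ω, |f ω| ≤ C) (hC' : ∀ ω, |g ω| ≤ C) (ω : Environment d) :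
    cndR ν S (fun ω => f ω - g ω) ω = cndR ν S f ω - cndR ν S g ω :=
  integral_sub (intg (hf.comp (measurable_glue_right S ω)) fun _ => hC _)
    (intg (hg.comp (measurable_glue_right S ω)) fun _ => hC' _)

lemma cndR_add (S : Set (Site d)) {f g : Environment d → ℝ} (hf : Measurable f)
    (hg : Measurable g) {C : ℝ} (hC : ∀ ω, |f ω| ≤ C) (hC' : ∀ ω, |g ω| ≤ C) (ω : Environment d) :
    cndR ν S (fun ω => f ω + g ω) ω = cndR ν S f ω + cndR ν S g ω :=
  integral_add (intg (hf.comp (measurable_glue_right S ω)) fun _ => hC _)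
    (intg (hg.comp (measurable_glue_right S ω)) fun _ => hC' _)

lemma cndR_mono (S : Set (Site d)) {f g : Environment d → ℝ} (hf : Measurable f)
    (hg : Measurable g) {C : ℝ} (hC : ∀ ω, |f ω| ≤ C) (hC' : ∀ ω, |g ω| ≤ C)
    (h : ∀ ω, f ω ≤ g ω) (ω : Environment d) : cndR ν S f ω ≤ cndR ν S g ω :=
  integral_mono (intg (hf.comp (measurable_glue_right S ω)) fun _ => hC _)
    (intg (hg.comp (measurable_glue_right S ω)) fun _ => hC' _) fun ω' => h _

/-- tower property, pointwise -/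
theorem cndR_tower {S T : Set (Site d)} (h : S ⊆ T) {f : Environment d → ℝ}
    (hf : Measurable f) {C : ℝ} (hC : ∀ ω, |f ω| ≤ C) (ω : Environment d) :
    cndR ν S (cndR ν T f) ω = cndR ν S f ω := by
  unfold cndR
  simp only [glue_glue h]
  exact (int_glue ν T (f := fun ω'' => f (glue S ω ω''))
    (hf.comp (measurable_glue_right S ω)) fun _ => hC _).symm

/-- averaging against the past -/
theorem int_cndR {S : Set (Site d)} {w f : Environment d → ℝ} (hw : Q561.LocOn S w)
    (hwm : Measurable w) (hf : Measurable f) {C C' : ℝ} (hC' : ∀ ω, |w ω| ≤ C')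
    (hC : ∀ ω, |f ω| ≤ C) :
    ∫ ω, w ω * cndR ν S f ω ∂(iidEnvironmentLaw ν) = ∫ ω, w ω * f ω ∂(iidEnvironmentLaw ν) := by
  rw [int_glue ν S (f := fun ω => w ω * f ω) (hwm.mul hf) (C := C' * C) fun ω => by
    rw [abs_mul]
    exact mul_le_mul (hC' ω) (hC ω) (abs_nonneg _) ((abs_nonneg _).trans (hC' ω))]
  refine integral_congr_ae (Filter.Eventually.of_forall fun ω => ?_)
  exact (cndR_pull hw ω).symm

theorem int_cndR_one {S : Set (Site d)} {f : Environment d → ℝ} (hf : Measurable f) {C : ℝ}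
    (hC : ∀ ω, |f ω| ≤ C) :
    ∫ ω, cndR ν S f ω ∂(iidEnvironmentLaw ν) = ∫ ω, f ω ∂(iidEnvironmentLaw ν) := by
  have := int_cndR (S := S) (w := fun _ => 1) (ν := ν) (fun _ _ _ => rfl) measurable_const hf
    (C' := 1) (fun _ => by simp) hC
  simpa using this

/-- functions of disjoint rows -/
theorem cndR_of_disj {S T : Set (Site d)} (h : Disjoint S T) {f : Environment d → ℝ}
    (hf : Q561.LocOn T f) (ω : Environment d) :
    cndR ν S f ω = ∫ ω', f ω' ∂(iidEnvironmentLaw ν) := by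
  unfold cndR
  refine integral_congr_ae (Filter.Eventually.of_forall fun ω' => hf _ _ fun z hz => ?_)
  exact glue_notMem _ _ fun hS => Set.disjoint_left.1 h hS hz

/-- the two forms agree -/
theorem cndR_toReal (S : Set (Site d)) {f : Environment d → ℝ≥0∞} (hf : Measurable f)
    (h1 : ∀ ω, f ω ≤ 1) (ω : Environment d) :
    cndR ν S (fun ω => (f ω).toReal) ω = (cnd ν S f ω).toReal := by
  unfold cndR cnd
  exact integral_toReal (hf.comp (measurable_glue_right S ω)).aemeasurable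
    (Filter.Eventually.of_forall fun ω' => lt_of_le_of_lt (h1 _) ENNReal.one_lt_top)

/-- expectation under a random sub-law -/
lemma meas_E1 {p : Environment d → Site d → ℝ≥0∞} {h : Environment d → Site d → ℝ}
    (hp : ∀ y, Measurable fun ω => p ω y) (hh : ∀ y, Measurable fun ω => h ω y) :
    Measurable fun ω => E1 (p ω) (h ω) :=
  Measurable.tsum fun y => ((hp y).ennreal_toReal).mul (hh y)

/-- conditional expectation of an expectation under a sub-law of the past -/
theorem cndR_E1 {S : Set (Site d)} {p : Environment d → Site d → ℝ≥0∞}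
    {h : Environment d → Site d → ℝ} (hp : ∀ y, Q561.LocOn S fun ω => p ω y)
    (hp1 : ∀ ω, ∑' y, p ω y ≤ 1) (hh : ∀ y, Measurable fun ω => h ω y) {C : ℝ}
    (hC : ∀ ω y, |h ω y| ≤ C) (ω : Environment d) :
    cndR ν S (fun ω => E1 (p ω) (h ω)) ω =
      E1 (p ω) fun y => cndR ν S (fun ω => h ω y) ω := by
  unfold cndR E1
  have e : ∀ ω', ∑' y, (p (glue S ω ω') y).toReal * h (glue S ω ω') y =
      ∑' y, (p ω y).toReal * h (glue S ω ω') y := by
    intro ω'
    refine tsum_congr fun y => ?_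
    have h1 : p (glue S ω ω') y = p ω y := loc_glue (hp y) ω ω'
    rw [h1]
  simp_rw [e]
  have hC0 : 0 ≤ C := (abs_nonneg _).trans (hC ω 0)
  rw [integral_tsum]
  · exact tsum_congr fun y => integral_const_mul _ _
  · intro y
    exact (((hh y).comp (measurable_glue_right S ω)).const_mul _).aestronglyMeasurable
  · have hb : ∀ y, ∫⁻ ω', ‖(p ω y).toReal * h (glue S ω ω') y‖ₑ ∂(iidEnvironmentLaw ν) ≤
        p ω y * ENNReal.ofReal C := by
      intro y
      have hpt : p ω y ≠ ∞ := ne_top_of_le_ne_top ENNReal.one_ne_top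
        ((ENNReal.le_tsum y).trans (hp1 ω))
      calc ∫⁻ ω', ‖(p ω y).toReal * h (glue S ω ω') y‖ₑ ∂(iidEnvironmentLaw ν)
          ≤ ∫⁻ _, p ω y * ENNReal.ofReal C ∂(iidEnvironmentLaw ν) := by
            refine lintegral_mono fun ω' => ?_
            rw [enorm_mul]
            gcongr
            · rw [Real.enorm_eq_ofReal ENNReal.toReal_nonneg, ENNReal.ofReal_toReal hpt]
            · rw [← ofReal_norm]
              exact ENNReal.ofReal_le_ofReal (by rw [Real.norm_eq_abs]; exact hC _ y)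
        _ = _ := by simp
    refine ne_top_of_le_ne_top ?_ (ENNReal.tsum_le_tsum hb)
    rw [ENNReal.tsum_mul_right]
    exact ENNReal.mul_ne_top (ne_top_of_le_ne_top ENNReal.one_ne_top (hp1 ω)) ENNReal.ofReal_ne_top

end cndR

/-! ### chains of kernels and the variance telescope -/

/-- a chain of random kernels, `p k` = quenched law at time `k`, `v k` = test functions -/
structure Chain (n : ℕ) (S : ℕ → Set (Site d)) (p : ℕ → Environment d → Site d → ℝ≥0∞)
    (K : ℕ → Environment d → Site d → Site d → ℝ≥0∞) (v : ℕ → Environment d → Site d → ℝ) :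
    Prop where
  pm : ∀ k y, Measurable fun ω => p k ω y
  pl : ∀ k y, Q561.LocOn (S k) fun ω => p k ω y
  p1 : ∀ k ω, ∑' y, p k ω y ≤ 1
  Km : ∀ k y z, Measurable fun ω => K k ω y z
  K1 : ∀ k ω y, ∑' z, K k ω y z ≤ 1
  push : ∀ k < n, ∀ ω z, p (k + 1) ω z = ∑' y, p k ω y * K k ω y z
  vm : ∀ k y, Measurable fun ω => v k ω y
  vl : ∀ k y, Q561.LocOn (S k) fun ω => v k ω y
  v1 : ∀ k ω y, |v k ω y| ≤ 1

section tele
variable {ν : Measure (Row d)} [IsProbabilityMeasure ν] {n : ℕ} {S : ℕ → Set (Site d)}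
  {p : ℕ → Environment d → Site d → ℝ≥0∞}
  {K : ℕ → Environment d → Site d → Site d → ℝ≥0∞} {v : ℕ → Environment d → Site d → ℝ}

/-- the quenched mean -/
noncomputable def mm (p : ℕ → Environment d → Site d → ℝ≥0∞)
    (v : ℕ → Environment d → Site d → ℝ) (k : ℕ) (ω : Environment d) : ℝ := E1 (p k ω) (v k ω)

/-- the increment from `y` -/
noncomputable def DD (K : ℕ → Environment d → Site d → Site d → ℝ≥0∞)
    (v : ℕ → Environment d → Site d → ℝ) (k : ℕ) (ω : Environment d) (y : Site d) : ℝ :=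
  E1 (K k ω y) (v (k + 1) ω) - v k ω y

variable (h : Chain n S p K v)
include h

lemma Chain.DD_le (k : ℕ) (ω : Environment d) (y : Site d) : |DD K v k ω y| ≤ 2 := by
  have h1 := abs_E1_le (h.K1 k ω y) zero_le_one (h.v1 (k + 1) ω)
  have h2 := h.v1 k ω y
  have h3 := abs_sub (E1 (K k ω y) (v (k + 1) ω)) (v k ω y)
  unfold DD
  linarith

lemma Chain.mm_le (k : ℕ) (ω : Environment d) : |mm p v k ω| ≤ 1 :=
  abs_E1_le (h.p1 k ω) zero_le_one (h.v1 k ω)

lemma Chain.meas_mm (k : ℕ) : Measurable (mm p v k) := meas_E1 (h.pm k) (h.vm k)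

lemma Chain.meas_DD (k : ℕ) (y : Site d) : Measurable fun ω => DD K v k ω y :=
  (meas_E1 (h.Km k y) (h.vm (k + 1))).sub (h.vm k y)

lemma Chain.loc_mm (k : ℕ) : Q561.LocOn (S k) (mm p v k) := by
  intro ω₁ ω₂ hω
  unfold mm E1
  refine tsum_congr fun y => ?_
  have h1 : p k ω₁ y = p k ω₂ y := h.pl k y ω₁ ω₂ hω
  have h2 : v k ω₁ y = v k ω₂ y := h.vl k y ω₁ ω₂ hω
  rw [h1, h2]

/-- increments of the quenched mean -/
theorem Chain.incr {k : ℕ} (hk : k < n) (ω : Environment d) :
    mm p v (k + 1) ω - mm p v k ω = E1 (p k ω) (DD K v k ω) := by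
  have h1 : mm p v (k + 1) ω = E1 (p k ω) fun y => E1 (K k ω y) (v (k + 1) ω) :=
    E1_push (h.p1 k ω) (h.K1 k ω) (h.push k hk ω) (h.v1 (k + 1) ω)
  rw [h1]
  exact E1_sub (h.p1 k ω) (C := 1)
    (fun y => abs_E1_le (h.K1 k ω y) zero_le_one (h.v1 (k + 1) ω)) (h.v1 k ω)

/-- the error of the test functions -/
noncomputable def Err (ν : Measure (Row d)) (S : ℕ → Set (Site d))
    (p : ℕ → Environment d → Site d → ℝ≥0∞)
    (K : ℕ → Environment d → Site d → Site d → ℝ≥0∞) (v : ℕ → Environment d → Site d → ℝ)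
    (k : ℕ) : ℝ :=
  ∫ ω, E1 (p k ω) (fun y => |cndR ν (S k) (fun ω => DD K v k ω y) ω|) ∂(iidEnvironmentLaw ν)

/-- the pair term -/
noncomputable def Pr (ν : Measure (Row d)) (p : ℕ → Environment d → Site d → ℝ≥0∞)
    (K : ℕ → Environment d → Site d → Site d → ℝ≥0∞) (v : ℕ → Environment d → Site d → ℝ)
    (k : ℕ) : ℝ := ∫ ω, E1 (p k ω) (DD K v k ω) ^ 2 ∂(iidEnvironmentLaw ν)

/-- a bounded function of the past against an increment -/
theorem Chain.past_incr {k : ℕ} {w : Environment d → ℝ} (hw : Q561.LocOn (S k) w)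
    (hwm : Measurable w) (hw1 : ∀ ω, |w ω| ≤ 1) :
    |∫ ω, w ω * E1 (p k ω) (DD K v k ω) ∂(iidEnvironmentLaw ν)| ≤ Err ν S p K v k := by
  have hmE : Measurable fun ω => E1 (p k ω) (DD K v k ω) := meas_E1 (h.pm k) (h.meas_DD k)
  have hbE : ∀ ω, |E1 (p k ω) (DD K v k ω)| ≤ 2 := fun ω =>
    abs_E1_le (h.p1 k ω) zero_le_two (h.DD_le k ω)
  rw [← int_cndR hw hwm hmE hw1 hbE]
  have e : ∀ ω, cndR ν (S k) (fun ω => E1 (p k ω) (DD K v k ω)) ω =
      E1 (p k ω) fun y => cndR ν (S k) (fun ω => DD K v k ω y) ω := fun ω =>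
    cndR_E1 (h.pl k) (h.p1 k) (h.meas_DD k) (h.DD_le k) ω
  have hc : ∀ ω y, |cndR ν (S k) (fun ω => DD K v k ω y) ω| ≤ 2 := fun ω y =>
    abs_cndR_le (S k) (fun ω => h.DD_le k ω y) ω
  have hcm : ∀ y, Measurable fun ω => cndR ν (S k) (fun ω => DD K v k ω y) ω := fun y =>
    meas_cndR (S k) (h.meas_DD k y)
  have i1 : Integrable (fun ω => E1 (p k ω)
      (fun y => |cndR ν (S k) (fun ω => DD K v k ω y) ω|)) (iidEnvironmentLaw ν) :=
    intg (meas_E1 (h.pm k) fun y => (hcm y).abs) (C := 2) fun ω =>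
      abs_E1_le (h.p1 k ω) zero_le_two fun y => by rw [abs_abs]; exact hc ω y
  calc |∫ ω, w ω * cndR ν (S k) (fun ω => E1 (p k ω) (DD K v k ω)) ω ∂(iidEnvironmentLaw ν)|
      ≤ ∫ ω, |w ω * cndR ν (S k) (fun ω => E1 (p k ω) (DD K v k ω)) ω|
        ∂(iidEnvironmentLaw ν) := abs_integral_le_integral_abs
    _ ≤ _ := by
        refine integral_mono_of_nonneg (Filter.Eventually.of_forall fun ω => abs_nonneg _) i1
          (Filter.Eventually.of_forall fun ω => ?_)
        show |w ω * cndR ν (S k) (fun ω => E1 (p k ω) (DD K v k ω)) ω| ≤ _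
        rw [abs_mul, e]
        have h1 := abs_E1_le_E1 (h.p1 k ω) (hc ω)
        calc |w ω| * |E1 (p k ω) fun y => cndR ν (S k) (fun ω => DD K v k ω y) ω|
            ≤ 1 * |E1 (p k ω) fun y => cndR ν (S k) (fun ω => DD K v k ω y) ω| :=
              mul_le_mul_of_nonneg_right (hw1 ω) (abs_nonneg _)
          _ ≤ _ := by rw [one_mul]; exact h1

/-- first moments -/
theorem Chain.mean_step {k : ℕ} (hk : k < n) :
    |∫ ω, mm p v (k + 1) ω ∂(iidEnvironmentLaw ν) - ∫ ω, mm p v k ω ∂(iidEnvironmentLaw ν)| ≤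
      Err ν S p K v k := by
  have h1 := h.past_incr (ν := ν) (k := k) (w := fun _ => 1) (fun _ _ _ => rfl) measurable_const
    (fun _ => by simp)
  rw [← integral_sub (intg (h.meas_mm (k + 1)) (h.mm_le (k + 1))) (intg (h.meas_mm k) (h.mm_le k))]
  have e : ∀ ω, mm p v (k + 1) ω - mm p v k ω = 1 * E1 (p k ω) (DD K v k ω) := fun ω => by
    rw [one_mul]; exact h.incr hk ω
  simp_rw [e]
  exact h1

/-- second moments -/
theorem Chain.sq_step {k : ℕ} (hk : k < n) :
    ∫ ω, mm p v (k + 1) ω ^ 2 ∂(iidEnvironmentLaw ν) ≤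
      ∫ ω, mm p v k ω ^ 2 ∂(iidEnvironmentLaw ν) + Pr ν p K v k + 2 * Err ν S p K v k := by
  have h1 := h.past_incr (ν := ν) (k := k) (w := mm p v k) (h.loc_mm k) (h.meas_mm k) (h.mm_le k)
  have hmE : Measurable fun ω => E1 (p k ω) (DD K v k ω) := meas_E1 (h.pm k) (h.meas_DD k)
  have hbE : ∀ ω, |E1 (p k ω) (DD K v k ω)| ≤ 2 := fun ω =>
    abs_E1_le (h.p1 k ω) zero_le_two (h.DD_le k ω)
  have e : ∀ ω, mm p v (k + 1) ω ^ 2 = (mm p v k ω ^ 2 + E1 (p k ω) (DD K v k ω) ^ 2) +
      2 * (mm p v k ω * E1 (p k ω) (DD K v k ω)) := fun ω => by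
    have := h.incr hk ω
    have h2 : mm p v (k + 1) ω = mm p v k ω + E1 (p k ω) (DD K v k ω) := by linarith
    rw [h2]; ring
  have i1 : Integrable (fun ω => mm p v k ω ^ 2) (iidEnvironmentLaw ν) :=
    intg ((h.meas_mm k).pow_const 2) (C := 1) fun ω => by
      rw [abs_pow]; exact pow_le_one₀ (abs_nonneg _) (h.mm_le k ω)
  have i2 : Integrable (fun ω => E1 (p k ω) (DD K v k ω) ^ 2) (iidEnvironmentLaw ν) :=
    intg (hmE.pow_const 2) (C := 4) fun ω => by
      rw [abs_pow]
      have := pow_le_pow_left₀ (abs_nonneg _) (hbE ω) 2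
      linarith
  have i3 : Integrable (fun ω => 2 * (mm p v k ω * E1 (p k ω) (DD K v k ω)))
      (iidEnvironmentLaw ν) :=
    intg (((h.meas_mm k).mul hmE).const_mul 2) (C := 4) fun ω => by
      rw [abs_mul, abs_mul, abs_two]
      have a1 := h.mm_le k ω
      have a2 := hbE ω
      have a3 := mul_le_mul a1 a2 (abs_nonneg _) zero_le_one
      linarith
  simp_rw [e]
  have i12 : Integrable (fun ω => mm p v k ω ^ 2 + E1 (p k ω) (DD K v k ω) ^ 2)
      (iidEnvironmentLaw ν) := i1.add i2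
  rw [integral_add i12 i3, integral_add i1 i2, integral_const_mul]
  have h2 := (abs_le.1 h1).2
  unfold Pr
  linarith

/-- **the variance telescope** -/
theorem Chain.telescope {c : ℝ} (hc : ∀ ω, mm p v 0 ω = c) (hc1 : |c| ≤ 1) {k : ℕ} (hk : k ≤ n) :
    ∫ ω, (mm p v k ω - c) ^ 2 ∂(iidEnvironmentLaw ν) ≤
      ∑ j ∈ Finset.range k, (Pr ν p K v j + 4 * Err ν S p K v j) := by
  have h1 : ∀ k ≤ n, |∫ ω, mm p v k ω ∂(iidEnvironmentLaw ν) - c| ≤
      ∑ j ∈ Finset.range k, Err ν S p K v j := by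
    intro k
    induction k with
    | zero => intro _; simp [hc]
    | succ k ih =>
      intro hk
      have a1 := ih (by omega)
      have a2 := h.mean_step (ν := ν) (k := k) (by omega)
      rw [Finset.sum_range_succ]
      have a3 := abs_add_le (∫ ω, mm p v (k + 1) ω ∂(iidEnvironmentLaw ν) -
        ∫ ω, mm p v k ω ∂(iidEnvironmentLaw ν)) (∫ ω, mm p v k ω ∂(iidEnvironmentLaw ν) - c)
      have a4 : ∫ ω, mm p v (k + 1) ω ∂(iidEnvironmentLaw ν) -
        ∫ ω, mm p v k ω ∂(iidEnvironmentLaw ν) + (∫ ω, mm p v k ω ∂(iidEnvironmentLaw ν) - c) =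
        ∫ ω, mm p v (k + 1) ω ∂(iidEnvironmentLaw ν) - c := by ring
      rw [a4] at a3
      linarith
  have h2 : ∀ k ≤ n, ∫ ω, mm p v k ω ^ 2 ∂(iidEnvironmentLaw ν) ≤
      c ^ 2 + ∑ j ∈ Finset.range k, (Pr ν p K v j + 2 * Err ν S p K v j) := by
    intro k
    induction k with
    | zero => intro _; simp [hc]
    | succ k ih =>
      intro hk
      have a1 := ih (by omega)
      have a2 := h.sq_step (ν := ν) (k := k) (by omega)
      rw [Finset.sum_range_succ]
      linarith
  have i1 : Integrable (fun ω => mm p v k ω ^ 2) (iidEnvironmentLaw ν) :=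
    intg ((h.meas_mm k).pow_const 2) (C := 1) fun ω => by
      rw [abs_pow]; exact pow_le_one₀ (abs_nonneg _) (h.mm_le k ω)
  have i2 : Integrable (fun ω => 2 * c * mm p v k ω) (iidEnvironmentLaw ν) :=
    (intg (h.meas_mm k) (h.mm_le k)).const_mul _
  have e : ∀ ω, (mm p v k ω - c) ^ 2 = mm p v k ω ^ 2 - 2 * c * mm p v k ω + c ^ 2 :=
    fun ω => by ring
  simp_rw [e]
  have i12 : Integrable (fun ω => mm p v k ω ^ 2 - 2 * c * mm p v k ω)
      (iidEnvironmentLaw ν) := i1.sub i2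
  rw [integral_add i12 (integrable_const _), integral_sub i1 i2, integral_const_mul]
  have a1 := h1 k hk
  have a2 := h2 k hk
  set m := ∫ ω, mm p v k ω ∂(iidEnvironmentLaw ν) with hm
  have a3 : |2 * c * (m - c)| ≤ 2 * ∑ j ∈ Finset.range k, Err ν S p K v j := by
    rw [abs_mul, abs_mul, abs_two]
    have := mul_le_mul hc1 a1 (abs_nonneg _) zero_le_one
    linarith
  have a4 := (abs_le.1 a3).1
  have a5 : ∑ j ∈ Finset.range k, (Pr ν p K v j + 4 * Err ν S p K v j) =
      ∑ j ∈ Finset.range k, (Pr ν p K v j + 2 * Err ν S p K v j) +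
        2 * ∑ j ∈ Finset.range k, Err ν S p K v j := by
    rw [Finset.mul_sum, ← Finset.sum_add_distrib]
    exact Finset.sum_congr rfl fun j _ => by ring
  have a6 : ∫ _ : Environment d, c ^ 2 ∂(iidEnvironmentLaw ν) = c ^ 2 := by simp
  rw [a5, a6]
  nlinarith

end tele

/-! ### the exit chain -/

/-- the chain of the exit kernels of increasing sets, from `x ∉ A 0` (then `p 0 = δ_x`) -/
theorem exitChain {A : ℕ → Set (Site d)} (hA : Monotone A) (n : ℕ) (x : Site d)
    {v : ℕ → Environment d → Site d → ℝ} (vm : ∀ k y, Measurable fun ω => v k ω y)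
    (vl : ∀ k y, Q561.LocOn (A k) fun ω => v k ω y) (v1 : ∀ k ω y, |v k ω y| ≤ 1) :
    Chain n A (fun k ω => EK ω (A k) x) (fun k ω => EK ω (A (k + 1))) v where
  pm k y := meas_EK (A k) x y
  pl k y := locOn_EK (A k) x y
  p1 k ω := tsum_EK_le ω (A k) x
  Km k y z := meas_EK (A (k + 1)) y z
  K1 k ω y := tsum_EK_le ω (A (k + 1)) y
  push k _ ω z := EK_comp ω (hA (Nat.le_succ k)) x z
  vm := vm
  vl := vl
  v1 := v1

lemma mm_zero {A : ℕ → Set (Site d)} {x : Site d} (hx : x ∉ A 0)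
    (v : ℕ → Environment d → Site d → ℝ) (ω : Environment d) :
    mm (fun k ω => EK ω (A k) x) v 0 ω = v 0 ω x := by
  unfold mm E1
  rw [tsum_eq_single x]
  · show (EK ω (A 0) x x).toReal * v 0 ω x = v 0 ω x
    rw [EK_notMem ω hx, Set.indicator_of_mem (Set.mem_singleton x), ENNReal.toReal_one, one_mul]
  · intro y hy
    show (EK ω (A 0) x y).toReal * v 0 ω y = 0
    rw [EK_notMem ω hx, Set.indicator_of_notMem fun h => hy (Set.mem_singleton_iff.1 h),
      ENNReal.toReal_zero, zero_mul]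

end Crest.Agent.R154.Resamp9
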