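import Crest.Agent.R154.ResidA_509

/-!
# Row 154, helper509: hitting positions of levels do not move much on a bounded number of levels
-/

set_option autoImplicit false
set_option linter.unusedVariables false
set_option linter.unusedSectionVars false

namespace Crest.Agent.R154.Resid509

open MeasureTheory ProbabilityTheory Crest.ProbabilityR.RandomEnvironment Crest.Agent.R154
open Crest.Agent.R154.ExK9 Crest.Agent.R154.Resamp9
open scoped ENNReal

variable {d : ℕ} (ℓ : Site d → ℤ)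

/-- position at the first visit of the level `L` (`X 0` if the level is never reached) -/
noncomputable def hp (L : ℤ) (X : Path d) : Site d := X (exT (Bl ℓ L) X).toNat

/-- every level is reached -/
def Rf : Set (Path d) := {X | ∀ L : ℤ, ∃ n, L ≤ ℓ (X n)}

/-- lateral norm -/
def nr (z : Site d) : ℕ := ∑ k, (z k).natAbs

/-- the hitting positions of the levels `A, …, A + s` are not within `r` of the one of `A` -/
def Far (A : ℤ) (s r : ℕ) : Set (Path d) :=
  {X | ∃ i : ℕ, i ≤ s ∧ r < nr (hp ℓ (A + i) X - hp ℓ A X)}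

variable {ℓ}

lemma nr_add (x y : Site d) : nr (x + y) ≤ nr x + nr y := by
  unfold nr
  rw [← Finset.sum_add_distrib]
  exact Finset.sum_le_sum fun k _ => Int.natAbs_add_le (x k) (y k)

lemma nr_tri (x y z : Site d) : nr (x - z) ≤ nr (x - y) + nr (y - z) := by
  have := nr_add (x - y) (y - z)
  rwa [sub_add_sub_cancel] at this

lemma nr_comm (x y : Site d) : nr (x - y) = nr (y - x) := by
  unfold nr
  refine Finset.sum_congr rfl fun k _ => ?_
  rw [Pi.sub_apply, Pi.sub_apply, ← Int.natAbs_neg, neg_sub]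

lemma measurable_hp (L : ℤ) : Measurable (hp ℓ L : Path d → Site d) :=
  (measurable_pi_apply 0).comp (measurable_shiftT (Bl ℓ L))

lemma measurableSet_Rf : MeasurableSet (Rf ℓ : Set (Path d)) :=
  mAll fun L => mEx fun n => mCo n fun z => L ≤ ℓ z

lemma measurableSet_Far (A : ℤ) (s r : ℕ) : MeasurableSet (Far ℓ A s r) := by
  refine mEx fun i => ?_
  by_cases hi : i ≤ s
  · simp only [hi, true_and]
    exact ((measurable_hp (A + i)).prodMk (measurable_hp A))
      (Set.to_countable {p : Site d × Site d | r < nr (p.1 - p.2)}).measurableSet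
  · simp only [hi, false_and]
    exact MeasurableSet.empty

/-! ### shift -/

lemma hp_shift {b A : ℤ} (hb : b ≤ A) {X : Path d} {n : ℕ} (hn : exT (Bl ℓ b) X = n)
    (hA : ∃ k, A ≤ ℓ (X k)) : hp ℓ A (shift n X) = hp ℓ A X := by
  obtain ⟨N, hN⟩ := ENat.ne_top_iff_exists.1 (exT_Bl_ne_top.2 hA)
  have hN' := hN.symm
  obtain ⟨h1, h2⟩ := exT_Bl.1 hN'
  obtain ⟨h3, h4⟩ := exT_Bl.1 hn
  have hnN : n ≤ N := by
    by_contra h
    have := h4 N (by omega)
    omega
  have h5 : exT (Bl ℓ A) (shift n X) = ((N - n : ℕ) : ℕ∞) := by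
    refine exT_Bl.2 ⟨?_, fun i hi => ?_⟩
    · show A ≤ ℓ (X (n + (N - n)))
      rwa [Nat.add_sub_cancel' hnN]
    · exact h2 (n + i) (by omega)
  unfold hp
  rw [h5, hN', ENat.toNat_natCast, ENat.toNat_natCast]
  show X (n + (N - n)) = X N
  rw [Nat.add_sub_cancel' hnN]

lemma Rf_shift {b : ℤ} {X : Path d} {n : ℕ} (hn : exT (Bl ℓ b) X = n) :
    shift n X ∈ Rf ℓ ↔ X ∈ Rf ℓ := by
  obtain ⟨h3, h4⟩ := exT_Bl.1 hn
  constructor
  · intro h L
    obtain ⟨k, hk⟩ := h L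
    exact ⟨n + k, hk⟩
  · intro h L
    obtain ⟨k, hk⟩ := h (max L b)
    have hnk : n ≤ k := by
      by_contra h'
      have := h4 k (by omega)
      omega
    refine ⟨k - n, ?_⟩
    show L ≤ ℓ (X (n + (k - n)))
    rw [Nat.add_sub_cancel' hnk]
    omega

lemma Far_shift {b A : ℤ} (hb : b ≤ A) {s r : ℕ} {X : Path d} {n : ℕ}
    (hn : exT (Bl ℓ b) X = n) (hX : X ∈ Rf ℓ) : shift n X ∈ Far ℓ A s r ↔ X ∈ Far ℓ A s r := by
  refine exists_congr fun i => and_congr_right fun hi => ?_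
  rw [hp_shift (by omega) hn (hX _), hp_shift hb hn (hX _)]

lemma exT_toNat {b : ℤ} {X : Path d} (hX : X ∈ Rf ℓ) :
    exT (Bl ℓ b) X = ((exT (Bl ℓ b) X).toNat : ℕ) := by
  obtain ⟨N, hN⟩ := ENat.ne_top_iff_exists.1 (exT_Bl_ne_top.2 (hX b))
  rw [← hN, ENat.toNat_natCast]

lemma hp_level {b : ℤ} {X : Path d} (hX : X ∈ Rf ℓ) : b ≤ ℓ (hp ℓ b X) :=
  (exT_Bl.1 (exT_toNat hX)).1

/-- started on the level `b`, the level `b` is hit at once -/
lemma hp_start {b : ℤ} {X : Path d} (h0 : b ≤ ℓ (X 0)) : hp ℓ b X = X 0 := by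
  have : exT (Bl ℓ b) X = ((0 : ℕ) : ℕ∞) :=
    exT_Bl.2 ⟨h0, fun i hi => absurd hi (Nat.not_lt_zero i)⟩
  unfold hp
  rw [this]
  rfl

/-! ### translation -/

lemma exT_tr (hadd : ∀ x y : Site d, ℓ (x + y) = ℓ x + ℓ y) (L : ℤ) (w : Site d) (X : Path d) :
    exT (Bl ℓ (L + ℓ w)) (Q561.tr w X) = exT (Bl ℓ L) X := by
  rcases eq_or_ne (exT (Bl ℓ L) X) ⊤ with h | h
  · rw [h, exT_eq_top_iff]
    intro i
    have := exT_eq_top_iff.1 h i
    simp only [Bl, Set.mem_ofPred_eq, Q561.tr, hadd] at this ⊢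
    omega
  · obtain ⟨N, hN⟩ := ENat.ne_top_iff_exists.1 h
    rw [← hN]
    obtain ⟨h1, h2⟩ := exT_Bl.1 hN.symm
    refine exT_Bl.2 ⟨?_, fun i hi => ?_⟩
    · simp only [Q561.tr, hadd]; omega
    · have := h2 i hi
      simp only [Q561.tr, hadd]; omega

lemma hp_tr (hadd : ∀ x y : Site d, ℓ (x + y) = ℓ x + ℓ y) (L : ℤ) (w : Site d) (X : Path d) :
    hp ℓ (L + ℓ w) (Q561.tr w X) = hp ℓ L X + w := by
  unfold hp
  rw [exT_tr hadd]
  rfl

lemma Rf_tr (hadd : ∀ x y : Site d, ℓ (x + y) = ℓ x + ℓ y) (w : Site d) :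
    Q561.tr w ⁻¹' (Rf ℓ) = Rf ℓ := by
  ext X
  simp only [Set.mem_preimage, Rf, Set.mem_ofPred_eq, Q561.tr, hadd]
  constructor
  · intro h L
    obtain ⟨n, hn⟩ := h (L + ℓ w)
    exact ⟨n, by omega⟩
  · intro h L
    obtain ⟨n, hn⟩ := h (L - ℓ w)
    exact ⟨n, by omega⟩

lemma Far_tr (hadd : ∀ x y : Site d, ℓ (x + y) = ℓ x + ℓ y) (w : Site d) (A : ℤ) (s r : ℕ) :
    Q561.tr w ⁻¹' Far ℓ (A + ℓ w) s r = Far ℓ A s r := by
  ext X
  simp only [Set.mem_preimage, Far, Set.mem_ofPred_eq]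
  refine exists_congr fun i => and_congr_right fun hi => ?_
  have e : A + ℓ w + (i : ℤ) = (A + i) + ℓ w := by ring
  rw [e, hp_tr hadd, hp_tr hadd, add_sub_add_right_eq_sub]

/-! ### finitely many levels -/

section prob
variable {ν : Measure (Row d)} [IsProbabilityMeasure ν]

theorem Far_tendsto (A : ℤ) (s : ℕ) :
    Filter.Tendsto (fun r => ∫⁻ ω, quenchedLaw ω 0 (Far ℓ A s r) ∂(iidEnvironmentLaw ν))
      Filter.atTop (nhds 0) := by
  have hanti : Antitone fun r : ℕ => Far ℓ A s r := by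
    rintro r r' hr X ⟨i, hi, h⟩
    exact ⟨i, hi, lt_of_le_of_lt hr h⟩
  have hE : ⋂ r : ℕ, Far ℓ A s r = ∅ := by
    ext X
    simp only [Set.mem_iInter, Set.mem_empty_iff_false, iff_false]
    intro h
    obtain ⟨i, hi, h'⟩ := h (∑ i ∈ Finset.range (s + 1), nr (hp ℓ (A + i) X - hp ℓ A X))
    exact absurd (Finset.single_le_sum (f := fun i : ℕ => nr (hp ℓ (A + i) X - hp ℓ A X))
      (fun _ _ => Nat.zero_le _) (Finset.mem_range.2 (Nat.lt_succ_of_le hi))) (not_le.2 h')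
  have hptw : ∀ ω : Environment d, Filter.Tendsto
      (fun r => quenchedLaw ω 0 (Far ℓ A s r)) Filter.atTop (nhds 0) := by
    intro ω
    have h1 := tendsto_measure_iInter_atTop (μ := quenchedLaw ω 0)
      (s := fun r : ℕ => Far ℓ A s r) (fun r => (measurableSet_Far A s r).nullMeasurableSet) hanti
      ⟨0, measure_ne_top _ _⟩
    rw [hE, measure_empty] at h1
    exact h1
  have h := tendsto_lintegral_of_dominated_convergence (μ := iidEnvironmentLaw ν)
    (F := fun r ω => quenchedLaw ω 0 (Far ℓ A s r)) (f := fun _ => 0) (fun _ => 1)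
    (fun r => Q561.measurable_quenched_apply 0 (measurableSet_Far A s r))
    (fun r => Filter.Eventually.of_forall fun ω => prob_le_one) (by simp)
    (Filter.Eventually.of_forall hptw)
  rw [lintegral_zero] at h
  exact h

/-- an event seen from the exit of `Bl b` -/
theorem ann_exit_le (hst : ∀ (z : Site d) (e : Step d), ℓ (z + stepVec e) ≤ ℓ z + 1)
    {b : ℤ} {y : Site d} (hy : ℓ y ≤ b) {B : Set (Path d)} (hB : MeasurableSet B) {c : ℝ≥0∞}
    (h : ∀ z, ℓ z = b → ∀ ω, cnd ν (Bl ℓ b) (fun ω => quenchedLaw ω z B) ω ≤ c) :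
    ∫⁻ ω, quenchedLaw ω y {X | exT (Bl ℓ b) X ≠ ⊤ ∧ shift (exT (Bl ℓ b) X).toNat X ∈ B}
      ∂(iidEnvironmentLaw ν) ≤ c := by
  have hm : ∀ z, Measurable fun ω : Environment d => quenchedLaw ω z B :=
    fun z => Q561.measurable_quenched_apply z hB
  calc _ = ∫⁻ ω, ∑' z, EK ω (Bl ℓ b) y z * quenchedLaw ω z B ∂(iidEnvironmentLaw ν) := by
        refine lintegral_congr fun ω => exit_markov ω _ y hB
    _ = ∑' z, ∫⁻ ω, EK ω (Bl ℓ b) y z * quenchedLaw ω z B ∂(iidEnvironmentLaw ν) :=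
        lintegral_tsum fun z => ((meas_EK _ y z).mul (hm z)).aemeasurable
    _ ≤ ∑' z, ∫⁻ ω, EK ω (Bl ℓ b) y z * c ∂(iidEnvironmentLaw ν) := by
        refine ENNReal.tsum_le_tsum fun z => ?_
        rw [← lint_cnd (locOn_EK _ y z) (meas_EK _ y z) (hm z)]
        refine lintegral_mono fun ω => ?_
        by_cases hz : ℓ z = b
        · show _ * _ ≤ _ * _
          gcongr
          exact h z hz ω
        · have h0 : EK ω (Bl ℓ b) y z = 0 := ExS_level hst ω hy hz
          simp only [h0, zero_mul, le_refl]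
    _ = ∫⁻ ω, (∑' z, EK ω (Bl ℓ b) y z) * c ∂(iidEnvironmentLaw ν) := by
        rw [← lintegral_tsum (f := fun z ω => EK ω (Bl ℓ b) y z * c)
          fun z => ((meas_EK _ y z).mul_const c).aemeasurable]
        simp_rw [ENNReal.tsum_mul_right]
    _ ≤ ∫⁻ ω, c ∂(iidEnvironmentLaw ν) := by
        refine lintegral_mono fun ω => ?_
        calc (∑' z, EK ω (Bl ℓ b) y z) * c ≤ 1 * c := by gcongr; exact tsum_EK_le ω _ y
          _ = c := one_mul c
    _ = c := by simp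

lemma BadN_shift {a : ℤ} {s : ℕ} {X : Path d} {n : ℕ} (hn : exT (Bl ℓ a) X = n)
    (hX : X ∈ BadN ℓ a s) : shift n X ∈ BadN ℓ a s := by
  obtain ⟨⟨k, hk⟩, h2⟩ := hX
  obtain ⟨h3, h4⟩ := exT_Bl.1 hn
  have hs : (0 : ℤ) ≤ s := Int.natCast_nonneg s
  have hnk : n ≤ k := by
    by_contra h'
    have := h4 k (by omega)
    omega
  refine ⟨⟨k - n, ?_⟩, fun i hi => ?_⟩
  · show a + s ≤ ℓ (X (n + (k - n)))
    rwa [Nat.add_sub_cancel' hnk]
  · rw [Nt_shift (by have : (0 : ℤ) ≤ i := Int.natCast_nonneg i; omega) hn]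
    exact h2 i hi

/-- **displacement on a bounded number of levels** -/
theorem exists_far (hadd : ∀ x y : Site d, ℓ (x + y) = ℓ x + ℓ y)
    (hst : ∀ (z : Site d) (e : Step d), ℓ (z + stepVec e) ≤ ℓ z + 1)
    (hr : rr ℓ ν < 1)
    (hR : ∀ y : Site d, ∫⁻ ω, quenchedLaw ω y (Rf ℓ)ᶜ ∂(iidEnvironmentLaw ν) = 0)
    (s : ℕ) {δ : ℝ≥0∞} (hδ : δ ≠ 0) : ∃ r : ℕ, ∀ (y : Site d) (A : ℤ), ℓ y ≤ A →
      ∫⁻ ω, quenchedLaw ω y (Far ℓ A s r) ∂(iidEnvironmentLaw ν) ≤ δ := by
  have hδ2 : δ / 2 ≠ 0 := by simp [hδ]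
  obtain ⟨s1, hs1, hUB⟩ := exists_UB (ν := ν) hadd hst hr hδ2
  have hδ3 : δ / 2 / (s1 + 1 : ℕ) ≠ 0 := ENNReal.div_ne_zero.2 ⟨hδ2, ENNReal.natCast_ne_top _⟩
  -- choice of `r`
  have hev : ∀ᶠ r : ℕ in Filter.atTop, ∀ k ∈ Finset.range (s1 + 1),
      ∫⁻ ω, quenchedLaw ω 0 (Far ℓ (k : ℤ) s r) ∂(iidEnvironmentLaw ν) ≤ δ / 2 / (s1 + 1 : ℕ) := by
    rw [Filter.eventually_all_finset]
    intro k _
    exact (Far_tendsto (ν := ν) (ℓ := ℓ) (k : ℤ) s).eventually_le_const (pos_iff_ne_zero.2 hδ3)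
  obtain ⟨r, hrr⟩ := hev.exists
  have hle : δ / 2 / (s1 + 1 : ℕ) ≤ δ / 2 := ENNReal.div_le_of_le_mul (by
    calc δ / 2 = δ / 2 * 1 := (mul_one _).symm
      _ ≤ δ / 2 * (s1 + 1 : ℕ) := by gcongr; exact_mod_cast Nat.succ_le_succ (Nat.zero_le s1))
  have hle' : δ / 2 ≤ δ := ENNReal.half_le_self
  -- translation
  have htr : ∀ (z : Site d) (A : ℤ) (k : ℕ), A = k + ℓ z → k ≤ s1 →
      ∫⁻ ω, quenchedLaw ω z (Far ℓ A s r) ∂(iidEnvironmentLaw ν) ≤ δ / 2 / (s1 + 1 : ℕ) := by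
    intro z A k hA hk
    rw [ann_tr z (measurableSet_Far A s r) (E' := Far ℓ (k : ℤ) s r) (by
      rw [hA]; exact Far_tr hadd z k s r)]
    exact hrr k (Finset.mem_range.2 (Nat.lt_succ_of_le hk))
  refine ⟨r, fun y A hyA => ?_⟩
  rcases le_or_gt (A - s1) (ℓ y) with hlow | hlow
  · refine (htr y A (A - ℓ y).toNat ?_ ?_).trans (hle.trans hle')
    · have := Int.toNat_of_nonneg (show 0 ≤ A - ℓ y by omega)
      omega
    · have := Int.toNat_of_nonneg (show 0 ≤ A - ℓ y by omega)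
      omega
  · -- natural level in `[A - s1, A)`
    set a : ℤ := A - s1 with ha
    have hsub : Far ℓ A s r ⊆ (Rf ℓ)ᶜ ∪
        ({X | exT (Bl ℓ a) X ≠ ⊤ ∧ shift (exT (Bl ℓ a) X).toNat X ∈ BadN ℓ a s1} ∪
        ⋃ j ∈ Finset.range s1, {X | exT (Bl ℓ (a + j)) X ≠ ⊤ ∧
          shift (exT (Bl ℓ (a + j)) X).toNat X ∈ St ℓ (a + j) ∩ Far ℓ A s r}) := by
      intro X hX
      by_cases hXR : X ∈ Rf ℓ
      · right
        by_cases hN : ∃ j < s1, X ∈ Nt ℓ (a + (j : ℕ))
        · right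
          obtain ⟨j, hj, hXN⟩ := hN
          simp only [Set.mem_iUnion]
          refine ⟨j, Finset.mem_range.2 hj, exT_Bl_ne_top.2 (hXR _), ?_⟩
          have hn := exT_toNat (b := a + (j : ℕ)) hXR
          refine ⟨?_, (Far_shift (by omega) hn hXR).2 hX⟩
          have h1 := (Nt_shift le_rfl hn).2 hXN
          obtain ⟨h3, h4⟩ := exT_Bl.1 hn
          obtain ⟨k, hk1, hk2⟩ := h1
          rcases Nat.eq_zero_or_pos k with h | h
          · subst h
            exact fun q => hk2 q (Nat.zero_le q)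
          · exact absurd (hk1 0 h) (not_lt.2 h3)
        · left
          push Not at hN
          exact ⟨exT_Bl_ne_top.2 (hXR _), BadN_shift (exT_toNat hXR)
            ⟨hXR _, fun i hi => hN i hi⟩⟩
      · exact Or.inl hXR
    have hmB : MeasurableSet {X : Path d | exT (Bl ℓ a) X ≠ ⊤ ∧
        shift (exT (Bl ℓ a) X).toNat X ∈ BadN ℓ a s1} :=
      (isStop_exT _).measurableSet_ne_top.inter
        (measurable_shiftT _ (measurableSet_BadN a s1))
    have hmS : ∀ j : ℕ, MeasurableSet {X : Path d | exT (Bl ℓ (a + j)) X ≠ ⊤ ∧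
        shift (exT (Bl ℓ (a + j)) X).toNat X ∈ St ℓ (a + j) ∩ Far ℓ A s r} := fun j =>
      (isStop_exT _).measurableSet_ne_top.inter
        (measurable_shiftT _ ((measurableSet_St _).inter (measurableSet_Far A s r)))
    calc ∫⁻ ω, quenchedLaw ω y (Far ℓ A s r) ∂(iidEnvironmentLaw ν)
        ≤ ∫⁻ ω, (quenchedLaw ω y (Rf ℓ)ᶜ + (quenchedLaw ω y {X | exT (Bl ℓ a) X ≠ ⊤ ∧
            shift (exT (Bl ℓ a) X).toNat X ∈ BadN ℓ a s1} +
            ∑ j ∈ Finset.range s1, quenchedLaw ω y {X | exT (Bl ℓ (a + j)) X ≠ ⊤ ∧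
              shift (exT (Bl ℓ (a + j)) X).toNat X ∈ St ℓ (a + j) ∩ Far ℓ A s r}))
            ∂(iidEnvironmentLaw ν) := by
          refine lintegral_mono fun ω => ?_
          refine (measure_mono hsub).trans ((measure_union_le _ _).trans ?_)
          gcongr
          refine (measure_union_le _ _).trans ?_
          gcongr
          exact measure_biUnion_finset_le _ _
      _ = 0 + (∫⁻ ω, quenchedLaw ω y {X | exT (Bl ℓ a) X ≠ ⊤ ∧
            shift (exT (Bl ℓ a) X).toNat X ∈ BadN ℓ a s1} ∂(iidEnvironmentLaw ν) +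
            ∑ j ∈ Finset.range s1, ∫⁻ ω, quenchedLaw ω y {X | exT (Bl ℓ (a + j)) X ≠ ⊤ ∧
              shift (exT (Bl ℓ (a + j)) X).toNat X ∈ St ℓ (a + j) ∩ Far ℓ A s r}
              ∂(iidEnvironmentLaw ν)) := by
          rw [lintegral_add_left (Q561.measurable_quenched_apply y measurableSet_Rf.compl), hR,
            lintegral_add_left (Q561.measurable_quenched_apply y hmB),
            lintegral_finsetSum _ fun j _ => Q561.measurable_quenched_apply y (hmS j)]
      _ ≤ 0 + (δ / 2 + ∑ j ∈ Finset.range s1, δ / 2 / (s1 + 1 : ℕ)) := by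
          gcongr with j hj
          · exact ann_exit_le hst hlow.le (measurableSet_BadN a s1) fun z hz ω => hUB a z hz ω
          · have hj' := Finset.mem_range.1 hj
            refine ann_exit_le hst (by omega) ((measurableSet_St _).inter
              (measurableSet_Far A s r)) fun z hz ω => ?_
            rw [cnd_of_disj (disj_Bl (a + j)) (Q561.locOn_quenched z ((measurableSet_St _).inter
              (measurableSet_Far A s r)) (Q561.dec_of_forall fun X hX k => hX.1 k))]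
            refine (lintegral_mono fun ω => measure_mono Set.inter_subset_right).trans ?_
            exact htr z A (s1 - j) (by push_cast [Nat.cast_sub hj'.le]; omega) (by omega)
      _ ≤ δ / 2 + δ / 2 := by
          rw [zero_add, Finset.sum_const, Finset.card_range, nsmul_eq_mul]
          gcongr
          calc (s1 : ℝ≥0∞) * (δ / 2 / (s1 + 1 : ℕ)) ≤ (s1 + 1 : ℕ) * (δ / 2 / (s1 + 1 : ℕ)) := by
                gcongr
                exact Nat.le_succ s1
            _ ≤ δ / 2 := ENNReal.mul_div_le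
      _ = δ := ENNReal.add_halves δ

end prob

end Crest.Agent.R154.Resid509
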