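import Crest.Agent.R154.ResidA2_509

/-!
# Row 154, helper509: decomposition at the first natural level, and mixing of the past
-/

set_option autoImplicit false
set_option linter.unusedVariables false
set_option linter.unusedSectionVars false

namespace Crest.Agent.R154.Resid509

open MeasureTheory ProbabilityTheory Crest.ProbabilityR.RandomEnvironment Crest.Agent.R154
open Crest.Agent.R154.ExK9 Crest.Agent.R154.Resamp9
open scoped ENNReal

variable {d : ℕ} (ℓ : Site d → ℤ)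

/-- below `b'` after the first visit of `b'` and before the first visit of `b` -/
def Fl (b' b : ℤ) : Set (Path d) :=
  {X | ∃ k m : ℕ, k ≤ m ∧ b' ≤ ℓ (X k) ∧ ℓ (X m) < b' ∧ ∀ q, q ≤ m → ℓ (X q) < b}

/-- the past event: none of the levels `l, …, l + i - 1` is natural, `l + i` is hit near `y` -/
def Pst (l : ℤ) (i r : ℕ) (y : Site d) : Set (Path d) :=
  {X | (∀ j : ℕ, j < i → X ∈ Fl ℓ (l + j) (l + i)) ∧ nr (hp ℓ (l + i) X - y) ≤ r}

/-- the first natural level `≥ l` is `l + i`, it is hit near `y`, every level is hit -/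
def Gd (l : ℤ) (i r : ℕ) (y : Site d) : Set (Path d) :=
  {X | exT (Bl ℓ (l + i)) X ≠ ⊤} ∩ Pst ℓ l i r y ∩
    {X | shift (exT (Bl ℓ (l + i)) X).toNat X ∈ St ℓ (l + i) ∩ Rf ℓ}

variable {ℓ}

lemma measurableSet_Fl (b' b : ℤ) : MeasurableSet (Fl ℓ b' b : Set (Path d)) := by
  refine mEx fun k => mEx fun m => ?_
  by_cases h : k ≤ m
  · simp only [h, true_and]
    exact mAnd (mCo k fun z => b' ≤ ℓ z) (mAnd (mCo m fun z => ℓ z < b')
      (mAll fun q => mAll fun _ => mCo q fun z => ℓ z < b))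
  · simp only [h, false_and]
    exact MeasurableSet.empty

lemma measurableSet_Pst (l : ℤ) (i r : ℕ) (y : Site d) : MeasurableSet (Pst ℓ l i r y) :=
  mAnd (mAll fun j => mAll fun _ => measurableSet_Fl _ _)
    (measurable_hp (l + i) (Set.to_countable {z : Site d | nr (z - y) ≤ r}).measurableSet)

lemma measurableSet_Gd (l : ℤ) (i r : ℕ) (y : Site d) : MeasurableSet (Gd ℓ l i r y) :=
  ((isStop_exT _).measurableSet_ne_top.inter (measurableSet_Pst l i r y)).inter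
    (measurable_shiftT _ ((measurableSet_St _).inter measurableSet_Rf))

lemma detBy_Pst (l : ℤ) (i r : ℕ) (y : Site d) :
    DetBy (exT (Bl ℓ (l + i))) (· ∈ Pst ℓ l i r y) := by
  have key : ∀ X Y : Path d, ∀ n : ℕ, Agree n X Y → exT (Bl ℓ (l + i)) X = n →
      exT (Bl ℓ (l + i)) Y = n → X ∈ Pst ℓ l i r y → Y ∈ Pst ℓ l i r y := by
    rintro X Y n hXY hn hn' ⟨h1, h2⟩
    obtain ⟨h3, h4⟩ := exT_Bl.1 hn
    refine ⟨fun j hj => ?_, ?_⟩
    · obtain ⟨k, m, hkm, hk, hm, hq⟩ := h1 j hj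
      have hmn : m < n := by
        by_contra h
        have := hq n (by omega)
        omega
      refine ⟨k, m, hkm, ?_, ?_, fun q hq' => ?_⟩
      · rw [← hXY k (by omega)]; exact hk
      · rw [← hXY m (by omega)]; exact hm
      · rw [← hXY q (by omega)]; exact hq q hq'
    · have e : hp ℓ (l + i) X = hp ℓ (l + i) Y := by
        unfold hp
        rw [hn, hn', ENat.toNat_natCast]
        exact hXY n le_rfl
      rw [← e]; exact h2
  intro X Y n hXY hn
  have hn' : exT (Bl ℓ (l + i)) Y = n := isStop_exT _ X Y n hXY hn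
  exact propext ⟨key X Y n hXY hn hn', key Y X n hXY.symm hn' hn⟩

lemma Gd_disj {l : ℤ} {i i' r : ℕ} {y : Site d} (h : i < i') :
    Disjoint (Gd ℓ l i r y) (Gd ℓ l i' r y) := by
  refine Set.disjoint_left.2 fun X hX hX' => ?_
  obtain ⟨⟨h1, -⟩, h2⟩ := hX
  obtain ⟨⟨-, h3, -⟩, -⟩ := hX'
  obtain ⟨k, m, hkm, hk, hm, -⟩ := h3 i h
  obtain ⟨N, hN⟩ := ENat.ne_top_iff_exists.1 h1
  obtain ⟨h4, h5⟩ := exT_Bl.1 hN.symm
  have h6 : shift (exT (Bl ℓ (l + i)) X).toNat X ∈ St ℓ (l + i) := h2.1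
  rw [← hN, ENat.toNat_natCast] at h6
  have hNk : N ≤ k := by
    by_contra h'
    have := h5 k (by omega)
    omega
  have h7 : l + i ≤ ℓ (X (N + (m - N))) := h6 (m - N)
  rw [Nat.add_sub_cancel' (by omega)] at h7
  omega

/-- a path outside of all the good events is bad -/
lemma mem_Gd {l : ℤ} {s r : ℕ} {y : Site d} (hy : ℓ y = l) {X : Path d} (h0 : X 0 = y)
    (hR : X ∈ Rf ℓ) (hB : X ∉ BadN ℓ l s) (hF : X ∉ Far ℓ l s r) :
    ∃ i < s, X ∈ Gd ℓ l i r y := by
  classical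
  have hex : ∃ i, i < s ∧ X ∈ Nt ℓ (l + (i : ℕ)) := by
    by_contra hne
    push Not at hne
    exact hB ⟨hR _, fun i hi => hne i hi⟩
  obtain ⟨hi, hN⟩ := Nat.find_spec hex
  have hmin : ∀ j, j < Nat.find hex → X ∉ Nt ℓ (l + (j : ℕ)) := fun j hj hXj =>
    Nat.find_min hex hj ⟨hj.trans hi, hXj⟩
  generalize Nat.find hex = i at hi hN hmin
  have hn := exT_toNat (b := l + (i : ℕ)) hR
  obtain ⟨h3, h4⟩ := exT_Bl.1 hn
  have hS : shift (exT (Bl ℓ (l + i)) X).toNat X ∈ St ℓ (l + i) := by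
    obtain ⟨k, hk1, hk2⟩ := (Nt_shift le_rfl hn).2 hN
    rcases Nat.eq_zero_or_pos k with h | h
    · subst h
      exact fun q => hk2 q (Nat.zero_le q)
    · exact absurd (hk1 0 h) (not_lt.2 h3)
  refine ⟨i, hi, ⟨exT_Bl_ne_top.2 (hR _), fun j hj => ?_, ?_⟩, hS, (Rf_shift hn).2 hR⟩
  · have hnj := exT_toNat (b := l + (j : ℕ)) hR
    obtain ⟨h5, h6⟩ := exT_Bl.1 hnj
    have h7 : ∃ m, (exT (Bl ℓ (l + (j : ℕ))) X).toNat ≤ m ∧ ℓ (X m) < l + j := by
      by_contra hne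
      push Not at hne
      exact hmin j hj ⟨_, h6, hne⟩
    obtain ⟨m, hm1, hm2⟩ := h7
    refine ⟨_, m, hm1, h5, hm2, fun q hq => h4 q ?_⟩
    by_contra h'
    have h8 : l + i ≤ ℓ (X ((exT (Bl ℓ (l + i)) X).toNat + (m - (exT (Bl ℓ (l + i)) X).toNat))) :=
      hS (m - (exT (Bl ℓ (l + i)) X).toNat)
    rw [Nat.add_sub_cancel' (by omega)] at h8
    omega
  · by_contra h'
    push Not at h'
    refine hF ⟨i, hi.le, ?_⟩
    have e : hp ℓ l X = y := by rw [hp_start (by rw [h0, hy]), h0]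
    rw [e]; exact h'

section prob
variable (ℓ) (ν : Measure (Row d)) [IsProbabilityMeasure ν]

/-- annealed expectation on the paths which stay above the start -/
noncomputable def Kf (F : Path d → ℝ≥0∞) (b : ℤ) (z : Site d) : ℝ≥0∞ :=
  ∫⁻ ω, ∫⁻ X in St ℓ b ∩ Rf ℓ, F X ∂quenchedLaw ω z ∂(iidEnvironmentLaw ν)

/-- weight of the past, given the rows of `S` -/
noncomputable def Aw (S : Set (Site d)) (l : ℤ) (i r : ℕ) (y z : Site d) (ω : Environment d) :
    ℝ≥0∞ := cnd ν S (fun ω => quenchedLaw ω y (Pst ℓ l i r y ∩ ExS (Bl ℓ (l + i)) z)) ω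

/-- quenched expectation -/
noncomputable def qE (F : Path d → ℝ≥0∞) (y : Site d) (ω : Environment d) : ℝ≥0∞ :=
  ∫⁻ X, F X ∂quenchedLaw ω y

variable {ℓ ν}

lemma meas_qE {F : Path d → ℝ≥0∞} (hF : Measurable F) (y : Site d) : Measurable (qE F y) :=
  (Measure.measurable_lintegral hF).comp (Q561.measurable_quenchedLaw y)

lemma meas_qS {F : Path d → ℝ≥0∞} (hF : Measurable F) (y : Site d) {G : Set (Path d)}
    (hG : MeasurableSet G) : Measurable fun ω : Environment d => ∫⁻ X in G, F X ∂quenchedLaw ω y := by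
  simp_rw [← lintegral_indicator hG]
  exact meas_qE (hF.indicator hG) y

/-- **factorisation** -/
theorem fac (hst : ∀ (z : Site d) (e : Step d), ℓ (z + stepVec e) ≤ ℓ z + 1)
    {S : Set (Site d)} {l : ℤ} (hS : S ⊆ Bl ℓ l) (i r : ℕ) (y : Site d)
    {F : Path d → ℝ≥0∞} (hF : Measurable F)
    (hFs : ∀ X ∈ Rf ℓ, ∀ n : ℕ, exT (Bl ℓ (l + i)) X = n → F (shift n X) = F X)
    (ω : Environment d) :
    cnd ν S (fun ω => ∫⁻ X in Gd ℓ l i r y, F X ∂quenchedLaw ω y) ω =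
      ∑' z, Aw ℓ ν S l i r y z ω * Kf ℓ ν F (l + i) z := by
  classical
  set b : ℤ := l + i with hb
  have hi0 : (0 : ℤ) ≤ i := Int.natCast_nonneg i
  have hm1 : MeasurableSet (St ℓ b ∩ Rf ℓ) := (measurableSet_St b).inter measurableSet_Rf
  have hH : Measurable ((St ℓ b ∩ Rf ℓ).indicator F) := hF.indicator hm1
  have hmP : MeasurableSet ({X | exT (Bl ℓ b) X ≠ ⊤} ∩ Pst ℓ l i r y) :=
    (isStop_exT _).measurableSet_ne_top.inter (measurableSet_Pst l i r y)
  have hpt : ∀ ω : Environment d, ∫⁻ X in Gd ℓ l i r y, F X ∂quenchedLaw ω y =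
      ∑' z, quenchedLaw ω y (Pst ℓ l i r y ∩ ExS (Bl ℓ b) z) *
        qE ((St ℓ b ∩ Rf ℓ).indicator F) z ω := by
    intro ω
    refine Eq.trans ?_ (markovF ω _ y (detBy_Pst l i r y) (measurableSet_Pst l i r y) hH)
    rw [← lintegral_indicator (measurableSet_Gd l i r y), ← lintegral_indicator hmP]
    refine lintegral_congr fun X => ?_
    by_cases h1 : X ∈ {X | exT (Bl ℓ b) X ≠ ⊤} ∩ Pst ℓ l i r y
    · rw [Set.indicator_of_mem h1]
      by_cases h2 : shift (exT (Bl ℓ b) X).toNat X ∈ St ℓ b ∩ Rf ℓ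
      · obtain ⟨N, hN⟩ := ENat.ne_top_iff_exists.1 h1.1
        rw [Set.indicator_of_mem (show X ∈ Gd ℓ l i r y from ⟨h1, h2⟩), Set.indicator_of_mem h2]
        have h3 : shift (exT (Bl ℓ b) X).toNat X ∈ Rf ℓ := h2.2
        rw [← hN, ENat.toNat_natCast] at h3 ⊢
        exact (hFs X ((Rf_shift hN.symm).1 h3) N hN.symm).symm
      · rw [Set.indicator_of_notMem h2, Set.indicator_of_notMem]
        exact fun h3 => h2 h3.2
    · rw [Set.indicator_of_notMem h1, Set.indicator_of_notMem]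
      exact fun h3 => h1 h3.1
  have hαm : ∀ z, Measurable fun ω : Environment d =>
      quenchedLaw ω y (Pst ℓ l i r y ∩ ExS (Bl ℓ b) z) := fun z =>
    Q561.measurable_quenched_apply y ((measurableSet_Pst l i r y).inter (measurableSet_ExS _ z))
  have hαl : ∀ z, Q561.LocOn (Bl ℓ b) fun ω : Environment d =>
      quenchedLaw ω y (Pst ℓ l i r y ∩ ExS (Bl ℓ b) z) := fun z =>
    Q561.locOn_quenched y ((measurableSet_Pst l i r y).inter (measurableSet_ExS _ z))
      (dec_of_detBy (detBy_Pst l i r y) z)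
  have hβm : ∀ z, Measurable (qE ((St ℓ b ∩ Rf ℓ).indicator F) z) := fun z => meas_qE hH z
  have hβl : ∀ z, Q561.LocOn {z : Site d | b ≤ ℓ z} (qE ((St ℓ b ∩ Rf ℓ).indicator F) z) := by
    intro z ω ω' h
    refine Q561.quenched_lintegral_congr h z hH fun X => ?_
    by_cases hX : X ∈ St ℓ b
    · rw [Q561.stopAt_of_forall fun k => hX k]
    · have h1 : Q561.stopAt {z : Site d | b ≤ ℓ z} X ∉ St ℓ b := by
        intro h2
        have h3 : X ∈ Q561.stopAt {z : Site d | b ≤ ℓ z} ⁻¹' St ℓ b := h2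
        have h4 : Q561.stopAt {z : Site d | b ≤ ℓ z} ⁻¹' St ℓ b = St ℓ b := dec_St b
        rw [h4] at h3
        exact hX h3
      rw [Set.indicator_of_notMem fun h2 => h1 h2.1, Set.indicator_of_notMem fun h2 => hX h2.1]
  have hSb : S ⊆ Bl ℓ b := hS.trans (Bl_mono (by omega))
  have e1 : (fun ω : Environment d => ∫⁻ X in Gd ℓ l i r y, F X ∂quenchedLaw ω y) = fun ω =>
      ∑' z, quenchedLaw ω y (Pst ℓ l i r y ∩ ExS (Bl ℓ b) z) *
        qE ((St ℓ b ∩ Rf ℓ).indicator F) z ω := funext hpt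
  rw [e1, cnd_tsum S (f := fun z ω => quenchedLaw ω y (Pst ℓ l i r y ∩ ExS (Bl ℓ b) z) *
        qE ((St ℓ b ∩ Rf ℓ).indicator F) z ω) fun z => (hαm z).mul (hβm z)]
  refine tsum_congr fun z => ?_
  have htow := cnd_tower (ν := ν) hSb (f := fun ω =>
    quenchedLaw ω y (Pst ℓ l i r y ∩ ExS (Bl ℓ b) z) *
      qE ((St ℓ b ∩ Rf ℓ).indicator F) z ω) ((hαm z).mul (hβm z)) ω
  rw [← htow]
  have e2 : cnd ν (Bl ℓ b) (fun ω => quenchedLaw ω y (Pst ℓ l i r y ∩ ExS (Bl ℓ b) z) *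
      qE ((St ℓ b ∩ Rf ℓ).indicator F) z ω) = fun ω =>
      Kf ℓ ν F b z * quenchedLaw ω y (Pst ℓ l i r y ∩ ExS (Bl ℓ b) z) := by
    funext ω
    rw [cnd_pull (hαl z) (hβm z), cnd_of_disj (disj_Bl b) (hβl z), mul_comm]
    unfold Kf qE
    simp_rw [lintegral_indicator hm1]
  rw [e2, cnd_pull (w := fun _ => Kf ℓ ν F b z) (fun _ _ _ => rfl) (hαm z), mul_comm]
  rfl

lemma cnd_finsetSum (S : Set (Site d)) {ι : Type*} (s : Finset ι) {f : ι → Environment d → ℝ≥0∞}
    (hf : ∀ i ∈ s, Measurable (f i)) (ω : Environment d) :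
    cnd ν S (fun ω => ∑ i ∈ s, f i ω) ω = ∑ i ∈ s, cnd ν S (f i) ω :=
  lintegral_finsetSum s fun i hi => (hf i hi).comp (measurable_glue_right S ω)

lemma Aw_zero (hst : ∀ (z : Site d) (e : Step d), ℓ (z + stepVec e) ≤ ℓ z + 1)
    {S : Set (Site d)} {l : ℤ} {i r : ℕ} {y z : Site d} (hy : ℓ y = l)
    (h : ¬ (ℓ z = l + i ∧ nr (z - y) ≤ r)) (ω : Environment d) : Aw ℓ ν S l i r y z ω = 0 := by
  have hi0 : (0 : ℤ) ≤ i := Int.natCast_nonneg i
  have h0 : ∀ ω : Environment d, quenchedLaw ω y (Pst ℓ l i r y ∩ ExS (Bl ℓ (l + i)) z) = 0 := by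
    intro ω
    by_cases hz : ℓ z = l + i
    · have h1 : Pst ℓ l i r y ∩ ExS (Bl ℓ (l + i)) z = ∅ := by
        ext X
        simp only [Set.mem_inter_iff, Set.mem_empty_iff_false, iff_false, not_and]
        intro h2 h3
        have h4 : nr (hp ℓ (l + i) X - y) ≤ r := h2.2
        have h5 : hp ℓ (l + i) X = z := (mem_ExS_iff.1 h3).2
        rw [h5] at h4
        exact h ⟨hz, h4⟩
      rw [h1, measure_empty]
    · refine le_antisymm (le_trans (measure_mono Set.inter_subset_right) ?_) zero_le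
      rw [ExS_level hst ω (by omega) hz]
  unfold Aw cnd
  simp only [h0, lintegral_zero]

/-- **mixing**: the future seen from `y`, given rows of a past `S`, is nearly deterministic -/
theorem mix (hst : ∀ (z : Site d) (e : Step d), ℓ (z + stepVec e) ≤ ℓ z + 1)
    {S : Set (Site d)} {l : ℤ} (hS : S ⊆ Bl ℓ l) (s r : ℕ) {y : Site d} (hy : ℓ y = l)
    {F : Path d → ℝ≥0∞} (hF : Measurable F) (hF1 : ∀ X, F X ≤ 1)
    (hFs : ∀ X ∈ Rf ℓ, ∀ i : ℕ, i < s → ∀ n : ℕ, exT (Bl ℓ (l + i)) X = n → F (shift n X) = F X)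
    {p : ℝ≥0∞} (hp0 : p ≠ 0) (hpt : p ≠ ⊤)
    (hp : ∀ z : Site d, ∀ b : ℤ, ℓ z = b → Kf ℓ ν (fun _ => 1) b z = p) {ε : ℝ≥0∞}
    (hK : ∀ i : ℕ, i < s → ∀ z, ℓ z = l + i → nr (z - y) ≤ r →
      Kf ℓ ν F (l + i) z ≤ Kf ℓ ν F l y + ε ∧ Kf ℓ ν F l y ≤ Kf ℓ ν F (l + i) z + ε)
    (ω : Environment d) :
    cnd ν S (qE F y) ω ≤ Kf ℓ ν F l y / p + ε / p +
        cnd ν S (fun ω => quenchedLaw ω y (⋃ i ∈ Finset.range s, Gd ℓ l i r y)ᶜ) ω ∧
      Kf ℓ ν F l y / p ≤ cnd ν S (qE F y) ω + ε / p +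
        cnd ν S (fun ω => quenchedLaw ω y (⋃ i ∈ Finset.range s, Gd ℓ l i r y)ᶜ) ω := by
  classical
  have hmG : ∀ i, MeasurableSet (Gd ℓ l i r y) := fun i => measurableSet_Gd l i r y
  have hmU : MeasurableSet (⋃ i ∈ Finset.range s, Gd ℓ l i r y) :=
    Finset.measurableSet_biUnion _ fun i _ => hmG i
  have hdisj : ((Finset.range s : Finset ℕ) : Set ℕ).PairwiseDisjoint fun i => Gd ℓ l i r y := by
    intro i _ j _ hij
    rcases lt_or_gt_of_ne hij with h | h
    · exact Gd_disj h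
    · exact (Gd_disj h).symm
  have hmF : ∀ i, Measurable fun ω : Environment d => ∫⁻ X in Gd ℓ l i r y, F X ∂quenchedLaw ω y :=
    fun i => meas_qS hF y (hmG i)
  have hmP : ∀ i, Measurable fun ω : Environment d => quenchedLaw ω y (Gd ℓ l i r y) :=
    fun i => Q561.measurable_quenched_apply y (hmG i)
  have hmC : Measurable fun ω : Environment d =>
      quenchedLaw ω y (⋃ i ∈ Finset.range s, Gd ℓ l i r y)ᶜ :=
    Q561.measurable_quenched_apply y hmU.compl
  set bad : ℝ≥0∞ := cnd ν S (fun ω => quenchedLaw ω y (⋃ i ∈ Finset.range s, Gd ℓ l i r y)ᶜ) ω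
    with hbad
  set W : ℕ → ℝ≥0∞ := fun i => cnd ν S (fun ω => ∫⁻ X in Gd ℓ l i r y, F X ∂quenchedLaw ω y) ω
    with hW
  set P : ℕ → ℝ≥0∞ := fun i => cnd ν S (fun ω => quenchedLaw ω y (Gd ℓ l i r y)) ω with hP
  -- total mass
  have hP1 : ∑ i ∈ Finset.range s, P i ≤ 1 := by
    rw [← cnd_finsetSum S (Finset.range s) (f := fun i ω => quenchedLaw ω y (Gd ℓ l i r y))
      fun i _ => hmP i]
    refine cnd_le_one _ (fun ω => ?_) ω
    rw [← measure_biUnion_finset hdisj fun i _ => hmG i]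
    exact prob_le_one
  have hP2 : 1 ≤ ∑ i ∈ Finset.range s, P i + bad := by
    rw [← cnd_finsetSum S (Finset.range s) (f := fun i ω => quenchedLaw ω y (Gd ℓ l i r y))
      (fun i _ => hmP i), hbad, ← cnd_add S (Finset.measurable_sum _ fun i _ => hmP i)]
    refine le_trans (cnd_const (ν := ν) S 1 ω).ge (cnd_mono S (fun ω => ?_) ω)
    rw [← measure_biUnion_finset hdisj fun i _ => hmG i, measure_add_measure_compl hmU,
      measure_univ]
  -- expectation
  have h1 : cnd ν S (qE F y) ω ≤ ∑ i ∈ Finset.range s, W i + bad := by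
    rw [← cnd_finsetSum S (Finset.range s)
      (f := fun i ω => ∫⁻ X in Gd ℓ l i r y, F X ∂quenchedLaw ω y) (fun i _ => hmF i), hbad,
      ← cnd_add S (Finset.measurable_sum _ fun i _ => hmF i)]
    refine cnd_mono S (fun ω => ?_) ω
    unfold qE
    rw [← lintegral_add_compl F hmU, lintegral_biUnion_finset hdisj fun i _ => hmG i]
    gcongr
    calc ∫⁻ X in (⋃ i ∈ Finset.range s, Gd ℓ l i r y)ᶜ, F X ∂quenchedLaw ω y
        ≤ ∫⁻ X in (⋃ i ∈ Finset.range s, Gd ℓ l i r y)ᶜ, 1 ∂quenchedLaw ω y :=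
          lintegral_mono hF1
      _ = _ := by rw [setLIntegral_one]
  have h2 : ∑ i ∈ Finset.range s, W i ≤ cnd ν S (qE F y) ω := by
    rw [← cnd_finsetSum S (Finset.range s)
      (f := fun i ω => ∫⁻ X in Gd ℓ l i r y, F X ∂quenchedLaw ω y) (fun i _ => hmF i)]
    refine cnd_mono S (fun ω => ?_) ω
    unfold qE
    rw [← lintegral_biUnion_finset hdisj fun i _ => hmG i]
    exact setLIntegral_le_lintegral _ _
  -- factorisation
  have h3 : ∀ i, i < s → W i = ∑' z, Aw ℓ ν S l i r y z ω * Kf ℓ ν F (l + i) z := fun i hi =>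
    fac hst hS i r y hF (fun X hX n hn => hFs X hX i hi n hn) ω
  have h4 : ∀ i, i < s → P i = (∑' z, Aw ℓ ν S l i r y z ω) * p := by
    intro i hi
    have := fac (ν := ν) hst hS i r y (F := fun _ => 1) measurable_const (fun _ _ _ _ => rfl) ω
    simp only [setLIntegral_one] at this
    rw [hP]
    simp only
    rw [this, ← ENNReal.tsum_mul_right]
    refine tsum_congr fun z => ?_
    by_cases hz : ℓ z = l + i
    · rw [hp z _ hz]
    · rw [Aw_zero hst hy (fun h => hz h.1), zero_mul, zero_mul]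
  set v : ℝ≥0∞ := Kf ℓ ν F l y / p with hv
  have hvp : v * p = Kf ℓ ν F l y := ENNReal.div_mul_cancel hp0 hpt
  have hep : ε / p * p = ε := ENNReal.div_mul_cancel hp0 hpt
  have h5 : ∀ i, i < s → W i ≤ P i * (v + ε / p) := by
    intro i hi
    rw [h3 i hi, h4 i hi, mul_assoc, mul_comm p, add_mul, hvp, hep, ← ENNReal.tsum_mul_right]
    refine ENNReal.tsum_le_tsum fun z => ?_
    by_cases hz : ℓ z = l + i ∧ nr (z - y) ≤ r
    · gcongr
      exact (hK i hi z hz.1 hz.2).1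
    · rw [Aw_zero hst hy hz, zero_mul, zero_mul]
  have h6 : ∀ i, i < s → P i * v ≤ W i + P i * (ε / p) := by
    intro i hi
    rw [h3 i hi, h4 i hi, mul_assoc, mul_comm p, hvp, mul_assoc, mul_comm p, hep,
      ← ENNReal.tsum_mul_right, ← ENNReal.tsum_mul_right, ← ENNReal.tsum_add]
    refine ENNReal.tsum_le_tsum fun z => ?_
    by_cases hz : ℓ z = l + i ∧ nr (z - y) ≤ r
    · rw [← mul_add]
      gcongr
      exact (hK i hi z hz.1 hz.2).2
    · rw [Aw_zero hst hy hz, zero_mul, zero_mul, zero_mul, add_zero]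
  have hv1 : v ≤ 1 := by
    rw [hv]
    refine ENNReal.div_le_of_le_mul ?_
    rw [one_mul, ← hp y l hy]
    exact lintegral_mono fun ω => lintegral_mono hF1
  constructor
  · calc cnd ν S (qE F y) ω ≤ ∑ i ∈ Finset.range s, W i + bad := h1
      _ ≤ ∑ i ∈ Finset.range s, P i * (v + ε / p) + bad := by
          gcongr with i hi
          exact h5 i (Finset.mem_range.1 hi)
      _ = (∑ i ∈ Finset.range s, P i) * (v + ε / p) + bad := by rw [Finset.sum_mul]
      _ ≤ 1 * (v + ε / p) + bad := by gcongr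
      _ = _ := by rw [one_mul]
  · calc v = 1 * v := (one_mul v).symm
      _ ≤ (∑ i ∈ Finset.range s, P i + bad) * v := by gcongr
      _ = ∑ i ∈ Finset.range s, P i * v + bad * v := by rw [add_mul, Finset.sum_mul]
      _ ≤ ∑ i ∈ Finset.range s, (W i + P i * (ε / p)) + bad * 1 := by
          gcongr with i hi
          exact h6 i (Finset.mem_range.1 hi)
      _ = ∑ i ∈ Finset.range s, W i + (∑ i ∈ Finset.range s, P i) * (ε / p) + bad := by
          rw [Finset.sum_add_distrib, Finset.sum_mul, mul_one]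
      _ ≤ cnd ν S (qE F y) ω + 1 * (ε / p) + bad := by gcongr
      _ = _ := by rw [one_mul]

end prob

end Crest.Agent.R154.Resid509
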