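import Crest.Agent.R154.ResidA3_509

/-!
# Row 154, helper509: the rows below a level do not matter for Lipschitz functions on a large scale
-/

set_option autoImplicit false
set_option linter.unusedVariables false
set_option linter.unusedSectionVars false

namespace Crest.Agent.R154.Resid509

open MeasureTheory ProbabilityTheory Crest.ProbabilityR.RandomEnvironment Crest.Agent.R154
open Crest.Agent.R154.ExK9 Crest.Agent.R154.Resamp9
open scoped ENNReal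

variable {d : ℕ} (ℓ : Site d → ℤ)

/-- product functional -/
noncomputable def PF {m : ℕ} (χ : Fin m → Site d → ℝ≥0∞) (L : Fin m → ℤ) (X : Path d) : ℝ≥0∞ :=
  ∏ j, χ j (hp ℓ (L j) X)

variable {ℓ}

lemma prod_le_add {ι : Type*} (s : Finset ι) (a b e : ι → ℝ≥0∞) (ha : ∀ i ∈ s, a i ≤ 1)
    (hb : ∀ i ∈ s, b i ≤ 1) (h : ∀ i ∈ s, a i ≤ b i + e i) :
    ∏ i ∈ s, a i ≤ ∏ i ∈ s, b i + ∑ i ∈ s, e i := by
  classical
  induction s using Finset.induction_on with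
  | empty => simp
  | insert k s hk ih =>
    rw [Finset.prod_insert hk, Finset.prod_insert hk, Finset.sum_insert hk]
    have ih' := ih (fun i hi => ha i (Finset.mem_insert_of_mem hi))
      (fun i hi => hb i (Finset.mem_insert_of_mem hi))
      (fun i hi => h i (Finset.mem_insert_of_mem hi))
    have hB : ∏ i ∈ s, b i ≤ 1 := Finset.prod_le_one' fun i hi => hb i (Finset.mem_insert_of_mem hi)
    calc a k * ∏ i ∈ s, a i ≤ a k * (∏ i ∈ s, b i + ∑ i ∈ s, e i) := by gcongr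
      _ = a k * ∏ i ∈ s, b i + a k * ∑ i ∈ s, e i := mul_add _ _ _
      _ ≤ (b k + e k) * ∏ i ∈ s, b i + 1 * ∑ i ∈ s, e i := by
          gcongr
          · exact h k (Finset.mem_insert_self k s)
          · exact ha k (Finset.mem_insert_self k s)
      _ = b k * ∏ i ∈ s, b i + e k * ∏ i ∈ s, b i + ∑ i ∈ s, e i := by rw [add_mul, one_mul]
      _ ≤ b k * ∏ i ∈ s, b i + e k * 1 + ∑ i ∈ s, e i := by gcongr
      _ = _ := by rw [mul_one, add_assoc]

section cmp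
variable {m : ℕ} {χ : Fin m → Site d → ℝ≥0∞} {lam : ℝ≥0∞}

lemma cmp (h1 : ∀ j z, χ j z ≤ 1) (hL : ∀ j z z', χ j z ≤ χ j z' + lam * (nr (z - z') : ℝ≥0∞))
    (a b : Fin m → Site d) (n : Fin m → ℝ≥0∞) (ρ : ℕ)
    (h : ∀ j, nr (a j - b j) ≤ ρ ∨ 1 ≤ n j) :
    ∏ j, χ j (a j) ≤ ∏ j, χ j (b j) + ((m : ℝ≥0∞) * (lam * ρ) + ∑ j, n j) := by
  refine (prod_le_add Finset.univ (fun j => χ j (a j)) (fun j => χ j (b j))
    (fun j => lam * ρ + n j) (fun j _ => h1 j _) (fun j _ => h1 j _) fun j _ => ?_).trans ?_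
  · rcases h j with h | h
    · refine (hL j (a j) (b j)).trans ?_
      have : (nr (a j - b j) : ℝ≥0∞) ≤ ρ := by exact_mod_cast h
      calc χ j (b j) + lam * (nr (a j - b j) : ℝ≥0∞) ≤ χ j (b j) + lam * ρ := by gcongr
        _ ≤ χ j (b j) + (lam * ρ + n j) := by gcongr; exact le_self_add
    · calc χ j (a j) ≤ 1 := h1 j _
        _ ≤ n j := h
        _ ≤ χ j (b j) + (lam * ρ + n j) := by
            refine le_trans ?_ le_add_self
            exact le_add_self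
  · rw [Finset.sum_add_distrib, Finset.sum_const, Finset.card_univ, Fintype.card_fin,
      nsmul_eq_mul]

lemma measurable_PF (χ : Fin m → Site d → ℝ≥0∞) (L : Fin m → ℤ) : Measurable (PF ℓ χ L) :=
  Finset.measurable_prod _ fun j _ => (measurable_of_countable (χ j)).comp (measurable_hp (L j))

lemma PF_le_one (h1 : ∀ j z, χ j z ≤ 1) (L : Fin m → ℤ) (X : Path d) : PF ℓ χ L X ≤ 1 :=
  Finset.prod_le_one' fun j _ => h1 j _

end cmp

section core
variable {ν : Measure (Row d)} [IsProbabilityMeasure ν]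

lemma ann_trF (z : Site d) {G : Path d → ℝ≥0∞} (hG : Measurable G) :
    ∫⁻ ω, qE G z ω ∂(iidEnvironmentLaw ν) =
      ∫⁻ ω, qE (fun X => G (Q561.tr z X)) 0 ω ∂(iidEnvironmentLaw ν) := by
  have hm : Measurable fun X => G (Q561.tr z X) := hG.comp (Q561.measurable_tr z)
  have e : ∀ ω : Environment d, qE G z ω = qE (fun X => G (Q561.tr z X)) 0 (shiftEnv z ω) := by
    intro ω
    unfold qE
    have h := Q561.quenched_shift z ω 0
    rw [zero_add] at h
    rw [← h, lintegral_map hG (Q561.measurable_tr z)]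
  simp_rw [e]
  exact (Q561.iid_shift ν z).lintegral_comp (meas_qE hm 0)

lemma Kf_tr (hadd : ∀ x y : Site d, ℓ (x + y) = ℓ x + ℓ y) {z : Site d} {b : ℤ} (hz : ℓ z = b)
    {F : Path d → ℝ≥0∞} (hF : Measurable F) :
    Kf ℓ ν F b z = Kf ℓ ν (fun X => F (Q561.tr z X)) 0 0 := by
  have hm : ∀ b : ℤ, MeasurableSet (St ℓ b ∩ Rf ℓ : Set (Path d)) := fun b =>
    (measurableSet_St b).inter measurableSet_Rf
  have e1 : Kf ℓ ν F b z = ∫⁻ ω, qE ((St ℓ b ∩ Rf ℓ).indicator F) z ω ∂(iidEnvironmentLaw ν) := by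
    unfold Kf qE
    simp_rw [lintegral_indicator (hm b)]
  have e2 : Kf ℓ ν (fun X => F (Q561.tr z X)) 0 0 =
      ∫⁻ ω, qE ((St ℓ 0 ∩ Rf ℓ).indicator fun X => F (Q561.tr z X)) 0 ω
        ∂(iidEnvironmentLaw ν) := by
    unfold Kf qE
    simp_rw [lintegral_indicator (hm 0)]
  rw [e1, e2, ann_trF z (hF.indicator (hm b))]
  congr 1
  funext ω
  congr 1
  funext X
  have h1 := tr_St (ℓ := ℓ) hadd z 0
  rw [zero_add, hz] at h1
  have h2 : Q561.tr z ⁻¹' (St ℓ b ∩ Rf ℓ) = St ℓ 0 ∩ Rf ℓ := by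
    rw [Set.preimage_inter, h1, Rf_tr hadd]
  have h3 : Q561.tr z X ∈ St ℓ b ∩ Rf ℓ ↔ X ∈ St ℓ 0 ∩ Rf ℓ := by
    rw [← h2]; rfl
  by_cases h : X ∈ St ℓ 0 ∩ Rf ℓ
  · rw [Set.indicator_of_mem h, Set.indicator_of_mem (h3.2 h)]
  · rw [Set.indicator_of_notMem h, Set.indicator_of_notMem fun h' => h (h3.1 h')]

/-- comparison of the fresh expectations from two nearby starts -/
theorem Kf_cmp (hadd : ∀ x y : Site d, ℓ (x + y) = ℓ x + ℓ y) {m : ℕ}
    {χ : Fin m → Site d → ℝ≥0∞} {lam : ℝ≥0∞} (h1 : ∀ j z, χ j z ≤ 1)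
    (hL : ∀ j z z', χ j z ≤ χ j z' + lam * (nr (z - z') : ℝ≥0∞)) {s r : ℕ} {δ : ℝ≥0∞}
    (hfar : ∀ A : ℤ, 0 ≤ A → ∫⁻ ω, quenchedLaw ω 0 (Far ℓ A s r) ∂(iidEnvironmentLaw ν) ≤ δ)
    {l : ℤ} {y : Site d} (hy : ℓ y = l) {L : Fin m → ℤ} (hLs : ∀ j, l + s ≤ L j) {i : ℕ}
    (hi : i < s) {z : Site d} (hz : ℓ z = l + i) (hzy : nr (z - y) ≤ r) :
    Kf ℓ ν (PF ℓ χ L) (l + i) z ≤ Kf ℓ ν (PF ℓ χ L) l y +
        ((m : ℝ≥0∞) * (lam * ((2 * r : ℕ) : ℝ≥0∞)) + m * δ) ∧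
      Kf ℓ ν (PF ℓ χ L) l y ≤ Kf ℓ ν (PF ℓ χ L) (l + i) z +
        ((m : ℝ≥0∞) * (lam * ((2 * r : ℕ) : ℝ≥0∞)) + m * δ) := by
  classical
  have hm : MeasurableSet (St ℓ 0 ∩ Rf ℓ : Set (Path d)) :=
    (measurableSet_St 0).inter measurableSet_Rf
  have hmF : ∀ w : Site d, Measurable fun X : Path d => PF ℓ χ L (Q561.tr w X) := fun w =>
    (measurable_PF χ L).comp (Q561.measurable_tr w)
  -- positions after translation
  have hpz : ∀ X : Path d, ∀ j, hp ℓ (L j) (Q561.tr z X) = hp ℓ (L j - (l + i)) X + z := by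
    intro X j
    have := hp_tr hadd (L j - (l + i)) z X
    rwa [hz, sub_add_cancel] at this
  have hpy : ∀ X : Path d, ∀ j, hp ℓ (L j) (Q561.tr y X) = hp ℓ (L j - (l + i) + i) X + y := by
    intro X j
    have := hp_tr hadd (L j - l) y X
    rw [hy, sub_add_cancel] at this
    rw [this]
    congr 2
    ring
  have hclose : ∀ X : Path d, ∀ j, nr (hp ℓ (L j) (Q561.tr z X) - hp ℓ (L j) (Q561.tr y X)) ≤ 2 * r ∨
      1 ≤ (Far ℓ (L j - (l + i)) s r).indicator (1 : Path d → ℝ≥0∞) X := by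
    intro X j
    by_cases hX : X ∈ Far ℓ (L j - (l + i)) s r
    · right
      rw [Set.indicator_of_mem hX]
      exact le_rfl
    · left
      have h2 : nr (hp ℓ (L j - (l + i) + i) X - hp ℓ (L j - (l + i)) X) ≤ r := by
        by_contra h'
        exact hX ⟨i, hi.le, not_le.1 h'⟩
      rw [hpz, hpy]
      calc nr (hp ℓ (L j - (l + i)) X + z - (hp ℓ (L j - (l + i) + i) X + y))
          = nr ((hp ℓ (L j - (l + i)) X - hp ℓ (L j - (l + i) + i) X) + (z - y)) := by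
            congr 1; abel
        _ ≤ nr (hp ℓ (L j - (l + i)) X - hp ℓ (L j - (l + i) + i) X) + nr (z - y) := nr_add _ _
        _ ≤ 2 * r := by rw [nr_comm]; omega
  have hN : ∀ j, ∫⁻ ω, quenchedLaw ω 0 (Far ℓ (L j - (l + i)) s r) ∂(iidEnvironmentLaw ν) ≤ δ :=
    fun j => hfar _ (by have := hLs j; omega)
  have hint : ∀ (w w' : Site d), (∀ X : Path d, ∀ j,
      nr (hp ℓ (L j) (Q561.tr w X) - hp ℓ (L j) (Q561.tr w' X)) ≤ 2 * r ∨
      1 ≤ (Far ℓ (L j - (l + i)) s r).indicator (1 : Path d → ℝ≥0∞) X) →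
      Kf ℓ ν (fun X => PF ℓ χ L (Q561.tr w X)) 0 0 ≤
        Kf ℓ ν (fun X => PF ℓ χ L (Q561.tr w' X)) 0 0 +
        ((m : ℝ≥0∞) * (lam * ((2 * r : ℕ) : ℝ≥0∞)) + m * δ) := by
    intro w w' hw
    have hpt : ∀ X : Path d, PF ℓ χ L (Q561.tr w X) ≤ PF ℓ χ L (Q561.tr w' X) +
        ((m : ℝ≥0∞) * (lam * ((2 * r : ℕ) : ℝ≥0∞)) +
          ∑ j, (Far ℓ (L j - (l + i)) s r).indicator (1 : Path d → ℝ≥0∞) X) := fun X =>
      cmp h1 hL _ _ _ _ (hw X)
    have hq : ∀ ω : Environment d, ∫⁻ X in St ℓ 0 ∩ Rf ℓ, PF ℓ χ L (Q561.tr w X)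
        ∂quenchedLaw ω 0 ≤ ∫⁻ X in St ℓ 0 ∩ Rf ℓ, PF ℓ χ L (Q561.tr w' X) ∂quenchedLaw ω 0 +
        ((m : ℝ≥0∞) * (lam * ((2 * r : ℕ) : ℝ≥0∞)) +
          ∑ j, quenchedLaw ω 0 (Far ℓ (L j - (l + i)) s r)) := by
      intro ω
      refine (lintegral_mono hpt).trans ?_
      rw [lintegral_add_left (hmF w')]
      gcongr
      rw [lintegral_add_left measurable_const, setLIntegral_const]
      refine add_le_add ?_ ?_
      · calc _ ≤ (m : ℝ≥0∞) * (lam * ((2 * r : ℕ) : ℝ≥0∞)) * 1 :=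
              mul_le_mul_right prob_le_one _
          _ = _ := mul_one _
      · rw [lintegral_finsetSum _ fun j _ => measurable_one.indicator (measurableSet_Far _ s r)]
        gcongr with j _
        rw [lintegral_indicator_one (measurableSet_Far _ s r), Measure.restrict_apply
          (measurableSet_Far _ s r)]
        exact measure_mono Set.inter_subset_left
    unfold Kf
    calc _ ≤ ∫⁻ ω, (∫⁻ X in St ℓ 0 ∩ Rf ℓ, PF ℓ χ L (Q561.tr w' X) ∂quenchedLaw ω 0 +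
        ((m : ℝ≥0∞) * (lam * ((2 * r : ℕ) : ℝ≥0∞)) +
          ∑ j, quenchedLaw ω 0 (Far ℓ (L j - (l + i)) s r))) ∂(iidEnvironmentLaw ν) :=
          lintegral_mono hq
      _ = ∫⁻ ω, ∫⁻ X in St ℓ 0 ∩ Rf ℓ, PF ℓ χ L (Q561.tr w' X) ∂quenchedLaw ω 0
            ∂(iidEnvironmentLaw ν) + ((m : ℝ≥0∞) * (lam * ((2 * r : ℕ) : ℝ≥0∞)) +
          ∑ j, ∫⁻ ω, quenchedLaw ω 0 (Far ℓ (L j - (l + i)) s r) ∂(iidEnvironmentLaw ν)) := by
          rw [lintegral_add_left (meas_qS (hmF w') 0 hm), lintegral_add_left measurable_const,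
            lintegral_finsetSum _ fun j _ =>
              Q561.measurable_quenched_apply 0 (measurableSet_Far _ s r)]
          simp
      _ ≤ _ := by
          gcongr
          calc ∑ j, ∫⁻ ω, quenchedLaw ω 0 (Far ℓ (L j - (l + i)) s r) ∂(iidEnvironmentLaw ν)
              ≤ ∑ j : Fin m, δ := Finset.sum_le_sum fun j _ => hN j
            _ = m * δ := by
                rw [Finset.sum_const, Finset.card_univ, Fintype.card_fin, nsmul_eq_mul]
  rw [Kf_tr hadd hz (measurable_PF χ L), Kf_tr hadd hy (measurable_PF χ L)]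
  refine ⟨hint z y hclose, hint y z fun X j => ?_⟩
  rw [nr_comm]
  exact hclose X j

end core

end Crest.Agent.R154.Resid509
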