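import Crest.Agent.R154.ResidA4_509

/-!
# Row 154, helper509: the rows below a level do not matter for Lipschitz functions on a large scale,
core statement (any dimension, `ℝ≥0∞` valued)
-/

set_option autoImplicit false
set_option linter.unusedVariables false
set_option linter.unusedSectionVars false

namespace Crest.Agent.R154.Resid509

open MeasureTheory ProbabilityTheory Crest.ProbabilityR.RandomEnvironment Crest.Agent.R154
open Crest.Agent.R154.ExK9 Crest.Agent.R154.Resamp9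
open scoped ENNReal

variable {d : ℕ} (ℓ : Site d → ℤ)

/-- the bad probability -/
noncomputable def Bd {m : ℕ} (l : ℤ) (s r : ℕ) (L : Fin m → ℤ) (y : Site d) (ω : Environment d) :
    ℝ≥0∞ :=
  (quenchedLaw ω y (Rf ℓ)ᶜ + quenchedLaw ω y (BadN ℓ l s) + quenchedLaw ω y (Far ℓ l s r)) +
    ∑ j, quenchedLaw ω y (Far ℓ (L j) s r)

variable {ℓ}

lemma meas_Bd {m : ℕ} (l : ℤ) (s r : ℕ) (L : Fin m → ℤ) (y : Site d) :
    Measurable (Bd ℓ l s r L y) :=
  (((Q561.measurable_quenched_apply y measurableSet_Rf.compl).add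
    (Q561.measurable_quenched_apply y (measurableSet_BadN l s))).add
    (Q561.measurable_quenched_apply y (measurableSet_Far l s r))).add
    (Finset.measurable_sum _ fun j _ => Q561.measurable_quenched_apply y
      (measurableSet_Far (L j) s r))

section core
variable {ν : Measure (Row d)} [IsProbabilityMeasure ν]

lemma lint4 {Q : Measure (Environment d)} {a b c : Environment d → ℝ≥0∞} (ha : Measurable a)
    (hb : Measurable b) (hc : Measurable c) {ι : Type*} (s : Finset ι)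
    {e : ι → Environment d → ℝ≥0∞} (he : ∀ j ∈ s, Measurable (e j)) :
    ∫⁻ ω, ((a ω + b ω + c ω) + ∑ j ∈ s, e j ω) ∂Q =
      (∫⁻ ω, a ω ∂Q + ∫⁻ ω, b ω ∂Q + ∫⁻ ω, c ω ∂Q) + ∑ j ∈ s, ∫⁻ ω, e j ω ∂Q := by
  have h1 : Measurable fun ω => a ω + b ω := ha.add hb
  have h2 : Measurable fun ω => a ω + b ω + c ω := h1.add hc
  rw [lintegral_add_left h2, lintegral_add_left h1, lintegral_add_left ha,
    lintegral_finsetSum _ he]

lemma qE_cmp {m : ℕ} {χ : Fin m → Site d → ℝ≥0∞} {lam : ℝ≥0∞} (h1 : ∀ j z, χ j z ≤ 1)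
    (hL : ∀ j z z', χ j z ≤ χ j z' + lam * (nr (z - z') : ℝ≥0∞)) {s r : ℕ}
    (L L₁ L₂ : Fin m → ℤ) (y : Site d)
    (h : ∀ X : Path d, ∀ j, nr (hp ℓ (L₁ j) X - hp ℓ (L₂ j) X) ≤ r ∨ X ∈ Far ℓ (L j) s r)
    (ω : Environment d) :
    qE (PF ℓ χ L₁) y ω ≤ qE (PF ℓ χ L₂) y ω + ((m : ℝ≥0∞) * (lam * r) +
      ∑ j, quenchedLaw ω y (Far ℓ (L j) s r)) := by
  classical
  have hpt : ∀ X : Path d, PF ℓ χ L₁ X ≤ PF ℓ χ L₂ X + ((m : ℝ≥0∞) * (lam * r) +
      ∑ j, (Far ℓ (L j) s r).indicator (1 : Path d → ℝ≥0∞) X) := by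
    intro X
    refine cmp h1 hL _ _ _ _ fun j => ?_
    rcases h X j with h' | h'
    · exact Or.inl h'
    · right
      rw [Set.indicator_of_mem h']
      exact le_rfl
  unfold qE
  refine (lintegral_mono hpt).trans ?_
  rw [lintegral_add_left (measurable_PF χ L₂), lintegral_add_left measurable_const,
    lintegral_const, measure_univ, mul_one,
    lintegral_finsetSum _ fun j _ => measurable_one.indicator (measurableSet_Far _ s r)]
  simp_rw [lintegral_indicator_one (measurableSet_Far _ s r)]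
  exact le_rfl

theorem two_sided (hst : ∀ (z : Site d) (e : Step d), ℓ (z + stepVec e) ≤ ℓ z + 1)
    (hadd : ∀ x y : Site d, ℓ (x + y) = ℓ x + ℓ y)
    {m : ℕ} {χ : Fin m → Site d → ℝ≥0∞} {lam : ℝ≥0∞} (h1 : ∀ j z, χ j z ≤ 1)
    (hL : ∀ j z z', χ j z ≤ χ j z' + lam * (nr (z - z') : ℝ≥0∞)) {s r : ℕ} {δ : ℝ≥0∞}
    (hfar : ∀ A : ℤ, 0 ≤ A → ∫⁻ ω, quenchedLaw ω 0 (Far ℓ A s r) ∂(iidEnvironmentLaw ν) ≤ δ)
    {p : ℝ≥0∞} (hp0 : p ≠ 0) (hpt : p ≠ ⊤)
    (hpK : ∀ z : Site d, ∀ b : ℤ, ℓ z = b → Kf ℓ ν (fun _ => 1) b z = p)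
    {S : Set (Site d)} {l : ℤ} (hS : S ⊆ Bl ℓ l) {y : Site d} (hy : ℓ y = l)
    {L : Fin m → ℤ} (hLl : ∀ j, l ≤ L j) (ω : Environment d) :
    cnd ν S (qE (PF ℓ χ L) y) ω ≤ Kf ℓ ν (PF ℓ χ fun j => max (L j) (l + s)) l y / p +
        (((m : ℝ≥0∞) * (lam * r) + ((m : ℝ≥0∞) * (lam * ((2 * r : ℕ) : ℝ≥0∞)) + m * δ) / p) +
          cnd ν S (Bd ℓ l s r L y) ω) ∧
      Kf ℓ ν (PF ℓ χ fun j => max (L j) (l + s)) l y / p ≤ cnd ν S (qE (PF ℓ χ L) y) ω +
        (((m : ℝ≥0∞) * (lam * r) + ((m : ℝ≥0∞) * (lam * ((2 * r : ℕ) : ℝ≥0∞)) + m * δ) / p) +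
          cnd ν S (Bd ℓ l s r L y) ω) := by
  classical
  set L' : Fin m → ℤ := fun j => max (L j) (l + s) with hL'
  have hL's : ∀ j, l + s ≤ L' j := fun j => le_max_right _ _
  -- first comparison
  have hnear : ∀ X : Path d, ∀ j, nr (hp ℓ (L' j) X - hp ℓ (L j) X) ≤ r ∨ X ∈ Far ℓ (L j) s r := by
    intro X j
    by_cases hX : X ∈ Far ℓ (L j) s r
    · exact Or.inr hX
    · left
      by_contra h'
      refine hX ⟨(L' j - L j).toNat, ?_, ?_⟩
      · have h2 := hLl j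
        have h3 : L' j ≤ L j + s := max_le (by omega) (by omega)
        omega
      · have h3 : L j ≤ L' j := le_max_left _ _
        rw [Int.toNat_of_nonneg (by omega), add_sub_cancel]
        exact not_le.1 h'
  have hmF : Measurable fun ω : Environment d => ∑ j, quenchedLaw ω y (Far ℓ (L j) s r) :=
    Finset.measurable_sum _ fun j _ => Q561.measurable_quenched_apply y
      (measurableSet_Far (L j) s r)
  set cF : ℝ≥0∞ := cnd ν S (fun ω => ∑ j, quenchedLaw ω y (Far ℓ (L j) s r)) ω with hcF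
  have hA : cnd ν S (qE (PF ℓ χ L) y) ω ≤ cnd ν S (qE (PF ℓ χ L') y) ω +
      ((m : ℝ≥0∞) * (lam * r) + cF) := by
    have := cnd_mono (ν := ν) S (fun ω => qE_cmp h1 hL L L L' y (fun X j => by
      rcases hnear X j with h | h
      · left; rw [nr_comm]; exact h
      · exact Or.inr h) ω) ω
    refine this.trans ?_
    rw [cnd_add S (meas_qE (measurable_PF χ L') y), cnd_add S measurable_const, cnd_const]
  have hB : cnd ν S (qE (PF ℓ χ L') y) ω ≤ cnd ν S (qE (PF ℓ χ L) y) ω +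
      ((m : ℝ≥0∞) * (lam * r) + cF) := by
    have := cnd_mono (ν := ν) S (fun ω => qE_cmp h1 hL L L' L y hnear ω) ω
    refine this.trans ?_
    rw [cnd_add S (meas_qE (measurable_PF χ L) y), cnd_add S measurable_const, cnd_const]
  -- mixing
  obtain ⟨hM1, hM2⟩ := mix (ν := ν) hst hS s r hy (measurable_PF χ L') (PF_le_one h1 L')
    (fun X hX i hi n hn => by
      unfold PF
      refine Finset.prod_congr rfl fun j _ => ?_
      rw [hp_shift (by have := hL's j; omega) hn (hX _)]) hp0 hpt hpK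
    (ε := (m : ℝ≥0∞) * (lam * ((2 * r : ℕ) : ℝ≥0∞)) + m * δ)
    (fun i hi z hz hzy => Kf_cmp hadd h1 hL hfar hy hL's hi hz hzy) ω
  -- bad events
  have hbad : cnd ν S (fun ω => quenchedLaw ω y (⋃ i ∈ Finset.range s, Gd ℓ l i r y)ᶜ) ω + cF ≤
      cnd ν S (Bd ℓ l s r L y) ω := by
    have hmU : MeasurableSet (⋃ i ∈ Finset.range s, Gd ℓ l i r y) :=
      Finset.measurableSet_biUnion _ fun i _ => measurableSet_Gd l i r y
    rw [hcF, ← cnd_add S (Q561.measurable_quenched_apply y hmU.compl)]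
    refine cnd_mono S (fun ω => ?_) ω
    unfold Bd
    gcongr
    refine le_trans (measure_mono_ae ?_) ((measure_union_le ((Rf ℓ)ᶜ ∪ BadN ℓ l s)
      (Far ℓ l s r)).trans (add_le_add (measure_union_le _ _) le_rfl))
    filter_upwards [quenched_zero_eq ω y] with X h0 hX
    by_contra h'
    have h2 : ¬ ((X ∈ (Rf ℓ)ᶜ ∨ X ∈ BadN ℓ l s) ∨ X ∈ Far ℓ l s r) := h'
    push Not at h2
    obtain ⟨⟨h3, h4⟩, h5⟩ := h2
    obtain ⟨i, hi, hG⟩ := mem_Gd hy h0 (not_not.1 h3) h4 h5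
    have hX' : X ∈ (⋃ i ∈ Finset.range s, Gd ℓ l i r y)ᶜ := hX
    refine hX' ?_
    simp only [Set.mem_iUnion]
    exact ⟨i, Finset.mem_range.2 hi, hG⟩
  constructor
  · calc cnd ν S (qE (PF ℓ χ L) y) ω ≤ _ := hA
      _ ≤ _ := add_le_add hM1 le_rfl
      _ = Kf ℓ ν (PF ℓ χ L') l y / p +
        (((m : ℝ≥0∞) * (lam * r) + ((m : ℝ≥0∞) * (lam * ((2 * r : ℕ) : ℝ≥0∞)) + m * δ) / p) +
          (cnd ν S (fun ω => quenchedLaw ω y (⋃ i ∈ Finset.range s, Gd ℓ l i r y)ᶜ) ω + cF)) := by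
          ring
      _ ≤ _ := by gcongr
  · calc _ ≤ _ := hM2
      _ ≤ _ := add_le_add (add_le_add hB le_rfl) le_rfl
      _ = cnd ν S (qE (PF ℓ χ L) y) ω +
        (((m : ℝ≥0∞) * (lam * r) + ((m : ℝ≥0∞) * (lam * ((2 * r : ℕ) : ℝ≥0∞)) + m * δ) / p) +
          (cnd ν S (fun ω => quenchedLaw ω y (⋃ i ∈ Finset.range s, Gd ℓ l i r y)ᶜ) ω + cF)) := by
          ring
      _ ≤ _ := by gcongr

/-- weighted bad probability -/
theorem wBd_le (hst : ∀ (z : Site d) (e : Step d), ℓ (z + stepVec e) ≤ ℓ z + 1)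
    (hR : ∀ y : Site d, ∫⁻ ω, quenchedLaw ω y (Rf ℓ)ᶜ ∂(iidEnvironmentLaw ν) = 0)
    {m : ℕ} {s r : ℕ} {δ : ℝ≥0∞} (hUB : UB ℓ ν s δ)
    (hfar : ∀ (y : Site d) (A : ℤ), ℓ y ≤ A →
      ∫⁻ ω, quenchedLaw ω y (Far ℓ A s r) ∂(iidEnvironmentLaw ν) ≤ δ)
    {l : ℤ} {x : Site d} (hx : ℓ x ≤ l) {L : Fin m → ℤ} (hLl : ∀ j, l ≤ L j) :
    ∫⁻ ω, ∑' y, EK ω (Bl ℓ l) x y * cnd ν (Bl ℓ l) (Bd ℓ l s r L y) ω ∂(iidEnvironmentLaw ν) ≤
      (2 + m) * δ := by
  classical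
  set ex : Set (Path d) → Environment d → ℝ≥0∞ := fun B ω =>
    quenchedLaw ω x {X | exT (Bl ℓ l) X ≠ ⊤ ∧ shift (exT (Bl ℓ l) X).toNat X ∈ B} with hex
  have hexm : ∀ B : Set (Path d), MeasurableSet B → Measurable (ex B) := fun B hB =>
    Q561.measurable_quenched_apply x ((isStop_exT _).measurableSet_ne_top.inter
      (measurable_shiftT _ hB))
  have hmk : ∀ B : Set (Path d), MeasurableSet B → ∀ ω : Environment d,
      ∑' y, EK ω (Bl ℓ l) x y * quenchedLaw ω y B = ex B ω := fun B hB ω =>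
    (exit_markov ω _ x hB).symm
  have e1 : ∫⁻ ω, ∑' y, EK ω (Bl ℓ l) x y * cnd ν (Bl ℓ l) (Bd ℓ l s r L y) ω
      ∂(iidEnvironmentLaw ν) =
      ∫⁻ ω, ∑' y, EK ω (Bl ℓ l) x y * Bd ℓ l s r L y ω ∂(iidEnvironmentLaw ν) := by
    rw [lintegral_tsum (f := fun y ω => EK ω (Bl ℓ l) x y * cnd ν (Bl ℓ l) (Bd ℓ l s r L y) ω)
        fun y => ((meas_EK _ x y).mul (meas_cnd _ (meas_Bd l s r L y))).aemeasurable,
      lintegral_tsum (f := fun y ω => EK ω (Bl ℓ l) x y * Bd ℓ l s r L y ω)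
        fun y => ((meas_EK _ x y).mul (meas_Bd l s r L y)).aemeasurable]
    exact tsum_congr fun y => lint_cnd (locOn_EK _ x y) (meas_EK _ x y) (meas_Bd l s r L y)
  have e2 : ∀ ω : Environment d, ∑' y, EK ω (Bl ℓ l) x y * Bd ℓ l s r L y ω =
      (ex (Rf ℓ)ᶜ ω + ex (BadN ℓ l s) ω + ex (Far ℓ l s r) ω) + ∑ j, ex (Far ℓ (L j) s r) ω := by
    intro ω
    rw [← hmk _ measurableSet_Rf.compl, ← hmk _ (measurableSet_BadN l s),
      ← hmk _ (measurableSet_Far l s r)]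
    simp_rw [← hmk _ (measurableSet_Far (L _) s r)]
    rw [← ENNReal.tsum_add, ← ENNReal.tsum_add,
      ← Summable.tsum_finsetSum fun j _ => ENNReal.summable, ← ENNReal.tsum_add]
    refine tsum_congr fun y => ?_
    unfold Bd
    rw [mul_add, mul_add, mul_add, Finset.mul_sum]
  have hRx : ∫⁻ ω, ex (Rf ℓ)ᶜ ω ∂(iidEnvironmentLaw ν) = 0 := by
    refine le_antisymm ?_ zero_le
    rw [← hR x]
    refine lintegral_mono fun ω => measure_mono ?_
    rintro X ⟨h1, h2⟩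
    obtain ⟨N, hN⟩ := ENat.ne_top_iff_exists.1 h1
    have h3 : shift (exT (Bl ℓ l) X).toNat X ∉ Rf ℓ := h2
    rw [← hN, ENat.toNat_natCast] at h3
    exact fun h4 => h3 ((Rf_shift hN.symm).2 h4)
  have hFx : ∀ A : ℤ, l ≤ A → ∫⁻ ω, ex (Far ℓ A s r) ω ∂(iidEnvironmentLaw ν) ≤ δ := by
    intro A hA
    calc ∫⁻ ω, ex (Far ℓ A s r) ω ∂(iidEnvironmentLaw ν)
        ≤ ∫⁻ ω, (quenchedLaw ω x (Far ℓ A s r) + quenchedLaw ω x (Rf ℓ)ᶜ)
            ∂(iidEnvironmentLaw ν) := by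
          refine lintegral_mono fun ω => (measure_mono ?_).trans (measure_union_le _ _)
          rintro X ⟨h1, h2⟩
          by_cases hX : X ∈ Rf ℓ
          · exact Or.inl ((Far_shift hA (exT_toNat hX) hX).1 h2)
          · exact Or.inr hX
      _ ≤ δ + 0 := by
          rw [lintegral_add_left (Q561.measurable_quenched_apply x (measurableSet_Far A s r)), hR]
          gcongr
          exact hfar x A (hx.trans hA)
      _ = δ := add_zero δ
  rw [e1]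
  simp_rw [e2]
  rw [lint4 (hexm _ measurableSet_Rf.compl) (hexm _ (measurableSet_BadN l s))
    (hexm _ (measurableSet_Far l s r)) Finset.univ fun j _ => hexm _ (measurableSet_Far (L j) s r),
    hRx]
  calc _ ≤ 0 + δ + δ + ∑ j : Fin m, δ := by
        gcongr with j _
        · exact ann_exit_le hst hx (measurableSet_BadN l s) fun z hz ω => hUB l z hz ω
        · exact hFx l le_rfl
        · exact hFx (L j) (hLl j)
    _ = (2 + m) * δ := by
        rw [Finset.sum_const, Finset.card_univ, Fintype.card_fin, nsmul_eq_mul]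
        ring

/-- fresh bad probability -/
theorem fBd_le (hR : ∀ y : Site d, ∫⁻ ω, quenchedLaw ω y (Rf ℓ)ᶜ ∂(iidEnvironmentLaw ν) = 0)
    {m : ℕ} {s r : ℕ} {δ : ℝ≥0∞} (hUB : UB ℓ ν s δ)
    (hfar : ∀ (y : Site d) (A : ℤ), ℓ y ≤ A →
      ∫⁻ ω, quenchedLaw ω y (Far ℓ A s r) ∂(iidEnvironmentLaw ν) ≤ δ)
    {l : ℤ} {y : Site d} (hy : ℓ y = l) {L : Fin m → ℤ} (hLl : ∀ j, l ≤ L j)
    (ω : Environment d) : cnd ν ∅ (Bd ℓ l s r L y) ω ≤ (2 + m) * δ := by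
  classical
  have e : cnd ν ∅ (Bd ℓ l s r L y) ω = ∫⁻ η, Bd ℓ l s r L y η ∂(iidEnvironmentLaw ν) :=
    cnd_of_disj (S := (∅ : Set (Site d))) (T := Set.univ) (by simp)
      (fun ω ω' h => by rw [show ω = ω' from funext fun z => h z (Set.mem_univ z)]) ω
  rw [e]
  unfold Bd
  have hm1 := Q561.measurable_quenched_apply (d := d) y (measurableSet_Rf (ℓ := ℓ)).compl
  have hm2 := Q561.measurable_quenched_apply y (measurableSet_BadN (ℓ := ℓ) l s)
  have hm3 := Q561.measurable_quenched_apply y (measurableSet_Far (ℓ := ℓ) l s r)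
  rw [lint4 hm1 hm2 hm3 Finset.univ fun j _ =>
      Q561.measurable_quenched_apply y (measurableSet_Far (L j) s r), hR]
  calc _ ≤ 0 + δ + δ + ∑ j : Fin m, δ := by
        gcongr with j _
        · rw [← lint_cnd_one (S := Bl ℓ l) hm2]
          refine (lintegral_mono fun ω => hUB l y hy ω).trans ?_
          simp
        · exact hfar y l hy.le
        · exact hfar y (L j) (hy.le.trans (hLl j))
    _ = (2 + m) * δ := by
        rw [Finset.sum_const, Finset.card_univ, Fintype.card_fin, nsmul_eq_mul]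
        ring

/-- **core statement** -/
theorem resid_core (hadd : ∀ x y : Site d, ℓ (x + y) = ℓ x + ℓ y)
    (hst : ∀ (z : Site d) (e : Step d), ℓ (z + stepVec e) ≤ ℓ z + 1)
    (hr : rr ℓ ν < 1)
    (hR : ∀ y : Site d, ∫⁻ ω, quenchedLaw ω y (Rf ℓ)ᶜ ∂(iidEnvironmentLaw ν) = 0)
    (m : ℕ) {δ : ℝ≥0∞} (hδ : δ ≠ 0) : ∃ lam : ℝ≥0∞, lam ≠ 0 ∧ ∀ (l : ℤ) (x : Site d), ℓ x ≤ l →
      ∀ L : Fin m → ℤ, (∀ j, l ≤ L j) → ∀ χ : Fin m → Site d → ℝ≥0∞, (∀ j z, χ j z ≤ 1) →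
      (∀ j z z', χ j z ≤ χ j z' + lam * (nr (z - z') : ℝ≥0∞)) →
      ∃ D : Site d → Environment d → ℝ≥0∞, (∀ y, Measurable (D y)) ∧
        (∀ y ω, ℓ y = l →
          cnd ν (Bl ℓ l) (qE (PF ℓ χ L) y) ω ≤
            ∫⁻ η, qE (PF ℓ χ L) y η ∂(iidEnvironmentLaw ν) + D y ω ∧
          ∫⁻ η, qE (PF ℓ χ L) y η ∂(iidEnvironmentLaw ν) ≤
            cnd ν (Bl ℓ l) (qE (PF ℓ χ L) y) ω + D y ω) ∧
        ∫⁻ ω, ∑' y, EK ω (Bl ℓ l) x y * D y ω ∂(iidEnvironmentLaw ν) ≤ δ := by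
  classical
  have h0 : ℓ 0 = 0 := by have := hadd 0 0; rw [add_zero] at this; omega
  have hm0 : MeasurableSet (St ℓ 0 ∩ Rf ℓ : Set (Path d)) :=
    (measurableSet_St 0).inter measurableSet_Rf
  -- probability to stay above the start
  set p : ℝ≥0∞ := Kf ℓ ν (fun _ => 1) 0 0 with hpdef
  have hpe : p = ∫⁻ ω, quenchedLaw ω 0 (St ℓ 0 ∩ Rf ℓ) ∂(iidEnvironmentLaw ν) := by
    rw [hpdef]; unfold Kf; simp_rw [setLIntegral_one]
  have hp0 : p ≠ 0 := by
    intro h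
    have h1 : (1 : ℝ≥0∞) ≤ p + (rr ℓ ν + 0) := by
      rw [hpe, ← hR 0]
      unfold rr
      rw [← lintegral_add_left (Q561.measurable_quenched_apply 0 (measurableSet_St 0).compl),
        ← lintegral_add_left (Q561.measurable_quenched_apply 0 hm0)]
      calc (1 : ℝ≥0∞) = ∫⁻ ω : Environment d, 1 ∂(iidEnvironmentLaw ν) := by simp
        _ ≤ _ := by
            refine lintegral_mono fun ω => ?_
            calc (1 : ℝ≥0∞) = quenchedLaw ω 0 Set.univ := measure_univ.symm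
              _ ≤ quenchedLaw ω 0 ((St ℓ 0 ∩ Rf ℓ) ∪ ((St ℓ 0)ᶜ ∪ (Rf ℓ)ᶜ)) := by
                  refine measure_mono fun X _ => ?_
                  by_cases h2 : X ∈ St ℓ 0 ∩ Rf ℓ
                  · exact Or.inl h2
                  · right
                    by_cases h3 : X ∈ St ℓ 0
                    · exact Or.inr fun h4 => h2 ⟨h3, h4⟩
                    · exact Or.inl h3
              _ ≤ _ := (measure_union_le _ _).trans (add_le_add le_rfl (measure_union_le _ _))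
    rw [h, zero_add, add_zero] at h1
    exact absurd hr (not_lt.2 h1)
  have hpt : p ≠ ⊤ := by
    refine ne_top_of_le_ne_top ENNReal.one_ne_top ?_
    rw [hpe]
    calc _ ≤ ∫⁻ ω : Environment d, 1 ∂(iidEnvironmentLaw ν) := lintegral_mono fun ω => prob_le_one
      _ = 1 := by simp
  have hp : ∀ z : Site d, ∀ b : ℤ, ℓ z = b → Kf ℓ ν (fun _ => 1) b z = p := fun z b hz =>
    Kf_tr hadd hz measurable_const
  have hq : p⁻¹ ≠ ⊤ := ENNReal.inv_ne_top.2 hp0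
  -- constants
  set c1 : ℝ≥0∞ := 2 * (m * p⁻¹) + 2 * (2 + m) with hc1
  have hc1t : c1 ≠ ⊤ := ENNReal.add_ne_top.2 ⟨ENNReal.mul_ne_top (by simp)
    (ENNReal.mul_ne_top (ENNReal.natCast_ne_top m) hq), ENNReal.mul_ne_top (by simp)
    (ENNReal.add_ne_top.2 ⟨by simp, ENNReal.natCast_ne_top m⟩)⟩
  have hδ2 : δ / 2 ≠ 0 := by simp [hδ]
  set δ' : ℝ≥0∞ := δ / 2 / c1 with hδ'
  have hδ'0 : δ' ≠ 0 := ENNReal.div_ne_zero.2 ⟨hδ2, hc1t⟩
  obtain ⟨s, hs, hUB⟩ := exists_UB (ν := ν) hadd hst hr hδ'0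
  obtain ⟨r, hfar⟩ := exists_far hadd hst hr hR s hδ'0
  set c2 : ℝ≥0∞ := 2 * (m * r) + 2 * (m * ((2 * r : ℕ) : ℝ≥0∞) * p⁻¹) + 1 with hc2
  have hc2t : c2 ≠ ⊤ := ENNReal.add_ne_top.2 ⟨ENNReal.add_ne_top.2 ⟨ENNReal.mul_ne_top (by simp)
    (ENNReal.mul_ne_top (ENNReal.natCast_ne_top m) (ENNReal.natCast_ne_top r)),
    ENNReal.mul_ne_top (by simp) (ENNReal.mul_ne_top (ENNReal.mul_ne_top
      (ENNReal.natCast_ne_top m) (ENNReal.natCast_ne_top _)) hq)⟩, by simp⟩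
  refine ⟨δ / 2 / c2, ENNReal.div_ne_zero.2 ⟨hδ2, hc2t⟩, fun l x hx L hLl χ h1 hL => ?_⟩
  set lam : ℝ≥0∞ := δ / 2 / c2 with hlam
  set E : ℝ≥0∞ := (m : ℝ≥0∞) * (lam * r) +
    ((m : ℝ≥0∞) * (lam * ((2 * r : ℕ) : ℝ≥0∞)) + m * δ') / p with hE
  have hts : ∀ (S : Set (Site d)), S ⊆ Bl ℓ l → ∀ (y : Site d), ℓ y = l → ∀ ω, _ :=
    fun S hS y hy ω => two_sided (ν := ν) hst hadd h1 hL
      (fun A hA => hfar 0 A (by rw [h0]; exact hA)) hp0 hpt hp hS hy hLl ω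
  refine ⟨fun y ω => (2 * E + (2 + m) * δ') + cnd ν (Bl ℓ l) (Bd ℓ l s r L y) ω, fun y => ?_,
    fun y ω hy => ?_, ?_⟩
  · exact (meas_cnd _ (meas_Bd l s r L y)).const_add _
  · obtain ⟨a1, a2⟩ := hts (Bl ℓ l) subset_rfl y hy ω
    obtain ⟨b1, b2⟩ := hts ∅ (Set.empty_subset _) y hy ω
    have e : cnd ν ∅ (qE (PF ℓ χ L) y) ω =
        ∫⁻ η, qE (PF ℓ χ L) y η ∂(iidEnvironmentLaw ν) :=
      cnd_of_disj (S := (∅ : Set (Site d))) (T := Set.univ) (by simp)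
        (fun ω ω' h => by rw [show ω = ω' from funext fun z => h z (Set.mem_univ z)]) ω
    rw [e] at b1 b2
    have hb := fBd_le (ν := ν) hR hUB hfar hy hLl ω
    constructor
    · calc _ ≤ _ := a1
        _ ≤ _ := add_le_add b2 le_rfl
        _ = ∫⁻ η, qE (PF ℓ χ L) y η ∂(iidEnvironmentLaw ν) +
            ((2 * E + cnd ν ∅ (Bd ℓ l s r L y) ω) + cnd ν (Bl ℓ l) (Bd ℓ l s r L y) ω) := by
            rw [hE]; ring
        _ ≤ _ := add_le_add le_rfl (add_le_add (add_le_add le_rfl hb) le_rfl)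
    · calc _ ≤ _ := b1
        _ ≤ _ := add_le_add a2 le_rfl
        _ = cnd ν (Bl ℓ l) (qE (PF ℓ χ L) y) ω +
            ((2 * E + cnd ν ∅ (Bd ℓ l s r L y) ω) + cnd ν (Bl ℓ l) (Bd ℓ l s r L y) ω) := by
            rw [hE]; ring
        _ ≤ _ := add_le_add le_rfl (add_le_add (add_le_add le_rfl hb) le_rfl)
  · calc ∫⁻ ω, ∑' y, EK ω (Bl ℓ l) x y * ((2 * E + (2 + m) * δ') +
          cnd ν (Bl ℓ l) (Bd ℓ l s r L y) ω) ∂(iidEnvironmentLaw ν)
        ≤ ∫⁻ ω, ((2 * E + (2 + m) * δ') + ∑' y, EK ω (Bl ℓ l) x y *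
          cnd ν (Bl ℓ l) (Bd ℓ l s r L y) ω) ∂(iidEnvironmentLaw ν) := by
          refine lintegral_mono fun ω => ?_
          calc _ = ∑' y, (EK ω (Bl ℓ l) x y * (2 * E + (2 + m) * δ') +
                EK ω (Bl ℓ l) x y * cnd ν (Bl ℓ l) (Bd ℓ l s r L y) ω) :=
                tsum_congr fun y => mul_add _ _ _
            _ = (∑' y, EK ω (Bl ℓ l) x y) * (2 * E + (2 + m) * δ') +
                ∑' y, EK ω (Bl ℓ l) x y * cnd ν (Bl ℓ l) (Bd ℓ l s r L y) ω := by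
                rw [ENNReal.tsum_add, ENNReal.tsum_mul_right]
            _ ≤ 1 * (2 * E + (2 + m) * δ') +
                ∑' y, EK ω (Bl ℓ l) x y * cnd ν (Bl ℓ l) (Bd ℓ l s r L y) ω := by
                gcongr; exact tsum_EK_le ω _ x
            _ = _ := by rw [one_mul]
      _ ≤ (2 * E + (2 + m) * δ') + (2 + m) * δ' := by
          rw [lintegral_add_left measurable_const]
          gcongr
          · simp
          · exact wBd_le hst hR hUB hfar hx hLl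
      _ = c1 * δ' + (2 * (m * r) + 2 * (m * ((2 * r : ℕ) : ℝ≥0∞) * p⁻¹)) * lam := by
          rw [hE, hc1, div_eq_mul_inv]; ring
      _ ≤ c1 * δ' + c2 * lam := by
          gcongr
          exact le_self_add
      _ ≤ δ / 2 + δ / 2 := add_le_add ENNReal.mul_div_le ENNReal.mul_div_le
      _ = δ := ENNReal.add_halves δ

end core

end Crest.Agent.R154.Resid509
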