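import Crest.Agent.R154.Resamp_9

/-!
# Row 154, helper509: natural levels, trials from any past

`ℓ : Site d → ℤ` an additive level function, nearest neighbour (`ℓ (stepVec e) ≤ 1`).
* `Nt ℓ b` : `b` is a natural (cut) level of the path;
* `UB` : `sup over the past of P(no natural level in [m, m+s), level m+s reached | rows below m) ≤ c`;
* `exists_UB` : for every `δ ≠ 0` there is `s` with `UB s δ` (as soon as `P(stay ≥ 0) ≠ 0`).
-/

set_option autoImplicit false
set_option linter.unusedVariables false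
set_option linter.unusedSectionVars false

namespace Crest.Agent.R154.Resid509

open MeasureTheory ProbabilityTheory Crest.ProbabilityR.RandomEnvironment Crest.Agent.R154
open Crest.Agent.R154.ExK9 Crest.Agent.R154.Resamp9
open scoped ENNReal

variable {d : ℕ} (ℓ : Site d → ℤ)

/-- the rows strictly below the level `L` -/
def Bl (L : ℤ) : Set (Site d) := {z | ℓ z < L}

/-- paths which stay at levels `≥ b` -/
def St (b : ℤ) : Set (Path d) := {X | ∀ n, b ≤ ℓ (X n)}

/-- `b` is a natural (cut) level of `X` -/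
def Nt (b : ℤ) : Set (Path d) :=
  {X | ∃ n : ℕ, (∀ i, i < n → ℓ (X i) < b) ∧ ∀ m, n ≤ m → b ≤ ℓ (X m)}

/-- no natural level in `[m, m+s)`, and the level `m+s` is reached -/
def BadN (m : ℤ) (s : ℕ) : Set (Path d) :=
  {X | (∃ n, m + s ≤ ℓ (X n)) ∧ ∀ i : ℕ, i < s → X ∉ Nt ℓ (m + i)}

/-- the path climbs to the level `m+K` before it is below `m` -/
def Climb (m : ℤ) (K : ℕ) : Set (Path d) :=
  {X | ∃ n, m + K ≤ ℓ (X n) ∧ ∀ i, i ≤ n → m ≤ ℓ (X i)}

/-- the path is below `m` before it reaches `m+K` -/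
def Dp (m : ℤ) (K : ℕ) : Set (Path d) :=
  {X | ∃ n, ℓ (X n) < m ∧ ∀ i, i ≤ n → ℓ (X i) < m + K}

variable {ℓ}

/-! ### measurability -/

lemma mCo (n : ℕ) (p : Site d → Prop) : MeasurableSet {X : Path d | p (X n)} :=
  measurable_pi_apply n (Set.to_countable {z : Site d | p z}).measurableSet

lemma mEx {ι : Type*} [Countable ι] {p : ι → Path d → Prop}
    (h : ∀ i, MeasurableSet {X | p i X}) : MeasurableSet {X | ∃ i, p i X} := by
  have : {X | ∃ i, p i X} = ⋃ i, {X | p i X} := by ext; simp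
  rw [this]; exact MeasurableSet.iUnion h

lemma mAll {ι : Sort*} [Countable ι] {p : ι → Path d → Prop}
    (h : ∀ i, MeasurableSet {X | p i X}) : MeasurableSet {X | ∀ i, p i X} := by
  have : {X | ∀ i, p i X} = ⋂ i, {X | p i X} := by ext; simp
  rw [this]; exact MeasurableSet.iInter h

lemma mAnd {p q : Path d → Prop} (hp : MeasurableSet {X | p X}) (hq : MeasurableSet {X | q X}) :
    MeasurableSet {X | p X ∧ q X} := hp.inter hq

lemma measurableSet_St (b : ℤ) : MeasurableSet (St ℓ b) :=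
  mAll fun n => mCo n fun z => b ≤ ℓ z

lemma measurableSet_Nt (b : ℤ) : MeasurableSet (Nt ℓ b) :=
  mEx fun n => mAnd (mAll fun i => mAll fun _ => mCo i fun z => ℓ z < b)
    (mAll fun m => mAll fun _ => mCo m fun z => b ≤ ℓ z)

lemma measurableSet_BadN (m : ℤ) (s : ℕ) : MeasurableSet (BadN ℓ m s) :=
  mAnd (mEx fun n => mCo n fun z => m + s ≤ ℓ z)
    (mAll fun i => mAll fun _ => (measurableSet_Nt (m + i)).compl)

lemma measurableSet_Climb (m : ℤ) (K : ℕ) : MeasurableSet (Climb ℓ m K) :=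
  mEx fun n => mAnd (mCo n fun z => m + K ≤ ℓ z) (mAll fun i => mAll fun _ => mCo i fun z => m ≤ ℓ z)

lemma measurableSet_Dp (m : ℤ) (K : ℕ) : MeasurableSet (Dp ℓ m K) :=
  mEx fun n => mAnd (mCo n fun z => ℓ z < m) (mAll fun i => mAll fun _ => mCo i fun z => ℓ z < m + K)

/-! ### hitting times of levels -/

lemma exT_Bl {L : ℤ} {X : Path d} {n : ℕ} :
    exT (Bl ℓ L) X = n ↔ L ≤ ℓ (X n) ∧ ∀ i < n, ℓ (X i) < L := by
  rw [exT_eq_iff]
  simp [Bl]

lemma exT_Bl_ne_top {L : ℤ} {X : Path d} : exT (Bl ℓ L) X ≠ ⊤ ↔ ∃ n, L ≤ ℓ (X n) := by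
  rw [Ne, exT_eq_top_iff]
  simp [Bl]

/-- natural levels above `L` are seen after the hitting time of `L` -/
lemma Nt_shift {L b : ℤ} (hb : L ≤ b) {X : Path d} {n : ℕ} (hn : exT (Bl ℓ L) X = n) :
    shift n X ∈ Nt ℓ b ↔ X ∈ Nt ℓ b := by
  obtain ⟨h1, h2⟩ := exT_Bl.1 hn
  constructor
  · rintro ⟨k, hk1, hk2⟩
    refine ⟨n + k, fun i hi => ?_, fun m hm => ?_⟩
    · rcases Nat.lt_or_ge i n with h | h
      · exact lt_of_lt_of_le (h2 i h) hb
      · have := hk1 (i - n) (by omega)
        have h3 : ℓ (X (n + (i - n))) < b := this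
        rwa [Nat.add_sub_cancel' h] at h3
    · have := hk2 (m - n) (by omega)
      have h3 : b ≤ ℓ (X (n + (m - n))) := this
      rwa [Nat.add_sub_cancel' (by omega)] at h3
  · rintro ⟨k, hk1, hk2⟩
    have hnk : n ≤ k := by
      by_contra h
      have h3 := hk2 k le_rfl
      have h4 := h2 k (by omega)
      omega
    refine ⟨k - n, fun i hi => ?_, fun m hm => ?_⟩
    · exact hk1 (n + i) (by omega)
    · exact hk2 (n + m) (by omega)

lemma Nt_start {m : ℤ} {X : Path d} (h0 : ℓ (X 0) = m) : X ∈ Nt ℓ m ↔ X ∈ St ℓ m := by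
  constructor
  · rintro ⟨n, hn1, hn2⟩
    rcases Nat.eq_zero_or_pos n with h | h
    · subst h
      exact fun k => hn2 k (Nat.zero_le k)
    · have := hn1 0 h
      omega
  · intro h
    exact ⟨0, fun i hi => absurd hi (Nat.not_lt_zero i), fun k _ => h k⟩

/-- one trial -/
lemma BadN_subset {m : ℤ} {K s : ℕ} (hK : 1 ≤ K) {X : Path d} (h0 : ℓ (X 0) = m)
    (hX : X ∈ BadN ℓ m (K + s)) :
    X ∈ Climb ℓ m K \ St ℓ m ∨
      X ∈ {X : Path d | exT (Bl ℓ (m + K)) X ≠ ⊤} ∩ Dp ℓ m K ∩
        {X | shift (exT (Bl ℓ (m + K)) X).toNat X ∈ BadN ℓ (m + K) s} := by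
  obtain ⟨⟨n1, hn1⟩, hN⟩ := hX
  have hne : exT (Bl ℓ (m + K)) X ≠ ⊤ := exT_Bl_ne_top.2 ⟨n1, by push_cast at hn1; omega⟩
  obtain ⟨N, hN'⟩ := ENat.ne_top_iff_exists.1 hne
  have hT : exT (Bl ℓ (m + K)) X = N := hN'.symm
  obtain ⟨hT1, hT2⟩ := exT_Bl.1 hT
  have hS : X ∉ St ℓ m := by
    have := hN 0 (by omega)
    rw [Nat.cast_zero, add_zero, Nt_start h0] at this
    exact this
  by_cases hall : ∀ i, i ≤ N → m ≤ ℓ (X i)
  · left
    exact ⟨⟨N, hT1, hall⟩, hS⟩
  · right
    push Not at hall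
    obtain ⟨i, hi1, hi2⟩ := hall
    have hiN : i < N := by
      rcases Nat.lt_or_ge i N with h | h
      · exact h
      · have : i = N := le_antisymm hi1 h
        subst this
        have : (0 : ℤ) ≤ K := Int.natCast_nonneg K
        omega
    refine ⟨⟨hne, i, hi2, fun j hj => hT2 j (by omega)⟩, ?_⟩
    show shift (exT (Bl ℓ (m + K)) X).toNat X ∈ BadN ℓ (m + K) s
    rw [hT, ENat.toNat_natCast]
    refine ⟨⟨n1 - N, ?_⟩, fun j hj => ?_⟩
    · have hNn : N ≤ n1 := by
        by_contra h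
        have := hT2 n1 (by omega)
        push_cast at hn1
        omega
      show m + K + s ≤ ℓ (X (N + (n1 - N)))
      rw [Nat.add_sub_cancel' hNn]
      push_cast at hn1
      omega
    · rw [Nt_shift (by have : (0 : ℤ) ≤ j := Int.natCast_nonneg j; omega) hT]
      have := hN (K + j) (by omega)
      push_cast at this
      rwa [add_assoc]

lemma Dp_subset (m : ℤ) (K : ℕ) : Dp ℓ m K ⊆ (St ℓ m)ᶜ := by
  rintro X ⟨n, hn, -⟩ h
  have := h n
  omega

/-! ### decided events -/

lemma detBy_Dp (m : ℤ) (K : ℕ) : DetBy (exT (Bl ℓ (m + K))) (· ∈ Dp ℓ m K) := by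
  have key : ∀ X Y : Path d, ∀ n : ℕ, Agree n X Y → exT (Bl ℓ (m + K)) X = n → X ∈ Dp ℓ m K →
      Y ∈ Dp ℓ m K := by
    rintro X Y n hXY hn ⟨j, hj1, hj2⟩
    obtain ⟨h1, h2⟩ := exT_Bl.1 hn
    have hjn : j < n := by
      by_contra h
      have := hj2 n (by omega)
      omega
    refine ⟨j, by rw [← hXY j hjn.le]; exact hj1, fun i hi => ?_⟩
    rw [← hXY i (by omega)]
    exact hj2 i hi
  intro X Y n hXY hn
  have hn' : exT (Bl ℓ (m + K)) Y = n := isStop_exT _ X Y n hXY hn
  exact propext ⟨key X Y n hXY hn, key Y X n hXY.symm hn'⟩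

/-- an event determined by the path up to the exit of `A`, with a prescribed exit point, is decided
inside `A` -/
lemma dec_of_detBy {A : Set (Site d)} {E : Set (Path d)} (hE : DetBy (exT A) (· ∈ E))
    (z : Site d) : Q561.Dec A (E ∩ ExS A z) := by
  have e : E ∩ ExS A z = ⋃ n : ℕ, {X | exT A X = n ∧ X ∈ E ∧ X n = z} := by
    ext X
    simp only [Set.mem_inter_iff, Set.mem_iUnion, Set.mem_ofPred_eq]
    constructor
    · rintro ⟨h1, h2⟩
      obtain ⟨h3, h4⟩ := mem_ExS_iff.1 h2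
      obtain ⟨n, hn⟩ := ENat.ne_top_iff_exists.1 h3
      refine ⟨n, hn.symm, h1, ?_⟩
      rw [← hn, ENat.toNat_natCast] at h4
      exact h4
    · rintro ⟨n, h1, h2, h3⟩
      refine ⟨h2, mem_ExS_iff.2 ⟨by rw [h1]; exact ENat.natCast_ne_top n, ?_⟩⟩
      rw [h1, ENat.toNat_natCast]
      exact h3
  rw [e]
  refine Q561.dec_iUnion fun n => Q561.dec_of_depOn (n := n) ?_ ?_
  · rintro X Y h ⟨h1, h2, h3⟩
    have hA : Agree n X Y := h
    have h4 : exT A Y = n := isStop_exT A X Y n hA h1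
    refine ⟨h4, ?_, by rw [← h n le_rfl]; exact h3⟩
    have h5 : (X ∈ E) = (Y ∈ E) := hE X Y n hA h1
    exact h5.mp h2
  · rintro X ⟨h1, -, -⟩ k hk
    exact (exT_eq_iff.1 h1).2 k hk

lemma dec_St (b : ℤ) : Q561.Dec {z : Site d | b ≤ ℓ z} (St ℓ b) :=
  Q561.dec_of_forall fun X hX k => hX k

lemma dec_Climb (m : ℤ) (K : ℕ) : Q561.Dec {z : Site d | m ≤ ℓ z} (Climb ℓ m K) := by
  have e : Climb ℓ m K = ⋃ n : ℕ, {X : Path d | m + K ≤ ℓ (X n) ∧ ∀ i, i ≤ n → m ≤ ℓ (X i)} := by
    ext X; simp [Climb]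
  rw [e]
  refine Q561.dec_iUnion fun n => Q561.dec_of_depOn (n := n) ?_ ?_
  · rintro X Y h ⟨h1, h2⟩
    exact ⟨by rw [← h n le_rfl]; exact h1, fun i hi => by rw [← h i hi]; exact h2 i hi⟩
  · rintro X ⟨-, h2⟩ k hk
    exact h2 k hk.le

lemma dec_CS (m : ℤ) (K : ℕ) : Q561.Dec {z : Site d | m ≤ ℓ z} (Climb ℓ m K \ St ℓ m) :=
  (dec_Climb m K).inter (dec_St m).compl

lemma disj_Bl (m : ℤ) : Disjoint (Bl ℓ m) {z : Site d | m ≤ ℓ z} :=
  Set.disjoint_left.2 fun z hz hz' => by
    have h1 : ℓ z < m := hz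
    have h2 : m ≤ ℓ z := hz'
    omega

lemma Bl_mono {m m' : ℤ} (h : m ≤ m') : Bl ℓ m ⊆ Bl ℓ m' := fun z hz => lt_of_lt_of_le hz h

/-! ### strong Markov property with a constrained past -/

/-- **strong Markov property**: the past event `E` is determined by the path up to the exit of `A` -/
theorem markovF (ω : Environment d) (A : Set (Site d)) (x : Site d) {E : Set (Path d)}
    (hE : DetBy (exT A) (· ∈ E)) (hEm : MeasurableSet E) {F : Path d → ℝ≥0∞} (hF : Measurable F) :
    ∫⁻ X in {X | exT A X ≠ ⊤} ∩ E, F (shift (exT A X).toNat X) ∂quenchedLaw ω x =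
      ∑' z, quenchedLaw ω x (E ∩ ExS A z) * ∫⁻ Y, F Y ∂quenchedLaw ω z := by
  classical
  have hT := (isStop_exT A).measurableSet_ne_top
  have h := strong_markov ω x (isStop_exT A)
    (F := fun X Y => E.indicator 1 X * F Y)
    (fun X X' n hX hn => by
      have : E.indicator (1 : Path d → ℝ≥0∞) X = E.indicator 1 X' := by
        have := hE X X' n hX hn
        simp only [Set.indicator, this, Pi.one_apply]
      simp only [this])
    (fun X => hF.const_mul _)
  have e1 : ∫⁻ X in {X | exT A X ≠ ⊤}, E.indicator 1 X * F (shift (exT A X).toNat X)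
      ∂quenchedLaw ω x = ∫⁻ X in {X | exT A X ≠ ⊤} ∩ E, F (shift (exT A X).toNat X)
      ∂quenchedLaw ω x := by
    rw [Set.inter_comm, ← Measure.restrict_restrict hEm, ← lintegral_indicator hEm]
    refine lintegral_congr fun X => ?_
    by_cases hX : X ∈ E <;> simp [hX]
  have e2 : {X : Path d | exT A X ≠ ⊤} = ⋃ z, ExS A z := by
    ext X
    simp only [Set.mem_ofPred_eq, Set.mem_iUnion]
    constructor
    · intro h; exact ⟨_, mem_ExS_iff.2 ⟨h, rfl⟩⟩
    · rintro ⟨z, hz⟩; exact (mem_ExS_iff.1 hz).1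
  rw [← e1, h]
  conv_lhs => rw [e2]
  rw [lintegral_iUnion (measurableSet_ExS A) (ExS_disjoint A)]
  refine tsum_congr fun z => ?_
  have e3 : ∫⁻ X in ExS A z, ∫⁻ Y, E.indicator 1 X * F Y ∂quenchedLaw ω (X (exT A X).toNat)
      ∂quenchedLaw ω x = ∫⁻ X in ExS A z, E.indicator 1 X * ∫⁻ Y, F Y ∂quenchedLaw ω z
      ∂quenchedLaw ω x := by
    refine setLIntegral_congr_fun (measurableSet_ExS A z) fun X hX => ?_
    rw [(mem_ExS_iff.1 hX).2, lintegral_const_mul _ hF]
  rw [e3, lintegral_mul_const _ (measurable_one.indicator hEm), lintegral_indicator_one hEm,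
    Measure.restrict_apply hEm]

theorem markovE (ω : Environment d) (A : Set (Site d)) (x : Site d) {E : Set (Path d)}
    (hE : DetBy (exT A) (· ∈ E)) (hEm : MeasurableSet E) {B : Set (Path d)}
    (hB : MeasurableSet B) :
    quenchedLaw ω x ({X | exT A X ≠ ⊤} ∩ E ∩ {X | shift (exT A X).toNat X ∈ B}) =
      ∑' z, quenchedLaw ω x (E ∩ ExS A z) * quenchedLaw ω z B := by
  have h := markovF ω A x hE hEm (F := B.indicator 1) (measurable_one.indicator hB)
  have hT := (isStop_exT A).measurableSet_ne_top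
  have hshift : Measurable fun X : Path d => shift (exT A X).toNat X := by
    refine measurable_pi_iff.2 fun i => ?_
    have h1 : Measurable fun X : Path d => (exT A X).toNat :=
      (measurable_of_countable ENat.toNat).comp (isStop_exT A).measurable
    have h2 : Measurable fun p : Path d × ℕ => p.1 (p.2 + i) :=
      measurable_from_prod_countable_left fun n => measurable_pi_apply (n + i)
    exact h2.comp (measurable_id.prodMk h1)
  simp only [lintegral_indicator_one hB] at h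
  rw [← h]
  have e : (fun X : Path d => B.indicator (1 : Path d → ℝ≥0∞) (shift (exT A X).toNat X)) =
      ({X : Path d | shift (exT A X).toNat X ∈ B}).indicator 1 := by
    funext X
    by_cases hX : shift (exT A X).toNat X ∈ B
    · rw [Set.indicator_of_mem hX, Set.indicator_of_mem (show X ∈ {X : Path d |
        shift (exT A X).toNat X ∈ B} from hX)]; rfl
    · rw [Set.indicator_of_notMem hX, Set.indicator_of_notMem (show X ∉ {X : Path d |
        shift (exT A X).toNat X ∈ B} from hX)]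
  have hsB : MeasurableSet {X : Path d | shift (exT A X).toNat X ∈ B} := hshift hB
  rw [e, lintegral_indicator_one hsB, Measure.restrict_apply hsB]
  congr 1
  exact Set.inter_comm _ _

lemma measurable_shiftT (A : Set (Site d)) : Measurable fun X : Path d => shift (exT A X).toNat X := by
  refine measurable_pi_iff.2 fun i => ?_
  have h1 : Measurable fun X : Path d => (exT A X).toNat :=
    (measurable_of_countable ENat.toNat).comp (isStop_exT A).measurable
  have h2 : Measurable fun p : Path d × ℕ => p.1 (p.2 + i) :=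
    measurable_from_prod_countable_left fun n => measurable_pi_apply (n + i)
  exact h2.comp (measurable_id.prodMk h1)

/-- the exit of `Bl L` from below is on the level `L` -/
lemma ExS_level (hst : ∀ (z : Site d) (e : Step d), ℓ (z + stepVec e) ≤ ℓ z + 1)
    (ω : Environment d) {L : ℤ} {x : Site d} (hx : ℓ x ≤ L) {z : Site d} (hz : ℓ z ≠ L) :
    quenchedLaw ω x (ExS (Bl ℓ L) z) = 0 := by
  have h : ∀ᵐ X ∂quenchedLaw ω x, X ∉ ExS (Bl ℓ L) z := by
    filter_upwards [quenched_zero_eq ω x, quenched_nn ω x] with X h0 hnn hE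
    obtain ⟨hyA, n, hn, hi'⟩ := hE
    have hT' : L ≤ ℓ z := not_lt.1 hyA
    cases n with
    | zero =>
      rw [h0] at hn
      rw [hn] at hx
      exact hz (le_antisymm hx hT')
    | succ n =>
      obtain ⟨e, he⟩ := hnn n
      have h1 : ℓ (X n) < L := hi' n (Nat.lt_succ_self n)
      have h2 := hst (X n) e
      rw [← he, hn] at h2
      exact hz (by omega)
  have h2 := ae_iff.1 h
  simpa using h2

/-! ### trials -/

section trials
variable (ℓ) (ν : Measure (Row d)) [IsProbabilityMeasure ν]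

/-- from every site `y` of level `m` and every environment below `m`: the probability of no natural
level in `[m, m+s)` (level `m+s` reached) is at most `c` -/
def UB (s : ℕ) (c : ℝ≥0∞) : Prop :=
  ∀ (m : ℤ) (y : Site d), ℓ y = m → ∀ ω : Environment d,
    cnd ν (Bl ℓ m) (fun ω => quenchedLaw ω y (BadN ℓ m s)) ω ≤ c

/-- annealed probability of going below the start -/
noncomputable def rr : ℝ≥0∞ := ∫⁻ ω, quenchedLaw ω 0 (St ℓ 0)ᶜ ∂(iidEnvironmentLaw ν)

/-- annealed probability of climbing `K` levels and going below the start afterwards -/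
noncomputable def epsK (K : ℕ) : ℝ≥0∞ :=
  ∫⁻ ω, quenchedLaw ω 0 (Climb ℓ 0 K \ St ℓ 0) ∂(iidEnvironmentLaw ν)

variable {ℓ ν}

lemma tr_St (hadd : ∀ x y : Site d, ℓ (x + y) = ℓ x + ℓ y) (y : Site d) (b : ℤ) :
    Q561.tr y ⁻¹' St ℓ (b + ℓ y) = St ℓ b := by
  ext X
  simp only [Set.mem_preimage, St, Set.mem_ofPred_eq, Q561.tr, hadd]
  exact forall_congr' fun n => ⟨fun h => by omega, fun h => by omega⟩

lemma tr_Climb (hadd : ∀ x y : Site d, ℓ (x + y) = ℓ x + ℓ y) (y : Site d) (b : ℤ) (K : ℕ) :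
    Q561.tr y ⁻¹' Climb ℓ (b + ℓ y) K = Climb ℓ b K := by
  ext X
  simp only [Set.mem_preimage, Climb, Set.mem_ofPred_eq, Q561.tr, hadd]
  refine exists_congr fun n => and_congr ⟨fun h => by omega, fun h => by omega⟩ ?_
  exact forall_congr' fun i => forall_congr' fun _ => ⟨fun h => by omega, fun h => by omega⟩

lemma ann_tr (y : Site d) {E E' : Set (Path d)} (hE : MeasurableSet E)
    (h : Q561.tr y ⁻¹' E = E') :
    ∫⁻ ω, quenchedLaw ω y E ∂(iidEnvironmentLaw ν) =
      ∫⁻ ω, quenchedLaw ω 0 E' ∂(iidEnvironmentLaw ν) := by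
  have := Q561.annealed_eq_zero_shift (Q561.iid_shift ν) y hE
  unfold annealedProb at this
  rw [this, h]

lemma ann_St_compl (hadd : ∀ x y : Site d, ℓ (x + y) = ℓ x + ℓ y) {y : Site d} {m : ℤ}
    (hy : ℓ y = m) :
    ∫⁻ ω, quenchedLaw ω y (St ℓ m)ᶜ ∂(iidEnvironmentLaw ν) = rr ℓ ν := by
  refine ann_tr y (measurableSet_St m).compl ?_
  have h := tr_St hadd y 0
  rw [zero_add, hy] at h
  rw [Set.preimage_compl, h]

lemma ann_CS (hadd : ∀ x y : Site d, ℓ (x + y) = ℓ x + ℓ y) {y : Site d} {m : ℤ}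
    (hy : ℓ y = m) (K : ℕ) :
    ∫⁻ ω, quenchedLaw ω y (Climb ℓ m K \ St ℓ m) ∂(iidEnvironmentLaw ν) = epsK ℓ ν K := by
  refine ann_tr y ((measurableSet_Climb m K).diff (measurableSet_St m)) ?_
  have h := tr_St hadd y 0
  have h' := tr_Climb hadd y 0 K
  rw [zero_add, hy] at h h'
  rw [Set.preimage_sdiff, h, h']

/-- one more trial -/
theorem UB_step (hadd : ∀ x y : Site d, ℓ (x + y) = ℓ x + ℓ y)
    (hst : ∀ (z : Site d) (e : Step d), ℓ (z + stepVec e) ≤ ℓ z + 1)
    {s K : ℕ} (hK : 1 ≤ K) {c : ℝ≥0∞} (h : UB ℓ ν s c) :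
    UB ℓ ν (K + s) (epsK ℓ ν K + rr ℓ ν * c) := by
  intro m y hy ω
  have hmBad : ∀ z, Measurable fun ω : Environment d => quenchedLaw ω z (BadN ℓ (m + K) s) :=
    fun z => Q561.measurable_quenched_apply z (measurableSet_BadN (m + K) s)
  have hmD : ∀ z, Measurable fun ω : Environment d =>
      quenchedLaw ω y (Dp ℓ m K ∩ ExS (Bl ℓ (m + K)) z) :=
    fun z => Q561.measurable_quenched_apply y ((measurableSet_Dp m K).inter (measurableSet_ExS _ z))
  have hlD : ∀ z, Q561.LocOn (Bl ℓ (m + K)) fun ω : Environment d =>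
      quenchedLaw ω y (Dp ℓ m K ∩ ExS (Bl ℓ (m + K)) z) :=
    fun z => Q561.locOn_quenched y ((measurableSet_Dp m K).inter (measurableSet_ExS _ z))
      (dec_of_detBy (detBy_Dp m K) z)
  have hmC : Measurable fun ω : Environment d => quenchedLaw ω y (Climb ℓ m K \ St ℓ m) :=
    Q561.measurable_quenched_apply y ((measurableSet_Climb m K).diff (measurableSet_St m))
  have hmS : Measurable fun ω : Environment d => quenchedLaw ω y (St ℓ m)ᶜ :=
    Q561.measurable_quenched_apply y (measurableSet_St m).compl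
  have hpt : ∀ ω : Environment d, quenchedLaw ω y (BadN ℓ m (K + s)) ≤
      quenchedLaw ω y (Climb ℓ m K \ St ℓ m) +
        ∑' z, quenchedLaw ω y (Dp ℓ m K ∩ ExS (Bl ℓ (m + K)) z) *
          quenchedLaw ω z (BadN ℓ (m + K) s) := by
    intro ω
    rw [← markovE ω _ y (detBy_Dp m K) (measurableSet_Dp m K) (measurableSet_BadN (m + K) s)]
    refine le_trans (measure_mono_ae ?_) (measure_union_le _ _)
    filter_upwards [quenched_zero_eq ω y] with X h0 hX
    exact BadN_subset hK (by rw [h0]; exact hy) hX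
  have h1 : cnd ν (Bl ℓ m) (fun ω => quenchedLaw ω y (Climb ℓ m K \ St ℓ m)) ω = epsK ℓ ν K := by
    rw [cnd_of_disj (disj_Bl m) (Q561.locOn_quenched y
      ((measurableSet_Climb m K).diff (measurableSet_St m)) (dec_CS m K))]
    exact ann_CS hadd hy K
  have h2 : cnd ν (Bl ℓ m) (fun ω => ∑' z, quenchedLaw ω y (Dp ℓ m K ∩ ExS (Bl ℓ (m + K)) z) *
      quenchedLaw ω z (BadN ℓ (m + K) s)) ω ≤ rr ℓ ν * c := by
    have hmf : Measurable fun ω : Environment d => ∑' z,
        quenchedLaw ω y (Dp ℓ m K ∩ ExS (Bl ℓ (m + K)) z) * quenchedLaw ω z (BadN ℓ (m + K) s) :=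
      Measurable.tsum fun z => (hmD z).mul (hmBad z)
    have htow := cnd_tower (ν := ν) (S := Bl ℓ m) (T := Bl ℓ (m + K)) (Bl_mono (by
      have : (0 : ℤ) ≤ K := Int.natCast_nonneg K
      omega)) hmf ω
    rw [← htow]
    calc _ ≤ cnd ν (Bl ℓ m) (fun ω => c * quenchedLaw ω y (St ℓ m)ᶜ) ω := by
          refine cnd_mono _ (fun ω => ?_) ω
          rw [cnd_tsum (Bl ℓ (m + K)) (f := fun z ω =>
            quenchedLaw ω y (Dp ℓ m K ∩ ExS (Bl ℓ (m + K)) z) *
            quenchedLaw ω z (BadN ℓ (m + K) s)) (fun z => (hmD z).mul (hmBad z))]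
          calc _ ≤ ∑' z, quenchedLaw ω y (Dp ℓ m K ∩ ExS (Bl ℓ (m + K)) z) * c := by
                refine ENNReal.tsum_le_tsum fun z => ?_
                rw [cnd_pull (hlD z) (hmBad z)]
                by_cases hz : ℓ z = m + K
                · gcongr
                  exact h (m + K) z hz ω
                · have h0 : quenchedLaw ω y (Dp ℓ m K ∩ ExS (Bl ℓ (m + K)) z) = 0 := by
                    refine le_antisymm (le_trans (measure_mono Set.inter_subset_right) ?_) zero_le
                    rw [ExS_level hst ω (by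
                      have : (0 : ℤ) ≤ K := Int.natCast_nonneg K
                      omega) hz]
                  rw [h0, zero_mul, zero_mul]
            _ = c * ∑' z, quenchedLaw ω y (Dp ℓ m K ∩ ExS (Bl ℓ (m + K)) z) := by
                rw [ENNReal.tsum_mul_right, mul_comm]
            _ ≤ c * quenchedLaw ω y (St ℓ m)ᶜ := by
                gcongr
                rw [← measure_iUnion]
                · refine measure_mono fun X hX => ?_
                  obtain ⟨z, hz, -⟩ := Set.mem_iUnion.1 hX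
                  exact Dp_subset m K hz
                · intro z z' hne
                  exact (ExS_disjoint _ hne).mono Set.inter_subset_right Set.inter_subset_right
                · exact fun z => (measurableSet_Dp m K).inter (measurableSet_ExS _ z)
      _ = rr ℓ ν * c := by
          rw [cnd_pull (w := fun _ => c) (fun _ _ _ => rfl) hmS, mul_comm,
            cnd_of_disj (disj_Bl m) (Q561.locOn_quenched y (measurableSet_St m).compl
              (dec_St m).compl), ann_St_compl hadd hy]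
  calc cnd ν (Bl ℓ m) (fun ω => quenchedLaw ω y (BadN ℓ m (K + s))) ω
      ≤ cnd ν (Bl ℓ m) (fun ω => quenchedLaw ω y (Climb ℓ m K \ St ℓ m) +
          ∑' z, quenchedLaw ω y (Dp ℓ m K ∩ ExS (Bl ℓ (m + K)) z) *
          quenchedLaw ω z (BadN ℓ (m + K) s)) ω := cnd_mono _ hpt ω
    _ = _ := cnd_add _ hmC ω
    _ ≤ _ := add_le_add h1.le h2

lemma UB_zero : UB ℓ ν 0 1 := fun m y hy ω => cnd_le_one _ (fun ω => prob_le_one) ω

/-- climbing `K` levels and returning below the start has a probability which tends to zero -/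
theorem epsK_tendsto (hst : ∀ (z : Site d) (e : Step d), ℓ (z + stepVec e) ≤ ℓ z + 1)
    (h0 : ℓ 0 = 0) : Filter.Tendsto (epsK ℓ ν) Filter.atTop (nhds 0) := by
  have hm : ∀ K, MeasurableSet (Climb ℓ 0 K \ St ℓ 0) := fun K =>
    (measurableSet_Climb 0 K).diff (measurableSet_St 0)
  have hanti : Antitone fun K : ℕ => Climb ℓ 0 K \ St ℓ 0 := by
    intro K K' hKK X hX
    obtain ⟨⟨n, hn1, hn2⟩, hX2⟩ := hX
    refine ⟨⟨n, ?_, hn2⟩, hX2⟩
    have : (K : ℤ) ≤ K' := by exact_mod_cast hKK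
    omega
  have hptw : ∀ ω : Environment d, Filter.Tendsto
      (fun K => quenchedLaw ω 0 (Climb ℓ 0 K \ St ℓ 0)) Filter.atTop (nhds 0) := by
    intro ω
    have h1 := tendsto_measure_iInter_atTop (μ := quenchedLaw ω 0)
      (s := fun K : ℕ => Climb ℓ 0 K \ St ℓ 0) (fun K => (hm K).nullMeasurableSet) hanti
      ⟨0, measure_ne_top _ _⟩
    have h2 : quenchedLaw ω 0 (⋂ K : ℕ, Climb ℓ 0 K \ St ℓ 0) = 0 := by
      have h3 : ∀ᵐ X ∂quenchedLaw ω 0, X ∉ ⋂ K : ℕ, Climb ℓ 0 K \ St ℓ 0 := by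
        filter_upwards [quenched_zero_eq ω 0, quenched_nn ω 0] with X hX0 hnn hX
        rw [Set.mem_iInter] at hX
        have hup : ∀ n : ℕ, ℓ (X n) ≤ n := by
          intro n
          induction n with
          | zero => rw [hX0, h0]; exact le_rfl
          | succ n ih =>
            obtain ⟨e, he⟩ := hnn n
            have := hst (X n) e
            rw [he]
            push_cast
            omega
        have hS : ∃ k, ℓ (X k) < 0 := by
          have := (hX 0).2
          by_contra hne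
          push Not at hne
          exact this hne
        obtain ⟨k, hk⟩ := hS
        obtain ⟨⟨n, hn1, hn2⟩, -⟩ := hX (k + 1)
        have h4 := hup n
        have h5 : k ≤ n := by
          push_cast at hn1
          omega
        have := hn2 k h5
        omega
      exact measure_eq_zero_iff_ae_notMem.2 h3
    rw [h2] at h1
    exact h1
  have h := tendsto_lintegral_of_dominated_convergence (μ := iidEnvironmentLaw ν)
    (F := fun K ω => quenchedLaw ω 0 (Climb ℓ 0 K \ St ℓ 0)) (f := fun _ => 0) (fun _ => 1)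
    (fun K => Q561.measurable_quenched_apply 0 (hm K))
    (fun K => Filter.Eventually.of_forall fun ω => prob_le_one) (by simp)
    (Filter.Eventually.of_forall hptw)
  rw [lintegral_zero] at h
  exact h

/-- **trials**: no natural level in `[m, m+s)` is unlikely, from every past -/
theorem exists_UB (hadd : ∀ x y : Site d, ℓ (x + y) = ℓ x + ℓ y)
    (hst : ∀ (z : Site d) (e : Step d), ℓ (z + stepVec e) ≤ ℓ z + 1)
    (hr : rr ℓ ν < 1) {δ : ℝ≥0∞} (hδ : δ ≠ 0) : ∃ s : ℕ, 1 ≤ s ∧ UB ℓ ν s δ := by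
  have h0 : ℓ 0 = 0 := by have := hadd 0 0; rw [add_zero] at this; omega
  rcases eq_or_ne δ ⊤ with rfl | hδt
  · exact ⟨1, le_rfl, fun m y _ ω => le_top⟩
  set r := rr ℓ ν with hrdef
  have hp : 1 - r ≠ 0 := (tsub_pos_of_lt hr).ne'
  have hε := epsK_tendsto (ν := ν) hst h0
  have hδ2 : δ / 2 ≠ 0 := by simp [hδ]
  have hε0 : (0 : ℝ≥0∞) < (1 - r) * (δ / 2) := by
    rw [pos_iff_ne_zero]
    exact mul_ne_zero hp hδ2
  obtain ⟨K, hK1, hK⟩ : ∃ K : ℕ, 1 ≤ K ∧ epsK ℓ ν K ≤ (1 - r) * (δ / 2) := by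
    have h1 := (hε.eventually_le_const hε0).and (Filter.eventually_ge_atTop 1)
    obtain ⟨K, hK⟩ := h1.exists
    exact ⟨K, hK.2, hK.1⟩
  have hUB : ∀ j : ℕ, UB ℓ ν (j * K) (δ / 2 + r ^ j) := by
    intro j
    induction j with
    | zero =>
      rw [Nat.zero_mul, pow_zero]
      intro m y hy ω
      exact (UB_zero m y hy ω).trans le_add_self
    | succ j ih =>
      have h1 := UB_step hadd hst hK1 ih
      have e : (j + 1) * K = K + j * K := by ring
      rw [e]
      intro m y hy ω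
      refine (h1 m y hy ω).trans ?_
      calc epsK ℓ ν K + rr ℓ ν * (δ / 2 + r ^ j)
          ≤ (1 - r) * (δ / 2) + r * (δ / 2 + r ^ j) := by gcongr
        _ = ((1 - r) + r) * (δ / 2) + r ^ (j + 1) := by rw [pow_succ]; ring
        _ = δ / 2 + r ^ (j + 1) := by rw [tsub_add_cancel_of_le hr.le, one_mul]
  have hrj : Filter.Tendsto (fun j : ℕ => r ^ j) Filter.atTop (nhds 0) :=
    ENNReal.tendsto_pow_atTop_nhds_zero_of_lt_one hr
  obtain ⟨j, hj1, hj⟩ : ∃ j : ℕ, 1 ≤ j ∧ r ^ j ≤ δ / 2 := by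
    have h1 := (hrj.eventually_le_const (pos_iff_ne_zero.2 hδ2)).and
      (Filter.eventually_ge_atTop 1)
    obtain ⟨j, hj⟩ := h1.exists
    exact ⟨j, hj.2, hj.1⟩
  refine ⟨j * K, Nat.one_le_iff_ne_zero.2 (by positivity), fun m y hy ω => ?_⟩
  refine (hUB j m y hy ω).trans ?_
  calc δ / 2 + r ^ j ≤ δ / 2 + δ / 2 := by gcongr
    _ = δ := ENNReal.add_halves δ

end trials

end Crest.Agent.R154.Resid509
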