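import Crest.Agent.R154.Planar_999
import Crest.Agent.R154.DoobQ_804

/-!
# Row 154, d = 2 block: the quenched river inequality `a + c ≤ 1` (310 #15759 (1)), helper999

`Ex ω B T z` = quenched probability, from `z`, to reach `T` while all earlier sites are in `B`.
`ex_add_le_one`: if every nearest neighbour path of `Y` from `y` through `BY` to `F'` meets every
nearest neighbour path of `X` from `x` through `BX ⊆ BY` to `F`, then
`P^x(BX, F) + P^y(BY, F') ≤ 1`, for every elliptic environment.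
`cross_add_climb_le_one`: the planar case `d = 2`.
-/

set_option autoImplicit false

open MeasureTheory ProbabilityTheory Crest.ProbabilityR.RandomEnvironment
open scoped ENNReal

namespace Crest.Agent.R154.RiverQ999

open Crest.Agent.R154.Planar999 Crest.Agent.R154.Doob804

/-! ## Deterministic two-river lemma -/

/-- Two applications of the river lemma. -/
theorem river_two {V E : Type*} [Fintype E] (nb : E → V → V) (w : V → E → ℝ)
    (BX BY F F' : Set V) (hBY : BY.Finite) (hsub : BX ⊆ BY)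
    (hw : ∀ z ∈ BY, ∀ e, 0 < w z e) (hw1 : ∀ z ∈ BY, ∑ e, w z e = 1)
    (u v : V → ℝ) (hu : ∀ z ∈ BX, u z ≤ ∑ e, w z e * u (nb e z))
    (hv : ∀ z ∈ BY, v z ≤ ∑ e, w z e * v (nb e z))
    (hu0 : ∀ z, z ∉ BX → z ∉ F → u z ≤ 0) (hv0 : ∀ z, z ∉ BY → z ∉ F' → v z ≤ 0)
    (hu1 : ∀ z, u z ≤ 1) (hv1 : ∀ z, v z ≤ 1) (huv : ∀ z ∈ BX, u z + v z ≤ 1)
    (e0 : E) (f : V → ℤ) (hf : ∀ z, f z < f (nb e0 z)) (x y : V) (hx : x ∈ BX) (hy : y ∈ BY)
    (hF : ∀ z ∈ F, z ∉ BY) (hFF : ∀ z ∈ F, z ∉ F')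
    (hmeet : ∀ (n m : ℕ) (p q : ℕ → V), p 0 = y →
      (∀ i < n, p i ∈ BY ∧ ∃ e, p (i + 1) = nb e (p i)) → p n ∈ F' → q 0 = x →
      (∀ j < m, q j ∈ BX ∧ ∃ e, q (j + 1) = nb e (q j)) → q m ∈ F →
      ∃ i ≤ n, ∃ j ≤ m, p i = q j) :
    u x + v y ≤ 1 := by
  classical
  by_cases hux : u x ≤ 0
  · have := hv1 y
    linarith
  push Not at hux
  obtain ⟨m, q, hq0, hqs, hqu, hqm⟩ := river nb w BX (hBY.subset hsub)
    (fun z hz => hw z (hsub hz)) (fun z hz => hw1 z (hsub hz)) u hu e0 f hf x hx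
  have hqF : q m ∈ F := by
    by_contra hcon
    have := hu0 _ hqm hcon
    have := hqu m le_rfl
    linarith
  -- the river as a set of sites of `BX`
  set Γ : Set V := {z | ∃ j < m, q j = z} with hΓ
  by_cases hyΓ : y ∈ Γ
  · obtain ⟨j, hj, hjy⟩ := hyΓ
    have h1 := hqu j hj.le
    rw [hjy] at h1
    have hyX : y ∈ BX := hjy ▸ (hqs j hj).1
    have := huv y hyX
    linarith
  · obtain ⟨n, p, hp0, hps, hpv, hpn⟩ := river nb w (BY \ Γ) (hBY.subset Set.sdiff_subset)
      (fun z hz => hw z hz.1) (fun z hz => hw1 z hz.1) v (fun z hz => hv z hz.1) e0 f hf y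
      ⟨hy, hyΓ⟩
    have h1 := hpv n le_rfl
    by_cases hnΓ : p n ∈ Γ
    · obtain ⟨j, hj, hjn⟩ := hnΓ
      have h2 := hqu j hj.le
      rw [hjn] at h2
      have hX : p n ∈ BX := hjn ▸ (hqs j hj).1
      have := huv _ hX
      linarith
    · have hnB : p n ∉ BY := fun h => hpn ⟨h, hnΓ⟩
      by_cases hnF : p n ∈ F'
      · exfalso
        obtain ⟨i, hi, j, hj, hij⟩ := hmeet n m p q hp0
          (fun i hi => ⟨(hps i hi).1.1, (hps i hi).2⟩) hnF hq0 hqs hqF
        rcases Nat.lt_or_ge j m with hjm | hjm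
        · rcases Nat.lt_or_ge i n with hin | hin
          · exact (hps i hin).1.2 ⟨j, hjm, hij.symm⟩
          · have : i = n := le_antisymm hi hin
            subst this
            exact hnΓ ⟨j, hjm, hij.symm⟩
        · have hj' : j = m := le_antisymm hj hjm
          subst hj'
          rcases Nat.lt_or_ge i n with hin | hin
          · exact hF _ (hij ▸ hqF) (hps i hin).1.1
          · have : i = n := le_antisymm hi hin
            subst this
            exact hFF _ (hij ▸ hqF) hnF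
      · have := hv0 _ hnB hnF
        have := hv1 y
        have h3 : v y ≤ 0 := by linarith
        have h4 := hu1 x
        linarith

/-! ## Quenched exit probabilities -/

variable {d : ℕ}

/-- the event `reach T through B` -/
def exE (B T : Set (Site d)) : Set (Path d) := {X | ∃ n, X n ∈ T ∧ ∀ i < n, X i ∈ B}

/-- quenched probability, from `z`, of reaching `T` through `B` -/
noncomputable def Ex (ω : Environment d) (B T : Set (Site d)) (z : Site d) : ℝ≥0∞ :=
  quenchedLaw ω z (exE B T)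

lemma measurableSet_exE (B T : Set (Site d)) : MeasurableSet (exE B T) := by
  have : exE B T = ⋃ n, {X : Path d | X n ∈ T ∧ ∀ i < n, X i ∈ B} := by
    ext X
    simp [exE]
  rw [this]
  refine MeasurableSet.iUnion fun n => measurableSet_of_agree n _ fun X Y hXY => ?_
  show (X n ∈ T ∧ ∀ i < n, X i ∈ B) ↔ (Y n ∈ T ∧ ∀ i < n, Y i ∈ B)
  rw [hXY n le_rfl]
  refine and_congr Iff.rfl (forall_congr' fun i => forall_congr' fun hi => ?_)
  rw [hXY i hi.le]

lemma Ex_le_one (ω : Environment d) (B T : Set (Site d)) (z : Site d) : Ex ω B T z ≤ 1 :=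
  prob_le_one

lemma Ex_ne_top (ω : Environment d) (B T : Set (Site d)) (z : Site d) : Ex ω B T z ≠ ⊤ :=
  ((Ex_le_one ω B T z).trans_lt ENNReal.one_lt_top).ne

lemma exE_mono {B B' T : Set (Site d)} (h : B ⊆ B') : exE B T ⊆ exE B' T := by
  rintro X ⟨n, h1, h2⟩
  exact ⟨n, h1, fun i hi => h (h2 i hi)⟩

lemma Ex_mono (ω : Environment d) {B B' T : Set (Site d)} (h : B ⊆ B') (z : Site d) :
    Ex ω B T z ≤ Ex ω B' T z := measure_mono (exE_mono h)

/-- one step -/
lemma Ex_step (ω : Environment d) {B T : Set (Site d)} {z : Site d} (hz : z ∈ B) (hT : z ∉ T) :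
    Ex ω B T z = ∑ e : Step d, ENNReal.ofReal ((ω z).1 e) * Ex ω B T (z + stepVec e) := by
  unfold Ex
  rw [quenched_markov_one ω z (exE B T) (measurableSet_exE B T)]
  refine Finset.sum_congr rfl fun e _ => ?_
  congr 2
  ext X
  show consP z X ∈ exE B T ↔ X ∈ exE B T
  constructor
  · rintro ⟨n, h1, h2⟩
    cases n with
    | zero => exact absurd h1 hT
    | succ n => exact ⟨n, h1, fun i hi => h2 (i + 1) (by omega)⟩
  · rintro ⟨n, h1, h2⟩
    refine ⟨n + 1, h1, fun i hi => ?_⟩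
    cases i with
    | zero => exact hz
    | succ i => exact h2 i (by omega)

lemma Ex_zero (ω : Environment d) {B T : Set (Site d)} {z : Site d} (hz : z ∉ B) (hT : z ∉ T) :
    Ex ω B T z = 0 := by
  unfold Ex
  rw [measure_eq_zero_iff_ae_notMem]
  filter_upwards [quenched_start ω z] with X hX
  rintro ⟨n, h1, h2⟩
  cases n with
  | zero => exact hT (hX ▸ h1)
  | succ n => exact hz (hX ▸ h2 0 (by omega))

lemma Ex_one (ω : Environment d) {B T : Set (Site d)} {z : Site d} (hT : z ∈ T) :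
    Ex ω B T z = 1 := by
  unfold Ex
  rw [prob_compl_eq_zero_iff (measurableSet_exE B T) |>.symm, measure_eq_zero_iff_ae_notMem]
  filter_upwards [quenched_start ω z] with X hX
  intro h
  exact h ⟨0, hX.symm ▸ hT, fun i hi => absurd hi (by omega)⟩

lemma Ex_add_le (ω : Environment d) {B F F' : Set (Site d)} (hF : ∀ z ∈ F, z ∉ B)
    (hF' : ∀ z ∈ F', z ∉ B) (hFF : ∀ z ∈ F, z ∉ F') (z : Site d) :
    Ex ω B F z + Ex ω B F' z ≤ 1 := by
  unfold Ex
  rw [← measure_union _ (measurableSet_exE B F')]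
  · exact prob_le_one
  · rw [Set.disjoint_left]
    rintro X ⟨n, h1, h2⟩ ⟨m, h3, h4⟩
    rcases Nat.lt_trichotomy n m with h | h | h
    · exact hF _ h1 (h4 n h)
    · subst h
      exact hFF _ h1 h3
    · exact hF' _ h3 (h2 m h)

/-- exhaustion of the region by an increasing sequence -/
lemma Ex_iSup (ω : Environment d) (B T : Set (Site d)) (Bk : ℕ → Set (Site d)) (hm : Monotone Bk)
    (hk : ⋃ k, Bk k = B) (z : Site d) : Ex ω B T z = ⨆ k, Ex ω (Bk k) T z := by
  unfold Ex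
  have h1 : exE B T = ⋃ k, exE (Bk k) T := by
    ext X
    rw [Set.mem_iUnion]
    constructor
    · rintro ⟨n, h1, h2⟩
      have h3 : ∀ i, ∃ k, i < n → X i ∈ Bk k := by
        intro i
        by_cases hi : i < n
        · have := h2 i hi
          rw [← hk, Set.mem_iUnion] at this
          obtain ⟨k, hk'⟩ := this
          exact ⟨k, fun _ => hk'⟩
        · exact ⟨0, fun h => absurd h hi⟩
      choose K hK using h3
      refine ⟨(Finset.range n).sup K, n, h1, fun i hi => ?_⟩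
      exact hm (Finset.le_sup (Finset.mem_range.2 hi)) (hK i hi)
    · rintro ⟨k, n, h1, h2⟩
      exact ⟨n, h1, fun i hi => hk ▸ Set.mem_iUnion.2 ⟨k, h2 i hi⟩⟩
  rw [h1]
  exact (show Monotone fun k => exE (Bk k) T from fun a b hab => exE_mono (hm hab)).measure_iUnion

/-! ## The inequality -/

/-- **`a + c ≤ 1`**, finite region. -/
theorem ex_add_le_one_fin (i0 : Fin d) (ω : Environment d) (hω : ∀ z e, 0 < (ω z).1 e)
    (BX BY F F' : Set (Site d)) (hBY : BY.Finite) (hsub : BX ⊆ BY)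
    (hF : ∀ z ∈ F, z ∉ BY) (hFF : ∀ z ∈ F, z ∉ F') (hF' : ∀ z ∈ F', z ∉ BY)
    (x y : Site d) (hx : x ∈ BX) (hy : y ∈ BY)
    (hmeet : ∀ (n m : ℕ) (p q : Path d), p 0 = y →
      (∀ i < n, p i ∈ BY ∧ ∃ e, p (i + 1) = p i + stepVec e) → p n ∈ F' → q 0 = x →
      (∀ j < m, q j ∈ BX ∧ ∃ e, q (j + 1) = q j + stepVec e) → q m ∈ F →
      ∃ i ≤ n, ∃ j ≤ m, p i = q j) :
    Ex ω BX F x + Ex ω BY F' y ≤ 1 := by
  have hreal : ∀ (B T : Set (Site d)) (z : Site d), z ∈ B → z ∉ T →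
      (Ex ω B T z).toReal = ∑ e : Step d, (ω z).1 e * (Ex ω B T (z + stepVec e)).toReal := by
    intro B T z hz hT
    rw [Ex_step ω hz hT, ENNReal.toReal_sum]
    · refine Finset.sum_congr rfl fun e _ => ?_
      rw [ENNReal.toReal_mul, ENNReal.toReal_ofReal (hω z e).le]
    · intro e _
      exact ENNReal.mul_ne_top ENNReal.ofReal_ne_top (Ex_ne_top _ _ _ _)
  have hle1 : ∀ (B T : Set (Site d)) (z : Site d), (Ex ω B T z).toReal ≤ 1 := by
    intro B T z
    have := ENNReal.toReal_mono ENNReal.one_ne_top (Ex_le_one ω B T z)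
    simpa using this
  have hmain := river_two (fun e z => z + stepVec e) (fun z e => (ω z).1 e) BX BY F F' hBY hsub
    (fun z _ e => hω z e) (fun z _ => (ω z).2.2)
    (fun z => (Ex ω BX F z).toReal) (fun z => (Ex ω BY F' z).toReal)
    (fun z hz => (hreal BX F z hz (fun h => hF z h (hsub hz))).le)
    (fun z hz => (hreal BY F' z hz (fun h => hF' z h hz)).le)
    (fun z h1 h2 => by rw [Ex_zero ω h1 h2]; simp)
    (fun z h1 h2 => by rw [Ex_zero ω h1 h2]; simp)
    (fun z => hle1 _ _ _) (fun z => hle1 _ _ _)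
    (fun z hz => by
      rw [← ENNReal.toReal_add (Ex_ne_top _ _ _ _) (Ex_ne_top _ _ _ _)]
      have h1 : Ex ω BX F z + Ex ω BY F' z ≤ 1 :=
        (add_le_add_left (Ex_mono ω hsub z) _).trans (Ex_add_le ω hF hF' hFF z)
      simpa using ENNReal.toReal_mono ENNReal.one_ne_top h1)
    (i0, true) (fun z => z i0) (fun z => by simp [stepVec]) x y hx hy hF hFF hmeet
  rw [← ENNReal.toReal_add (Ex_ne_top _ _ _ _) (Ex_ne_top _ _ _ _)] at hmain
  rw [← ENNReal.toReal_one] at hmain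
  exact (ENNReal.toReal_le_toReal (ENNReal.add_ne_top.2 ⟨Ex_ne_top _ _ _ _, Ex_ne_top _ _ _ _⟩)
    ENNReal.one_ne_top).1 hmain

/-- the box of radius `k` -/
def box (k : ℕ) : Set (Site d) := {z | ∀ i, |z i| ≤ k}

lemma box_finite (k : ℕ) : (box k : Set (Site d)).Finite := by
  have : (box k : Set (Site d)) = {f | ∀ i, f i ∈ Set.Icc (-(k : ℤ)) k} := by
    ext z
    simp [box, abs_le]
  rw [this]
  exact Set.Finite.pi' fun _ => Set.finite_Icc _ _

/-- **`a + c ≤ 1`**: `BX` finite, `BY ⊇ BX` arbitrary. -/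
theorem ex_add_le_one (i0 : Fin d) (ω : Environment d) (hω : ∀ z e, 0 < (ω z).1 e)
    (BX BY F F' : Set (Site d)) (hBX : BX.Finite) (hsub : BX ⊆ BY)
    (hF : ∀ z ∈ F, z ∉ BY) (hFF : ∀ z ∈ F, z ∉ F') (hF' : ∀ z ∈ F', z ∉ BY)
    (x y : Site d) (hx : x ∈ BX) (hy : y ∈ BY)
    (hmeet : ∀ (n m : ℕ) (p q : Path d), p 0 = y →
      (∀ i < n, p i ∈ BY ∧ ∃ e, p (i + 1) = p i + stepVec e) → p n ∈ F' → q 0 = x →
      (∀ j < m, q j ∈ BX ∧ ∃ e, q (j + 1) = q j + stepVec e) → q m ∈ F →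
      ∃ i ≤ n, ∃ j ≤ m, p i = q j) :
    Ex ω BX F x + Ex ω BY F' y ≤ 1 := by
  set Bk : ℕ → Set (Site d) := fun k => BX ∪ {y} ∪ (BY ∩ box k) with hBk
  have hm : Monotone Bk := by
    intro a b hab
    refine Set.union_subset_union le_rfl (Set.inter_subset_inter le_rfl ?_)
    intro z hz i
    exact (hz i).trans (by exact_mod_cast hab)
  have hBkY : ∀ k, Bk k ⊆ BY := by
    rintro k z ((hz | hz) | hz)
    · exact hsub hz
    · rw [Set.mem_singleton_iff.1 hz]; exact hy
    · exact hz.1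
  have hU : ⋃ k, Bk k = BY := by
    refine Set.Subset.antisymm (Set.iUnion_subset hBkY) ?_
    intro z hz
    rw [Set.mem_iUnion]
    refine ⟨∑ i, (z i).natAbs, Or.inr ⟨hz, ?_⟩⟩
    intro i
    rw [Int.abs_eq_natAbs]
    exact_mod_cast Finset.single_le_sum (f := fun i => (z i).natAbs) (fun _ _ => Nat.zero_le _)
      (Finset.mem_univ i)
  rw [Ex_iSup ω BY F' Bk hm hU y, ENNReal.add_iSup]
  refine iSup_le fun k => ?_
  refine ex_add_le_one_fin i0 ω hω BX (Bk k) F F' ?_ ?_ (fun z hz h => hF z hz (hBkY k h)) hFF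
    (fun z hz h => hF' z hz (hBkY k h)) x y hx (Or.inl (Or.inr rfl)) ?_
  · exact (hBX.union (Set.finite_singleton y)).union ((box_finite k).subset Set.inter_subset_right)
  · exact fun z hz => Or.inl (Or.inl hz)
  · intro n m p q h1 h2 h3 h4 h5 h6
    exact hmeet n m p q h1 (fun i hi => ⟨hBkY k (h2 i hi).1, (h2 i hi).2⟩) h3 h4 h5 h6

/-- **Planar case**: `lt`, `lv` = two integer coordinates which change together by a unit vector.
`X` climbs from `x` (lowest) through `BX` to `F` (highest); `Y` crosses from `y` (left of `BX`, `F`)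
through `BY ⊇ BX` to `F'` (right of `BX`, `F`).  The two quenched probabilities add up to at most
`1`, for every elliptic environment (any past, any conditioning). -/
theorem cross_add_climb_le_one (i0 : Fin d) (ω : Environment d) (hω : ∀ z e, 0 < (ω z).1 e)
    (lt lv : Site d → ℤ)
    (hstp : ∀ z (e : Step d), Stp (lt z, lv z) (lt (z + stepVec e), lv (z + stepVec e)))
    (hinj : ∀ z z', lt z = lt z' → lv z = lv z' → z = z')
    (BX BY F F' : Set (Site d)) (hBX : BX.Finite) (hsub : BX ⊆ BY)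
    (hF : ∀ z ∈ F, z ∉ BY) (hFF : ∀ z ∈ F, z ∉ F') (hF' : ∀ z ∈ F', z ∉ BY)
    (x y : Site d) (hx : x ∈ BX) (hy : y ∈ BY)
    (h1 : ∀ z ∈ BX ∪ F, lt y ≤ lt z) (h2 : ∀ z ∈ BX ∪ F, ∀ z' ∈ F', lt z ≤ lt z')
    (h3 : ∀ z ∈ BY ∪ F', lv x ≤ lv z) (h4 : ∀ z ∈ BY ∪ F', ∀ z' ∈ F, lv z ≤ lv z') :
    Ex ω BX F x + Ex ω BY F' y ≤ 1 := by
  refine ex_add_le_one i0 ω hω BX BY F F' hBX hsub hF hFF hF' x y hx hy ?_
  intro n m p q hp0 hps hpn hq0 hqs hqm
  have hP : ∀ i ≤ n, p i ∈ BY ∪ F' := by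
    intro i hi
    rcases Nat.lt_or_ge i n with h | h
    · exact Or.inl (hps i h).1
    · rw [le_antisymm hi h]; exact Or.inr hpn
  have hQ : ∀ j ≤ m, q j ∈ BX ∪ F := by
    intro j hj
    rcases Nat.lt_or_ge j m with h | h
    · exact Or.inl (hqs j h).1
    · rw [le_antisymm hj h]; exact Or.inr hqm
  obtain ⟨i, hi, j, hj, hij⟩ := planar (fun i => (lt (p i), lv (p i)))
    (fun j => (lt (q j), lv (q j))) n m
    (fun i hi => by obtain ⟨e, he⟩ := (hps i hi).2; simp only [he]; exact hstp _ _)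
    (fun j hj => by obtain ⟨e, he⟩ := (hqs j hj).2; simp only [he]; exact hstp _ _)
    (fun j hj => by simp only [hp0]; exact h1 _ (hQ j hj))
    (fun j hj => h2 _ (hQ j hj) _ hpn)
    (fun i hi => by simp only [hq0]; exact h3 _ (hP i hi))
    (fun i hi => h4 _ (hP i hi) _ hqm)
  simp only [Prod.mk.injEq] at hij
  exact ⟨i, hi, j, hj, hinj _ _ hij.1 hij.2⟩

end Crest.Agent.R154.RiverQ999
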