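import Crest.Agent.R154.StageX_299
import Crest.Agent.R154.FreeD_950
import Crest.Agent.R154.Steep_299

/-!
# TILE_RUN, glue: 993's `stage_run` + 950's `Alive` on a kernel system

`run_win`: at a large unit `N`, from the steep bound (hb) and the position sum (hc), every window
`[H0 + J N, H0 + 2 J N]` has an exponential tail above the constant `x0 = 2 (log (4/p) + R2) + 3`.
-/

set_option autoImplicit false
set_option linter.deprecated false
set_option linter.unusedVariables false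

open MeasureTheory ENNReal Crest.Agent.R154.RatioR872 Crest.Agent.R154.WindowK299

namespace Crest.Agent.R154.RunGlue299

variable {S : Type*} {Ω : Type*} {m0 : MeasurableSpace Ω} {P : Measure Ω}
variable [Countable S]

/-- steep interval `[b + n, b + 2 n]` in units `N` above the base `H0` -/
def Stp (A : KerSys S P) (μ : S → ℝ≥0∞) (X : ℝ) (N H0 b n : ℕ) : Set Ω :=
  {ω | A.Sh μ (H0 + (b + n) * N) ω ≠ 0 ∧ A.Sh μ (H0 + (b + 2 * n) * N) ω ≤
    ENNReal.ofReal (Real.exp (-(n * X))) * A.Sh μ (H0 + (b + n) * N) ω}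

/-- the alive event of the unit `[a - 1, a]` up to the unit `b` -/
def Dk (A : KerSys S P) (μ : S → ℝ≥0∞) (p : ℝ) (T N H0 a b : ℕ) : Set Ω :=
  FreeD950.Alive A μ (ENNReal.ofReal p) T (N / T) (H0 + (a - 1) * N) (H0 + b * N) ∩
    {ω | ENNReal.ofReal (p / 4) * A.Sh μ (H0 + a * N) ω ≤ A.Sh μ (H0 + b * N) ω}

theorem run_win [IsProbabilityMeasure P] (A : KerSys S P) {p : ℝ} (hp : 0 < p) (hp1 : p ≤ 1)
    (hph : ∀ n, ENNReal.ofReal p ≤ A.h n) (hh : ∀ n, A.h n ≤ 1)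
    (hlim : ∀ ε : ℝ≥0∞, ε ≠ 0 → ∃ s0 : ℕ, ∀ s, s0 ≤ s → A.h s ≤ ENNReal.ofReal p + ε)
    (hpos : ∀ μ, A.Start μ → ∀ h, ∀ᵐ ω ∂P, A.Sh μ h ω ≠ 0)
    {lam X Λ Ac : ℝ} (hlam : 1 ≤ lam) (hX : 1 ≤ X) (hΛ : 32 * lam + 16 ≤ Λ) (hA : 0 ≤ Ac) (κ : ℕ) :
    ∃ r0 : ℝ, 1 ≤ r0 ∧ ∀ R2 : ℝ, r0 ≤ R2 → ∃ nm T N0 : ℕ, 1 ≤ nm ∧ 1 ≤ T ∧
      (T : ℝ) ≤ 4 / p * (2 * lam * (Real.log (4 / p) + R2)) + 2 ∧ (nm : ℝ) * X ≤ R2 / 2 ∧
      R2 / 2 - X ≤ (nm : ℝ) * X ∧
      ∀ N : ℕ, N0 ≤ N → ∀ μ : S → ℝ≥0∞, A.Start μ → ∀ H0 J : ℕ,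
        2 * (Real.log (4 / p) + R2) + 3 ≤ (J : ℝ) →
        (∀ b n, nm ≤ n → b + 2 * n ≤ 2 * J → ∀ B, MeasurableSet[A.F (H0 + b * N)] B →
          P (B ∩ Stp A μ X N H0 b n) ≤
            ENNReal.ofReal (Real.exp (-(Λ * (n * X)))) * P B) →
        ∀ Cc : ℝ, 0 ≤ Cc → Cc ≤ Ac * R2 ^ κ →
        (∀ a n, J < a → nm ≤ n → ∀ B, MeasurableSet[A.F (H0 + (a - 1) * N)] B →
          ∑ b ∈ (Finset.Icc a (2 * J)).filter (fun b => b + 2 * n ≤ 2 * J),
            P (B ∩ (Dk A μ p T N H0 a b ∩ Stp A μ X N H0 b n)) ≤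
              ENNReal.ofReal (Cc * T * Real.exp (-(Λ / 2 * (n * X)))) * P B) →
        ∀ u : ℝ, 2 * (Real.log (4 / p) + R2) + 3 ≤ u → u ≤ J * X →
          ∀ B, MeasurableSet[A.F H0] B →
          P (B ∩ {ω | A.Sh μ (H0 + J * N) ω ≠ 0 ∧ A.Sh μ (H0 + 2 * J * N) ω ≤
            ENNReal.ofReal (Real.exp (-u)) * A.Sh μ (H0 + J * N) ω}) ≤
            ENNReal.ofReal (Real.exp (-(lam * u))) * P B := by
  classical
  obtain ⟨r0, hr0, hst⟩ := StageX299.stage_run P hp hp1 hlam hX hΛ hA κ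
  refine ⟨r0, hr0, fun R2 hR2 => ?_⟩
  obtain ⟨nm, T, hnm, hT, hTle, hnmX, hnmX', hmain⟩ := hst R2 hR2
  -- the failure probability of a slab family
  have hp2 : 0 < 1 - p / 2 := by linarith
  have hTpos : (0 : ℝ) < T := by exact_mod_cast hT
  set ε : ℝ := (1 - p / 2) ^ T * p / (4 * T) with hε
  have hεpos : 0 < ε := by positivity
  obtain ⟨s0, hs0⟩ := hlim (ENNReal.ofReal ε) (ENNReal.ofReal_pos.2 hεpos).ne'
  have hpE0 : ENNReal.ofReal p ≠ 0 := (ENNReal.ofReal_pos.2 hp).ne'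
  have hα : (1 - ENNReal.ofReal p / 2) ^ T + T * (4 * ENNReal.ofReal ε / ENNReal.ofReal p) ≤
      ENNReal.ofReal (2 * (1 - p / 2) ^ T) := by
    have h1 : (1 - ENNReal.ofReal p / 2) = ENNReal.ofReal (1 - p / 2) := by
      rw [ENNReal.ofReal_sub _ (by positivity), ENNReal.ofReal_one,
        ENNReal.ofReal_div_of_pos (by norm_num)]
      simp
    have h2 : (T : ℝ≥0∞) * (4 * ENNReal.ofReal ε / ENNReal.ofReal p) =
        ENNReal.ofReal ((1 - p / 2) ^ T) := by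
      have h4 : (4 : ℝ≥0∞) = ENNReal.ofReal 4 := by simp
      have hTT : (T : ℝ≥0∞) = ENNReal.ofReal (T : ℝ) := (ENNReal.ofReal_natCast T).symm
      rw [h4, ← ENNReal.ofReal_mul (by norm_num), ← ENNReal.ofReal_div_of_pos hp, hTT,
        ← ENNReal.ofReal_mul hTpos.le]
      congr 1
      rw [hε]
      field_simp
    rw [h1, h2, ← ENNReal.ofReal_pow hp2.le, ← ENNReal.ofReal_add (by positivity) (by positivity)]
    exact le_of_eq (by congr 1; ring)
  refine ⟨nm, T, T * (s0 + 1), hnm, hT, hTle, hnmX, hnmX', ?_⟩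
  intro N hN μ hμ H0 J hJ hb Cc hCc hCcA hc u hu huJ B hB
  have hsl : s0 ≤ N / T := by
    have h1 : s0 + 1 ≤ N / T := (Nat.le_div_iff_mul_le (by omega)).2 (by
      rw [mul_comm]; exact hN)
    omega
  have hslT : T * (N / T) ≤ N := Nat.mul_div_le N T
  have hJ1 : (1 : ℝ) ≤ J := by
    have h1 : 0 ≤ Real.log (4 / p) := Real.log_nonneg (by rw [le_div_iff₀ hp]; linarith)
    have h2 : 1 ≤ R2 := hr0.trans hR2
    linarith
  let F : Filtration ℕ m0 :=
    { seq := fun k => A.F (H0 + k * N)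
      mono' := fun i j hij => A.F.mono (Nat.add_le_add_left (Nat.mul_le_mul_right N hij) H0)
      le' := fun k => A.F.le _ }
  have hlev : ∀ a b : ℕ, 1 ≤ a → a ≤ b → H0 + (a - 1) * N + T * (N / T) ≤ H0 + b * N := by
    intro a b h1 h2
    have h3 : a * N = (a - 1) * N + N := by
      have : a = (a - 1) + 1 := by omega
      conv_lhs => rw [this]
      ring
    have h4 : a * N ≤ b * N := Nat.mul_le_mul_right N h2
    omega
  have hlev' : ∀ a : ℕ, 1 ≤ a → H0 + (a - 1) * N + T * (N / T) ≤ H0 + a * N := fun a h1 =>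
    hlev a a h1 le_rfl
  have key := hmain (F := F) (s := fun k => A.Sh μ (H0 + k * N))
    (fun m => KerSys.meas_Sh hμ _)
    (fun m ω => KerSys.Sh_anti (Nat.add_le_add_left (Nat.mul_le_mul_right N (Nat.le_succ m)) H0) ω)
    (fun m ω => ne_top_of_le_ne_top ENNReal.one_ne_top (KerSys.Sh_le_one hμ _ ω)) hJ
    (fun a b => Dk A μ p T N H0 a b)
    (by
      intro a b ha hab
      refine MeasurableSet.inter (FreeD950.alive_meas A hμ _ (hlev a b (by omega) hab)) ?_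
      have m1 : Measurable[A.F (H0 + b * N)] (A.Sh μ (H0 + a * N)) :=
        (KerSys.meas_Sh hμ (H0 + a * N)).mono
          (A.F.mono (Nat.add_le_add_left (Nat.mul_le_mul_right N hab) H0)) le_rfl
      have m2 : Measurable[A.F (H0 + b * N)] (A.Sh μ (H0 + b * N)) := KerSys.meas_Sh hμ _
      exact @measurableSet_le _ _ _ _ _ (A.F (H0 + b * N)) _ _ _ _ _ (m1.const_mul _) m2)
    (by
      rintro a b b' ha hab hbb' ω ⟨h1, h2⟩
      refine ⟨FreeD950.alive_anti A μ _ (hlev a b (by omega) hab)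
        (Nat.add_le_add_left (Nat.mul_le_mul_right N hbb') H0) h1, ?_⟩
      exact le_trans (show ENNReal.ofReal (p / 4) * A.Sh μ (H0 + a * N) ω ≤
        A.Sh μ (H0 + b' * N) ω from h2)
        (KerSys.Sh_anti (Nat.add_le_add_left (Nat.mul_le_mul_right N hbb') H0) ω))
    (fun a b ha hab ω hω => hω.2)
    hα hCc hCcA
    (by
      intro a e ha hae _ B hB
      have h1 := FreeD950.free_dir A (p := ENNReal.ofReal p) (ε := ENNReal.ofReal ε) hpE0 hph hh
        hpos (T := T) (s := N / T) (a0 := H0 + (a - 1) * N) (b := H0 + e * N)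
        (fun m hm _ => (hs0 _ hsl).trans (add_le_add_left (hph m) _))
        (hlev a e (by omega) hae) hμ hB
      refine le_trans (measure_mono_ae ?_) h1
      filter_upwards [FreeD950.Sh_of_alive A hμ (ENNReal.ofReal p) (hlev a e (by omega) hae)]
        with ω hω
      rintro ⟨h2, h3⟩
      refine ⟨h2, fun h4 => h3 ⟨h4, ?_⟩⟩
      have h5 := hω h4 (H0 + a * N) (hlev' a (by omega))
      have h6 : ENNReal.ofReal (p / 4) = ENNReal.ofReal p / 4 := by
        rw [ENNReal.ofReal_div_of_pos (by norm_num)]; simp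
      show ENNReal.ofReal (p / 4) * A.Sh μ (H0 + a * N) ω ≤ A.Sh μ (H0 + e * N) ω
      rw [h6]
      exact h5)
    (fun b n hn hbn B hB => hb b n hn hbn B hB)
    (fun a n ha hn B hB => hc a n ha hn B hB)
    u hu huJ B (by
      have e : H0 + 0 * N = H0 := by ring
      show MeasurableSet[A.F (H0 + 0 * N)] B
      rw [e]; exact hB)
  exact key

/-- (hb) from a tile system (`m1 ≤ nm`). -/
theorem hb_of_tiles (A : KerSys S P) {N : ℕ} {m1 m ρ X Λ : ℝ} (hm : 0 ≤ m) (hΛ0 : 0 ≤ Λ)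
    (hX : 2 * m + 3 ≤ X) (hρ : Λ * X + 3 ≤ ρ)
    (hTS : TileSys A N (ENNReal.ofReal (Real.exp (-m1))) (ENNReal.ofReal (Real.exp (-m)))
      (ENNReal.ofReal (Real.exp (-ρ)))) {μ : S → ℝ≥0∞} (hμ : A.Start μ) (H0 : ℕ) {nm : ℕ}
    (hnm : 1 ≤ nm) (hm1 : m1 ≤ nm) :
    ∀ b n, nm ≤ n → ∀ B, MeasurableSet[A.F (H0 + b * N)] B →
      P (B ∩ Stp A μ X N H0 b n) ≤ ENNReal.ofReal (Real.exp (-(Λ * (n * X)))) * P B := by
  intro b n hn B hB
  have hnR : (nm : ℝ) ≤ n := by exact_mod_cast hn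
  have e1 : H0 + (b + 2 * n - 2 * n) * N = H0 + b * N := by rw [Nat.add_sub_cancel]
  have e2 : b + 2 * n - n = b + n := by omega
  have key := Steep299.steep_sym (A := A) hm hΛ0 hX hρ hTS hμ H0 (e := b + 2 * n) (n := n)
    (by omega) (hm1.trans hnR) (by omega) (B := B) (by rw [e1]; exact hB)
  rw [e2] at key
  exact key

end Crest.Agent.R154.RunGlue299
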