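import Crest.Agent.R154.StageN_993

/-! Row 154 (helper663): helper993's `numbers` and `stage_run` with the lower bound on `n0 * X`
exported (same proofs). -/

set_option autoImplicit false
set_option linter.unusedVariables false
set_option linter.deprecated false

open MeasureTheory ENNReal Crest.Agent.R154.Sun95 Crest.Agent.R154.Multi993
open Crest.Agent.R154.Stage993

namespace Crest.Agent.R154.Stage663

/-- all numbers of `stage` for a large block threshold `R2` -/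
theorem numbers' {p θ X Λ A : ℝ} (hp : 0 < p) (hp1 : p ≤ 1) (hθ : 1 ≤ θ) (hX : 1 ≤ X)
    (hΛ : 16 * θ + 16 ≤ Λ) (hA : 0 ≤ A) (k : ℕ) :
    ∃ r0 : ℝ, 1 ≤ r0 ∧ ∀ R2 : ℝ, r0 ≤ R2 → ∃ n0 T : ℕ, 1 ≤ n0 ∧ 1 ≤ T ∧
      (T : ℝ) ≤ 4 / p * (θ * (Real.log (4 / p) + R2)) + 2 ∧ (n0 : ℝ) * X ≤ R2 / 2 ∧ R2 / 2 - X ≤ n0 * X ∧
      (∀ M : ℕ, ∑ n ∈ Finset.Icc n0 M, (2 * n : ℝ≥0∞) *
        (ENNReal.ofReal (Real.exp (-(Λ * (n * X)))) *
          ENNReal.ofReal (Real.exp (2 * θ * (n * X)))) ≤ 1 / 4) ∧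
      ∀ (α : ℝ≥0∞) (Cc : ℝ), α ≤ ENNReal.ofReal (2 * (1 - p / 2) ^ T) → 0 ≤ Cc → Cc ≤ A * R2 ^ k →
        ∀ M : ℕ, ENNReal.ofReal (Real.exp (θ * (R2 / 2))) *
          (ENNReal.ofReal (Real.exp (θ * (Real.log (4 / p) + R2 / 2))) * α +
            ENNReal.ofReal (Real.exp (θ * Real.log (4 / p))) *
              ∑ n ∈ Finset.Icc n0 M, ENNReal.ofReal (Cc * T * Real.exp (-(Λ / 2 * (n * X)))) *
                ENNReal.ofReal (Real.exp (2 * θ * (n * X)))) ≤ 1 / 4 := by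
  set R1 := Real.log (4 / p) with hR1
  have hR1' : 0 ≤ R1 := Real.log_nonneg (by rw [le_div_iff₀ hp]; linarith)
  -- constant of the second part
  set K : ℝ := Real.exp (θ * R1) * A * (4 / p * (θ * (R1 + 1)) + 2) *
    (2 * Real.exp (Λ / 4 * X)) with hK
  obtain ⟨r1, hr1, hr1'⟩ := poly_exp (3 * Λ / 32) K (by linarith) (k + 1)
  refine ⟨max r1 (max (2 * X) 3), hr1.trans (le_max_left _ _), fun R2 hR2 => ?_⟩
  have hR2r : r1 ≤ R2 := (le_max_left _ _).trans hR2
  have hR2X : 2 * X ≤ R2 := ((le_max_left _ _).trans (le_max_right _ _)).trans hR2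
  have hR23 : 3 ≤ R2 := ((le_max_right _ _).trans (le_max_right _ _)).trans hR2
  have hX0 : 0 < X := by linarith
  set n0 := ⌊R2 / (2 * X)⌋₊ with hn0
  set T := ⌈4 / p * (θ * (R1 + R2))⌉₊ + 1 with hT
  have hn01 : 1 ≤ n0 := by
    rw [hn0, Nat.one_le_floor_iff, le_div_iff₀ (by linarith)]
    linarith
  have hn0X : (n0 : ℝ) * X ≤ R2 / 2 := by
    have h1 : (n0 : ℝ) ≤ R2 / (2 * X) := Nat.floor_le (by positivity)
    calc (n0 : ℝ) * X ≤ R2 / (2 * X) * X := by gcongr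
      _ = R2 / 2 := by field_simp
  have hn0X' : R2 / 2 - X ≤ n0 * X := by
    have h1 : R2 / (2 * X) < n0 + 1 := Nat.lt_floor_add_one _
    have h2 : R2 / (2 * X) * X = R2 / 2 := by field_simp
    nlinarith
  have hTle : (T : ℝ) ≤ 4 / p * (θ * (R1 + R2)) + 2 := by
    have h1 : (⌈4 / p * (θ * (R1 + R2))⌉₊ : ℝ) < 4 / p * (θ * (R1 + R2)) + 1 :=
      Nat.ceil_lt_add_one (by positivity)
    rw [hT]
    push_cast
    linarith
  have hTge : 4 / p * (θ * (R1 + R2)) ≤ T := by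
    have h1 : 4 / p * (θ * (R1 + R2)) ≤ (⌈4 / p * (θ * (R1 + R2))⌉₊ : ℝ) := Nat.le_ceil _
    rw [hT]
    push_cast
    linarith
  refine ⟨n0, T, hn01, by omega, hTle, hn0X, hn0X', fun M => num_zeta (by linarith) hX (by linarith) hn01 M,
    fun α Cc hα hCc hCcA M => ?_⟩
  -- first part
  have hpow : 2 * (1 - p / 2) ^ T ≤ 2 * Real.exp (-(2 * (θ * (R1 + R2)))) := by
    have h1 : 1 - p / 2 ≤ Real.exp (-(p / 2)) := by
      have := Real.add_one_le_exp (-(p / 2)); linarith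
    have h2 : (1 - p / 2) ^ T ≤ Real.exp (-(p / 2)) ^ T :=
      pow_le_pow_left₀ (by linarith) h1 T
    rw [← Real.exp_nat_mul] at h2
    have h3 : Real.exp (T * -(p / 2)) ≤ Real.exp (-(2 * (θ * (R1 + R2)))) := by
      refine Real.exp_le_exp.2 ?_
      have h4 := mul_le_mul_of_nonneg_right hTge (show 0 ≤ p / 2 by linarith)
      have h5 : 4 / p * (θ * (R1 + R2)) * (p / 2) = 2 * (θ * (R1 + R2)) := by
        field_simp; ring
      linarith
    linarith
  have hpart1 : ENNReal.ofReal (Real.exp (θ * (R2 / 2))) *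
      (ENNReal.ofReal (Real.exp (θ * (R1 + R2 / 2))) * α) ≤ ENNReal.ofReal (1 / 8) := by
    calc _ ≤ ENNReal.ofReal (Real.exp (θ * (R2 / 2))) *
          (ENNReal.ofReal (Real.exp (θ * (R1 + R2 / 2))) *
            ENNReal.ofReal (2 * Real.exp (-(2 * (θ * (R1 + R2)))))) := by
          gcongr
          exact hα.trans (ENNReal.ofReal_le_ofReal hpow)
      _ = ENNReal.ofReal (2 * Real.exp (-(θ * (R1 + R2)))) := by
          rw [← ENNReal.ofReal_mul (Real.exp_pos _).le, ← ENNReal.ofReal_mul (Real.exp_pos _).le]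
          congr 1
          have : Real.exp (-(θ * (R1 + R2))) = Real.exp (θ * (R2 / 2)) *
              (Real.exp (θ * (R1 + R2 / 2)) * Real.exp (-(2 * (θ * (R1 + R2))))) := by
            rw [← Real.exp_add, ← Real.exp_add]; congr 1; ring
          rw [this]; ring
      _ ≤ _ := by
          refine ENNReal.ofReal_le_ofReal ?_
          have h1 : Real.exp (-(θ * (R1 + R2))) ≤ Real.exp (-3) := by
            refine Real.exp_le_exp.2 ?_
            have : 1 * 3 ≤ θ * (R1 + R2) := mul_le_mul hθ (by linarith) (by norm_num) (by linarith)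
            linarith
          linarith [exp_three]
  -- second part
  have hsum : ∑ n ∈ Finset.Icc n0 M, ENNReal.ofReal (Cc * T * Real.exp (-(Λ / 2 * (n * X)))) *
      ENNReal.ofReal (Real.exp (2 * θ * (n * X))) ≤
      ENNReal.ofReal (Cc * T) * ENNReal.ofReal (2 * Real.exp (-(Λ / 4 * X * n0))) := by
    calc _ ≤ ∑ n ∈ Finset.Icc n0 M, ENNReal.ofReal (Cc * T) *
          ENNReal.ofReal (Real.exp (-(Λ / 4 * X * n))) := by
          refine Finset.sum_le_sum fun n _ => ?_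
          rw [ENNReal.ofReal_mul (by positivity), mul_assoc,
            ← ENNReal.ofReal_mul (Real.exp_pos _).le, ← Real.exp_add]
          refine mul_le_mul_right (ENNReal.ofReal_le_ofReal (Real.exp_le_exp.2 ?_)) _
          have h1 : (0 : ℝ) ≤ n * X := by positivity
          nlinarith
      _ = ENNReal.ofReal (Cc * T) * ∑ n ∈ Finset.Icc n0 M,
          ENNReal.ofReal (Real.exp (-(Λ / 4 * X * n))) := by rw [← Finset.mul_sum]
      _ ≤ _ := mul_le_mul_right (geo_tail (by nlinarith) _ _) _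
  have hpart2 : ENNReal.ofReal (Real.exp (θ * (R2 / 2))) *
      (ENNReal.ofReal (Real.exp (θ * R1)) * ∑ n ∈ Finset.Icc n0 M,
        ENNReal.ofReal (Cc * T * Real.exp (-(Λ / 2 * (n * X)))) *
          ENNReal.ofReal (Real.exp (2 * θ * (n * X)))) ≤ ENNReal.ofReal (1 / 8) := by
    calc _ ≤ ENNReal.ofReal (Real.exp (θ * (R2 / 2))) *
          (ENNReal.ofReal (Real.exp (θ * R1)) *
            (ENNReal.ofReal (Cc * T) * ENNReal.ofReal (2 * Real.exp (-(Λ / 4 * X * n0))))) := by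
          gcongr
      _ = ENNReal.ofReal (Real.exp (θ * (R2 / 2)) * (Real.exp (θ * R1) *
            ((Cc * T) * (2 * Real.exp (-(Λ / 4 * X * n0)))))) := by
          rw [← ENNReal.ofReal_mul (by positivity), ← ENNReal.ofReal_mul (Real.exp_pos _).le,
            ← ENNReal.ofReal_mul (Real.exp_pos _).le]
      _ ≤ _ := by
          refine ENNReal.ofReal_le_ofReal ?_
          refine le_trans ?_ (hr1' R2 hR2r)
          have hR20 : 0 < R2 := by linarith
          have h1 : Real.exp (-(Λ / 4 * X * n0)) ≤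
              Real.exp (Λ / 4 * X) * Real.exp (-(Λ / 8 * R2)) := by
            rw [← Real.exp_add]
            refine Real.exp_le_exp.2 ?_
            have h2 := mul_le_mul_of_nonneg_left hn0X' (show 0 ≤ Λ / 4 by linarith)
            nlinarith
          have h3 : (T : ℝ) ≤ (4 / p * (θ * (R1 + 1)) + 2) * R2 := by
            refine hTle.trans ?_
            have h4 : R1 + R2 ≤ (R1 + 1) * R2 := by nlinarith
            have h5 : 4 / p * (θ * (R1 + R2)) ≤ 4 / p * (θ * ((R1 + 1) * R2)) := by gcongr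
            nlinarith
          have h6 : Real.exp (θ * (R2 / 2)) * Real.exp (-(Λ / 8 * R2)) ≤
              Real.exp (-(3 * Λ / 32 * R2)) := by
            rw [← Real.exp_add]
            refine Real.exp_le_exp.2 ?_
            nlinarith
          calc Real.exp (θ * (R2 / 2)) * (Real.exp (θ * R1) *
                ((Cc * T) * (2 * Real.exp (-(Λ / 4 * X * n0)))))
              ≤ Real.exp (θ * (R2 / 2)) * (Real.exp (θ * R1) *
                ((A * R2 ^ k * ((4 / p * (θ * (R1 + 1)) + 2) * R2)) *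
                  (2 * (Real.exp (Λ / 4 * X) * Real.exp (-(Λ / 8 * R2)))))) := by gcongr
            _ = Real.exp (θ * R1) * A * (4 / p * (θ * (R1 + 1)) + 2) *
                (2 * Real.exp (Λ / 4 * X)) * R2 ^ (k + 1) *
                (Real.exp (θ * (R2 / 2)) * Real.exp (-(Λ / 8 * R2))) := by ring
            _ ≤ Real.exp (θ * R1) * A * (4 / p * (θ * (R1 + 1)) + 2) *
                (2 * Real.exp (Λ / 4 * X)) * R2 ^ (k + 1) *
                Real.exp (-(3 * Λ / 32 * R2)) := by gcongr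
            _ = _ := by rw [hK]
  rw [mul_add]
  refine (add_le_add hpart1 hpart2).trans (le_of_eq ?_)
  rw [← ENNReal.ofReal_add (by norm_num) (by norm_num),
    show (1 / 4 : ℝ≥0∞) = ENNReal.ofReal (1 / 4) by
      rw [ENNReal.ofReal_div_of_pos (by norm_num)]; simp]
  norm_num

variable {Ω : Type*} {m0 : MeasurableSpace Ω} {P : Measure Ω}

/-- **T1 with numbers.**  `R1 = log (4 / p)`, block threshold `R2 ≥ r0`; the collision constant may
grow like a power of `R2`. -/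
theorem stage_run' (P : Measure Ω) {p lam X Λ A : ℝ} (hp : 0 < p) (hp1 : p ≤ 1) (hlam : 1 ≤ lam)
    (hX : 1 ≤ X) (hΛ : 32 * lam + 16 ≤ Λ) (hA : 0 ≤ A) (κ : ℕ) :
    ∃ r0 : ℝ, 1 ≤ r0 ∧ ∀ R2 : ℝ, r0 ≤ R2 → ∃ n0 T : ℕ, 1 ≤ n0 ∧ 1 ≤ T ∧
      (T : ℝ) ≤ 4 / p * (2 * lam * (Real.log (4 / p) + R2)) + 2 ∧ (n0 : ℝ) * X ≤ R2 / 2 ∧
      R2 / 2 - X ≤ n0 * X ∧
      ∀ {F : Filtration ℕ m0} {s : ℕ → Ω → ℝ≥0∞} (hsm : ∀ m, Measurable[F m] (s m))
        (hanti : ∀ m ω, s (m + 1) ω ≤ s m ω) (hfin : ∀ m ω, s m ω ≠ ∞)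
        {J : ℕ} (hJ : 2 * (Real.log (4 / p) + R2) + 3 ≤ J)
        (D : ℕ → ℕ → Set Ω) (hDm : ∀ a b, J < a → a ≤ b → MeasurableSet[F b] (D a b))
        (hDanti : ∀ a b b', J < a → a ≤ b → b ≤ b' → D a b' ⊆ D a b)
        (hDc : ∀ a b, J < a → a ≤ b → ∀ ω ∈ D a b, ENNReal.ofReal (p / 4) * s a ω ≤ s b ω)
        {α : ℝ≥0∞} (hα : α ≤ ENNReal.ofReal (2 * (1 - p / 2) ^ T))
        {Cc : ℝ} (hCc : 0 ≤ Cc) (hCcA : Cc ≤ A * R2 ^ κ)
        (ha : ∀ a e, J < a → a ≤ e → e ≤ 2 * J → ∀ B, MeasurableSet[F (a - 1)] B →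
          P (B ∩ (D a e)ᶜ) ≤ α * P B)
        (hb : ∀ b n, n0 ≤ n → b + 2 * n ≤ 2 * J → ∀ B, MeasurableSet[F b] B →
          P (B ∩ {ω | s (b + n) ω ≠ 0 ∧ s (b + 2 * n) ω ≤
            ENNReal.ofReal (Real.exp (-(n * X))) * s (b + n) ω}) ≤
              ENNReal.ofReal (Real.exp (-(Λ * (n * X)))) * P B)
        (hc : ∀ a n, J < a → n0 ≤ n → ∀ B, MeasurableSet[F (a - 1)] B →
          ∑ b ∈ (Finset.Icc a (2 * J)).filter (fun b => b + 2 * n ≤ 2 * J),
            P (B ∩ (D a b ∩ {ω | s (b + n) ω ≠ 0 ∧ s (b + 2 * n) ω ≤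
              ENNReal.ofReal (Real.exp (-(n * X))) * s (b + n) ω})) ≤
                ENNReal.ofReal (Cc * T * Real.exp (-(Λ / 2 * (n * X)))) * P B),
        ∀ u : ℝ, 2 * (Real.log (4 / p) + R2) + 3 ≤ u → u ≤ J * X → ∀ B, MeasurableSet[F 0] B →
          P (B ∩ {ω | s J ω ≠ 0 ∧ s (2 * J) ω ≤ ENNReal.ofReal (Real.exp (-u)) * s J ω}) ≤
            ENNReal.ofReal (Real.exp (-(lam * u))) * P B := by
  classical
  obtain ⟨r0, hr0, hr0'⟩ := numbers' (θ := 2 * lam) (Λ := Λ) hp hp1 (by linarith) hX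
    (by linarith) hA κ
  refine ⟨r0, hr0, fun R2 hR2 => ?_⟩
  obtain ⟨n0, T, hn0, hT, hTle, hn0X, hn0X', hzeta, hrho⟩ := hr0' R2 hR2
  refine ⟨n0, T, hn0, hT, hTle, hn0X, hn0X', ?_⟩
  intro F s hsm hanti hfin J hJ D hDm hDanti hDc α hα Cc hCc hCcA ha hb hc u hu huJ B hB
  set R1 := Real.log (4 / p) with hR1
  have hR1' : 0 ≤ R1 := Real.log_nonneg (by rw [le_div_iff₀ hp]; linarith)
  have hR20 : 1 ≤ R2 := hr0.trans hR2
  have hu0 : 0 < u := by linarith
  have hJ1 : (1 : ℝ) ≤ J := by linarith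
  have h4n0 : 4 * n0 ≤ J := by
    have h1 : (n0 : ℝ) ≤ n0 * X := by
      have : (0 : ℝ) ≤ n0 := Nat.cast_nonneg _
      nlinarith
    have h2 : 4 * (n0 : ℝ) ≤ J := by linarith
    exact_mod_cast h2
  have hexpR1 : Real.exp (-R1) = p / 4 := by
    rw [hR1, ← Real.log_inv, Real.exp_log (by positivity)]
    field_simp
  let D' : ℕ → ℕ → Set Ω := fun a b => if J < a ∧ a ≤ b then D a b else ∅
  have hD'1 : ∀ a b, J < a → a ≤ b → D' a b = D a b := fun a b h1 h2 => if_pos ⟨h1, h2⟩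
  have hD'2 : ∀ a b, ¬ (J < a ∧ a ≤ b) → D' a b = ∅ := fun a b h => if_neg h
  have hst := stage (P := P) (θ := 2 * lam) (R1 := R1) (R2 := R2) (u := u) (X := X) (n0 := n0)
    (J := J) hsm hanti hfin (by linarith) (by linarith) hR1' hu0 hn0 hn0X h4n0 D'
    (by
      intro a b
      by_cases h : J < a ∧ a ≤ b
      · rw [hD'1 a b h.1 h.2]; exact hDm a b h.1 h.2
      · rw [hD'2 a b h]; exact @MeasurableSet.empty _ (F b))
    (by
      intro a b b' h1 h2
      by_cases h : J < a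
      · rw [hD'1 a b h h1, hD'1 a b' h (h1.trans h2)]; exact hDanti a b b' h h1 h2
      · rw [hD'2 a b' (by tauto)]; exact Set.empty_subset _)
    (by
      intro a b h1 ω hω
      by_cases h : J < a
      · rw [hD'1 a b h h1] at hω
        rw [hexpR1]
        exact hDc a b h h1 ω hω
      · rw [hD'2 a b (by tauto)] at hω
        exact absurd hω (Set.notMem_empty ω))
    (α := α) (ζ := fun n => ENNReal.ofReal (Real.exp (-(Λ * (n * X)))))
    (ρ := fun n => ENNReal.ofReal (Cc * T * Real.exp (-(Λ / 2 * (n * X)))))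
    (by
      intro a e h1 h2 h3 B' hB'
      rw [hD'1 a e h1 h2]
      exact ha a e h1 h2 h3 B' hB')
    hb
    (by
      intro a n h1 h2 B' hB'
      refine le_trans (le_of_eq ?_) (hc a n h1 h2 B' hB')
      refine Finset.sum_congr rfl fun b hb' => ?_
      rw [Finset.mem_filter, Finset.mem_Icc] at hb'
      rw [hD'1 a b h1 hb'.1.1])
    (hzeta (2 * J)) (hrho α Cc hα hCc hCcA (2 * J)) hB
  refine hst.trans (mul_le_mul_left ?_ _)
  have hsup : (⨆ n ∈ {n : ℕ | J ≤ 4 * n}, ENNReal.ofReal (Real.exp (-(Λ * ((n : ℝ) * X))))) ≤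
      ENNReal.ofReal (Real.exp (-(Λ * (J * X / 4)))) := by
    refine iSup₂_le fun n hn => ENNReal.ofReal_le_ofReal (Real.exp_le_exp.2 ?_)
    have hn' : J ≤ 4 * n := hn
    have h1 : (J : ℝ) ≤ 4 * n := by exact_mod_cast hn'
    have h2 : (J : ℝ) * X / 4 ≤ n * X := by nlinarith
    have h3 := mul_le_mul_of_nonneg_left h2 (show 0 ≤ Λ by linarith)
    linarith
  have hlong : (2 * (J : ℝ≥0∞) + 1) ^ 2 *
      (⨆ n ∈ {n : ℕ | J ≤ 4 * n}, ENNReal.ofReal (Real.exp (-(Λ * ((n : ℝ) * X))))) ≤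
      ENNReal.ofReal (1 / 2 * Real.exp (-(lam * u))) := by
    have h1 : (2 * (J : ℝ≥0∞) + 1) ^ 2 ≤ ENNReal.ofReal (Real.exp (4 * J)) := by
      have h2 : (2 * (J : ℝ≥0∞) + 1) = ENNReal.ofReal (2 * (J : ℝ) + 1) := by
        rw [ENNReal.ofReal_add (by positivity) (by norm_num), ENNReal.ofReal_mul (by norm_num),
          ENNReal.ofReal_natCast]
        norm_num
      rw [h2, ← ENNReal.ofReal_pow (by positivity)]
      refine ENNReal.ofReal_le_ofReal ?_
      have h3 : (2 * (J : ℝ) + 1) ≤ Real.exp (2 * J) := Real.add_one_le_exp _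
      calc (2 * (J : ℝ) + 1) ^ 2 ≤ Real.exp (2 * J) ^ 2 := pow_le_pow_left₀ (by positivity) h3 2
        _ = Real.exp (4 * J) := by rw [← Real.exp_nat_mul]; congr 1; push_cast; ring
    calc _ ≤ ENNReal.ofReal (Real.exp (4 * J)) * ENNReal.ofReal (Real.exp (-(Λ * (J * X / 4)))) :=
          mul_le_mul' h1 hsup
      _ = ENNReal.ofReal (Real.exp (4 * J + -(Λ * (J * X / 4)))) := by
          rw [← ENNReal.ofReal_mul (Real.exp_pos _).le, ← Real.exp_add]
      _ ≤ _ := by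
          refine ENNReal.ofReal_le_ofReal ?_
          have h4 := Real.exp_pos (-(lam * u))
          have h5 : Real.exp (4 * J + -(Λ * (J * X / 4))) ≤ 1 / 4 * Real.exp (-(lam * u)) := by
            apply quarter
            have h6 : (J : ℝ) ≤ J * X := by nlinarith
            have h7 : lam * u ≤ lam * (J * X) := mul_le_mul_of_nonneg_left huJ (by linarith)
            have h8 : (32 * lam + 16) * (J * X) ≤ Λ * (J * X) :=
              mul_le_mul_of_nonneg_right hΛ (by positivity)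
            nlinarith
          linarith
  have hmain : ENNReal.ofReal (8 * Real.exp (2 * lam * (R1 + R2 / 2) - 2 * lam * u)) ≤
      ENNReal.ofReal (1 / 2 * Real.exp (-(lam * u))) := by
    refine ENNReal.ofReal_le_ofReal (quarter8 ?_)
    nlinarith
  refine (add_le_add hmain hlong).trans (le_of_eq ?_)
  rw [← ENNReal.ofReal_add (by positivity) (by positivity)]
  congr 1
  ring

end Crest.Agent.R154.Stage663
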