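import Crest.Agent.R154.PopK_663
import Crest.Agent.R154.StageM_663

/-! Row 154, B8, TILE_RUN (helper663): from (hb) steep windows, (CE) contact energies and (loss) at one
unit `N` and one `J` to the stage window (second half of helper299's `RunHyp`), every frame. -/

set_option autoImplicit false
set_option linter.unusedSectionVars false
set_option linter.unusedVariables false
set_option linter.deprecated false

namespace Crest.Agent.R154.RunGlue663

open MeasureTheory ProbabilityTheory Set Filter Crest.ProbabilityR.RandomEnvironment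
open Crest.Agent.R154.Mk561 Crest.Agent.R154.Q561
open Crest.Agent.R154.Flux132 (lev)
open Crest.Agent.R154.RatioR872 Crest.Agent.R154.RatioR872.KerSys Crest.Agent.R154.Tile872
open Crest.Agent.R154.FreeD950 Crest.Agent.R154.HcE663 Crest.Agent.R154.PopK663
open Crest.Agent.R154.B6I (SP PSm)
open Crest.Agent.R154.D2Asm244 (kT)
open scoped ENNReal Topology

/-- numbers of (HC) -/
lemma num_hc {p Λ C0 : ℝ} (hp : 0 < p) (hp1 : p ≤ 1) (hΛ : 4 ≤ Λ) (hC0 : 0 ≤ C0) {e1 : ℝ≥0∞}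
    (he0 : e1 ≠ 0) (het : e1 ≠ ∞) {X : ℝ} (hX : 1 ≤ X) {n : ℕ} (hn : 1 ≤ n) :
    ∃ m0' : ℕ, 1 ≤ m0' ∧ ∃ Qm : ℝ≥0∞,
      (∀ m : ℕ, m0' ≤ m → (1 - ENNReal.ofReal p / 8) ^ m * ((m : ℝ≥0∞) + 1) ≤ Qm) ∧
      (ENNReal.ofReal (Real.exp (-(Λ * (n * X)))) * ((m0' : ℝ≥0∞) / e1) + Qm / e1) *
        ENNReal.ofReal (C0 * (n + 1)) ≤
      ENNReal.ofReal (4 * (16 / p + 1) * C0 / e1.toReal * Real.exp (-(Λ / 2 * (n * X)))) := by
  set y : ℝ := n * X with hy
  have hn1 : (1 : ℝ) ≤ n := by exact_mod_cast hn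
  have hny : (n : ℝ) ≤ y := by rw [hy]; nlinarith
  have hy1 : 1 ≤ y := hn1.trans hny
  set E : ℝ := e1.toReal with hE
  have hE0 : 0 < E := ENNReal.toReal_pos he0 het
  have hE1 : e1 = ENNReal.ofReal E := (ENNReal.ofReal_toReal het).symm
  have h16p : 16 ≤ 16 / p := by
    rw [le_div_iff₀ hp]; linarith
  have hΛy : 4 ≤ Λ * y := by nlinarith
  set m0' : ℕ := ⌈16 / p * (Λ * y)⌉₊ with hm0
  have hm0ge : 16 / p * (Λ * y) ≤ m0' := Nat.le_ceil _
  have hm0le : (m0' : ℝ) ≤ 16 / p * (Λ * y) + 1 := (Nat.ceil_lt_add_one (by positivity)).le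
  have hm1 : 1 ≤ m0' := by
    have h1 : (1 : ℝ) ≤ m0' := by nlinarith
    exact_mod_cast h1
  refine ⟨m0', hm1, ENNReal.ofReal (16 / p * Real.exp (-(Λ * y))), ?_, ?_⟩
  · intro m hm
    have hmr : (m0' : ℝ) ≤ m := by exact_mod_cast hm
    have e1 : (1 - ENNReal.ofReal p / 8 : ℝ≥0∞) = ENNReal.ofReal (1 - p / 8) := by
      rw [ENNReal.ofReal_sub _ (by positivity), ENNReal.ofReal_one,
        ENNReal.ofReal_div_of_pos (by norm_num)]
      norm_num
    have e2 : ((m : ℝ≥0∞) + 1) = ENNReal.ofReal ((m : ℝ) + 1) := by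
      rw [ENNReal.ofReal_add (by positivity) (by norm_num), ENNReal.ofReal_natCast,
        ENNReal.ofReal_one]
    rw [e1, e2, ← ENNReal.ofReal_pow (by linarith), ← ENNReal.ofReal_mul
      (pow_nonneg (by linarith) _)]
    refine ENNReal.ofReal_le_ofReal ?_
    have h1 : (1 - p / 8) ^ m ≤ Real.exp (-(m * (p / 8))) := by
      have h2 : 1 - p / 8 ≤ Real.exp (-(p / 8)) := by
        have := Real.add_one_le_exp (-(p / 8)); linarith
      calc (1 - p / 8) ^ m ≤ Real.exp (-(p / 8)) ^ m := pow_le_pow_left₀ (by linarith) h2 m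
        _ = _ := by rw [← Real.exp_nat_mul]; congr 1; ring
    have h2 : (m : ℝ) + 1 ≤ 16 / p * Real.exp (m * (p / 16)) := by
      have h3 := Real.add_one_le_exp (m * (p / 16))
      have h4 : 16 / p * (m * (p / 16) + 1) = m + 16 / p := by
        field_simp
      have h5 : 16 / p * (m * (p / 16) + 1) ≤ 16 / p * Real.exp (m * (p / 16)) := by gcongr
      linarith
    calc (1 - p / 8) ^ m * ((m : ℝ) + 1)
        ≤ Real.exp (-(m * (p / 8))) * (16 / p * Real.exp (m * (p / 16))) := by gcongr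
      _ = 16 / p * Real.exp (-(m * (p / 16))) := by
          rw [mul_left_comm, ← Real.exp_add]; congr 2; ring
      _ ≤ 16 / p * Real.exp (-(Λ * y)) := by
          refine mul_le_mul_of_nonneg_left (Real.exp_le_exp.2 ?_) (by positivity)
          have h3 : 16 / p * (Λ * y) ≤ m := hm0ge.trans hmr
          have h4 : 16 / p * (Λ * y) * (p / 16) ≤ m * (p / 16) := by gcongr
          have h5 : 16 / p * (Λ * y) * (p / 16) = Λ * y := by field_simp
          linarith
  · have e3 : ENNReal.ofReal (Real.exp (-(Λ * y))) * ((m0' : ℝ≥0∞) / e1)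
        = ENNReal.ofReal (Real.exp (-(Λ * y)) * (m0' / E)) := by
      rw [ENNReal.ofReal_mul (Real.exp_pos _).le, ENNReal.ofReal_div_of_pos hE0,
        ENNReal.ofReal_natCast, ← hE1]
    have e4 : ENNReal.ofReal (16 / p * Real.exp (-(Λ * y))) / e1
        = ENNReal.ofReal (16 / p * Real.exp (-(Λ * y)) / E) := by
      rw [ENNReal.ofReal_div_of_pos hE0, ← hE1]
    rw [e3, e4, ← ENNReal.ofReal_add (by positivity) (by positivity),
      ← ENNReal.ofReal_mul (by positivity)]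
    refine ENNReal.ofReal_le_ofReal ?_
    have h1 : Real.exp (-(Λ * y)) * (m0' / E) + 16 / p * Real.exp (-(Λ * y)) / E
        ≤ Real.exp (-(Λ * y)) * ((16 / p + 1) * (Λ * y + 1)) / E := by
      have h2 : (m0' : ℝ) + 16 / p ≤ (16 / p + 1) * (Λ * y + 1) := by nlinarith
      have h3 : Real.exp (-(Λ * y)) * (m0' / E) + 16 / p * Real.exp (-(Λ * y)) / E
          = Real.exp (-(Λ * y)) * (m0' + 16 / p) / E := by ring
      rw [h3]
      gcongr
    have h2 : Λ * y + 1 ≤ 4 * Real.exp (Λ * y / 4) := by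
      have := Real.add_one_le_exp (Λ * y / 4); linarith
    have h3 : (n : ℝ) + 1 ≤ Real.exp (Λ * y / 4) := by
      have h4 := Real.add_one_le_exp y
      have h5 : Real.exp y ≤ Real.exp (Λ * y / 4) := Real.exp_le_exp.2 (by nlinarith)
      linarith
    calc (Real.exp (-(Λ * y)) * (m0' / E) + 16 / p * Real.exp (-(Λ * y)) / E) * (C0 * (n + 1))
        ≤ (Real.exp (-(Λ * y)) * ((16 / p + 1) * (4 * Real.exp (Λ * y / 4))) / E) *
          (C0 * Real.exp (Λ * y / 4)) := by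
          refine mul_le_mul (h1.trans ?_) (by gcongr) (by positivity) (by positivity)
          gcongr
      _ = 4 * (16 / p + 1) * C0 / E * (Real.exp (-(Λ * y)) * Real.exp (Λ * y / 4) *
            Real.exp (Λ * y / 4)) := by ring
      _ = 4 * (16 / p + 1) * C0 / E * Real.exp (-(Λ / 2 * y)) := by
          rw [← Real.exp_add, ← Real.exp_add]; congr 2; ring

variable {d : ℕ}

section main

variable {Q : Measure (Environment d)} [IsProbabilityMeasure Q] {κ : ℝ} {R : ℕ}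

/-- **the stage window from (hb), (CE), (loss)**, one unit `N`, one `J`. -/
theorem stage_kS (F : Bind263.Frame Q κ R) (u : Step d)
    (hA : annealedProb Q 0 (escapeEvent (B2d.dirVec u)) ≠ 0) {p lam X Λ C0 : ℝ} (hp : 0 < p)
    (hp1 : p ≤ 1) (hph : ∀ n, ENNReal.ofReal p ≤ hn u R κ Q n) (hlam : 1 ≤ lam) (hX : 1 ≤ X)
    (hΛ : 32 * lam + 16 ≤ Λ) (hC0 : 0 ≤ C0) (M0 : ℝ) :
    ∃ R2 : ℝ, 1 ≤ R2 ∧ ∃ n0 T : ℕ, 1 ≤ n0 ∧ M0 ≤ n0 * X ∧ 1 ≤ T ∧ ∃ ε : ℝ≥0∞, ε ≠ 0 ∧
      ∀ N J : ℕ, 1 ≤ N → 2 * (Real.log (4 / p) + R2) + 3 ≤ J →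
      (∀ m ≤ 2 * J * N, hn u R κ Q (N / T) ≤ hn u R κ Q m + ε) →
      (∀ n : ℕ, 1 ≤ n → ∀ r < N, ∀ s : SP u, ∑ t ∈ Finset.Icc 1 (2 * J), PSm κ Q s.1.1 s.1.2
        (bc u R (t * N - r) ((t + 2 * n) * N - r) s) ≤ ENNReal.ofReal (C0 * (n + 1))) →
      ∀ μ, (kS u R κ Q F.stat F.fin).Start μ → ∀ H0 : ℕ,
      (∀ b n, n0 ≤ n → b + 2 * n ≤ 2 * J → ∀ B,
        MeasurableSet[(kS u R κ Q F.stat F.fin).F (H0 + b * N)] B →
        Q (B ∩ {ω | (kS u R κ Q F.stat F.fin).Sh μ (H0 + (b + n) * N) ω ≠ 0 ∧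
          (kS u R κ Q F.stat F.fin).Sh μ (H0 + (b + 2 * n) * N) ω ≤
            ENNReal.ofReal (Real.exp (-(n * X))) *
              (kS u R κ Q F.stat F.fin).Sh μ (H0 + (b + n) * N) ω}) ≤
            ENNReal.ofReal (Real.exp (-(Λ * (n * X)))) * Q B) →
      ∀ x : ℝ, 2 * (Real.log (4 / p) + R2) + 3 ≤ x → x ≤ J * X → ∀ B,
        MeasurableSet[(kS u R κ Q F.stat F.fin).F H0] B →
        Q (B ∩ {ω | (kS u R κ Q F.stat F.fin).Sh μ (H0 + J * N) ω ≠ 0 ∧
          (kS u R κ Q F.stat F.fin).Sh μ (H0 + 2 * J * N) ω ≤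
            ENNReal.ofReal (Real.exp (-x)) * (kS u R κ Q F.stat F.fin).Sh μ (H0 + J * N) ω}) ≤
            ENNReal.ofReal (Real.exp (-(lam * x))) * Q B := by
  classical
  set A := kS u R κ Q F.stat F.fin with hAd
  set p' : ℝ≥0∞ := ENNReal.ofReal p with hp'
  have hp'0 : p' ≠ 0 := by rw [hp']; simpa using hp
  have hp't : p' ≠ ∞ := ENNReal.ofReal_ne_top
  have hp'1 : p' ≤ 1 := by rw [hp']; simpa using hp1
  have hh : ∀ n, A.h n = hn u R κ Q n := fun n => rfl
  have hph' : ∀ n, p' ≤ A.h n := fun n => by rw [hh]; exact hph n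
  have hh1 : ∀ n, A.h n ≤ 1 := fun n => D2Asm244.h_le F u n
  have hpos : ∀ μ, A.Start μ → ∀ h, ∀ᵐ ω ∂Q, A.Sh μ h ω ≠ 0 := fun μ hμ h =>
    D2Asm244.Sh_pos F u hA μ ⟨hμ.one, hμ.supp⟩ h
  set Cc : ℝ := 4 * (16 / p + 1) * C0 / (e1 p').toReal with hCc
  have he0 := e1_ne_zero hp'0
  have het := e1_ne_top hp't
  have hE0 : 0 < (e1 p').toReal := ENNReal.toReal_pos he0 het
  have hCc0 : 0 ≤ Cc := by rw [hCc]; positivity
  obtain ⟨r0, hr0, hr0'⟩ := Stage663.stage_run' (P := Q) hp hp1 hlam hX hΛ hCc0 0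
  set L0 : ℝ := max M0 (Real.log (64 / p ^ 2)) with hL0
  set R2 : ℝ := max r0 (2 * (L0 + X)) with hR2
  obtain ⟨n0, T, hn0, hT, -, -, hn0X, hrun⟩ := hr0' R2 (le_max_left _ _)
  have hn0L : L0 ≤ n0 * X := by
    have : 2 * (L0 + X) ≤ R2 := le_max_right _ _
    linarith
  -- the loss
  set ε : ℝ≥0∞ := ENNReal.ofReal (p * (1 - p / 2) ^ T / (4 * T)) with hε
  have hTr : (0 : ℝ) < T := by exact_mod_cast hT
  have hpT : 0 < (1 - p / 2) ^ T := pow_pos (by linarith) _
  have hε0 : ε ≠ 0 := by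
    rw [hε]
    have : 0 < p * (1 - p / 2) ^ T / (4 * T) := by positivity
    simpa using this
  refine ⟨R2, hr0.trans (le_max_left _ _), n0, T, hn0, (le_max_left _ _).trans hn0L, hT, ε, hε0,
    ?_⟩
  intro N J hN hJ hloss hCE μ hμ H0 hwin x hx hxJ B hB
  set σ : ℕ := N / T with hσ
  have hTσ : T * σ ≤ N := Nat.mul_div_le N T
  let Fl : Filtration ℕ _ :=
    { seq := fun m => A.F (H0 + m * N)
      mono' := fun i j hij => A.F.mono (Nat.add_le_add_left (Nat.mul_le_mul_right N hij) H0)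
      le' := fun m => A.F.le _ }
  let s : ℕ → Environment d → ℝ≥0∞ := fun m => A.Sh μ (H0 + m * N)
  have hsm : ∀ m, Measurable[Fl m] (s m) := fun m => KerSys.meas_Sh hμ _
  have hanti : ∀ m ω, s (m + 1) ω ≤ s m ω := fun m ω =>
    Sh_anti (Nat.add_le_add_left (Nat.mul_le_mul_right N (Nat.le_succ m)) H0) ω
  have hanti' : ∀ m m', m ≤ m' → ∀ ω, s m' ω ≤ s m ω := fun m m' h ω =>
    Sh_anti (Nat.add_le_add_left (Nat.mul_le_mul_right N h) H0) ω
  have hfin : ∀ m ω, s m ω ≠ ∞ := fun m ω =>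
    ne_top_of_le_ne_top ENNReal.one_ne_top (Sh_le_one hμ _ ω)
  let D : ℕ → ℕ → Set (Environment d) := fun a b =>
    Alive A μ p' T σ (H0 + (a - 1) * N) (H0 + b * N) ∩
      {ω | ENNReal.ofReal (p / 4) * s a ω ≤ s b ω}
  have hlev : ∀ a b, 1 ≤ a → a ≤ b → H0 + (a - 1) * N + T * σ ≤ H0 + b * N := by
    intro a b h1 h2
    have h3 : (a - 1) * N + N ≤ b * N := by
      calc (a - 1) * N + N = (a - 1 + 1) * N := by ring
        _ ≤ b * N := Nat.mul_le_mul_right _ (by omega)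
    omega
  have hJ1 : 1 ≤ J := by
    have h1 : (1 : ℝ) ≤ J := by
      have h2 : 0 ≤ Real.log (4 / p) := Real.log_nonneg (by rw [le_div_iff₀ hp]; linarith)
      have h3 : 1 ≤ R2 := hr0.trans (le_max_left _ _)
      linarith
    exact_mod_cast h1
  have hp4 : ENNReal.ofReal (p / 4) = p' / 4 := by
    rw [ENNReal.ofReal_div_of_pos (by norm_num), ← hp']; norm_num
  have hDm : ∀ a b, J < a → a ≤ b → MeasurableSet[Fl b] (D a b) := by
    intro a b h1 h2
    refine MeasurableSet.inter (alive_meas A hμ p' (hlev a b (by omega) h2)) ?_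
    have h3 : Measurable[Fl b] (s a) := (hsm a).mono (Fl.mono h2) le_rfl
    exact @measurableSet_le _ _ _ _ _ (Fl b) _ _ _ _ _ (h3.const_mul _) (hsm b)
  have hDanti : ∀ a b b', J < a → a ≤ b → b ≤ b' → D a b' ⊆ D a b := by
    intro a b b' h1 h2 h3 ω hω
    exact ⟨alive_anti A μ p' (hlev a b (by omega) h2)
      (Nat.add_le_add_left (Nat.mul_le_mul_right N h3) H0) hω.1, hω.2.trans (hanti' b b' h3 ω)⟩
  have hDc : ∀ a b, J < a → a ≤ b → ∀ ω ∈ D a b, ENNReal.ofReal (p / 4) * s a ω ≤ s b ω :=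
    fun a b _ _ ω hω => hω.2
  set α : ℝ≥0∞ := (1 - p' / 2) ^ T + T * (4 * ε / p') with hα
  have hαle : α ≤ ENNReal.ofReal (2 * (1 - p / 2) ^ T) := by
    have e1 : (1 - p' / 2 : ℝ≥0∞) = ENNReal.ofReal (1 - p / 2) := by
      rw [ENNReal.ofReal_sub _ (by positivity), ENNReal.ofReal_one,
        ENNReal.ofReal_div_of_pos (by norm_num), ← hp']
      norm_num
    have e2 : (T : ℝ≥0∞) * (4 * ε / p') = ENNReal.ofReal ((1 - p / 2) ^ T) := by
      have e3 : (4 * ε / p' : ℝ≥0∞) = ENNReal.ofReal (4 * (p * (1 - p / 2) ^ T / (4 * T)) / p) := by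
        rw [ENNReal.ofReal_div_of_pos hp, ENNReal.ofReal_mul (by norm_num), hε, ← hp']
        norm_num
      rw [e3, ← ENNReal.ofReal_natCast, ← ENNReal.ofReal_mul hTr.le]
      congr 1
      field_simp
    rw [hα, e1, e2, ← ENNReal.ofReal_pow (by linarith), ← ENNReal.ofReal_add hpT.le hpT.le]
    refine ENNReal.ofReal_le_ofReal (le_of_eq ?_)
    ring
  have ha : ∀ a e, J < a → a ≤ e → e ≤ 2 * J → ∀ B, MeasurableSet[Fl (a - 1)] B →
      Q (B ∩ (D a e)ᶜ) ≤ α * Q B := by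
    intro a e h1 h2 h3 B hB
    have h4 := free_dir A hp'0 hph' hh1 hpos (ε := ε) (T := T) (s := σ) (a0 := H0 + (a - 1) * N)
      (b := H0 + e * N) (fun m _ hm => by
        rw [hh, hh]
        refine hloss m (hm.trans ?_)
        have : H0 + e * N - (H0 + (a - 1) * N) ≤ e * N := by omega
        exact this.trans (Nat.mul_le_mul_right _ h3)) (hlev a e (by omega) h2) hμ hB
    refine le_trans (measure_mono_ae ?_) h4
    filter_upwards [Sh_of_alive A hμ p' (hlev a e (by omega) h2)] with ω hω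
    rintro ⟨h5, h6⟩
    refine ⟨h5, fun h7 => h6 ⟨h7, ?_⟩⟩
    change ENNReal.ofReal (p / 4) * s a ω ≤ s e ω
    rw [hp4]
    exact hω h7 _ (hlev a a (by omega) le_rfl)
  have hb : ∀ b n, n0 ≤ n → b + 2 * n ≤ 2 * J → ∀ B, MeasurableSet[Fl b] B →
      Q (B ∩ {ω | s (b + n) ω ≠ 0 ∧ s (b + 2 * n) ω ≤
        ENNReal.ofReal (Real.exp (-(n * X))) * s (b + n) ω}) ≤
          ENNReal.ofReal (Real.exp (-(Λ * (n * X)))) * Q B :=
    fun b n h1 h2 B hB => hwin b n h1 h2 B hB
  have hc : ∀ a n, J < a → n0 ≤ n → ∀ B, MeasurableSet[Fl (a - 1)] B →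
      ∑ b ∈ (Finset.Icc a (2 * J)).filter (fun b => b + 2 * n ≤ 2 * J),
        Q (B ∩ (D a b ∩ {ω | s (b + n) ω ≠ 0 ∧ s (b + 2 * n) ω ≤
          ENNReal.ofReal (Real.exp (-(n * X))) * s (b + n) ω})) ≤
            ENNReal.ofReal (Cc * T * Real.exp (-(Λ / 2 * (n * X)))) * Q B := by
    intro a n h1 h2 B hB
    have hn1 : 1 ≤ n := hn0.trans h2
    set I := (Finset.Icc a (2 * J)).filter (fun b => b + 2 * n ≤ 2 * J) with hI
    have hIa : ∀ b ∈ I, a ≤ b ∧ b ≤ 2 * J ∧ b + 2 * n ≤ 2 * J := by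
      intro b hb'
      rw [hI, Finset.mem_filter, Finset.mem_Icc] at hb'
      exact ⟨hb'.1.1, hb'.1.2, hb'.2⟩
    obtain ⟨m0', hm0', Qm, hQm, hnum⟩ := num_hc hp hp1 (by linarith : (4 : ℝ) ≤ Λ) hC0 he0 het hX hn1
    have hη : ENNReal.ofReal (Real.exp (-(n * X))) < p' ^ 2 / 32 := by
      have e5 : p' ^ 2 / 32 = ENNReal.ofReal (p ^ 2 / 32) := by
        rw [ENNReal.ofReal_div_of_pos (by norm_num), ENNReal.ofReal_pow hp.le, ← hp']; norm_num
      rw [e5, ENNReal.ofReal_lt_ofReal_iff (by positivity)]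
      have h3 : Real.log (64 / p ^ 2) ≤ n * X := by
        have h4 : (n0 : ℝ) ≤ n := by exact_mod_cast h2
        have h5 : (n0 : ℝ) * X ≤ n * X := mul_le_mul_of_nonneg_right h4 (by linarith)
        exact ((le_max_right _ _).trans hn0L).trans h5
      have h6 : Real.exp (-(n * X)) ≤ Real.exp (-(Real.log (64 / p ^ 2))) :=
        Real.exp_le_exp.2 (by linarith)
      rw [← Real.log_inv, Real.exp_log (by positivity)] at h6
      refine h6.trans_lt ?_
      rw [inv_div]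
      have : 0 < p ^ 2 := by positivity
      linarith
    have key := hc_alive (A := A) (popR u R κ Q F.stat F.fin hp'0 hp'1 hph) he0 het
      (ENNReal.sub_lt_self ENNReal.one_ne_top one_ne_zero
        (ENNReal.div_pos hp'0 (by norm_num)).ne') hμ (hpos μ hμ) (T := T) (s := σ)
      (a0 := H0 + (a - 1) * N) (h := 2 * n * N) (g := n * N)
      (Nat.mul_le_mul_right N (by omega)) I (fun b => H0 + b * N)
      (fun b hb' => hlev a b (by omega) (hIa b hb').1)
      (Ce := ENNReal.ofReal (C0 * (n + 1))) ?_ hm0' hQm hη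
      (ζ := ENNReal.ofReal (Real.exp (-(Λ * (n * X))))) ?_ hB
    · refine le_trans ?_ (key.trans ?_)
      · refine Finset.sum_le_sum fun b hb' => measure_mono ?_
        rintro ω ⟨h3, ⟨h4, -⟩, h5, h6⟩
        refine ⟨h3, h4, ?_, ?_⟩
        · have e6 : H0 + b * N + n * N = H0 + (b + n) * N := by ring
          rw [e6]; exact h5
        · have e6 : H0 + b * N + n * N = H0 + (b + n) * N := by ring
          have e7 : H0 + b * N + 2 * n * N = H0 + (b + 2 * n) * N := by ring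
          rw [e6, e7]; exact h6
      · rw [← mul_assoc (_ + _), ← mul_assoc (T : ℝ≥0∞)]
        refine mul_le_mul' ?_ le_rfl
        calc (T : ℝ≥0∞) * ((ENNReal.ofReal (Real.exp (-(Λ * (n * X)))) * (m0' / e1 p') +
              Qm / e1 p') * ENNReal.ofReal (C0 * (n + 1)))
            ≤ T * ENNReal.ofReal (Cc * Real.exp (-(Λ / 2 * (n * X)))) := by
              gcongr
          _ = _ := by
              rw [← ENNReal.ofReal_natCast, ← ENNReal.ofReal_mul hTr.le]
              congr 1; ring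
    · intro l hl
      have hlσ : l * σ < N := by
        rcases Nat.eq_zero_or_pos σ with h0 | h0
        · rw [h0, Nat.mul_zero]; exact hN
        · have : l * σ < T * σ := Nat.mul_lt_mul_of_pos_right hl h0
          omega
      refine ce_kS u R κ Q F.stat F.fin (h := 2 * n * N) I (fun b => H0 + b * N)
        (fun b hb' => (lv_le hl).trans (hlev a b (by omega) (hIa b hb').1)) fun sp => ?_
      refine le_trans ?_ (hCE n hn1 (l * σ) hlσ sp)
      have e8 : ∀ b ∈ I, PSm κ Q sp.1.1 sp.1.2 (bc u R (H0 + b * N - (H0 + (a - 1) * N + l * σ))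
          (H0 + b * N + 2 * n * N - (H0 + (a - 1) * N + l * σ)) sp)
          = PSm κ Q sp.1.1 sp.1.2 (bc u R ((b + 1 - a) * N - l * σ)
            ((b + 1 - a + 2 * n) * N - l * σ) sp) := by
        intro b hb'
        have h3 : b * N = (b + 1 - a) * N + (a - 1) * N := by
          rw [← add_mul]; congr 1; have := (hIa b hb').1; omega
        have h4 : H0 + b * N - (H0 + (a - 1) * N + l * σ) = (b + 1 - a) * N - l * σ := by omega
        have h5 : (b + 1 - a + 2 * n) * N = (b + 1 - a) * N + 2 * n * N := by ring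
        have h6 : H0 + b * N + 2 * n * N - (H0 + (a - 1) * N + l * σ)
            = (b + 1 - a + 2 * n) * N - l * σ := by omega
        rw [h4, h6]
      rw [Finset.sum_congr rfl e8]
      have e9 : ∑ b ∈ I, PSm κ Q sp.1.1 sp.1.2 (bc u R ((b + 1 - a) * N - l * σ)
            ((b + 1 - a + 2 * n) * N - l * σ) sp)
          = ∑ t ∈ I.image (fun b => b + 1 - a), PSm κ Q sp.1.1 sp.1.2 (bc u R (t * N - l * σ)
            ((t + 2 * n) * N - l * σ) sp) := by
        rw [Finset.sum_image]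
        intro b hb1 b' hb2 h
        have h3 := (hIa b hb1).1
        have h4 := (hIa b' hb2).1
        simp only at h
        omega
      rw [e9]
      refine Finset.sum_le_sum_of_subset fun t ht => ?_
      rw [Finset.mem_image] at ht
      obtain ⟨b, hb', rfl⟩ := ht
      rw [Finset.mem_Icc]
      have := hIa b hb'
      omega
    · intro b hb' B' hB'
      have h3 := hwin b n h2 (hIa b hb').2.2 B' hB'
      have e6 : H0 + b * N + n * N = H0 + (b + n) * N := by ring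
      have e7 : H0 + b * N + 2 * n * N = H0 + (b + 2 * n) * N := by ring
      rw [e6, e7]
      exact h3
  have hfinal := hrun (F := Fl) (s := s) hsm hanti hfin hJ D hDm hDanti hDc hαle hCc0
    (by rw [pow_zero, mul_one]) ha hb hc x hx hxJ B (by
      show MeasurableSet[A.F (H0 + 0 * N)] B
      rw [Nat.zero_mul, Nat.add_zero]; exact hB)
  exact hfinal

end main

end Crest.Agent.R154.RunGlue663
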