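import Mathlib

/-!
# Row 154: the loss-free additive chain over a long irregular run (SUN lemma)

`c m` = cost (`-log Sh`) at level `h_0 + m y`, nondecreasing, adapted.  Hypotheses:
(a) one window, moderate strengths `x0 ≤ x ≤ X`, given the past one window below;
(b) one slope `X` per window, `n` windows, given the past `n` windows below.
Conclusion: `P (c (2k) - c k ≥ u) ≤ exp (-(lam/16) u)` for `8 (x0 + 9) k ≤ u ≤ k X`.
No estimate of a single window beyond the strength `X` is used.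
-/

set_option autoImplicit false
set_option linter.unusedVariables false
set_option linter.deprecated false

open MeasureTheory ENNReal

namespace Crest.Agent.R154.Sun95

variable {Ω : Type*} {m0 : MeasurableSpace Ω} {P : Measure Ω}

/-- from sets to functions -/
theorem lint_ind_le {m : MeasurableSpace Ω} (hm : m ≤ m0) {E : Set Ω} (hE : MeasurableSet[m0] E)
    {a : ℝ≥0∞} (h : ∀ B, MeasurableSet[m] B → P (B ∩ E) ≤ a * P B) {f : Ω → ℝ≥0∞}
    (hf : Measurable[m] f) :
    ∫⁻ ω, E.indicator f ω ∂P ≤ a * ∫⁻ ω, f ω ∂P := by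
  rw [lintegral_indicator hE]
  have h1 : (P.restrict E).trim hm ≤ a • P.trim hm := by
    refine Measure.le_iff.2 fun B hB => ?_
    rw [trim_measurableSet_eq hm hB, Measure.smul_apply, trim_measurableSet_eq hm hB,
      Measure.restrict_apply (hm _ hB), smul_eq_mul]
    exact h B hB
  calc ∫⁻ ω in E, f ω ∂P = ∫⁻ ω, f ω ∂((P.restrict E).trim hm) := (lintegral_trim hm hf).symm
    _ ≤ ∫⁻ ω, f ω ∂(a • P.trim hm) := lintegral_mono' h1 le_rfl
    _ = a * ∫⁻ ω, f ω ∂(P.trim hm) := lintegral_smul_measure a f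
    _ = a * ∫⁻ ω, f ω ∂P := by rw [lintegral_trim hm hf]

/-- regular part of one window -/
noncomputable def zz (c : ℕ → Ω → ℝ) (X : ℝ) (m : ℕ) (ω : Ω) : ℝ :=
  if c (m + 1) ω - c m ω < X then c (m + 1) ω - c m ω else 0

/-- regular part of the cost between `k` and `e` -/
noncomputable def T (c : ℕ → Ω → ℝ) (X : ℝ) (k e : ℕ) (ω : Ω) : ℝ :=
  ∑ m ∈ Finset.Ico k e, zz c X m ω

/-- upper bound of `exp (θ * (cost of the steep part))` (fuel `j`) -/
noncomputable def V (c : ℕ → Ω → ℝ) (X θ : ℝ) (k : ℕ) : ℕ → ℕ → Ω → ℝ≥0∞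
  | 0, _ => fun _ => 1
  | j + 1, e => fun ω => if e ≤ k then 1 else
      V c X θ k j (e - 1) ω + ∑ n ∈ Finset.Icc 1 (e / 2),
        {ω' | (n : ℝ) * X ≤ c e ω' - c (e - n) ω'}.indicator
          (fun ω' => ENNReal.ofReal (Real.exp (2 * θ * (n * X))) * V c X θ k j (e - 2 * n) ω') ω

theorem zz_nonneg {c : ℕ → Ω → ℝ} (hmono : ∀ ω, Monotone fun m => c m ω) (X : ℝ) (m : ℕ)
    (ω : Ω) : 0 ≤ zz c X m ω := by
  unfold zz
  split_ifs
  · have := hmono ω (Nat.le_succ m)
    simp only at this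
    linarith
  · exact le_rfl

theorem T_nonneg {c : ℕ → Ω → ℝ} (hmono : ∀ ω, Monotone fun m => c m ω) (X : ℝ) (k e : ℕ)
    (ω : Ω) : 0 ≤ T c X k e ω := Finset.sum_nonneg fun m _ => zz_nonneg hmono X m ω

theorem T_mono {c : ℕ → Ω → ℝ} (hmono : ∀ ω, Monotone fun m => c m ω) (X : ℝ) (k : ℕ)
    {e e' : ℕ} (h : e ≤ e') (ω : Ω) : T c X k e ω ≤ T c X k e' ω :=
  Finset.sum_le_sum_of_subset_of_nonneg (Finset.Ico_subset_Ico_right h)
    fun m _ _ => zz_nonneg hmono X m ω

theorem T_succ (c : ℕ → Ω → ℝ) (X : ℝ) {k e : ℕ} (h : k ≤ e) (ω : Ω) :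
    T c X k (e + 1) ω = T c X k e ω + zz c X e ω := Finset.sum_Ico_succ_top h _

/-- **the deterministic decomposition** -/
theorem det {c : ℕ → Ω → ℝ} (hmono : ∀ ω, Monotone fun m => c m ω) {X θ : ℝ}
    (hθ : 0 ≤ θ) {k : ℕ} (hk : 3 ≤ k) (ω : Ω)
    (hno : ∀ e n : ℕ, k < e → e ≤ 2 * k → e < 4 * n → 2 * n ≤ e →
      c e ω - c (e - n) ω < n * X) :
    ∀ j e, e ≤ k + j → e ≤ 2 * k →
      ENNReal.ofReal (Real.exp (θ * (c e ω - c k ω - T c X k e ω))) ≤ V c X θ k j e ω := by
  have hsmall : ∀ e, e ≤ k →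
      ENNReal.ofReal (Real.exp (θ * (c e ω - c k ω - T c X k e ω))) ≤ 1 := by
    intro e he
    rw [ENNReal.ofReal_le_one, Real.exp_le_one_iff]
    have h1 := hmono ω he
    simp only at h1
    have h2 := T_nonneg hmono X k e ω
    exact mul_nonpos_of_nonneg_of_nonpos hθ (by linarith)
  intro j
  induction j with
  | zero =>
    intro e he _
    exact hsmall e (by omega)
  | succ j ih =>
    intro e he he2
    simp only [V]
    split_ifs with hek
    · exact hsmall e hek
    push Not at hek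
    obtain ⟨e', rfl⟩ : ∃ e', e = e' + 1 := ⟨e - 1, by omega⟩
    by_cases hZ : c (e' + 1) ω - c e' ω < X
    · refine le_trans ?_ (le_add_right (ih e' (by omega) (by omega)))
      rw [T_succ c X (by omega) ω]
      have : zz c X e' ω = c (e' + 1) ω - c e' ω := if_pos hZ
      rw [this]
      apply le_of_eq
      congr 3
      ring
    · push Not at hZ
      set e := e' + 1 with he'
      -- the maximal steep interval
      let Q : ℕ → Prop := fun n => (n : ℝ) * X ≤ c e ω - c (e - n) ω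
      have : DecidablePred Q := fun _ => Classical.propDecidable _
      set n := Nat.findGreatest Q (e / 4) with hn
      have he4 : 1 ≤ e / 4 := by omega
      have hQ1 : Q 1 := by
        show ((1 : ℕ) : ℝ) * X ≤ c e ω - c (e - 1) ω
        rw [he', Nat.add_sub_cancel]; simpa using hZ
      have hn1 : 1 ≤ n := Nat.le_findGreatest he4 hQ1
      have hQn : Q n := Nat.findGreatest_spec he4 hQ1
      have hnle : n ≤ e / 4 := Nat.findGreatest_le _
      have h4n : 4 * n ≤ e := by omega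
      have hcost : c e ω - c (e - 2 * n) ω < 2 * (n * X) := by
        by_cases h2n : 2 * n ≤ e / 4
        · have : ¬ Q (2 * n) := Nat.findGreatest_is_greatest (by omega) h2n
          simp only [Q, not_le] at this
          push_cast at this
          linarith
        · have := hno e (2 * n) (by omega) he2 (by omega) (by omega)
          push_cast at this
          linarith
      have hmem : n ∈ Finset.Icc 1 (e / 2) := Finset.mem_Icc.2 ⟨hn1, by omega⟩
      refine le_trans ?_ (le_add_left (Finset.single_le_sum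
        (f := fun n : ℕ => {ω' | (n : ℝ) * X ≤ c e ω' - c (e - n) ω'}.indicator
          (fun ω' => ENNReal.ofReal (Real.exp (2 * θ * (n * X))) *
            V c X θ k j (e - 2 * n) ω') ω) (fun _ _ => zero_le) hmem))
      have hind : ω ∈ {ω' | (n : ℝ) * X ≤ c e ω' - c (e - n) ω'} := hQn
      simp only [Set.indicator_of_mem hind]
      refine le_trans ?_ (mul_le_mul_right (ih (e - 2 * n) (by omega) (by omega)) _)
      rw [← ENNReal.ofReal_mul (Real.exp_pos _).le, ← Real.exp_add]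
      refine ENNReal.ofReal_le_ofReal (Real.exp_le_exp.2 ?_)
      have hT := T_mono hmono X k (show e - 2 * n ≤ e by omega) ω
      have : θ * (c e ω - c k ω - T c X k e ω) ≤
          θ * (2 * (n * X) + (c (e - 2 * n) ω - c k ω - T c X k (e - 2 * n) ω)) :=
        mul_le_mul_of_nonneg_left (by linarith) hθ
      calc _ ≤ _ := this
        _ = _ := by ring

theorem V_meas {F : Filtration ℕ m0} {c : ℕ → Ω → ℝ} (hcm : ∀ m, Measurable[F m] (c m))
    (X θ : ℝ) (k : ℕ) : ∀ j e, Measurable[F e] (V c X θ k j e) := by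
  intro j
  induction j with
  | zero => intro e; exact measurable_const
  | succ j ih =>
    intro e
    simp only [V]
    by_cases hek : e ≤ k
    · simp only [hek, if_true]; exact measurable_const
    · simp only [hek, if_false]
      refine Measurable.add ((ih (e - 1)).mono (F.mono (Nat.sub_le e 1)) le_rfl) ?_
      refine Finset.measurable_sum _ fun n _ => ?_
      refine Measurable.indicator ?_ ?_
      · exact Measurable.const_mul ((ih (e - 2 * n)).mono (F.mono (Nat.sub_le _ _)) le_rfl) _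
      · exact measurableSet_le measurable_const
          (Measurable.sub (hcm e) ((hcm (e - n)).mono (F.mono (Nat.sub_le _ _)) le_rfl))

theorem sum_half (M : ℕ) :
    ∑ n ∈ Finset.Icc 1 M, (2⁻¹ : ℝ≥0∞) ^ n + (2⁻¹ : ℝ≥0∞) ^ M = 1 := by
  induction M with
  | zero => simp
  | succ M ih =>
    rw [Finset.sum_Icc_succ_top (by omega), add_assoc]
    have : (2⁻¹ : ℝ≥0∞) ^ (M + 1) + (2⁻¹ : ℝ≥0∞) ^ (M + 1) = (2⁻¹ : ℝ≥0∞) ^ M := by
      rw [pow_succ, ← mul_add, ENNReal.inv_two_add_inv_two, mul_one]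
    rw [this]
    exact ih

theorem half_pow {t : ℝ} (ht : 1 ≤ t) (n : ℕ) :
    ENNReal.ofReal (Real.exp (-(t * n))) ≤ (2⁻¹ : ℝ≥0∞) ^ n := by
  have h1 : Real.exp (-t) ≤ 2⁻¹ := by
    rw [Real.exp_neg]
    apply inv_anti₀ (by norm_num)
    have := Real.add_one_le_exp t
    linarith
  have h2 : Real.exp (-(t * n)) = Real.exp (-t) ^ n := by
    rw [← Real.exp_nat_mul]; congr 1; ring
  rw [h2, ENNReal.ofReal_pow (Real.exp_pos _).le]
  have h3 : ENNReal.ofReal (Real.exp (-t)) ≤ 2⁻¹ := by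
    have : (2⁻¹ : ℝ≥0∞) = ENNReal.ofReal (2⁻¹) := by
      rw [ENNReal.ofReal_inv_of_pos (by norm_num)]; simp
    rw [this]
    exact ENNReal.ofReal_le_ofReal h1
  exact pow_le_pow_left' h3 n

/-- steep part, exponential moment -/
theorem V_int {F : Filtration ℕ m0} {c : ℕ → Ω → ℝ} (hcm : ∀ m, Measurable[F m] (c m))
    {X lam : ℝ} (hlX : 2 ≤ lam * X) {k : ℕ}
    (hb : ∀ e n : ℕ, 1 ≤ n → 2 * n ≤ e → e ≤ 2 * k → ∀ B, MeasurableSet[F (e - 2 * n)] B →
      P (B ∩ {ω | (n : ℝ) * X ≤ c e ω - c (e - n) ω}) ≤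
        ENNReal.ofReal (Real.exp (-(lam * (n * X)))) * P B) :
    ∀ j e, e ≤ 2 * k → ∫⁻ ω, V c X (lam / 4) k j e ω ∂P ≤ 2 ^ (e - k) * P Set.univ := by
  have hone : ∀ a : ℕ, P Set.univ ≤ 2 ^ a * P Set.univ := by
    intro a
    calc P Set.univ = 1 * P Set.univ := (one_mul _).symm
      _ ≤ _ := mul_le_mul_left (one_le_pow₀ (by norm_num)) _
  intro j
  induction j with
  | zero => intro e _; simp only [V]; rw [lintegral_one]; exact hone _
  | succ j ih =>
    intro e he2
    simp only [V]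
    by_cases hek : e ≤ k
    · simp only [hek, if_true]; rw [lintegral_one]; exact hone _
    · simp only [hek, if_false]
      have hmE : ∀ n : ℕ, MeasurableSet {ω' | (n : ℝ) * X ≤ c e ω' - c (e - n) ω'} := fun n =>
        measurableSet_le measurable_const
          (Measurable.sub ((hcm e).mono (F.le _) le_rfl) ((hcm (e - n)).mono (F.le _) le_rfl))
      rw [lintegral_add_left ((V_meas hcm X (lam / 4) k j (e - 1)).mono (F.le _) le_rfl),
        lintegral_finset_sum _ fun n _ => Measurable.indicator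
          (Measurable.const_mul ((V_meas hcm X (lam / 4) k j (e - 2 * n)).mono (F.le _) le_rfl) _)
          (hmE n)]
      have h1 := ih (e - 1) (by omega)
      have h2 : ∀ n ∈ Finset.Icc 1 (e / 2),
          ∫⁻ ω, {ω' | (n : ℝ) * X ≤ c e ω' - c (e - n) ω'}.indicator
            (fun ω' => ENNReal.ofReal (Real.exp (2 * (lam / 4) * (n * X))) *
              V c X (lam / 4) k j (e - 2 * n) ω') ω ∂P ≤
            (2⁻¹ : ℝ≥0∞) ^ n * (2 ^ (e - 1 - k) * P Set.univ) := by
        intro n hn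
        rw [Finset.mem_Icc] at hn
        have h3 := lint_ind_le (P := P) (F.le (e - 2 * n)) (hmE n)
          (hb e n hn.1 (by omega) he2)
          (f := fun ω' => ENNReal.ofReal (Real.exp (2 * (lam / 4) * (n * X))) *
              V c X (lam / 4) k j (e - 2 * n) ω')
          (Measurable.const_mul (V_meas hcm X (lam / 4) k j (e - 2 * n)) _)
        refine h3.trans ?_
        rw [lintegral_const_mul _ ((V_meas hcm X (lam / 4) k j (e - 2 * n)).mono (F.le _) le_rfl),
          ← mul_assoc, ← ENNReal.ofReal_mul (Real.exp_pos _).le, ← Real.exp_add]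
        refine mul_le_mul' ?_ ((ih (e - 2 * n) (by omega)).trans ?_)
        · have h4 := half_pow (t := lam * X / 2) (by linarith) n
          refine le_trans (le_of_eq ?_) h4
          congr 2
          ring
        · refine mul_le_mul_left (pow_le_pow_right₀ (by norm_num) (by omega)) _
      calc _ ≤ 2 ^ (e - 1 - k) * P Set.univ + ∑ n ∈ Finset.Icc 1 (e / 2),
            (2⁻¹ : ℝ≥0∞) ^ n * (2 ^ (e - 1 - k) * P Set.univ) :=
            add_le_add h1 (Finset.sum_le_sum h2)
        _ = (1 + ∑ n ∈ Finset.Icc 1 (e / 2), (2⁻¹ : ℝ≥0∞) ^ n) *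
            (2 ^ (e - 1 - k) * P Set.univ) := by rw [← Finset.sum_mul, add_mul, one_mul]
        _ ≤ 2 * (2 ^ (e - 1 - k) * P Set.univ) := by
            refine mul_le_mul_left ?_ _
            have : ∑ n ∈ Finset.Icc 1 (e / 2), (2⁻¹ : ℝ≥0∞) ^ n ≤ 1 := by
              rw [← sum_half (e / 2)]; exact le_self_add
            calc (1 : ℝ≥0∞) + _ ≤ 1 + 1 := add_le_add le_rfl this
              _ = 2 := one_add_one_eq_two
        _ = 2 ^ (e - k) * P Set.univ := by
            rw [← mul_assoc, ← pow_succ']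
            congr 2
            omega

/-! ### the regular part -/

/-- regular part, windows of parity `p` -/
noncomputable def Tp (c : ℕ → Ω → ℝ) (X : ℝ) (k p e : ℕ) (ω : Ω) : ℝ :=
  ∑ m ∈ (Finset.Ico k e).filter (fun m => m % 2 = p), zz c X m ω

theorem T_eq (c : ℕ → Ω → ℝ) (X : ℝ) (k e : ℕ) (ω : Ω) :
    T c X k e ω = Tp c X k 0 e ω + Tp c X k 1 e ω := by
  unfold T Tp
  rw [← Finset.sum_filter_add_sum_filter_not (Finset.Ico k e) (fun m => m % 2 = 0)]
  congr 1
  apply Finset.sum_congr _ fun _ _ => rfl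
  ext m
  simp only [Finset.mem_filter]
  constructor
  · rintro ⟨h1, h2⟩; exact ⟨h1, by omega⟩
  · rintro ⟨h1, h2⟩; exact ⟨h1, by omega⟩

theorem zz_meas {F : Filtration ℕ m0} {c : ℕ → Ω → ℝ} (hcm : ∀ m, Measurable[F m] (c m))
    (X : ℝ) (m : ℕ) : Measurable[F (m + 1)] (zz c X m) := by
  have h1 : Measurable[F (m + 1)] (fun ω => c (m + 1) ω - c m ω) :=
    Measurable.sub (hcm (m + 1)) ((hcm m).mono (F.mono (Nat.le_succ m)) le_rfl)
  unfold zz
  exact Measurable.ite (measurableSet_lt h1 measurable_const) h1 measurable_const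

theorem Tp_meas {F : Filtration ℕ m0} {c : ℕ → Ω → ℝ} (hcm : ∀ m, Measurable[F m] (c m))
    (X : ℝ) (k p m : ℕ) (hmp : m % 2 = p) : Measurable[F (m - 1)] (Tp c X k p m) := by
  unfold Tp
  refine Finset.measurable_sum _ fun i hi => ?_
  rw [Finset.mem_filter, Finset.mem_Ico] at hi
  exact (zz_meas hcm X i).mono (F.mono (by omega)) le_rfl

theorem Tp_succ_of_ne (c : ℕ → Ω → ℝ) (X : ℝ) {k p m : ℕ} (hk : k ≤ m) (hmp : m % 2 ≠ p)
    (ω : Ω) : Tp c X k p (m + 1) ω = Tp c X k p m ω := by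
  unfold Tp
  rw [Finset.sum_filter, Finset.sum_filter, Finset.sum_Ico_succ_top hk, if_neg hmp, add_zero]

theorem Tp_succ_of_eq (c : ℕ → Ω → ℝ) (X : ℝ) {k p m : ℕ} (hk : k ≤ m) (hmp : m % 2 = p)
    (ω : Ω) : Tp c X k p (m + 1) ω = Tp c X k p m ω + zz c X m ω := by
  unfold Tp
  rw [Finset.sum_filter, Finset.sum_filter, Finset.sum_Ico_succ_top hk, if_pos hmp]

/-- discretised exponential of the regular part -/
theorem exp_zz_le {c : ℕ → Ω → ℝ} (hmono : ∀ ω, Monotone fun m => c m ω) {X θ x0 : ℝ}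
    (hθ : 0 ≤ θ) (hx0 : 0 ≤ x0) (m : ℕ) (ω : Ω) :
    ENNReal.ofReal (Real.exp (θ * zz c X m ω)) ≤ ENNReal.ofReal (Real.exp (θ * x0)) +
      ∑ j ∈ (Finset.range ⌈X - x0⌉₊).filter (fun j : ℕ => x0 + j ≤ X),
        {ω' | x0 + j ≤ c (m + 1) ω' - c m ω'}.indicator
          (fun _ => ENNReal.ofReal (Real.exp (θ * (x0 + j + 1)))) ω := by
  set z := zz c X m ω with hz
  by_cases h : z ≤ x0
  · exact le_add_right (ENNReal.ofReal_le_ofReal (Real.exp_le_exp.2
      (mul_le_mul_of_nonneg_left h hθ)))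
  · push Not at h
    have hzX : z = c (m + 1) ω - c m ω ∧ z < X := by
      have h0 : z = if c (m + 1) ω - c m ω < X then c (m + 1) ω - c m ω else 0 := rfl
      split_ifs at h0 with h1
      · exact ⟨h0, h0 ▸ h1⟩
      · exfalso; rw [h0] at h; linarith
    set j := ⌊z - x0⌋₊ with hj
    have hj1 : (j : ℝ) ≤ z - x0 := Nat.floor_le (by linarith)
    have hj2 : z - x0 < j + 1 := Nat.lt_floor_add_one _
    have hmem : j ∈ (Finset.range ⌈X - x0⌉₊).filter (fun j : ℕ => x0 + j ≤ X) := by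
      rw [Finset.mem_filter, Finset.mem_range]
      refine ⟨?_, by linarith⟩
      rw [Nat.lt_ceil]
      linarith
    refine le_trans ?_ (le_add_left (Finset.single_le_sum
      (f := fun j : ℕ => {ω' | x0 + j ≤ c (m + 1) ω' - c m ω'}.indicator
          (fun _ => ENNReal.ofReal (Real.exp (θ * (x0 + j + 1)))) ω) (fun _ _ => zero_le) hmem))
    have hind : ω ∈ {ω' | x0 + (j : ℝ) ≤ c (m + 1) ω' - c m ω'} := by
      show x0 + (j : ℝ) ≤ c (m + 1) ω - c m ω
      rw [← hzX.1]; linarith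
    simp only [Set.indicator_of_mem hind]
    exact ENNReal.ofReal_le_ofReal (Real.exp_le_exp.2 (mul_le_mul_of_nonneg_left (by linarith) hθ))

theorem sum_exp_le {lam x0 : ℝ} (hlam : 1 ≤ lam) (hx0 : 0 ≤ x0) (s : Finset ℕ) :
    Real.exp (lam / 2 * x0) + ∑ j ∈ s, Real.exp (lam / 2 * (x0 + j + 1)) *
      Real.exp (-(lam * (x0 + j))) ≤ Real.exp (lam * (x0 + 1) / 2 + 2) := by
  have h1 : ∀ j : ℕ, Real.exp (lam / 2 * (x0 + j + 1)) * Real.exp (-(lam * (x0 + j))) ≤
      Real.exp (lam / 2) * Real.exp (-(1 / 2 : ℝ)) ^ j := by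
    intro j
    rw [← Real.exp_add, ← Real.exp_nat_mul, ← Real.exp_add]
    apply Real.exp_le_exp.2
    have hj : (0 : ℝ) ≤ j := Nat.cast_nonneg j
    have : lam * x0 ≥ 0 := mul_nonneg (by linarith) hx0
    nlinarith
  have hr : Real.exp (-(1 / 2 : ℝ)) ≤ 2 / 3 := by
    rw [Real.exp_neg]
    rw [show (2 / 3 : ℝ) = (3 / 2)⁻¹ by norm_num]
    apply inv_anti₀ (by norm_num)
    have := Real.add_one_le_exp (1 / 2 : ℝ)
    linarith
  have h2 : ∑ j ∈ s, Real.exp (-(1 / 2 : ℝ)) ^ j ≤ 3 := by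
    calc ∑ j ∈ s, Real.exp (-(1 / 2 : ℝ)) ^ j ≤ ∑ j ∈ s, (2 / 3 : ℝ) ^ j :=
          Finset.sum_le_sum fun j _ => pow_le_pow_left₀ (Real.exp_pos _).le hr j
      _ ≤ ∑' j : ℕ, (2 / 3 : ℝ) ^ j :=
          (summable_geometric_of_lt_one (by norm_num) (by norm_num)).sum_le_tsum s
            (fun j _ => by positivity)
      _ = 3 := by rw [tsum_geometric_of_lt_one (by norm_num) (by norm_num)]; norm_num
  have h3 : ∑ j ∈ s, Real.exp (lam / 2 * (x0 + j + 1)) * Real.exp (-(lam * (x0 + j))) ≤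
      Real.exp (lam / 2) * 3 := by
    calc _ ≤ ∑ j ∈ s, Real.exp (lam / 2) * Real.exp (-(1 / 2 : ℝ)) ^ j :=
          Finset.sum_le_sum fun j _ => h1 j
      _ = Real.exp (lam / 2) * ∑ j ∈ s, Real.exp (-(1 / 2 : ℝ)) ^ j := by rw [Finset.mul_sum]
      _ ≤ _ := mul_le_mul_of_nonneg_left h2 (Real.exp_pos _).le
  have h4 : Real.exp (lam / 2 * x0) ≤ Real.exp (lam * (x0 + 1) / 2) :=
    Real.exp_le_exp.2 (by nlinarith)
  have h5 : Real.exp (lam / 2) ≤ Real.exp (lam * (x0 + 1) / 2) :=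
    Real.exp_le_exp.2 (by nlinarith [mul_nonneg (show (0 : ℝ) ≤ lam by linarith) hx0])
  have h6 : (4 : ℝ) ≤ Real.exp 2 := by
    have h7 : (2 : ℝ) ≤ Real.exp 1 := by have := Real.add_one_le_exp (1 : ℝ); linarith
    calc (4 : ℝ) = 2 * 2 := by norm_num
      _ ≤ Real.exp 1 * Real.exp 1 := by gcongr
      _ = Real.exp 2 := by rw [← Real.exp_add]; norm_num
  calc _ ≤ Real.exp (lam * (x0 + 1) / 2) + Real.exp (lam * (x0 + 1) / 2) * 3 := by
        refine add_le_add h4 (h3.trans ?_)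
        exact mul_le_mul_of_nonneg_right h5 (by norm_num)
    _ = Real.exp (lam * (x0 + 1) / 2) * 4 := by ring
    _ ≤ Real.exp (lam * (x0 + 1) / 2) * Real.exp 2 :=
        mul_le_mul_of_nonneg_left h6 (Real.exp_pos _).le
    _ = _ := by rw [← Real.exp_add]

/-- regular part, exponential moment -/
theorem Tp_int {F : Filtration ℕ m0} {c : ℕ → Ω → ℝ} (hcm : ∀ m, Measurable[F m] (c m))
    (hmono : ∀ ω, Monotone fun m => c m ω) {X lam x0 : ℝ} (hlam : 1 ≤ lam) (hx0 : 0 ≤ x0)
    {k : ℕ}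
    (ha : ∀ m, k ≤ m → m < 2 * k → ∀ x, x0 ≤ x → x ≤ X → ∀ B, MeasurableSet[F (m - 1)] B →
      P (B ∩ {ω | x ≤ c (m + 1) ω - c m ω}) ≤ ENNReal.ofReal (Real.exp (-(lam * x))) * P B)
    (p : ℕ) : ∀ i, i ≤ k →
      ∫⁻ ω, ENNReal.ofReal (Real.exp (lam / 2 * Tp c X k p (k + i) ω)) ∂P ≤
        ENNReal.ofReal (Real.exp (i * (lam * (x0 + 1) / 2 + 2))) * P Set.univ := by
  have hpos : 0 ≤ lam * (x0 + 1) / 2 + 2 := by
    have : 0 ≤ lam * (x0 + 1) := mul_nonneg (by linarith) (by linarith)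
    linarith
  intro i
  induction i with
  | zero =>
    intro _
    have : ∀ ω, Tp c X k p (k + 0) ω = 0 := by intro ω; simp [Tp]
    simp only [this]
    simp
  | succ i ih =>
    intro hi
    have ih' := ih (by omega)
    rw [← add_assoc]
    set m := k + i with hm
    by_cases hmp : m % 2 = p
    · have hf : Measurable[F (m - 1)]
          (fun ω => ENNReal.ofReal (Real.exp (lam / 2 * Tp c X k p m ω))) :=
        (Real.measurable_exp.comp (Measurable.const_mul (Tp_meas hcm X k p m hmp) _)).ennreal_ofReal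
      have hmE : ∀ j : ℕ, MeasurableSet {ω' | x0 + (j : ℝ) ≤ c (m + 1) ω' - c m ω'} := fun j =>
        measurableSet_le measurable_const
          (Measurable.sub ((hcm (m + 1)).mono (F.le _) le_rfl) ((hcm m).mono (F.le _) le_rfl))
      set s := (Finset.range ⌈X - x0⌉₊).filter (fun j : ℕ => x0 + j ≤ X) with hs
      have h1 : ∀ ω, ENNReal.ofReal (Real.exp (lam / 2 * Tp c X k p (m + 1) ω)) ≤
          ENNReal.ofReal (Real.exp (lam / 2 * x0)) *
            ENNReal.ofReal (Real.exp (lam / 2 * Tp c X k p m ω)) +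
          ∑ j ∈ s, {ω' | x0 + j ≤ c (m + 1) ω' - c m ω'}.indicator
            (fun ω => ENNReal.ofReal (Real.exp (lam / 2 * (x0 + j + 1))) *
              ENNReal.ofReal (Real.exp (lam / 2 * Tp c X k p m ω))) ω := by
        intro ω
        rw [Tp_succ_of_eq c X (by omega) hmp ω, mul_add, Real.exp_add,
          ENNReal.ofReal_mul (Real.exp_pos _).le]
        have h2 := exp_zz_le (X := X) hmono (by linarith : (0 : ℝ) ≤ lam / 2) hx0 m ω
        calc ENNReal.ofReal (Real.exp (lam / 2 * Tp c X k p m ω)) *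
              ENNReal.ofReal (Real.exp (lam / 2 * zz c X m ω))
            ≤ ENNReal.ofReal (Real.exp (lam / 2 * Tp c X k p m ω)) *
              (ENNReal.ofReal (Real.exp (lam / 2 * x0)) +
                ∑ j ∈ s, {ω' | x0 + j ≤ c (m + 1) ω' - c m ω'}.indicator
                  (fun _ => ENNReal.ofReal (Real.exp (lam / 2 * (x0 + j + 1)))) ω) :=
              mul_le_mul_right h2 _
          _ = _ := by
              rw [mul_add, mul_comm, Finset.mul_sum]
              congr 1
              refine Finset.sum_congr rfl fun j _ => ?_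
              by_cases hω : ω ∈ {ω' | x0 + (j : ℝ) ≤ c (m + 1) ω' - c m ω'}
              · rw [Set.indicator_of_mem hω, Set.indicator_of_mem hω, mul_comm]
              · rw [Set.indicator_of_notMem hω, Set.indicator_of_notMem hω, mul_zero]
      have hfm : Measurable (fun ω => ENNReal.ofReal (Real.exp (lam / 2 * Tp c X k p m ω))) :=
        hf.mono (F.le _) le_rfl
      set I := ∫⁻ ω, ENNReal.ofReal (Real.exp (lam / 2 * Tp c X k p m ω)) ∂P with hI
      have h3 : ∀ j ∈ s, ∫⁻ ω, {ω' | x0 + (j : ℝ) ≤ c (m + 1) ω' - c m ω'}.indicator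
            (fun ω => ENNReal.ofReal (Real.exp (lam / 2 * (x0 + j + 1))) *
              ENNReal.ofReal (Real.exp (lam / 2 * Tp c X k p m ω))) ω ∂P ≤
          ENNReal.ofReal (Real.exp (lam / 2 * (x0 + j + 1)) * Real.exp (-(lam * (x0 + j)))) *
            I := by
        intro j hj
        rw [hs, Finset.mem_filter] at hj
        have h4 := lint_ind_le (P := P) (F.le (m - 1)) (hmE j)
          (ha m (by omega) (by omega) (x0 + j) (by linarith [Nat.cast_nonneg (α := ℝ) j]) hj.2)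
          (f := fun ω => ENNReal.ofReal (Real.exp (lam / 2 * (x0 + j + 1))) *
              ENNReal.ofReal (Real.exp (lam / 2 * Tp c X k p m ω)))
          (Measurable.const_mul hf _)
        refine h4.trans ?_
        rw [lintegral_const_mul _ hfm, ← mul_assoc, ← ENNReal.ofReal_mul (Real.exp_pos _).le,
          mul_comm (Real.exp (-(lam * (x0 + j))))]
      calc ∫⁻ ω, ENNReal.ofReal (Real.exp (lam / 2 * Tp c X k p (m + 1) ω)) ∂P
          ≤ ∫⁻ ω, (ENNReal.ofReal (Real.exp (lam / 2 * x0)) *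
            ENNReal.ofReal (Real.exp (lam / 2 * Tp c X k p m ω)) +
          ∑ j ∈ s, {ω' | x0 + j ≤ c (m + 1) ω' - c m ω'}.indicator
            (fun ω => ENNReal.ofReal (Real.exp (lam / 2 * (x0 + j + 1))) *
              ENNReal.ofReal (Real.exp (lam / 2 * Tp c X k p m ω))) ω) ∂P :=
            lintegral_mono h1
        _ = ENNReal.ofReal (Real.exp (lam / 2 * x0)) * I +
            ∑ j ∈ s, ∫⁻ ω, {ω' | x0 + (j : ℝ) ≤ c (m + 1) ω' - c m ω'}.indicator
            (fun ω => ENNReal.ofReal (Real.exp (lam / 2 * (x0 + j + 1))) *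
              ENNReal.ofReal (Real.exp (lam / 2 * Tp c X k p m ω))) ω ∂P := by
            rw [lintegral_add_left (Measurable.const_mul hfm _), lintegral_const_mul _ hfm,
              lintegral_finset_sum _ fun j _ => Measurable.indicator
                (Measurable.const_mul hfm _) (hmE j)]
        _ ≤ ENNReal.ofReal (Real.exp (lam / 2 * x0)) * I +
            ∑ j ∈ s, ENNReal.ofReal (Real.exp (lam / 2 * (x0 + j + 1)) *
              Real.exp (-(lam * (x0 + j)))) * I := add_le_add le_rfl (Finset.sum_le_sum h3)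
        _ = ENNReal.ofReal (Real.exp (lam / 2 * x0) +
            ∑ j ∈ s, Real.exp (lam / 2 * (x0 + j + 1)) * Real.exp (-(lam * (x0 + j)))) * I := by
            rw [← Finset.sum_mul, ← add_mul, ← ENNReal.ofReal_sum_of_nonneg
              (fun j _ => by positivity), ← ENNReal.ofReal_add (Real.exp_pos _).le
              (Finset.sum_nonneg fun j _ => by positivity)]
        _ ≤ ENNReal.ofReal (Real.exp (lam * (x0 + 1) / 2 + 2)) *
            (ENNReal.ofReal (Real.exp (i * (lam * (x0 + 1) / 2 + 2))) * P Set.univ) :=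
            mul_le_mul' (ENNReal.ofReal_le_ofReal (sum_exp_le hlam hx0 s)) ih'
        _ = _ := by
            rw [← mul_assoc, ← ENNReal.ofReal_mul (Real.exp_pos _).le, ← Real.exp_add]
            congr 3
            push_cast
            ring
    · simp only [Tp_succ_of_ne c X (show k ≤ m by omega) hmp]
      refine ih'.trans (mul_le_mul_left (ENNReal.ofReal_le_ofReal (Real.exp_le_exp.2 ?_)) _)
      push_cast
      nlinarith

/-! ### the conclusion for a real cost process -/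

theorem markov_exp {g : Ω → ℝ≥0∞} (hg : Measurable g) {a b : ℝ} {M : ℝ≥0∞}
    (h : ∫⁻ ω, g ω ∂P ≤ ENNReal.ofReal (Real.exp b) * M) :
    P {ω | ENNReal.ofReal (Real.exp a) ≤ g ω} ≤ ENNReal.ofReal (Real.exp (b - a)) * M := by
  have h1 := mul_meas_ge_le_lintegral (μ := P) hg (ENNReal.ofReal (Real.exp a))
  have h2 : ENNReal.ofReal (Real.exp (-a)) * ENNReal.ofReal (Real.exp a) = 1 := by
    rw [← ENNReal.ofReal_mul (Real.exp_pos _).le, ← Real.exp_add]; simp
  calc P {ω | ENNReal.ofReal (Real.exp a) ≤ g ω}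
      = ENNReal.ofReal (Real.exp (-a)) *
        (ENNReal.ofReal (Real.exp a) * P {ω | ENNReal.ofReal (Real.exp a) ≤ g ω}) := by
        rw [← mul_assoc, h2, one_mul]
    _ ≤ ENNReal.ofReal (Real.exp (-a)) * (ENNReal.ofReal (Real.exp b) * M) :=
        mul_le_mul_right (h1.trans h) _
    _ = _ := by
        rw [← mul_assoc, ← ENNReal.ofReal_mul (Real.exp_pos _).le, ← Real.exp_add]
        congr 3
        ring

theorem quarter {b u : ℝ} (h : b + 2 ≤ -u) : Real.exp b ≤ 1 / 4 * Real.exp (-u) := by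
  have h6 : (4 : ℝ) ≤ Real.exp 2 := by
    have h7 : (2 : ℝ) ≤ Real.exp 1 := by have := Real.add_one_le_exp (1 : ℝ); linarith
    calc (4 : ℝ) = 2 * 2 := by norm_num
      _ ≤ Real.exp 1 * Real.exp 1 := by gcongr
      _ = Real.exp 2 := by rw [← Real.exp_add]; norm_num
  have h1 : 4 * Real.exp b ≤ Real.exp (-u) := by
    calc 4 * Real.exp b ≤ Real.exp 2 * Real.exp b := by gcongr
      _ = Real.exp (2 + b) := by rw [← Real.exp_add]
      _ ≤ _ := Real.exp_le_exp.2 (by linarith)
  linarith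

/-- **SUN lemma, real cost process.** -/
theorem sun_real {F : Filtration ℕ m0} {c : ℕ → Ω → ℝ} (hcm : ∀ m, Measurable[F m] (c m))
    (hmono : ∀ ω, Monotone fun m => c m ω) {X lam x0 : ℝ} (hlam : 1 ≤ lam) (hx0 : 0 ≤ x0)
    {k : ℕ} (hk : 3 ≤ k)
    (ha : ∀ m, k ≤ m → m < 2 * k → ∀ x, x0 ≤ x → x ≤ X → ∀ B, MeasurableSet[F (m - 1)] B →
      P (B ∩ {ω | x ≤ c (m + 1) ω - c m ω}) ≤ ENNReal.ofReal (Real.exp (-(lam * x))) * P B)
    (hb : ∀ e n : ℕ, 1 ≤ n → 2 * n ≤ e → e ≤ 2 * k → ∀ B, MeasurableSet[F (e - 2 * n)] B →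
      P (B ∩ {ω | (n : ℝ) * X ≤ c e ω - c (e - n) ω}) ≤
        ENNReal.ofReal (Real.exp (-(lam * (n * X)))) * P B)
    {u : ℝ} (hu1 : 8 * (x0 + 9) * k ≤ u) (hu2 : u ≤ k * X) :
    P {ω | u ≤ c (2 * k) ω - c k ω} ≤ ENNReal.ofReal (Real.exp (-(lam / 16 * u))) * P Set.univ := by
  have hk0 : (3 : ℝ) ≤ k := by exact_mod_cast hk
  have hu0 : 72 * (k : ℝ) ≤ u := by nlinarith
  have hX : 72 ≤ X := by
    have : 72 * (k : ℝ) ≤ k * X := hu0.trans hu2
    by_contra hcon
    push Not at hcon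
    nlinarith
  have hlX : 2 ≤ lam * X := by nlinarith
  -- long steep intervals
  set Ix := ((Finset.range (2 * k + 1)) ×ˢ (Finset.range (2 * k + 1))).filter
    (fun q : ℕ × ℕ => k < q.1 ∧ q.1 ≤ 2 * k ∧ q.1 < 4 * q.2 ∧ 2 * q.2 ≤ q.1) with hIx
  set Lg : Set Ω := ⋃ q ∈ Ix, {ω | (q.2 : ℝ) * X ≤ c q.1 ω - c (q.1 - q.2) ω} with hLg
  have hLgP : P Lg ≤ ENNReal.ofReal (1 / 4 * Real.exp (-(lam / 16 * u))) * P Set.univ := by
    have h1 : ∀ q ∈ Ix, P {ω | (q.2 : ℝ) * X ≤ c q.1 ω - c (q.1 - q.2) ω} ≤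
        ENNReal.ofReal (Real.exp (-(lam * (u / 4)))) * P Set.univ := by
      intro q hq
      rw [hIx, Finset.mem_filter] at hq
      obtain ⟨_, h2, h3, h4, h5⟩ := hq
      have h6 := hb q.1 q.2 (by omega) h5 h3 Set.univ MeasurableSet.univ
      rw [Set.univ_inter] at h6
      refine h6.trans (mul_le_mul_left (ENNReal.ofReal_le_ofReal (Real.exp_le_exp.2 ?_)) _)
      have h7 : (k : ℝ) ≤ 4 * q.2 := by exact_mod_cast (by omega : k ≤ 4 * q.2)
      have h8 : u / 4 ≤ q.2 * X := by nlinarith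
      have : lam * (u / 4) ≤ lam * (q.2 * X) := mul_le_mul_of_nonneg_left h8 (by linarith)
      linarith
    have hcard : (Ix.card : ℝ) ≤ Real.exp (4 * k) := by
      have h9 : Ix.card ≤ (2 * k + 1) * (2 * k + 1) := by
        refine (Finset.card_filter_le _ _).trans ?_
        rw [Finset.card_product, Finset.card_range]
      have h10 : ((Ix.card : ℕ) : ℝ) ≤ (2 * k + 1) * (2 * k + 1) := by exact_mod_cast h9
      have h11 : (2 * (k : ℝ) + 1) ≤ Real.exp (2 * k) := Real.add_one_le_exp _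
      calc (Ix.card : ℝ) ≤ (2 * k + 1) * (2 * k + 1) := h10
        _ ≤ Real.exp (2 * k) * Real.exp (2 * k) := by gcongr
        _ = Real.exp (4 * k) := by rw [← Real.exp_add]; congr 1; ring
    calc P Lg ≤ ∑ q ∈ Ix, P {ω | (q.2 : ℝ) * X ≤ c q.1 ω - c (q.1 - q.2) ω} :=
          measure_biUnion_finset_le _ _
      _ ≤ ∑ _q ∈ Ix, ENNReal.ofReal (Real.exp (-(lam * (u / 4)))) * P Set.univ :=
          Finset.sum_le_sum h1
      _ = ENNReal.ofReal ((Ix.card : ℝ) * Real.exp (-(lam * (u / 4)))) * P Set.univ := by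
          rw [Finset.sum_const, nsmul_eq_mul, ← mul_assoc,
            ENNReal.ofReal_mul (Nat.cast_nonneg _), ENNReal.ofReal_natCast]
      _ ≤ _ := by
          refine mul_le_mul_left (ENNReal.ofReal_le_ofReal ?_) _
          calc (Ix.card : ℝ) * Real.exp (-(lam * (u / 4)))
              ≤ Real.exp (4 * k) * Real.exp (-(lam * (u / 4))) := by gcongr
            _ = Real.exp (4 * k - lam * (u / 4)) := by rw [← Real.exp_add]; congr 1
            _ ≤ _ := by
                apply quarter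
                nlinarith
  -- steep part
  have hVm : Measurable (V c X (lam / 4) k k (2 * k)) :=
    (V_meas hcm X (lam / 4) k k (2 * k)).mono (F.le _) le_rfl
  have hV : P {ω | ENNReal.ofReal (Real.exp (lam * u / 8)) ≤ V c X (lam / 4) k k (2 * k) ω} ≤
      ENNReal.ofReal (1 / 4 * Real.exp (-(lam / 16 * u))) * P Set.univ := by
    have h1 : ∫⁻ ω, V c X (lam / 4) k k (2 * k) ω ∂P ≤
        ENNReal.ofReal (Real.exp k) * P Set.univ := by
      refine (V_int hcm hlX hb k (2 * k) le_rfl).trans (mul_le_mul_left ?_ _)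
      have e1 : 2 * k - k = k := by omega
      rw [e1, show (2 : ℝ≥0∞) = ENNReal.ofReal 2 by simp, ← ENNReal.ofReal_pow (by norm_num)]
      refine ENNReal.ofReal_le_ofReal ?_
      have h2 : (2 : ℝ) ≤ Real.exp 1 := by have := Real.add_one_le_exp (1 : ℝ); linarith
      calc (2 : ℝ) ^ k ≤ Real.exp 1 ^ k := pow_le_pow_left₀ (by norm_num) h2 k
        _ = Real.exp k := by rw [← Real.exp_nat_mul]; simp
    refine (markov_exp hVm h1).trans (mul_le_mul_left (ENNReal.ofReal_le_ofReal ?_) _)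
    apply quarter
    nlinarith
  -- regular part
  have hTm : ∀ p, Measurable (fun ω => ENNReal.ofReal (Real.exp (lam / 2 * Tp c X k p (k + k) ω))) := by
    intro p
    refine (Real.measurable_exp.comp (Measurable.const_mul ?_ _)).ennreal_ofReal
    unfold Tp
    exact Finset.measurable_sum _ fun i _ => (zz_meas hcm X i).mono (F.le _) le_rfl
  have hT : ∀ p, P {ω | ENNReal.ofReal (Real.exp (lam * u / 8)) ≤
      ENNReal.ofReal (Real.exp (lam / 2 * Tp c X k p (k + k) ω))} ≤
      ENNReal.ofReal (1 / 4 * Real.exp (-(lam / 16 * u))) * P Set.univ := by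
    intro p
    have h1 := Tp_int hcm hmono hlam hx0 ha p k le_rfl
    refine (markov_exp (hTm p) h1).trans (mul_le_mul_left (ENNReal.ofReal_le_ofReal ?_) _)
    apply quarter
    have h2 : lam * (8 * (x0 + 9) * k) ≤ lam * u := mul_le_mul_of_nonneg_left hu1 (by linarith)
    have h3 : (k : ℝ) ≤ lam * k := by nlinarith
    nlinarith
  -- combination
  have hsub : {ω | u ≤ c (2 * k) ω - c k ω} ⊆ Lg ∪
      ({ω | ENNReal.ofReal (Real.exp (lam * u / 8)) ≤ V c X (lam / 4) k k (2 * k) ω} ∪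
      ({ω | ENNReal.ofReal (Real.exp (lam * u / 8)) ≤
        ENNReal.ofReal (Real.exp (lam / 2 * Tp c X k 0 (k + k) ω))} ∪
      {ω | ENNReal.ofReal (Real.exp (lam * u / 8)) ≤
        ENNReal.ofReal (Real.exp (lam / 2 * Tp c X k 1 (k + k) ω))})) := by
    intro ω hω
    by_cases hL : ω ∈ Lg
    · exact Or.inl hL
    right
    have hno : ∀ e n : ℕ, k < e → e ≤ 2 * k → e < 4 * n → 2 * n ≤ e →
        c e ω - c (e - n) ω < n * X := by
      intro e n h1 h2 h3 h4
      by_contra hcon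
      push Not at hcon
      apply hL
      rw [hLg, Set.mem_iUnion₂]
      refine ⟨(e, n), ?_, hcon⟩
      rw [hIx, Finset.mem_filter, Finset.mem_product, Finset.mem_range, Finset.mem_range]
      exact ⟨⟨by simp only; omega, by simp only; omega⟩, h1, h2, h3, h4⟩
    have hdet := det hmono (θ := lam / 4) (by linarith) hk ω hno k (2 * k) (by omega) le_rfl
    have hTT := T_eq c X k (2 * k) ω
    have e2 : k + k = 2 * k := by ring
    rw [e2]
    have hω' : u ≤ c (2 * k) ω - c k ω := hω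
    by_cases h1 : u / 2 ≤ T c X k (2 * k) ω
    · right
      by_cases h2 : u / 4 ≤ Tp c X k 0 (2 * k) ω
      · left
        exact ENNReal.ofReal_le_ofReal (Real.exp_le_exp.2 (by nlinarith))
      · right
        push Not at h2
        have h3 : u / 4 ≤ Tp c X k 1 (2 * k) ω := by linarith
        exact ENNReal.ofReal_le_ofReal (Real.exp_le_exp.2 (by nlinarith))
    · left
      push Not at h1
      refine le_trans (ENNReal.ofReal_le_ofReal (Real.exp_le_exp.2 ?_)) hdet
      nlinarith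
  refine (measure_mono hsub).trans ?_
  refine (measure_union_le _ _).trans ((add_le_add le_rfl ((measure_union_le _ _).trans
    (add_le_add le_rfl (measure_union_le _ _)))).trans ?_)
  refine (add_le_add hLgP (add_le_add hV (add_le_add (hT 0) (hT 1)))).trans ?_
  rw [← add_mul, ← add_mul, ← add_mul, ← ENNReal.ofReal_add (by positivity) (by positivity),
    ← ENNReal.ofReal_add (by positivity) (by positivity),
    ← ENNReal.ofReal_add (by positivity) (by positivity)]
  refine mul_le_mul_left (ENNReal.ofReal_le_ofReal (le_of_eq ?_)) _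
  ring

/-! ### survival form -/

/-- truncated cost -/
noncomputable def ce (s : ℕ → Ω → ℝ≥0∞) (ε : ℝ) (m : ℕ) (ω : Ω) : ℝ :=
  -Real.log (max (s m ω).toReal ε)

theorem ce_iff {s : ℕ → Ω → ℝ≥0∞} {ε : ℝ} (hε : 0 < ε) {x : ℝ} (hx : 0 < x) (a b : ℕ) (ω : Ω) :
    x ≤ ce s ε b ω - ce s ε a ω ↔
      ε ≤ Real.exp (-x) * (s a ω).toReal ∧
        (s b ω).toReal ≤ Real.exp (-x) * (s a ω).toReal := by
  unfold ce
  set A := (s a ω).toReal
  set Bv := (s b ω).toReal
  have hMA : 0 < max A ε := lt_max_of_lt_right hε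
  have hMB : 0 < max Bv ε := lt_max_of_lt_right hε
  have he1 : Real.exp (-x) < 1 := by rw [Real.exp_lt_one_iff]; linarith
  have key : x ≤ -Real.log (max Bv ε) - -Real.log (max A ε) ↔
      max Bv ε ≤ Real.exp (-x) * max A ε := by
    rw [← Real.log_le_log_iff hMB (mul_pos (Real.exp_pos _) hMA),
      Real.log_mul (Real.exp_pos _).ne' hMA.ne', Real.log_exp]
    constructor <;> intro h <;> linarith
  rw [key]
  constructor
  · intro h
    have h1 : ε ≤ Real.exp (-x) * max A ε := (le_max_right _ _).trans h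
    have h2 : max A ε = A := by
      rcases le_total ε A with h3 | h3
      · exact max_eq_left h3
      · exfalso
        rw [max_eq_right h3] at h1
        nlinarith
    rw [h2] at h h1
    exact ⟨h1, (le_max_left _ _).trans h⟩
  · rintro ⟨h1, h2⟩
    have h3 : ε ≤ A := by
      have hA : 0 ≤ A := ENNReal.toReal_nonneg
      nlinarith
    rw [max_eq_left h3]
    exact max_le h2 h1

/-- **SUN lemma**, for a nonincreasing survival process `s`. -/
theorem sun {F : Filtration ℕ m0} {s : ℕ → Ω → ℝ≥0∞} (hsm : ∀ m, Measurable[F m] (s m))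
    (hanti : ∀ m ω, s (m + 1) ω ≤ s m ω) (hfin : ∀ m ω, s m ω ≠ ∞)
    {X lam x0 : ℝ} (hlam : 1 ≤ lam) (hx0 : 0 < x0) {k : ℕ} (hk : 3 ≤ k)
    (ha : ∀ m, k ≤ m → m < 2 * k → ∀ x, x0 ≤ x → x ≤ X → ∀ B, MeasurableSet[F (m - 1)] B →
      P (B ∩ {ω | s m ω ≠ 0 ∧ s (m + 1) ω ≤ ENNReal.ofReal (Real.exp (-x)) * s m ω}) ≤
        ENNReal.ofReal (Real.exp (-(lam * x))) * P B)
    (hb : ∀ e n : ℕ, 1 ≤ n → 2 * n ≤ e → e ≤ 2 * k → ∀ B, MeasurableSet[F (e - 2 * n)] B →
      P (B ∩ {ω | s (e - n) ω ≠ 0 ∧ s e ω ≤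
        ENNReal.ofReal (Real.exp (-(n * X))) * s (e - n) ω}) ≤
        ENNReal.ofReal (Real.exp (-(lam * (n * X)))) * P B)
    {u : ℝ} (hu1 : 8 * (x0 + 9) * k ≤ u) (hu2 : u ≤ k * X)
    {B : Set Ω} (hB : MeasurableSet[F 0] B) :
    P (B ∩ {ω | s k ω ≠ 0 ∧ s (2 * k) ω ≤ ENNReal.ofReal (Real.exp (-u)) * s k ω}) ≤
      ENNReal.ofReal (Real.exp (-(lam / 16 * u))) * P B := by
  have hk0 : (3 : ℝ) ≤ k := by exact_mod_cast hk
  have hu0 : 72 * (k : ℝ) ≤ u := by nlinarith
  have hupos : 0 < u := by linarith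
  have hXpos : 0 < X := by
    by_contra hcon
    push Not at hcon
    nlinarith
  have hBm : MeasurableSet[m0] B := F.le 0 _ hB
  have hanti' : ∀ ω, Antitone fun m => s m ω := fun ω => antitone_nat_of_succ_le fun m => hanti m ω
  -- the event in real form
  have hev : ∀ (ε : ℝ) (_ : 0 < ε) (x : ℝ) (_ : 0 < x) (a b : ℕ) (ω : Ω),
      x ≤ ce s ε b ω - ce s ε a ω →
        s a ω ≠ 0 ∧ s b ω ≤ ENNReal.ofReal (Real.exp (-x)) * s a ω := by
    intro ε hε x hx a b ω h
    obtain ⟨h1, h2⟩ := (ce_iff hε hx a b ω).1 h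
    constructor
    · intro h0
      rw [h0] at h1
      simp at h1
      linarith
    · rw [← ENNReal.ofReal_toReal (hfin b ω), ← ENNReal.ofReal_toReal (hfin a ω),
        ← ENNReal.ofReal_mul (Real.exp_pos _).le]
      exact ENNReal.ofReal_le_ofReal h2
  -- real version for every truncation
  have hmain : ∀ ε : ℝ, 0 < ε →
      P (B ∩ {ω | u ≤ ce s ε (2 * k) ω - ce s ε k ω}) ≤
        ENNReal.ofReal (Real.exp (-(lam / 16 * u))) * P B := by
    intro ε hε
    have hcm : ∀ m, Measurable[F m] (ce s ε m) := by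
      intro m
      unfold ce
      exact (Real.measurable_log.comp
        ((ENNReal.measurable_toReal.comp (hsm m)).max measurable_const)).neg
    have hmono : ∀ ω, Monotone fun m => ce s ε m ω := by
      intro ω
      refine monotone_nat_of_le_succ fun m => ?_
      unfold ce
      have h1 : max (s (m + 1) ω).toReal ε ≤ max (s m ω).toReal ε :=
        max_le_max (ENNReal.toReal_mono (hfin m ω) (hanti m ω)) le_rfl
      have h2 := Real.log_le_log (lt_max_of_lt_right hε) h1
      linarith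
    have hmE : ∀ (x : ℝ) (a b : ℕ), MeasurableSet {ω | x ≤ ce s ε b ω - ce s ε a ω} :=
      fun x a b => measurableSet_le measurable_const
        (Measurable.sub ((hcm b).mono (F.le _) le_rfl) ((hcm a).mono (F.le _) le_rfl))
    have h1 := sun_real (P := P.restrict B) hcm hmono hlam hx0.le hk
      (X := X) (by
        intro m hm1 hm2 x hx1 hx2 B' hB'
        rw [Measure.restrict_apply' hBm, Measure.restrict_apply' hBm]
        refine le_trans (measure_mono ?_) (ha m hm1 hm2 x hx1 hx2 (B' ∩ B)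
          (hB'.inter (F.mono (Nat.zero_le _) _ hB)))
        rintro ω ⟨⟨h2, h3⟩, h4⟩
        exact ⟨⟨h2, h4⟩, hev ε hε x (by linarith) m (m + 1) ω h3⟩)
      (by
        intro e n hn1 hn2 hn3 B' hB'
        rw [Measure.restrict_apply' hBm, Measure.restrict_apply' hBm]
        refine le_trans (measure_mono ?_) (hb e n hn1 hn2 hn3 (B' ∩ B)
          (hB'.inter (F.mono (Nat.zero_le _) _ hB)))
        rintro ω ⟨⟨h2, h3⟩, h4⟩
        have hn0 : (0 : ℝ) < n := by exact_mod_cast hn1
        exact ⟨⟨h2, h4⟩, hev ε hε (n * X) (by positivity) (e - n) e ω h3⟩)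
      hu1 hu2
    rw [Measure.restrict_apply' hBm, Measure.restrict_apply' hBm, Set.univ_inter,
      Set.inter_comm] at h1
    exact h1
  -- exhaustion
  set D : ℕ → Set Ω := fun n => B ∩ {ω | u ≤ ce s ((n : ℝ) + 1)⁻¹ (2 * k) ω -
    ce s ((n : ℝ) + 1)⁻¹ k ω} with hD
  have hDmono : Monotone D := by
    refine monotone_nat_of_le_succ fun n => ?_
    rintro ω ⟨h1, h2⟩
    refine ⟨h1, ?_⟩
    have hp1 : (0 : ℝ) < ((n : ℝ) + 1)⁻¹ := by positivity
    have hp2 : (0 : ℝ) < (((n + 1 : ℕ) : ℝ) + 1)⁻¹ := by positivity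
    obtain ⟨h3, h4⟩ := (ce_iff hp1 hupos k (2 * k) ω).1 h2
    refine (ce_iff hp2 hupos k (2 * k) ω).2 ⟨le_trans ?_ h3, h4⟩
    apply inv_anti₀ (by positivity)
    push_cast
    linarith
  have hsub : B ∩ {ω | s k ω ≠ 0 ∧ s (2 * k) ω ≤ ENNReal.ofReal (Real.exp (-u)) * s k ω} ⊆
      ⋃ n, D n := by
    rintro ω ⟨h1, h2, h3⟩
    have hA : 0 < (s k ω).toReal := ENNReal.toReal_pos h2 (hfin k ω)
    have hA' : 0 < Real.exp (-u) * (s k ω).toReal := mul_pos (Real.exp_pos _) hA
    obtain ⟨n, hn⟩ := exists_nat_one_div_lt hA'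
    rw [Set.mem_iUnion]
    refine ⟨n, h1, (ce_iff (by positivity) hupos k (2 * k) ω).2 ⟨?_, ?_⟩⟩
    · rw [← one_div]; exact hn.le
    · have h4 := ENNReal.toReal_mono (ENNReal.mul_ne_top ENNReal.ofReal_ne_top (hfin k ω)) h3
      rw [ENNReal.toReal_mul, ENNReal.toReal_ofReal (Real.exp_pos _).le] at h4
      exact h4
  refine (measure_mono hsub).trans ?_
  rw [hDmono.measure_iUnion]
  exact iSup_le fun n => hmain _ (by positivity)

end Crest.Agent.R154.Sun95
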