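import Crest.Agent.R154.Steep_299
import Crest.Agent.R154.Sun_95
import Crest.Agent.R154.ChainFL_263

/-!
# (T6c): run bookkeeping

`RunHyp A`: below every large octave `2 ^ n` there is a (good) octave `2 ^ n1` such that, in units of
`2 ^ n1`, steep intervals are exponentially unlikely and every window of length `≤ C 2 ^ n` has an
exponential tail above a CONSTANT `x0`.  Conclusion: (W) at all large heights, no extra cost
(`Sun95.sun` at the unit `y = J 2 ^ n1 ~ 864 (x0 + 9) 10 ^ i / u`, 12 pieces).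
-/

set_option autoImplicit false
set_option linter.deprecated false
set_option linter.unusedVariables false

open MeasureTheory ENNReal Crest.Agent.R154.RatioR872 Crest.Agent.R154.WindowK299

namespace Crest.Agent.R154.RunHW299

variable {S : Type*} {Ω : Type*} {m0 : MeasurableSpace Ω} {P : Measure Ω}

/-- **the input of a run** (units `2 ^ n1`, `n1` = a good octave below `n`). -/
def RunHyp (A : KerSys S P) : Prop :=
  ∀ lam : ℝ, 1 ≤ lam → ∃ x0 : ℝ, 1 ≤ x0 ∧ ∀ C : ℝ, ∃ n0 : ℕ, ∀ n : ℕ, n0 ≤ n →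
    ∃ n1 : ℕ, n1 ≤ n ∧ ∃ X : ℝ, 1 ≤ X ∧
    (∀ μ : S → ℝ≥0∞, A.Start μ → ∀ H0 e l : ℕ, x0 ≤ (l : ℝ) → 2 * l ≤ e →
      ∀ B, MeasurableSet[A.F (H0 + (e - 2 * l) * 2 ^ n1)] B →
      P (B ∩ {ω | A.Sh μ (H0 + (e - l) * 2 ^ n1) ω ≠ 0 ∧ A.Sh μ (H0 + e * 2 ^ n1) ω ≤
        ENNReal.ofReal (Real.exp (-(l * X))) * A.Sh μ (H0 + (e - l) * 2 ^ n1) ω}) ≤
        ENNReal.ofReal (Real.exp (-(lam * (l * X)))) * P B) ∧
    (∀ J : ℕ, x0 ≤ (J : ℝ) → (J : ℝ) * 2 ^ n1 ≤ C * 2 ^ n → ∀ μ : S → ℝ≥0∞, A.Start μ →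
      ∀ (H0 : ℕ) (x : ℝ), x0 ≤ x → x ≤ J * X → ∀ B, MeasurableSet[A.F H0] B →
      P (B ∩ {ω | A.Sh μ (H0 + J * 2 ^ n1) ω ≠ 0 ∧ A.Sh μ (H0 + 2 * J * 2 ^ n1) ω ≤
        ENNReal.ofReal (Real.exp (-x)) * A.Sh μ (H0 + J * 2 ^ n1) ω}) ≤
        ENNReal.ofReal (Real.exp (-(lam * x))) * P B)

variable [Countable S] {A : KerSys S P}

/-- `Sun95.sun` on a kernel system, unit `y`. -/
theorem sun_ker {y : ℕ} {X' lam x0 : ℝ} (hlam : 1 ≤ lam) (hx0 : 0 < x0) {μ : S → ℝ≥0∞}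
    (hμ : A.Start μ) (H0 : ℕ) {k : ℕ} (hk : 3 ≤ k)
    (ha : ∀ (H : ℕ) (x : ℝ), x0 ≤ x → x ≤ X' → ∀ B, MeasurableSet[A.F H] B →
      P (B ∩ {ω | A.Sh μ (H + y) ω ≠ 0 ∧ A.Sh μ (H + 2 * y) ω ≤
        ENNReal.ofReal (Real.exp (-x)) * A.Sh μ (H + y) ω}) ≤
        ENNReal.ofReal (Real.exp (-(lam * x))) * P B)
    (hb : ∀ e n : ℕ, 1 ≤ n → 2 * n ≤ e → ∀ B, MeasurableSet[A.F (H0 + (e - 2 * n) * y)] B →
      P (B ∩ {ω | A.Sh μ (H0 + (e - n) * y) ω ≠ 0 ∧ A.Sh μ (H0 + e * y) ω ≤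
        ENNReal.ofReal (Real.exp (-(n * X'))) * A.Sh μ (H0 + (e - n) * y) ω}) ≤
        ENNReal.ofReal (Real.exp (-(lam * (n * X')))) * P B)
    {u : ℝ} (hu1 : 8 * (x0 + 9) * k ≤ u) (hu2 : u ≤ k * X')
    {B : Set Ω} (hB : MeasurableSet[A.F H0] B) :
    P (B ∩ {ω | A.Sh μ (H0 + k * y) ω ≠ 0 ∧ A.Sh μ (H0 + 2 * k * y) ω ≤
      ENNReal.ofReal (Real.exp (-u)) * A.Sh μ (H0 + k * y) ω}) ≤
      ENNReal.ofReal (Real.exp (-(lam / 16 * u))) * P B := by
  let F : Filtration ℕ m0 :=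
    { seq := fun k => A.F (H0 + k * y)
      mono' := fun i j hij => A.F.mono (Nat.add_le_add_left (Nat.mul_le_mul_right y hij) H0)
      le' := fun k => A.F.le _ }
  refine Sun95.sun (F := F) (s := fun k => A.Sh μ (H0 + k * y)) (fun m => KerSys.meas_Sh hμ _)
    (fun m ω => KerSys.Sh_anti (Nat.add_le_add_left (Nat.mul_le_mul_right y (Nat.le_succ m)) H0) ω)
    (fun m ω => ne_top_of_le_ne_top ENNReal.one_ne_top (KerSys.Sh_le_one hμ _ ω))
    hlam hx0 hk ?_ (fun e n hn hne _ B hB => hb e n hn hne B hB) hu1 hu2 ?_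
  · intro m hkm _ x hx hxX B hB
    have e1 : H0 + (m - 1) * y + y = H0 + m * y := by
      have : m = m - 1 + 1 := by omega
      conv_rhs => rw [this]
      ring
    have e2 : H0 + (m - 1) * y + 2 * y = H0 + (m + 1) * y := by
      have : m = m - 1 + 1 := by omega
      conv_rhs => rw [this]
      ring
    have := ha (H0 + (m - 1) * y) x hx hxX B hB
    rw [e1, e2] at this
    exact this
  · have e : H0 + 0 * y = H0 := by ring
    show MeasurableSet[A.F (H0 + 0 * y)] B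
    rw [e]; exact hB

/-- pieces -/
theorem seq_lt {t : ℕ → ℝ≥0∞} (ht : ∀ j, t j ≠ ∞) {v : ℝ} (h0 : t 0 ≠ 0) (n : ℕ)
    (h : ∀ j, j < n → ¬ (t j ≠ 0 ∧ t (j + 1) ≤ ENNReal.ofReal (Real.exp (-v)) * t j)) :
    t n ≠ 0 ∧ ENNReal.ofReal (Real.exp (-(n * v))) * t 0 ≤ t n ∧
      (1 ≤ n → ENNReal.ofReal (Real.exp (-(n * v))) * t 0 < t n) := by
  induction n with
  | zero => simp [h0]
  | succ n ih =>
    obtain ⟨h1, h2, -⟩ := ih fun j hj => h j (by omega)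
    have h3 := h n (by omega)
    push Not at h3
    have h4 := h3 h1
    have h5 : ENNReal.ofReal (Real.exp (-(((n + 1 : ℕ) : ℝ) * v))) * t 0 < t (n + 1) := by
      calc ENNReal.ofReal (Real.exp (-(((n + 1 : ℕ) : ℝ) * v))) * t 0
          = ENNReal.ofReal (Real.exp (-v)) * (ENNReal.ofReal (Real.exp (-(n * v))) * t 0) := by
            rw [← mul_assoc, ← ENNReal.ofReal_mul (Real.exp_pos _).le, ← Real.exp_add]
            congr 3
            push_cast; ring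
        _ ≤ ENNReal.ofReal (Real.exp (-v)) * t n := by gcongr
        _ < t (n + 1) := h4
    exact ⟨(pos_of_gt h5).ne', h5.le, fun _ => h5⟩

theorem pieces {s : ℕ → Ω → ℝ≥0∞} (hfin : ∀ m ω, s m ω ≠ ∞) {v : ℝ} {q : ℝ≥0∞} (n : ℕ)
    (hn : 1 ≤ n) {B : Set Ω}
    (h : ∀ j, j < n → P (B ∩ {ω | s j ω ≠ 0 ∧ s (j + 1) ω ≤
      ENNReal.ofReal (Real.exp (-v)) * s j ω}) ≤ q * P B) :
    P (B ∩ {ω | s 0 ω ≠ 0 ∧ s n ω ≤ ENNReal.ofReal (Real.exp (-(n * v))) * s 0 ω}) ≤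
      n * q * P B := by
  have hsub : B ∩ {ω | s 0 ω ≠ 0 ∧ s n ω ≤ ENNReal.ofReal (Real.exp (-(n * v))) * s 0 ω} ⊆
      ⋃ j ∈ Finset.range n, (B ∩ {ω | s j ω ≠ 0 ∧ s (j + 1) ω ≤
        ENNReal.ofReal (Real.exp (-v)) * s j ω}) := by
    rintro ω ⟨hB, h0, hω⟩
    by_contra hcon
    simp only [Set.mem_iUnion, Finset.mem_range, not_exists] at hcon
    have := (seq_lt (t := fun j => s j ω) (fun j => hfin j ω) (v := v) h0 n
      (fun j hj hh => hcon j hj ⟨hB, hh⟩)).2.2 hn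
    exact absurd hω (not_le.2 this)
  calc P (B ∩ {ω | s 0 ω ≠ 0 ∧ s n ω ≤ ENNReal.ofReal (Real.exp (-(n * v))) * s 0 ω})
      ≤ P (⋃ j ∈ Finset.range n, (B ∩ {ω | s j ω ≠ 0 ∧ s (j + 1) ω ≤
        ENNReal.ofReal (Real.exp (-v)) * s j ω})) := measure_mono hsub
    _ ≤ ∑ j ∈ Finset.range n, P (B ∩ {ω | s j ω ≠ 0 ∧ s (j + 1) ω ≤
        ENNReal.ofReal (Real.exp (-v)) * s j ω}) := measure_biUnion_finset_le _ _
    _ ≤ ∑ j ∈ Finset.range n, q * P B :=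
        Finset.sum_le_sum fun j hj => h j (Finset.mem_range.1 hj)
    _ = n * q * P B := by
        rw [Finset.sum_const, Finset.card_range, nsmul_eq_mul, mul_assoc]

/-- **(T6c)** (W) at all large heights, no extra cost, from `RunHyp`. -/
theorem window_run (hR : RunHyp A) :
    ∀ lam : ℝ, 0 < lam → ∃ u0 c : ℝ, 0 < c ∧ 1 ≤ u0 ∧ ∀ μ : S → ℝ≥0∞, A.Start μ →
      ∀ (i : ℕ) (u : ℝ), u0 ≤ u → u ≤ c * 10 ^ i →
      ∀ B, MeasurableSet[A.F (10 ^ i)] B →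
      P (B ∩ {ω | A.Sh μ (10 ^ (i + 1)) ω ≠ 0 ∧ A.Sh μ (10 ^ (i + 2)) ω ≤
        ENNReal.ofReal (Real.exp (-u)) * A.Sh μ (10 ^ (i + 1)) ω}) ≤
        ENNReal.ofReal (Real.exp (-(lam * u))) * P B := by
  classical
  intro lam hlam
  set lam' : ℝ := 192 * (lam + 3) with hlam'
  have hlam1 : 1 ≤ lam' := by rw [hlam']; linarith
  obtain ⟨x0, hx01, hx0⟩ := hR lam' hlam1
  set C1 : ℝ := 864 * (x0 + 9) with hC1
  have hC1pos : 864 ≤ C1 := by rw [hC1]; linarith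
  obtain ⟨n0, hn0⟩ := hx0 (2 * (C1 + 1))
  refine ⟨100 * (C1 + 1), 1 / 2 ^ n0, by positivity, by linarith, ?_⟩
  intro μ hμ i u hu huc B hB
  have hu1 : 1 ≤ u := by linarith
  have hupos : 0 < u := by linarith
  have hx : (0 : ℝ) < 10 ^ i := by positivity
  set Nr : ℝ := 10 ^ i / u with hNr
  have hNru : Nr * u = 10 ^ i := by rw [hNr]; field_simp
  have hNr0 : (2 : ℝ) ^ n0 ≤ Nr := by
    rw [hNr, le_div_iff₀ hupos]
    have h1 : (2 : ℝ) ^ n0 * u ≤ 2 ^ n0 * (1 / 2 ^ n0 * 10 ^ i) := by gcongr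
    refine h1.trans (le_of_eq ?_)
    field_simp
  have hNr1 : 1 ≤ Nr := le_trans (one_le_pow₀ (by norm_num)) hNr0
  have hfl1 : 1 ≤ ⌊Nr⌋₊ := (Nat.one_le_floor_iff _).2 hNr1
  set n : ℕ := Nat.log 2 ⌊Nr⌋₊ with hn
  have hn_le : 2 ^ n ≤ ⌊Nr⌋₊ := Nat.pow_log_le_self 2 (by omega)
  have hn_lt : ⌊Nr⌋₊ < 2 ^ (n + 1) := Nat.lt_pow_succ_log_self (by norm_num) _
  have hnR : (2 : ℝ) ^ n ≤ Nr := by
    have h1 : ((2 ^ n : ℕ) : ℝ) ≤ ⌊Nr⌋₊ := by exact_mod_cast hn_le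
    have h2 : (⌊Nr⌋₊ : ℝ) ≤ Nr := Nat.floor_le (by linarith)
    push_cast at h1
    linarith
  have hnR' : Nr ≤ 2 * 2 ^ n := by
    have h1 : Nr < ⌊Nr⌋₊ + 1 := Nat.lt_floor_add_one _
    have h2 : ((⌊Nr⌋₊ + 1 : ℕ) : ℝ) ≤ ((2 ^ (n + 1) : ℕ) : ℝ) := by exact_mod_cast hn_lt
    push_cast at h2
    rw [pow_succ] at h2
    linarith
  have hn0n : n0 ≤ n := by
    rw [hn]
    refine (Nat.le_log_iff_pow_le (by norm_num) (by omega)).2 (Nat.le_floor ?_)
    push_cast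
    exact hNr0
  obtain ⟨n1, hn1, X, hX1, hb', ha'⟩ := hn0 n hn0n
  have hN1pos : (0 : ℝ) < 2 ^ n1 := by positivity
  have hN1 : (2 : ℝ) ^ n1 ≤ Nr := le_trans (pow_le_pow_right₀ (by norm_num) hn1) hnR
  set J : ℕ := ⌈C1 * Nr / 2 ^ n1⌉₊ with hJ
  have hJ1 : C1 * Nr / 2 ^ n1 ≤ J := Nat.le_ceil _
  have hJ2 : (J : ℝ) < C1 * Nr / 2 ^ n1 + 1 := Nat.ceil_lt_add_one (by positivity)
  have hJC1 : C1 ≤ J := by
    refine le_trans ?_ hJ1
    rw [le_div_iff₀ hN1pos]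
    exact mul_le_mul_of_nonneg_left hN1 (by linarith)
  have hJx0 : x0 ≤ J := by
    refine le_trans ?_ hJC1
    rw [hC1]; linarith
  have hJpos : (0 : ℝ) < J := by linarith
  set y : ℕ := J * 2 ^ n1 with hy
  have hyR : (y : ℝ) = J * 2 ^ n1 := by rw [hy]; push_cast; ring
  have hy1 : C1 * Nr ≤ y := by
    rw [hyR]
    rw [div_le_iff₀ hN1pos] at hJ1
    exact hJ1
  have hy2 : (y : ℝ) ≤ (C1 + 1) * Nr := by
    rw [hyR]
    have h1 : (J : ℝ) * 2 ^ n1 ≤ (C1 * Nr / 2 ^ n1 + 1) * 2 ^ n1 := by gcongr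
    have h2 : (C1 * Nr / 2 ^ n1 + 1) * 2 ^ n1 = C1 * Nr + 2 ^ n1 := by field_simp
    rw [h2] at h1
    nlinarith
  have hypos : (0 : ℝ) < y := lt_of_lt_of_le (by positivity) hy1
  have hyN : 0 < y := by exact_mod_cast hypos
  have hyC : (J : ℝ) * 2 ^ n1 ≤ 2 * (C1 + 1) * 2 ^ n := by
    rw [← hyR]
    refine hy2.trans ?_
    nlinarith
  -- `100 y ≤ 10 ^ i`
  have hy100 : 100 * (y : ℝ) ≤ 10 ^ i := by
    have h1 : 100 * (y : ℝ) ≤ 100 * ((C1 + 1) * Nr) := by gcongr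
    have h2 : 100 * ((C1 + 1) * Nr) = (100 * (C1 + 1)) * Nr := by ring
    have h3 : (100 * (C1 + 1)) * Nr ≤ u * Nr := by gcongr
    have h4 : u * Nr = 10 ^ i := by rw [mul_comm]; exact hNru
    linarith
  have hy100N : 100 * y ≤ 10 ^ i := by exact_mod_cast hy100
  set k : ℕ := 9 * 10 ^ i / y with hk
  have hky1 : k * y ≤ 9 * 10 ^ i := Nat.div_mul_le_self _ _
  have hky2 : 9 * 10 ^ i < (k + 1) * y := by
    rw [hk, mul_comm (9 * 10 ^ i / y + 1) y]; exact Nat.lt_mul_div_succ _ hyN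
  have hky3 : 8 * 10 ^ i ≤ k * y := by
    have : (k + 1) * y = k * y + y := by ring
    omega
  have hk3 : 3 ≤ k := by
    by_contra hcon
    have h1 : k * y ≤ 3 * y := Nat.mul_le_mul_right y (by omega)
    omega
  have hky1R : (k : ℝ) * y ≤ 9 * 10 ^ i := by exact_mod_cast hky1
  have hky3R : 8 * (10 : ℝ) ^ i ≤ k * y := by exact_mod_cast hky3
  have hkR : 0 ≤ (k : ℝ) := Nat.cast_nonneg k
  -- the two side conditions of `sun`
  have hc1 : 8 * (x0 + 9) * k ≤ u / 12 := by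
    have h1 : (k : ℝ) * (C1 * Nr) ≤ 9 * 10 ^ i := (mul_le_mul_of_nonneg_left hy1 hkR).trans hky1R
    rw [← hNru] at h1
    have h2 : (k : ℝ) * C1 ≤ 9 * u := by
      have h3 : (k : ℝ) * C1 * Nr ≤ 9 * u * Nr := by linarith
      exact le_of_mul_le_mul_right h3 (by linarith)
    rw [hC1] at h2
    linarith
  have hc2 : u / 12 ≤ k * (J * X) := by
    have h1 : (k : ℝ) * (J * 1) ≤ k * (J * X) := by gcongr
    have h2 : 8 * (10 : ℝ) ^ i ≤ k * (J * 1) * Nr := by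
      calc 8 * (10 : ℝ) ^ i ≤ k * y := hky3R
        _ = k * (J * 1) * 2 ^ n1 := by rw [hyR]; ring
        _ ≤ k * (J * 1) * Nr := by gcongr
    rw [← hNru] at h2
    have h3 : 8 * u ≤ k * (J * 1) := by
      have h4 : 8 * u * Nr ≤ k * (J * 1) * Nr := by linarith
      exact le_of_mul_le_mul_right h4 (by linarith)
    linarith
  -- one piece
  have hpiece : ∀ j : ℕ, P (B ∩ {ω | A.Sh μ (10 ^ i + (j + 1) * (k * y)) ω ≠ 0 ∧
      A.Sh μ (10 ^ i + (j + 1 + 1) * (k * y)) ω ≤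
        ENNReal.ofReal (Real.exp (-(u / 12))) * A.Sh μ (10 ^ i + (j + 1) * (k * y)) ω}) ≤
      ENNReal.ofReal (Real.exp (-(lam' / 16 * (u / 12)))) * P B := by
    intro j
    have hBj : MeasurableSet[A.F (10 ^ i + j * (k * y))] B :=
      A.F.mono (Nat.le_add_right _ _) _ hB
    have key := sun_ker (A := A) (y := y) (X' := J * X) hlam1 (by linarith) hμ
      (10 ^ i + j * (k * y)) hk3
      (fun H x hx hxX B hB => by
        have := ha' J hJx0 hyC μ hμ H x hx hxX B hB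
        have e2 : H + 2 * J * 2 ^ n1 = H + 2 * y := by rw [hy]; ring
        rw [e2] at this
        exact this)
      (fun e l hl hle B hB => by
        have hl1 : (1 : ℝ) ≤ l := by exact_mod_cast hl
        have hlJ : x0 ≤ ((l * J : ℕ) : ℝ) := by
          push_cast
          calc x0 ≤ 1 * J := by linarith
            _ ≤ l * J := by gcongr
        have hle' : 2 * (l * J) ≤ e * J := by
          calc 2 * (l * J) = (2 * l) * J := by ring
            _ ≤ e * J := Nat.mul_le_mul_right J hle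
        have e1 : (e * J - 2 * (l * J)) * 2 ^ n1 = (e - 2 * l) * y := by
          rw [hy, show 2 * (l * J) = (2 * l) * J by ring, ← Nat.sub_mul]; ring
        have e2 : (e * J - l * J) * 2 ^ n1 = (e - l) * y := by
          rw [hy, ← Nat.sub_mul]; ring
        have e3 : e * J * 2 ^ n1 = e * y := by rw [hy]; ring
        have := hb' μ hμ (10 ^ i + j * (k * y)) (e * J) (l * J) hlJ hle' B (by
          rw [e1]; exact hB)
        rw [e2, e3] at this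
        have e4 : ((l * J : ℕ) : ℝ) * X = l * (J * X) := by push_cast; ring
        rw [e4] at this
        exact this) hc1 hc2 hBj
    have e1 : 10 ^ i + j * (k * y) + k * y = 10 ^ i + (j + 1) * (k * y) := by ring
    have e2 : 10 ^ i + j * (k * y) + 2 * k * y = 10 ^ i + (j + 1 + 1) * (k * y) := by ring
    rw [e1, e2] at key
    exact key
  have hpc := pieces (P := P) (s := fun j => A.Sh μ (10 ^ i + (j + 1) * (k * y)))
    (fun m ω => ne_top_of_le_ne_top ENNReal.one_ne_top (KerSys.Sh_le_one hμ _ ω))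
    (v := u / 12) (q := ENNReal.ofReal (Real.exp (-(lam' / 16 * (u / 12))))) 12 (by norm_num)
    (B := B) (fun j _ => hpiece j)
  refine le_trans (measure_mono (Set.inter_subset_inter_right B ?_)) (hpc.trans ?_)
  · rintro ω ⟨h1, h2⟩
    have e1 : 10 ^ i + (0 + 1) * (k * y) ≤ 10 ^ (i + 1) := by
      calc 10 ^ i + (0 + 1) * (k * y) = 10 ^ i + k * y := by ring
        _ ≤ 10 ^ i + 9 * 10 ^ i := by gcongr
        _ = 10 ^ (i + 1) := by ring
    have e2 : 10 ^ (i + 2) ≤ 10 ^ i + (12 + 1) * (k * y) := by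
      have : 10 ^ (i + 2) = 100 * 10 ^ i := by ring
      rw [this]
      omega
    have a1 := KerSys.Sh_anti (A := A) (μ := μ) e1 ω
    have a2 := KerSys.Sh_anti (A := A) (μ := μ) e2 ω
    refine ⟨fun h => h1 (le_antisymm (a1.trans h.le) zero_le), ?_⟩
    have e3 : (((12 : ℕ) : ℝ) * (u / 12)) = u := by push_cast; ring
    rw [e3]
    exact a2.trans (h2.trans (mul_le_mul' le_rfl a1))
  · refine mul_le_mul' ?_ le_rfl
    have h12 : (((12 : ℕ) : ℝ≥0∞)) = ENNReal.ofReal 12 := by simp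
    rw [h12, ← ENNReal.ofReal_mul (by norm_num)]
    refine ENNReal.ofReal_le_ofReal ?_
    have h3 : (12 : ℝ) ≤ Real.exp 3 := by
      have h5 : (2.7 : ℝ) ≤ Real.exp 1 := by have := Real.exp_one_gt_d9; linarith
      calc (12 : ℝ) ≤ 2.7 * 2.7 * 2.7 := by norm_num
        _ ≤ Real.exp 1 * Real.exp 1 * Real.exp 1 := by gcongr
        _ = Real.exp 3 := by rw [← Real.exp_add, ← Real.exp_add]; norm_num
    calc 12 * Real.exp (-(lam' / 16 * (u / 12)))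
        ≤ Real.exp 3 * Real.exp (-(lam' / 16 * (u / 12))) := by gcongr
      _ = Real.exp (3 - (lam + 3) * u) := by
          rw [← Real.exp_add]; congr 1; rw [hlam']; ring
      _ ≤ Real.exp (-(lam * u)) := Real.exp_le_exp.2 (by nlinarith)

section frame

open ChainFL Crest.ProbabilityR.RandomEnvironment

variable {d : ℕ} {Q : Measure (Environment d)} [IsProbabilityMeasure Q] {κ : ℝ} {R : ℕ}

/-- **HW from the runs** (every frame). -/
theorem hW_of_run (F : Bind263.Frame Q κ R) (u : Step d)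
    (hR : RunHyp (D2Asm244.kT u R κ Q F.stat F.fin)) :
    ChainFL.HW (D2Asm244.kT u R κ Q F.stat F.fin) := by
  intro lam ε' hlam hε'
  obtain ⟨u0, c, hc, hu0, h⟩ := window_run hR lam hlam
  refine ⟨u0, c, hc, fun _ => 0, fun _ => le_rfl, fun J => ?_, fun μ hμ hpos => ?_⟩
  · simp only [Finset.sum_const_zero]
    have : (0 : ℝ) ≤ J := Nat.cast_nonneg J
    nlinarith
  · intro i v hv hvc B hB
    simp only [add_zero] at hvc ⊢
    exact (WindowK299.log_event hμ hpos (D2Asm244.aa (D2Asm244.kT u R κ Q F.stat F.fin) μ)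
      (D2Asm244.aa_eq hμ hpos) i v B).trans (h μ hμ i v hv hvc B hB)

end frame

end Crest.Agent.R154.RunHW299
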