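import Crest.Agent.R154.ChainFL_263
import Crest.Agent.R154.Sun_95

/-!
# Row 154 (helper508): run bookkeeping (T6c)

From the two estimates at one good octave (`RunHyp`: steep intervals and one stage) to the window
input `ChainFL.HW` with `w = 0`, through `Sun95.sun`.
-/

set_option autoImplicit false
set_option linter.unusedVariables false
set_option linter.deprecated false

open MeasureTheory ENNReal Crest.Agent.R154.RatioR872 Crest.Agent.R154.WindowK299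

namespace Crest.Agent.R154.RunHW508

variable {S : Type*} {Ω : Type*} {m0 : MeasurableSpace Ω} {P : Measure Ω}

/-- the two estimates in a run: `2 ^ n1` = last good octave below `2 ^ n` -/
def RunHyp (A : KerSys S P) : Prop :=
  ∀ lam : ℝ, 1 ≤ lam → ∃ x0 : ℝ, 1 ≤ x0 ∧ ∀ C : ℝ, ∃ n0 : ℕ, ∀ n, n0 ≤ n → ∃ n1, n1 ≤ n ∧
    ∃ X : ℝ, 1 ≤ X ∧
    (∀ μ, A.Start μ → ∀ H0 e l : ℕ, x0 ≤ l → 2 * l ≤ e →
      ∀ B, MeasurableSet[A.F (H0 + (e - 2 * l) * 2 ^ n1)] B →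
      P (B ∩ {ω | A.Sh μ (H0 + (e - l) * 2 ^ n1) ω ≠ 0 ∧ A.Sh μ (H0 + e * 2 ^ n1) ω ≤
        ENNReal.ofReal (Real.exp (-(l * X))) * A.Sh μ (H0 + (e - l) * 2 ^ n1) ω}) ≤
        ENNReal.ofReal (Real.exp (-(lam * (l * X)))) * P B) ∧
    (∀ J : ℕ, x0 ≤ J → (J : ℝ) * 2 ^ n1 ≤ C * 2 ^ n → ∀ μ, A.Start μ →
      ∀ (H0 : ℕ) (x : ℝ), x0 ≤ x → x ≤ J * X → ∀ B, MeasurableSet[A.F H0] B →
      P (B ∩ {ω | A.Sh μ (H0 + J * 2 ^ n1) ω ≠ 0 ∧ A.Sh μ (H0 + 2 * J * 2 ^ n1) ω ≤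
        ENNReal.ofReal (Real.exp (-x)) * A.Sh μ (H0 + J * 2 ^ n1) ω}) ≤
        ENNReal.ofReal (Real.exp (-(lam * x))) * P B)

variable [Countable S] {A : KerSys S P}

/-- one piece of `k` windows of `J` units `N` -/
theorem piece {lam x0 X : ℝ} (hlam : 1 ≤ lam) (hx0 : 1 ≤ x0) {N J k : ℕ} (hk : 3 ≤ k)
    (hJ : x0 ≤ J)
    (hst : ∀ μ, A.Start μ → ∀ H0 e l : ℕ, x0 ≤ l → 2 * l ≤ e →
      ∀ B, MeasurableSet[A.F (H0 + (e - 2 * l) * N)] B →
      P (B ∩ {ω | A.Sh μ (H0 + (e - l) * N) ω ≠ 0 ∧ A.Sh μ (H0 + e * N) ω ≤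
        ENNReal.ofReal (Real.exp (-(l * X))) * A.Sh μ (H0 + (e - l) * N) ω}) ≤
        ENNReal.ofReal (Real.exp (-(lam * (l * X)))) * P B)
    (hwin : ∀ μ, A.Start μ →
      ∀ (H0 : ℕ) (x : ℝ), x0 ≤ x → x ≤ J * X → ∀ B, MeasurableSet[A.F H0] B →
      P (B ∩ {ω | A.Sh μ (H0 + J * N) ω ≠ 0 ∧ A.Sh μ (H0 + 2 * J * N) ω ≤
        ENNReal.ofReal (Real.exp (-x)) * A.Sh μ (H0 + J * N) ω}) ≤
        ENNReal.ofReal (Real.exp (-(lam * x))) * P B)
    {μ : S → ℝ≥0∞} (hμ : A.Start μ) (H0 : ℕ) {v : ℝ} (hv1 : 8 * (x0 + 9) * k ≤ v)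
    (hv2 : v ≤ k * (J * X)) {B : Set Ω} (hB : MeasurableSet[A.F H0] B) :
    P (B ∩ {ω | A.Sh μ (H0 + k * (J * N)) ω ≠ 0 ∧ A.Sh μ (H0 + 2 * k * (J * N)) ω ≤
        ENNReal.ofReal (Real.exp (-v)) * A.Sh μ (H0 + k * (J * N)) ω}) ≤
      ENNReal.ofReal (Real.exp (-(lam / 16 * v))) * P B := by
  let F : Filtration ℕ m0 :=
    { seq := fun m => A.F (H0 + m * (J * N))
      mono' := fun i j hij => A.F.mono
        (Nat.add_le_add_left (Nat.mul_le_mul_right (J * N) hij) H0)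
      le' := fun m => A.F.le _ }
  have hJ1 : 1 ≤ J := by
    have : (1 : ℝ) ≤ J := hx0.trans hJ
    exact_mod_cast this
  refine Sun95.sun (P := P) (F := F) (s := fun m => A.Sh μ (H0 + m * (J * N)))
    (X := J * X) (lam := lam) (x0 := x0) (k := k) (fun m => KerSys.meas_Sh hμ _)
    (fun m ω => KerSys.Sh_anti (Nat.add_le_add_left (Nat.mul_le_mul_right (J * N)
      (Nat.le_succ m)) H0) ω)
    (fun m ω => ne_top_of_le_ne_top ENNReal.one_ne_top (KerSys.Sh_le_one hμ _ ω))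
    hlam (by linarith) hk ?_ ?_ hv1 hv2 (B := B) ?_
  · intro m hm1 hm2 x hx1 hx2 B' hB'
    have h := hwin μ hμ (H0 + (m - 1) * (J * N)) x hx1 hx2 B' hB'
    have e1 : H0 + (m - 1) * (J * N) + J * N = H0 + m * (J * N) := by
      obtain ⟨m', rfl⟩ : ∃ m', m = m' + 1 := ⟨m - 1, by omega⟩
      rw [Nat.add_sub_cancel]; ring
    have e2 : H0 + (m - 1) * (J * N) + 2 * J * N = H0 + (m + 1) * (J * N) := by
      obtain ⟨m', rfl⟩ : ∃ m', m = m' + 1 := ⟨m - 1, by omega⟩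
      rw [Nat.add_sub_cancel]; ring
    rw [e1, e2] at h
    exact h
  · intro e n hn1 hn2 hn3 B' hB'
    have hl : x0 ≤ ((n * J : ℕ) : ℝ) := by
      refine hJ.trans ?_
      exact_mod_cast Nat.le_mul_of_pos_left J hn1
    have h2l : 2 * (n * J) ≤ e * J := by
      calc 2 * (n * J) = (2 * n) * J := by ring
        _ ≤ e * J := Nat.mul_le_mul_right J hn2
    have e0 : H0 + (e * J - 2 * (n * J)) * N = H0 + (e - 2 * n) * (J * N) := by
      rw [← mul_assoc 2 n J, ← Nat.sub_mul, mul_assoc]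
    have e1 : H0 + (e * J - n * J) * N = H0 + (e - n) * (J * N) := by
      rw [← Nat.sub_mul, mul_assoc]
    have e2 : H0 + e * J * N = H0 + e * (J * N) := by rw [mul_assoc]
    have h := hst μ hμ H0 (e * J) (n * J) hl h2l B' (by rw [e0]; exact hB')
    rw [e1, e2] at h
    have e3 : ((n * J : ℕ) : ℝ) * X = n * (J * X) := by push_cast; ring
    rw [e3] at h
    exact h
  · show MeasurableSet[A.F (H0 + 0 * (J * N))] B
    rw [zero_mul, add_zero]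
    exact hB

/-- chaining of pieces: deterministic part -/
theorem pieces_det {s : ℕ → ℝ≥0∞} {v : ℝ} {a b : ℝ≥0∞} {K : ℕ} (hK : 1 ≤ K)
    (hfin : s 1 ≠ ∞) (ha0 : a ≠ 0) (ha : a ≤ s 1) (hb : s (K + 1) ≤ b)
    (hab : b ≤ ENNReal.ofReal (Real.exp (-(K * v))) * a) :
    ∃ j, 1 ≤ j ∧ j ≤ K ∧ s j ≠ 0 ∧ s (j + 1) ≤ ENNReal.ofReal (Real.exp (-v)) * s j := by
  by_contra hcon
  push Not at hcon
  have hind : ∀ j, 1 ≤ j → j ≤ K →
      s (j + 1) ≠ 0 ∧ ENNReal.ofReal (Real.exp (-(j * v))) * s 1 < s (j + 1) := by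
    intro j
    induction j with
    | zero => intro h; omega
    | succ j ih =>
      intro _ hjK
      rcases Nat.eq_zero_or_pos j with rfl | hj
      · have h1 := hcon 1 le_rfl hK (fun h => ha0 (le_antisymm (ha.trans h.le) zero_le))
        have e : ((0 + 1 : ℕ) : ℝ) * v = v := by simp
        rw [e]
        exact ⟨(zero_le.trans_lt h1).ne', h1⟩
      · obtain ⟨h1, h2⟩ := ih hj (by omega)
        have h3 := hcon (j + 1) (by omega) hjK h1
        refine ⟨(zero_le.trans_lt h3).ne', lt_of_le_of_lt ?_ h3⟩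
        calc ENNReal.ofReal (Real.exp (-(((j + 1 : ℕ) : ℝ) * v))) * s 1
            = ENNReal.ofReal (Real.exp (-v)) * (ENNReal.ofReal (Real.exp (-(j * v))) * s 1) := by
              rw [← mul_assoc, ← ENNReal.ofReal_mul (Real.exp_pos _).le, ← Real.exp_add]
              congr 3
              push_cast
              ring
          _ ≤ _ := mul_le_mul_right h2.le _
  obtain ⟨_, h⟩ := hind K hK le_rfl
  exact absurd (hb.trans (hab.trans (mul_le_mul_right ha _))) (not_le.2 h)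

/-- **the window lemma, logarithmic form, from `RunHyp`** -/
theorem window_run (hR : RunHyp A) :
    ∀ lam : ℝ, 0 < lam → ∃ u0 c : ℝ, 0 < c ∧ 1 ≤ u0 ∧ ∀ μ : S → ℝ≥0∞, A.Start μ →
      (∀ h, ∀ᵐ ω ∂P, A.Sh μ h ω ≠ 0) → ∀ a : ℕ → Ω → ℝ,
      (∀ i, ∀ᵐ ω ∂P, a i ω = - Real.log (A.Sh μ (10 ^ i) ω).toReal) →
      ∀ (i : ℕ) (u : ℝ), u0 ≤ u → u ≤ c * 10 ^ i →
      ∀ B, MeasurableSet[A.F (10 ^ i)] B →
      P (B ∩ {ω | u ≤ a (i + 2) ω - a (i + 1) ω}) ≤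
        ENNReal.ofReal (Real.exp (-(lam * u))) * P B := by
  intro lam hlam
  obtain ⟨x0, hx0, hC⟩ := hR (176 * (lam + 1)) (by linarith)
  obtain ⟨n0, hn0⟩ := hC (288 * (x0 + 9))
  refine ⟨264 * (x0 + 9), 11 / 2 ^ (n0 + 1), by positivity, by linarith, ?_⟩
  intro μ hμ hpos a ha i u hu huc B hB
  refine (log_event hμ hpos a ha i u B).trans ?_
  -- the parameters
  set v : ℝ := u / 11 with hv
  have huv : u = 11 * v := by rw [hv]; ring
  have hv24 : 24 * (x0 + 9) ≤ v := by rw [huv] at hu; linarith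
  have hvpos : 0 < v := by linarith
  have hT : (0 : ℝ) < 10 ^ i := by positivity
  set D : ℝ := 8 * (x0 + 9) with hD
  have hDpos : 80 ≤ D := by rw [hD]; linarith
  have hD0 : 0 < D := by linarith
  set k : ℕ := ⌊v / D⌋₊ with hk
  have hk3 : 3 ≤ k := by
    rw [hk]
    refine Nat.le_floor ?_
    rw [le_div_iff₀ hD0]
    push_cast
    linarith
  have hk3R : (3 : ℝ) ≤ k := by exact_mod_cast hk3
  have hkv : D * k ≤ v := by
    have h1 : (k : ℝ) ≤ v / D := Nat.floor_le (by positivity)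
    rw [le_div_iff₀ hD0] at h1
    linarith
  have hkv' : v < D * (k + 1) := by
    have h1 : v / D < k + 1 := Nat.lt_floor_add_one _
    rw [div_lt_iff₀ hD0] at h1
    linarith
  -- the octave
  have hTv : (2 : ℝ) ^ (n0 + 1) ≤ 10 ^ i / v := by
    rw [le_div_iff₀ hvpos]
    have h1 : 11 * v ≤ 11 / 2 ^ (n0 + 1) * 10 ^ i := by rw [← huv]; exact huc
    have h2 : (0 : ℝ) < 2 ^ (n0 + 1) := by positivity
    rw [div_mul_eq_mul_div, le_div_iff₀ h2] at h1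
    nlinarith
  set M : ℕ := ⌊(10 : ℝ) ^ i / v⌋₊ with hM
  have hMge : 2 ^ (n0 + 1) ≤ M := by
    rw [hM]
    refine Nat.le_floor ?_
    push_cast
    exact hTv
  have hM0 : M ≠ 0 := by
    have : 0 < 2 ^ (n0 + 1) := by positivity
    omega
  set n : ℕ := Nat.log 2 M with hn
  have hnM : 2 ^ n ≤ M := Nat.pow_log_le_self 2 hM0
  have hnM' : M < 2 ^ (n + 1) := Nat.lt_pow_succ_log_self (by norm_num) M
  have hn0n : n0 ≤ n := by
    have h1 : 2 ^ (n0 + 1) < 2 ^ (n + 1) := lt_of_le_of_lt hMge hnM'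
    have h2 := (Nat.pow_lt_pow_iff_right (by norm_num : 1 < 2)).1 h1
    omega
  have h2nv : (2 : ℝ) ^ n * v ≤ 10 ^ i := by
    have h1 : (M : ℝ) ≤ 10 ^ i / v := Nat.floor_le (by positivity)
    rw [le_div_iff₀ hvpos] at h1
    have h2 : ((2 : ℝ) ^ n) ≤ M := by exact_mod_cast hnM
    nlinarith
  have h2nv' : (10 : ℝ) ^ i < 2 * 2 ^ n * v := by
    have h1 : (10 : ℝ) ^ i / v < M + 1 := Nat.lt_floor_add_one _
    rw [div_lt_iff₀ hvpos] at h1
    have h2 : (M : ℝ) + 1 ≤ 2 ^ (n + 1) := by exact_mod_cast hnM'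
    rw [pow_succ] at h2
    nlinarith
  obtain ⟨n1, hn1, X, hX, hst, hwin⟩ := hn0 n hn0n
  have h21 : (2 : ℝ) ^ n1 ≤ 2 ^ n := pow_le_pow_right₀ (by norm_num) hn1
  have h21p : (0 : ℝ) < 2 ^ n1 := by positivity
  have h2np : (0 : ℝ) < 2 ^ n := by positivity
  have hkp : 0 < k * 2 ^ n1 := by positivity
  set J : ℕ := 9 * 10 ^ i / (k * 2 ^ n1) with hJ
  have hJ1 : J * (k * 2 ^ n1) ≤ 9 * 10 ^ i := Nat.div_mul_le_self _ _
  have hJ2 : 9 * 10 ^ i < (J + 1) * (k * 2 ^ n1) := by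
    rw [hJ, mul_comm (9 * 10 ^ i / (k * 2 ^ n1) + 1)]; exact Nat.lt_mul_div_succ _ hkp
  have hJ1R : (J : ℝ) * (k * 2 ^ n1) ≤ 9 * 10 ^ i := by exact_mod_cast hJ1
  have hJ2R : 9 * (10 : ℝ) ^ i < ((J : ℝ) + 1) * (k * 2 ^ n1) := by exact_mod_cast hJ2
  -- `80 k 2^{n1} ≤ 10^i`
  have hk80 : D * (k * 2 ^ n1) ≤ 10 ^ i := by
    calc D * (k * 2 ^ n1) = D * k * 2 ^ n1 := by ring
      _ ≤ v * 2 ^ n := by gcongr
      _ = 2 ^ n * v := mul_comm _ _
      _ ≤ 10 ^ i := h2nv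
  have hkpR : (0 : ℝ) < k * 2 ^ n1 := by positivity
  have hk80' : 80 * ((k : ℝ) * 2 ^ n1) ≤ 10 ^ i := by nlinarith
  have hJx : x0 ≤ J := by
    by_contra hcon
    push Not at hcon
    have h1 : 9 * (D * (k * 2 ^ n1)) < (x0 + 1) * (k * 2 ^ n1) := by
      calc 9 * (D * (k * 2 ^ n1)) ≤ 9 * 10 ^ i := by linarith
        _ < ((J : ℝ) + 1) * (k * 2 ^ n1) := hJ2R
        _ ≤ _ := by gcongr
    have h2 : 9 * D < x0 + 1 := by
      by_contra h3
      push Not at h3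
      nlinarith
    rw [hD] at h2
    linarith
  have hJC : (J : ℝ) * 2 ^ n1 ≤ 288 * (x0 + 9) * 2 ^ n := by
    have h1 : v < D * (2 * k) := by
      refine hkv'.trans_le ?_
      gcongr
      linarith
    have h2 : (10 : ℝ) ^ i ≤ 2 * 2 ^ n * (D * (2 * k)) := by
      refine h2nv'.le.trans ?_
      gcongr
    have h3 : (J : ℝ) * 2 ^ n1 * k ≤ 288 * (x0 + 9) * 2 ^ n * k := by
      calc (J : ℝ) * 2 ^ n1 * k = (J : ℝ) * (k * 2 ^ n1) := by ring
        _ ≤ 9 * 10 ^ i := hJ1R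
        _ ≤ 9 * (2 * 2 ^ n * (D * (2 * k))) := by gcongr
        _ = 288 * (x0 + 9) * 2 ^ n * k := by rw [hD]; ring
    exact le_of_mul_le_mul_right h3 (by linarith)
  -- the pieces
  have hL1 : k * (J * 2 ^ n1) ≤ 9 * 10 ^ i := by
    calc k * (J * 2 ^ n1) = J * (k * 2 ^ n1) := by ring
      _ ≤ _ := hJ1
  have hL2 : 99 * 10 ^ i ≤ 12 * (k * (J * 2 ^ n1)) := by
    have h1 : (99 : ℝ) * 10 ^ i ≤ 12 * (k * (J * 2 ^ n1)) := by
      have h2 : 9 * (10 : ℝ) ^ i < k * (J * 2 ^ n1) + k * 2 ^ n1 := by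
        calc 9 * (10 : ℝ) ^ i < ((J : ℝ) + 1) * (k * 2 ^ n1) := hJ2R
          _ = _ := by ring
      linarith
    exact_mod_cast h1
  have hv2 : v ≤ k * (J * X) := by
    have h1 : (10 : ℝ) ^ i ≤ k * J * 2 ^ n1 := by
      have h2 : 9 * (10 : ℝ) ^ i < k * J * 2 ^ n1 + k * 2 ^ n1 := by
        calc 9 * (10 : ℝ) ^ i < ((J : ℝ) + 1) * (k * 2 ^ n1) := hJ2R
          _ = _ := by ring
      linarith
    have h3 : v * 2 ^ n ≤ k * J * 2 ^ n := by
      calc v * 2 ^ n = 2 ^ n * v := mul_comm _ _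
        _ ≤ 10 ^ i := h2nv
        _ ≤ k * J * 2 ^ n1 := h1
        _ ≤ k * J * 2 ^ n := by gcongr
    have h4 : v ≤ k * J := le_of_mul_le_mul_right h3 h2np
    calc v ≤ k * J := h4
      _ = k * J * 1 := by ring
      _ ≤ k * J * X := by gcongr
      _ = _ := by ring
  set L : ℕ := k * (J * 2 ^ n1) with hL
  have hpc : ∀ j, 1 ≤ j → j ≤ 11 →
      P (B ∩ {ω | A.Sh μ (10 ^ i + j * L) ω ≠ 0 ∧ A.Sh μ (10 ^ i + (j + 1) * L) ω ≤
        ENNReal.ofReal (Real.exp (-v)) * A.Sh μ (10 ^ i + j * L) ω}) ≤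
      ENNReal.ofReal (Real.exp (-(11 * (lam + 1) * v))) * P B := by
    intro j hj1 hj2
    obtain ⟨j', rfl⟩ : ∃ j', j = j' + 1 := ⟨j - 1, by omega⟩
    have h := piece (A := A) (N := 2 ^ n1) (by linarith) hx0 hk3 hJx
      (fun μ hμ => hst μ hμ) (fun μ hμ => hwin J hJx hJC μ hμ) hμ (10 ^ i + j' * L) (v := v)
      (by linarith [hkv, hD]) hv2 (B := B)
      (A.F.mono (Nat.le_add_right _ _) _ hB)
    have e1 : 10 ^ i + j' * L + k * (J * 2 ^ n1) = 10 ^ i + (j' + 1) * L := by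
      rw [← hL]; ring
    have e2 : 10 ^ i + j' * L + 2 * k * (J * 2 ^ n1) = 10 ^ i + (j' + 1 + 1) * L := by
      rw [show 2 * k * (J * 2 ^ n1) = 2 * L by rw [hL]; ring]; ring
    rw [e1, e2] at h
    refine h.trans (le_of_eq ?_)
    congr 3
    ring
  have hsub : B ∩ {ω | A.Sh μ (10 ^ (i + 1)) ω ≠ 0 ∧ A.Sh μ (10 ^ (i + 2)) ω ≤
        ENNReal.ofReal (Real.exp (-u)) * A.Sh μ (10 ^ (i + 1)) ω} ⊆
      ⋃ j ∈ Finset.Icc 1 11, (B ∩ {ω | A.Sh μ (10 ^ i + j * L) ω ≠ 0 ∧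
        A.Sh μ (10 ^ i + (j + 1) * L) ω ≤
        ENNReal.ofReal (Real.exp (-v)) * A.Sh μ (10 ^ i + j * L) ω}) := by
    rintro ω ⟨hωB, h1, h2⟩
    have e1 : 10 ^ i + 1 * L ≤ 10 ^ (i + 1) := by
      calc 10 ^ i + 1 * L ≤ 10 ^ i + 9 * 10 ^ i := by rw [one_mul]; gcongr
        _ = 10 ^ (i + 1) := by ring
    have e2 : 10 ^ (i + 2) ≤ 10 ^ i + (11 + 1) * L := by
      calc 10 ^ (i + 2) = 10 ^ i + 99 * 10 ^ i := by ring
        _ ≤ 10 ^ i + (11 + 1) * L := by gcongr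
    obtain ⟨j, hj1, hj2, hj3, hj4⟩ := pieces_det (s := fun j => A.Sh μ (10 ^ i + j * L) ω)
      (v := v) (a := A.Sh μ (10 ^ (i + 1)) ω) (b := A.Sh μ (10 ^ (i + 2)) ω) (K := 11)
      (by norm_num) (ne_top_of_le_ne_top ENNReal.one_ne_top (KerSys.Sh_le_one hμ _ ω)) h1
      (KerSys.Sh_anti e1 ω) (KerSys.Sh_anti e2 ω)
      (by
        have e3 : ((11 : ℕ) : ℝ) * v = u := by rw [huv]; norm_num
        rw [e3]; exact h2)
    simp only [Set.mem_iUnion]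
    exact ⟨j, Finset.mem_Icc.2 ⟨hj1, hj2⟩, hωB, hj3, hj4⟩
  refine (measure_mono hsub).trans ((measure_biUnion_finset_le _ _).trans ?_)
  refine (Finset.sum_le_sum fun j hj => hpc j (Finset.mem_Icc.1 hj).1
    (Finset.mem_Icc.1 hj).2).trans ?_
  rw [Finset.sum_const, nsmul_eq_mul, Nat.card_Icc, ← mul_assoc]
  refine mul_le_mul_left ?_ _
  have h11 : (((11 + 1 - 1 : ℕ) : ℝ≥0∞)) = ENNReal.ofReal 11 := by norm_num
  rw [h11, ← ENNReal.ofReal_mul (by norm_num)]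
  refine ENNReal.ofReal_le_ofReal ?_
  have h12 : (11 : ℝ) ≤ Real.exp (11 * v) := by
    have := Real.add_one_le_exp (11 * v)
    linarith
  calc 11 * Real.exp (-(11 * (lam + 1) * v)) ≤ Real.exp (11 * v) *
        Real.exp (-(11 * (lam + 1) * v)) := by gcongr
    _ = Real.exp (-(lam * u)) := by rw [← Real.exp_add, huv]; congr 1; ring

end Crest.Agent.R154.RunHW508

namespace Crest.Agent.R154.RunHW508

open MeasureTheory ProbabilityTheory Crest.ProbabilityR.RandomEnvironment Crest.Agent.R154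
open Crest.Agent.R154.D2Asm244 (kT aa aa_eq)

variable {d : ℕ} {Q : Measure (Environment d)} [IsProbabilityMeasure Q] {κ : ℝ} {R : ℕ}

/-- **(T6c)**: the window input of the chain from the run estimates, `w = 0`. -/
theorem hW_of_run (F : Bind263.Frame Q κ R) (u : Step d)
    (hT : RunHyp (kT u R κ Q F.stat F.fin)) : ChainFL.HW (kT u R κ Q F.stat F.fin) := by
  intro lam ε' hlam hε'
  obtain ⟨u0, c, hc, hu0, h⟩ := window_run hT lam hlam
  refine ⟨u0, c, hc, fun _ => 0, fun _ => le_rfl, fun J => ?_, fun μ hμ hpos => ?_⟩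
  · simp only [Finset.sum_const_zero]
    have : (0 : ℝ) ≤ J := Nat.cast_nonneg J
    nlinarith
  · intro i v hv hvc B hB
    simp only [add_zero] at hvc ⊢
    exact h μ hμ hpos (aa (kT u R κ Q F.stat F.fin) μ) (aa_eq hμ hpos) i v hv hvc B hB

end Crest.Agent.R154.RunHW508
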