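import Crest.Agent.R154.Sun_95
import Crest.Agent.R154.ChainFL_263

/-!
# Row 154, T6c: run bookkeeping + SUN ⇒ `ChainFL.HW`

Inputs: at every good octave `N = 2 ^ n` the steepness bound (`SteepN`, 299's `steep_sym`), and the
one-window bound (`WinN`, 993's `stage`) for windows of `J` units as long as `J N ≤ C N'` for every
good octave `N' > N` (that is, up to `C` times the next good octave).  Output: `HW` with `w = 0`.
-/

set_option autoImplicit false
set_option linter.unusedVariables false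
set_option linter.unusedSectionVars false
set_option linter.deprecated false

open MeasureTheory ENNReal Crest.Agent.R154.RatioR872 Crest.Agent.R154.Sun95

namespace Crest.Agent.R154.Run719

variable {S : Type*} [Countable S] {Ω : Type*} {m0 : MeasurableSpace Ω} {P : Measure Ω}

/-- survival between the levels `a` and `b` drops by the factor `exp (-x)` -/
def Ev (A : KerSys S P) (μ : S → ℝ≥0∞) (a b : ℕ) (x : ℝ) : Set Ω :=
  {ω | A.Sh μ a ω ≠ 0 ∧ A.Sh μ b ω ≤ ENNReal.ofReal (Real.exp (-x)) * A.Sh μ a ω}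

/-- (hb), unit `N` -/
def SteepN (A : KerSys S P) (N n1 : ℕ) (X lam : ℝ) : Prop :=
  ∀ μ, A.Start μ → ∀ h0 e n : ℕ, n1 ≤ n → 1 ≤ n → 2 * n ≤ e →
    ∀ B, MeasurableSet[A.F (h0 + (e - 2 * n) * N)] B →
    P (B ∩ {ω | A.Sh μ (h0 + (e - n) * N) ω ≠ 0 ∧ A.Sh μ (h0 + e * N) ω ≤
      ENNReal.ofReal (Real.exp (-(n * X))) * A.Sh μ (h0 + (e - n) * N) ω}) ≤
      ENNReal.ofReal (Real.exp (-(lam * (n * X)))) * P B

/-- one window of `J` units `N`, strengths `x0 ≤ x ≤ X J` -/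
def WinN (A : KerSys S P) (N J : ℕ) (X x0 lam : ℝ) : Prop :=
  ∀ μ, A.Start μ → ∀ (h0 : ℕ) (x : ℝ), x0 ≤ x → x ≤ X * J → ∀ B, MeasurableSet[A.F h0] B →
    P (B ∩ {ω | A.Sh μ (h0 + J * N) ω ≠ 0 ∧ A.Sh μ (h0 + 2 * J * N) ω ≤
      ENNReal.ofReal (Real.exp (-x)) * A.Sh μ (h0 + J * N) ω}) ≤
      ENNReal.ofReal (Real.exp (-(lam * x))) * P B

variable {A : KerSys S P}

theorem ev_two {μ : S → ℝ≥0∞} {a a' a'' b : ℕ} (h : a'' ≤ a') (x y : ℝ) :
    Ev A μ a b (x + y) ⊆ Ev A μ a a' x ∪ Ev A μ a'' b y := by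
  rintro ω ⟨h1, h2⟩
  by_cases h3 : A.Sh μ a' ω ≤ ENNReal.ofReal (Real.exp (-x)) * A.Sh μ a ω
  · exact Or.inl ⟨h1, h3⟩
  right
  push Not at h3
  have h4 : A.Sh μ a' ω ≤ A.Sh μ a'' ω := KerSys.Sh_anti h ω
  refine ⟨fun h5 => ?_, ?_⟩
  · rw [h5] at h4
    exact absurd (lt_of_lt_of_le h3 h4) (by simp)
  · calc A.Sh μ b ω ≤ ENNReal.ofReal (Real.exp (-(x + y))) * A.Sh μ a ω := h2
      _ = ENNReal.ofReal (Real.exp (-y)) * (ENNReal.ofReal (Real.exp (-x)) * A.Sh μ a ω) := by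
          rw [← mul_assoc, ← ENNReal.ofReal_mul (Real.exp_pos _).le, ← Real.exp_add]
          congr 3; ring
      _ ≤ ENNReal.ofReal (Real.exp (-y)) * A.Sh μ a'' ω := mul_le_mul_right (h3.le.trans h4) _

theorem ev_chain {μ : S → ℝ≥0∞} (a : ℕ → ℕ) (x : ℝ) (n : ℕ) :
    Ev A μ (a 0) (a (n + 1)) (((n : ℝ) + 1) * x) ⊆
      ⋃ j ∈ Finset.range (n + 1), Ev A μ (a j) (a (j + 1)) x := by
  induction n with
  | zero =>
    intro ω hω
    rw [Set.mem_iUnion₂]
    refine ⟨0, by simp, ?_⟩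
    have e : ((0 : ℕ) : ℝ) + 1 = 1 := by simp
    rw [e, one_mul] at hω
    exact hω
  | succ n ih =>
    intro ω hω
    have e : (((n + 1 : ℕ) : ℝ) + 1) * x = ((n : ℝ) + 1) * x + x := by push_cast; ring
    rw [e] at hω
    rcases ev_two (a' := a (n + 1)) (a'' := a (n + 1)) le_rfl _ _ hω with h | h
    · obtain ⟨j, hj, h'⟩ := Set.mem_iUnion₂.1 (ih h)
      rw [Set.mem_iUnion₂]
      refine ⟨j, ?_, h'⟩
      rw [Finset.mem_range] at hj ⊢; omega
    · rw [Set.mem_iUnion₂]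
      exact ⟨n + 1, by simp, h⟩

/-- two windows of length `l` cover a window of length `L ≤ 2 l` -/
theorem cover {μ : S → ℝ≥0∞} {L l : ℕ} (h1 : l ≤ L) (h2 : L ≤ 2 * l) {x lam : ℝ}
    (hw : ∀ h0 : ℕ, ∀ B, MeasurableSet[A.F h0] B →
      P (B ∩ Ev A μ (h0 + l) (h0 + 2 * l) x) ≤ ENNReal.ofReal (Real.exp (-(lam * x))) * P B)
    (h0 : ℕ) {B : Set Ω} (hB : MeasurableSet[A.F h0] B) :
    P (B ∩ Ev A μ (h0 + L) (h0 + 2 * L) (x + x)) ≤
      2 * (ENNReal.ofReal (Real.exp (-(lam * x))) * P B) := by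
  have e1 : h0 + (L - l) + l = h0 + L := by omega
  have e2 : h0 + (L - l) + 2 * l = h0 + L + l := by omega
  have e3 : h0 + 2 * (L - l) + l = h0 + 2 * L - l := by omega
  have e4 : h0 + 2 * (L - l) + 2 * l = h0 + 2 * L := by omega
  have w1 := hw (h0 + (L - l)) B (A.F.mono (Nat.le_add_right _ _) _ hB)
  have w2 := hw (h0 + 2 * (L - l)) B (A.F.mono (Nat.le_add_right _ _) _ hB)
  rw [e1, e2] at w1
  rw [e3, e4] at w2
  have hsub : B ∩ Ev A μ (h0 + L) (h0 + 2 * L) (x + x) ⊆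
      (B ∩ Ev A μ (h0 + L) (h0 + L + l) x) ∪ (B ∩ Ev A μ (h0 + 2 * L - l) (h0 + 2 * L) x) := by
    rintro ω ⟨hω, hω2⟩
    rcases ev_two (a' := h0 + L + l) (a'' := h0 + 2 * L - l) (by omega) _ _ hω2 with h | h
    · exact Or.inl ⟨hω, h⟩
    · exact Or.inr ⟨hω, h⟩
  calc P (B ∩ Ev A μ (h0 + L) (h0 + 2 * L) (x + x))
      ≤ P (B ∩ Ev A μ (h0 + L) (h0 + L + l) x) +
        P (B ∩ Ev A μ (h0 + 2 * L - l) (h0 + 2 * L) x) :=
        (measure_mono hsub).trans (measure_union_le _ _)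
    _ ≤ ENNReal.ofReal (Real.exp (-(lam * x))) * P B +
        ENNReal.ofReal (Real.exp (-(lam * x))) * P B := add_le_add w1 w2
    _ = _ := (two_mul _).symm

/-- SUN at unit `J N`, `k` windows -/
theorem sun_win {N J n1 : ℕ} {X x0 lam : ℝ} (hlam : 1 ≤ lam) (hx0 : 0 < x0) (hJ : 1 ≤ J)
    (hJn : n1 ≤ J) (hS : SteepN A N n1 X lam) (hW : WinN A N J X x0 lam)
    {k : ℕ} (hk : 3 ≤ k) {v : ℝ} (hu1 : 8 * (x0 + 9) * k ≤ v) (hu2 : v ≤ k * (X * J))
    {μ : S → ℝ≥0∞} (hμ : A.Start μ) (h0 : ℕ) {B : Set Ω} (hB : MeasurableSet[A.F h0] B) :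
    P (B ∩ Ev A μ (h0 + k * J * N) (h0 + 2 * (k * J * N)) v) ≤
      ENNReal.ofReal (Real.exp (-(lam / 16 * v))) * P B := by
  classical
  let F : Filtration ℕ m0 :=
    { seq := fun m => A.F (h0 + m * (J * N))
      mono' := fun i j hij => A.F.mono (Nat.add_le_add_left (Nat.mul_le_mul_right _ hij) h0)
      le' := fun m => A.F.le _ }
  have key := sun (P := P) (F := F) (s := fun m => A.Sh μ (h0 + m * (J * N)))
    (fun m => KerSys.meas_Sh hμ _)
    (fun m ω => KerSys.Sh_anti (Nat.add_le_add_left (Nat.mul_le_mul_right _ (Nat.le_succ m)) h0) ω)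
    (fun m ω => ne_top_of_le_ne_top ENNReal.one_ne_top (KerSys.Sh_le_one hμ _ ω))
    (X := X * J) (lam := lam) (x0 := x0) hlam hx0 hk (by
      intro m hm1 hm2 x hx1 hx2 B' hB'
      have h1 := hW μ hμ (h0 + (m - 1) * (J * N)) x hx1 hx2 B' hB'
      have e1 : h0 + (m - 1) * (J * N) + J * N = h0 + m * (J * N) := by
        obtain ⟨m', rfl⟩ : ∃ m', m = m' + 1 := ⟨m - 1, by omega⟩
        rw [Nat.add_sub_cancel]; ring
      have e2 : h0 + (m - 1) * (J * N) + 2 * J * N = h0 + (m + 1) * (J * N) := by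
        obtain ⟨m', rfl⟩ : ∃ m', m = m' + 1 := ⟨m - 1, by omega⟩
        rw [Nat.add_sub_cancel]; ring
      rw [e1, e2] at h1
      exact h1) (by
      intro e n hn1 hn2 hn3 B' hB'
      have hnJ : n1 ≤ n * J := hJn.trans (Nat.le_mul_of_pos_left J hn1)
      have e0 : (e * J - 2 * (n * J)) * N = (e - 2 * n) * (J * N) := by
        have : e * J - 2 * (n * J) = (e - 2 * n) * J := by
          rw [Nat.sub_mul]; congr 1; ring
        rw [this]; ring
      have h1 := hS μ hμ h0 (e * J) (n * J) hnJ (Nat.mul_pos hn1 hJ) (by nlinarith) B'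
        (by rw [e0]; exact hB')
      have e1 : (e * J - n * J) * N = (e - n) * (J * N) := by
        rw [← Nat.sub_mul]; ring
      have e2 : e * J * N = e * (J * N) := by ring
      rw [e1, e2] at h1
      have e3 : ((n * J : ℕ) : ℝ) * X = (n : ℝ) * (X * J) := by push_cast; ring
      rw [e3] at h1
      exact h1) hu1 hu2 (B := B) (by
      change MeasurableSet[A.F (h0 + 0 * (J * N))] B
      rw [zero_mul, add_zero]; exact hB)
  have e1 : h0 + k * (J * N) = h0 + k * J * N := by ring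
  have e2 : h0 + 2 * k * (J * N) = h0 + 2 * (k * J * N) := by ring
  simp only [e1, e2] at key
  exact key

/-- **window bound at every base level and every length**, at one rate -/
theorem win_all {X x0 C lam : ℝ} {n1 J0 : ℕ} {Good : ℕ → Prop} (hlam : 1 ≤ lam) (hX : 0 < X)
    (hx0 : 0 < x0) (hC : 4 * (32 * (x0 + 9) / X + n1 + J0 + 2) ≤ C) {nf : ℕ} (hnf : Good nf)
    (hS : ∀ n, Good n → SteepN A (2 ^ n) n1 X lam)
    (hW : ∀ n J, Good n → J0 ≤ J →
      (∀ n', n < n' → Good n' → (J : ℝ) * 2 ^ n ≤ C * 2 ^ n') → WinN A (2 ^ n) J X x0 lam)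
    {μ : S → ℝ≥0∞} (hμ : A.Start μ) (h0 L : ℕ) {u : ℝ}
    (hu0 : 64 + 2 * x0 + X * (J0 + 2) ≤ u) (huL : u ≤ X / (2 * 2 ^ nf) * L)
    {B : Set Ω} (hB : MeasurableSet[A.F h0] B) :
    P (B ∩ Ev A μ (h0 + L) (h0 + 2 * L) u) ≤
      ENNReal.ofReal (Real.exp (-(lam / 64 * u))) * P B := by
  classical
  have hJ0 : (0 : ℝ) ≤ J0 := Nat.cast_nonneg _
  have hn1 : (0 : ℝ) ≤ n1 := Nat.cast_nonneg _
  have hupos : 0 < u := by
    have : 0 ≤ X * (J0 + 2) := by positivity
    linarith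
  have hux0 : x0 ≤ u / 2 := by
    have : 0 ≤ X * (J0 + 2) := by positivity
    linarith
  have hLpos : (0 : ℝ) < L := by
    by_contra hcon
    have : (L : ℝ) = 0 := le_antisymm (not_lt.1 hcon) (Nat.cast_nonneg _)
    rw [this, mul_zero] at huL
    linarith
  set C1 : ℝ := 32 * (x0 + 9) / X + n1 + J0 + 1 with hC1
  have hq : 0 < 32 * (x0 + 9) / X := by positivity
  have hC1X : 32 * (x0 + 9) ≤ C1 * X := by
    have : 32 * (x0 + 9) / X ≤ C1 := by rw [hC1]; linarith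
    rwa [div_le_iff₀ hX] at this
  have hC1pos : 1 ≤ C1 := by rw [hC1]; linarith
  have hC4 : 4 * (C1 + 1) ≤ C := by rw [hC1]; linarith
  set Nst : ℝ := X * L / (2 * u) with hNst
  have hNpos : 0 < Nst := by positivity
  have hNu : Nst * (2 * u) = X * L := by rw [hNst]; field_simp
  have hfst : (2 : ℝ) ^ nf ≤ Nst := by
    rw [hNst, le_div_iff₀ (by positivity)]
    have h1 : X / (2 * 2 ^ nf) * L * (2 * 2 ^ nf) = X * L := by field_simp
    have h2 : u * (2 * 2 ^ nf) ≤ X * L := by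
      rw [← h1]; exact mul_le_mul_of_nonneg_right huL (by positivity)
    linarith
  -- the largest good octave below `Nst`
  let T : ℕ → Prop := fun n => Good n ∧ (2 : ℝ) ^ n ≤ Nst
  have hTb : ∀ n, T n → n ≤ ⌊Nst⌋₊ := by
    intro n hn
    have h1 : (n : ℝ) < 2 ^ n := by exact_mod_cast Nat.lt_two_pow_self
    exact Nat.le_floor (h1.le.trans hn.2)
  set n := Nat.findGreatest T ⌊Nst⌋₊ with hn
  have hTn : T n := Nat.findGreatest_spec (P := T) (hTb nf ⟨hnf, hfst⟩) ⟨hnf, hfst⟩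
  have hnext : ∀ n', n < n' → Good n' → Nst < 2 ^ n' := by
    intro n' h1 h2
    by_contra hcon
    push Not at hcon
    have h3 : T n' := ⟨h2, hcon⟩
    have := Nat.le_findGreatest (P := T) (hTb n' h3) h3
    omega
  obtain ⟨hgood, hNle⟩ := hTn
  set N : ℕ := 2 ^ n with hN
  have hNR : (N : ℝ) = 2 ^ n := by rw [hN]; push_cast; rfl
  have hN0 : (0 : ℝ) < N := by rw [hNR]; positivity
  have hN0' : 0 < N := by exact_mod_cast hN0
  have hNle' : (N : ℝ) ≤ Nst := by rw [hNR]; exact hNle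
  -- `L / N ≥ 2 u / X`
  have hLN : 2 * u * N ≤ X * L := by
    rw [← hNu]
    nlinarith
  set J : ℕ := ⌈C1 * Nst / N⌉₊ with hJ
  have hJ1 : C1 * Nst / N ≤ J := Nat.le_ceil _
  have hJ1' : C1 * Nst ≤ J * N := by rwa [div_le_iff₀ hN0] at hJ1
  have hJ2 : (J : ℝ) < C1 * Nst / N + 1 := Nat.ceil_lt_add_one (by positivity)
  have hJ2' : (J : ℝ) * N ≤ (C1 + 1) * Nst := by
    have h1 : (J : ℝ) * N ≤ (C1 * Nst / N + 1) * N := mul_le_mul_of_nonneg_right hJ2.le hN0.le
    have h2 : (C1 * Nst / N + 1) * N = C1 * Nst + N := by field_simp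
    rw [h2] at h1
    linarith
  have hJC : C1 ≤ J := by
    have h1 : C1 * N ≤ J * N := by
      calc C1 * N ≤ C1 * Nst := mul_le_mul_of_nonneg_left hNle' (by linarith)
        _ ≤ _ := hJ1'
    exact le_of_mul_le_mul_right h1 hN0
  have hJn1 : n1 ≤ J := by
    have : (n1 : ℝ) ≤ J := by linarith
    exact_mod_cast this
  have hJJ0 : J0 ≤ J := by
    have : (J0 : ℝ) ≤ J := by linarith
    exact_mod_cast this
  have hJ1n : 1 ≤ J := by
    have : (1 : ℝ) ≤ J := by linarith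
    exact_mod_cast this
  -- the two cases give a window of length `l`
  have hfin : ∀ l : ℕ, l ≤ L → L ≤ 2 * l →
      (∀ h0 : ℕ, ∀ B, MeasurableSet[A.F h0] B →
        P (B ∩ Ev A μ (h0 + l) (h0 + 2 * l) (u / 2)) ≤
          ENNReal.ofReal (Real.exp (-(lam / 16 * (u / 2)))) * P B) →
      P (B ∩ Ev A μ (h0 + L) (h0 + 2 * L) u) ≤
        ENNReal.ofReal (Real.exp (-(lam / 64 * u))) * P B := by
    intro l hl1 hl2 hw
    have h1 := cover (A := A) hl1 hl2 (x := u / 2) (lam := lam / 16) hw h0 hB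
    rw [add_halves] at h1
    refine h1.trans ?_
    rw [← mul_assoc]
    refine mul_le_mul_left ?_ _
    rw [show (2 : ℝ≥0∞) = ENNReal.ofReal 2 by simp, ← ENNReal.ofReal_mul (by norm_num)]
    refine ENNReal.ofReal_le_ofReal ?_
    have h2 : (2 : ℝ) ≤ Real.exp 1 := by have := Real.add_one_le_exp (1 : ℝ); linarith
    have hu64 : 64 ≤ u := by
      have : 0 ≤ X * (J0 + 2) := by positivity
      linarith
    have hlu : 64 ≤ lam * u := by nlinarith
    calc 2 * Real.exp (-(lam / 16 * (u / 2)))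
        ≤ Real.exp 1 * Real.exp (-(lam / 16 * (u / 2))) := by gcongr
      _ = Real.exp (1 + -(lam / 16 * (u / 2))) := by rw [← Real.exp_add]
      _ ≤ _ := Real.exp_le_exp.2 (by nlinarith)
  by_cases hcase : 4 * (J * N) ≤ L
  · -- SUN
    set k : ℕ := L / (J * N) with hk
    have hJN : 0 < J * N := Nat.mul_pos hJ1n hN0'
    have hk4 : 4 ≤ k := by rw [hk, Nat.le_div_iff_mul_le hJN]; exact hcase
    have hkL : k * (J * N) ≤ L := Nat.div_mul_le_self _ _
    have hkL' : L < (k + 1) * (J * N) := by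
      rw [hk, mul_comm]; exact Nat.lt_mul_div_succ _ hJN
    refine hfin (k * J * N) (by rw [mul_assoc]; exact hkL) (by
      have : 2 * (k * J * N) = 2 * k * (J * N) := by ring
      rw [this]
      refine hkL'.le.trans (Nat.mul_le_mul_right _ (by omega))) ?_
    intro h0 B hB
    have hkLR : (k : ℝ) * (J * N) ≤ L := by exact_mod_cast hkL
    have hkLR' : (L : ℝ) < (k + 1) * (J * N) := by exact_mod_cast hkL'
    have hcR : 4 * ((J : ℝ) * N) ≤ L := by exact_mod_cast hcase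
    refine sun_win hlam hx0 hJ1n hJn1 (hS n hgood) (hW n J hgood hJJ0 ?_) (by omega : 3 ≤ k)
      ?_ ?_ hμ h0 hB
    · intro n' h1 h2
      have h3 := hnext n' h1 h2
      rw [← hNR]
      calc (J : ℝ) * N ≤ (C1 + 1) * Nst := hJ2'
        _ ≤ C * Nst := mul_le_mul_of_nonneg_right (by linarith) hNpos.le
        _ ≤ C * 2 ^ n' := mul_le_mul_of_nonneg_left h3.le (by linarith)
    · -- `8 (x0 + 9) k ≤ u / 2`
      have h1 : (k : ℝ) * (C1 * Nst) ≤ L :=
        (mul_le_mul_of_nonneg_left hJ1' (Nat.cast_nonneg _)).trans hkLR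
      have h2 : (k : ℝ) * (C1 * X) ≤ 2 * u := by
        have h3 : (k : ℝ) * (C1 * X) * Nst ≤ 2 * u * Nst := by
          calc (k : ℝ) * (C1 * X) * Nst = X * (k * (C1 * Nst)) := by ring
            _ ≤ X * L := mul_le_mul_of_nonneg_left h1 hX.le
            _ = 2 * u * Nst := by rw [← hNu]; ring
        exact le_of_mul_le_mul_right h3 hNpos
      have h4 : (k : ℝ) * (32 * (x0 + 9)) ≤ k * (C1 * X) :=
        mul_le_mul_of_nonneg_left hC1X (Nat.cast_nonneg _)
      linarith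
    · -- `u / 2 ≤ k (X J)`
      have h1 : 3 / 4 * (L : ℝ) ≤ k * (J * N) := by linarith
      have h2 : 3 / 4 * (X * L) ≤ k * (X * J) * N := by
        calc 3 / 4 * (X * L) = X * (3 / 4 * L) := by ring
          _ ≤ X * (k * (J * N)) := mul_le_mul_of_nonneg_left h1 hX.le
          _ = _ := by ring
      have h3 : u / 2 * N ≤ k * (X * J) * N := by
        have : u / 2 * N ≤ 3 / 4 * (X * L) := by nlinarith
        linarith
      exact le_of_mul_le_mul_right h3 hN0
  · -- one window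
    push Not at hcase
    set J' : ℕ := L / N with hJ'
    have hJL : J' * N ≤ L := Nat.div_mul_le_self _ _
    have hJL' : L < (J' + 1) * N := by
      rw [hJ', mul_comm]; exact Nat.lt_mul_div_succ _ hN0'
    have hJLR : (J' : ℝ) * N ≤ L := by exact_mod_cast hJL
    have hJLR' : (L : ℝ) < (J' + 1) * N := by exact_mod_cast hJL'
    -- `J' + 1 ≥ 2 u / X ≥ 2 J0 + 4`
    have hXJ : 2 * u < X * (J' + 1) := by
      have h1 : 2 * u * N < X * (J' + 1) * N := by
        calc 2 * u * N ≤ X * L := hLN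
          _ < X * ((J' + 1) * N) := mul_lt_mul_of_pos_left hJLR' hX
          _ = _ := by ring
      exact lt_of_mul_lt_mul_right h1 hN0.le
    have hJ'0 : (J0 : ℝ) + 2 ≤ J' := by
      have h1 : X * (2 * (J0 + 2)) < X * (J' + 1) := by
        have : X * (2 * (J0 + 2)) ≤ 2 * u := by nlinarith
        linarith
      have h2 : 2 * ((J0 : ℝ) + 2) < J' + 1 := lt_of_mul_lt_mul_left h1 hX.le
      linarith
    have hJ'0n : J0 + 2 ≤ J' := by exact_mod_cast hJ'0
    refine hfin (J' * N) hJL (by nlinarith) ?_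
    intro h0 B hB
    have hw := hW n J' hgood (by omega) (fun n' h1 h2 => by
      have h3 := hnext n' h1 h2
      have hcR : (L : ℝ) ≤ 4 * (J * N) := by
        have : L ≤ 4 * (J * N) := hcase.le
        exact_mod_cast this
      rw [← hNR]
      calc (J' : ℝ) * N ≤ L := hJLR
        _ ≤ 4 * (J * N) := hcR
        _ ≤ 4 * ((C1 + 1) * Nst) := by linarith
        _ = 4 * (C1 + 1) * Nst := by ring
        _ ≤ C * Nst := mul_le_mul_of_nonneg_right hC4 hNpos.le
        _ ≤ C * 2 ^ n' := mul_le_mul_of_nonneg_left h3.le (by linarith))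
      μ hμ h0 (u / 2) hux0 (by
        have : X * (J' + 1) = X * J' + X := by ring
        nlinarith) B hB
    have e : h0 + 2 * (J' * N) = h0 + 2 * J' * N := by ring
    rw [e]
    refine hw.trans (mul_le_mul_left (ENNReal.ofReal_le_ofReal (Real.exp_le_exp.2 ?_)) _)
    nlinarith

/-- **T6c: `HW` from the runs**, `w = 0`. -/
theorem hw_of_runs {d : ℕ} {Q : Measure (Crest.ProbabilityR.RandomEnvironment.Environment d)}
    [IsProbabilityMeasure Q]
    (A : KerSys (Crest.ProbabilityR.RandomEnvironment.Site d) Q)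
    (H : ∀ lam : ℝ, 1 ≤ lam → ∃ (X x0 C : ℝ) (n1 J0 : ℕ) (Good : ℕ → Prop), 0 < X ∧ 0 < x0 ∧
      4 * (32 * (x0 + 9) / X + n1 + J0 + 2) ≤ C ∧ (∃ n, Good n) ∧
      (∀ n, Good n → SteepN A (2 ^ n) n1 X lam) ∧
      (∀ n J, Good n → J0 ≤ J →
        (∀ n', n < n' → Good n' → (J : ℝ) * 2 ^ n ≤ C * 2 ^ n') → WinN A (2 ^ n) J X x0 lam)) :
    ChainFL.HW A := by
  intro lam ε' hlam hε'
  obtain ⟨X, x0, C, n1, J0, Good, hX, hx0, hC, ⟨nf, hnf⟩, hS, hW⟩ :=
    H (640 * (lam + 1)) (by linarith)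
  have hx : 0 ≤ X * ((J0 : ℝ) + 2) := by positivity
  set v0 : ℝ := 64 + 2 * x0 + X * ((J0 : ℝ) + 2) with hv0
  have hv64 : 64 ≤ v0 := by rw [hv0]; linarith
  refine ⟨10 * v0, X / (2 * 2 ^ nf), by positivity, fun _ => 0, fun _ => le_rfl, fun J => ?_,
    fun μ hμ hpos => ?_⟩
  · simp only [Finset.sum_const_zero]
    have : (0 : ℝ) ≤ J := Nat.cast_nonneg J
    nlinarith
  · intro i u hu huc B hB
    simp only [add_zero] at huc ⊢
    refine (WindowK299.log_event hμ hpos (D2Asm244.aa A μ) (D2Asm244.aa_eq hμ hpos) i u B).trans ?_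
    have hcp : 0 < X / (2 * 2 ^ nf) := by positivity
    set L : ℕ := 9 * 10 ^ i with hL
    have hupos : 0 < u := by linarith
    have hB' : MeasurableSet[A.F (10 ^ i)] B := hB
    have hpc : ∀ j : ℕ, Q (B ∩ Ev A μ (10 ^ i + (j + 1) * L) (10 ^ i + (j + 2) * L) (u / 10)) ≤
        ENNReal.ofReal (Real.exp (-((lam + 1) * u))) * Q B := by
      intro j
      have h1 := win_all (A := A) (by linarith : (1 : ℝ) ≤ 640 * (lam + 1)) hX hx0 hC hnf hS hW hμ
        (10 ^ i + j * L) L (u := u / 10) (by rw [← hv0]; linarith) (by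
          have e1 : (L : ℝ) = 9 * 10 ^ i := by rw [hL]; push_cast; ring
          rw [e1]
          have : X / (2 * 2 ^ nf) * 10 ^ i ≤ X / (2 * 2 ^ nf) * (9 * 10 ^ i) := by
            apply mul_le_mul_of_nonneg_left _ hcp.le
            have : (0 : ℝ) < 10 ^ i := by positivity
            linarith
          linarith) (B := B) (A.F.mono (Nat.le_add_right _ _) _ hB')
      have e1 : 10 ^ i + j * L + L = 10 ^ i + (j + 1) * L := by ring
      have e2 : 10 ^ i + j * L + 2 * L = 10 ^ i + (j + 2) * L := by ring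
      rw [e1, e2] at h1
      refine h1.trans (mul_le_mul_left (ENNReal.ofReal_le_ofReal (Real.exp_le_exp.2 ?_)) _)
      linarith
    have hsub : B ∩ {ω | A.Sh μ (10 ^ (i + 1)) ω ≠ 0 ∧ A.Sh μ (10 ^ (i + 2)) ω ≤
        ENNReal.ofReal (Real.exp (-u)) * A.Sh μ (10 ^ (i + 1)) ω} ⊆
        ⋃ j ∈ Finset.range 10,
          (B ∩ Ev A μ (10 ^ i + (j + 1) * L) (10 ^ i + (j + 2) * L) (u / 10)) := by
      rintro ω ⟨h1, h2⟩
      have h3 := ev_chain (A := A) (μ := μ) (fun j => 10 ^ i + (j + 1) * L) (u / 10) 9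
      have e1 : 10 ^ i + (0 + 1) * L = 10 ^ (i + 1) := by rw [hL]; ring
      have e2 : 10 ^ i + (9 + 1 + 1) * L = 10 ^ (i + 2) := by rw [hL]; ring
      have e3 : (((9 : ℕ) : ℝ) + 1) * (u / 10) = u := by push_cast; ring
      simp only [e1, e2, e3] at h3
      obtain ⟨j, hj, h4⟩ := Set.mem_iUnion₂.1 (h3 h2)
      exact Set.mem_iUnion₂.2 ⟨j, hj, h1, h4⟩
    refine (measure_mono hsub).trans ((measure_biUnion_finset_le _ _).trans
      ((Finset.sum_le_sum fun j _ => hpc j).trans ?_))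
    rw [Finset.sum_const, Finset.card_range, nsmul_eq_mul, ← mul_assoc]
    refine mul_le_mul_left ?_ _
    rw [show ((10 : ℕ) : ℝ≥0∞) = ENNReal.ofReal 10 by simp, ← ENNReal.ofReal_mul (by norm_num)]
    refine ENNReal.ofReal_le_ofReal ?_
    have h10 : (10 : ℝ) ≤ Real.exp u := by
      have := Real.add_one_le_exp u
      linarith
    calc 10 * Real.exp (-((lam + 1) * u)) ≤ Real.exp u * Real.exp (-((lam + 1) * u)) := by gcongr
      _ = Real.exp (-(lam * u)) := by rw [← Real.exp_add]; congr 1; ring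

end Crest.Agent.R154.Run719
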