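import Crest.Agent.R154.Fact2_346
import Crest.Agent.R154.WMass_286
import Crest.Agent.R154.Conc_322
import Crest.Agent.R154.Bind801_12
import Crest.Agent.R154.NBSurg_28

/-! Row 154, ROAD 801 (helper173): data of the two single walkers, block types
`Irr (IsUp u)` and `Irr (IsDn u)`. -/

set_option autoImplicit false

namespace Crest.Agent.R154.SWData173

open MeasureTheory ProbabilityTheory Crest.ProbabilityR.RandomEnvironment Crest.Agent.R154
open Crest.Agent.R154.Flux132 (lev opp)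
open Crest.Agent.R154.Flux566 (lw endp sitesL endp_append endp_eq_add)
open Crest.Agent.R154.NB28 (IsUp IsDn aw)
open Crest.Agent.R154.B5A (LW HT U)
open Crest.Agent.R154.Fact346
open scoped ENNReal

variable {d : ℕ} (ν : Measure (Row d)) [IsProbabilityMeasure ν] (u : Step d)

/-- weights of the up blocks -/
noncomputable abbrev LX : Irr (IsUp u) → ℝ≥0∞ := fun b => aw ν b.1

/-- weights of the down blocks -/
noncomputable abbrev LY : Irr (IsDn u) → ℝ≥0∞ := fun b => aw ν b.1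

/-- displacement of the up blocks -/
def zX (b : Irr (IsUp u)) : Site d := -endp 0 b.1

/-- displacement of the down blocks -/
def zY (b : Irr (IsDn u)) : Site d := endp 0 b.1

lemma pos_up (b : Irr (IsUp u)) : 1 ≤ ht b := ht_pos b

lemma pos_dn (b : Irr (IsDn u)) : 1 ≤ ht b := ht_pos b

/-- renewal facts from the two sided mass bound -/
lemma facts {B : Type*} (Λ : B → ℝ≥0∞) (h : B → ℕ) (h1 : ∀ b, 1 ≤ h b) (c : ℝ≥0∞) (hc : c ≠ 0)
    (hc1 : c ≤ 1) (hU : ∀ n, c ≤ U Λ h n) (hU1 : ∀ n, U Λ h n ≤ 1) :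
    ∑' b, Λ b = 1 ∧ ∑' b, Λ b * (h b : ℝ≥0∞) ≠ ⊤ := by
  have hc' : c ≠ ⊤ := ne_top_of_le_ne_top ENNReal.one_ne_top hc1
  have e : ∑' b, Λ b = 1 := le_antisymm (B5A.mass_le_one Λ h h1 hU1)
    (B5A.mass_ge_one Λ h c hc 0 fun n _ => hU n)
  exact ⟨e, ne_top_of_le_ne_top (ENNReal.inv_ne_top.2 hc)
    (B5A.mean_le Λ h h1 e c hc hc' 0 fun n _ => hU n)⟩

/-- **single walker data** -/
theorem data (hν : ∀ᵐ p ∂ν, ∀ e : Step d, 0 < p.1 e)
    (hA : annealed (iidEnvironmentLaw ν) 0 (escapeEvent (B2d.dirVec u)) ≠ 0)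
    (hB : annealed (iidEnvironmentLaw ν) 0 (escapeEvent (-B2d.dirVec u)) ≠ 0) :
    ∃ c : ℝ≥0∞, c ≠ 0 ∧ c ≤ 1 ∧
      (∀ n, c ≤ U (LX ν u) ht n) ∧ (∀ n, U (LX ν u) ht n ≤ 1) ∧
      (∀ n, c ≤ U (LY ν u) ht n) ∧ (∀ n, U (LY ν u) ht n ≤ 1) ∧
      ∑' b, LX ν u b = 1 ∧ ∑' b, LX ν u b * (ht b : ℝ≥0∞) ≠ ⊤ ∧
      ∑' b, LY ν u b = 1 ∧ ∑' b, LY ν u b * (ht b : ℝ≥0∞) ≠ ⊤ := by
  classical
  obtain ⟨c, h0, h1, h2, h3⟩ := WM286.mass_pos ν hν u hA hB
  have a1 : ∀ n, c ≤ U (LX ν u) ht n := fun n => by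
    rw [U_up]; convert h2 n
  have a2 : ∀ n, U (LX ν u) ht n ≤ 1 := fun n => by
    rw [U_up]; convert WM286.sum_up_le_one ν u n
  have a3 : ∀ n, c ≤ U (LY ν u) ht n := fun n => by
    rw [U_dn]; convert h3 n
  have a4 : ∀ n, U (LY ν u) ht n ≤ 1 := fun n => by
    rw [U_dn]; convert WM286.sum_dn_le_one ν u n
  obtain ⟨b1, b2⟩ := facts (LX ν u) ht (pos_up u) c h0 h1 a1 a2
  obtain ⟨b3, b4⟩ := facts (LY ν u) ht (pos_dn u) c h0 h1 a3 a4
  exact ⟨c, h0, h1, a1, a2, a3, a4, b1, b2, b3, b4⟩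

/-! ### blocks of height one -/

lemma lev_self : lev u (stepVec u : Site d) = 1 := Flux132.lev_step_self u

lemma isUp_one : IsUp u 1 [u] := by
  refine ⟨?_, ?_⟩
  · intro y hy
    simp only [sitesL, List.mem_singleton] at hy
    subst hy
    rw [Flux132.lev_zero]; simp
  · simp only [endp, zero_add]
    rw [lev_self]; rfl

lemma isUp_two (e : Step d) (he : lev u (stepVec e : Site d) = 0) : IsUp u 1 [e, u] := by
  refine ⟨?_, ?_⟩
  · intro y hy
    simp only [sitesL, zero_add, List.mem_cons, List.not_mem_nil, or_false] at hy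
    rcases hy with rfl | rfl
    · rw [Flux132.lev_zero]; simp
    · rw [he]; simp
  · simp only [endp, zero_add]
    rw [Flux132.lev_add, he, lev_self]; simp

/-- a word of height one is a block -/
def blk {P : ℕ → List (Step d) → Prop} (hP : Fac P) (l : List (Step d)) (hl : P 1 l) : Irr P :=
  ⟨l, 1, le_rfl, hl, fun m n a b h ha hb => by
    have h1 := hP.add _ _ _ _ ha hb
    rw [← h] at h1
    have := hP.uniq _ _ _ h1 hl
    omega⟩

lemma ht_blk {P : ℕ → List (Step d) → Prop} (hP : Fac P) (l : List (Step d)) (hl : P 1 l) :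
    ht (blk hP l hl) = 1 := hP.uniq _ _ _ (ht_spec (blk hP l hl)) hl

lemma aw_ne_zero (hν : ∀ᵐ p ∂ν, ∀ e : Step d, 0 < p.1 e) (l : List (Step d))
    (hnd : (sitesL 0 l).Nodup) : aw ν l ≠ 0 := by
  obtain ⟨c, hc0, hc1, hc⟩ := FinE804.exists_c ν hν
  have := Flux566.ann_lw_ge ν (ENNReal.ofReal c) hc l 0 hnd
  intro h0
  unfold NB28.aw at h0
  rw [h0, nonpos_iff_eq_zero] at this
  exact (pow_ne_zero _ (by simpa using hc0)) this

lemma aw_one (hν : ∀ᵐ p ∂ν, ∀ e : Step d, 0 < p.1 e) (e : Step d) : aw ν [e] ≠ 0 :=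
  aw_ne_zero ν hν _ (by simp [sitesL])

lemma aw_two (hν : ∀ᵐ p ∂ν, ∀ e : Step d, 0 < p.1 e) (e f : Step d) : aw ν [e, f] ≠ 0 := by
  refine aw_ne_zero ν hν _ ?_
  have h : (stepVec e : Site d) ≠ 0 := by
    intro h
    have := Flux132.lev_step_self e
    rw [h, Flux132.lev_zero] at this
    omega
  simp [sitesL, h.symm]

lemma exists_lat (hd : 2 ≤ d) : ∃ e : Step d, lev u (stepVec e : Site d) = 0 := by
  have : ∃ j : Fin d, j ≠ u.1 := by
    by_contra hcon
    push Not at hcon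
    have h0 := hcon ⟨0, by omega⟩
    have h1 := hcon ⟨1, by omega⟩
    have := h0.trans h1.symm
    simp [Fin.ext_iff] at this
  obtain ⟨j, hj⟩ := this
  refine ⟨(j, true), ?_⟩
  unfold Flux132.lev stepVec
  simp [hj.symm]

lemma smul_ne (e : Step d) (n : ℕ) (hn : n ≠ 0) : n • (stepVec e : Site d) ≠ 0 := by
  intro h
  have h1 : lev e (n • (stepVec e : Site d)) = n := by
    have : ∀ k : ℕ, lev e (k • (stepVec e : Site d)) = k := by
      intro k
      induction k with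
      | zero => simp [Flux132.lev_zero]
      | succ k ih => rw [succ_nsmul, Flux132.lev_add, ih, Flux132.lev_step_self]; push_cast; ring
    exact this n
  rw [h, Flux132.lev_zero] at h1
  omega

/-- **point concentration for the up walker** (list read from the top) -/
theorem concX (hd : 2 ≤ d) (hν : ∀ᵐ p ∂ν, ∀ e : Step d, 0 < p.1 e)
    (hA : annealed (iidEnvironmentLaw ν) 0 (escapeEvent (B2d.dirVec u)) ≠ 0)
    (hB : annealed (iidEnvironmentLaw ν) 0 (escapeEvent (-B2d.dirVec u)) ≠ 0)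
    (η : ℝ≥0∞) (hη : η ≠ 0) :
    ∃ T, ∀ α, T ≤ α → ∀ x, Slab322.Uz (LX ν u) ht (zX u) α x ≤ η := by
  obtain ⟨c, h0, h1, a1, a2, a3, a4, b1, b2, b3, b4⟩ := data ν u hν hA hB
  obtain ⟨e, he⟩ := exists_lat u hd
  refine Slab322.conc (LX ν u) ht (zX u) (pos_up u) b1 b2
    (blk (fac_up u) [u] (isUp_one u)) (blk (fac_up u) [e, u] (isUp_two u e he))
    (ht_blk _ _ _) (ht_blk _ _ _) (aw_one ν hν u) (aw_two ν hν e u) ?_ η hη
  intro n hn
  have : zX u (blk (fac_up u) [u] (isUp_one u)) - zX u (blk (fac_up u) [e, u] (isUp_two u e he))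
      = stepVec e := by
    simp only [zX, blk, endp]
    abel
  rw [this]
  exact smul_ne e n hn

/-- **point concentration for the down walker** -/
theorem concY (hd : 2 ≤ d) (hν : ∀ᵐ p ∂ν, ∀ e : Step d, 0 < p.1 e)
    (hA : annealed (iidEnvironmentLaw ν) 0 (escapeEvent (B2d.dirVec u)) ≠ 0)
    (hB : annealed (iidEnvironmentLaw ν) 0 (escapeEvent (-B2d.dirVec u)) ≠ 0)
    (η : ℝ≥0∞) (hη : η ≠ 0) :
    ∃ T, ∀ α, T ≤ α → ∀ x, Slab322.Uz (LY ν u) ht (zY u) α x ≤ η := by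
  obtain ⟨c, h0, h1, a1, a2, a3, a4, b1, b2, b3, b4⟩ := data ν u hν hA hB
  obtain ⟨e, he⟩ := exists_lat u hd
  have he' : lev (opp u) (stepVec e : Site d) = 0 := by rw [Fact346.lev_opp, he, neg_zero]
  have i1 : IsDn u 1 [opp u] := (isDn_iff u 1 _).2 (isUp_one (opp u))
  have i2 : IsDn u 1 [e, opp u] := (isDn_iff u 1 _).2 (isUp_two (opp u) e he')
  refine Slab322.conc (LY ν u) ht (zY u) (pos_dn u) b3 b4
    (blk (fac_dn u) [e, opp u] i2) (blk (fac_dn u) [opp u] i1)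
    (ht_blk _ _ _) (ht_blk _ _ _) (aw_two ν hν e (opp u)) (aw_one ν hν (opp u)) ?_ η hη
  intro n hn
  have : zY u (blk (fac_dn u) [e, opp u] i2) - zY u (blk (fac_dn u) [opp u] i1) = stepVec e := by
    simp only [zY, blk, endp]
    abel
  rw [this]
  exact smul_ne e n hn

/-! ### sites of the blocks (12's letters) -/

lemma finX (b : Irr (IsUp u)) :
    (Bind12.sX (Subtype.val : Irr (IsUp u) → List (Step d)) u b).Finite := by
  refine Set.Finite.subset (Set.Finite.image (fun y : Site d => (y, (-lev u y).toNat))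
    (List.finite_toSet (sitesL (-endp 0 b.1) b.1))) ?_
  rintro ⟨y, k⟩ ⟨h1, h2⟩
  simp only at h1 h2
  exact ⟨y, h1, by simp [h2]⟩

lemma finY (b : Irr (IsDn u)) :
    (Bind12.sY (Subtype.val : Irr (IsDn u) → List (Step d)) u b).Finite := by
  refine Set.Finite.subset (Set.Finite.image (fun y : Site d => (y, (-lev u y).toNat))
    (List.finite_toSet (sitesL (stepVec (opp u)) b.1))) ?_
  rintro ⟨y, k⟩ ⟨h1, h2⟩
  simp only at h1 h2
  exact ⟨y, h1, by simp [h2]⟩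

/-- depths of the sites of an up block: `1 ≤ k ≤ ht b` -/
lemma depX (b : Irr (IsUp u)) (y : Site d) (k : ℕ)
    (h : (y, k) ∈ Bind12.sX (Subtype.val : Irr (IsUp u) → List (Step d)) u b) :
    1 ≤ k ∧ k ≤ ht b := by
  obtain ⟨h1, h2⟩ := h
  simp only at h1 h2
  have hb := ht_spec b
  have h3 := ((up_from u (ht b) b.1 (-endp 0 b.1)).1 hb).1 y h1
  rw [Flux132.lev_neg, hb.2] at h3
  omega

/-- depths of the sites of a down block: `1 ≤ k ≤ ht b` -/
lemma depY (b : Irr (IsDn u)) (y : Site d) (k : ℕ)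
    (h : (y, k) ∈ Bind12.sY (Subtype.val : Irr (IsDn u) → List (Step d)) u b) :
    1 ≤ k ∧ k ≤ ht b := by
  obtain ⟨h1, h2⟩ := h
  simp only at h1 h2
  have hb := (isDn_iff u _ _).1 (ht_spec b)
  have h3 := ((up_from (opp u) (ht b) b.1 (stepVec (opp u))).1 hb).1 y h1
  rw [Fact346.lev_opp, Fact346.lev_opp, Bind12.lev_opp] at h3
  omega

end Crest.Agent.R154.SWData173
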