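import Crest.Agent.R154.Seg_21
import Crest.Agent.R154.Coll_804
import Crest.Agent.R154.B6End_424

/-! Row 154, TILE_RUN, leaf T4 (helper21): (K) in summed form ⟹ (CE).  If the no-contact
probabilities lose `κ' j` in the octave `j` and `∑ κ' j ≤ N ζ` over the octaves `[k, i)`, the
expected number of contact unit windows (unit `2^k`) up to height `2^i` is `≤ 2^(3N+4)`. -/

set_option autoImplicit false
set_option linter.unusedSectionVars false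
set_option linter.deprecated false

open MeasureTheory Set Filter Topology
open scoped BigOperators ENNReal

namespace Crest.Agent.R154.Seg21

open Crest.Agent.R154.B6_833 Crest.Agent.R154.B6_833.PairSys Crest.Agent.R154.Coll21

section abs

variable {S Ω : Type*} [MeasurableSpace S] [mΩ : MeasurableSpace Ω] {A : PairSys S Ω}

/-- expected number of contact unit windows up to `K` units is at most `g` -/
def Gle (A : PairSys S Ω) (n K : ℕ) (g : ℝ) : Prop :=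
  ∀ s, ∀ r < n, ∑ t ∈ Finset.Icc 1 K, sg A n (t * n - r) s ≤ g

variable [DiscreteMeasurableSpace S]
variable {a : ℕ} {c₁ cₑ : ℝ} {β : ℕ → ℝ} {h : ℕ → ℝ} {p : ℝ} {Far : ℕ → Set S} {χ : ℕ → S → ℝ}

lemma Gle.step (H : A.Hyp a c₁ cₑ β h p Far χ) {n T K : ℕ} (R : RS A n) (hn : 0 < n) {g : ℝ}
    (h0 : 0 ≤ g) (hg : Gle A n K g)
    (hε : ∀ s, (A.P s).real (A.LateG (K * n) (T * n)) ≤ c₁ / 4) : Gle A n T (2 * (g + 2) - 2) := by
  intro s r hr
  have := seg H R hn h0 hg hε s r hr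
  linarith

lemma Gle.mono {n K : ℕ} {g g' : ℝ} (h : Gle A n K g) (hg : g ≤ g') : Gle A n K g' :=
  fun s r hr => (h s r hr).trans hg

/-- telescoping -/
lemma b_tele {i₀ i : ℕ} (hi : i₀ ≤ i) {κ' : ℕ → ℝ} {s : S}
    (hκ : ∀ j, i₀ ≤ j → j < i → A.b (2^j) s - A.b (2^(j+1)) s ≤ κ' j) :
    A.b (2^i₀) s - A.b (2^i) s ≤ ∑ j ∈ Finset.Ico i₀ i, κ' j := by
  induction i, hi using Nat.le_induction with
  | base => simp
  | succ i hi ih =>
    rw [Finset.sum_Ico_succ_top hi]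
    have h1 := ih fun j h1 h2 => hκ j h1 (by omega)
    have h2 := hκ i hi (by omega)
    linarith

/-- **(K) summed ⟹ (CE), abstract.** -/
theorem seg_sum (H : A.Hyp a c₁ cₑ β h p Far χ) : ∃ ζ > (0:ℝ), ∃ k₀ : ℕ, ∀ k ≥ k₀,
    RS A (2^k) → ∀ N : ℕ, ∀ i₀ i : ℕ, k ≤ i₀ → i₀ ≤ i → ∀ κ' : ℕ → ℝ, (∀ j, 0 ≤ κ' j) →
    (∀ j, i₀ ≤ j → j < i → ∀ s ∈ A.Dist, A.b (2^j) s - A.b (2^(j+1)) s ≤ κ' j) →
    (∑ j ∈ Finset.Ico i₀ i, κ' j ≤ N * ζ) → ∀ g : ℝ, 0 ≤ g → Gle A (2^k) (2^(i₀-k)) g →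
    Gle A (2^k) (2^(i-k)) (2^(3*N+2) * (g + 2) - 2) := by
  have hc := H.c₁pos
  obtain ⟨ζ, hζ, q₀, hq₀⟩ := late_run H (c₁/4) (by positivity)
  obtain ⟨n₀, hn₀⟩ := lateG_lim H 3 (c₁/4) (by positivity)
  refine ⟨ζ, hζ, max q₀ n₀, fun k hk R N => ?_⟩
  have hkq : q₀ ≤ k := (le_max_left _ _).trans hk
  have hkn : n₀ ≤ k := (le_max_right _ _).trans hk
  have hn : 0 < 2^k := Nat.two_pow_pos k
  have hpow : ∀ j, k ≤ j → 2^(j-k) * 2^k = 2^j := fun j hj => by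
    rw [← pow_add, Nat.sub_add_cancel hj]
  have hlt : ∀ j, k ≤ j → k ≤ 2^j := fun j hj => hj.trans Nat.lt_two_pow_self.le
  -- short windows
  have hshort : ∀ i₀ i, k ≤ i₀ → i₀ ≤ i → i ≤ i₀ + 3 → ∀ g : ℝ, 0 ≤ g →
      Gle A (2^k) (2^(i₀-k)) g → Gle A (2^k) (2^(i-k)) (2 * (g + 2) - 2) := by
    intro i₀ i h1 h2 h3 g hg hG
    refine hG.step H R hn hg fun s => ?_
    rw [hpow i₀ h1, hpow i (h1.trans h2)]
    have e : 2^i₀ + (2^i - 2^i₀) = 2^i := by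
      have : 2^i₀ ≤ 2^i := Nat.pow_le_pow_right (by norm_num) h2
      omega
    have h4 : 2^i ≤ 2^3 * 2^i₀ := by
      rw [← pow_add]; exact Nat.pow_le_pow_right (by norm_num) (by omega)
    have := hn₀ (2^i₀) (hkn.trans (hlt i₀ h1)) (2^i - 2^i₀) (by rw [e]; exact h4) s
    rwa [e] at this
  -- windows with small total loss
  have hwin : ∀ i₀ i, k ≤ i₀ → i₀ ≤ i → ∀ κ' : ℕ → ℝ, (∀ j, 0 ≤ κ' j) →
      (∀ j, i₀ ≤ j → j < i → ∀ s ∈ A.Dist, A.b (2^j) s - A.b (2^(j+1)) s ≤ κ' j) →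
      (∑ j ∈ Finset.Ico i₀ i, κ' j ≤ ζ) → ∀ g : ℝ, 0 ≤ g → Gle A (2^k) (2^(i₀-k)) g →
      Gle A (2^k) (2^(i-k)) (4 * (g + 2) - 2) := by
    intro i₀ i h1 h2 κ' hκ0 hκ hsum g hg hG
    rcases le_or_gt i (i₀ + 3) with h3 | h3
    · exact (hshort i₀ i h1 h2 h3 g hg hG).mono (by linarith)
    · have hG3 := hshort i₀ (i₀+3) h1 (by omega) le_rfl g hg hG
      have hG4 := hG3.step (T := 2^(i-k)) H R hn (by linarith) (fun s => by
        rw [hpow (i₀+3) (by omega), hpow i (h1.trans h2)]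
        have e : 2^(i₀+3) = 8 * 2^i₀ := by rw [pow_add]; ring
        rw [e]
        refine hq₀ (2^i₀) (hkq.trans (hlt i₀ h1)) (2^i) (fun s' hs' => ?_) s
        exact (b_tele h2 fun j h4 h5 => hκ j h4 h5 s' hs').trans hsum)
      exact hG4.mono (by linarith)
  induction N with
  | zero =>
    intro i₀ i h1 h2 κ' hκ0 hκ hsum g hg hG
    have := hwin i₀ i h1 h2 κ' hκ0 hκ (by
      refine hsum.trans ?_
      simp only [Nat.cast_zero, zero_mul]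
      exact hζ.le) g hg hG
    exact this.mono (by norm_num)
  | succ N ih =>
    intro i₀ i h1 h2 κ' hκ0 hκ hsum g hg hG
    by_cases hs : ∑ j ∈ Finset.Ico i₀ i, κ' j ≤ ζ
    · have := hwin i₀ i h1 h2 κ' hκ0 hκ hs g hg hG
      refine this.mono ?_
      have h3 : (4:ℝ) ≤ 2^(3*(N+1)+2) := by
        have : (2:ℝ)^2 ≤ 2^(3*(N+1)+2) := pow_le_pow_right₀ (by norm_num) (by omega)
        linarith
      nlinarith
    · push Not at hs
      have hex : ∃ j, i₀ ≤ j ∧ j ≤ i ∧ ζ < ∑ l ∈ Finset.Ico i₀ j, κ' l := ⟨i, h2, le_rfl, hs⟩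
      classical
      obtain ⟨f1, f2, f3⟩ := Nat.find_spec hex
      set j := Nat.find hex with hj
      have hji : i₀ < j := by
        rcases f1.eq_or_lt with h | h
        · exfalso
          rw [← h] at f3
          simp at f3
          linarith
        · exact h
      obtain ⟨i', hi'⟩ : ∃ i', j = i' + 1 := ⟨j - 1, by omega⟩
      have g1 : ∑ l ∈ Finset.Ico i₀ i', κ' l ≤ ζ := by
        by_contra hcon
        exact Nat.find_min hex (m := i') (by omega) ⟨by omega, by omega, not_le.1 hcon⟩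
      have G1 := hwin i₀ i' h1 (by omega) κ' hκ0 (fun l h3 h4 => hκ l h3 (by omega)) g1 g hg hG
      have G2 := hshort i' (i'+1) (by omega) (by omega) (by omega) _ (by linarith) G1
      rw [← hi'] at G2
      have hrest : ∑ l ∈ Finset.Ico j i, κ' l ≤ N * ζ := by
        have e := Finset.sum_Ico_consecutive κ' f1 f2
        push_cast at hsum
        linarith
      have G3 := ih j i (by omega) f2 κ' hκ0 (fun l h3 h4 => hκ l (by omega) h4) hrest _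
        (by linarith) G2
      refine G3.mono (le_of_eq ?_)
      ring

/-- **(K) summed ⟹ (CE), abstract, from the unit on.** -/
theorem seg_sum' (H : A.Hyp a c₁ cₑ β h p Far χ) : ∃ ζ > (0:ℝ), ∃ k₀ : ℕ, ∀ k ≥ k₀,
    RS A (2^k) → ∀ N : ℕ, ∀ i : ℕ, k ≤ i → ∀ κ' : ℕ → ℝ, (∀ j, 0 ≤ κ' j) →
    (∀ j, k ≤ j → j < i → ∀ s ∈ A.Dist, A.b (2^j) s - A.b (2^(j+1)) s ≤ κ' j) →
    (∑ j ∈ Finset.Ico k i, κ' j ≤ N * ζ) → Gle A (2^k) (2^(i-k)) (2^(3*N+4)) := by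
  obtain ⟨ζ, hζ, k₀, hk₀⟩ := seg_sum H
  refine ⟨ζ, hζ, k₀, fun k hk R N i hki κ' hκ0 hκ hsum => ?_⟩
  have h1 : Gle A (2^k) (2^(k-k)) 1 := by
    intro s r _
    have := seg_triv (A := A) (2^k) (2^(k-k)) s r
    rw [Nat.sub_self, pow_zero] at this ⊢
    simpa using this
  have h2 := hk₀ k hk R N k i le_rfl hki κ' hκ0 hκ hsum 1 zero_le_one h1
  refine h2.mono ?_
  have h3 : (0:ℝ) < 2^(3*N+2) := by positivity
  have e : (2:ℝ)^(3*N+4) = 2^(3*N+2) * 4 := by rw [pow_add, pow_add]; ring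
  rw [e]
  linarith

end abs

section inst

open ProbabilityTheory Crest.ProbabilityR.RandomEnvironment Crest.Agent.R154.Q561
open Crest.Agent.R154.Ren263 Crest.Agent.R154.Mk561 Crest.Agent.R154.B6I
open Crest.Agent.R154.RatioR872 (bc)
open Crest.Agent.R154.Flux132 (lev)

variable {d : ℕ} {u : Step d} {R : ℕ}
variable {κ : ℝ} {Q : Measure (Environment d)} [IsProbabilityMeasure Q]

/-- no-contact loss of one octave, independent pair (`b` of 833's system) -/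
lemma b_PIm (hR : IsFiniteRangeDependent Q R) (m : ℕ) (s : SP u) :
    (sys u R κ Q).b m s = (PIm κ Q s.1.1 s.1.2).real {p | ((s, p) : Om u) ∈ EN u R m m} :=
  b_eq hR m s

/-- **(CE) on a frame from (K) in summed form.** `N = ⌈(1/ζ) Σ κ'⌉`; `b m s = P_ind(both natural up
to m, no contact up to stage m)`. -/
theorem ce_sum (F : Bind263.Frame Q κ R) (hd : 3 ≤ d)
    (hA : annealedProb Q 0 (escapeEvent (B2d.dirVec u)) ≠ 0) (hc : KB424.Half κ Q) :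
    ∃ ζ > (0:ℝ), ∃ k₀ : ℕ, ∀ k ≥ k₀, ∀ N i : ℕ, k ≤ i → ∀ κ' : ℕ → ℝ, (∀ j, 0 ≤ κ' j) →
    (∀ j, k ≤ j → j < i → ∀ s ∈ (sys u R κ Q).Dist,
      (sys u R κ Q).b (2^j) s - (sys u R κ Q).b (2^(j+1)) s ≤ κ' j) →
    (∑ j ∈ Finset.Ico k i, κ' j ≤ N * ζ) → ∀ s : SP u, ∀ r < 2^k,
    ∑ t ∈ Finset.Icc 1 (2^(i-k)), PSm κ Q s.1.1 s.1.2
      (bc u R ((t - 1) * 2^k - r) (t * 2^k - r) s) ≤ ENNReal.ofReal (2^(3*N+4)) := by
  obtain ⟨c₁, cₑ, H⟩ := B6I.hyp_of_frame F u hA (moves_of_two_le F (by omega) u)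
    (KB424.kb F hd hA hc)
  obtain ⟨ζ, hζ, k₀, hk₀⟩ := seg_sum' H
  refine ⟨ζ, hζ, k₀, fun k hk N i hki κ' hκ0 hκ hsum s r hr => ?_⟩
  have h1 := hk₀ k hk (rs_sys F.fin (2^k)) N i hki κ' hκ0 hκ hsum s r hr
  refine le_trans (le_of_eq ?_) (ENNReal.ofReal_le_ofReal h1)
  rw [ENNReal.ofReal_sum_of_nonneg fun _ _ => sg_nonneg _ _ _]
  refine Finset.sum_congr rfl fun t ht => ?_
  rw [sg_eq, win_eq (Finset.mem_Icc.1 ht).1, ofReal_measureReal]

end inst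

end Crest.Agent.R154.Seg21
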