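import Crest.Agent.R154.Coll_21
import Crest.Agent.R154.B6Hyp_833
import Crest.Agent.R154.KerPair_872

/-! Row 154, TILE_RUN, leaf T4 part (L), contact form (helper21): the expected number of unit
windows with a new contact of a natural same-environment pair is bounded as soon as contacts above
`K` units are rare.  Abstract system `B6_833.PairSys`, then 833's pair system `B6I.sys`. -/

set_option autoImplicit false
set_option linter.unusedSectionVars false
set_option linter.deprecated false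

open MeasureTheory Set Filter Topology
open scoped BigOperators ENNReal

namespace Crest.Agent.R154.Seg21

open Crest.Agent.R154.B6_833 Crest.Agent.R154.B6_833.PairSys Crest.Agent.R154.Coll21

section abs

variable {S Ω : Type*} [MeasurableSpace S] [mΩ : MeasurableSpace Ω]

/-- a new contact in a stage of `(i, k]` -/
def ctc (A : PairSys S Ω) (i k : ℕ) : Set Ω := {ω | ∃ l, i < l ∧ l ≤ k ∧ ω ∈ A.cs l}

/-- natural up to `m`, a new contact in the last `n` stages -/
noncomputable def sg (A : PairSys S Ω) (n m : ℕ) (s : S) : ℝ :=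
  (A.P s).real (A.N 0 m ∩ ctc A (m - n) m)

/-- restart inequality for `sg` -/
structure RS (A : PairSys S Ω) (n : ℕ) : Prop where
  refl : ∀ j, A.al j ⊆ A.N j j
  rs : ∀ s j m, j + n ≤ m → ∀ B, MeasurableSet[A.F j] B → B ⊆ A.al j →
    (A.P s).real (B ∩ (A.N j m ∩ ctc A (m - n) m)) ≤ ∫ ω in B, sg A n (m - j) (A.st j ω) ∂(A.P s)

variable {A : PairSys S Ω}

lemma ctc_compl (i k : ℕ) : ctc A i k = (A.nocs i k)ᶜ := by
  ext ω
  simp only [ctc, nocs, mem_compl_iff, mem_setOf_eq]
  push Not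
  rfl

lemma sg_nonneg (n m : ℕ) (s : S) : 0 ≤ sg A n m s := measureReal_nonneg
lemma sg_le_one (n m : ℕ) (s : S) : sg A n m s ≤ 1 := by
  have := A.prob s
  exact measureReal_le_one

variable [DiscreteMeasurableSpace S]
variable {a : ℕ} {c₁ cₑ : ℝ} {β : ℕ → ℝ} {h : ℕ → ℝ} {p : ℝ} {Far : ℕ → Set S} {χ : ℕ → S → ℝ}

/-- **one step of the recursion.** -/
lemma seg_step (H : A.Hyp a c₁ cₑ β h p Far χ) {n T K : ℕ} (R : RS A n) (hn : 0 < n) {ε G₀ G : ℝ}
    (hG₀ : ∀ s, ∀ r < n, ∑ t ∈ Finset.Icc 1 K, sg A n (t * n - r) s ≤ G₀)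
    (hε : ∀ s, (A.P s).real (A.LateG (K * n) (T * n)) ≤ ε) (hG0 : 0 ≤ G)
    (hG : ∀ s, ∀ r < n, ∑ t ∈ Finset.Icc 1 T, sg A n (t * n - r) s ≤ G)
    (s : S) (r : ℕ) (hr : r < n) :
    ∑ t ∈ Finset.Icc 1 T, sg A n (t * n - r) s ≤ G₀ + 1 + (G + 2) * (ε / c₁) := by
  classical
  have := A.prob s
  have hc := H.c₁pos
  set M := K * n with hM
  set L := T * n with hL
  set μ := A.P s with hμ
  have hqL : ∀ t ∈ Finset.Icc 1 T, t * n - r ≤ L := fun t ht => by
    have h1 := (Finset.mem_Icc.1 ht).2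
    have : t * n ≤ T * n := Nat.mul_le_mul_right n h1
    omega
  -- per level
  have h1 : ∀ t ∈ Finset.Icc 1 T, sg A n (t * n - r) s ≤
      (if t ≤ K then sg A n (t * n - r) s else 0) + ((if t = K + 1 then 1 else 0) +
      (∑ j ∈ Finset.Ioc M L, (if j ≤ t * n - r ∧ r ≤ t * n then
        ∫ ω in D2 A M j, sg A n (t * n - r - j) (A.st j ω) ∂μ else 0) +
      ∑ j ∈ Finset.Ioc M L, (if j ≤ t * n - r ∧ t * n - r < j + n then
        μ.real (D2 A M j) else 0))) := by
    intro t ht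
    have ht1 := Finset.mem_Icc.1 ht
    set q := t * n - r with hq
    have hq1 : q ≤ L := hqL t ht
    have hrt : r ≤ t * n := by
      have : 1 * n ≤ t * n := Nat.mul_le_mul_right n ht1.1
      omega
    have hnn1 : 0 ≤ ∑ j ∈ Finset.Ioc M L, (if j ≤ q ∧ r ≤ t * n then
        ∫ ω in D2 A M j, sg A n (q - j) (A.st j ω) ∂μ else 0) := by
      refine Finset.sum_nonneg fun j _ => ?_
      split_ifs
      · exact integral_nonneg fun _ => sg_nonneg _ _ _
      · exact le_rfl
    have hnn2 : 0 ≤ ∑ j ∈ Finset.Ioc M L, (if j ≤ q ∧ q < j + n then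
        μ.real (D2 A M j) else 0) := by
      refine Finset.sum_nonneg fun j _ => ?_
      split_ifs
      · exact measureReal_nonneg
      · exact le_rfl
    have hle1 := sg_le_one (A := A) n q s
    have hge0 := sg_nonneg (A := A) n q s
    by_cases htK : t ≤ K
    · rw [if_pos htK]
      split_ifs
      · linarith
      · linarith
    rw [if_neg htK, zero_add]
    by_cases htK1 : t = K + 1
    · rw [if_pos htK1]
      linarith
    rw [if_neg htK1, zero_add]
    have hMq : M + n < q + 1 ∧ M < q - n + 1 := by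
      have h5 : (K + 2) * n ≤ t * n := Nat.mul_le_mul_right n (by omega)
      have e : (K + 2) * n = M + 2 * n := by rw [hM]; ring
      omega
    have hcov : A.N 0 q ∩ ctc A (q - n) q ⊆
        ⋃ j ∈ Finset.Ioc M q, (D2 A M j ∩ (A.N j q ∩ ctc A (q - n) q)) := by
      rintro ω ⟨hN, hC⟩
      have hcs : ω ∉ A.nocs M q := by
        obtain ⟨l, h1, h2, h3⟩ := hC
        exact fun hcon => hcon l (by omega) h2 h3
      obtain ⟨j, h1, h2, h3, h4⟩ := cov2 R.refl hN hcs
      exact mem_iUnion₂.2 ⟨j, Finset.mem_Ioc.2 ⟨h1, h2⟩, h3, h4, hC⟩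
    refine (measureReal_mono hcov (measure_ne_top _ _)).trans ?_
    refine (real_iUnion_le _ _).trans ?_
    have hsub : Finset.Ioc M q ⊆ Finset.Ioc M L := Finset.Ioc_subset_Ioc le_rfl hq1
    rw [← Finset.sum_add_distrib]
    calc ∑ j ∈ Finset.Ioc M q, μ.real (D2 A M j ∩ (A.N j q ∩ ctc A (q - n) q))
        ≤ ∑ j ∈ Finset.Ioc M q, ((if j ≤ q ∧ r ≤ t * n then
          ∫ ω in D2 A M j, sg A n (q - j) (A.st j ω) ∂μ else 0) +
          (if j ≤ q ∧ q < j + n then μ.real (D2 A M j) else 0)) := by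
          refine Finset.sum_le_sum fun j hj => ?_
          have hj' := (Finset.mem_Ioc.1 hj).2
          rw [if_pos ⟨hj', hrt⟩]
          have hnn : 0 ≤ ∫ ω in D2 A M j, sg A n (q - j) (A.st j ω) ∂μ :=
            integral_nonneg fun _ => sg_nonneg _ _ _
          by_cases hjn : q < j + n
          · rw [if_pos ⟨hj', hjn⟩]
            have : μ.real (D2 A M j ∩ (A.N j q ∩ ctc A (q - n) q)) ≤ μ.real (D2 A M j) :=
              measureReal_mono inter_subset_left
            linarith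
          · rw [if_neg (by tauto), add_zero]
            exact R.rs s j q (by omega) _ D2_meas D2_al
      _ ≤ _ := by
          refine Finset.sum_le_sum_of_subset_of_nonneg hsub fun j _ _ => ?_
          refine add_nonneg ?_ ?_
          · split_ifs
            · exact integral_nonneg fun _ => sg_nonneg _ _ _
            · exact le_rfl
          · split_ifs
            · exact measureReal_nonneg
            · exact le_rfl
  refine (Finset.sum_le_sum h1).trans ?_
  rw [Finset.sum_add_distrib, Finset.sum_add_distrib, Finset.sum_add_distrib,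
    Finset.sum_comm (γ := ℕ) (s := Finset.Icc 1 T) (t := Finset.Ioc M L),
    Finset.sum_comm (γ := ℕ) (s := Finset.Icc 1 T) (t := Finset.Ioc M L)]
  have h2 : ∑ t ∈ Finset.Icc 1 T, (if t ≤ K then sg A n (t * n - r) s else 0) ≤ G₀ := by
    rw [← Finset.sum_filter]
    refine le_trans ?_ (hG₀ s r hr)
    refine Finset.sum_le_sum_of_subset_of_nonneg ?_ fun _ _ _ => sg_nonneg _ _ _
    intro t ht
    rw [Finset.mem_filter, Finset.mem_Icc] at ht
    exact Finset.mem_Icc.2 ⟨ht.1.1, ht.2⟩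
  have h2' : ∑ t ∈ Finset.Icc 1 T, (if t = K + 1 then (1:ℝ) else 0) ≤ 1 := by
    rw [Finset.sum_ite_eq']
    split_ifs
    · exact le_rfl
    · exact zero_le_one
  have e3 := (sum_D2 H s M L).trans (div_le_div_of_nonneg_right (hε s) hc.le)
  have h4 : ∑ j ∈ Finset.Ioc M L, ∑ t ∈ Finset.Icc 1 T, (if j ≤ t * n - r ∧ r ≤ t * n then
        ∫ ω in D2 A M j, sg A n (t * n - r - j) (A.st j ω) ∂μ else 0) ≤
        (G + 1) * (ε / c₁) := by
    have e1 : ∀ j ∈ Finset.Ioc M L, ∑ t ∈ Finset.Icc 1 T, (if j ≤ t * n - r ∧ r ≤ t * n then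
        ∫ ω in D2 A M j, sg A n (t * n - r - j) (A.st j ω) ∂μ else 0)
        ≤ (G + 1) * μ.real (D2 A M j) := by
      intro j hj
      rw [← Finset.sum_filter, ← integral_finsetSum _ fun t _ =>
        (integ_st s j (sg A n (t * n - r - j)) 1 fun x => by
          rw [abs_of_nonneg (sg_nonneg _ _ _)]; exact sg_le_one _ _ _).integrableOn]
      have e2 : (G + 1) * μ.real (D2 A M j) = ∫ ω in D2 A M j, (G + 1) ∂μ := by
        rw [setIntegral_const, smul_eq_mul, mul_comm]
      rw [e2]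
      refine setIntegral_mono_on (integrable_finsetSum _ fun t _ =>
        (integ_st s j (sg A n (t * n - r - j)) 1 fun x => by
          rw [abs_of_nonneg (sg_nonneg _ _ _)]; exact sg_le_one _ _ _).integrableOn)
        (integrable_const _).integrableOn (meas j D2_meas) ?_
      intro ω _
      exact reindex (f := fun m => sg A n m (A.st j ω)) (fun _ => sg_nonneg _ _ _)
        (sg_le_one _ _ _) hn (hG _)
    refine (Finset.sum_le_sum e1).trans ?_
    rw [← Finset.mul_sum]
    exact mul_le_mul_of_nonneg_left e3 (by linarith)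
  have h5 : ∑ j ∈ Finset.Ioc M L, ∑ t ∈ Finset.Icc 1 T,
      (if j ≤ t * n - r ∧ t * n - r < j + n then μ.real (D2 A M j) else 0) ≤ ε / c₁ := by
    refine le_trans (Finset.sum_le_sum fun j hj => ?_) e3
    rw [← Finset.sum_filter, Finset.sum_const, nsmul_eq_mul]
    have hcard : ((Finset.Icc 1 T).filter
        (fun t => j ≤ t * n - r ∧ t * n - r < j + n)).card ≤ 1 := by
      rw [Finset.card_le_one]
      intro t ht t' ht'
      rw [Finset.mem_filter, Finset.mem_Icc] at ht ht'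
      have hj' := (Finset.mem_Ioc.1 hj).1
      by_contra hne
      rcases lt_or_gt_of_ne hne with hlt | hlt
      · have h7 : (t + 1) * n ≤ t' * n := Nat.mul_le_mul_right n hlt
        have e : (t + 1) * n = t * n + n := by ring
        omega
      · have h7 : (t' + 1) * n ≤ t * n := Nat.mul_le_mul_right n hlt
        have e : (t' + 1) * n = t' * n + n := by ring
        omega
    have h8 : (((Finset.Icc 1 T).filter
        (fun t => j ≤ t * n - r ∧ t * n - r < j + n)).card : ℝ) ≤ 1 := by exact_mod_cast hcard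
    calc _ ≤ 1 * μ.real (D2 A M j) := mul_le_mul_of_nonneg_right h8 measureReal_nonneg
      _ = _ := one_mul _
  nlinarith

/-- **(CE), abstract**: number of unit windows with a new contact, sup outside the sum. -/
theorem seg (H : A.Hyp a c₁ cₑ β h p Far χ) {n T K : ℕ} (R : RS A n) (hn : 0 < n) {G₀ : ℝ}
    (h0 : 0 ≤ G₀) (hG₀ : ∀ s, ∀ r < n, ∑ t ∈ Finset.Icc 1 K, sg A n (t * n - r) s ≤ G₀)
    (hε : ∀ s, (A.P s).real (A.LateG (K * n) (T * n)) ≤ c₁ / 4) :
    ∀ s, ∀ r < n, ∑ t ∈ Finset.Icc 1 T, sg A n (t * n - r) s ≤ 2 * (G₀ + 1) := by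
  classical
  have hc := H.c₁pos
  set X : Set ℝ := {x | ∃ s : S, ∃ r < n, x = ∑ t ∈ Finset.Icc 1 T, sg A n (t * n - r) s} with hX
  have hbd : BddAbove X := by
    refine ⟨T, ?_⟩
    rintro x ⟨s, r, _, rfl⟩
    calc ∑ t ∈ Finset.Icc 1 T, sg A n (t * n - r) s ≤ ∑ t ∈ Finset.Icc 1 T, (1:ℝ) :=
          Finset.sum_le_sum fun t _ => sg_le_one _ _ _
      _ = T := by simp
  set G := sSup X with hG
  have hle : ∀ s, ∀ r < n, ∑ t ∈ Finset.Icc 1 T, sg A n (t * n - r) s ≤ G :=
    fun s r hr => le_csSup hbd ⟨s, r, hr, rfl⟩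
  intro s r hr
  have hG0 : 0 ≤ G := (Finset.sum_nonneg fun t _ => sg_nonneg _ _ _).trans (hle s r hr)
  have hne : X.Nonempty := ⟨_, s, r, hr, rfl⟩
  have hstep : G ≤ G₀ + 1 + (G + 2) * ((c₁ / 4) / c₁) := by
    refine csSup_le hne ?_
    rintro x ⟨s', r', hr', rfl⟩
    exact seg_step H R hn hG₀ hε hG0 hle s' r' hr'
  have e1 : (c₁ / 4) / c₁ = 1 / 4 := by field_simp
  rw [e1] at hstep
  refine (hle s r hr).trans ?_
  nlinarith

/-- trivial start -/
lemma seg_triv (n K : ℕ) (s : S) (r : ℕ) : ∑ t ∈ Finset.Icc 1 K, sg A n (t * n - r) s ≤ K := by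
  calc ∑ t ∈ Finset.Icc 1 K, sg A n (t * n - r) s ≤ ∑ t ∈ Finset.Icc 1 K, (1:ℝ) :=
        Finset.sum_le_sum fun t _ => sg_le_one _ _ _
    _ = K := by simp

/-- **(CE) with several late windows**: `C_coll ≤ 2^m (K 0 + 2)` if the contacts in each window
`(K i, K (i+1)]` (units) have probability `≤ c₁/4`, `i < m`. -/
theorem seg_chain (H : A.Hyp a c₁ cₑ β h p Far χ) {n : ℕ} (R : RS A n) (hn : 0 < n) (K : ℕ → ℕ)
    (m : ℕ) (hε : ∀ i < m, ∀ s, (A.P s).real (A.LateG (K i * n) (K (i + 1) * n)) ≤ c₁ / 4) :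
    ∀ s, ∀ r < n, ∑ t ∈ Finset.Icc 1 (K m), sg A n (t * n - r) s ≤ 2 ^ m * (K 0 + 2) := by
  have key : ∀ i ≤ m, ∀ s, ∀ r < n,
      ∑ t ∈ Finset.Icc 1 (K i), sg A n (t * n - r) s ≤ 2 ^ i * ((K 0 : ℝ) + 2) - 2 := by
    intro i
    induction i with
    | zero =>
      intro _ s r _
      have := seg_triv (A := A) n (K 0) s r
      linarith
    | succ i ih =>
      intro hi s r hr
      have h0 : (0:ℝ) ≤ 2 ^ i * ((K 0 : ℝ) + 2) - 2 := by
        have h1 : (1:ℝ) ≤ 2 ^ i := one_le_pow₀ (by norm_num)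
        have h2 : (0:ℝ) ≤ K 0 := Nat.cast_nonneg _
        nlinarith
      have := seg H R hn h0 (ih (by omega)) (hε i (by omega)) s r hr
      rw [pow_succ]
      linarith
  intro s r hr
  have := key m le_rfl s r hr
  linarith

end abs

/-! ### the pair system -/

section inst

open ProbabilityTheory Crest.ProbabilityR.RandomEnvironment Crest.Agent.R154.Q561
open Crest.Agent.R154.Ren263 Crest.Agent.R154.Mk561 Crest.Agent.R154.B6I
open Crest.Agent.R154.RatioR872 (bc Kc energy_le)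
open Crest.Agent.R154.Flux132 (lev)

local notation "shf" => Crest.Agent.R154.Ren263.shift

variable {d : ℕ} {u : Step d} {R : ℕ}
variable {κ : ℝ} {Q : Measure (Environment d)} [IsProbabilityMeasure Q]

/-- restart of `NoC` from a natural level -/
lemma noC_shift {j i m : ℕ} (hji : j ≤ i) (him : i ≤ m) (s : SP u) {p : PP d} (h : Al u j p)
    (hN : Nt u R j m p.1 ∧ Nt u R j m p.2) :
    NoC R i m ((s, p) : Om u) ↔ NoC R (i - j) (m - j) ((tip j s p, th u j p) : Om u) := by
  obtain ⟨⟨a, ha⟩, ⟨b, hb⟩⟩ := h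
  have hjm := hji.trans him
  rw [th_eq ha hb]
  have htip := tip_val s ha hb
  have hctc : ∀ i i', ct R (tip j s p) (shf a p.1, shf b p.2) i i' ↔ ct R s p (a+i) (b+i') := by
    intro i i'
    unfold ct
    rw [htip]
    simp only [pos_shift]
    simp only [Ren263.shift]
  constructor
  · intro H i1 i2 f1 f2 f3
    simp only at f1 f2
    rw [bf_shift_iff hjm ha] at f1
    rw [bf_shift_iff hjm hb] at f2
    rw [hctc] at f3
    obtain ⟨g1, g2⟩ := H _ _ f1 f2 f3
    exact ⟨(bf_shift_iff hji ha i1).2 g1, (bf_shift_iff hji hb i2).2 g2⟩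
  · intro H i1 i2 f1 f2 f3
    simp only at f1 f2
    rcases lt_or_ge i1 a with hia | hia
    · rcases lt_or_ge i2 b with hib | hib
      · exact ⟨bf_mono hji ((bf_iff_of_hit ha i1).2 hia), bf_mono hji ((bf_iff_of_hit hb i2).2 hib)⟩
      · exfalso
        have g1 := hN.2.read_ge hb hib f2 f3.2.1
        have g2 := ha.2 i1 hia
        have g3 := f3.2.2
        have g4 : |lev u (pos s.1.1 p.1 i1) - lev u (pos s.1.2 p.2 i2)| ≤ R := by
          have := g3 u.1
          unfold Flux132.lev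
          split_ifs
          · exact this
          · rw [show -pos s.1.1 p.1 i1 u.1 - -pos s.1.2 p.2 i2 u.1
              = -(pos s.1.1 p.1 i1 u.1 - pos s.1.2 p.2 i2 u.1) by ring, abs_neg]; exact this
        rw [lev_pos, lev_pos, s.2, abs_le] at g4
        omega
    · rcases lt_or_ge i2 b with hib | hib
      · exfalso
        have g1 := hN.1.read_ge ha hia f1 f3.1
        have g2 := hb.2 i2 hib
        have g3 := f3.2.2
        have g4 : |lev u (pos s.1.1 p.1 i1) - lev u (pos s.1.2 p.2 i2)| ≤ R := by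
          have := g3 u.1
          unfold Flux132.lev
          split_ifs
          · exact this
          · rw [show -pos s.1.1 p.1 i1 u.1 - -pos s.1.2 p.2 i2 u.1
              = -(pos s.1.1 p.1 i1 u.1 - pos s.1.2 p.2 i2 u.1) by ring, abs_neg]; exact this
        rw [lev_pos, lev_pos, s.2, abs_le] at g4
        omega
      · obtain ⟨i1, rfl⟩ := Nat.exists_eq_add_of_le hia
        obtain ⟨i2, rfl⟩ := Nat.exists_eq_add_of_le hib
        rw [← hctc] at f3
        have f1' := (bf_shift_iff hjm ha i1).2 f1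
        have f2' := (bf_shift_iff hjm hb i2).2 f2
        obtain ⟨g1, g2⟩ := H i1 i2 f1' f2' f3
        exact ⟨(bf_shift_iff hji ha i1).1 g1, (bf_shift_iff hji hb i2).1 g2⟩

lemma nt_refl {j : ℕ} {M : MPath d} (h : Alv u j M) : Nt u R j j M := by
  obtain ⟨a, ha⟩ := h
  exact ⟨a, a, ha, ha, fun k h1 h2 => by omega⟩

/-- natural up to `m`, new contact in a stage of `(i, m]` -/
def EC (u : Step d) (R i m : ℕ) : Set (Om u) :=
  {ω | (Nt u R 0 m ω.2.1 ∧ Nt u R 0 m ω.2.2) ∧ ¬ NoC R i m ω}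

lemma meas_EC (i m : ℕ) : MeasurableSet (EC u R i m) :=
  set_of_mp (Measurable.and (Measurable.and ((mp_nt R 0 m).comp meas_p1)
    ((mp_nt R 0 m).comp meas_p2)) (mp_noC R i m).not)

lemma dt_EC {i m : ℕ} (him : i ≤ m) (s : SP u) : Dt u m {p | ((s, p) : Om u) ∈ EC u R i m} :=
  (dt_nt (Nat.zero_le m)).inter (dt_noC him s).compl

lemma ctc_eq {i k : ℕ} (hik : i ≤ k) : ctc (sys u R κ Q) i k = {ω | ¬ NoC R i k ω} := by
  rw [ctc_compl, nocs_eq hik]; rfl

lemma sg_eq (n m : ℕ) (s : SP u) :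
    sg (sys u R κ Q) n m s = (PSm κ Q s.1.1 s.1.2).real (bc u R (m - n) m s) := by
  have e : (sys u R κ Q).N 0 m ∩ ctc (sys u R κ Q) (m - n) m = EC u R (m - n) m := by
    rw [ctc_eq (Nat.sub_le _ _)]; rfl
  unfold sg
  rw [e]
  simp only [Measure.real]
  rw [P_apply s (meas_EC _ _)]
  rfl

/-- restart for the pair system -/
lemma rs_sys (hR : IsFiniteRangeDependent Q R) (n : ℕ) : RS (sys u R κ Q) n where
  refl j ω h := ⟨nt_refl h.1, nt_refl h.2⟩
  rs := by
    intro s j m hjm B hB hBa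
    have e : ∀ t, sg (sys u R κ Q) n (m - j) t
        = ((sys u R κ Q).P t).real (EC u R (m - j - n) (m - j)) := by
      intro t
      unfold sg
      rw [ctc_eq (Nat.sub_le _ _)]
      rfl
    simp only [e]
    rw [ctc_eq (Nat.sub_le _ _)]
    refine (P_restart_real hR s (k := m - j) hB (fun ω hω => hBa hω)
      (G := (sys u R κ Q).N j m ∩ {ω | ¬ NoC R (m - n) m ω})
      (E := EC u R (m - j - n) (m - j))
      ⟨meas_EC _ _, fun t => dt_EC (Nat.sub_le _ _) t⟩ (fun t p hp => hp.1) ?_ ?_).le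
    · exact set_of_mp (Measurable.and (Measurable.and ((mp_nt R j m).comp meas_p1)
        ((mp_nt R j m).comp meas_p2)) (mp_noC R (m - n) m).not)
    · intro ω hω
      have hal := hBa hω
      have h1 := shift_iff (R := R) (j := j) (L := j) (n := m) le_rfl (by omega) ω.1 (p := ω.2) hal
      have hN0 : ∀ (l : ℕ) (ω : Om u), NoC R l l ω := fun l ω i i' h1 h2 _ => ⟨h1, h2⟩
      have hN : (Nt u R j m ω.2.1 ∧ Nt u R j m ω.2.2) ↔
          (Nt u R 0 (m-j) (th u j ω.2).1 ∧ Nt u R 0 (m-j) (th u j ω.2).2) := by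
        constructor
        · intro h
          exact (h1.1 ⟨h, hN0 _ _⟩).1
        · intro h
          exact (h1.2 ⟨h, by rw [Nat.sub_self]; exact hN0 _ _⟩).1
      constructor
      · rintro ⟨g1, g2⟩
        refine ⟨hN.1 g1, fun hcon => g2 ?_⟩
        refine (noC_shift (R := R) (j := j) (i := m - n) (m := m) (by omega) (Nat.sub_le _ _) ω.1
          (p := ω.2) hal g1).2 ?_
        rwa [show m - n - j = m - j - n by omega]
      · rintro ⟨g1, g2⟩
        refine ⟨hN.2 g1, fun hcon => g2 ?_⟩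
        have := (noC_shift (R := R) (j := j) (i := m - n) (m := m) (by omega) (Nat.sub_le _ _) ω.1
          (p := ω.2) hal (hN.2 g1)).1 hcon
        rwa [show m - n - j = m - j - n by omega] at this

lemma win_eq {n t r : ℕ} (ht : 1 ≤ t) : t * n - r - n = (t - 1) * n - r := by
  obtain ⟨k, rfl⟩ := Nat.exists_eq_add_of_le ht
  have e : (1 + k) * n = k * n + n := by ring
  rw [Nat.add_sub_cancel_left, e]
  omega

variable {a : ℕ} {c₁ cₑ : ℝ} {β : ℕ → ℝ} {h : ℕ → ℝ} {p : ℝ} {Far : ℕ → Set (SP u)}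
  {χ : ℕ → SP u → ℝ}

/-- late contacts of the pair system as `bc` -/
lemma late_eq {j n : ℕ} (hjn : j ≤ n) (s : SP u) :
    ((sys u R κ Q).P s).real ((sys u R κ Q).LateG j n)
      = (PSm κ Q s.1.1 s.1.2).real (bc u R j n s) := by
  have e : (sys u R κ Q).LateG j n = EC u R j n := by
    have : (sys u R κ Q).LateG j n = (sys u R κ Q).N 0 n ∩ ctc (sys u R κ Q) j n := rfl
    rw [this, ctc_eq hjn]; rfl
  rw [e]
  simp only [Measure.real]
  rw [P_apply s (meas_EC _ _)]
  rfl

/-- **(CE) for the pair system** (real form, chain of late windows) -/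
theorem ce_real (H : (sys u R κ Q).Hyp a c₁ cₑ β h p Far χ) (hR : IsFiniteRangeDependent Q R)
    {n : ℕ} (hn : 0 < n) (K : ℕ → ℕ) (hK : Monotone K) (m : ℕ)
    (hε : ∀ i < m, ∀ s : SP u,
      (PSm κ Q s.1.1 s.1.2).real (bc u R (K i * n) (K (i + 1) * n) s) ≤ c₁ / 4)
    (s : SP u) {r : ℕ} (hr : r < n) :
    ∑ t ∈ Finset.Icc 1 (K m), (PSm κ Q s.1.1 s.1.2).real
      (bc u R ((t - 1) * n - r) (t * n - r) s) ≤ 2 ^ m * (K 0 + 2) := by
  have h1 := seg_chain H (rs_sys hR n) hn K m (fun i hi s => by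
    rw [late_eq (Nat.mul_le_mul_right n (hK (Nat.le_succ i)))]
    exact hε i hi s) s r hr
  refine le_trans (le_of_eq ?_) h1
  refine Finset.sum_congr rfl fun t ht => ?_
  rw [sg_eq, win_eq (Finset.mem_Icc.1 ht).1]

/-- **(CE) for the pair system**, `ℝ≥0∞` form = 479's `hG`. -/
theorem ce (H : (sys u R κ Q).Hyp a c₁ cₑ β h p Far χ) (hR : IsFiniteRangeDependent Q R)
    {n : ℕ} (hn : 0 < n) (K : ℕ → ℕ) (hK : Monotone K) (m : ℕ)
    (hε : ∀ i < m, ∀ s : SP u,
      (PSm κ Q s.1.1 s.1.2).real (bc u R (K i * n) (K (i + 1) * n) s) ≤ c₁ / 4)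
    (s : SP u) {r : ℕ} (hr : r < n) :
    ∑ t ∈ Finset.Icc 1 (K m), PSm κ Q s.1.1 s.1.2 (bc u R ((t - 1) * n - r) (t * n - r) s)
      ≤ ENNReal.ofReal (2 ^ m * (K 0 + 2)) := by
  have h1 := ce_real H hR hn K hK m hε s hr
  refine le_trans (le_of_eq ?_) (ENNReal.ofReal_le_ofReal h1)
  rw [ENNReal.ofReal_sum_of_nonneg fun _ _ => measureReal_nonneg]
  refine Finset.sum_congr rfl fun t _ => ?_
  rw [ofReal_measureReal]

/-- naturalness to a higher level, contact in a union of windows -/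
lemma bc_sub {i k m : ℕ} (s : SP u) (hik : i ≤ k) (hkm : k ≤ m) :
    bc u R i m s ⊆ bc u R i k s ∪ bc u R k m s := by
  rintro p ⟨hp, hc⟩
  by_cases h1 : NoC R k m ((s, p) : Om u)
  · refine Or.inl ⟨⟨hp.1.left hkm, hp.2.left hkm⟩, fun h2 => hc ?_⟩
    intro x y hx hy hxy
    obtain ⟨g1, g2⟩ := h1 x y hx hy hxy
    exact h2 x y g1 g2 hxy
  · exact Or.inr ⟨hp, h1⟩

/-- windows of `w` units -/
lemma bc_win (s : SP u) {n r : ℕ} (t w : ℕ) :
    PSm κ Q s.1.1 s.1.2 (bc u R (t * n - r) ((t + w) * n - r) s)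
      ≤ ∑ i ∈ Finset.range w,
        PSm κ Q s.1.1 s.1.2 (bc u R ((t + i) * n - r) ((t + i + 1) * n - r) s) := by
  induction w with
  | zero =>
    have : bc u R (t * n - r) ((t + 0) * n - r) s = ∅ := by
      ext p
      simp only [mem_empty_iff_false, iff_false, Nat.add_zero]
      rintro ⟨_, h⟩
      exact h fun i i' h1 h2 _ => ⟨h1, h2⟩
    rw [this]
    simp
  | succ w ih =>
    rw [Finset.sum_range_succ]
    have h1 : t * n ≤ (t + w) * n := Nat.mul_le_mul_right n (by omega)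
    have h2 : (t + w) * n ≤ (t + (w + 1)) * n := Nat.mul_le_mul_right n (by omega)
    refine (measure_mono (bc_sub s (k := (t + w) * n - r) (by omega) (by omega))).trans ?_
    refine (measure_union_le _ _).trans ?_
    exact add_le_add ih le_rfl

/-- **(CE), windows of `w` units**: `Σ_t P_same(both natural up to (t+w)n - r, new contact in the
stages (t n - r, (t+w) n - r]) ≤ w Gc`. -/
theorem ce_win {n T w : ℕ} {Gc : ℝ≥0∞} (s : SP u) {r : ℕ}
    (hG : ∑ t ∈ Finset.Icc 1 (T + w),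
      PSm κ Q s.1.1 s.1.2 (bc u R ((t - 1) * n - r) (t * n - r) s) ≤ Gc) :
    ∑ t ∈ Finset.range (T + 1), PSm κ Q s.1.1 s.1.2 (bc u R (t * n - r) ((t + w) * n - r) s)
      ≤ w * Gc := by
  calc ∑ t ∈ Finset.range (T + 1), PSm κ Q s.1.1 s.1.2 (bc u R (t * n - r) ((t + w) * n - r) s)
      ≤ ∑ t ∈ Finset.range (T + 1), ∑ i ∈ Finset.range w,
        PSm κ Q s.1.1 s.1.2 (bc u R ((t + i) * n - r) ((t + i + 1) * n - r) s) :=
        Finset.sum_le_sum fun t _ => bc_win s t w
    _ = ∑ i ∈ Finset.range w, ∑ t ∈ Finset.range (T + 1),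
        PSm κ Q s.1.1 s.1.2 (bc u R ((t + i) * n - r) ((t + i + 1) * n - r) s) :=
        Finset.sum_comm
    _ ≤ ∑ i ∈ Finset.range w, Gc := by
        refine Finset.sum_le_sum fun i hi => le_trans ?_ hG
        have hi' := Finset.mem_range.1 hi
        have e : ∑ t ∈ Finset.range (T + 1),
            PSm κ Q s.1.1 s.1.2 (bc u R ((t + i) * n - r) ((t + i + 1) * n - r) s)
            = ∑ t ∈ Finset.image (fun t => t + i + 1) (Finset.range (T + 1)),
              PSm κ Q s.1.1 s.1.2 (bc u R ((t - 1) * n - r) (t * n - r) s) := by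
          rw [Finset.sum_image fun x _ y _ (hxy : x + i + 1 = y + i + 1) => by omega]
          refine Finset.sum_congr rfl fun t _ => ?_
          rw [Nat.add_sub_cancel]
        rw [e]
        refine Finset.sum_le_sum_of_subset ?_
        intro x hx
        obtain ⟨t, ht, rfl⟩ := Finset.mem_image.1 hx
        have := Finset.mem_range.1 ht
        exact Finset.mem_Icc.2 ⟨by omega, by omega⟩
    _ = w * Gc := by simp

end inst

end Crest.Agent.R154.Seg21
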