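import Mathlib

/-!
Row 154, block B5 (numerical part): the ratio recursion for the non-contact probabilities and
divergence of `∑ F n`.  Pure real sequences, Mathlib only.  (helper804)
-/

set_option autoImplicit false

namespace Crest.Agent.R154.Seq804

/-- One good starting ratio is propagated by the recursion. -/
theorem ratio_half {b κ : ℕ → ℝ} {J : ℕ} (hJ : 0 < b J)
    (hstart : b J / 2 ≤ b (J + 1))
    (hκ0 : ∀ j, J ≤ j → 0 ≤ κ (j + 1)) (hκ : ∀ j, J ≤ j → κ (j + 1) ≤ 1 / 4)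
    (hrec : ∀ j, J ≤ j → b (j + 1) - κ (j + 1) * b j ≤ b (j + 2)) :
    ∀ i, 0 < b (J + i) ∧ b (J + i) / 2 ≤ b (J + i + 1) := by
  intro i
  induction i with
  | zero => exact ⟨by simpa using hJ, by simpa using hstart⟩
  | succ i ih =>
    obtain ⟨h1, h2⟩ := ih
    have hpos : 0 < b (J + i + 1) := lt_of_lt_of_le (by positivity) h2
    refine ⟨by simpa [Nat.add_assoc] using hpos, ?_⟩
    have hr := hrec (J + i) (by omega)
    have hk0 := hκ0 (J + i) (by omega)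
    have hk := hκ (J + i) (by omega)
    have h3 : κ (J + i + 1) * b (J + i) ≤ κ (J + i + 1) * (2 * b (J + i + 1)) :=
      mul_le_mul_of_nonneg_left (by linarith) hk0
    have h4 : κ (J + i + 1) * (2 * b (J + i + 1)) ≤ 1 / 4 * (2 * b (J + i + 1)) :=
      mul_le_mul_of_nonneg_right hk (by linarith)
    have : b (J + (i + 1)) = b (J + i + 1) := by congr 1
    have h5 : b (J + (i + 1) + 1) = b (J + i + 2) := by congr 1
    rw [this, h5]
    linarith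

/-- The refined ratio `1 - 2 κ`. -/
theorem ratio_refined {b κ : ℕ → ℝ} {J : ℕ} (hJ : 0 < b J)
    (hstart : b J / 2 ≤ b (J + 1))
    (hκ0 : ∀ j, J ≤ j → 0 ≤ κ (j + 1)) (hκ : ∀ j, J ≤ j → κ (j + 1) ≤ 1 / 4)
    (hrec : ∀ j, J ≤ j → b (j + 1) - κ (j + 1) * b j ≤ b (j + 2)) :
    ∀ i, (1 - 2 * κ (J + i + 1)) * b (J + i + 1) ≤ b (J + i + 2) := by
  intro i
  obtain ⟨h1, h2⟩ := ratio_half hJ hstart hκ0 hκ hrec i
  have hr := hrec (J + i) (by omega)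
  have hk0 := hκ0 (J + i) (by omega)
  have h3 : κ (J + i + 1) * b (J + i) ≤ κ (J + i + 1) * (2 * b (J + i + 1)) :=
    mul_le_mul_of_nonneg_left (by linarith) hk0
  nlinarith

/-- `b j ≥ c 2^{-ε j}` for every `ε > 0`. -/
theorem subpoly {b κ : ℕ → ℝ} {J : ℕ} (hanti : Antitone b) (hJ : 0 < b J)
    (hstart : b J / 2 ≤ b (J + 1))
    (hκ0 : ∀ j, J ≤ j → 0 ≤ κ (j + 1)) (hκ : ∀ j, J ≤ j → κ (j + 1) ≤ 1 / 4)
    (hκlim : Filter.Tendsto κ Filter.atTop (nhds 0))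
    (hrec : ∀ j, J ≤ j → b (j + 1) - κ (j + 1) * b j ≤ b (j + 2))
    {ε : ℝ} (hε : 0 < ε) :
    ∃ c : ℝ, 0 < c ∧ ∀ j : ℕ, c * (2 : ℝ) ^ (-(ε * j)) ≤ b j := by
  have hρ : (2 : ℝ) ^ (-ε) < 1 := Real.rpow_lt_one_of_one_lt_of_neg (by norm_num) (by linarith)
  have hδ : 0 < (1 - (2 : ℝ) ^ (-ε)) / 2 := by linarith
  have hev : ∀ᶠ n in Filter.atTop, κ n < (1 - (2 : ℝ) ^ (-ε)) / 2 :=
    hκlim.eventually (gt_mem_nhds hδ)
  obtain ⟨K0, hK0⟩ := Filter.eventually_atTop.1 hev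
  -- start index
  set I : ℕ := K0 with hI
  have hpos : ∀ i, 0 < b (J + i) := fun i => (ratio_half hJ hstart hκ0 hκ hrec i).1
  have hstep : ∀ i, I ≤ i → (2 : ℝ) ^ (-ε) * b (J + i + 1) ≤ b (J + i + 2) := by
    intro i hi
    have h1 := ratio_refined hJ hstart hκ0 hκ hrec i
    have h2 : κ (J + i + 1) < (1 - (2 : ℝ) ^ (-ε)) / 2 := hK0 _ (by omega)
    have h3 : 0 < b (J + i + 1) := hpos (i + 1)
    have h4 : (2 : ℝ) ^ (-ε) * b (J + i + 1) ≤ (1 - 2 * κ (J + i + 1)) * b (J + i + 1) :=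
      mul_le_mul_of_nonneg_right (by linarith) h3.le
    linarith
  set K : ℕ := J + I + 1 with hK
  have hKpos : 0 < b K := hpos (I + 1)
  have hgeo : ∀ n : ℕ, b K * (2 : ℝ) ^ (-(ε * n)) ≤ b (K + n) := by
    intro n
    induction n with
    | zero => simp
    | succ n ih =>
      have h1 := hstep (I + n) (by omega)
      have e1 : J + (I + n) + 1 = K + n := by omega
      have e2 : J + (I + n) + 2 = K + (n + 1) := by omega
      rw [e1, e2] at h1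
      have h2 : (2 : ℝ) ^ (-(ε * ((n + 1 : ℕ) : ℝ))) = (2 : ℝ) ^ (-ε) * (2 : ℝ) ^ (-(ε * n)) := by
        rw [← Real.rpow_add (by norm_num)]
        congr 1
        push_cast
        ring
      rw [h2]
      have h3 : (2 : ℝ) ^ (-ε) * (b K * (2 : ℝ) ^ (-(ε * n))) ≤ (2 : ℝ) ^ (-ε) * b (K + n) :=
        mul_le_mul_of_nonneg_left ih (by positivity)
      calc b K * ((2 : ℝ) ^ (-ε) * (2 : ℝ) ^ (-(ε * n)))
          = (2 : ℝ) ^ (-ε) * (b K * (2 : ℝ) ^ (-(ε * n))) := by ring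
        _ ≤ (2 : ℝ) ^ (-ε) * b (K + n) := h3
        _ ≤ b (K + (n + 1)) := h1
  refine ⟨b K, hKpos, ?_⟩
  intro j
  rcases le_total j K with hj | hj
  · have h1 : (2 : ℝ) ^ (-(ε * j)) ≤ 1 :=
      Real.rpow_le_one_of_one_le_of_nonpos (by norm_num) (by
        have : 0 ≤ ε * (j : ℝ) := by positivity
        linarith)
    calc b K * (2 : ℝ) ^ (-(ε * j)) ≤ b K * 1 := mul_le_mul_of_nonneg_left h1 hKpos.le
      _ = b K := mul_one _
      _ ≤ b j := hanti hj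
  · obtain ⟨n, rfl⟩ := Nat.exists_eq_add_of_le hj
    refine le_trans ?_ (hgeo n)
    refine mul_le_mul_of_nonneg_left ?_ hKpos.le
    refine Real.rpow_le_rpow_of_exponent_le (by norm_num) ?_
    push_cast
    have : 0 ≤ ε * (K : ℝ) := by positivity
    nlinarith

/-- Divergence: an antitone nonnegative `F` with `b j ≤ F (2^j)` is not summable. -/
theorem not_summable {b κ F : ℕ → ℝ} {J : ℕ} (hanti : Antitone b) (hJ : 0 < b J)
    (hstart : b J / 2 ≤ b (J + 1))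
    (hκ0 : ∀ j, J ≤ j → 0 ≤ κ (j + 1)) (hκ : ∀ j, J ≤ j → κ (j + 1) ≤ 1 / 4)
    (hκlim : Filter.Tendsto κ Filter.atTop (nhds 0))
    (hrec : ∀ j, J ≤ j → b (j + 1) - κ (j + 1) * b j ≤ b (j + 2))
    (hF0 : ∀ n, 0 ≤ F n) (hF : ∀ ⦃m n⦄, 0 < m → m ≤ n → F n ≤ F m)
    (hbF : ∀ j, b j ≤ F (2 ^ j)) : ¬ Summable F := by
  intro hs
  have hc := (summable_condensed_iff_of_nonneg hF0 hF).2 hs
  obtain ⟨c, hc0, hcb⟩ := subpoly hanti hJ hstart hκ0 hκ hκlim hrec (ε := 1) one_pos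
  have hlow : ∀ j : ℕ, c ≤ (2 : ℝ) ^ j * F (2 ^ j) := by
    intro j
    have h1 := hcb j
    have h2 : (2 : ℝ) ^ (-((1 : ℝ) * j)) = ((2 : ℝ) ^ j)⁻¹ := by
      rw [one_mul, Real.rpow_neg (by norm_num), Real.rpow_natCast]
    rw [h2] at h1
    have h3 : (0 : ℝ) < (2 : ℝ) ^ j := by positivity
    have h4 : c * ((2 : ℝ) ^ j)⁻¹ ≤ F (2 ^ j) := h1.trans (hbF j)
    calc c = (2 : ℝ) ^ j * (c * ((2 : ℝ) ^ j)⁻¹) := by field_simp
      _ ≤ (2 : ℝ) ^ j * F (2 ^ j) := mul_le_mul_of_nonneg_left h4 h3.le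
  have hlim := hc.tendsto_atTop_zero
  have : c ≤ 0 := ge_of_tendsto' hlim hlow
  linarith

/-- The contradiction used in B5: `∑ m n ≤ M` in `ℝ≥0∞` and `c F n ≤ m n`. -/
theorem contradiction_of_tsum_le {b κ F : ℕ → ℝ} {J : ℕ} (hanti : Antitone b) (hJ : 0 < b J)
    (hstart : b J / 2 ≤ b (J + 1))
    (hκ0 : ∀ j, J ≤ j → 0 ≤ κ (j + 1)) (hκ : ∀ j, J ≤ j → κ (j + 1) ≤ 1 / 4)
    (hκlim : Filter.Tendsto κ Filter.atTop (nhds 0))
    (hrec : ∀ j, J ≤ j → b (j + 1) - κ (j + 1) * b j ≤ b (j + 2))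
    (hF0 : ∀ n, 0 ≤ F n) (hF : ∀ ⦃m n⦄, 0 < m → m ≤ n → F n ≤ F m)
    (hbF : ∀ j, b j ≤ F (2 ^ j))
    {m : ℕ → ENNReal} {c : ℝ} (hc : 0 < c) (hm : ∀ n, ENNReal.ofReal (c * F n) ≤ m n)
    (hfin : ∑' n, m n ≠ ⊤) : False := by
  refine not_summable hanti hJ hstart hκ0 hκ hκlim hrec hF0 hF hbF ?_
  have h1 : ∑' n, ENNReal.ofReal (c * F n) ≠ ⊤ :=
    ne_top_of_le_ne_top hfin (ENNReal.tsum_le_tsum hm)
  have h2 : Summable fun n => c * F n := by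
    have := ENNReal.summable_toReal h1
    refine this.congr ?_
    intro n
    exact ENNReal.toReal_ofReal (mul_nonneg hc.le (hF0 n))
  have h3 := h2.mul_left c⁻¹
  refine h3.congr ?_
  intro n
  field_simp

end Crest.Agent.R154.Seq804
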