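import Mathlib

/-!
# Almost additive centres are linear up to a constant (finite horizon)

If `g (l+m)` and `g l + g m` differ by at most `d` whenever `l + m ≤ N`, then `g l` differs from
the linear function `l * (g N / N)` by at most `3 * d` for every `1 ≤ l ≤ N`.
-/

set_option autoImplicit false

namespace Crest.Agent.R154.Shear431

/-- centred form: `f N = 0` -/
theorem shear0 {f : ℕ → ℝ} {N : ℕ} {d : ℝ} (hd : 0 ≤ d) (hN : 1 ≤ N) (hf : f N = 0)
    (h : ∀ l m, 1 ≤ l → 1 ≤ m → l + m ≤ N → |f (l + m) - f l - f m| ≤ d) :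
    ∀ l, 1 ≤ l → l ≤ N → |f l| ≤ 3 * d := by
  classical
  have hne : (Finset.Icc 1 N).Nonempty := ⟨N, by simp [hN]⟩
  obtain ⟨k, hk, hmax⟩ := Finset.exists_max_image (Finset.Icc 1 N) (fun l => |f l|) hne
  rw [Finset.mem_Icc] at hk
  have hM : ∀ l, 1 ≤ l → l ≤ N → |f l| ≤ |f k| := fun l h1 h2 =>
    hmax l (Finset.mem_Icc.2 ⟨h1, h2⟩)
  suffices hk3 : |f k| ≤ 3 * d from fun l h1 h2 => (hM l h1 h2).trans hk3
  rcases Nat.lt_or_ge N (2 * k) with hlt | hge
  · -- `k > N/2`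
    rcases Nat.eq_or_lt_of_le hk.2 with heq | hkN
    · rw [heq, hf, abs_zero]; positivity
    · set j := N - k with hj
      have hj1 : 1 ≤ j := by omega
      have hj2 : j + j ≤ N := by omega
      have hkj : k + j = N := by omega
      have e1 := h k j hk.1 hj1 hkj.le
      rw [hkj, hf] at e1
      have e2 := h j j hj1 hj1 hj2
      have e3 := hM (j + j) (by omega) hj2
      have a1 : |f k| ≤ |f j| + d := by
        have := abs_le.1 e1
        rcases abs_cases (f k) with ⟨h1, _⟩ | ⟨h1, _⟩ <;>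
          rcases abs_cases (f j) with ⟨h2, _⟩ | ⟨h2, _⟩ <;> linarith
      have a2 : 2 * |f j| ≤ |f (j + j)| + d := by
        have := abs_le.1 e2
        rcases abs_cases (f (j + j)) with ⟨h1, _⟩ | ⟨h1, _⟩ <;>
          rcases abs_cases (f j) with ⟨h2, _⟩ | ⟨h2, _⟩ <;> linarith
      linarith
  · have hkk : k + k ≤ N := by omega
    have e2 := h k k hk.1 hk.1 hkk
    have e3 := hM (k + k) (by omega) hkk
    have a2 : 2 * |f k| ≤ |f (k + k)| + d := by
      have := abs_le.1 e2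
      rcases abs_cases (f (k + k)) with ⟨h1, _⟩ | ⟨h1, _⟩ <;>
        rcases abs_cases (f k) with ⟨h2, _⟩ | ⟨h2, _⟩ <;> linarith
    linarith

/-- **almost additive ⇒ linear up to `3 d`** -/
theorem shear {g : ℕ → ℝ} {N : ℕ} {d : ℝ} (hd : 0 ≤ d)
    (h : ∀ l m, 1 ≤ l → 1 ≤ m → l + m ≤ N → |g (l + m) - g l - g m| ≤ d) :
    ∀ l, 1 ≤ l → l ≤ N → |g l - (l : ℝ) * (g N / N)| ≤ 3 * d := by
  intro l hl1 hlN
  have hN : 1 ≤ N := hl1.trans hlN
  have hN0 : (N : ℝ) ≠ 0 := by exact_mod_cast (by omega : N ≠ 0)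
  refine shear0 (f := fun l => g l - (l : ℝ) * (g N / N)) hd hN ?_ ?_ l hl1 hlN
  · field_simp; ring
  · intro a b ha hb hab
    have := h a b ha hb hab
    have e : g (a + b) - ((a + b : ℕ) : ℝ) * (g N / N) - (g a - (a : ℝ) * (g N / N)) -
        (g b - (b : ℝ) * (g N / N)) = g (a + b) - g a - g b := by push_cast; ring
    rw [e]; exact this

/-- the form with a bound at every `l ≤ N`, `l = 0` included, for a centre `c` with `c 0 = 0` -/
theorem shear' {g : ℕ → ℝ} {N : ℕ} {d : ℝ} (hd : 0 ≤ d) (h0 : g 0 = 0)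
    (h : ∀ l m, 1 ≤ l → 1 ≤ m → l + m ≤ N → |g (l + m) - g l - g m| ≤ d) :
    ∀ l, l ≤ N → |g l - (l : ℝ) * (g N / N)| ≤ 3 * d := by
  intro l hlN
  rcases Nat.eq_zero_or_pos l with rfl | hl
  · simp [h0]; positivity
  · exact shear hd h l hl hlN

end Crest.Agent.R154.Shear431
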