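import Crest.Agent.R154.B5Abs_566

/-! Row 154, T0219, leaf (5) "thin slab" (helper496), abstract in the letters of `B5Abs_566` / 540.
Part 1: point concentration of the renewal Green function with displacement. -/

set_option autoImplicit false

namespace Crest.Agent.R154.SlabC496

open scoped ENNReal
open Crest.Agent.R154.B5A Filter Topology

open Classical

variable {B G : Type*} [AddCommGroup G]

/-- displacement of a list of blocks -/
def Dp (z : B → G) (L : List B) : G := (L.map z).sum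

lemma Dp_nil (z : B → G) : Dp z [] = 0 := by simp [Dp]

lemma Dp_cons (z : B → G) (b : B) (L : List B) : Dp z (b :: L) = z b + Dp z L := by simp [Dp]

lemma Dp_append (z : B → G) (L L' : List B) : Dp z (L ++ L') = Dp z L + Dp z L' := by simp [Dp]

/-- the renewal Green function: total weight of the lists of height `c` and displacement `x` -/
noncomputable def Gr (Λ : B → ℝ≥0∞) (h : B → ℕ) (z : B → G) (c : ℕ) (x : G) : ℝ≥0∞ :=
  ∑' L : List B, if HT h L = c ∧ Dp z L = x then LW Λ L else 0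

variable (Λ : B → ℝ≥0∞) (h : B → ℕ) (z : B → G)

lemma Gr_le_U (c : ℕ) (x : G) : Gr Λ h z c x ≤ U Λ h c := by
  refine ENNReal.tsum_le_tsum fun L => ?_
  by_cases h1 : HT h L = c
  · by_cases h2 : Dp z L = x
    · simp [h1, h2]
    · simp [h2]
  · simp [h1]

lemma tsum_Gr (c : ℕ) : ∑' x, Gr Λ h z c x = U Λ h c := by
  simp only [Gr]
  rw [ENNReal.tsum_comm]
  refine tsum_congr fun L => ?_
  rw [tsum_eq_single (Dp z L)]
  · simp
  · intro x hx
    rw [if_neg]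
    rintro ⟨_, h2⟩
    exact hx h2.symm

lemma sum_Gr_le (hU : ∀ n, U Λ h n ≤ 1) (c : ℕ) (S : Finset G) :
    ∑ x ∈ S, Gr Λ h z c x ≤ 1 :=
  (ENNReal.sum_le_tsum S).trans ((tsum_Gr Λ h z c).le.trans (hU c))

lemma Gr_succ (h1 : ∀ b, 1 ≤ h b) (c : ℕ) (hc : 1 ≤ c) (x : G) :
    Gr Λ h z c x = ∑' b, (if h b ≤ c then Λ b * Gr Λ h z (c - h b) (x - z b) else 0) := by
  rw [Gr, tsum_list]
  rw [if_neg (by rw [HT_nil]; omega), zero_add]
  refine tsum_congr fun b => ?_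
  split_ifs with hb
  · rw [Gr, ← ENNReal.tsum_mul_left]
    refine tsum_congr fun L => ?_
    rw [HT_cons, Dp_cons, LW_cons]
    have e1 : (h b + HT h L = c) ↔ (HT h L = c - h b) := by omega
    have e2 : (z b + Dp z L = x) ↔ (Dp z L = x - z b) := by
      constructor
      · intro h; rw [← h]; abel
      · intro h; rw [h]; abel
    simp only [e1, e2, mul_ite, mul_zero]
  · rw [ENNReal.tsum_eq_zero.2]
    intro L
    rw [if_neg]
    rintro ⟨h2, _⟩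
    rw [HT_cons] at h2
    omega

lemma exists_fin (f : B → ℝ≥0∞) (hf : ∑' b, f b ≠ ⊤) (ε : ℝ≥0∞) (hε : ε ≠ 0) :
    ∃ F : Finset B, ∑' b, (if b ∈ F then 0 else f b) ≤ ε := by
  have h1 := ENNReal.tendsto_tsum_compl_atTop_zero hf
  have h2 := h1.eventually (ge_mem_nhds (pos_iff_ne_zero.2 hε))
  obtain ⟨F, hF⟩ := h2.exists
  refine ⟨F, le_trans (le_of_eq ?_) hF⟩
  have e : (fun b => if b ∈ F then 0 else f b) = Set.indicator {x | x ∉ F} f := by
    funext b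
    by_cases hb : b ∈ F <;> simp [Set.indicator, hb]
  rw [e]
  exact (tsum_subtype {x | x ∉ F} f).symm

lemma exists_tail (hE : ∑' b, Λ b ≠ ⊤) (ε : ℝ≥0∞) (hε : ε ≠ 0) :
    ∃ K, ∀ k, K ≤ k → tail Λ h k ≤ ε := by
  obtain ⟨F, hF⟩ := exists_fin Λ hE ε hε
  refine ⟨F.sup h, fun k hk => le_trans (ENNReal.tsum_le_tsum fun b => ?_) hF⟩
  by_cases hb : b ∈ F
  · have := (Finset.le_sup (f := h) hb).trans hk
    rw [if_neg (by omega)]; exact bot_le
  · rw [if_neg hb]; split_ifs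
    · exact le_rfl
    · exact bot_le

/-- one step of the concentration argument -/
lemma step_le (h1 : ∀ b, 1 ≤ h b) (hΛ : ∑' b, Λ b = 1) (hU : ∀ n, U Λ h n ≤ 1)
    (A : ℝ≥0∞) (C : ℕ) (hA : ∀ c, C ≤ c → ∀ x, Gr Λ h z c x ≤ A)
    (b0 : B) (c : ℕ) (hc : C + h b0 ≤ c) (x : G) :
    Gr Λ h z c x ≤ Λ b0 * Gr Λ h z (c - h b0) (x - z b0) + (1 - Λ b0) * A
      + tail Λ h (c - C) := by
  have hb0 := h1 b0
  rw [Gr_succ Λ h z h1 c (by omega), ENNReal.tsum_eq_add_tsum_ite b0]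
  rw [if_pos (by omega), add_assoc]
  refine add_le_add le_rfl ?_
  have hsum : ∑' b, (if b = b0 then 0 else Λ b) = 1 - Λ b0 := by
    have e : (1 : ℝ≥0∞) = Λ b0 + ∑' b, (if b = b0 then 0 else Λ b) := by
      rw [← hΛ, ENNReal.tsum_eq_add_tsum_ite b0]
    have hfin : Λ b0 ≠ ⊤ := by
      have : Λ b0 ≤ 1 := hΛ ▸ ENNReal.le_tsum b0
      exact ne_top_of_le_ne_top ENNReal.one_ne_top this
    rw [e, ENNReal.add_sub_cancel_left hfin]
  rw [← hsum, ← ENNReal.tsum_mul_right, tail, ← ENNReal.tsum_add]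
  refine ENNReal.tsum_le_tsum fun b => ?_
  by_cases hb : b = b0
  · simp [hb]
  · simp only [if_neg hb]
    by_cases hbc : h b ≤ c
    · rw [if_pos hbc]
      by_cases h3 : C ≤ c - h b
      · exact (mul_le_mul_right (hA _ h3 _) _).trans le_self_add
      · rw [if_pos (by omega : c - C < h b)]
        refine le_add_left ?_
        calc Λ b * Gr Λ h z (c - h b) (x - z b) ≤ Λ b * 1 :=
              mul_le_mul_right ((Gr_le_U Λ h z _ _).trans (hU _)) _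
          _ = Λ b := mul_one _
    · rw [if_neg hbc]; exact bot_le

/-- the limiting maximum -/
noncomputable def amax : ℝ≥0∞ := limsup (fun c => ⨆ x, Gr Λ h z c x) atTop

lemma Gr_le_one (hU : ∀ n, U Λ h n ≤ 1) (c : ℕ) (x : G) : Gr Λ h z c x ≤ 1 :=
  (Gr_le_U Λ h z _ _).trans (hU _)

lemma amax_le_one (hU : ∀ n, U Λ h n ≤ 1) : amax Λ h z ≤ 1 := by
  refine (limsup_le_limsup (v := fun _ => (1 : ℝ≥0∞)) (Eventually.of_forall fun c => ?_)).trans ?_
  · exact iSup_le fun x => Gr_le_one Λ h z hU c x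
  · simp

lemma gap (h1 : ∀ b, 1 ≤ h b) (hΛ : ∑' b, Λ b = 1) (hU : ∀ n, U Λ h n ≤ 1)
    (b0 : B) (hb0 : Λ b0 ≠ 0) (δ : ℝ) (hδ : 0 < δ) :
    ∃ δ' : ℝ, 0 < δ' ∧ ∃ C : ℕ, ∀ c, C ≤ c → ∀ x,
      (amax Λ h z).toReal - δ' ≤ (Gr Λ h z c x).toReal →
      (amax Λ h z).toReal - δ ≤ (Gr Λ h z (c - h b0) (x - z b0)).toReal := by
  have hle1 : Λ b0 ≤ 1 := hΛ ▸ ENNReal.le_tsum b0
  have hfin : Λ b0 ≠ ⊤ := ne_top_of_le_ne_top ENNReal.one_ne_top hle1
  have ha1 := amax_le_one Λ h z hU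
  have hafin : amax Λ h z ≠ ⊤ := ne_top_of_le_ne_top ENNReal.one_ne_top ha1
  set p := (Λ b0).toReal with hp
  have hp0 : 0 < p := ENNReal.toReal_pos hb0 hfin
  have hp1 : p ≤ 1 := by
    have := ENNReal.toReal_mono ENNReal.one_ne_top hle1
    simpa using this
  set a := (amax Λ h z).toReal with ha
  have ha0 : 0 ≤ a := ENNReal.toReal_nonneg
  refine ⟨p * δ / 3, by positivity, ?_⟩
  set δ' := p * δ / 3 with hδ'
  have hδ'0 : 0 < δ' := by positivity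
  have hlt : amax Λ h z < amax Λ h z + ENNReal.ofReal δ' :=
    ENNReal.lt_add_right hafin (by simpa using hδ'0)
  have hev := eventually_lt_of_limsup_lt hlt
  obtain ⟨C0, hC0⟩ := eventually_atTop.1 hev
  obtain ⟨K, hK⟩ := exists_tail Λ h (by rw [hΛ]; exact ENNReal.one_ne_top)
    (ENNReal.ofReal δ') (by simpa using hδ'0)
  refine ⟨C0 + h b0 + K, fun c hc x hx => ?_⟩
  have hst := step_le Λ h z h1 hΛ hU (amax Λ h z + ENNReal.ofReal δ') C0
    (fun c hc x => (le_iSup (fun x => Gr Λ h z c x) x).trans (hC0 c hc).le) b0 c (by omega) x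
  have hst2 : Gr Λ h z c x ≤ Λ b0 * Gr Λ h z (c - h b0) (x - z b0)
      + (1 - Λ b0) * (amax Λ h z + ENNReal.ofReal δ') + ENNReal.ofReal δ' :=
    hst.trans (add_le_add le_rfl (hK _ (by omega)))
  have hg1 : Gr Λ h z (c - h b0) (x - z b0) ≠ ⊤ :=
    ne_top_of_le_ne_top ENNReal.one_ne_top (Gr_le_one Λ h z hU _ _)
  have hA1 : amax Λ h z + ENNReal.ofReal δ' ≠ ⊤ := ENNReal.add_ne_top.2 ⟨hafin, ENNReal.ofReal_ne_top⟩
  have h1b : (1 - Λ b0) ≠ ⊤ := ne_top_of_le_ne_top ENNReal.one_ne_top tsub_le_self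
  have hr := ENNReal.toReal_mono (ENNReal.add_ne_top.2 ⟨ENNReal.add_ne_top.2
    ⟨ENNReal.mul_ne_top hfin hg1, ENNReal.mul_ne_top h1b hA1⟩, ENNReal.ofReal_ne_top⟩) hst2
  rw [ENNReal.toReal_add (ENNReal.add_ne_top.2 ⟨ENNReal.mul_ne_top hfin hg1,
      ENNReal.mul_ne_top h1b hA1⟩) ENNReal.ofReal_ne_top,
    ENNReal.toReal_add (ENNReal.mul_ne_top hfin hg1) (ENNReal.mul_ne_top h1b hA1),
    ENNReal.toReal_mul, ENNReal.toReal_mul, ENNReal.toReal_add hafin ENNReal.ofReal_ne_top,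
    ENNReal.toReal_sub_of_le hle1 ENNReal.one_ne_top, ENNReal.toReal_ofReal hδ'0.le,
    ENNReal.toReal_one, ← hp, ← ha] at hr
  set g := (Gr Λ h z (c - h b0) (x - z b0)).toReal
  have h3 : p * (a - δ) ≤ p * g := by
    have e3 : p * δ = 3 * δ' := by rw [hδ']; ring
    nlinarith
  exact le_of_mul_le_mul_left h3 hp0

lemma gapL (h1 : ∀ b, 1 ≤ h b) (hΛ : ∑' b, Λ b = 1) (hU : ∀ n, U Λ h n ≤ 1)
    (L0 : List B) (hL : ∀ b ∈ L0, Λ b ≠ 0) (δ : ℝ) (hδ : 0 < δ) :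
    ∃ δ' : ℝ, 0 < δ' ∧ ∃ C : ℕ, ∀ c, C ≤ c → ∀ x,
      (amax Λ h z).toReal - δ' ≤ (Gr Λ h z c x).toReal →
      (amax Λ h z).toReal - δ ≤ (Gr Λ h z (c - HT h L0) (x - Dp z L0)).toReal := by
  induction L0 with
  | nil => exact ⟨δ, hδ, 0, fun c _ x hx => by simpa [HT_nil, Dp_nil] using hx⟩
  | cons b L ih =>
    obtain ⟨δ1, hδ1, C1, hC1⟩ := ih (fun b' hb' => hL b' (List.mem_cons_of_mem _ hb'))
    obtain ⟨δ2, hδ2, C2, hC2⟩ := gap Λ h z h1 hΛ hU b (hL b List.mem_cons_self) δ1 hδ1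
    refine ⟨δ2, hδ2, max C2 (C1 + h b), fun c hc x hx => ?_⟩
    have hcc := max_le_iff.1 hc
    have h4 := hC1 (c - h b) (by omega) (x - z b) (hC2 c hcc.1 x hx)
    rw [HT_cons, Dp_cons, ← Nat.sub_sub, ← sub_sub]
    exact h4

lemma gapF (h1 : ∀ b, 1 ≤ h b) (hΛ : ∑' b, Λ b = 1) (hU : ∀ n, U Λ h n ≤ 1)
    (Lf : ℕ → List B) (hL : ∀ j, ∀ b ∈ Lf j, Λ b ≠ 0) (δ : ℝ) (hδ : 0 < δ) (M : ℕ) :
    ∃ δ' : ℝ, 0 < δ' ∧ ∃ C : ℕ, ∀ j, j < M → ∀ c, C ≤ c → ∀ x,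
      (amax Λ h z).toReal - δ' ≤ (Gr Λ h z c x).toReal →
      (amax Λ h z).toReal - δ ≤ (Gr Λ h z (c - HT h (Lf j)) (x - Dp z (Lf j))).toReal := by
  induction M with
  | zero => exact ⟨1, one_pos, 0, fun j hj => absurd hj (by omega)⟩
  | succ M ih =>
    obtain ⟨δ1, hδ1, C1, hC1⟩ := ih
    obtain ⟨δ2, hδ2, C2, hC2⟩ := gapL Λ h z h1 hΛ hU (Lf M) (hL M) δ hδ
    refine ⟨min δ1 δ2, lt_min hδ1 hδ2, max C1 C2, fun j hj c hc x hx => ?_⟩
    have hcc := max_le_iff.1 hc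
    rcases Nat.lt_succ_iff_lt_or_eq.1 hj with hj | rfl
    · exact hC1 j hj c hcc.1 x (le_trans (by have := min_le_left δ1 δ2; linarith) hx)
    · exact hC2 c hcc.2 x (le_trans (by have := min_le_right δ1 δ2; linarith) hx)

lemma HT_rep (b : B) (n : ℕ) : HT h (List.replicate n b) = n * h b := by
  simp [HT]

lemma Dp_rep (b : B) (n : ℕ) : Dp z (List.replicate n b) = n • z b := by
  simp [Dp]

/-- **point concentration of the renewal Green function** -/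
theorem conc (h1 : ∀ b, 1 ≤ h b) (hΛ : ∑' b, Λ b = 1) (hU : ∀ n, U Λ h n ≤ 1)
    (b1 b2 : B) (hb1 : Λ b1 ≠ 0) (hb2 : Λ b2 ≠ 0) (hh : h b1 = h b2)
    (hz : ∀ j : ℤ, j • (z b1 - z b2) = 0 → j = 0) (ε : ℝ≥0∞) (hε : ε ≠ 0) :
    ∃ C, ∀ c, C ≤ c → ∀ x, Gr Λ h z c x ≤ ε := by
  have ha1 := amax_le_one Λ h z hU
  have hafin : amax Λ h z ≠ ⊤ := ne_top_of_le_ne_top ENNReal.one_ne_top ha1
  have ha : amax Λ h z = 0 := by
    by_contra hne
    set a := (amax Λ h z).toReal with hadef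
    have hapos : 0 < a := ENNReal.toReal_pos hne hafin
    obtain ⟨N, hN⟩ := exists_nat_gt (2 / a)
    have hN' : 1 < (N + 1 : ℝ) * (a / 2) := by
      rw [div_lt_iff₀ hapos] at hN
      nlinarith
    set Lf : ℕ → List B := fun j => List.replicate j b1 ++ List.replicate (N - j) b2 with hLf
    obtain ⟨δ', hδ', C, hC⟩ := gapF Λ h z h1 hΛ hU Lf (by
      intro j b hb
      rw [hLf] at hb
      rcases List.mem_append.1 hb with hb | hb
      · rw [List.eq_of_mem_replicate hb]; exact hb1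
      · rw [List.eq_of_mem_replicate hb]; exact hb2) (a / 2) (by positivity) (N + 1)
    have hlt : ENNReal.ofReal (a - δ') < amax Λ h z := by
      rw [← ENNReal.ofReal_toReal hafin]
      exact (ENNReal.ofReal_lt_ofReal_iff hapos).2 (by linarith)
    have hfr := frequently_lt_of_lt_limsup (by isBoundedDefault) hlt
    obtain ⟨c, hgc, hc⟩ := (hfr.and_eventually (eventually_ge_atTop C)).exists
    obtain ⟨x, hx⟩ := lt_iSup_iff.1 hgc
    have hgfin : Gr Λ h z c x ≠ ⊤ :=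
      ne_top_of_le_ne_top ENNReal.one_ne_top (Gr_le_one Λ h z hU _ _)
    have hx' : a - δ' ≤ (Gr Λ h z c x).toReal := by
      have := (ENNReal.ofReal_le_iff_le_toReal hgfin).1 hx.le
      exact this
    have key : ∀ j ∈ Finset.range (N + 1),
        ENNReal.ofReal (a / 2) ≤ Gr Λ h z (c - N * h b1) (x - Dp z (Lf j)) := by
      intro j hj
      have hj' : j < N + 1 := Finset.mem_range.1 hj
      have h5 := hC j hj' c hc x hx'
      have e : HT h (Lf j) = N * h b1 := by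
        rw [hLf]; simp only
        rw [HT_append, HT_rep, HT_rep, ← hh, ← Nat.add_mul]
        congr 1; omega
      rw [e] at h5
      refine ENNReal.ofReal_le_of_le_toReal ?_
      linarith
    have hinj : Set.InjOn (fun j => x - Dp z (Lf j)) (Finset.range (N + 1) : Set ℕ) := by
      intro j hj k hk hjk
      have hj' : j < N + 1 := Finset.mem_range.1 hj
      have hk' : k < N + 1 := Finset.mem_range.1 hk
      simp only [sub_right_inj] at hjk
      rw [hLf] at hjk; simp only at hjk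
      rw [Dp_append, Dp_append, Dp_rep, Dp_rep, Dp_rep, Dp_rep] at hjk
      have e1 : ((N - j : ℕ) • z b2) = (N : ℤ) • z b2 - (j : ℤ) • z b2 := by
        rw [← sub_smul, ← Nat.cast_sub (by omega), natCast_zsmul]
      have e2 : ((N - k : ℕ) • z b2) = (N : ℤ) • z b2 - (k : ℤ) • z b2 := by
        rw [← sub_smul, ← Nat.cast_sub (by omega), natCast_zsmul]
      rw [e1, e2, ← natCast_zsmul, ← natCast_zsmul] at hjk
      have h6 : ((j : ℤ) - (k : ℤ)) • (z b1 - z b2) = 0 := by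
        rw [sub_smul, smul_sub, smul_sub]
        have := sub_eq_zero.2 hjk
        rw [← this]; abel
      have := hz _ h6
      omega
    have hsum := sum_Gr_le Λ h z hU (c - N * h b1)
      ((Finset.range (N + 1)).image fun j => x - Dp z (Lf j))
    rw [Finset.sum_image hinj] at hsum
    have h7 : ((N + 1 : ℕ) : ℝ≥0∞) * ENNReal.ofReal (a / 2) ≤ 1 := by
      calc ((N + 1 : ℕ) : ℝ≥0∞) * ENNReal.ofReal (a / 2)
          = ∑ _j ∈ Finset.range (N + 1), ENNReal.ofReal (a / 2) := by simp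
        _ ≤ _ := Finset.sum_le_sum key
        _ ≤ 1 := hsum
    have h8 := ENNReal.toReal_mono ENNReal.one_ne_top h7
    rw [ENNReal.toReal_mul, ENNReal.toReal_ofReal (by positivity), ENNReal.toReal_natCast,
      ENNReal.toReal_one] at h8
    push_cast at h8
    linarith
  have hlt : amax Λ h z < ε := by rw [ha]; exact pos_iff_ne_zero.2 hε
  obtain ⟨C, hC⟩ := eventually_atTop.1 (eventually_lt_of_limsup_lt hlt)
  exact ⟨C, fun c hc x => (le_iSup (fun x => Gr Λ h z c x) x).trans (hC c hc).le⟩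

/-! ### Part 2: the slab -/

lemma tsum_le_of_split {α β : Type*} (cat : β → α) (P : β → Prop) (f : α → ℝ≥0∞) :
    ∑' a, (if ∃ t, P t ∧ cat t = a then f a else 0) ≤ ∑' t, (if P t then f (cat t) else 0) := by
  have h1 : ∀ a, (if ∃ t, P t ∧ cat t = a then f a else 0)
      ≤ ∑' t, (if P t ∧ cat t = a then f (cat t) else 0) := by
    intro a
    split_ifs with h
    · obtain ⟨t, ht, rfl⟩ := h
      refine le_trans ?_ (ENNReal.le_tsum t)
      rw [if_pos ⟨ht, rfl⟩]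
    · exact bot_le
  refine (ENNReal.tsum_le_tsum h1).trans ?_
  rw [ENNReal.tsum_comm]
  refine ENNReal.tsum_le_tsum fun t => ?_
  rw [tsum_eq_single (cat t)]
  · by_cases ht : P t <;> simp [ht]
  · intro a ha
    rw [if_neg]
    rintro ⟨_, h2⟩
    exact ha h2.symm

lemma sum_ht_mem (hU : ∀ n, U Λ h n ≤ 1) (S : Finset ℕ) :
    ∑' L : List B, (if HT h L ∈ S then LW Λ L else 0) ≤ S.card := by
  have e : ∀ L : List B, (if HT h L ∈ S then LW Λ L else 0)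
      = ∑ c ∈ S, (if HT h L = c then LW Λ L else 0) := by
    intro L
    rw [Finset.sum_ite_eq]
  simp_rw [e]
  rw [Summable.tsum_finsetSum (fun _ _ => ENNReal.summable)]
  calc ∑ c ∈ S, ∑' L : List B, (if HT h L = c then LW Λ L else 0)
      ≤ ∑ _c ∈ S, (1 : ℝ≥0∞) := Finset.sum_le_sum fun c _ => hU c
    _ = S.card := by simp

/-- sum over the lower parts -/
lemma sum_low (hU : ∀ n, U Λ h n ≤ 1) (k n : ℕ) :
    ∑' L : List B, (if k + HT h L = n then LW Λ L else 0) ≤ 1 := by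
  by_cases hk : k ≤ n
  · refine le_trans (le_of_eq ?_) (hU (n - k))
    rw [U]
    refine tsum_congr fun L => ?_
    have e : (k + HT h L = n) ↔ (HT h L = n - k) := by omega
    simp only [e]
  · have : ∀ L : List B, ¬ (k + HT h L = n) := fun L => by omega
    simp [this]

/-- weight of the lists with a block outside `F` over the slab -/
lemma bad_le (hU : ∀ n, U Λ h n ≤ 1) (F : Finset B) (a s n : ℕ) :
    ∑' L : List B, (if ∃ t : List B × B × List B, (HT h (t.1 ++ t.2.1 :: t.2.2) = n ∧ t.2.1 ∉ F ∧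
        ∃ k, a ≤ k ∧ k < a + s ∧ HT h t.1 < k ∧ k ≤ HT h t.1 + h t.2.1)
        ∧ t.1 ++ t.2.1 :: t.2.2 = L then LW Λ L else 0)
      ≤ ∑' b, (if b ∈ F then 0 else Λ b * (h b + s : ℕ)) := by
  refine (tsum_le_of_split (fun t : List B × B × List B => t.1 ++ t.2.1 :: t.2.2) _ _).trans ?_
  simp only [ENNReal.tsum_prod']
  rw [ENNReal.tsum_comm]
  refine ENNReal.tsum_le_tsum fun b => ?_
  by_cases hb : b ∈ F
  · simp [hb]
  · rw [if_neg hb]
    have hin : ∀ L1 : List B, (∑' L2 : List B, (if HT h (L1 ++ b :: L2) = n ∧ b ∉ F ∧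
        (∃ k, a ≤ k ∧ k < a + s ∧ HT h L1 < k ∧ k ≤ HT h L1 + h b)
        then LW Λ (L1 ++ b :: L2) else 0))
        ≤ Λ b * (if HT h L1 ∈ Finset.Ico (a - h b) (a + s) then LW Λ L1 else 0) := by
      intro L1
      by_cases hR : ∃ k, a ≤ k ∧ k < a + s ∧ HT h L1 < k ∧ k ≤ HT h L1 + h b
      · obtain ⟨k, hk1, hk2, hk3, hk4⟩ := hR
        rw [if_pos (Finset.mem_Ico.2 ⟨by omega, by omega⟩)]
        calc (∑' L2 : List B, (if HT h (L1 ++ b :: L2) = n ∧ b ∉ F ∧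
            (∃ k, a ≤ k ∧ k < a + s ∧ HT h L1 < k ∧ k ≤ HT h L1 + h b)
            then LW Λ (L1 ++ b :: L2) else 0))
            ≤ ∑' L2 : List B, (Λ b * LW Λ L1) *
              (if (HT h L1 + h b) + HT h L2 = n then LW Λ L2 else 0) := by
              refine ENNReal.tsum_le_tsum fun L2 => ?_
              rw [HT_append, HT_cons, LW_append, LW_cons, ← add_assoc]
              by_cases h5 : HT h L1 + h b + HT h L2 = n
              · rw [if_pos h5]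
                split_ifs
                · exact le_of_eq (by ring)
                · exact bot_le
              · rw [if_neg (fun hh => h5 hh.1)]; exact bot_le
          _ = (Λ b * LW Λ L1) * ∑' L2 : List B,
              (if (HT h L1 + h b) + HT h L2 = n then LW Λ L2 else 0) := ENNReal.tsum_mul_left
          _ ≤ (Λ b * LW Λ L1) * 1 := mul_le_mul_right (sum_low Λ h hU _ _) _
          _ = _ := mul_one _
      · have : ∀ L2 : List B, ¬ (HT h (L1 ++ b :: L2) = n ∧ b ∉ F ∧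
          ∃ k, a ≤ k ∧ k < a + s ∧ HT h L1 < k ∧ k ≤ HT h L1 + h b) := fun L2 hh => hR hh.2.2
        simp only [this, if_false, tsum_zero]
        exact bot_le
    refine (ENNReal.tsum_le_tsum hin).trans ?_
    rw [ENNReal.tsum_mul_left]
    refine mul_le_mul_right ((sum_ht_mem Λ h hU _).trans ?_) _
    rw [Nat.card_Ico]
    exact_mod_cast (by omega : a + s - (a - h b) ≤ h b + s)

section pair

variable {BX BY : Type*} (ΛX : BX → ℝ≥0∞) (hX : BX → ℕ) (zX : BX → G)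
  (ΛY : BY → ℝ≥0∞) (hY : BY → ℕ) (zY : BY → G)

lemma good_le (hUX : ∀ n, U ΛX hX n ≤ 1) (hUY : ∀ n, U ΛY hY n ≤ 1)
    (b : BX) (b' : BY) (hb : ΛX b ≤ 1) (hb' : ΛY b' ≤ 1) (q1 q1' w : G) (q2 q2' k n : ℕ)
    (ε : ℝ≥0∞) (hq : q2 ≤ k) (hε : ∀ x, Gr ΛX hX zX (k - q2) x ≤ ε) :
    ∑' p : List BX × List BY,
      (if ∃ t : (List BX × List BX) × (List BY × List BY),
        (HT hX (t.1.1 ++ b :: t.1.2) = n ∧ HT hY (t.2.1 ++ b' :: t.2.2) = n ∧
          HT hX t.1.1 + q2 = k ∧ HT hY t.2.1 + q2' = k ∧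
          Dp zX t.1.1 + q1 = w + Dp zY t.2.1 + q1') ∧
          (t.1.1 ++ b :: t.1.2, t.2.1 ++ b' :: t.2.2) = p
        then LW ΛX p.1 * LW ΛY p.2 else 0) ≤ ε := by
  refine (tsum_le_of_split (fun t : (List BX × List BX) × (List BY × List BY) =>
    (t.1.1 ++ b :: t.1.2, t.2.1 ++ b' :: t.2.2)) _ (fun p => LW ΛX p.1 * LW ΛY p.2)).trans ?_
  rw [ENNReal.tsum_prod', ENNReal.tsum_comm]
  simp only [ENNReal.tsum_prod']
  have step1 : ∀ (M1 M2 : List BY) (L1 L2 : List BX),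
      (if HT hX (L1 ++ b :: L2) = n ∧ HT hY (M1 ++ b' :: M2) = n ∧
          HT hX L1 + q2 = k ∧ HT hY M1 + q2' = k ∧
          Dp zX L1 + q1 = w + Dp zY M1 + q1'
        then LW ΛX (L1 ++ b :: L2) * LW ΛY (M1 ++ b' :: M2) else 0)
      ≤ (if HT hY M1 = k - q2' then LW ΛY M1 else 0) *
        ((if (HT hY M1 + hY b') + HT hY M2 = n then LW ΛY M2 else 0) *
        ((if HT hX L1 = k - q2 ∧ Dp zX L1 = w + Dp zY M1 + q1' - q1 then LW ΛX L1 else 0) *
        (if (HT hX L1 + hX b) + HT hX L2 = n then LW ΛX L2 else 0))) := by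
    intro M1 M2 L1 L2
    by_cases hc : HT hX (L1 ++ b :: L2) = n ∧ HT hY (M1 ++ b' :: M2) = n ∧
          HT hX L1 + q2 = k ∧ HT hY M1 + q2' = k ∧
          Dp zX L1 + q1 = w + Dp zY M1 + q1'
    · rw [if_pos hc]
      obtain ⟨e1, e2, e3, e4, e5⟩ := hc
      rw [HT_append, HT_cons] at e1 e2
      rw [if_pos (by omega), if_pos (by omega), if_pos ⟨by omega, by rw [← e5]; abel⟩,
        if_pos (by omega), LW_append, LW_cons, LW_append, LW_cons]
      calc LW ΛX L1 * (ΛX b * LW ΛX L2) * (LW ΛY M1 * (ΛY b' * LW ΛY M2))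
          = ΛX b * ΛY b' * (LW ΛY M1 * (LW ΛY M2 * (LW ΛX L1 * LW ΛX L2))) := by ring
        _ ≤ 1 * 1 * (LW ΛY M1 * (LW ΛY M2 * (LW ΛX L1 * LW ΛX L2))) :=
            mul_le_mul' (mul_le_mul' hb hb') le_rfl
        _ = _ := by rw [one_mul, one_mul]
    · rw [if_neg hc]; exact bot_le
  calc _ ≤ ∑' (M1 : List BY) (M2 : List BY) (L1 : List BX) (L2 : List BX),
        (if HT hY M1 = k - q2' then LW ΛY M1 else 0) *
        ((if (HT hY M1 + hY b') + HT hY M2 = n then LW ΛY M2 else 0) *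
        ((if HT hX L1 = k - q2 ∧ Dp zX L1 = w + Dp zY M1 + q1' - q1 then LW ΛX L1 else 0) *
        (if (HT hX L1 + hX b) + HT hX L2 = n then LW ΛX L2 else 0))) :=
        ENNReal.tsum_le_tsum fun M1 => ENNReal.tsum_le_tsum fun M2 =>
          ENNReal.tsum_le_tsum fun L1 => ENNReal.tsum_le_tsum fun L2 => step1 M1 M2 L1 L2
    _ ≤ ∑' (M1 : List BY), (if HT hY M1 = k - q2' then LW ΛY M1 else 0) * ε := by
        refine ENNReal.tsum_le_tsum fun M1 => ?_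
        simp only [ENNReal.tsum_mul_left]
        refine mul_le_mul_right ?_ _
        calc _ ≤ ∑' (M2 : List BY),
              (if (HT hY M1 + hY b') + HT hY M2 = n then LW ΛY M2 else 0) * ε := by
              refine ENNReal.tsum_le_tsum fun M2 => mul_le_mul_right ?_ _
              calc _ ≤ ∑' (L1 : List BX), (if HT hX L1 = k - q2 ∧
                    Dp zX L1 = w + Dp zY M1 + q1' - q1 then LW ΛX L1 else 0) * 1 :=
                    ENNReal.tsum_le_tsum fun L1 => mul_le_mul_right (sum_low ΛX hX hUX _ _) _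
                _ = Gr ΛX hX zX (k - q2) (w + Dp zY M1 + q1' - q1) := by
                    simp only [mul_one]; rfl
                _ ≤ ε := hε _
          _ ≤ 1 * ε := by
              rw [ENNReal.tsum_mul_right]
              exact mul_le_mul_left (sum_low ΛY hY hUY _ _) _
          _ = ε := one_mul _
    _ ≤ 1 * ε := by
        rw [ENNReal.tsum_mul_right]
        exact mul_le_mul_left (hUY _) _
    _ = ε := one_mul _

variable (sX : BX → Set (G × ℕ)) (sY : BY → Set (G × ℕ))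

lemma mem_split {B : Type*} (h : B → ℕ) (z : B → G) (s : B → Set (G × ℕ))
    (TX : List B → G → ℕ → Set (G × ℕ)) (h0 : ∀ x a, TX [] x a = ∅)
    (h1 : ∀ b L x a, TX (b :: L) x a
      = {p | ∃ q ∈ s b, p = (x + q.1, a + q.2)} ∪ TX L (x + z b) (a + h b))
    (L : List B) (x : G) (a : ℕ) (y : G) (k : ℕ) (hm : (y, k) ∈ TX L x a) :
    ∃ (L1 : List B) (b : B) (L2 : List B), L = L1 ++ b :: L2 ∧
      ∃ q ∈ s b, y = x + Dp z L1 + q.1 ∧ k = a + HT h L1 + q.2 := by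
  induction L generalizing x a with
  | nil => rw [h0] at hm; exact absurd hm (by simp)
  | cons b L ih =>
    rw [h1] at hm
    rcases hm with ⟨q, hq, e⟩ | hm
    · rw [Prod.mk.injEq] at e
      exact ⟨[], b, L, rfl, q, hq, by rw [e.1, Dp_nil, add_zero], by rw [e.2, HT_nil, add_zero]⟩
    · obtain ⟨L1, b', L2, e, q, hq, e1, e2⟩ := ih _ _ hm
      refine ⟨b :: L1, b', L2, by rw [e]; rfl, q, hq, ?_, ?_⟩
      · rw [e1, Dp_cons]; abel
      · rw [e2, HT_cons]; ring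

lemma fin_add {B : Type*} (Λ : B → ℝ≥0∞) (h : B → ℕ) (s : ℕ) (e1 : ∑' b, Λ b = 1)
    (e2 : ∑' b, Λ b * (h b : ℝ≥0∞) ≠ ⊤) : ∑' b, Λ b * ((h b + s : ℕ) : ℝ≥0∞) ≠ ⊤ := by
  have : ∑' b, Λ b * ((h b + s : ℕ) : ℝ≥0∞)
      = ∑' b, Λ b * (h b : ℝ≥0∞) + (∑' b, Λ b) * (s : ℝ≥0∞) := by
    rw [← ENNReal.tsum_mul_right, ← ENNReal.tsum_add]
    refine tsum_congr fun b => ?_
    push_cast; ring
  rw [this, e1, one_mul]
  exact ENNReal.add_ne_top.2 ⟨e2, ENNReal.natCast_ne_top s⟩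

/-- **540's input `H5` (thin slab).** -/
theorem H5 (h1X : ∀ b, 1 ≤ hX b) (hΛX : ∑' b, ΛX b = 1) (hΛY : ∑' b, ΛY b = 1)
    (hEX : ∑' b, ΛX b * (hX b : ℝ≥0∞) ≠ ⊤) (hEY : ∑' b, ΛY b * (hY b : ℝ≥0∞) ≠ ⊤)
    (hUX : ∀ n, U ΛX hX n ≤ 1) (hUY : ∀ n, U ΛY hY n ≤ 1)
    (hfX : ∀ b, (sX b).Finite) (hfY : ∀ b, (sY b).Finite)
    (hdX : ∀ b q, q ∈ sX b → 1 ≤ q.2 ∧ q.2 ≤ hX b)
    (hdY : ∀ b q, q ∈ sY b → 1 ≤ q.2 ∧ q.2 ≤ hY b)
    (b1 b2 : BX) (hb1 : ΛX b1 ≠ 0) (hb2 : ΛX b2 ≠ 0) (hh : hX b1 = hX b2)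
    (hz : ∀ j : ℤ, j • (zX b1 - zX b2) = 0 → j = 0)
    (TX : List BX → G → ℕ → Set (G × ℕ)) (hTX0 : ∀ x a, TX [] x a = ∅)
    (hTX1 : ∀ b L x a, TX (b :: L) x a
      = {p | ∃ q ∈ sX b, p = (x + q.1, a + q.2)} ∪ TX L (x + zX b) (a + hX b))
    (TY : List BY → G → ℕ → Set (G × ℕ)) (hTY0 : ∀ x a, TY [] x a = ∅)
    (hTY1 : ∀ b L x a, TY (b :: L) x a
      = {p | ∃ q ∈ sY b, p = (x + q.1, a + q.2)} ∪ TY L (x + zY b) (a + hY b)) :
    ∀ s : ℕ, ∀ η : ℝ≥0∞, η ≠ 0 → ∃ T : ℕ, ∀ a, T ≤ a → ∀ n : ℕ, ∀ w : G,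
      ∑' LX, ∑' LY, (if HT hX LX = n ∧ HT hY LY = n ∧
        (∃ z k, a ≤ k ∧ k < a + s ∧ (z, k) ∈ TX LX 0 0 ∧ (z, k) ∈ TY LY w 0)
        then LW ΛX LX * LW ΛY LY else 0) ≤ η := by
  intro s η hη
  have hη3 : η / 3 ≠ 0 := by
    rw [Ne, ENNReal.div_eq_zero_iff, not_or]; exact ⟨hη, by norm_num⟩
  obtain ⟨FX, hFX⟩ := exists_fin _ (fin_add ΛX hX s hΛX hEX) (η / 3) hη3
  obtain ⟨FY, hFY⟩ := exists_fin _ (fin_add ΛY hY s hΛY hEY) (η / 3) hη3
  set I : Finset (Σ _ : BX, G × ℕ) := FX.sigma fun b => (hfX b).toFinset with hI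
  set J : Finset (Σ _ : BY, G × ℕ) := FY.sigma fun b => (hfY b).toFinset with hJ
  set N : ℕ := I.card * (J.card * s) with hN
  set ε' : ℝ≥0∞ := η / 3 / (N + 1 : ℕ) with hε'
  have hε'0 : ε' ≠ 0 := by
    rw [hε', Ne, ENNReal.div_eq_zero_iff, not_or]
    exact ⟨hη3, ENNReal.natCast_ne_top _⟩
  obtain ⟨C, hC⟩ := conc ΛX hX zX h1X hΛX hUX b1 b2 hb1 hb2 hh hz ε' hε'0
  refine ⟨C + FX.sup hX, fun a ha n w => ?_⟩
  set S := I ×ˢ (J ×ˢ Finset.Ico a (a + s)) with hS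
  set A1 : List BX → Prop := fun LX => ∃ t : List BX × BX × List BX,
    (HT hX (t.1 ++ t.2.1 :: t.2.2) = n ∧ t.2.1 ∉ FX ∧
      ∃ k, a ≤ k ∧ k < a + s ∧ HT hX t.1 < k ∧ k ≤ HT hX t.1 + hX t.2.1)
      ∧ t.1 ++ t.2.1 :: t.2.2 = LX with hA1
  set A2 : List BY → Prop := fun LY => ∃ t : List BY × BY × List BY,
    (HT hY (t.1 ++ t.2.1 :: t.2.2) = n ∧ t.2.1 ∉ FY ∧
      ∃ k, a ≤ k ∧ k < a + s ∧ HT hY t.1 < k ∧ k ≤ HT hY t.1 + hY t.2.1)
      ∧ t.1 ++ t.2.1 :: t.2.2 = LY with hA2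
  set Gd : ((Σ _ : BX, G × ℕ) × ((Σ _ : BY, G × ℕ) × ℕ)) → (List BX × List BY) → Prop :=
    fun r p => ∃ t : (List BX × List BX) × (List BY × List BY),
        (HT hX (t.1.1 ++ r.1.1 :: t.1.2) = n ∧ HT hY (t.2.1 ++ r.2.1.1 :: t.2.2) = n ∧
          HT hX t.1.1 + r.1.2.2 = r.2.2 ∧ HT hY t.2.1 + r.2.1.2.2 = r.2.2 ∧
          Dp zX t.1.1 + r.1.2.1 = w + Dp zY t.2.1 + r.2.1.2.1) ∧
          (t.1.1 ++ r.1.1 :: t.1.2, t.2.1 ++ r.2.1.1 :: t.2.2) = p with hGd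
  have hpt : ∀ p : List BX × List BY, (if HT hX p.1 = n ∧ HT hY p.2 = n ∧
        (∃ z k, a ≤ k ∧ k < a + s ∧ (z, k) ∈ TX p.1 0 0 ∧ (z, k) ∈ TY p.2 w 0)
        then LW ΛX p.1 * LW ΛY p.2 else 0)
      ≤ (if A1 p.1 then LW ΛX p.1 else 0) * (if HT hY p.2 = n then LW ΛY p.2 else 0)
        + (if HT hX p.1 = n then LW ΛX p.1 else 0) * (if A2 p.2 then LW ΛY p.2 else 0)
        + ∑ r ∈ S, (if Gd r p then LW ΛX p.1 * LW ΛY p.2 else 0) := by
    rintro ⟨LX, LY⟩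
    by_cases hc : HT hX LX = n ∧ HT hY LY = n ∧
        (∃ z k, a ≤ k ∧ k < a + s ∧ (z, k) ∈ TX LX 0 0 ∧ (z, k) ∈ TY LY w 0)
    swap
    · rw [if_neg hc]; exact bot_le
    rw [if_pos hc]
    obtain ⟨eX, eY, y, k, hk1, hk2, hmX, hmY⟩ := hc
    obtain ⟨L1, b, L2, eL, q, hq, ey, ek⟩ := mem_split hX zX sX TX hTX0 hTX1 LX 0 0 y k hmX
    obtain ⟨M1, b', M2, eM, q', hq', ey', ek'⟩ := mem_split hY zY sY TY hTY0 hTY1 LY w 0 y k hmY
    have hdq := hdX b q hq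
    have hdq' := hdY b' q' hq'
    by_cases hb : b ∈ FX
    swap
    · have hA : A1 LX := ⟨(L1, b, L2), ⟨by rw [← eL]; exact eX, hb, k, hk1, hk2,
        by simp only; omega, by simp only; omega⟩, eL.symm⟩
      refine le_trans ?_ (le_trans le_self_add le_self_add)
      simp only [if_pos hA, if_pos eY]
      exact le_rfl
    by_cases hb' : b' ∈ FY
    swap
    · have hA : A2 LY := ⟨(M1, b', M2), ⟨by rw [← eM]; exact eY, hb', k, hk1, hk2,
        by simp only; omega, by simp only; omega⟩, eM.symm⟩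
      refine le_trans ?_ (le_trans le_add_self le_self_add)
      simp only [if_pos hA, if_pos eX]
      exact le_rfl
    refine le_trans ?_ le_add_self
    have hr : ((⟨b, q⟩, (⟨b', q'⟩, k)) : (Σ _ : BX, G × ℕ) × ((Σ _ : BY, G × ℕ) × ℕ)) ∈ S := by
      rw [hS, Finset.mem_product, Finset.mem_product]
      refine ⟨?_, ?_, ?_⟩
      · rw [hI, Finset.mem_sigma]; exact ⟨hb, by simpa using hq⟩
      · rw [hJ, Finset.mem_sigma]; exact ⟨hb', by simpa using hq'⟩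
      · exact Finset.mem_Ico.2 ⟨hk1, hk2⟩
    refine le_trans ?_ (Finset.single_le_sum (f := fun r =>
      (if Gd r (LX, LY) then LW ΛX LX * LW ΛY LY else 0)) (fun _ _ => bot_le) hr)
    have hG : Gd (⟨b, q⟩, (⟨b', q'⟩, k)) (LX, LY) := by
      refine ⟨((L1, L2), (M1, M2)), ⟨by rw [← eX, eL], by rw [← eY, eM], ?_, ?_, ?_⟩, ?_⟩
      · simp only; omega
      · simp only; omega
      · simp only
        rw [zero_add] at ey
        rw [← ey, ey']
      · simp only [← eL, ← eM]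
    simp only [if_pos hG]
    exact le_rfl
  rw [← ENNReal.tsum_prod (f := fun (LX : List BX) (LY : List BY) => (if HT hX LX = n ∧ HT hY LY = n ∧
        (∃ z k, a ≤ k ∧ k < a + s ∧ (z, k) ∈ TX LX 0 0 ∧ (z, k) ∈ TY LY w 0)
        then LW ΛX LX * LW ΛY LY else 0))]
  refine (ENNReal.tsum_le_tsum hpt).trans ?_
  rw [ENNReal.tsum_add, ENNReal.tsum_add]
  have t1 : ∑' p : List BX × List BY, (if A1 p.1 then LW ΛX p.1 else 0) *
      (if HT hY p.2 = n then LW ΛY p.2 else 0) ≤ η / 3 := by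
    rw [ENNReal.tsum_prod']
    simp only [ENNReal.tsum_mul_left]
    calc _ ≤ ∑' LX : List BX, (if A1 LX then LW ΛX LX else 0) * 1 :=
          ENNReal.tsum_le_tsum fun LX => mul_le_mul_right (hUY n) _
      _ ≤ η / 3 := by
          simp only [mul_one]
          exact (bad_le ΛX hX hUX FX a s n).trans hFX
  have t2 : ∑' p : List BX × List BY, (if HT hX p.1 = n then LW ΛX p.1 else 0) *
      (if A2 p.2 then LW ΛY p.2 else 0) ≤ η / 3 := by
    rw [ENNReal.tsum_prod']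
    simp only [ENNReal.tsum_mul_left]
    rw [ENNReal.tsum_mul_right]
    calc _ ≤ 1 * (∑' LY : List BY, (if A2 LY then LW ΛY LY else 0)) := mul_le_mul_left (hUX n) _
      _ ≤ η / 3 := by
          rw [one_mul]
          exact (bad_le ΛY hY hUY FY a s n).trans hFY
  have hle1 : ∀ b, ΛX b ≤ 1 := fun b => hΛX ▸ ENNReal.le_tsum b
  have hle1' : ∀ b, ΛY b ≤ 1 := fun b => hΛY ▸ ENNReal.le_tsum b
  have t3 : ∑' p : List BX × List BY, ∑ r ∈ S, (if Gd r p then LW ΛX p.1 * LW ΛY p.2 else 0)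
      ≤ η / 3 := by
    rw [Summable.tsum_finsetSum (fun _ _ => ENNReal.summable)]
    calc _ ≤ ∑ _r ∈ S, ε' := by
          refine Finset.sum_le_sum fun r hr => ?_
          rw [hS, Finset.mem_product, Finset.mem_product] at hr
          obtain ⟨hr1, hr2, hr3⟩ := hr
          rw [hI, Finset.mem_sigma] at hr1
          have hr3' := Finset.mem_Ico.1 hr3
          have hq : r.1.2 ∈ sX r.1.1 := by simpa using hr1.2
          have hd := hdX _ _ hq
          have hs' := Finset.le_sup (f := hX) hr1.1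
          exact good_le ΛX hX zX ΛY hY zY hUX hUY r.1.1 r.2.1.1 (hle1 _) (hle1' _) r.1.2.1
            r.2.1.2.1 w r.1.2.2 r.2.1.2.2 r.2.2 n ε' (by omega)
            (fun x => hC _ (by omega) x)
      _ = (S.card : ℝ≥0∞) * ε' := by simp
      _ ≤ ((N + 1 : ℕ) : ℝ≥0∞) * ε' := by
          refine mul_le_mul_left ?_ _
          have : S.card = N := by
            rw [hS, Finset.card_product, Finset.card_product, Nat.card_Ico, hN]
            congr 2; omega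
          rw [this]
          exact_mod_cast Nat.le_succ N
      _ = η / 3 := by
          rw [hε']
          exact ENNReal.mul_div_cancel (by exact_mod_cast Nat.succ_ne_zero N)
            (ENNReal.natCast_ne_top _)
  calc _ ≤ η / 3 + η / 3 + η / 3 := add_le_add (add_le_add t1 t2) t3
    _ = η := by
        exact ENNReal.add_thirds η

/-- **391's input `hPt` (one level).** -/
theorem hPt (h1X : ∀ b, 1 ≤ hX b) (hΛX : ∑' b, ΛX b = 1) (hΛY : ∑' b, ΛY b = 1)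
    (hEX : ∑' b, ΛX b * (hX b : ℝ≥0∞) ≠ ⊤) (hEY : ∑' b, ΛY b * (hY b : ℝ≥0∞) ≠ ⊤)
    (hUX : ∀ n, U ΛX hX n ≤ 1) (hUY : ∀ n, U ΛY hY n ≤ 1)
    (hfX : ∀ b, (sX b).Finite) (hfY : ∀ b, (sY b).Finite)
    (hdX : ∀ b q, q ∈ sX b → 1 ≤ q.2 ∧ q.2 ≤ hX b)
    (hdY : ∀ b q, q ∈ sY b → 1 ≤ q.2 ∧ q.2 ≤ hY b)
    (b1 b2 : BX) (hb1 : ΛX b1 ≠ 0) (hb2 : ΛX b2 ≠ 0) (hh : hX b1 = hX b2)
    (hz : ∀ j : ℤ, j • (zX b1 - zX b2) = 0 → j = 0)
    (TX : List BX → G → ℕ → Set (G × ℕ)) (hTX0 : ∀ x a, TX [] x a = ∅)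
    (hTX1 : ∀ b L x a, TX (b :: L) x a
      = {p | ∃ q ∈ sX b, p = (x + q.1, a + q.2)} ∪ TX L (x + zX b) (a + hX b))
    (TY : List BY → G → ℕ → Set (G × ℕ)) (hTY0 : ∀ x a, TY [] x a = ∅)
    (hTY1 : ∀ b L x a, TY (b :: L) x a
      = {p | ∃ q ∈ sY b, p = (x + q.1, a + q.2)} ∪ TY L (x + zY b) (a + hY b)) :
    ∀ ε : ℝ≥0∞, ε ≠ 0 → ∃ k0 : ℕ, ∀ k, k0 ≤ k → ∀ n : ℕ, ∀ w : G,
      ∑' LX, ∑' LY, (if HT hX LX = n ∧ HT hY LY = n ∧
        (∃ z, (z, k) ∈ TX LX 0 0 ∧ (z, k) ∈ TY LY w 0)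
        then LW ΛX LX * LW ΛY LY else 0) ≤ ε := by
  intro ε hε
  obtain ⟨T, hT⟩ := H5 ΛX hX zX ΛY hY zY sX sY h1X hΛX hΛY hEX hEY hUX hUY hfX hfY hdX hdY
    b1 b2 hb1 hb2 hh hz TX hTX0 hTX1 TY hTY0 hTY1 1 ε hε
  refine ⟨T, fun k hk n w => le_trans (ENNReal.tsum_le_tsum fun LX =>
    ENNReal.tsum_le_tsum fun LY => ?_) (hT k hk n w)⟩
  by_cases hc : HT hX LX = n ∧ HT hY LY = n ∧ (∃ z, (z, k) ∈ TX LX 0 0 ∧ (z, k) ∈ TY LY w 0)
  · rw [if_pos hc, if_pos]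
    obtain ⟨e1, e2, z, h1, h2⟩ := hc
    exact ⟨e1, e2, z, k, le_rfl, by omega, h1, h2⟩
  · rw [if_neg hc]; exact bot_le

end pair

end Crest.Agent.R154.SlabC496
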