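import Crest.Agent.R154.B5Rec_566

/-! Row 154, ROAD 801 (helper998): concentration: the displacement density of a renewal list at
height `c` tends to `0` uniformly (two blocks of the same height and different displacement). -/

set_option autoImplicit false

namespace Crest.Agent.R154.Slab998

open scoped ENNReal
open Crest.Agent.R154.B5A

variable {B G : Type*} [AddCommGroup G]

/-- displacement of a list -/
def Dp (z : B → G) (L : List B) : G := (L.map z).sum

lemma Dp_nil (z : B → G) : Dp z [] = 0 := by simp [Dp]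

lemma Dp_cons (z : B → G) (b : B) (L : List B) : Dp z (b :: L) = z b + Dp z L := by simp [Dp]

lemma Dp_append (z : B → G) (L L' : List B) : Dp z (L ++ L') = Dp z L + Dp z L' := by simp [Dp]

open Classical in
/-- weight of the lists of height `c` and displacement `x` -/
noncomputable def Uz (Λ : B → ℝ≥0∞) (ht : B → ℕ) (z : B → G) (c : ℕ) (x : G) : ℝ≥0∞ :=
  ∑' L : List B, if HT ht L = c ∧ Dp z L = x then LW Λ L else 0

variable (Λ : B → ℝ≥0∞) (ht : B → ℕ) (z : B → G)

lemma tsum_Uz (c : ℕ) : ∑' x, Uz Λ ht z c x = U Λ ht c := by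
  classical
  simp only [Uz]
  rw [ENNReal.tsum_comm, U]
  refine tsum_congr fun L => ?_
  by_cases h : HT ht L = c
  · simp only [h, true_and, if_true]
    rw [tsum_ite_eq']
  · simp [h]

lemma Uz_le (hU1 : ∀ n, U Λ ht n ≤ 1) (c : ℕ) (x : G) : Uz Λ ht z c x ≤ 1 :=
  (ENNReal.le_tsum x).trans ((tsum_Uz Λ ht z c).le.trans (hU1 c))

open Classical in
lemma Uz_rec (c : ℕ) (hc : 1 ≤ c) (x : G) :
    Uz Λ ht z c x = ∑' b, Λ b * (if ht b ≤ c then Uz Λ ht z (c - ht b) (x - z b) else 0) := by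
  rw [Uz, tsum_list]
  simp only [HT_nil]
  rw [if_neg (by omega), zero_add]
  refine tsum_congr fun b => ?_
  by_cases hb : ht b ≤ c
  · rw [if_pos hb, Uz, ← ENNReal.tsum_mul_left]
    refine tsum_congr fun L => ?_
    simp only [HT_cons, Dp_cons, LW_cons]
    have e : (ht b + HT ht L = c ∧ z b + Dp z L = x)
        ↔ (HT ht L = c - ht b ∧ Dp z L = x - z b) := by
      constructor
      · rintro ⟨h1, h2⟩
        exact ⟨by omega, by rw [← h2]; abel⟩
      · rintro ⟨h1, h2⟩
        exact ⟨by omega, by rw [h2]; abel⟩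
    by_cases h : ht b + HT ht L = c ∧ z b + Dp z L = x
    · rw [if_pos h, if_pos (e.1 h)]
    · rw [if_neg h, if_neg (fun h' => h (e.2 h')), mul_zero]
  · rw [if_neg hb, mul_zero]
    rw [ENNReal.tsum_eq_zero]
    intro L
    rw [if_neg]
    rw [HT_cons]
    omega

/-- one step of the maximum principle -/
lemma step (h1 : ∀ b, 1 ≤ ht b) (hΛ : ∑' b, Λ b = 1) (hU1 : ∀ n, U Λ ht n ≤ 1)
    (htl : Filter.Tendsto (tail Λ ht) Filter.atTop (nhds 0))
    (β : ℝ) (hβ : ∀ η : ℝ, 0 < η → ∃ T : ℕ, ∀ c, T ≤ c → ∀ x, (Uz Λ ht z c x).toReal ≤ β + η)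
    (b0 : B) (hb0 : Λ b0 ≠ 0) (η : ℝ) (hη : 0 < η) :
    ∃ η' : ℝ, 0 < η' ∧ ∃ T : ℕ, ∀ c, T ≤ c → ∀ x, β - η' ≤ (Uz Λ ht z c x).toReal →
      ht b0 ≤ c ∧ β - η ≤ (Uz Λ ht z (c - ht b0) (x - z b0)).toReal := by
  classical
  have hb1 : Λ b0 ≤ 1 := hΛ ▸ ENNReal.le_tsum b0
  have hbt : Λ b0 ≠ ⊤ := ne_top_of_le_ne_top ENNReal.one_ne_top hb1
  set l : ℝ := (Λ b0).toReal with hl
  have hl0 : 0 < l := ENNReal.toReal_pos hb0 hbt
  have hl1 : l ≤ 1 := by
    have := ENNReal.toReal_mono ENNReal.one_ne_top hb1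
    simpa using this
  set η' : ℝ := l * η / 4 with hη'
  have hη'0 : 0 < η' := by positivity
  obtain ⟨T0, hT0⟩ := hβ η' hη'0
  obtain ⟨T1, hT1⟩ : ∃ T1 : ℕ, tail Λ ht T1 ≤ ENNReal.ofReal η' := by
    have := htl.eventually_le_const (show (0 : ℝ≥0∞) < ENNReal.ofReal η' by simpa using hη'0)
    exact this.exists
  refine ⟨η', hη'0, T0 + T1 + ht b0 + 1, fun c hc x hx => ⟨by omega, ?_⟩⟩
  have hfin : ∀ c x, Uz Λ ht z c x ≠ ⊤ := fun c x =>
    ne_top_of_le_ne_top ENNReal.one_ne_top (Uz_le Λ ht z hU1 c x)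
  set V := Uz Λ ht z (c - ht b0) (x - z b0) with hV
  set Bd : ℝ≥0∞ := ENNReal.ofReal (β + η') with hBd
  have hβ0 : 0 ≤ β + η' := le_trans ENNReal.toReal_nonneg (hT0 T0 le_rfl x)
  have hup : ∀ c', T0 ≤ c' → ∀ x', Uz Λ ht z c' x' ≤ Bd := by
    intro c' hc' x'
    rw [hBd, ← ENNReal.ofReal_toReal (hfin c' x')]
    exact ENNReal.ofReal_le_ofReal (hT0 c' hc' x')
  have hmain : Uz Λ ht z c x ≤ Λ b0 * V + ((∑' b, if b = b0 then 0 else Λ b) * Bd
      + tail Λ ht T1) := by
    rw [Uz_rec Λ ht z c (by omega) x, ENNReal.tsum_eq_add_tsum_ite b0]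
    rw [if_pos (show ht b0 ≤ c by omega)]
    refine add_le_add le_rfl ?_
    rw [← ENNReal.tsum_mul_right, tail, ← ENNReal.tsum_add]
    refine ENNReal.tsum_le_tsum fun b => ?_
    by_cases hbb : b = b0
    · simp [hbb]
    · simp only [hbb, if_false]
      by_cases hb : ht b ≤ c
      · rw [if_pos hb]
        by_cases hb2 : T0 ≤ c - ht b
        · exact (mul_le_mul_right (hup _ hb2 _) _).trans le_self_add
        · rw [if_pos (show T1 < ht b by omega)]
          refine le_trans ?_ le_add_self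
          calc Λ b * _ ≤ Λ b * 1 := mul_le_mul_right (Uz_le Λ ht z hU1 _ _) _
            _ = Λ b := mul_one _
      · rw [if_neg hb, mul_zero]; exact zero_le
  have hR : Λ b0 + (∑' b, if b = b0 then 0 else Λ b) = 1 := by
    rw [← hΛ]; exact (ENNReal.tsum_eq_add_tsum_ite b0).symm
  have hRt : (∑' b, if b = b0 then 0 else Λ b) ≠ ⊤ :=
    ne_top_of_le_ne_top ENNReal.one_ne_top (hR ▸ le_add_self)
  set Rr : ℝ := (∑' b, if b = b0 then 0 else Λ b).toReal with hRr
  have hRl : l + Rr = 1 := by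
    have := congrArg ENNReal.toReal hR
    rw [ENNReal.toReal_add hbt hRt] at this
    simpa using this
  have htt : tail Λ ht T1 ≠ ⊤ := ne_top_of_le_ne_top ENNReal.ofReal_ne_top hT1
  have hreal : (Uz Λ ht z c x).toReal ≤ l * V.toReal + (Rr * (β + η') + η') := by
    have h2 := ENNReal.toReal_mono (by
      refine ENNReal.add_ne_top.2 ⟨ENNReal.mul_ne_top hbt (hfin _ _), ENNReal.add_ne_top.2
        ⟨ENNReal.mul_ne_top hRt ENNReal.ofReal_ne_top, htt⟩⟩) hmain
    rw [ENNReal.toReal_add (ENNReal.mul_ne_top hbt (hfin _ _)) (ENNReal.add_ne_top.2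
        ⟨ENNReal.mul_ne_top hRt ENNReal.ofReal_ne_top, htt⟩),
      ENNReal.toReal_add (ENNReal.mul_ne_top hRt ENNReal.ofReal_ne_top) htt,
      ENNReal.toReal_mul, ENNReal.toReal_mul, ENNReal.toReal_ofReal hβ0] at h2
    have h3 : (tail Λ ht T1).toReal ≤ η' := by
      have := ENNReal.toReal_mono ENNReal.ofReal_ne_top hT1
      rwa [ENNReal.toReal_ofReal hη'0.le] at this
    linarith
  have hR1 : Rr = 1 - l := by linarith
  rw [hR1] at hreal
  have h5 : l * (β - η) ≤ l * V.toReal := by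
    have h6 : (1 - l) * η' ≤ η' := by nlinarith
    have h7 : η' * 4 = l * η := by rw [hη']; ring
    nlinarith
  exact le_of_mul_le_mul_left h5 hl0

/-- **concentration**: the displacement density tends to `0`, uniformly. -/
theorem conc (h1 : ∀ b, 1 ≤ ht b) (hΛ : ∑' b, Λ b = 1) (hU1 : ∀ n, U Λ ht n ≤ 1)
    (htl : Filter.Tendsto (tail Λ ht) Filter.atTop (nhds 0))
    (b1 b2 : B) (hb1 : Λ b1 ≠ 0) (hb2 : Λ b2 ≠ 0) (hh : ht b1 = ht b2)
    (hz : ∀ n : ℕ, 0 < n → n • (z b1 - z b2) ≠ 0) (δ : ℝ≥0∞) (hδ : δ ≠ 0) :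
    ∃ T : ℕ, ∀ c, T ≤ c → ∀ x, Uz Λ ht z c x ≤ δ := by
  classical
  set S : Set ℝ := {r | ∃ T : ℕ, ∀ c, T ≤ c → ∀ x, (Uz Λ ht z c x).toReal ≤ r} with hS
  have hfin : ∀ c x, Uz Λ ht z c x ≠ ⊤ := fun c x =>
    ne_top_of_le_ne_top ENNReal.one_ne_top (Uz_le Λ ht z hU1 c x)
  have hne : S.Nonempty := ⟨1, 0, fun c _ x => by
    have := ENNReal.toReal_mono ENNReal.one_ne_top (Uz_le Λ ht z hU1 c x)
    simpa using this⟩
  have hbdd : BddBelow S := ⟨0, by
    rintro r ⟨T, hT⟩
    exact le_trans ENNReal.toReal_nonneg (hT T le_rfl 0)⟩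
  set β := sInf S with hβd
  have hβ1 : ∀ η : ℝ, 0 < η → ∃ T : ℕ, ∀ c, T ≤ c → ∀ x, (Uz Λ ht z c x).toReal ≤ β + η := by
    intro η hη
    obtain ⟨r, ⟨T, hT⟩, hr⟩ := exists_lt_of_csInf_lt hne (show sInf S < β + η by linarith)
    exact ⟨T, fun c hc x => (hT c hc x).trans hr.le⟩
  have hβ2 : ∀ η : ℝ, 0 < η → ∀ T : ℕ, ∃ c, T ≤ c ∧ ∃ x, β - η ≤ (Uz Λ ht z c x).toReal := by
    intro η hη T
    by_contra hcon
    push Not at hcon
    have : β - η ∈ S := ⟨T, fun c hc x => (hcon c hc x).le⟩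
    have := csInf_le hbdd this
    linarith
  have hβ0 : β ≤ 0 := by
    by_contra hpos
    push Not at hpos
    have iter : ∀ k : ℕ, ∀ η : ℝ, 0 < η → ∃ η' : ℝ, 0 < η' ∧ ∃ T : ℕ, ∀ c, T ≤ c → ∀ x,
        β - η' ≤ (Uz Λ ht z c x).toReal → k * ht b1 ≤ c ∧ ∀ j, j ≤ k →
          β - η ≤ (Uz Λ ht z (c - k * ht b1) (x - (j • z b1 + (k - j) • z b2))).toReal := by
      intro k
      induction k with
      | zero =>
        intro η hη
        refine ⟨η, hη, 0, fun c _ x hx => ⟨by omega, fun j hj => ?_⟩⟩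
        obtain rfl : j = 0 := by omega
        simpa using hx
      | succ k ih =>
        intro η hη
        obtain ⟨η1, hη1, T1, hT1⟩ := step Λ ht z h1 hΛ hU1 htl β hβ1 b1 hb1 η hη
        obtain ⟨η2, hη2, T2, hT2⟩ := step Λ ht z h1 hΛ hU1 htl β hβ1 b2 hb2 η hη
        obtain ⟨η3, hη3, T3, hT3⟩ := ih (min η1 η2) (lt_min hη1 hη2)
        refine ⟨η3, hη3, T3 + T1 + T2 + k * ht b1, fun c hc x hx => ?_⟩
        obtain ⟨ha, hb⟩ := hT3 c (by omega) x hx
        have hk0 := hb 0 (Nat.zero_le _)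
        have hmin1 := min_le_left η1 η2
        have hmin2 := min_le_right η1 η2
        obtain ⟨hc1, _⟩ := hT1 (c - k * ht b1) (by omega) _
          (show β - η1 ≤ _ from le_trans (by linarith) hk0)
        refine ⟨by rw [Nat.succ_mul]; omega, fun j hj => ?_⟩
        have ec : c - (k + 1) * ht b1 = c - k * ht b1 - ht b1 := by rw [Nat.succ_mul]; omega
        rw [ec]
        rcases Nat.eq_zero_or_pos j with rfl | hj0
        · obtain ⟨_, h4⟩ := hT2 (c - k * ht b1) (by omega) _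
            (show β - η2 ≤ _ from le_trans (by linarith) hk0)
          rw [← hh] at h4
          convert h4 using 3
          simp only [zero_smul, zero_add, Nat.sub_zero]
          rw [succ_nsmul]
          abel
        · obtain ⟨i, rfl⟩ : ∃ i, j = i + 1 := ⟨j - 1, by omega⟩
          obtain ⟨_, h4⟩ := hT1 (c - k * ht b1) (by omega) _
            (show β - η1 ≤ _ from le_trans (by linarith) (hb i (by omega)))
          convert h4 using 3
          rw [show k + 1 - (i + 1) = k - i by omega, succ_nsmul]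
          abel
    obtain ⟨k, hk⟩ := exists_nat_gt (2 / β)
    obtain ⟨η', hη', T, hT⟩ := iter k (β / 2) (by linarith)
    obtain ⟨c, hc, x, hx⟩ := hβ2 η' hη' T
    obtain ⟨_, hj⟩ := hT c hc x hx
    -- `k + 1` distinct points
    set p : ℕ → G := fun j => x - (j • z b1 + (k - j) • z b2) with hp
    have hinj : Set.InjOn p (Finset.range (k + 1) : Finset ℕ) := by
      intro i hi j hj' hij
      simp only [Finset.coe_range, Set.mem_Iio] at hi hj'
      have key : ∀ a b : ℕ, a < b → b ≤ k → p a ≠ p b := by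
        intro a b hab hbk heq
        have h3 : a • z b1 + (k - a) • z b2 = b • z b1 + (k - b) • z b2 := by
          have := congrArg (fun y => x - y) heq
          simpa [hp] using this
        obtain ⟨r, rfl⟩ : ∃ r, b = a + r := ⟨b - a, by omega⟩
        have h4 : (k - a) = r + (k - (a + r)) := by omega
        rw [h4, add_nsmul, add_nsmul] at h3
        apply hz r (by omega)
        rw [nsmul_sub]
        have h5 : a • z b1 + (r • z b2 + (k - (a + r)) • z b2)
            = a • z b1 + (k - (a + r)) • z b2 + r • z b2 := by abel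
        have h6 : a • z b1 + r • z b1 + (k - (a + r)) • z b2
            = a • z b1 + (k - (a + r)) • z b2 + r • z b1 := by abel
        rw [h5, h6] at h3
        rw [sub_eq_zero]
        exact (add_left_cancel h3).symm
      rcases lt_trichotomy i j with h | h | h
      · exact absurd hij (key i j h (by omega))
      · exact h
      · exact absurd hij.symm (key j i h (by omega))
    have hsum : ∑ j ∈ Finset.range (k + 1), Uz Λ ht z (c - k * ht b1) (p j) ≤ 1 := by
      rw [← Finset.sum_image (f := fun y => Uz Λ ht z (c - k * ht b1) y) (g := p) hinj]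
      exact (ENNReal.sum_le_tsum _).trans ((tsum_Uz Λ ht z _).le.trans (hU1 _))
    have hsum2 := ENNReal.toReal_mono ENNReal.one_ne_top hsum
    rw [ENNReal.toReal_sum (fun j _ => hfin _ _), ENNReal.toReal_one] at hsum2
    have hsum3 : ∑ j ∈ Finset.range (k + 1), (β / 2)
        ≤ ∑ j ∈ Finset.range (k + 1), (Uz Λ ht z (c - k * ht b1) (p j)).toReal := by
      refine Finset.sum_le_sum fun j hj' => ?_
      have := hj j (by have := Finset.mem_range.1 hj'; omega)
      simp only [hp]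
      linarith
    rw [Finset.sum_const, Finset.card_range, nsmul_eq_mul] at hsum3
    have h8 : 2 / β < (k : ℝ) + 1 := by linarith
    rw [div_lt_iff₀ hpos] at h8
    push_cast at hsum3
    linarith
  -- conclusion
  by_cases hδt : δ = ⊤
  · exact ⟨0, fun c _ x => by rw [hδt]; exact le_top⟩
  have hδ0 : 0 < δ.toReal := ENNReal.toReal_pos hδ hδt
  obtain ⟨T, hT⟩ := hβ1 δ.toReal hδ0
  refine ⟨T, fun c hc x => ?_⟩
  rw [← ENNReal.toReal_le_toReal (hfin c x) hδt]
  linarith [hT c hc x]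

end Crest.Agent.R154.Slab998
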