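import Mathlib

/-!
# Row 154, d = 2, (D2.9), helper612: the pair inequality of one slab, abstract

`(a, b)` independent (`a` = rows below the slab, `b` = fresh rows), `q a` a sub-Markov kernel, `D`, `L` functions
of `(a, y, b)` in `[-1, 1]`, `E = D - L`; off the set `Nr` of near pairs `L (a,y,·)` and `L (a,y',·)` are
uncorrelated for every frozen `a`. Then `E (Σ_y q D)²` is bounded by one-walker quantities and the mass of `Nr`.
-/

set_option autoImplicit false
set_option linter.unusedVariables false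
set_option linter.unusedSectionVars false

namespace Crest.Agent.R154.SlabCov

open MeasureTheory ProbabilityTheory
open scoped ENNReal

variable {Ω₀ Ω₁ S : Type*} [MeasurableSpace Ω₀] [MeasurableSpace Ω₁] [MeasurableSpace S]

/-- a bounded measurable function is integrable for a finite measure -/
lemma int_bdd {α : Type*} [MeasurableSpace α] {μ : Measure α} [IsFiniteMeasure μ] {f : α → ℝ}
    (hf : Measurable f) {C : ℝ} (hC : ∀ x, |f x| ≤ C) : Integrable f μ :=
  Integrable.of_bound hf.aestronglyMeasurable C (Filter.Eventually.of_forall fun x => by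
    simpa [Real.norm_eq_abs] using hC x)

section
variable (P₀ : Measure Ω₀) [IsProbabilityMeasure P₀] (P₁ : Measure Ω₁) [IsProbabilityMeasure P₁]
  (q : Kernel Ω₀ S) [IsFiniteKernel q]

/-- lower integral over the pair of a function of the first walker -/
lemma lint_fst (hq : ∀ a, q a Set.univ ≤ 1) {F : Ω₀ × S → ℝ≥0∞} (hF : Measurable F) :
    ∫⁻ p, F (p.1, p.2.1) ∂(P₀ ⊗ₘ (q ×ₖ q)) ≤ ∫⁻ p, F p ∂(P₀ ⊗ₘ q) := by
  rw [Measure.lintegral_compProd (by fun_prop), Measure.lintegral_compProd hF]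
  refine lintegral_mono fun a => ?_
  rw [Kernel.prod_apply, lintegral_prod _ (by fun_prop)]
  refine lintegral_mono fun y => ?_
  simp only [lintegral_const]
  calc F (a, y) * q a Set.univ ≤ F (a, y) * 1 := by gcongr; exact hq a
    _ = F (a, y) := mul_one _

lemma lint_snd (hq : ∀ a, q a Set.univ ≤ 1) {F : Ω₀ × S → ℝ≥0∞} (hF : Measurable F) :
    ∫⁻ p, F (p.1, p.2.2) ∂(P₀ ⊗ₘ (q ×ₖ q)) ≤ ∫⁻ p, F p ∂(P₀ ⊗ₘ q) := by
  rw [Measure.lintegral_compProd (by fun_prop), Measure.lintegral_compProd hF]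
  refine lintegral_mono fun a => ?_
  rw [Kernel.prod_apply, lintegral_prod_symm' _ (by fun_prop)]
  refine lintegral_mono fun y => ?_
  simp only [lintegral_const]
  calc F (a, y) * q a Set.univ ≤ F (a, y) * 1 := by gcongr; exact hq a
    _ = F (a, y) := mul_one _

lemma real_of_lint {α β : Type*} [MeasurableSpace α] [MeasurableSpace β] {μ : Measure α}
    {ν : Measure β} [IsFiniteMeasure μ] [IsFiniteMeasure ν] {f : α → ℝ} {g : β → ℝ}
    (hf : Measurable f) (hg : Measurable g) (hf0 : ∀ x, 0 ≤ f x) (hg0 : ∀ x, 0 ≤ g x)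
    {C : ℝ} (hgC : ∀ x, g x ≤ C)
    (h : ∫⁻ x, ENNReal.ofReal (f x) ∂μ ≤ ∫⁻ x, ENNReal.ofReal (g x) ∂ν) :
    ∫ x, f x ∂μ ≤ ∫ x, g x ∂ν := by
  rw [integral_eq_lintegral_of_nonneg_ae (Filter.Eventually.of_forall hf0) hf.aestronglyMeasurable,
    integral_eq_lintegral_of_nonneg_ae (Filter.Eventually.of_forall hg0) hg.aestronglyMeasurable]
  refine ENNReal.toReal_mono ?_ h
  have : Integrable g ν := int_bdd hg (C := C) fun x => by
    rw [abs_of_nonneg (hg0 x)]; exact hgC x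
  exact ((hasFiniteIntegral_iff_ofReal (Filter.Eventually.of_forall hg0)).1 this.2).ne

lemma int_fst (hq : ∀ a, q a Set.univ ≤ 1) {F : Ω₀ × S → ℝ} (hF : Measurable F)
    (h0 : ∀ x, 0 ≤ F x) {C : ℝ} (hC : ∀ x, F x ≤ C) :
    ∫ p, F (p.1, p.2.1) ∂(P₀ ⊗ₘ (q ×ₖ q)) ≤ ∫ p, F p ∂(P₀ ⊗ₘ q) :=
  real_of_lint (f := fun p : Ω₀ × (S × S) => F (p.1, p.2.1)) (by fun_prop) hF (fun p => h0 _) h0 hC
    (lint_fst P₀ q hq (F := fun p => ENNReal.ofReal (F p)) (by fun_prop))

lemma int_snd (hq : ∀ a, q a Set.univ ≤ 1) {F : Ω₀ × S → ℝ} (hF : Measurable F)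
    (h0 : ∀ x, 0 ≤ F x) {C : ℝ} (hC : ∀ x, F x ≤ C) :
    ∫ p, F (p.1, p.2.2) ∂(P₀ ⊗ₘ (q ×ₖ q)) ≤ ∫ p, F p ∂(P₀ ⊗ₘ q) :=
  real_of_lint (f := fun p : Ω₀ × (S × S) => F (p.1, p.2.2)) (by fun_prop) hF (fun p => h0 _) h0 hC
    (lint_snd P₀ q hq (F := fun p => ENNReal.ofReal (F p)) (by fun_prop))

/-- the square of the quenched mean as an integral over the pair in the same environment -/
lemma sq_eq {D : (Ω₀ × S) × Ω₁ → ℝ} (hD : Measurable D) (hC : ∀ x, |D x| ≤ 1) :
    ∫ a, ∫ b, (∫ y, D ((a, y), b) ∂(q a)) ^ 2 ∂P₁ ∂P₀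
      = ∫ p, (∫ b, D ((p.1, p.2.1), b) * D ((p.1, p.2.2), b) ∂P₁) ∂(P₀ ⊗ₘ (q ×ₖ q)) := by
  have hDD : Measurable fun x : (Ω₀ × (S × S)) × Ω₁ =>
      D ((x.1.1, x.1.2.1), x.2) * D ((x.1.1, x.1.2.2), x.2) := by fun_prop
  have hDD1 : ∀ x : (Ω₀ × (S × S)) × Ω₁,
      |D ((x.1.1, x.1.2.1), x.2) * D ((x.1.1, x.1.2.2), x.2)| ≤ 1 := fun x => by
    rw [abs_mul]
    exact mul_le_one₀ (hC _) (abs_nonneg _) (hC _)
  have hm : Measurable fun p : Ω₀ × (S × S) =>
      ∫ b, D ((p.1, p.2.1), b) * D ((p.1, p.2.2), b) ∂P₁ :=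
    (StronglyMeasurable.integral_prod_right (f := fun (p : Ω₀ × (S × S)) b =>
      D ((p.1, p.2.1), b) * D ((p.1, p.2.2), b)) hDD.stronglyMeasurable).measurable
  have hb : ∀ p : Ω₀ × (S × S), |∫ b, D ((p.1, p.2.1), b) * D ((p.1, p.2.2), b) ∂P₁| ≤ 1 := by
    intro p
    have := norm_integral_le_of_norm_le_const (μ := P₁) (C := 1)
      (f := fun b => D ((p.1, p.2.1), b) * D ((p.1, p.2.2), b))
      (Filter.Eventually.of_forall fun b => by
        simpa [Real.norm_eq_abs] using hDD1 (p, b))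
    simpa [Real.norm_eq_abs] using this
  rw [Measure.integral_compProd (int_bdd hm hb)]
  refine integral_congr_ae (Filter.Eventually.of_forall fun a => ?_)
  show ∫ b, (∫ y, D ((a, y), b) ∂(q a)) ^ 2 ∂P₁ =
    ∫ y, (∫ b, D ((a, y.1), b) * D ((a, y.2), b) ∂P₁) ∂((q ×ₖ q) a)
  rw [Kernel.prod_apply, integral_integral_swap]
  · refine integral_congr_ae (Filter.Eventually.of_forall fun b => ?_)
    show (∫ y, D ((a, y), b) ∂(q a)) ^ 2 = ∫ y, D ((a, y.1), b) * D ((a, y.2), b) ∂(q a).prod (q a)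
    rw [integral_prod_mul (μ := q a) (ν := q a) (fun y => D ((a, y), b)) (fun y => D ((a, y), b)),
      sq]
  · exact int_bdd (C := 1) (by fun_prop) fun x => hDD1 ((a, x.1), x.2)

/-- Jensen -/
lemma sq_int_le {f : Ω₁ → ℝ} (hf : Measurable f) {C : ℝ} (hC : ∀ x, |f x| ≤ C) :
    (∫ b, f b ∂P₁) ^ 2 ≤ ∫ b, f b ^ 2 ∂P₁ := by
  have h1 : Integrable f P₁ := int_bdd hf hC
  have h2 : Integrable (fun b => f b ^ 2) P₁ := int_bdd (C := C ^ 2) (by fun_prop) fun x => by
    rw [abs_of_nonneg (sq_nonneg _), ← sq_abs]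
    exact pow_le_pow_left₀ (abs_nonneg _) (hC x) 2
  set m := ∫ b, f b ∂P₁
  have h3 : 0 ≤ ∫ b, (f b - m) ^ 2 ∂P₁ := integral_nonneg fun b => sq_nonneg _
  have h4 : ∫ b, (f b - m) ^ 2 ∂P₁ = (∫ b, f b ^ 2 ∂P₁) - m ^ 2 := by
    have e1 : (fun b => (f b - m) ^ 2) = fun b => (f b ^ 2 - (2 * m) * f b) + m ^ 2 := by
      funext b; ring
    have e2 := integral_add (μ := P₁) (f := fun b => f b ^ 2 - (2 * m) * f b)
      (g := fun _ => m ^ 2) (h2.sub (h1.const_mul (2 * m))) (integrable_const _)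
    have e3 := integral_sub (μ := P₁) (f := fun b => f b ^ 2) (g := fun b => (2 * m) * f b)
      h2 (h1.const_mul (2 * m))
    rw [e1, e2, e3, integral_const_mul]
    simp only [integral_const, probReal_univ, smul_eq_mul, one_mul]
    show (∫ b, f b ^ 2 ∂P₁) - 2 * m * m + m ^ 2 = _
    ring
  linarith

set_option maxHeartbeats 2000000 in
/-- **the slab inequality** -/
theorem slab (hq : ∀ a, q a Set.univ ≤ 1) {D L : (Ω₀ × S) × Ω₁ → ℝ} (hD : Measurable D)
    (hL : Measurable L) (hD1 : ∀ x, |D x| ≤ 1) (hL1 : ∀ x, |L x| ≤ 1)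
    {Nr : Set (S × S)} (hNr : MeasurableSet Nr)
    (hind : ∀ a y y', (y, y') ∉ Nr → ∫ b, L ((a, y), b) * L ((a, y'), b) ∂P₁ =
      (∫ b, L ((a, y), b) ∂P₁) * ∫ b, L ((a, y'), b) ∂P₁)
    {β t : ℝ} (hβ : 0 ≤ β) (ht : 0 < t) (ht1 : t ≤ 1) :
    ∫ a, ∫ b, (∫ y, D ((a, y), b) ∂(q a)) ^ 2 ∂P₁ ∂P₀ ≤
      β ^ 2 * (P₀ ⊗ₘ (q ×ₖ q)).real {p | p.2 ∈ Nr}
      + ∫ p, (∫ b, max (D (p, b) ^ 2 - β ^ 2) 0 ∂P₁) ∂(P₀ ⊗ₘ q)
      + ∫ p, |∫ b, D (p, b) ∂P₁| ∂(P₀ ⊗ₘ q)
      + 3 * t * ∫ p, (∫ b, D (p, b) ^ 2 ∂P₁) ∂(P₀ ⊗ₘ q)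
      + 4 / t * ∫ p, (∫ b, (D (p, b) - L (p, b)) ^ 2 ∂P₁) ∂(P₀ ⊗ₘ q) := by
  classical
  set μ : Measure (Ω₀ × (S × S)) := P₀ ⊗ₘ (q ×ₖ q) with hμ
  -- one walker functions of (a, y)
  set T : Ω₀ × S → ℝ := fun p => ∫ b, max (D (p, b) ^ 2 - β ^ 2) 0 ∂P₁ with hT
  set R : Ω₀ × S → ℝ := fun p => |∫ b, D (p, b) ∂P₁| with hR
  set D2 : Ω₀ × S → ℝ := fun p => ∫ b, D (p, b) ^ 2 ∂P₁ with hD2
  set E2 : Ω₀ × S → ℝ := fun p => ∫ b, (D (p, b) - L (p, b)) ^ 2 ∂P₁ with hE2
  have mInt : ∀ {f : (Ω₀ × S) × Ω₁ → ℝ}, Measurable f → Measurable fun p => ∫ b, f (p, b) ∂P₁ := by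
    intro f hf
    exact (StronglyMeasurable.integral_prod_right (f := fun (p : Ω₀ × S) b => f (p, b))
      hf.stronglyMeasurable).measurable
  have mT : Measurable T := mInt (f := fun x => max (D x ^ 2 - β ^ 2) 0) (by fun_prop)
  have mR : Measurable R := (mInt hD).abs
  have mD2 : Measurable D2 := mInt (f := fun x => D x ^ 2) (by fun_prop)
  have mE2 : Measurable E2 := mInt (f := fun x => (D x - L x) ^ 2) (by fun_prop)
  have mcL : Measurable fun p => ∫ b, L (p, b) ∂P₁ := mInt hL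
  have mcE : Measurable fun p => ∫ b, (D (p, b) - L (p, b)) ∂P₁ :=
    mInt (f := fun x => D x - L x) (by fun_prop)
  -- bounds
  have hD2x : ∀ x, D x ^ 2 ≤ 1 := fun x => by
    rw [← sq_abs]; exact pow_le_one₀ (abs_nonneg _) (hD1 x)
  have hE1 : ∀ x, |D x - L x| ≤ 2 := fun x => by
    have := abs_sub (D x) (L x)
    have := hD1 x; have := hL1 x; linarith
  have hE2x : ∀ x, (D x - L x) ^ 2 ≤ 4 := fun x => by
    rw [← sq_abs]
    calc |D x - L x| ^ 2 ≤ 2 ^ 2 := pow_le_pow_left₀ (abs_nonneg _) (hE1 x) 2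
      _ = 4 := by norm_num
  have hT0x : ∀ x, 0 ≤ max (D x ^ 2 - β ^ 2) 0 := fun x => le_max_right _ _
  have hT1x : ∀ x, max (D x ^ 2 - β ^ 2) 0 ≤ 1 := fun x =>
    max_le (by have := hD2x x; nlinarith [sq_nonneg β]) zero_le_one
  have bInt : ∀ {f : (Ω₀ × S) × Ω₁ → ℝ} {C : ℝ}, (∀ x, 0 ≤ f x) → (∀ x, f x ≤ C) → Measurable f →
      ∀ p, 0 ≤ ∫ b, f (p, b) ∂P₁ ∧ ∫ b, f (p, b) ∂P₁ ≤ C := by
    intro f C h0 h1 hf p
    refine ⟨integral_nonneg fun b => h0 _, ?_⟩
    calc ∫ b, f (p, b) ∂P₁ ≤ ∫ _, C ∂P₁ :=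
          integral_mono (int_bdd (C := C) (by fun_prop) fun b => by
            rw [abs_of_nonneg (h0 _)]; exact h1 _) (integrable_const _) fun b => h1 _
      _ = C := by simp
  have bT := bInt (f := fun x => max (D x ^ 2 - β ^ 2) 0) hT0x hT1x (by fun_prop)
  have bD2 := bInt (f := fun x => D x ^ 2) (fun x => sq_nonneg _) hD2x (by fun_prop)
  have bE2 := bInt (f := fun x => (D x - L x) ^ 2) (fun x => sq_nonneg _) hE2x (by fun_prop)
  have bR : ∀ p, 0 ≤ R p ∧ R p ≤ 1 := by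
    intro p
    refine ⟨abs_nonneg _, ?_⟩
    have := norm_integral_le_of_norm_le_const (μ := P₁) (C := 1) (f := fun b => D (p, b))
      (Filter.Eventually.of_forall fun b => by simpa [Real.norm_eq_abs] using hD1 (p, b))
    simpa [Real.norm_eq_abs, hR] using this
  have ht' : 0 < 1 / t := by positivity
  -- the two one-walker majorants
  set F1 : Ω₀ × S → ℝ := fun x => T x / 2 + R x + t * D2 x + (t + 1 / t) * E2 x with hF1
  set F2 : Ω₀ × S → ℝ := fun x => T x / 2 + (3 * t / 2) * D2 x + (t + 1 / (2 * t)) * E2 x with hF2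
  have mF1 : Measurable F1 := by fun_prop
  have mF2 : Measurable F2 := by fun_prop
  have hF10 : ∀ x, 0 ≤ F1 x := fun x => by
    have := (bT x).1; have := (bR x).1; have := (bD2 x).1; have := (bE2 x).1
    simp only [hF1]; positivity
  have hF20 : ∀ x, 0 ≤ F2 x := fun x => by
    have := (bT x).1; have := (bR x).1; have := (bD2 x).1; have := (bE2 x).1
    simp only [hF2]; positivity
  have hF1b : ∀ x, F1 x ≤ 2 + t + (t + 1 / t) * 4 := fun x => by
    have h1 := (bT x).2; have h2 := (bR x).2; have h3 := (bD2 x).2; have h4 := (bE2 x).2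
    have h5 : t * D2 x ≤ t * 1 := by gcongr
    have h6 : (t + 1 / t) * E2 x ≤ (t + 1 / t) * 4 := by gcongr
    simp only [hF1]; linarith
  have hF2b : ∀ x, F2 x ≤ 2 + 3 * t / 2 + (t + 1 / (2 * t)) * 4 := fun x => by
    have h1 := (bT x).2; have h2 := (bR x).2; have h3 := (bD2 x).2; have h4 := (bE2 x).2
    have h5 : (3 * t / 2) * D2 x ≤ (3 * t / 2) * 1 := by gcongr
    have h6 : (t + 1 / (2 * t)) * E2 x ≤ (t + 1 / (2 * t)) * 4 := by gcongr
    simp only [hF2]; linarith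
  rw [sq_eq P₀ P₁ q hD hD1]
  set G : Ω₀ × (S × S) → ℝ := fun p => ∫ b, D ((p.1, p.2.1), b) * D ((p.1, p.2.2), b) ∂P₁ with hG
  have key : ∀ p, G p ≤ Set.indicator {p : Ω₀ × (S × S) | p.2 ∈ Nr} (fun _ => β ^ 2) p
      + F1 (p.1, p.2.1) + F2 (p.1, p.2.2) := by
    rintro ⟨a, y, y'⟩
    have iD : ∀ z, Integrable (fun b => D ((a, z), b)) P₁ := fun z =>
      int_bdd (C := 1) (by fun_prop) fun b => hD1 _
    have iL : ∀ z, Integrable (fun b => L ((a, z), b)) P₁ := fun z =>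
      int_bdd (C := 1) (by fun_prop) fun b => hL1 _
    have iDD : ∀ z z', Integrable (fun b => D ((a, z), b) * D ((a, z'), b)) P₁ := fun z z' =>
      int_bdd (C := 1) (by fun_prop) fun b => by
        rw [abs_mul]; exact mul_le_one₀ (hD1 _) (abs_nonneg _) (hD1 _)
    have iD2 : ∀ z, Integrable (fun b => D ((a, z), b) ^ 2) P₁ := fun z =>
      int_bdd (C := 1) (by fun_prop) fun b => by
        rw [abs_of_nonneg (sq_nonneg _)]; exact hD2x _
    have iE2 : ∀ z, Integrable (fun b => (D ((a, z), b) - L ((a, z), b)) ^ 2) P₁ := fun z =>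
      int_bdd (C := 4) (by fun_prop) fun b => by
        rw [abs_of_nonneg (sq_nonneg _)]; exact hE2x _
    have iT : ∀ z, Integrable (fun b => max (D ((a, z), b) ^ 2 - β ^ 2) 0) P₁ := fun z =>
      int_bdd (C := 1) (by fun_prop) fun b => by
        rw [abs_of_nonneg (hT0x _)]; exact hT1x _
    have hT0 := (bT (a, y)).1
    have hT0' := (bT (a, y')).1
    have hR0 := (bR (a, y)).1
    have hR0' := (bR (a, y')).1
    have hD0 := (bD2 (a, y)).1
    have hD0' := (bD2 (a, y')).1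
    have hE0 := (bE2 (a, y)).1
    have hE0' := (bE2 (a, y')).1
    by_cases hn : (y, y') ∈ Nr
    · have hi : Set.indicator {p : Ω₀ × (S × S) | p.2 ∈ Nr} (fun _ => β ^ 2) (a, y, y') = β ^ 2 :=
        Set.indicator_of_mem (by exact hn) _
      rw [hi]
      have h1 : G (a, y, y') ≤ ∫ b, (β ^ 2 + (1 / 2) * max (D ((a, y), b) ^ 2 - β ^ 2) 0
          + (1 / 2) * max (D ((a, y'), b) ^ 2 - β ^ 2) 0) ∂P₁ := by
        refine integral_mono (iDD y y')
          (((integrable_const _).add ((iT y).const_mul _)).add ((iT y').const_mul _)) fun b => ?_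
        have e1 := le_max_left (D ((a, y), b) ^ 2 - β ^ 2) 0
        have e2 := le_max_left (D ((a, y'), b) ^ 2 - β ^ 2) 0
        have e3 := sq_nonneg (D ((a, y), b) - D ((a, y'), b))
        show D ((a, y), b) * D ((a, y'), b) ≤ _
        nlinarith
      have h2 : ∫ b, (β ^ 2 + (1 / 2) * max (D ((a, y), b) ^ 2 - β ^ 2) 0
          + (1 / 2) * max (D ((a, y'), b) ^ 2 - β ^ 2) 0) ∂P₁
          = β ^ 2 + (1 / 2) * T (a, y) + (1 / 2) * T (a, y') := by
        have e2 := integral_add (μ := P₁)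
          (f := fun b => β ^ 2 + (1 / 2) * max (D ((a, y), b) ^ 2 - β ^ 2) 0)
          (g := fun b => (1 / 2) * max (D ((a, y'), b) ^ 2 - β ^ 2) 0)
          ((integrable_const _).add ((iT y).const_mul _)) ((iT y').const_mul _)
        have e3 := integral_add (μ := P₁) (f := fun _ => β ^ 2)
          (g := fun b => (1 / 2) * max (D ((a, y), b) ^ 2 - β ^ 2) 0)
          (integrable_const _) ((iT y).const_mul _)
        rw [e2, e3, integral_const_mul, integral_const_mul]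
        simp [hT]
      have h3 : 0 ≤ (t + 1 / t) * E2 (a, y) := by positivity
      have h4 : 0 ≤ (t + 1 / (2 * t)) * E2 (a, y') := by positivity
      have h5 : 0 ≤ t * D2 (a, y) := by positivity
      have h6 : 0 ≤ (3 * t / 2) * D2 (a, y') := by positivity
      simp only [hF1, hF2]
      linarith
    · have hi : Set.indicator {p : Ω₀ × (S × S) | p.2 ∈ Nr} (fun _ => β ^ 2) (a, y, y') = 0 :=
        Set.indicator_of_notMem (by exact hn) _
      rw [hi]
      set c := ∫ b, L ((a, y), b) ∂P₁ with hc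
      set c' := ∫ b, L ((a, y'), b) ∂P₁ with hc'
      have iLL : Integrable (fun b => L ((a, y), b) * L ((a, y'), b)) P₁ :=
        int_bdd (C := 1) (by fun_prop) fun b => by
          rw [abs_mul]; exact mul_le_one₀ (hL1 _) (abs_nonneg _) (hL1 _)
      -- the integral is at most c c' + the error terms
      have h1 : G (a, y, y') ≤ ∫ b, (L ((a, y), b) * L ((a, y'), b)
          + (t * D ((a, y), b) ^ 2 + t / 2 * D ((a, y'), b) ^ 2
          + (t + 1 / (2 * t)) * (D ((a, y), b) - L ((a, y), b)) ^ 2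
          + 1 / (2 * t) * (D ((a, y'), b) - L ((a, y'), b)) ^ 2)) ∂P₁ := by
        refine integral_mono (iDD y y') (iLL.add (((((iD2 y).const_mul _).add
          ((iD2 y').const_mul _)).add ((iE2 y).const_mul _)).add ((iE2 y').const_mul _)))
          fun b => ?_
        show D ((a, y), b) * D ((a, y'), b) ≤ _
        set u := D ((a, y), b)
        set u' := D ((a, y'), b)
        set l := L ((a, y), b)
        set l' := L ((a, y'), b)
        have k1 : l * (u' - l') ≤ t / 2 * l ^ 2 + 1 / (2 * t) * (u' - l') ^ 2 := by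
          have : 0 ≤ (t * l - (u' - l')) ^ 2 / (2 * t) := by positivity
          have e : (t * l - (u' - l')) ^ 2 / (2 * t)
            = t / 2 * l ^ 2 - l * (u' - l') + 1 / (2 * t) * (u' - l') ^ 2 := by
            field_simp; ring
          linarith
        have k2 : (u - l) * u' ≤ t / 2 * u' ^ 2 + 1 / (2 * t) * (u - l) ^ 2 := by
          have : 0 ≤ (t * u' - (u - l)) ^ 2 / (2 * t) := by positivity
          have e : (t * u' - (u - l)) ^ 2 / (2 * t)
            = t / 2 * u' ^ 2 - (u - l) * u' + 1 / (2 * t) * (u - l) ^ 2 := by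
            field_simp; ring
          linarith
        have k3 : t / 2 * l ^ 2 ≤ t * u ^ 2 + t * (u - l) ^ 2 := by
          have : l ^ 2 ≤ 2 * u ^ 2 + 2 * (u - l) ^ 2 := by nlinarith [sq_nonneg (2 * u - l)]
          have : t / 2 * l ^ 2 ≤ t / 2 * (2 * u ^ 2 + 2 * (u - l) ^ 2) := by gcongr
          linarith
        have e : u * u' = l * l' + l * (u' - l') + (u - l) * u' := by ring
        rw [e]
        have : (t + 1 / (2 * t)) * (u - l) ^ 2 = t * (u - l) ^ 2 + 1 / (2 * t) * (u - l) ^ 2 := by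
          ring
        linarith
      have h2 : ∫ b, (L ((a, y), b) * L ((a, y'), b)
          + (t * D ((a, y), b) ^ 2 + t / 2 * D ((a, y'), b) ^ 2
          + (t + 1 / (2 * t)) * (D ((a, y), b) - L ((a, y), b)) ^ 2
          + 1 / (2 * t) * (D ((a, y'), b) - L ((a, y'), b)) ^ 2)) ∂P₁
          = c * c' + (t * D2 (a, y) + t / 2 * D2 (a, y')
            + (t + 1 / (2 * t)) * E2 (a, y) + 1 / (2 * t) * E2 (a, y')) := by
        have e1 := integral_add (μ := P₁) (f := fun b => L ((a, y), b) * L ((a, y'), b))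
          (g := fun b => t * D ((a, y), b) ^ 2 + t / 2 * D ((a, y'), b) ^ 2
            + (t + 1 / (2 * t)) * (D ((a, y), b) - L ((a, y), b)) ^ 2
            + 1 / (2 * t) * (D ((a, y'), b) - L ((a, y'), b)) ^ 2) iLL
          (((((iD2 y).const_mul _).add ((iD2 y').const_mul _)).add
            ((iE2 y).const_mul _)).add ((iE2 y').const_mul _))
        have e2 := integral_add (μ := P₁)
          (f := fun b => t * D ((a, y), b) ^ 2 + t / 2 * D ((a, y'), b) ^ 2
            + (t + 1 / (2 * t)) * (D ((a, y), b) - L ((a, y), b)) ^ 2)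
          (g := fun b => 1 / (2 * t) * (D ((a, y'), b) - L ((a, y'), b)) ^ 2)
          ((((iD2 y).const_mul _).add ((iD2 y').const_mul _)).add
            ((iE2 y).const_mul _)) ((iE2 y').const_mul _)
        have e3 := integral_add (μ := P₁)
          (f := fun b => t * D ((a, y), b) ^ 2 + t / 2 * D ((a, y'), b) ^ 2)
          (g := fun b => (t + 1 / (2 * t)) * (D ((a, y), b) - L ((a, y), b)) ^ 2)
          (((iD2 y).const_mul _).add ((iD2 y').const_mul _)) ((iE2 y).const_mul _)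
        have e4 := integral_add (μ := P₁)
          (f := fun b => t * D ((a, y), b) ^ 2) (g := fun b => t / 2 * D ((a, y'), b) ^ 2)
          ((iD2 y).const_mul _) ((iD2 y').const_mul _)
        rw [e1, e2, e3, e4, hind a y y' hn, integral_const_mul, integral_const_mul,
          integral_const_mul, integral_const_mul]
      -- the product of the centred means
      have hcD : c = (∫ b, D ((a, y), b) ∂P₁) - ∫ b, (D ((a, y), b) - L ((a, y), b)) ∂P₁ := by
        rw [integral_sub (iD y) (iL y)]; ring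
      have hc1 : |c'| ≤ 1 := by
        have := norm_integral_le_of_norm_le_const (μ := P₁) (C := 1) (f := fun b => L ((a, y'), b))
          (Filter.Eventually.of_forall fun b => by simpa [Real.norm_eq_abs] using hL1 ((a, y'), b))
        simpa [Real.norm_eq_abs] using this
      set e := ∫ b, (D ((a, y), b) - L ((a, y), b)) ∂P₁ with he
      have hee : e ^ 2 ≤ E2 (a, y) :=
        sq_int_le P₁ (f := fun b => D ((a, y), b) - L ((a, y), b)) (by fun_prop) (C := 2)
          fun b => hE1 _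
      have hcc : c' ^ 2 ≤ 2 * D2 (a, y') + 2 * E2 (a, y') := by
        have k1 : c' ^ 2 ≤ ∫ b, L ((a, y'), b) ^ 2 ∂P₁ :=
          sq_int_le P₁ (f := fun b => L ((a, y'), b)) (by fun_prop) (C := 1) fun b => hL1 _
        have k2 : ∫ b, L ((a, y'), b) ^ 2 ∂P₁ ≤ ∫ b, (2 * D ((a, y'), b) ^ 2
            + 2 * (D ((a, y'), b) - L ((a, y'), b)) ^ 2) ∂P₁ := by
          refine integral_mono (int_bdd (C := 1) (by fun_prop) fun b => ?_)
            (((iD2 y').const_mul _).add ((iE2 y').const_mul _)) fun b => ?_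
          · rw [abs_of_nonneg (sq_nonneg _), ← sq_abs]
            exact pow_le_one₀ (abs_nonneg _) (hL1 _)
          · show L ((a, y'), b) ^ 2 ≤ _
            nlinarith [sq_nonneg (2 * D ((a, y'), b) - L ((a, y'), b))]
        have k3 := integral_add (μ := P₁) (f := fun b => 2 * D ((a, y'), b) ^ 2)
          (g := fun b => 2 * (D ((a, y'), b) - L ((a, y'), b)) ^ 2)
          ((iD2 y').const_mul _) ((iE2 y').const_mul _)
        rw [k3, integral_const_mul, integral_const_mul] at k2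
        exact k1.trans k2
      have h3 : c * c' ≤ R (a, y) + 1 / (2 * t) * E2 (a, y)
          + (t * D2 (a, y') + t * E2 (a, y')) := by
        have k1 : (∫ b, D ((a, y), b) ∂P₁) * c' ≤ R (a, y) := by
          calc (∫ b, D ((a, y), b) ∂P₁) * c' ≤ |(∫ b, D ((a, y), b) ∂P₁) * c'| := le_abs_self _
            _ = |∫ b, D ((a, y), b) ∂P₁| * |c'| := abs_mul _ _
            _ ≤ |∫ b, D ((a, y), b) ∂P₁| * 1 := by gcongr
            _ = R (a, y) := mul_one _
        have k2 : -(e * c') ≤ 1 / (2 * t) * e ^ 2 + t / 2 * c' ^ 2 := by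
          have : 0 ≤ (t * c' + e) ^ 2 / (2 * t) := by positivity
          have e' : (t * c' + e) ^ 2 / (2 * t)
            = t / 2 * c' ^ 2 + e * c' + 1 / (2 * t) * e ^ 2 := by
            field_simp; ring
          linarith
        have k3 : 1 / (2 * t) * e ^ 2 ≤ 1 / (2 * t) * E2 (a, y) := by gcongr
        have k4 : t / 2 * c' ^ 2 ≤ t / 2 * (2 * D2 (a, y') + 2 * E2 (a, y')) := by gcongr
        have k5 : c * c' = (∫ b, D ((a, y), b) ∂P₁) * c' + -(e * c') := by
          rw [hcD]; ring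
        rw [k5]
        linarith
      have h4 : 0 ≤ T (a, y) / 2 := by positivity
      have h5 : 0 ≤ T (a, y') / 2 := by positivity
      have h6 : (t + 1 / (2 * t)) * E2 (a, y) + 1 / (2 * t) * E2 (a, y)
          = (t + 1 / t) * E2 (a, y) := by
        field_simp; ring
      have h7 : 1 / (2 * t) * E2 (a, y') + t * E2 (a, y')
          = (t + 1 / (2 * t)) * E2 (a, y') := by ring
      have h8 : t / 2 * D2 (a, y') + t * D2 (a, y') = (3 * t / 2) * D2 (a, y') := by ring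
      simp only [hF1, hF2]
      linarith
  have mG : Measurable G :=
    (StronglyMeasurable.integral_prod_right (f := fun (p : Ω₀ × (S × S)) b =>
      D ((p.1, p.2.1), b) * D ((p.1, p.2.2), b)) (Measurable.stronglyMeasurable (by fun_prop))).measurable
  have hNr' : MeasurableSet {p : Ω₀ × (S × S) | p.2 ∈ Nr} := measurable_snd hNr
  have i1 : Integrable (Set.indicator {p : Ω₀ × (S × S) | p.2 ∈ Nr} fun _ => β ^ 2) μ :=
    (integrable_const _).indicator hNr'
  have i2 : Integrable (fun p : Ω₀ × (S × S) => F1 (p.1, p.2.1)) μ :=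
    int_bdd (C := 2 + t + (t + 1 / t) * 4) (by fun_prop) fun p => by
      rw [abs_of_nonneg (hF10 _)]; exact hF1b _
  have i3 : Integrable (fun p : Ω₀ × (S × S) => F2 (p.1, p.2.2)) μ :=
    int_bdd (C := 2 + 3 * t / 2 + (t + 1 / (2 * t)) * 4) (by fun_prop) fun p => by
      rw [abs_of_nonneg (hF20 _)]; exact hF2b _
  have i4 : Integrable G μ := int_bdd (C := 1) mG fun p => by
    have := norm_integral_le_of_norm_le_const (μ := P₁) (C := 1)
      (f := fun b => D ((p.1, p.2.1), b) * D ((p.1, p.2.2), b))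
      (Filter.Eventually.of_forall fun b => by
        rw [Real.norm_eq_abs, abs_mul]; exact mul_le_one₀ (hD1 _) (abs_nonneg _) (hD1 _))
    simpa [Real.norm_eq_abs] using this
  have s1 : ∫ p, G p ∂μ ≤ ∫ p, (Set.indicator {p : Ω₀ × (S × S) | p.2 ∈ Nr} (fun _ => β ^ 2) p
      + F1 (p.1, p.2.1) + F2 (p.1, p.2.2)) ∂μ :=
    integral_mono i4 ((i1.add i2).add i3) key
  have s2 : ∫ p, (Set.indicator {p : Ω₀ × (S × S) | p.2 ∈ Nr} (fun _ => β ^ 2) p
      + F1 (p.1, p.2.1) + F2 (p.1, p.2.2)) ∂μ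
      = β ^ 2 * μ.real {p | p.2 ∈ Nr} + ∫ p, F1 (p.1, p.2.1) ∂μ + ∫ p, F2 (p.1, p.2.2) ∂μ := by
    have e1 := integral_add (μ := μ)
      (f := fun p => Set.indicator {p : Ω₀ × (S × S) | p.2 ∈ Nr} (fun _ => β ^ 2) p
        + F1 (p.1, p.2.1)) (g := fun p => F2 (p.1, p.2.2)) (i1.add i2) i3
    have e2 := integral_add (μ := μ)
      (f := fun p => Set.indicator {p : Ω₀ × (S × S) | p.2 ∈ Nr} (fun _ => β ^ 2) p)
      (g := fun p => F1 (p.1, p.2.1)) i1 i2
    rw [e1, e2, integral_indicator hNr', setIntegral_const, smul_eq_mul, mul_comm (β ^ 2)]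
  have s3 := int_fst P₀ q hq mF1 hF10 hF1b
  have s4 := int_snd P₀ q hq mF2 hF20 hF2b
  set M : Measure (Ω₀ × S) := P₀ ⊗ₘ q with hM
  have jT : Integrable T M := int_bdd (C := 1) mT fun p => by
    rw [abs_of_nonneg (bT p).1]; exact (bT p).2
  have jR : Integrable R M := int_bdd (C := 1) mR fun p => by
    rw [abs_of_nonneg (bR p).1]; exact (bR p).2
  have jD : Integrable D2 M := int_bdd (C := 1) mD2 fun p => by
    rw [abs_of_nonneg (bD2 p).1]; exact (bD2 p).2
  have jE : Integrable E2 M := int_bdd (C := 4) mE2 fun p => by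
    rw [abs_of_nonneg (bE2 p).1]; exact (bE2 p).2
  have s5 : ∫ p, F1 p ∂M = (∫ p, T p ∂M) / 2 + (∫ p, R p ∂M) + t * (∫ p, D2 p ∂M)
      + (t + 1 / t) * ∫ p, E2 p ∂M := by
    have e1 := integral_add (μ := M) (f := fun x => T x / 2 + R x + t * D2 x)
      (g := fun x => (t + 1 / t) * E2 x) (((jT.div_const 2).add jR).add (jD.const_mul t))
      (jE.const_mul _)
    have e2 := integral_add (μ := M) (f := fun x => T x / 2 + R x)
      (g := fun x => t * D2 x) ((jT.div_const 2).add jR) (jD.const_mul t)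
    have e3 := integral_add (μ := M) (f := fun x => T x / 2) (g := R) (jT.div_const 2) jR
    simp only [hF1]
    rw [e1, e2, e3, integral_const_mul, integral_const_mul, integral_div]
  have s6 : ∫ p, F2 p ∂M = (∫ p, T p ∂M) / 2 + (3 * t / 2) * (∫ p, D2 p ∂M)
      + (t + 1 / (2 * t)) * ∫ p, E2 p ∂M := by
    have e1 := integral_add (μ := M) (f := fun x => T x / 2 + (3 * t / 2) * D2 x)
      (g := fun x => (t + 1 / (2 * t)) * E2 x) ((jT.div_const 2).add (jD.const_mul _))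
      (jE.const_mul _)
    have e2 := integral_add (μ := M) (f := fun x => T x / 2)
      (g := fun x => (3 * t / 2) * D2 x) (jT.div_const 2) (jD.const_mul _)
    simp only [hF2]
    rw [e1, e2, integral_const_mul, integral_const_mul, integral_div]
  have pT : 0 ≤ ∫ p, T p ∂M := integral_nonneg fun p => (bT p).1
  have pD : 0 ≤ ∫ p, D2 p ∂M := integral_nonneg fun p => (bD2 p).1
  have pE : 0 ≤ ∫ p, E2 p ∂M := integral_nonneg fun p => (bE2 p).1
  have s7 : (t + 1 / t) * (∫ p, E2 p ∂M) + (t + 1 / (2 * t)) * ∫ p, E2 p ∂M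
      ≤ 4 / t * ∫ p, E2 p ∂M := by
    have : (t + 1 / t) + (t + 1 / (2 * t)) ≤ 4 / t := by
      have h1 : t ≤ 1 / t := by
        rw [le_div_iff₀ ht]; nlinarith
      have h2 : 1 / (2 * t) = (1 / 2) * (1 / t) := by field_simp
      have h3 : 4 / t = 4 * (1 / t) := by ring
      rw [h2, h3]
      linarith
    calc (t + 1 / t) * (∫ p, E2 p ∂M) + (t + 1 / (2 * t)) * ∫ p, E2 p ∂M
        = ((t + 1 / t) + (t + 1 / (2 * t))) * ∫ p, E2 p ∂M := by ring
      _ ≤ 4 / t * ∫ p, E2 p ∂M := by gcongr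
  have s8 : t * (∫ p, D2 p ∂M) + (3 * t / 2) * (∫ p, D2 p ∂M) ≤ 3 * t * ∫ p, D2 p ∂M := by
    nlinarith [mul_nonneg ht.le pD]
  rw [s5] at s3
  rw [s6] at s4
  linarith [s1, s2.le, s2.ge]

end

end Crest.Agent.R154.SlabCov
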