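import Crest.Agent.R154.B5Abs_566

/-! Row 154, ROAD 801 (helper184): the thin slab term.
`TT s z ht L x a` = sites (position, depth) read by the list of blocks `L` whose top is at position
`x`, depth `a`.  Two independent lists with relative displacement of law `μ ≤ M` have a common site
at a depth in `[lo, hi)` with mass at most `(hi - lo) * (tl X c + tl Y c + M c²)`, and `tl c → 0`. -/

set_option autoImplicit false

namespace Crest.Agent.R154.SlabT184

open scoped ENNReal
open Crest.Agent.R154.B5A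

variable {B G : Type*} [AddCommGroup G]

/-- sites (position, depth) read by a list of blocks whose top is at `x`, depth `a` -/
def TT (s : B → Set (G × ℕ)) (z : B → G) (ht : B → ℕ) : List B → G → ℕ → Set (G × ℕ)
  | [], _, _ => ∅
  | b :: L, x, a => {p | ∃ q ∈ s b, p = (x + q.1, a + q.2)} ∪ TT s z ht L (x + z b) (a + ht b)

/-- the slice of a block -/
def sl (s : B → Set (G × ℕ)) (b : B) (j : ℕ) : Set G := {y | (y, j) ∈ s b}

open Classical in
/-- mass of the thick slices -/
noncomputable def tl (Λ : B → ℝ≥0∞) (s : B → Set (G × ℕ)) (ht : B → ℕ) (c : ℕ) : ℝ≥0∞ :=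
  ∑' b, Λ b * ∑ j ∈ Finset.Icc 1 (ht b), (if (c : ℕ∞) < (sl s b j).encard then 1 else 0)

variable (s : B → Set (G × ℕ)) (z : B → G) (ht : B → ℕ)

lemma TT_depth (hs : ∀ b q, q ∈ s b → 1 ≤ q.2 ∧ q.2 ≤ ht b) (L : List B) (x : G) (a : ℕ)
    (p : G × ℕ) (hp : p ∈ TT s z ht L x a) : a < p.2 := by
  induction L generalizing x a with
  | nil => simp [TT] at hp
  | cons b L ih =>
    rcases hp with ⟨q, hq, rfl⟩ | hp
    · have := (hs b q hq).1; simp only; omega
    · have := ih _ _ hp; omega

lemma TT_shift (L : List B) (x x' : G) (a : ℕ) (y : G) (k : ℕ) :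
    (y, k) ∈ TT s z ht L (x + x') a ↔ (y - x', k) ∈ TT s z ht L x a := by
  induction L generalizing x a with
  | nil => simp [TT]
  | cons b L ih =>
    simp only [TT, Set.mem_union, Set.mem_ofPred_eq, Prod.mk.injEq]
    rw [show x + x' + z b = (x + z b) + x' by abel, ih]
    refine or_congr ?_ Iff.rfl
    constructor
    · rintro ⟨q, hq, h1, h2⟩; exact ⟨q, hq, by rw [h1]; abel, h2⟩
    · rintro ⟨q, hq, h1, h2⟩; exact ⟨q, hq, by rw [← sub_add_cancel y x', h1]; abel, h2⟩

/-- a thick slice of a list comes from a thick slice of the block covering the depth -/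
lemma thick (hs : ∀ b q, q ∈ s b → 1 ≤ q.2 ∧ q.2 ≤ ht b) (c : ℕ) (L : List B) (x : G) (a k : ℕ)
    (h : (c : ℕ∞) < {y | (y, a + k) ∈ TT s z ht L x a}.encard) :
    ∃ L1 b L2, L = L1 ++ b :: L2 ∧ HT ht L1 < k ∧ k ≤ HT ht L1 + ht b ∧
      (c : ℕ∞) < (sl s b (k - HT ht L1)).encard := by
  induction L generalizing x a k with
  | nil => simp [TT] at h
  | cons b L ih =>
    by_cases hk : k ≤ ht b
    · have e : {y | (y, a + k) ∈ TT s z ht (b :: L) x a} = (fun y => x + y) '' sl s b k := by
        ext y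
        simp only [TT, Set.mem_ofPred_eq, Set.mem_union, Set.mem_image, sl, Prod.mk.injEq]
        constructor
        · rintro (⟨q, hq, h1, h2⟩ | h1)
          · refine ⟨q.1, ?_, h1.symm⟩
            have : k = q.2 := by omega
            rw [this]; exact hq
          · have := TT_depth s z ht hs L _ _ _ h1
            simp only at this
            omega
        · rintro ⟨y', hy', rfl⟩
          exact Or.inl ⟨(y', k), hy', rfl, rfl⟩
      rw [e] at h
      have h' : ((fun y => x + y) '' sl s b k).encard = (sl s b k).encard :=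
        Function.Injective.encard_image (add_right_injective x) _
      rw [h'] at h
      have hk0 : 0 < k := by
        by_contra h0
        have hk0 : k = 0 := by omega
        have : sl s b k = ∅ := by
          ext y
          simp only [sl, Set.mem_ofPred_eq, Set.mem_empty_iff_false, iff_false]
          intro hy
          have := (hs b _ hy).1
          simp only at this
          omega
        rw [this] at h
        simp at h
      exact ⟨[], b, L, rfl, by simpa [HT] using hk0, by simpa [HT] using hk, by simpa [HT] using h⟩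
    · have e : {y | (y, a + k) ∈ TT s z ht (b :: L) x a}
          = {y | (y, (a + ht b) + (k - ht b)) ∈ TT s z ht L (x + z b) (a + ht b)} := by
        ext y
        have hk' : (a + ht b) + (k - ht b) = a + k := by omega
        simp only [TT, Set.mem_ofPred_eq, Set.mem_union, hk', Prod.mk.injEq]
        constructor
        · rintro (⟨q, hq, h1, h2⟩ | h1)
          · have := (hs b q hq).2; omega
          · exact h1
        · intro h1; exact Or.inr h1
      rw [e] at h
      obtain ⟨L1, b', L2, rfl, h1, h2, h3⟩ := ih _ _ _ h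
      refine ⟨b :: L1, b', L2, rfl, ?_, ?_, ?_⟩
      · rw [HT_cons]; omega
      · rw [HT_cons]; omega
      · rw [HT_cons]
        have : k - (ht b + HT ht L1) = k - ht b - HT ht L1 := by omega
        rw [this]; exact h3

/-- splitting a sum over lists at a marked block -/
lemma split_le (F : List B → ℝ≥0∞) (Pr : List B → B → Prop) [∀ L1 b, Decidable (Pr L1 b)]
    (h : ∀ L, F L ≠ 0 → ∃ L1 b L2, L = L1 ++ b :: L2 ∧ Pr L1 b) :
    ∑' L, F L ≤ ∑' L1 : List B, ∑' b : B, ∑' L2 : List B,
      (if Pr L1 b then F (L1 ++ b :: L2) else 0) := by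
  have hch : ∀ L : Function.support F, ∃ p : List B × (B × List B),
      (L : List B) = p.1 ++ p.2.1 :: p.2.2 ∧ Pr p.1 p.2.1 := by
    rintro ⟨L, hL⟩
    obtain ⟨L1, b, L2, h1, h2⟩ := h L hL
    exact ⟨(L1, b, L2), h1, h2⟩
  choose g hg using hch
  have hinj : Function.Injective g := by
    intro L L' hh
    apply Subtype.ext
    rw [(hg L).1, (hg L').1, hh]
  set H : List B × (B × List B) → ℝ≥0∞ := fun p =>
    if Pr p.1 p.2.1 then F (p.1 ++ p.2.1 :: p.2.2) else 0 with hH
  calc ∑' L, F L = ∑' L : Function.support F, F L := (tsum_subtype_support F).symm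
    _ = ∑' L : Function.support F, H (g L) := by
        refine tsum_congr fun L => ?_
        simp only [hH]
        rw [if_pos (hg L).2, ← (hg L).1]
    _ ≤ ∑' p, H p := ENNReal.tsum_comp_le_tsum_of_injective hinj _
    _ = _ := by
        rw [ENNReal.tsum_prod']
        refine tsum_congr fun L1 => ?_
        rw [ENNReal.tsum_prod']

open Classical in
/-- **mass of the lists with a thick slice** -/
theorem thick_le (Λ : B → ℝ≥0∞) (hU1 : ∀ n, U Λ ht n ≤ 1)
    (hs : ∀ b q, q ∈ s b → 1 ≤ q.2 ∧ q.2 ≤ ht b) (c n : ℕ) (x : G) (a K : ℕ) :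
    ∑' L : List B, (if HT ht L = n ∧ (c : ℕ∞) < {y | (y, K) ∈ TT s z ht L x a}.encard
      then LW Λ L else 0) ≤ tl Λ s ht c := by
  by_cases hK : a ≤ K
  swap
  · have : ∀ L : List B, {y | (y, K) ∈ TT s z ht L x a} = ∅ := by
      intro L
      ext y
      simp only [Set.mem_ofPred_eq, Set.mem_empty_iff_false, iff_false]
      intro hy
      have := TT_depth s z ht hs L _ _ _ hy
      simp only at this
      omega
    simp [this]
  obtain ⟨k, rfl⟩ := Nat.exists_eq_add_of_le hK
  have h1 := split_le (F := fun L : List B =>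
    (if HT ht L = n ∧ (c : ℕ∞) < {y | (y, a + k) ∈ TT s z ht L x a}.encard
      then LW Λ L else 0))
    (Pr := fun L1 b => HT ht L1 < k ∧ k ≤ HT ht L1 + ht b ∧
      (c : ℕ∞) < (sl s b (k - HT ht L1)).encard) (by
      intro L hL
      have hL' : HT ht L = n ∧ (c : ℕ∞) < {y | (y, a + k) ∈ TT s z ht L x a}.encard := by
        by_contra hcon
        exact hL (if_neg hcon)
      obtain ⟨L1, b, L2, h1, h2, h3, h4⟩ := thick s z ht hs c L x a k hL'.2
      exact ⟨L1, b, L2, h1, h2, h3, h4⟩)
  refine h1.trans ?_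
  -- bound the sum over the rest by 1
  have h2 : ∀ (L1 : List B) (b : B), ∑' L2 : List B,
      (if HT ht L1 < k ∧ k ≤ HT ht L1 + ht b ∧ (c : ℕ∞) < (sl s b (k - HT ht L1)).encard then
        (if HT ht (L1 ++ b :: L2) = n ∧
            (c : ℕ∞) < {y | (y, a + k) ∈ TT s z ht (L1 ++ b :: L2) x a}.encard
          then LW Λ (L1 ++ b :: L2) else 0) else 0)
      ≤ if HT ht L1 < k ∧ k ≤ HT ht L1 + ht b ∧ (c : ℕ∞) < (sl s b (k - HT ht L1)).encard then
          LW Λ L1 * Λ b else 0 := by
    intro L1 b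
    by_cases hc : HT ht L1 < k ∧ k ≤ HT ht L1 + ht b ∧ (c : ℕ∞) < (sl s b (k - HT ht L1)).encard
    · simp only [if_pos hc]
      calc _ ≤ ∑' L2 : List B, LW Λ L1 * Λ b *
            (if HT ht L2 = n - HT ht L1 - ht b then LW Λ L2 else 0) := by
            refine ENNReal.tsum_le_tsum fun L2 => ?_
            by_cases hh : HT ht (L1 ++ b :: L2) = n ∧
                (c : ℕ∞) < {y | (y, a + k) ∈ TT s z ht (L1 ++ b :: L2) x a}.encard
            · rw [if_pos hh, if_pos, LW_append, LW_cons, mul_assoc]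
              have := hh.1
              rw [HT_append, HT_cons] at this
              omega
            · rw [if_neg hh]; exact zero_le
        _ = LW Λ L1 * Λ b * U Λ ht (n - HT ht L1 - ht b) := by
            rw [ENNReal.tsum_mul_left, U]
        _ ≤ LW Λ L1 * Λ b * 1 := mul_le_mul_right (hU1 _) _
        _ = _ := mul_one _
    · simp only [if_neg hc, tsum_zero, le_refl]
  calc _ ≤ ∑' (L1 : List B) (b : B),
        (if HT ht L1 < k ∧ k ≤ HT ht L1 + ht b ∧ (c : ℕ∞) < (sl s b (k - HT ht L1)).encard then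
          LW Λ L1 * Λ b else 0) :=
        ENNReal.tsum_le_tsum fun L1 => ENNReal.tsum_le_tsum fun b => h2 L1 b
    _ ≤ ∑' (L1 : List B) (b : B), ∑ j ∈ Finset.Icc 1 (ht b),
          (if HT ht L1 = k - j ∧ j ≤ k ∧ (c : ℕ∞) < (sl s b j).encard then LW Λ L1 * Λ b else 0) := by
        refine ENNReal.tsum_le_tsum fun L1 => ENNReal.tsum_le_tsum fun b => ?_
        by_cases hc : HT ht L1 < k ∧ k ≤ HT ht L1 + ht b ∧
            (c : ℕ∞) < (sl s b (k - HT ht L1)).encard
        · rw [if_pos hc]
          have hj : k - HT ht L1 ∈ Finset.Icc 1 (ht b) := by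
            rw [Finset.mem_Icc]; omega
          refine le_trans ?_ (Finset.single_le_sum (f := fun j =>
            (if HT ht L1 = k - j ∧ j ≤ k ∧ (c : ℕ∞) < (sl s b j).encard
              then LW Λ L1 * Λ b else 0)) (fun _ _ => zero_le) hj)
          rw [if_pos ⟨by omega, by omega, hc.2.2⟩]
        · rw [if_neg hc]; exact zero_le
    _ = ∑' (b : B), ∑' (L1 : List B), ∑ j ∈ Finset.Icc 1 (ht b),
          (if HT ht L1 = k - j ∧ j ≤ k ∧ (c : ℕ∞) < (sl s b j).encard then LW Λ L1 * Λ b else 0) :=
        ENNReal.tsum_comm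
    _ ≤ ∑' (b : B), Λ b * ∑ j ∈ Finset.Icc 1 (ht b),
          (if (c : ℕ∞) < (sl s b j).encard then 1 else 0) := by
        refine ENNReal.tsum_le_tsum fun b => ?_
        rw [Summable.tsum_finsetSum (fun _ _ => ENNReal.summable), Finset.mul_sum]
        refine Finset.sum_le_sum fun j _ => ?_
        by_cases hc : (c : ℕ∞) < (sl s b j).encard
        · rw [if_pos hc, mul_one]
          calc _ ≤ ∑' L1 : List B, Λ b * (if HT ht L1 = k - j then LW Λ L1 else 0) := by
                refine ENNReal.tsum_le_tsum fun L1 => ?_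
                by_cases hh : HT ht L1 = k - j ∧ j ≤ k ∧ (c : ℕ∞) < (sl s b j).encard
                · rw [if_pos hh, if_pos hh.1, mul_comm]
                · rw [if_neg hh]; exact zero_le
            _ = Λ b * U Λ ht (k - j) := by rw [ENNReal.tsum_mul_left, U]
            _ ≤ Λ b * 1 := mul_le_mul_right (hU1 _) _
            _ = Λ b := mul_one _
        · rw [if_neg hc, mul_zero]
          refine le_of_eq ?_
          rw [ENNReal.tsum_eq_zero]
          intro L1
          rw [if_neg (fun h => hc h.2.2)]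

/-- the thick slices have small mass -/
theorem tl_small (Λ : B → ℝ≥0∞) (hE : ∑' b, Λ b * (ht b : ℝ≥0∞) ≠ ⊤)
    (hfin : ∀ b, (s b).Finite) (ε : ℝ≥0∞) (hε : ε ≠ 0) : ∃ c : ℕ, ∀ c', c ≤ c' → tl Λ s ht c' ≤ ε := by
  classical
  have ht0 := ENNReal.tendsto_tsum_compl_atTop_zero hE
  obtain ⟨F, hF⟩ := ((ht0.eventually (ge_mem_nhds (pos_iff_ne_zero.2 hε)))).exists
  obtain ⟨c, hc⟩ : ∃ c : ℕ, ∀ b ∈ F, ((s b).encard) ≤ (c : ℕ∞) := by
    refine ⟨∑ b ∈ F, (s b).ncard, fun b hb => ?_⟩
    rw [← (hfin b).cast_ncard_eq]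
    exact_mod_cast Finset.single_le_sum (f := fun b => (s b).ncard) (fun _ _ => Nat.zero_le _) hb
  refine ⟨c, fun c' hc' => ?_⟩
  have hsl : ∀ b j, (sl s b j).encard ≤ (s b).encard := by
    intro b j
    have : (fun y : G => (y, j)) '' sl s b j ⊆ s b := by
      rintro _ ⟨y, hy, rfl⟩; exact hy
    calc (sl s b j).encard = ((fun y : G => (y, j)) '' sl s b j).encard :=
          (Function.Injective.encard_image (fun y y' h => (Prod.mk.inj h).1) _).symm
      _ ≤ _ := Set.encard_le_encard this
  unfold tl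
  calc _ ≤ ∑' b, (if b ∈ F then 0 else Λ b * (ht b : ℝ≥0∞)) := by
        refine ENNReal.tsum_le_tsum fun b => ?_
        by_cases hb : b ∈ F
        · rw [if_pos hb]
          refine le_of_eq ?_
          rw [Finset.sum_eq_zero, mul_zero]
          intro j _
          rw [if_neg]
          rw [not_lt]
          exact ((hsl b j).trans (hc b hb)).trans (by exact_mod_cast hc')
        · rw [if_neg hb]
          refine mul_le_mul_right ?_ _
          calc _ ≤ ∑ j ∈ Finset.Icc 1 (ht b), (1 : ℝ≥0∞) :=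
                Finset.sum_le_sum fun j _ => by split_ifs <;> simp
            _ = (ht b : ℝ≥0∞) := by simp
    _ = ∑' b : {b // b ∉ F}, Λ b * (ht b : ℝ≥0∞) := by
        rw [← tsum_subtype_eq_of_support_subset (s := {b | b ∉ F})
          (f := fun b => if b ∈ F then 0 else Λ b * (ht b : ℝ≥0∞))]
        · refine tsum_congr fun b => ?_
          exact if_neg b.2
        · intro b hb
          simp only [Function.mem_support, ne_eq, ite_eq_left_iff, not_forall] at hb
          exact hb.1
    _ ≤ ε := hF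

/-- finitely many anchors -/
lemma anchors (μ : G → ℝ≥0∞) (M : ℝ≥0∞) (hμ : ∀ x, μ x ≤ M) (A C : Set G) (c : ℕ)
    (hA : A.encard ≤ c) (hC : C.encard ≤ c) (P : G → Prop) [DecidablePred P]
    (hP : ∀ x, P x → ∃ y, y ∈ A ∧ y - x ∈ C) :
    ∑' x, (if P x then μ x else 0) ≤ M * c * c := by
  classical
  have hAf : A.Finite := Set.finite_of_encard_le_coe hA
  have hCf : C.Finite := Set.finite_of_encard_le_coe hC
  set D : Finset G := (hAf.toFinset ×ˢ hCf.toFinset).image (fun p => p.1 - p.2) with hD
  have hcardA : hAf.toFinset.card ≤ c := by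
    rw [← Set.ncard_eq_toFinset_card A hAf]
    have := hA; rw [← hAf.cast_ncard_eq] at this; exact_mod_cast this
  have hcardC : hCf.toFinset.card ≤ c := by
    rw [← Set.ncard_eq_toFinset_card C hCf]
    have := hC; rw [← hCf.cast_ncard_eq] at this; exact_mod_cast this
  have hcard : D.card ≤ c * c := by
    refine Finset.card_image_le.trans ?_
    rw [Finset.card_product]
    exact Nat.mul_le_mul hcardA hcardC
  calc ∑' x, (if P x then μ x else 0) ≤ ∑' x, (if x ∈ D then M else 0) := by
        refine ENNReal.tsum_le_tsum fun x => ?_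
        by_cases hx : P x
        · rw [if_pos hx, if_pos]
          · exact hμ x
          · obtain ⟨y, hy, hy'⟩ := hP x hx
            rw [hD, Finset.mem_image]
            refine ⟨(y, y - x), ?_, by simp⟩
            rw [Finset.mem_product]
            exact ⟨by simpa using hy, by simpa using hy'⟩
        · rw [if_neg hx]; exact zero_le
    _ = ∑ x ∈ D, M := by
        rw [tsum_eq_sum (s := D) (fun x hx => if_neg hx)]
        exact Finset.sum_congr rfl fun x hx => if_pos hx
    _ = D.card * M := by rw [Finset.sum_const, nsmul_eq_mul]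
    _ ≤ (c * c : ℕ) * M := mul_le_mul_left (by exact_mod_cast hcard) _
    _ = M * c * c := by push_cast; ring

section two

variable {B' : Type*} (s' : B' → Set (G × ℕ)) (z' : B' → G) (ht' : B' → ℕ)

open Classical in
/-- **contact at one depth** -/
theorem slab1 (Λ : B → ℝ≥0∞) (Λ' : B' → ℝ≥0∞) (hU1 : ∀ n, U Λ ht n ≤ 1)
    (hU1' : ∀ n, U Λ' ht' n ≤ 1)
    (hs : ∀ b q, q ∈ s b → 1 ≤ q.2 ∧ q.2 ≤ ht b) (hs' : ∀ b q, q ∈ s' b → 1 ≤ q.2 ∧ q.2 ≤ ht' b)
    (μ : G → ℝ≥0∞) (hμ1 : ∑' x, μ x ≤ 1) (M : ℝ≥0∞) (hμ : ∀ x, μ x ≤ M)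
    (c h h' a a' k : ℕ) :
    ∑' x, μ x * ∑' L, ∑' L', (if HT ht L = h ∧ HT ht' L' = h' ∧
        ∃ y, (y, k) ∈ TT s z ht L 0 a ∧ (y, k) ∈ TT s' z' ht' L' x a'
        then LW Λ L * LW Λ' L' else 0)
      ≤ tl Λ s ht c + tl Λ' s' ht' c + M * c * c := by
  -- the three parts
  set A : List B → Set G := fun L => {y | (y, k) ∈ TT s z ht L 0 a} with hA
  set C : List B' → Set G := fun L' => {y | (y, k) ∈ TT s' z' ht' L' 0 a'} with hC
  have hshift : ∀ (L' : List B') (x y : G), (y, k) ∈ TT s' z' ht' L' x a' ↔ y - x ∈ C L' := by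
    intro L' x y
    have := TT_shift s' z' ht' L' 0 x a' y k
    rw [zero_add] at this
    exact this
  have hpt : ∀ (x : G) (L : List B) (L' : List B'),
      (if HT ht L = h ∧ HT ht' L' = h' ∧
        ∃ y, (y, k) ∈ TT s z ht L 0 a ∧ (y, k) ∈ TT s' z' ht' L' x a'
        then LW Λ L * LW Λ' L' else 0)
      ≤ (if HT ht L = h ∧ (c : ℕ∞) < (A L).encard then LW Λ L else 0)
          * (if HT ht' L' = h' then LW Λ' L' else 0)
        + (if HT ht L = h then LW Λ L else 0)
          * (if HT ht' L' = h' ∧ (c : ℕ∞) < (C L').encard then LW Λ' L' else 0)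
        + (if HT ht L = h then LW Λ L else 0) * (if HT ht' L' = h' then LW Λ' L' else 0)
          * (if (A L).encard ≤ c ∧ (C L').encard ≤ c ∧ ∃ y, y ∈ A L ∧ y - x ∈ C L'
              then 1 else 0) := by
    intro x L L'
    by_cases hc : HT ht L = h ∧ HT ht' L' = h' ∧
        ∃ y, (y, k) ∈ TT s z ht L 0 a ∧ (y, k) ∈ TT s' z' ht' L' x a'
    · rw [if_pos hc]
      obtain ⟨h1, h2, y, hy, hy'⟩ := hc
      by_cases hA' : (c : ℕ∞) < (A L).encard
      · rw [if_pos ⟨h1, hA'⟩, if_pos h2]
        exact le_add_right (le_add_right le_rfl)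
      · by_cases hC' : (c : ℕ∞) < (C L').encard
        · rw [if_pos h1, if_pos (⟨h2, hC'⟩ : HT ht' L' = h' ∧ (c : ℕ∞) < (C L').encard)]
          exact le_add_right (le_add_left le_rfl)
        · have e3 : (A L).encard ≤ c ∧ (C L').encard ≤ c ∧ ∃ y, y ∈ A L ∧ y - x ∈ C L' :=
            ⟨not_lt.1 hA', not_lt.1 hC', y, hy, (hshift L' x y).1 hy'⟩
          rw [if_pos h1, if_pos h2, if_pos e3, mul_one]
          exact le_add_left le_rfl
    · rw [if_neg hc]; exact zero_le
  have hUL : ∑' L : List B, (if HT ht L = h then LW Λ L else 0) ≤ 1 := hU1 h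
  have hUL' : ∑' L' : List B', (if HT ht' L' = h' then LW Λ' L' else 0) ≤ 1 := hU1' h'
  have hT : ∑' L : List B, (if HT ht L = h ∧ (c : ℕ∞) < (A L).encard then LW Λ L else 0)
      ≤ tl Λ s ht c := thick_le s z ht Λ hU1 hs c h 0 a k
  have hT' : ∑' L' : List B', (if HT ht' L' = h' ∧ (c : ℕ∞) < (C L').encard then LW Λ' L' else 0)
      ≤ tl Λ' s' ht' c := thick_le s' z' ht' Λ' hU1' hs' c h' 0 a' k
  calc _ ≤ ∑' x, μ x * ∑' L, ∑' L',
        ((if HT ht L = h ∧ (c : ℕ∞) < (A L).encard then LW Λ L else 0)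
          * (if HT ht' L' = h' then LW Λ' L' else 0)
        + (if HT ht L = h then LW Λ L else 0)
          * (if HT ht' L' = h' ∧ (c : ℕ∞) < (C L').encard then LW Λ' L' else 0)
        + (if HT ht L = h then LW Λ L else 0) * (if HT ht' L' = h' then LW Λ' L' else 0)
          * (if (A L).encard ≤ c ∧ (C L').encard ≤ c ∧ ∃ y, y ∈ A L ∧ y - x ∈ C L'
              then 1 else 0)) :=
        ENNReal.tsum_le_tsum fun x => mul_le_mul_right
          (ENNReal.tsum_le_tsum fun L => ENNReal.tsum_le_tsum fun L' => hpt x L L') _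
    _ = ∑' x, (μ x * ((∑' L : List B, (if HT ht L = h ∧ (c : ℕ∞) < (A L).encard then LW Λ L else 0))
          * (∑' L' : List B', (if HT ht' L' = h' then LW Λ' L' else 0)))
        + μ x * ((∑' L : List B, (if HT ht L = h then LW Λ L else 0))
          * (∑' L' : List B', (if HT ht' L' = h' ∧ (c : ℕ∞) < (C L').encard then LW Λ' L' else 0)))
        + ∑' L : List B, ∑' L' : List B', μ x * ((if HT ht L = h then LW Λ L else 0)
            * (if HT ht' L' = h' then LW Λ' L' else 0)
          * (if (A L).encard ≤ c ∧ (C L').encard ≤ c ∧ ∃ y, y ∈ A L ∧ y - x ∈ C L'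
              then 1 else 0))) := by
        refine tsum_congr fun x => ?_
        simp only [ENNReal.tsum_add, ENNReal.tsum_mul_left, ENNReal.tsum_mul_right, mul_add]
    _ = (∑' x, μ x * ((∑' L : List B, (if HT ht L = h ∧ (c : ℕ∞) < (A L).encard then LW Λ L else 0))
          * (∑' L' : List B', (if HT ht' L' = h' then LW Λ' L' else 0))))
        + (∑' x, μ x * ((∑' L : List B, (if HT ht L = h then LW Λ L else 0))
          * (∑' L' : List B', (if HT ht' L' = h' ∧ (c : ℕ∞) < (C L').encard then LW Λ' L' else 0))))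
        + ∑' x, ∑' L : List B, ∑' L' : List B', μ x * ((if HT ht L = h then LW Λ L else 0)
            * (if HT ht' L' = h' then LW Λ' L' else 0)
          * (if (A L).encard ≤ c ∧ (C L').encard ≤ c ∧ ∃ y, y ∈ A L ∧ y - x ∈ C L'
              then 1 else 0)) := by
        rw [ENNReal.tsum_add, ENNReal.tsum_add]
    _ ≤ tl Λ s ht c + tl Λ' s' ht' c + M * c * c := by
        refine add_le_add (add_le_add ?_ ?_) ?_
        · rw [ENNReal.tsum_mul_right]
          calc _ ≤ 1 * (tl Λ s ht c * 1) :=
                mul_le_mul' hμ1 (mul_le_mul' hT hUL')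
            _ = _ := by ring
        · rw [ENNReal.tsum_mul_right]
          calc _ ≤ 1 * (1 * tl Λ' s' ht' c) :=
                mul_le_mul' hμ1 (mul_le_mul' hUL hT')
            _ = _ := by ring
        · rw [ENNReal.tsum_comm]
          calc _ = ∑' L : List B, ∑' L' : List B', ∑' x, μ x * ((if HT ht L = h then LW Λ L else 0)
                  * (if HT ht' L' = h' then LW Λ' L' else 0)
                * (if (A L).encard ≤ c ∧ (C L').encard ≤ c ∧ ∃ y, y ∈ A L ∧ y - x ∈ C L'
                    then 1 else 0)) := by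
                refine tsum_congr fun L => ?_
                rw [ENNReal.tsum_comm]
            _ ≤ ∑' L : List B, ∑' L' : List B', (if HT ht L = h then LW Λ L else 0)
                  * ((if HT ht' L' = h' then LW Λ' L' else 0) * (M * c * c)) := by
                refine ENNReal.tsum_le_tsum fun L => ENNReal.tsum_le_tsum fun L' => ?_
                calc _ = ((if HT ht L = h then LW Λ L else 0)
                      * (if HT ht' L' = h' then LW Λ' L' else 0)) *
                      ∑' x, (if (A L).encard ≤ c ∧ (C L').encard ≤ c ∧ ∃ y, y ∈ A L ∧ y - x ∈ C L'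
                        then μ x else 0) := by
                      rw [← ENNReal.tsum_mul_left]
                      refine tsum_congr fun x => ?_
                      by_cases hq : (A L).encard ≤ c ∧ (C L').encard ≤ c ∧
                          ∃ y, y ∈ A L ∧ y - x ∈ C L'
                      · rw [if_pos hq, if_pos hq]; ring
                      · rw [if_neg hq, if_neg hq]; ring
                  _ ≤ ((if HT ht L = h then LW Λ L else 0)
                      * (if HT ht' L' = h' then LW Λ' L' else 0)) * (M * c * c) := by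
                      refine mul_le_mul_right ?_ _
                      by_cases hq : (A L).encard ≤ c ∧ (C L').encard ≤ c
                      · exact anchors μ M hμ (A L) (C L') c hq.1 hq.2 _ fun x hx => hx.2.2
                      · refine le_trans (le_of_eq ?_) zero_le
                        rw [ENNReal.tsum_eq_zero]
                        intro x
                        rw [if_neg (fun h => hq ⟨h.1, h.2.1⟩)]
                  _ = _ := by ring
            _ = (∑' L : List B, (if HT ht L = h then LW Λ L else 0))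
                  * ((∑' L' : List B', (if HT ht' L' = h' then LW Λ' L' else 0)) * (M * c * c)) := by
                simp only [ENNReal.tsum_mul_left, ENNReal.tsum_mul_right]
            _ ≤ 1 * (1 * (M * c * c)) := mul_le_mul' hUL (mul_le_mul' hUL' le_rfl)
            _ = M * c * c := by ring

open Classical in
/-- **THE THIN SLAB**: common site at a depth in `[lo, hi)` -/
theorem slab (Λ : B → ℝ≥0∞) (Λ' : B' → ℝ≥0∞) (hU1 : ∀ n, U Λ ht n ≤ 1)
    (hU1' : ∀ n, U Λ' ht' n ≤ 1)
    (hs : ∀ b q, q ∈ s b → 1 ≤ q.2 ∧ q.2 ≤ ht b) (hs' : ∀ b q, q ∈ s' b → 1 ≤ q.2 ∧ q.2 ≤ ht' b)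
    (μ : G → ℝ≥0∞) (hμ1 : ∑' x, μ x ≤ 1) (M : ℝ≥0∞) (hμ : ∀ x, μ x ≤ M)
    (c h h' a a' lo hi : ℕ) :
    ∑' x, μ x * ∑' L, ∑' L', (if HT ht L = h ∧ HT ht' L' = h' ∧
        ∃ y k, lo ≤ k ∧ k < hi ∧ (y, k) ∈ TT s z ht L 0 a ∧ (y, k) ∈ TT s' z' ht' L' x a'
        then LW Λ L * LW Λ' L' else 0)
      ≤ (hi - lo : ℕ) * (tl Λ s ht c + tl Λ' s' ht' c + M * c * c) := by
  calc _ ≤ ∑' x, μ x * ∑' L, ∑' L', ∑ k ∈ Finset.Ico lo hi, (if HT ht L = h ∧ HT ht' L' = h' ∧
        ∃ y, (y, k) ∈ TT s z ht L 0 a ∧ (y, k) ∈ TT s' z' ht' L' x a'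
        then LW Λ L * LW Λ' L' else 0) := by
        refine ENNReal.tsum_le_tsum fun x => mul_le_mul_right
          (ENNReal.tsum_le_tsum fun L => ENNReal.tsum_le_tsum fun L' => ?_) _
        by_cases hc : HT ht L = h ∧ HT ht' L' = h' ∧
            ∃ y k, lo ≤ k ∧ k < hi ∧ (y, k) ∈ TT s z ht L 0 a ∧ (y, k) ∈ TT s' z' ht' L' x a'
        · rw [if_pos hc]
          obtain ⟨h1, h2, y, k, h3, h4, h5, h6⟩ := hc
          refine le_trans ?_ (Finset.single_le_sum (f := fun k =>
            (if HT ht L = h ∧ HT ht' L' = h' ∧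
              ∃ y, (y, k) ∈ TT s z ht L 0 a ∧ (y, k) ∈ TT s' z' ht' L' x a'
              then LW Λ L * LW Λ' L' else 0)) (fun _ _ => zero_le) (Finset.mem_Ico.2 ⟨h3, h4⟩))
          rw [if_pos ⟨h1, h2, y, h5, h6⟩]
        · rw [if_neg hc]; exact zero_le
    _ = ∑ k ∈ Finset.Ico lo hi, ∑' x, μ x * ∑' L, ∑' L', (if HT ht L = h ∧ HT ht' L' = h' ∧
        ∃ y, (y, k) ∈ TT s z ht L 0 a ∧ (y, k) ∈ TT s' z' ht' L' x a'
        then LW Λ L * LW Λ' L' else 0) := by
        rw [← Summable.tsum_finsetSum (fun _ _ => ENNReal.summable)]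
        refine tsum_congr fun x => ?_
        rw [← Finset.mul_sum, ← Summable.tsum_finsetSum (fun _ _ => ENNReal.summable)]
        congr 1
        refine tsum_congr fun L => ?_
        rw [← Summable.tsum_finsetSum (fun _ _ => ENNReal.summable)]
    _ ≤ ∑ k ∈ Finset.Ico lo hi, (tl Λ s ht c + tl Λ' s' ht' c + M * c * c) :=
        Finset.sum_le_sum fun k _ => slab1 s z ht s' z' ht' Λ Λ' hU1 hU1' hs hs' μ hμ1 M hμ
          c h h' a a' k
    _ = _ := by rw [Finset.sum_const, Nat.card_Ico, nsmul_eq_mul]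

end two

end Crest.Agent.R154.SlabT184
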