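import Crest.Agent.R154.ExK_9
import Crest.Agent.R154.D1B_569

/-!
# Row 154, block d = 2 (helper28): consumers of the slab lemma on the real objects

* `Down u l` : the path ever visits a level `≤ l`; `tendsto_down`, `down_shift`;
* `Esc` is almost sure from every site, the killed slab kernel has mass close to one
  (`lint_deficit`);
* `Out S s x K` : the path leaves the window `|s - s x| < K` before (or when) it leaves the slab;
  exit tails and second moments of the killed slab kernel from tails of `Out` (`lint_sq`);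
* `noback` : the walk leaves the slab through the top, inside the window.
-/

set_option autoImplicit false
set_option linter.unusedVariables false
set_option linter.unusedSectionVars false
set_option linter.deprecated false

namespace Crest.Agent.R154.SlabUse28

open MeasureTheory ProbabilityTheory Filter Topology Crest.ProbabilityR.RandomEnvironment
open Crest.Agent.R154 Crest.Agent.R154.B2d Crest.Agent.R154.ExK9
open Crest.Agent.R154.Flux132 (lev)
open Crest.Agent.R154.Half419 (HH)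
open scoped ENNReal

variable {d : ℕ}

/-! ### dips -/

/-- the path ever visits a level `≤ l` -/
def Down (u : Step d) (l : ℤ) : Set (Path d) := {X | ∃ n, lev u (X n) ≤ l}

lemma measurableSet_Down (u : Step d) (l : ℤ) : MeasurableSet (Down u l) := by
  have e : Down u l = ⋃ n, {X : Path d | lev u (X n) ≤ l} := by
    ext X; simp [Down]
  rw [e]
  exact MeasurableSet.iUnion fun n => measurableSet_of_agree n _ fun X Y h => by
    simp only [Set.mem_setOf_eq, h n le_rfl]

lemma Down_mono (u : Step d) {l l' : ℤ} (h : l ≤ l') : Down u l ⊆ Down u l' :=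
  fun _ ⟨n, hn⟩ => ⟨n, hn.trans h⟩

lemma esc_lev {u : Step d} {X : Path d} (h : X ∈ escapeEvent (dirVec u)) :
    Tendsto (fun n => lev u (X n)) atTop atTop := by
  have h' : Tendsto (fun n => ((lev u (X n) : ℤ) : ℝ)) atTop atTop := by
    refine Tendsto.congr (fun n => ?_) h
    rw [← D1S.HH_dirVec]; rfl
  exact tendsto_intCast_atTop_iff.1 h'

lemma esc_not_Down {u : Step d} {X : Path d} (h : X ∈ escapeEvent (dirVec u)) :
    ∃ r : ℕ, X ∉ Down u (-(r : ℤ)) := by
  obtain ⟨n0, hn0⟩ := eventually_atTop.1 ((esc_lev h).eventually_ge_atTop 0)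
  refine ⟨1 + ∑ k ∈ Finset.range n0, (lev u (X k)).natAbs, ?_⟩
  rintro ⟨n, hn⟩
  rcases Nat.lt_or_ge n n0 with h1 | h1
  · have h2 : (lev u (X n)).natAbs ≤ ∑ k ∈ Finset.range n0, (lev u (X k)).natAbs :=
      Finset.single_le_sum (f := fun k => (lev u (X k)).natAbs) (fun _ _ => Nat.zero_le _)
        (Finset.mem_range.2 h1)
    push_cast at hn
    have h3 : ((lev u (X n)).natAbs : ℤ) ≤ ∑ k ∈ Finset.range n0, ((lev u (X k)).natAbs : ℤ) := by
      exact_mod_cast h2
    rw [Int.natCast_natAbs] at h3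
    simp only [Int.natCast_natAbs] at h3
    have h4 := neg_abs_le (lev u (X n))
    linarith
  · have h2 := hn0 n h1
    push_cast at hn
    have h3 : (0 : ℤ) ≤ ∑ k ∈ Finset.range n0, |lev u (X k)| :=
      Finset.sum_nonneg fun _ _ => abs_nonneg _
    linarith

/-- **(a)** deep dips are rare -/
theorem tendsto_down {Q : Measure (Environment d)} [IsProbabilityMeasure Q] (u : Step d)
    (hA : annealedProb Q 0 (escapeEvent (dirVec u)) = 1) :
    Tendsto (fun r : ℕ => annealedProb Q 0 (Down u (-(r : ℤ)))) atTop (𝓝 0) := by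
  have h1 : ∀ r : ℕ, annealedProb Q 0 (Down u (-(r : ℤ))) = annealed Q 0 (Down u (-(r : ℤ))) :=
    fun r => (annealed_apply Q 0 (measurableSet_Down u _)).symm
  simp only [h1]
  have hae : ∀ᵐ X ∂annealed Q 0, X ∈ escapeEvent (dirVec u) :=
    ae_of_one (by rw [annealed_apply Q 0 (measurableSet_escapeEvent _), hA])
  have h2 : annealed Q 0 (⋂ r : ℕ, Down u (-(r : ℤ))) = 0 := by
    have h3 : ∀ᵐ X ∂annealed Q 0, X ∉ ⋂ r : ℕ, Down u (-(r : ℤ)) := by
      filter_upwards [hae] with X hX hcon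
      obtain ⟨r, hr⟩ := esc_not_Down hX
      exact hr (Set.mem_iInter.1 hcon r)
    have h4 := ae_iff.1 h3
    simp only [not_not] at h4
    exact h4
  rw [← h2]
  refine tendsto_measure_iInter_atTop (fun r => (measurableSet_Down u _).nullMeasurableSet) ?_
    ⟨0, measure_ne_top _ _⟩
  intro r r' hrr
  exact Down_mono u (by simp only [neg_le_neg_iff, Nat.cast_le]; exact hrr)

/-- translations of the annealed law -/
lemma annProb_shift {Q : Measure (Environment d)} {x z : Site d}
    (hQ : MeasurePreserving (shiftEnv z) Q Q) {B : Set (Path d)} (hB : MeasurableSet B) :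
    annealedProb Q (x + z) B = annealedProb Q x (Q561.tr z ⁻¹' B) := by
  unfold annealedProb
  simp only [Q561.quenched_shift_apply z _ x hB]
  exact lint_shift hQ (f := fun ω => quenchedLaw ω x (Q561.tr z ⁻¹' B))
    (Q561.measurable_quenched_apply x (Q561.measurable_tr z hB))

lemma down_shift {Q : Measure (Environment d)}
    (hQ : ∀ z : Site d, MeasurePreserving (shiftEnv z) Q Q) (u : Step d) (x : Site d) (l : ℤ) :
    annealedProb Q x (Down u l) = annealedProb Q 0 (Down u (l - lev u x)) := by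
  have h := annProb_shift (x := 0) (hQ x) (measurableSet_Down u l)
  rw [zero_add] at h
  rw [h]
  congr 1
  ext X
  show (∃ n, lev u (X n + x) ≤ l) ↔ (∃ n, lev u (X n) ≤ l - lev u x)
  refine exists_congr fun n => ?_
  rw [D1S.lev_add]
  constructor <;> intro h <;> linarith

/-- the walk escapes from every site -/
lemma esc_site {Q : Measure (Environment d)} [IsProbabilityMeasure Q]
    (hQ : ∀ z : Site d, MeasurePreserving (shiftEnv z) Q Q) (u : Step d)
    (hA : annealedProb Q 0 (escapeEvent (dirVec u)) = 1) (x : Site d) :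
    annealedProb Q x (escapeEvent (dirVec u)) = 1 := by
  have h := annProb_shift (x := 0) (hQ x) (measurableSet_escapeEvent (dirVec u))
  rw [zero_add] at h
  rw [h]
  refine le_antisymm ?_ ?_
  · rw [← annealed_apply Q 0 (Q561.measurable_tr x (measurableSet_escapeEvent _))]
    exact prob_le_one
  · rw [← hA, ← annealed_apply Q 0 (Q561.measurable_tr x (measurableSet_escapeEvent _)),
      ← annealed_apply Q 0 (measurableSet_escapeEvent _)]
    refine measure_mono fun X hX => ?_
    have h1 := esc_lev hX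
    show X ∈ Q561.tr x ⁻¹' escapeEvent (dirVec u)
    show Tendsto (fun n => ∑ i, (((X n + x) i : ℤ) : ℝ) * dirVec u i) atTop atTop
    have h2 : ∀ n, ∑ i, (((X n + x) i : ℤ) : ℝ) * dirVec u i
        = ((lev u (X n) + lev u x : ℤ) : ℝ) := fun n => by
      rw [← D1S.lev_add, ← D1S.HH_dirVec]; rfl
    simp only [h2]
    exact tendsto_intCast_atTop_iff.2 (tendsto_atTop_add_const_right _ _ h1)

/-! ### failed attempts -/

/-- a failed attempt of height exactly `z` at level `l` -/
def Fz (u : Step d) (l : ℤ) (z : ℕ) : Set (Path d) :=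
  {X | ∃ k, lev u (X k) < l ∧ (∀ i < k, l ≤ lev u (X i) ∧ lev u (X i) ≤ l + z) ∧
    ∃ i < k, lev u (X i) = l + z}

lemma Fz_eq (u : Step d) (l : ℤ) (z : ℕ) : Fz u l z =
    ⋃ k : ℕ, {X : Path d | lev u (X k) < l ∧ (∀ i < k, l ≤ lev u (X i) ∧ lev u (X i) ≤ l + z) ∧
      ∃ i < k, lev u (X i) = l + z} := by
  ext X; simp [Fz]

lemma depOn_Fz (u : Step d) (l : ℤ) (z k : ℕ) :
    Q561.DepOn k {X : Path d | lev u (X k) < l ∧
      (∀ i < k, l ≤ lev u (X i) ∧ lev u (X i) ≤ l + z) ∧ ∃ i < k, lev u (X i) = l + z} := by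
  rintro X Y h ⟨h1, h2, i, hi, h3⟩
  refine ⟨by rw [← h k le_rfl]; exact h1, fun j hj => ?_, i, hi, by rw [← h i hi.le]; exact h3⟩
  rw [← h j hj.le]
  exact h2 j hj

lemma measurableSet_Fz (u : Step d) (l : ℤ) (z : ℕ) : MeasurableSet (Fz u l z) := by
  rw [Fz_eq]
  exact MeasurableSet.iUnion fun k => (depOn_Fz u l z k).measurableSet

lemma dec_Fz (u : Step d) (l : ℤ) (z : ℕ) {S : Set (Site d)}
    (hS : ∀ y, l ≤ lev u y → lev u y ≤ l + z → y ∈ S) : Q561.Dec S (Fz u l z) := by
  rw [Fz_eq]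
  exact Q561.dec_iUnion fun k => Q561.dec_of_depOn (depOn_Fz u l z k)
    fun X hX i hi => hS _ (hX.2.1 i hi).1 (hX.2.1 i hi).2

lemma disj_Fz (u : Step d) (l : ℤ) : Pairwise (Function.onFun Disjoint (Fz (d := d) u l)) := by
  intro z z' hne
  refine Set.disjoint_left.2 ?_
  rintro X ⟨k, h1, h2, i, hi, h3⟩ ⟨k', h1', h2', i', hi', h3'⟩
  have hk : k = k' := by
    rcases lt_trichotomy k k' with h | h | h
    · exact absurd h1 (not_lt.2 (h2' k h).1)
    · exact h
    · exact absurd h1' (not_lt.2 (h2 k' h).1)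
  subst hk
  have h4 := (h2 i' hi').2
  have h5 := (h2' i hi).2
  exact hne (by omega)

lemma Fz_sub_Down (u : Step d) (l : ℤ) (z : ℕ) : Fz (d := d) u l z ⊆ Down u (l - 1) := by
  rintro X ⟨k, h1, -⟩
  exact ⟨k, by omega⟩

/-- law of the height of a failed attempt -/
noncomputable def tz (Q : Measure (Environment d)) (u : Step d) (z : ℕ) : ℝ≥0∞ :=
  annealedProb Q 0 (Fz u 0 z)

lemma ann_Fz {Q : Measure (Environment d)}
    (hQ : ∀ z : Site d, MeasurePreserving (shiftEnv z) Q Q) (u : Step d) {x : Site d} {l : ℤ}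
    (hx : lev u x = l) (z : ℕ) : annealedProb Q x (Fz u l z) = tz Q u z := by
  have h := annProb_shift (x := 0) (hQ x) (measurableSet_Fz u l z)
  rw [zero_add] at h
  rw [h]
  unfold tz
  congr 1
  ext X
  show (∃ k, lev u (X k + x) < l ∧ (∀ i < k, l ≤ lev u (X i + x) ∧ lev u (X i + x) ≤ l + z) ∧
    ∃ i < k, lev u (X i + x) = l + z) ↔ (∃ k, lev u (X k) < 0 ∧
    (∀ i < k, 0 ≤ lev u (X i) ∧ lev u (X i) ≤ 0 + z) ∧ ∃ i < k, lev u (X i) = 0 + z)
  simp only [D1S.lev_add, hx]
  refine exists_congr fun k => ?_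
  constructor
  · rintro ⟨h1, h2, i, hi, h3⟩
    exact ⟨by omega, fun j hj => by have := h2 j hj; omega, i, hi, by omega⟩
  · rintro ⟨h1, h2, i, hi, h3⟩
    exact ⟨by omega, fun j hj => by have := h2 j hj; omega, i, hi, by omega⟩

lemma sum_tz_le {Q : Measure (Environment d)} [IsProbabilityMeasure Q] (u : Step d) :
    ∑' z, tz Q u z ≤ annealedProb Q 0 (Down u (-1)) := by
  have h1 : ∀ z, tz Q u z = annealed Q 0 (Fz u 0 z) :=
    fun z => (annealed_apply Q 0 (measurableSet_Fz u 0 z)).symm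
  simp only [h1]
  rw [← measure_iUnion (disj_Fz u 0) (measurableSet_Fz u 0),
    ← annealed_apply Q 0 (measurableSet_Down u _)]
  refine measure_mono (Set.iUnion_subset fun z => ?_)
  exact (Fz_sub_Down u 0 z).trans (by norm_num)

/-! ### strong Markov property with an event -/

/-- exit of `A`, with an event decided at the exit -/
theorem exit_markov_ev (ω : Environment d) (A : Set (Site d)) (x : Site d) {B F : Set (Path d)}
    (hB : MeasurableSet B) (hF : MeasurableSet F) (hdF : DetBy (exT A) (· ∈ F)) :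
    quenchedLaw ω x (F ∩ {X | exT A X ≠ ⊤ ∧ shift (exT A X).toNat X ∈ B}) =
      ∑' z, quenchedLaw ω x (F ∩ ExS A z) * quenchedLaw ω z B := by
  have hdet : ∀ z, DetBy (exT A) (· ∈ F ∩ ExS A z) := by
    intro z X Y n hXY hn
    have h2 : exT A Y = n := isStop_exT A X Y n hXY hn
    have h3 : (X ∈ F) = (Y ∈ F) := hdF X Y n hXY hn
    apply propext
    show (X ∈ F ∧ X ∈ ExS A z) ↔ (Y ∈ F ∧ Y ∈ ExS A z)
    rw [mem_ExS_iff, mem_ExS_iff, hn, h2, ENat.toNat_natCast, hXY n le_rfl, h3]
  have hm : ∀ z, MeasurableSet (F ∩ ExS A z) := fun z => hF.inter (measurableSet_ExS A z)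
  have key : ∀ z, quenchedLaw ω x ({X | exT A X ≠ ⊤} ∩ (F ∩ ExS A z) ∩
      {X | shift (exT A X).toNat X ∈ B}) = quenchedLaw ω x (F ∩ ExS A z) * quenchedLaw ω z B := by
    intro z
    rw [strong_markov_event ω x (isStop_exT A) (hdet z) (hm z) hB]
    have e : {X : Path d | exT A X ≠ ⊤} ∩ (F ∩ ExS A z) = F ∩ ExS A z := by
      ext X
      constructor
      · exact fun h => h.2
      · exact fun h => ⟨(mem_ExS_iff.1 h.2).1, h⟩
    rw [e, setLIntegral_congr_fun (g := fun _ => quenchedLaw ω z B) (hm z),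
      setLIntegral_const, mul_comm]
    intro X hX
    show quenchedLaw ω (X (exT A X).toNat) B = quenchedLaw ω z B
    rw [(mem_ExS_iff.1 hX.2).2]
  have e : F ∩ {X : Path d | exT A X ≠ ⊤ ∧ shift (exT A X).toNat X ∈ B} =
      ⋃ z, ({X | exT A X ≠ ⊤} ∩ (F ∩ ExS A z) ∩ {X | shift (exT A X).toNat X ∈ B}) := by
    ext X
    simp only [Set.mem_ofPred_eq, Set.mem_iUnion, Set.mem_inter_iff]
    constructor
    · rintro ⟨h0, h1, h2⟩
      exact ⟨X (exT A X).toNat, ⟨h1, h0, mem_ExS_iff.2 ⟨h1, rfl⟩⟩, h2⟩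
    · rintro ⟨z, ⟨h1, h0, -⟩, h2⟩
      exact ⟨h0, h1, h2⟩
  have hshift : Measurable fun X : Path d => shift (exT A X).toNat X := by
    refine measurable_pi_iff.2 fun i => ?_
    have h1 : Measurable fun X : Path d => (exT A X).toNat :=
      (measurable_of_countable ENat.toNat).comp (isStop_exT A).measurable
    have h2 : Measurable fun p : Path d × ℕ => p.1 (p.2 + i) :=
      measurable_from_prod_countable_left fun n => measurable_pi_apply (n + i)
    exact h2.comp (measurable_id.prodMk h1)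
  rw [e, measure_iUnion]
  · exact tsum_congr key
  · intro z z' hne
    refine Set.disjoint_left.2 fun X hX hX' => ?_
    exact Set.disjoint_left.1 (ExS_disjoint A hne) hX.1.2.2 hX'.1.2.2
  · intro z
    exact ((isStop_exT A).measurableSet_ne_top.inter (hm z)).inter (hshift hB)

/-- the levels below `l` -/
def Lo (u : Step d) (l : ℤ) : Set (Site d) := {z | lev u z < l}

lemma EK_Lo (u : Step d) (ω : Environment d) {l : ℤ} {x : Site d} (hx : lev u x ≤ l) {y : Site d}
    (hy : lev u y ≠ l) : EK ω (Lo u l) x y = 0 := by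
  have h : ∀ᵐ X ∂quenchedLaw ω x, X ∉ ExS (Lo u l) y := by
    filter_upwards [quenched_zero_eq ω x, quenched_nn ω x] with X h0 hnn hE
    obtain ⟨hyA, n, hn, hi'⟩ := hE
    have hT' : l ≤ lev u y := not_lt.1 hyA
    cases n with
    | zero =>
      rw [h0] at hn
      rw [hn] at hx
      exact hy (le_antisymm hx hT')
    | succ n =>
      obtain ⟨e, he⟩ := hnn n
      have h1 : lev u (X n) < l := hi' n (Nat.lt_succ_self n)
      have h2 := D1S.lev_stepVec_le u e
      have h3 : lev u (X (n + 1)) = lev u (X n) + lev u (stepVec e) := by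
        rw [← D1S.lev_add, he]
      rw [hn] at h3
      exact hy (by omega)
  have h2 := ae_iff.1 h
  unfold EK
  simpa using h2

/-! ### the bad event between two levels, any past -/

section bad

variable (u : Step d) (s : Site d → ℝ)

/-- between the first hit of level `a` (time `k`) and the first hit of level `b`, some time `m` is
below level `f` or at `s`-distance `> r` from the position at time `k` -/
def BadE (a b f : ℤ) (r : ℝ) : Set (Path d) :=
  {X | ∃ k m, k ≤ m ∧ a ≤ lev u (X k) ∧ (∀ i < k, lev u (X i) < a) ∧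
    (∀ i ≤ m, lev u (X i) < b) ∧ (lev u (X m) < f ∨ r < |s (X m) - s (X k)|)}

/-- displacement `> r` inside the slab `[l, b)` -/
def Wd (l b : ℤ) (r : ℝ) : Set (Path d) :=
  {X | ∃ k m, k ≤ m ∧ (∀ i ≤ m, l ≤ lev u (X i) ∧ lev u (X i) < b) ∧ r < |s (X m) - s (X k)|}

lemma measurableSet_BadE (a b f : ℤ) (r : ℝ) : MeasurableSet (BadE u s a b f r) := by
  have e : BadE u s a b f r = ⋃ k : ℕ, ⋃ m : ℕ, {X : Path d | k ≤ m ∧ a ≤ lev u (X k) ∧
      (∀ i < k, lev u (X i) < a) ∧ (∀ i ≤ m, lev u (X i) < b) ∧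
      (lev u (X m) < f ∨ r < |s (X m) - s (X k)|)} := by
    ext X; simp [BadE]
  rw [e]
  refine MeasurableSet.iUnion fun k => MeasurableSet.iUnion fun m => ?_
  refine Q561.DepOn.measurableSet (n := m) ?_
  rintro X Y h ⟨h0, h1, h2, h3, h4⟩
  refine ⟨h0, by rw [← h k h0]; exact h1, fun i hi => ?_, fun i hi => ?_, ?_⟩
  · rw [← h i (by omega)]; exact h2 i hi
  · rw [← h i hi]; exact h3 i hi
  · rw [← h m le_rfl, ← h k h0]; exact h4

lemma Wd_eq (l b : ℤ) (r : ℝ) : Wd u s l b r = ⋃ m : ℕ, {X : Path d | ∃ k, k ≤ m ∧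
    (∀ i ≤ m, l ≤ lev u (X i) ∧ lev u (X i) < b) ∧ r < |s (X m) - s (X k)|} := by
  ext X
  simp only [Wd, Set.mem_setOf_eq, Set.mem_iUnion]
  exact exists_comm

lemma depOn_Wd (l b : ℤ) (r : ℝ) (m : ℕ) : Q561.DepOn m {X : Path d | ∃ k, k ≤ m ∧
    (∀ i ≤ m, l ≤ lev u (X i) ∧ lev u (X i) < b) ∧ r < |s (X m) - s (X k)|} := by
  rintro X Y h ⟨k, hk, h1, h2⟩
  refine ⟨k, hk, fun i hi => ?_, ?_⟩
  · rw [← h i hi]; exact h1 i hi
  · rw [← h m le_rfl, ← h k hk]; exact h2

lemma measurableSet_Wd (l b : ℤ) (r : ℝ) : MeasurableSet (Wd u s l b r) := by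
  rw [Wd_eq]
  exact MeasurableSet.iUnion fun m => (depOn_Wd u s l b r m).measurableSet

lemma dec_Wd (l b : ℤ) (r : ℝ) {S : Set (Site d)} (hS : ∀ y, l ≤ lev u y → y ∈ S) :
    Q561.Dec S (Wd u s l b r) := by
  rw [Wd_eq]
  refine Q561.dec_iUnion fun m => Q561.dec_of_depOn (depOn_Wd u s l b r m) ?_
  rintro X ⟨k, hk, h1, h2⟩ i hi
  exact hS _ (h1 i hi.le).1

variable {u s}

/-- a path from level `l` in `BadE` is displaced inside the slab or fails at some height -/
lemma BadE_cases {a b f l : ℤ} {r : ℝ} (hf : f ≤ l) {X : Path d} (h0 : lev u (X 0) = l)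
    (hX : X ∈ BadE u s a b f r) :
    X ∈ Wd u s l b r ∨ ∃ z : ℕ, X ∈ Fz u l z := by
  classical
  obtain ⟨k, m, hkm, h1, h2, h3, h4⟩ := hX
  by_cases hlow : ∃ i ≤ m, lev u (X i) < l
  · right
    have hex : ∃ i, lev u (X i) < l := by
      obtain ⟨i, -, hi⟩ := hlow
      exact ⟨i, hi⟩
    set i0 := Nat.find hex with hi0
    have hi1 : lev u (X i0) < l := Nat.find_spec hex
    have hi2 : ∀ i < i0, l ≤ lev u (X i) := fun i hi => not_lt.1 (Nat.find_min hex hi)
    have hpos : 0 < i0 := by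
      rcases Nat.eq_zero_or_pos i0 with h | h
      · rw [h, h0] at hi1; exact absurd hi1 (lt_irrefl l)
      · exact h
    obtain ⟨j, hj, hmax⟩ := Finset.exists_max_image (Finset.range i0) (fun i => lev u (X i))
      ⟨0, Finset.mem_range.2 hpos⟩
    rw [Finset.mem_range] at hj
    refine ⟨(lev u (X j) - l).toNat, i0, hi1, fun i hi => ⟨hi2 i hi, ?_⟩, j, hj, ?_⟩
    · rw [Int.toNat_of_nonneg (by have := hi2 j hj; omega)]
      have := hmax i (Finset.mem_range.2 hi)
      omega
    · rw [Int.toNat_of_nonneg (by have := hi2 j hj; omega)]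
      omega
  · left
    push Not at hlow
    refine ⟨k, m, hkm, fun i hi => ⟨hlow i hi, h3 i hi⟩, ?_⟩
    rcases h4 with h4 | h4
    · exact absurd (hlow m le_rfl) (by omega)
    · exact h4

/-- `BadE` survives the shift to the first hit of a level `l' ≤ a` -/
lemma BadE_shift {a b f l' : ℤ} {r : ℝ} (hl : l' ≤ a) {X : Path d} (hX : X ∈ BadE u s a b f r) :
    exT (Lo u l') X ≠ ⊤ ∧ shift (exT (Lo u l') X).toNat X ∈ BadE u s a b f r := by
  classical
  obtain ⟨k, m, hkm, h1, h2, h3, h4⟩ := hX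
  have hex : ∃ n, l' ≤ lev u (X n) := ⟨k, hl.trans h1⟩
  have hT : exT (Lo u l') X = (Nat.find hex : ℕ) := by
    rw [exT_eq_iff]
    exact ⟨fun h => absurd (Nat.find_spec hex) (not_le.2 h),
      fun i hi => not_le.1 (Nat.find_min hex hi)⟩
  have hle : Nat.find hex ≤ k := Nat.find_min' hex (hl.trans h1)
  rw [hT, ENat.toNat_natCast]
  set n0 := Nat.find hex
  refine ⟨ENat.natCast_ne_top _, k - n0, m - n0, by omega, ?_, fun i hi => ?_, fun i hi => ?_, ?_⟩
  · show a ≤ lev u (X (n0 + (k - n0)))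
    rw [show n0 + (k - n0) = k by omega]; exact h1
  · exact h2 (n0 + i) (by omega)
  · exact h3 (n0 + i) (by omega)
  · show lev u (X (n0 + (m - n0))) < f ∨ r < |s (X (n0 + (m - n0))) - s (X (n0 + (k - n0)))|
    rw [show n0 + (m - n0) = m by omega, show n0 + (k - n0) = k by omega]
    exact h4

lemma detBy_Fz (l : ℤ) (z : ℕ) : DetBy (exT (Lo u (l + z + 1))) (· ∈ Fz u l z) := by
  have key : ∀ (X Y : Path d) (n : ℕ), Agree n X Y → exT (Lo u (l + z + 1)) X = n →
      X ∈ Fz u l z → Y ∈ Fz u l z := by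
    rintro X Y n hXY hn ⟨k, h1, h2, i, hi, h3⟩
    have hT := exT_eq_iff.1 hn
    have hk : k < n := by
      by_contra hcon
      push Not at hcon
      refine hT.1 ?_
      show lev u (X n) < l + z + 1
      rcases Nat.lt_or_ge n k with h | h
      · have := (h2 n h).2; omega
      · have : n = k := le_antisymm hcon h
        rw [this]; omega
    refine ⟨k, by rw [← hXY k hk.le]; exact h1, fun j hj => ?_, i, hi, ?_⟩
    · rw [← hXY j (by omega)]; exact h2 j hj
    · rw [← hXY i (by omega)]; exact h3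
  intro X Y n hXY hn
  have h2 : exT (Lo u (l + z + 1)) Y = n := isStop_exT _ X Y n hXY hn
  exact propext ⟨key X Y n hXY hn, key Y X n hXY.symm h2⟩

/-- one step: failure of height `z`, then `BadE` after the first hit of the next fresh level -/
lemma step_fail (ν : Measure (Row d)) [IsProbabilityMeasure ν] {a b f l : ℤ} {r : ℝ} {z : ℕ}
    (hl : l + z + 1 ≤ a) {x : Site d} (hx : lev u x = l) {β : ℝ≥0∞}
    (hβ : ∀ y : Site d, lev u y = l + z + 1 → ∀ Φ : Environment d → ℝ≥0∞,
      Measurable[coordSigmaAlgebra (Lo u (l + z + 1))] Φ →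
      ∫⁻ ω, Φ ω * quenchedLaw ω y (BadE u s a b f r) ∂(iidEnvironmentLaw ν) ≤
        β * ∫⁻ ω, Φ ω ∂(iidEnvironmentLaw ν))
    {Φ : Environment d → ℝ≥0∞} (hΦ : Measurable[coordSigmaAlgebra (Lo u l)] Φ) :
    ∫⁻ ω, Φ ω * quenchedLaw ω x (Fz u l z ∩ BadE u s a b f r) ∂(iidEnvironmentLaw ν) ≤
      tz (iidEnvironmentLaw ν) u z * β * ∫⁻ ω, Φ ω ∂(iidEnvironmentLaw ν) := by
  set Q := iidEnvironmentLaw ν with hQdef
  have hstat : ∀ z : Site d, MeasurePreserving (shiftEnv z) Q Q := fun z => Q561.iid_shift ν z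
  set L := Lo u (l + z + 1) with hL
  have hLl : Lo u l ⊆ L := fun y hy => by
    have : lev u y < l := hy
    show lev u y < l + z + 1
    omega
  have hBm := measurableSet_BadE u s a b f r
  have h1 : ∀ ω, quenchedLaw ω x (Fz u l z ∩ BadE u s a b f r) ≤
      ∑' y, quenchedLaw ω x (Fz u l z ∩ ExS L y) * quenchedLaw ω y (BadE u s a b f r) := by
    intro ω
    rw [← exit_markov_ev ω L x hBm (measurableSet_Fz u l z) (detBy_Fz l z)]
    refine measure_mono fun X hX => ⟨hX.1, ?_⟩
    exact BadE_shift hl hX.2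
  have hdF : Q561.Dec L (Fz u l z) := dec_Fz u l z fun y h1 h2 => by
    show lev u y < l + z + 1
    omega
  have hmF : ∀ y, Measurable[coordSigmaAlgebra L]
      fun ω : Environment d => quenchedLaw ω x (Fz u l z ∩ ExS L y) := fun y =>
    Q561.measurable_coord_quenched x ((measurableSet_Fz u l z).inter (measurableSet_ExS L y))
      (hdF.inter (dec_ExS L y))
  have hΦL : Measurable[coordSigmaAlgebra L] Φ := fun B hB => coord_mono hLl _ (hΦ hB)
  have hΦm : Measurable Φ := fun B hB => Q561.coord_le _ _ (hΦ hB)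
  have hmF' : ∀ y, Measurable fun ω : Environment d => quenchedLaw ω x (Fz u l z ∩ ExS L y) :=
    fun y => Q561.measurable_quenched_apply x
      ((measurableSet_Fz u l z).inter (measurableSet_ExS L y))
  have hmB : ∀ y, Measurable fun ω : Environment d => quenchedLaw ω y (BadE u s a b f r) :=
    fun y => Q561.measurable_quenched_apply y hBm
  have h2 : ∀ y, ∫⁻ ω, Φ ω * quenchedLaw ω x (Fz u l z ∩ ExS L y) *
      quenchedLaw ω y (BadE u s a b f r) ∂Q ≤
      β * ∫⁻ ω, Φ ω * quenchedLaw ω x (Fz u l z ∩ ExS L y) ∂Q := by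
    intro y
    by_cases hy : lev u y = l + z + 1
    · exact hβ y hy (fun ω => Φ ω * quenchedLaw ω x (Fz u l z ∩ ExS L y))
        (Measurable.mul hΦL (hmF y))
    · have h3 : ∀ ω, quenchedLaw ω x (Fz u l z ∩ ExS L y) = 0 := fun ω => by
        refine measure_mono_null Set.inter_subset_right ?_
        exact EK_Lo u ω (by rw [hx]; omega) hy
      simp [h3]
  calc ∫⁻ ω, Φ ω * quenchedLaw ω x (Fz u l z ∩ BadE u s a b f r) ∂Q
      ≤ ∫⁻ ω, ∑' y, Φ ω * quenchedLaw ω x (Fz u l z ∩ ExS L y) *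
          quenchedLaw ω y (BadE u s a b f r) ∂Q := by
        refine lintegral_mono fun ω => ?_
        calc Φ ω * quenchedLaw ω x (Fz u l z ∩ BadE u s a b f r)
            ≤ Φ ω * ∑' y, quenchedLaw ω x (Fz u l z ∩ ExS L y) *
              quenchedLaw ω y (BadE u s a b f r) := mul_le_mul' le_rfl (h1 ω)
          _ = _ := by
              rw [← ENNReal.tsum_mul_left]
              exact tsum_congr fun y => by rw [mul_assoc]
    _ = ∑' y, ∫⁻ ω, Φ ω * quenchedLaw ω x (Fz u l z ∩ ExS L y) *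
          quenchedLaw ω y (BadE u s a b f r) ∂Q := by
        rw [lintegral_tsum]
        exact fun y => ((hΦm.mul (hmF' y)).mul (hmB y)).aemeasurable
    _ ≤ ∑' y, β * ∫⁻ ω, Φ ω * quenchedLaw ω x (Fz u l z ∩ ExS L y) ∂Q :=
        ENNReal.tsum_le_tsum h2
    _ = β * ∫⁻ ω, Φ ω * ∑' y, quenchedLaw ω x (Fz u l z ∩ ExS L y) ∂Q := by
        rw [ENNReal.tsum_mul_left]
        congr 1
        have h4 := lintegral_tsum (μ := Q) (f := fun (y : Site d) (ω : Environment d) =>
          Φ ω * quenchedLaw ω x (Fz u l z ∩ ExS L y))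
          fun y => (hΦm.mul (hmF' y)).aemeasurable
        rw [← h4]
        exact lintegral_congr fun ω => ENNReal.tsum_mul_left
    _ ≤ β * ∫⁻ ω, Φ ω * quenchedLaw ω x (Fz u l z) ∂Q := by
        refine mul_le_mul' le_rfl (lintegral_mono fun ω => mul_le_mul' le_rfl ?_)
        rw [← measure_iUnion]
        · exact measure_mono (Set.iUnion_subset fun y => Set.inter_subset_left)
        · intro y y' hne
          exact (ExS_disjoint L hne).mono Set.inter_subset_right Set.inter_subset_right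
        · exact fun y => (measurableSet_Fz u l z).inter (measurableSet_ExS L y)
    _ = β * ((∫⁻ ω, Φ ω ∂Q) * ∫⁻ ω, quenchedLaw ω x (Fz u l z) ∂Q) := by
        congr 1
        refine lint_mul ν (S := Lo u l) (T := {y | l ≤ lev u y}) ?_ hΦ
          (Q561.measurable_coord_quenched x (measurableSet_Fz u l z)
            (dec_Fz u l z fun y h1 h2 => h1))
        exact Set.disjoint_left.2 fun y h1 h2 => absurd (show l ≤ lev u y from h2) (not_le.2 h1)
    _ = _ := by
        have h3 : ∫⁻ ω, quenchedLaw ω x (Fz u l z) ∂Q = tz Q u z := ann_Fz hstat u hx z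
        rw [h3]
        ring

/-- **dips and displacements after `T_a`, any past below the start level** -/
theorem bad_le (ν : Measure (Row d)) [IsProbabilityMeasure ν] {a b f : ℤ} {r : ℝ}
    {g : ℝ≥0∞} {m : ℕ}
    (hg : ∀ x : Site d, f ≤ lev u x → lev u x ≤ a →
      annealedProb (iidEnvironmentLaw ν) x (Wd u s (lev u x) b r) ≤ g) {c q T : ℝ≥0∞}
    (hq : ∑' z, tz (iidEnvironmentLaw ν) u z ≤ q)
    (hT : ∑' z, tz (iidEnvironmentLaw ν) u (z + m) ≤ T) (hc : 1 + q * c ≤ c) (k : ℕ) :
    ∀ x : Site d, f ≤ lev u x → lev u x + k * m ≤ a → ∀ Φ : Environment d → ℝ≥0∞,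
      Measurable[coordSigmaAlgebra (Lo u (lev u x))] Φ →
      ∫⁻ ω, Φ ω * quenchedLaw ω x (BadE u s a b f r) ∂(iidEnvironmentLaw ν) ≤
        (c * (g + T) + q ^ k) * ∫⁻ ω, Φ ω ∂(iidEnvironmentLaw ν) := by
  induction k with
  | zero =>
    intro x hfx hxa Φ hΦ
    rw [pow_zero]
    calc ∫⁻ ω, Φ ω * quenchedLaw ω x (BadE u s a b f r) ∂(iidEnvironmentLaw ν)
        ≤ ∫⁻ ω, Φ ω ∂(iidEnvironmentLaw ν) := lintegral_mono fun ω => by
          calc Φ ω * quenchedLaw ω x (BadE u s a b f r) ≤ Φ ω * 1 :=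
                mul_le_mul' le_rfl prob_le_one
            _ = Φ ω := mul_one _
      _ = 1 * ∫⁻ ω, Φ ω ∂(iidEnvironmentLaw ν) := (one_mul _).symm
      _ ≤ _ := mul_le_mul' le_add_self le_rfl
  | succ k ih =>
    intro x hfx hxa Φ hΦ
    set Q := iidEnvironmentLaw ν with hQdef
    set l := lev u x with hl
    have hΦm : Measurable Φ := fun B hB => Q561.coord_le _ _ (hΦ hB)
    have hBm := measurableSet_BadE u s a b f r
    have hWm := measurableSet_Wd u s l b r
    have hmkm : (0 : ℤ) ≤ (k : ℤ) * m := by positivity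
    -- decomposition
    have h1 : ∀ ω, quenchedLaw ω x (BadE u s a b f r) ≤ quenchedLaw ω x (Wd u s l b r) +
        ∑' z : ℕ, quenchedLaw ω x (Fz u l z ∩ BadE u s a b f r) := by
      intro ω
      calc quenchedLaw ω x (BadE u s a b f r)
          ≤ quenchedLaw ω x (Wd u s l b r ∪ ⋃ z : ℕ, (Fz u l z ∩ BadE u s a b f r)) := by
            refine measure_mono_ae ?_
            filter_upwards [quenched_zero_eq ω x] with X h0 hX
            rcases BadE_cases (hfx) (by rw [h0]) hX with h | ⟨z, hz⟩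
            · exact Or.inl h
            · exact Or.inr (Set.mem_iUnion.2 ⟨z, hz, hX⟩)
        _ ≤ _ := (measure_union_le _ _).trans (add_le_add le_rfl (measure_iUnion_le _))
    have hW : ∫⁻ ω, Φ ω * quenchedLaw ω x (Wd u s l b r) ∂Q ≤ g * ∫⁻ ω, Φ ω ∂Q := by
      rw [lint_mul ν (S := Lo u l) (T := {y | l ≤ lev u y})
        (Set.disjoint_left.2 fun y h1 h2 => absurd (show l ≤ lev u y from h2) (not_le.2 h1)) hΦ
        (Q561.measurable_coord_quenched x hWm (dec_Wd u s l b r fun y hy => hy)), mul_comm]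
      refine mul_le_mul' (hg x hfx ?_) le_rfl
      have : (0 : ℤ) ≤ ((k + 1 : ℕ) : ℤ) * m := by positivity
      omega
    have hz1 : ∀ z : ℕ, z < m → ∫⁻ ω, Φ ω * quenchedLaw ω x (Fz u l z ∩ BadE u s a b f r) ∂Q ≤
        tz Q u z * (c * (g + T) + q ^ k) * ∫⁻ ω, Φ ω ∂Q := by
      intro z hz
      have hkm : (((k + 1 : ℕ) : ℤ)) * m = k * m + m := by push_cast; ring
      have hza : l + z + 1 ≤ a := by
        rw [hkm] at hxa
        have : (z : ℤ) < m := by exact_mod_cast hz
        omega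
      refine step_fail ν hza (hl.symm ▸ rfl) ?_ hΦ
      intro y hy Ψ hΨ
      refine ih y (by omega) ?_ Ψ (by rw [hy]; exact hΨ)
      rw [hy]
      rw [hkm] at hxa
      have : (z : ℤ) < m := by exact_mod_cast hz
      omega
    have hz2 : ∀ z : ℕ, ∫⁻ ω, Φ ω * quenchedLaw ω x (Fz u l z ∩ BadE u s a b f r) ∂Q ≤
        tz Q u z * ∫⁻ ω, Φ ω ∂Q := by
      intro z
      calc ∫⁻ ω, Φ ω * quenchedLaw ω x (Fz u l z ∩ BadE u s a b f r) ∂Q
          ≤ ∫⁻ ω, Φ ω * quenchedLaw ω x (Fz u l z) ∂Q :=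
            lintegral_mono fun ω => mul_le_mul' le_rfl (measure_mono Set.inter_subset_left)
        _ = (∫⁻ ω, Φ ω ∂Q) * ∫⁻ ω, quenchedLaw ω x (Fz u l z) ∂Q := by
            refine lint_mul ν (S := Lo u l) (T := {y | l ≤ lev u y}) ?_ hΦ
              (Q561.measurable_coord_quenched x (measurableSet_Fz u l z)
                (dec_Fz u l z fun y h1 h2 => h1))
            exact Set.disjoint_left.2 fun y h1 h2 => absurd (show l ≤ lev u y from h2) (not_le.2 h1)
        _ = _ := by
            have h3 : ∫⁻ ω, quenchedLaw ω x (Fz u l z) ∂Q = tz Q u z :=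
              ann_Fz (fun z => Q561.iid_shift ν z) u hl.symm z
            rw [h3, mul_comm]
    set I := ∫⁻ ω, Φ ω ∂Q with hI
    set β := c * (g + T) + q ^ k with hβ
    have hsum : ∑' z : ℕ, ∫⁻ ω, Φ ω * quenchedLaw ω x (Fz u l z ∩ BadE u s a b f r) ∂Q ≤
        (q * β + T) * I := by
      rw [← (ENNReal.summable).sum_add_tsum_nat_add' (k := m)]
      calc (∑ z ∈ Finset.range m, ∫⁻ ω, Φ ω * quenchedLaw ω x (Fz u l z ∩ BadE u s a b f r) ∂Q) +
            ∑' z : ℕ, ∫⁻ ω, Φ ω * quenchedLaw ω x (Fz u l (z + m) ∩ BadE u s a b f r) ∂Q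
          ≤ (∑ z ∈ Finset.range m, tz Q u z * β * I) + ∑' z : ℕ, tz Q u (z + m) * I := by
            refine add_le_add (Finset.sum_le_sum fun z hz => hz1 z (Finset.mem_range.1 hz))
              (ENNReal.tsum_le_tsum fun z => ?_)
            exact hz2 (z + m)
        _ = (∑ z ∈ Finset.range m, tz Q u z) * β * I + (∑' z : ℕ, tz Q u (z + m)) * I := by
            rw [ENNReal.tsum_mul_right, Finset.sum_mul, Finset.sum_mul]
        _ ≤ q * β * I + T * I := by
            gcongr
            exact (ENNReal.sum_le_tsum _).trans hq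
        _ = _ := by ring
    calc ∫⁻ ω, Φ ω * quenchedLaw ω x (BadE u s a b f r) ∂Q
        ≤ ∫⁻ ω, (Φ ω * quenchedLaw ω x (Wd u s l b r) +
            ∑' z : ℕ, Φ ω * quenchedLaw ω x (Fz u l z ∩ BadE u s a b f r)) ∂Q := by
          refine lintegral_mono fun ω => ?_
          rw [ENNReal.tsum_mul_left, ← mul_add]
          exact mul_le_mul' le_rfl (h1 ω)
      _ = ∫⁻ ω, Φ ω * quenchedLaw ω x (Wd u s l b r) ∂Q +
            ∑' z : ℕ, ∫⁻ ω, Φ ω * quenchedLaw ω x (Fz u l z ∩ BadE u s a b f r) ∂Q := by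
          have h5 := lintegral_add_left (μ := Q)
            (f := fun ω : Environment d => Φ ω * quenchedLaw ω x (Wd u s l b r))
            (hΦm.mul (Q561.measurable_quenched_apply x hWm))
            (fun ω => ∑' z : ℕ, Φ ω * quenchedLaw ω x (Fz u l z ∩ BadE u s a b f r))
          rw [h5, lintegral_tsum]
          exact fun z => (hΦm.mul (Q561.measurable_quenched_apply x
            ((measurableSet_Fz u l z).inter hBm))).aemeasurable
      _ ≤ g * I + (q * β + T) * I := add_le_add hW hsum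
      _ = (g + T + q * β) * I := by ring
      _ ≤ (c * (g + T) + q ^ (k + 1)) * I := by
          refine mul_le_mul' ?_ le_rfl
          calc g + T + q * β = (1 + q * c) * (g + T) + q ^ (k + 1) := by
                rw [hβ, pow_succ]; ring
            _ ≤ c * (g + T) + q ^ (k + 1) := by gcongr

end bad

end Crest.Agent.R154.SlabUse28
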