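import Crest.Agent.R154.AsmD_540
import Crest.Agent.R154.KappaData_723
import Crest.Agent.R154.SlabC_496

/-! Row 154, ROAD 801 (helper496): 540's input `Asm540.H5` (thin slab) at the crossing words. -/

set_option autoImplicit false

namespace Crest.Agent.R154.SlabW496

open MeasureTheory ProbabilityTheory Crest.ProbabilityR.RandomEnvironment Crest.Agent.R154
open Crest.Agent.R154.B5A (LW HT U)
open Crest.Agent.R154.KD723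
open scoped ENNReal

/-- abstract form: `Asm540.H5` from the single-walker data -/
theorem h5_abs {BX BY G : Type*} [AddCommGroup G]
    (ΛX : BX → ℝ≥0∞) (ΛY : BY → ℝ≥0∞) (hX : BX → ℕ) (hY : BY → ℕ) (zX : BX → G) (zY : BY → G)
    (sX : BX → Set (G × ℕ)) (sY : BY → Set (G × ℕ))
    (h1X : ∀ b, 1 ≤ hX b) (hΛX : ∑' b, ΛX b = 1) (hΛY : ∑' b, ΛY b = 1)
    (hEX : ∑' b, ΛX b * (hX b : ℝ≥0∞) ≠ ⊤) (hEY : ∑' b, ΛY b * (hY b : ℝ≥0∞) ≠ ⊤)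
    (hUX : ∀ n, U ΛX hX n ≤ 1) (hUY : ∀ n, U ΛY hY n ≤ 1)
    (hfX : ∀ b, (sX b).Finite) (hfY : ∀ b, (sY b).Finite)
    (hdX : ∀ b q, q ∈ sX b → 1 ≤ q.2 ∧ q.2 ≤ hX b)
    (hdY : ∀ b q, q ∈ sY b → 1 ≤ q.2 ∧ q.2 ≤ hY b)
    (b1 b2 : BX) (hb1 : ΛX b1 ≠ 0) (hb2 : ΛX b2 ≠ 0) (hh : hX b1 = hX b2)
    (hz : ∀ j : ℤ, j • (zX b1 - zX b2) = 0 → j = 0) :
    Asm540.H5 ΛX ΛY hX hY zX zY sX sY := by
  classical
  intro s η hη
  obtain ⟨T, hT⟩ := SlabC496.H5 ΛX hX zX ΛY hY zY sX sY h1X hΛX hΛY hEX hEY hUX hUY hfX hfY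
    hdX hdY b1 b2 hb1 hb2 hh hz (Asm540.TR sX zX hX) (fun _ _ => rfl) (fun _ _ _ _ => rfl)
    (Asm540.TR sY zY hY) (fun _ _ => rfl) (fun _ _ _ _ => rfl) s η hη
  refine ⟨T, fun a ha n w => le_trans ?_ (hT a ha n w)⟩
  unfold Asm540.KS
  refine ENNReal.tsum_le_tsum fun L => ENNReal.tsum_le_tsum fun L' => ?_
  by_cases hc : HT hX L = n ∧ HT hY L' = n ∧
      ∃ g k, k ∈ Set.Ico a (a + s) ∧ Asm540.Cm hX hY zX zY sX sY L L' w 0 0 g k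
  · rw [if_pos hc, if_pos]
    obtain ⟨e1, e2, g, k, hk, hm1, hm2⟩ := hc
    exact ⟨e1, e2, g, k, hk.1, hk.2, hm1, hm2⟩
  · rw [if_neg hc]; exact bot_le

/-- **`Asm540.H5` at the words.** -/
theorem h5 {d : ℕ} (hd : 2 ≤ d) (ν : Measure (Row d)) [IsProbabilityMeasure ν]
    (hν : ∀ᵐ p ∂ν, ∀ e : Step d, 0 < p.1 e) (u : Step d)
    (hA : annealed (iidEnvironmentLaw ν) 0 (escapeEvent (B2d.dirVec u)) ≠ 0)
    (hB : annealed (iidEnvironmentLaw ν) 0 (escapeEvent (-B2d.dirVec u)) ≠ 0) :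
    Asm540.H5 (ΛX ν u) (ΛY ν u) (hX u) (hY u) (zX u) (zY u) (sX u) (sY u) := by
  obtain ⟨c, hc0, hc1, _, _, h5, h6, h7, h8, h9, h10⟩ := data ν hν u hA hB
  obtain ⟨b1, b2, e1, e2, w1, w2, hz⟩ := two_X hd ν hν u
  have hct : c⁻¹ ≠ ⊤ := ENNReal.inv_ne_top.2 hc0
  exact h5_abs _ _ _ _ _ _ _ _ (h1X u) h7 h8 (ne_top_of_le_ne_top hct h9)
    (ne_top_of_le_ne_top hct h10) h5 h6 (fin_sX u) (fin_sY u) (fun b q hq => sX_depth u b q hq)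
    (fun b q hq => sY_depth u b q hq) b1 b2 w1 w2 (e1.trans e2.symm)
    (fun j hj => by by_contra hne; exact hz j hne hj)

end Crest.Agent.R154.SlabW496
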