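import Crest.Agent.R154.KWBind_419

/-! Row 154 (S0219, ROAD 801), helper220: contact at one level (POINT) and in a thin slab (H5) for
two independent lists of single-walker blocks, from point concentration of the renewal position. -/

set_option autoImplicit false

namespace Crest.Agent.R154.Slab220

open Crest.Agent.R154.B5A (LW HT U LW_append LW_cons HT_append HT_cons)
open Crest.Agent.R154.KWB419 (TT)
open Filter Topology
open scoped ENNReal

variable {BX BY G : Type*} [AddCommGroup G]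

lemma mem_TT {B : Type*} (s : B → Set (G × ℕ)) (h : B → ℕ) (zf : B → G) (L : List B) (x : G)
    (a : ℕ) (z : G) (k : ℕ) (hm : (z, k) ∈ TT s h zf L x a) :
    ∃ L1 b L2, L = L1 ++ b :: L2 ∧ ∃ q ∈ s b, z = x + (L1.map zf).sum + q.1 ∧
      k = a + HT h L1 + q.2 := by
  induction L generalizing x a with
  | nil => simp [TT] at hm
  | cons b L ih =>
    simp only [TT, Set.mem_union] at hm
    rcases hm with ⟨q, hq, hp⟩ | hm
    · refine ⟨[], b, L, rfl, q, hq, ?_, ?_⟩
      · have := congrArg Prod.fst hp; simpa using this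
      · have := congrArg Prod.snd hp; simpa [B5A.HT] using this
    · obtain ⟨L1, b', L2, hL, q, hq, h1, h2⟩ := ih _ _ hm
      refine ⟨b :: L1, b', L2, by rw [hL]; rfl, q, hq, ?_, ?_⟩
      · rw [h1]; simp only [List.map_cons, List.sum_cons]; abel
      · rw [h2, HT_cons]; omega

lemma tsf {α ι : Type*} (s : Finset ι) (f : α → ι → ℝ≥0∞) :
    ∑' a, ∑ i ∈ s, f a i = ∑ i ∈ s, ∑' a, f a i :=
  Summable.tsum_finsetSum fun _ _ => ENNReal.summable

open Classical in
lemma key {B : Type*} (Λ : B → ℝ≥0∞) (h : B → ℕ) (hU : ∀ n, U Λ h n ≤ 1) (k N : ℕ) :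
    ∑' L : List B, (if HT h L ≤ k ∧ k ≤ HT h L + N then LW Λ L else 0) ≤ (N + 1 : ℕ) := by
  calc ∑' L : List B, (if HT h L ≤ k ∧ k ≤ HT h L + N then LW Λ L else 0)
      ≤ ∑' L : List B, ∑ j ∈ Finset.range (N + 1), (if HT h L = k - j then LW Λ L else 0) := by
        refine ENNReal.tsum_le_tsum fun L => ?_
        by_cases hc : HT h L ≤ k ∧ k ≤ HT h L + N
        · rw [if_pos hc]
          refine le_trans ?_ (Finset.single_le_sum (f := fun j => (if HT h L = k - j then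
            LW Λ L else 0)) (fun _ _ => zero_le) (Finset.mem_range.2
            (show k - HT h L < N + 1 by omega)))
          rw [if_pos (by omega)]
        · rw [if_neg hc]; exact zero_le
    _ = ∑ j ∈ Finset.range (N + 1), U Λ h (k - j) := by
        rw [tsf]
        refine Finset.sum_congr rfl fun j _ => ?_
        rw [U]
    _ ≤ ∑ j ∈ Finset.range (N + 1), 1 := Finset.sum_le_sum fun j _ => hU _
    _ = (N + 1 : ℕ) := by simp

/-- comparison of sums through a section -/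
lemma tsum_section {α β : Type*} (g : α → ℝ≥0∞) (F : β → ℝ≥0∞) (c : β → α)
    (h : ∀ a, g a ≠ 0 → ∃ b, c b = a ∧ g a ≤ F b) : ∑' a, g a ≤ ∑' b, F b := by
  classical
  have h1 : ∑' a, g a = ∑' a : Function.support g, g a := (tsum_subtype_support g).symm
  rw [h1]
  have hch : ∀ a : Function.support g, ∃ b, c b = a.1 ∧ g a.1 ≤ F b := fun a => h a.1 a.2
  choose p hp1 hp2 using hch
  have hinj : Function.Injective p := by
    intro a a' haa
    apply Subtype.ext
    rw [← hp1 a, ← hp1 a', haa]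
  calc ∑' a : Function.support g, g a ≤ ∑' a : Function.support g, F (p a) :=
        ENNReal.tsum_le_tsum fun a => hp2 a
    _ ≤ ∑' b, F b := ENNReal.tsum_comp_le_tsum_of_injective hinj F

variable (ΛX : BX → ℝ≥0∞) (hX : BX → ℕ) (zX : BX → G) (sX : BX → Set (G × ℕ))
variable (ΛY : BY → ℝ≥0∞) (hY : BY → ℕ) (zY : BY → G) (sY : BY → Set (G × ℕ))

open Classical in
/-- weight of the prefixes for given marked blocks -/
noncomputable def W (k : ℕ) (w : G) (b : BX) (b' : BY) : ℝ≥0∞ :=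
  ∑' L1 : List BX, ∑' L1' : List BY,
    if ∃ x ∈ sX b, ∃ y ∈ sY b', HT hX L1 + x.2 = k ∧ HT hY L1' + y.2 = k ∧
      (L1.map zX).sum + x.1 = w + (L1'.map zY).sum + y.1
    then LW ΛX L1 * LW ΛY L1' else 0

open Classical in
lemma W_le_heights (hUX : ∀ n, U ΛX hX n ≤ 1) (hUY : ∀ n, U ΛY hY n ≤ 1)
    (hrX : ∀ b, ∀ q ∈ sX b, 1 ≤ q.2 ∧ q.2 ≤ hX b)
    (hrY : ∀ b, ∀ q ∈ sY b, 1 ≤ q.2 ∧ q.2 ≤ hY b) (k : ℕ) (w : G) (b : BX) (b' : BY) :
    W ΛX hX zX sX ΛY hY zY sY k w b b' ≤ (hX b + 1 : ℕ) * (hY b' + 1 : ℕ) := by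
  calc W ΛX hX zX sX ΛY hY zY sY k w b b'
      ≤ ∑' L1 : List BX, ∑' L1' : List BY,
        (if HT hX L1 ≤ k ∧ k ≤ HT hX L1 + hX b then LW ΛX L1 else 0)
          * (if HT hY L1' ≤ k ∧ k ≤ HT hY L1' + hY b' then LW ΛY L1' else 0) := by
        refine ENNReal.tsum_le_tsum fun L1 => ENNReal.tsum_le_tsum fun L1' => ?_
        split_ifs with h1 h2 h3 h3 h2 h3 h3
        all_goals first
          | exact le_rfl
          | (obtain ⟨x, hx, y, hy, e1, e2, _⟩ := h1
             have := hrX b x hx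
             have := hrY b' y hy
             exfalso; omega)
          | simp
    _ = (∑' L1 : List BX, (if HT hX L1 ≤ k ∧ k ≤ HT hX L1 + hX b then LW ΛX L1 else 0))
          * ∑' L1' : List BY, (if HT hY L1' ≤ k ∧ k ≤ HT hY L1' + hY b' then LW ΛY L1' else 0) := by
        rw [← ENNReal.tsum_mul_right]
        refine tsum_congr fun L1 => ?_
        rw [ENNReal.tsum_mul_left]
    _ ≤ _ := mul_le_mul' (key ΛX hX hUX _ _) (key ΛY hY hUY _ _)

lemma le_two {α β : Type*} (s : Finset α) (t : Finset β) (f : α → β → ℝ≥0∞) (x : α) (y : β)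
    (hx : x ∈ s) (hy : y ∈ t) (c : ℝ≥0∞) (hc : c ≤ f x y) : c ≤ ∑ x ∈ s, ∑ y ∈ t, f x y :=
  hc.trans ((Finset.single_le_sum (f := fun y => f x y) (fun _ _ => zero_le) hy).trans
    (Finset.single_le_sum (f := fun x => ∑ y ∈ t, f x y) (fun _ _ => zero_le) hx))

open Classical in
lemma W_small (hUY : ∀ n, U ΛY hY n ≤ 1)
    (hconc : ∀ ε : ℝ≥0∞, ε ≠ 0 → ∃ N, ∀ n, N ≤ n → ∀ x : G,
      ∑' L : List BX, (if HT hX L = n ∧ (L.map zX).sum = x then LW ΛX L else 0) ≤ ε)
    (b : BX) (b' : BY) (hf : (sX b).Finite) (hf' : (sY b').Finite) (ε : ℝ≥0∞) (hε : ε ≠ 0) :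
    ∃ K0, ∀ k, K0 ≤ k → ∀ w : G, W ΛX hX zX sX ΛY hY zY sY k w b b' ≤ ε := by
  set FX := hf.toFinset with hFX
  set FY := hf'.toFinset with hFY
  set N : ℕ := FX.card * FY.card with hN
  obtain ⟨N0, hN0⟩ := hconc (ε / (N + 1)) (by
    rw [Ne, ENNReal.div_eq_zero_iff, not_or]
    exact ⟨hε, by exact_mod_cast ENNReal.natCast_ne_top (N + 1)⟩)
  refine ⟨N0 + ∑ x ∈ FX, x.2, fun k hk w => ?_⟩
  calc W ΛX hX zX sX ΛY hY zY sY k w b b'
      ≤ ∑' L1 : List BX, ∑' L1' : List BY, ∑ x ∈ FX, ∑ y ∈ FY,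
        (if HT hX L1 + x.2 = k ∧ HT hY L1' + y.2 = k ∧
          (L1.map zX).sum + x.1 = w + (L1'.map zY).sum + y.1
          then LW ΛX L1 * LW ΛY L1' else 0) := by
        refine ENNReal.tsum_le_tsum fun L1 => ENNReal.tsum_le_tsum fun L1' => ?_
        split_ifs with h1
        · obtain ⟨x, hx, y, hy, e⟩ := h1
          have hx' : x ∈ FX := hf.mem_toFinset.2 hx
          have hy' : y ∈ FY := hf'.mem_toFinset.2 hy
          exact le_two FX FY (fun x y => (if HT hX L1 + x.2 = k ∧ HT hY L1' + y.2 = k ∧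
            (L1.map zX).sum + x.1 = w + (L1'.map zY).sum + y.1
            then LW ΛX L1 * LW ΛY L1' else 0)) x y hx' hy' _ (by rw [if_pos e])
        · exact zero_le
    _ = ∑ x ∈ FX, ∑ y ∈ FY, ∑' L1' : List BY, ∑' L1 : List BX,
        (if HT hX L1 + x.2 = k ∧ HT hY L1' + y.2 = k ∧
          (L1.map zX).sum + x.1 = w + (L1'.map zY).sum + y.1
          then LW ΛX L1 * LW ΛY L1' else 0) := by
        simp_rw [tsf]
        refine Finset.sum_congr rfl fun x _ => Finset.sum_congr rfl fun y _ => ?_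
        rw [ENNReal.tsum_comm]
    _ ≤ ∑ x ∈ FX, ∑ y ∈ FY, ε / (N + 1) := by
        refine Finset.sum_le_sum fun x hx => Finset.sum_le_sum fun y _ => ?_
        have hxk : x.2 ≤ ∑ x ∈ FX, x.2 :=
          Finset.single_le_sum (f := fun x : G × ℕ => x.2) (fun _ _ => Nat.zero_le _) hx
        calc ∑' L1' : List BY, ∑' L1 : List BX,
            (if HT hX L1 + x.2 = k ∧ HT hY L1' + y.2 = k ∧
              (L1.map zX).sum + x.1 = w + (L1'.map zY).sum + y.1
              then LW ΛX L1 * LW ΛY L1' else 0)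
            ≤ ∑' L1' : List BY, (if HT hY L1' = k - y.2 then LW ΛY L1' else 0)
                * (ε / (N + 1)) := by
              refine ENNReal.tsum_le_tsum fun L1' => ?_
              by_cases hy2 : HT hY L1' + y.2 = k
              · rw [if_pos (by omega)]
                calc ∑' L1 : List BX,
                    (if HT hX L1 + x.2 = k ∧ HT hY L1' + y.2 = k ∧
                      (L1.map zX).sum + x.1 = w + (L1'.map zY).sum + y.1
                      then LW ΛX L1 * LW ΛY L1' else 0)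
                    ≤ ∑' L1 : List BX, LW ΛY L1' * (if HT hX L1 = k - x.2 ∧
                      (L1.map zX).sum = w + (L1'.map zY).sum + y.1 - x.1
                      then LW ΛX L1 else 0) := by
                      refine ENNReal.tsum_le_tsum fun L1 => ?_
                      split_ifs with h1 h2 h2
                      · rw [mul_comm]
                      · exact absurd ⟨by omega, eq_sub_of_add_eq h1.2.2⟩ h2
                      · exact zero_le
                      · exact zero_le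
                  _ = LW ΛY L1' * ∑' L1 : List BX, (if HT hX L1 = k - x.2 ∧
                      (L1.map zX).sum = w + (L1'.map zY).sum + y.1 - x.1
                      then LW ΛX L1 else 0) := ENNReal.tsum_mul_left
                  _ ≤ _ := mul_le_mul_right (hN0 _ (by omega) _) _
              · refine le_trans (le_of_eq ?_) zero_le
                rw [ENNReal.tsum_eq_zero]
                intro L1
                rw [if_neg (fun h => hy2 h.2.1)]
          _ = U ΛY hY (k - y.2) * (ε / (N + 1)) := by rw [ENNReal.tsum_mul_right]; rfl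
          _ ≤ 1 * (ε / (N + 1)) := mul_le_mul_left (hUY _) _
          _ = _ := one_mul _
    _ = N * (ε / (N + 1)) := by
        simp only [Finset.sum_const, nsmul_eq_mul, hN]
        push_cast
        ring
    _ ≤ (N + 1) * (ε / (N + 1)) := mul_le_mul_left le_self_add _
    _ = ε := by
        refine ENNReal.mul_div_cancel (by simp) ?_
        exact_mod_cast ENNReal.natCast_ne_top (N + 1)

open Classical in
/-- the sum over pairs of lists with a contact at depth `k` -/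
noncomputable def Pt (n k : ℕ) (w : G) : ℝ≥0∞ :=
  ∑' LX : List BX, ∑' LY : List BY,
    if HT hX LX = n ∧ HT hY LY = n ∧ ∃ z, (z, k) ∈ TT sX hX zX LX 0 0 ∧
      (z, k) ∈ TT sY hY zY LY w 0 then LW ΛX LX * LW ΛY LY else 0

open Classical in
lemma Pt_le (hUX : ∀ n, U ΛX hX n ≤ 1) (hUY : ∀ n, U ΛY hY n ≤ 1) (n k : ℕ) (w : G) :
    Pt ΛX hX zX sX ΛY hY zY sY n k w
      ≤ ∑' b : BX, ∑' b' : BY, ΛX b * ΛY b' * W ΛX hX zX sX ΛY hY zY sY k w b b' := by
  set R : List BX → BX → List BY → BY → Prop := fun L1 b L1' b' =>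
    ∃ x ∈ sX b, ∃ y ∈ sY b', HT hX L1 + x.2 = k ∧ HT hY L1' + y.2 = k ∧
      (L1.map zX).sum + x.1 = w + (L1'.map zY).sum + y.1 with hR
  set F : ((BX × BY) × (List BX × List BY)) × (List BX × List BY) → ℝ≥0∞ := fun q =>
    (ΛX q.1.1.1 * ΛY q.1.1.2 * (if R q.1.2.1 q.1.1.1 q.1.2.2 q.1.1.2 then
      LW ΛX q.1.2.1 * LW ΛY q.1.2.2 else 0))
      * ((if HT hX q.2.1 = n - HT hX q.1.2.1 - hX q.1.1.1 then LW ΛX q.2.1 else 0)
        * (if HT hY q.2.2 = n - HT hY q.1.2.2 - hY q.1.1.2 then LW ΛY q.2.2 else 0)) with hF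
  have h1 : Pt ΛX hX zX sX ΛY hY zY sY n k w ≤ ∑' q, F q := by
    rw [Pt, ← ENNReal.tsum_prod (f := fun (LX : List BX) (LY : List BY) =>
      if HT hX LX = n ∧ HT hY LY = n ∧ ∃ z, (z, k) ∈ TT sX hX zX LX 0 0 ∧
      (z, k) ∈ TT sY hY zY LY w 0 then LW ΛX LX * LW ΛY LY else 0)]
    refine tsum_section _ F (fun q => (q.1.2.1 ++ q.1.1.1 :: q.2.1, q.1.2.2 ++ q.1.1.2 :: q.2.2)) ?_
    rintro ⟨LX, LY⟩ hg
    simp only at hg
    split_ifs at hg with hc
    · obtain ⟨hn1, hn2, z, hz1, hz2⟩ := hc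
      obtain ⟨L1, b, L2, hL, q, hq, e1, e2⟩ := mem_TT _ _ _ _ _ _ _ _ hz1
      obtain ⟨L1', b', L2', hL', q', hq', e1', e2'⟩ := mem_TT _ _ _ _ _ _ _ _ hz2
      refine ⟨(((b, b'), (L1, L1')), (L2, L2')), by simp only [hL, hL'], ?_⟩
      have hRR : R L1 b L1' b' :=
        ⟨q, hq, q', hq', by omega, by omega, by rw [← e1', e1, zero_add]⟩
      simp only [hF]
      rw [if_pos (show HT hX LX = n ∧ HT hY LY = n ∧ ∃ z, (z, k) ∈ TT sX hX zX LX 0 0 ∧
        (z, k) ∈ TT sY hY zY LY w 0 from ⟨hn1, hn2, z, hz1, hz2⟩)]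
      subst hL hL'
      rw [HT_append, HT_cons] at hn1 hn2
      rw [if_pos hRR, if_pos (by omega), if_pos (by omega)]
      rw [LW_append, LW_cons, LW_append, LW_cons]
      exact le_of_eq (by ring)
    · exact absurd rfl hg
  refine h1.trans ?_
  rw [ENNReal.tsum_prod']
  calc ∑' (a : (BX × BY) × (List BX × List BY)), ∑' (c : List BX × List BY), F (a, c)
      ≤ ∑' (a : (BX × BY) × (List BX × List BY)), (ΛX a.1.1 * ΛY a.1.2 *
        (if R a.2.1 a.1.1 a.2.2 a.1.2 then LW ΛX a.2.1 * LW ΛY a.2.2 else 0)) := by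
        refine ENNReal.tsum_le_tsum fun a => ?_
        simp only [hF]
        rw [ENNReal.tsum_mul_left, ENNReal.tsum_prod']
        simp only
        have h2 : ∑' (x : List BX), ∑' (y : List BY),
            (if HT hX x = n - HT hX a.2.1 - hX a.1.1 then LW ΛX x else 0)
              * (if HT hY y = n - HT hY a.2.2 - hY a.1.2 then LW ΛY y else 0) ≤ 1 := by
          simp_rw [ENNReal.tsum_mul_left]
          rw [ENNReal.tsum_mul_right]
          exact mul_le_one' (hUX _) (hUY _)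
        exact (mul_le_mul_right h2 _).trans (by rw [mul_one])
    _ = ∑' (a : BX × BY), ∑' (c : List BX × List BY), (ΛX a.1 * ΛY a.2 *
        (if R c.1 a.1 c.2 a.2 then LW ΛX c.1 * LW ΛY c.2 else 0)) := by
        rw [ENNReal.tsum_prod']
    _ = ∑' (a : BX × BY), ΛX a.1 * ΛY a.2 * W ΛX hX zX sX ΛY hY zY sY k w a.1 a.2 := by
        refine tsum_congr fun a => ?_
        rw [ENNReal.tsum_mul_left, ENNReal.tsum_prod']
        rfl
    _ = _ := by rw [ENNReal.tsum_prod']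

open Classical in
/-- **POINT**: contact at depth exactly `k`. -/
theorem point (hUX : ∀ n, U ΛX hX n ≤ 1) (hUY : ∀ n, U ΛY hY n ≤ 1)
    (hrX : ∀ b, ∀ q ∈ sX b, 1 ≤ q.2 ∧ q.2 ≤ hX b) (hrY : ∀ b, ∀ q ∈ sY b, 1 ≤ q.2 ∧ q.2 ≤ hY b)
    (hfX : ∀ b, (sX b).Finite) (hfY : ∀ b, (sY b).Finite)
    (hΛX : ∑' b, ΛX b ≠ ⊤) (hΛY : ∑' b, ΛY b ≠ ⊤)
    (hmX : ∑' b, ΛX b * (hX b : ℝ≥0∞) ≠ ⊤) (hmY : ∑' b, ΛY b * (hY b : ℝ≥0∞) ≠ ⊤)
    (hconc : ∀ ε : ℝ≥0∞, ε ≠ 0 → ∃ N, ∀ n, N ≤ n → ∀ x : G,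
      ∑' L : List BX, (if HT hX L = n ∧ (L.map zX).sum = x then LW ΛX L else 0) ≤ ε)
    (ε : ℝ≥0∞) (hε : ε ≠ 0) :
    ∃ k0, ∀ k, k0 ≤ k → ∀ n, ∀ w : G, Pt ΛX hX zX sX ΛY hY zY sY n k w ≤ ε := by
  let _ : MeasurableSpace (BX × BY) := ⊤
  set f : ℕ → BX × BY → ℝ≥0∞ := fun k p => ΛX p.1 * ΛY p.2 *
    ⨆ w : G, W ΛX hX zX sX ΛY hY zY sY k w p.1 p.2 with hf
  set bd : BX × BY → ℝ≥0∞ := fun p => ΛX p.1 * ΛY p.2 * ((hX p.1 + 1 : ℕ) * (hY p.2 + 1 : ℕ)) with hbd
  have hlim : Tendsto (fun k => ∫⁻ p, f k p ∂MeasureTheory.Measure.count) atTop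
      (𝓝 (∫⁻ _ : BX × BY, 0 ∂MeasureTheory.Measure.count)) := by
    refine MeasureTheory.tendsto_lintegral_of_dominated_convergence bd
      (fun k => measurable_from_top) (fun k => Eventually.of_forall fun p => ?_) ?_
      (Eventually.of_forall fun p => ?_)
    · exact mul_le_mul_right (iSup_le fun w =>
        W_le_heights ΛX hX zX sX ΛY hY zY sY hUX hUY hrX hrY k w p.1 p.2) _
    · rw [MeasureTheory.lintegral_count, ENNReal.tsum_prod']
      have e : ∑' (a : BX) (b : BY), bd (a, b)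
          = (∑' a, ΛX a * (hX a + 1 : ℕ)) * ∑' b, ΛY b * (hY b + 1 : ℕ) := by
        rw [← ENNReal.tsum_mul_right]
        refine tsum_congr fun a => ?_
        rw [← ENNReal.tsum_mul_left]
        refine tsum_congr fun b => ?_
        simp only [hbd]
        ring
      rw [e]
      refine ENNReal.mul_ne_top ?_ ?_
      · push_cast
        simp_rw [mul_add, mul_one]
        rw [ENNReal.tsum_add]
        exact ENNReal.add_ne_top.2 ⟨hmX, hΛX⟩
      · push_cast
        simp_rw [mul_add, mul_one]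
        rw [ENNReal.tsum_add]
        exact ENNReal.add_ne_top.2 ⟨hmY, hΛY⟩
    · have hne : ΛX p.1 * ΛY p.2 ≠ ⊤ :=
        ENNReal.mul_ne_top (ENNReal.ne_top_of_tsum_ne_top hΛX _)
          (ENNReal.ne_top_of_tsum_ne_top hΛY _)
      have h0 : Tendsto (fun k => ⨆ w : G, W ΛX hX zX sX ΛY hY zY sY k w p.1 p.2) atTop (𝓝 0) := by
        rw [ENNReal.tendsto_nhds_zero]
        intro δ hδ
        obtain ⟨K0, hK0⟩ := W_small ΛX hX zX sX ΛY hY zY sY hUY hconc p.1 p.2 (hfX _) (hfY _)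
          δ hδ.ne'
        filter_upwards [eventually_ge_atTop K0] with k hk
        exact iSup_le fun w => hK0 k hk w
      have := ENNReal.Tendsto.const_mul (a := ΛX p.1 * ΛY p.2) h0 (Or.inr hne)
      rwa [mul_zero] at this
  rw [MeasureTheory.lintegral_zero] at hlim
  obtain ⟨k0, hk0⟩ := eventually_atTop.1 ((ENNReal.tendsto_nhds_zero.1 hlim) ε
    (pos_iff_ne_zero.2 hε))
  refine ⟨k0, fun k hk n w => (Pt_le ΛX hX zX sX ΛY hY zY sY hUX hUY n k w).trans
    (le_trans ?_ (hk0 k hk))⟩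
  rw [MeasureTheory.lintegral_count, ENNReal.tsum_prod']
  exact ENNReal.tsum_le_tsum fun b => ENNReal.tsum_le_tsum fun b' =>
    mul_le_mul_right (le_iSup (fun w => W ΛX hX zX sX ΛY hY zY sY k w b b') w) _

open Classical in
/-- **H5** (thin slab). -/
theorem slab (hP : ∀ ε : ℝ≥0∞, ε ≠ 0 → ∃ k0, ∀ k, k0 ≤ k → ∀ n, ∀ w : G,
      Pt ΛX hX zX sX ΛY hY zY sY n k w ≤ ε) :
    ∀ s : ℕ, ∀ η : ℝ≥0∞, η ≠ 0 → ∃ T : ℕ, ∀ a, T ≤ a → ∀ n : ℕ, ∀ w : G,
      ∑' LX : List BX, ∑' LY : List BY, (if HT hX LX = n ∧ HT hY LY = n ∧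
        ∃ (z : G) (k : ℕ), a ≤ k ∧ k < a + s ∧ (z, k) ∈ TT sX hX zX LX 0 0 ∧
          (z, k) ∈ TT sY hY zY LY w 0 then LW ΛX LX * LW ΛY LY else 0) ≤ η := by
  intro s η hη
  obtain ⟨k0, hk0⟩ := hP (η / (s + 1)) (by
    rw [Ne, ENNReal.div_eq_zero_iff, not_or]
    exact ⟨hη, by exact_mod_cast ENNReal.natCast_ne_top (s + 1)⟩)
  refine ⟨k0, fun a ha n w => ?_⟩
  calc _ ≤ ∑' LX : List BX, ∑' LY : List BY, ∑ j ∈ Finset.range s,
        (if HT hX LX = n ∧ HT hY LY = n ∧ ∃ z, (z, a + j) ∈ TT sX hX zX LX 0 0 ∧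
          (z, a + j) ∈ TT sY hY zY LY w 0 then LW ΛX LX * LW ΛY LY else 0) := by
        refine ENNReal.tsum_le_tsum fun LX => ENNReal.tsum_le_tsum fun LY => ?_
        split_ifs with h
        · obtain ⟨h1, h2, z, k, h3, h4, h5, h6⟩ := h
          refine le_trans ?_ (Finset.single_le_sum (f := fun j =>
            (if HT hX LX = n ∧ HT hY LY = n ∧ ∃ z, (z, a + j) ∈ TT sX hX zX LX 0 0 ∧
              (z, a + j) ∈ TT sY hY zY LY w 0 then LW ΛX LX * LW ΛY LY else 0))
            (fun _ _ => zero_le) (Finset.mem_range.2 (show k - a < s by omega)))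
          have e : a + (k - a) = k := by omega
          rw [if_pos ⟨h1, h2, z, by rwa [e], by rwa [e]⟩]
        · exact zero_le
    _ = ∑ j ∈ Finset.range s, Pt ΛX hX zX sX ΛY hY zY sY n (a + j) w := by
        simp_rw [tsf]
        rfl
    _ ≤ ∑ j ∈ Finset.range s, η / (s + 1) :=
        Finset.sum_le_sum fun j _ => hk0 _ (by omega) _ _
    _ = s * (η / (s + 1)) := by simp
    _ ≤ (s + 1) * (η / (s + 1)) := mul_le_mul_left le_self_add _
    _ = η := by
        refine ENNReal.mul_div_cancel (by simp) ?_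
        exact_mod_cast ENNReal.natCast_ne_top (s + 1)

end Crest.Agent.R154.Slab220
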