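import Mathlib

/-!
Row 154 (helper453), T0219, ROAD 801: deterministic slabs instead of joint blocks.
`T K hs φ w` : start at the tie with offset `w`, cross the slabs of heights `hs` (top to bottom)
without contact, then integrate `φ` in the bottom offset.
-/

set_option autoImplicit false

namespace Crest.Agent.R154.Slab453

open scoped ENNReal

variable {W : Type*} (K Fr : ℕ → W → W → ℝ≥0∞) (C : ℕ → W → ℝ≥0∞)

/-- composition of the no contact kernels along a list of heights (top to bottom) -/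
noncomputable def T (K : ℕ → W → W → ℝ≥0∞) : List ℕ → (W → ℝ≥0∞) → W → ℝ≥0∞
  | [], φ, w => φ w
  | h :: hs, φ, w => ∑' w', K h w w' * T K hs φ w'

lemma T_append (hs hs' : List ℕ) (φ : W → ℝ≥0∞) (w : W) :
    T K (hs ++ hs') φ w = T K hs (T K hs' φ) w := by
  induction hs generalizing w with
  | nil => rfl
  | cons h hs ih => simp only [List.cons_append, T]; exact tsum_congr fun w' => by rw [ih]

lemma T_mono (hs : List ℕ) {φ ψ : W → ℝ≥0∞} (h : ∀ w, φ w ≤ ψ w) (w : W) :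
    T K hs φ w ≤ T K hs ψ w := by
  induction hs generalizing w with
  | nil => exact h w
  | cons h hs ih => exact ENNReal.tsum_le_tsum fun w' => mul_le_mul_right (ih w') _

lemma T_add (hs : List ℕ) (φ ψ : W → ℝ≥0∞) (w : W) :
    T K hs (fun w => φ w + ψ w) w = T K hs φ w + T K hs ψ w := by
  induction hs generalizing w with
  | nil => rfl
  | cons h hs ih =>
    simp only [T]
    rw [← ENNReal.tsum_add]
    exact tsum_congr fun w' => by rw [ih, mul_add]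

lemma T_const_mul (hs : List ℕ) (a : ℝ≥0∞) (φ : W → ℝ≥0∞) (w : W) :
    T K hs (fun w => a * φ w) w = a * T K hs φ w := by
  induction hs generalizing w with
  | nil => rfl
  | cons h hs ih =>
    simp only [T]
    rw [← ENNReal.tsum_mul_left]
    exact tsum_congr fun w' => by rw [ih]; ring

lemma T_le_one (hK1 : ∀ h w, ∑' w', K h w w' ≤ 1) (hs : List ℕ) (w : W) :
    T K hs (fun _ => 1) w ≤ 1 := by
  induction hs generalizing w with
  | nil => exact le_rfl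
  | cons h hs ih =>
    refine le_trans (ENNReal.tsum_le_tsum fun w' => mul_le_mul_right (ih w') _) ?_
    simpa using hK1 h w

/-- one step of the recursion. -/
lemma T_rec (c ε : ℝ≥0∞) (m h : ℕ)
    (hKC : ∀ w, c ≤ ∑' w', K h w w' + C h w)
    (hKF : ∀ w w', K m w w' ≤ Fr m w w')
    (hKS : ∀ w, ∑' w', Fr m w w' * C h w' ≤ ε) (hs : List ℕ) (w : W) :
    c * T K (hs ++ [m]) (fun _ => 1) w
      ≤ T K (hs ++ [m] ++ [h]) (fun _ => 1) w + ε * T K hs (fun _ => 1) w := by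
  have h1 : ∀ w, c * T K [m] (fun _ => 1) w
      ≤ T K ([m] ++ [h]) (fun _ => 1) w + ε * 1 := by
    intro w
    simp only [T, List.cons_append, List.nil_append, mul_one]
    rw [← ENNReal.tsum_mul_left]
    calc ∑' w', c * K m w w'
        ≤ ∑' w', (K m w w' * ∑' w'', K h w' w'' + Fr m w w' * C h w') := by
          refine ENNReal.tsum_le_tsum fun w' => ?_
          calc c * K m w w' ≤ (∑' w'', K h w' w'' + C h w') * K m w w' :=
                mul_le_mul_left (hKC w') _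
            _ = K m w w' * ∑' w'', K h w' w'' + K m w w' * C h w' := by ring
            _ ≤ _ := add_le_add le_rfl (mul_le_mul_left (hKF w w') _)
      _ = ∑' w', K m w w' * ∑' w'', K h w' w'' + ∑' w', Fr m w w' * C h w' := ENNReal.tsum_add
      _ ≤ _ := add_le_add le_rfl (hKS w)
  rw [List.append_assoc, T_append K hs [m], T_append K hs ([m] ++ [h]), ← T_const_mul, ← T_const_mul,
    ← T_add]
  exact T_mono K hs (fun w => h1 w) w

/-- heights `m0, R m0, R^2 m0, ...` -/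
def Hts (m0 R : ℕ) : ℕ → List ℕ
  | 0 => []
  | k + 1 => Hts m0 R k ++ [m0 * R ^ k]

lemma Hts_pos {m0 R : ℕ} (hm : 1 ≤ m0) (hR : 1 ≤ R) (k : ℕ) : ∀ h ∈ Hts m0 R k, 1 ≤ h := by
  induction k with
  | zero => intro h hh; simp [Hts] at hh
  | succ k ih =>
    intro h hh
    rw [Hts, List.mem_append, List.mem_singleton] at hh
    rcases hh with hh | rfl
    · exact ih h hh
    · exact Nat.mul_pos hm (Nat.pow_pos hR)

/-- the recursion: every further slab costs at most `c / 2`. -/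
lemma lower (c : ℝ≥0∞) (hc0 : c ≠ 0) (hc1 : c ≤ 1)
    (hKC : ∀ h, 1 ≤ h → ∀ w, c ≤ ∑' w', K h w w' + C h w)
    (hKF : ∀ h w w', K h w w' ≤ Fr h w w')
    (hK1 : ∀ h w, ∑' w', K h w w' ≤ 1)
    (R m0 : ℕ) (hR : 1 ≤ R) (hm0 : 1 ≤ m0)
    (hKS : ∀ m, m0 ≤ m → ∀ h, 1 ≤ h → h ≤ R * m → ∀ w, ∑' w', Fr m w w' * C h w' ≤ c / 2 * (c / 2))
    (w : W) (hw : C m0 w ≤ c / 2) (k : ℕ) :
    c / 2 * T K (Hts m0 R k) (fun _ => 1) w ≤ T K (Hts m0 R (k + 1)) (fun _ => 1) w ∧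
    ∀ h, 1 ≤ h → h ≤ R * (m0 * R ^ k) →
      c / 2 * T K (Hts m0 R (k + 1)) (fun _ => 1) w
        ≤ T K (Hts m0 R (k + 1) ++ [h]) (fun _ => 1) w := by
  have hcT : c ≠ ⊤ := ne_top_of_le_ne_top ENNReal.one_ne_top hc1
  have hc2T : c / 2 ≠ ⊤ := ENNReal.div_ne_top hcT (by norm_num)
  have hfin : ∀ hs, T K hs (fun _ => 1) w ≠ ⊤ := fun hs =>
    ne_top_of_le_ne_top ENNReal.one_ne_top (T_le_one K hK1 hs w)
  have hstep : ∀ k, c / 2 * T K (Hts m0 R k) (fun _ => 1) w ≤ T K (Hts m0 R (k + 1)) (fun _ => 1) w →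
      ∀ h, 1 ≤ h → h ≤ R * (m0 * R ^ k) →
      c / 2 * T K (Hts m0 R (k + 1)) (fun _ => 1) w
        ≤ T K (Hts m0 R (k + 1) ++ [h]) (fun _ => 1) w := by
    intro k hk h h1 h2
    have hm : m0 ≤ m0 * R ^ k := Nat.le_mul_of_pos_right _ (Nat.pow_pos hR)
    have hrec := T_rec K Fr C c (c / 2 * (c / 2)) (m0 * R ^ k) h (hKC h h1) (hKF _)
      (hKS _ hm h h1 h2) (Hts m0 R k) w
    rw [show Hts m0 R k ++ [m0 * R ^ k] = Hts m0 R (k + 1) from rfl] at hrec
    have h3 : c / 2 * (c / 2) * T K (Hts m0 R k) (fun _ => 1) w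
        ≤ c / 2 * T K (Hts m0 R (k + 1)) (fun _ => 1) w := by
      rw [mul_assoc]; exact mul_le_mul_right hk _
    have h4 : c / 2 * T K (Hts m0 R (k + 1)) (fun _ => 1) w
        + c / 2 * T K (Hts m0 R (k + 1)) (fun _ => 1) w
        ≤ T K (Hts m0 R (k + 1) ++ [h]) (fun _ => 1) w
          + c / 2 * T K (Hts m0 R (k + 1)) (fun _ => 1) w := by
      rw [← add_mul, ENNReal.add_halves]
      exact hrec.trans (add_le_add le_rfl h3)
    exact (ENNReal.add_le_add_iff_right (ENNReal.mul_ne_top hc2T (hfin _))).1 h4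
  have hmain : ∀ k, c / 2 * T K (Hts m0 R k) (fun _ => 1) w
      ≤ T K (Hts m0 R (k + 1)) (fun _ => 1) w := by
    intro k
    induction k with
    | zero =>
      have h1 : c / 2 + c / 2 ≤ T K (Hts m0 R 1) (fun _ => 1) w + c / 2 := by
        rw [ENNReal.add_halves]
        refine (hKC m0 hm0 w).trans (add_le_add ?_ hw)
        simp [Hts, T]
      have h2 := (ENNReal.add_le_add_iff_right hc2T).1 h1
      simpa [Hts, T] using h2
    | succ k ih =>
      refine hstep k ih (m0 * R ^ (k + 1)) (Nat.mul_pos hm0 (Nat.pow_pos hR)) ?_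
      rw [pow_succ]; exact le_of_eq (by ring)
  exact ⟨hmain k, hstep k (hmain k)⟩

lemma lower_pow (c : ℝ≥0∞) (hc0 : c ≠ 0) (hc1 : c ≤ 1)
    (hKC : ∀ h, 1 ≤ h → ∀ w, c ≤ ∑' w', K h w w' + C h w)
    (hKF : ∀ h w w', K h w w' ≤ Fr h w w')
    (hK1 : ∀ h w, ∑' w', K h w w' ≤ 1)
    (R m0 : ℕ) (hR : 1 ≤ R) (hm0 : 1 ≤ m0)
    (hKS : ∀ m, m0 ≤ m → ∀ h, 1 ≤ h → h ≤ R * m → ∀ w, ∑' w', Fr m w w' * C h w' ≤ c / 2 * (c / 2))
    (w : W) (hw : C m0 w ≤ c / 2) (k : ℕ) :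
    (c / 2) ^ k ≤ T K (Hts m0 R k) (fun _ => 1) w ∧
    ∀ h, 1 ≤ h → h ≤ R * (m0 * R ^ k) →
      (c / 2) ^ (k + 2) ≤ T K (Hts m0 R (k + 1) ++ [h]) (fun _ => 1) w := by
  have hA : ∀ k, (c / 2) ^ k ≤ T K (Hts m0 R k) (fun _ => 1) w := by
    intro k
    induction k with
    | zero => simp [Hts, T]
    | succ k ih =>
      rw [pow_succ']
      exact (mul_le_mul_right ih _).trans
        (lower K Fr C c hc0 hc1 hKC hKF hK1 R m0 hR hm0 hKS w hw k).1
  refine ⟨hA k, fun h h1 h2 => ?_⟩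
  rw [show k + 2 = (k + 1) + 1 from rfl, pow_succ']
  exact (mul_le_mul_right (hA (k + 1)) _).trans
    ((lower K Fr C c hc0 hc1 hKC hKF hK1 R m0 hR hm0 hKS w hw k).2 h h1 h2)

/-- **Contradiction**: survival of the slabs at a constant price each against the surgery. -/
theorem slab_absurd (c : ℝ≥0∞) (hc0 : c ≠ 0) (hc1 : c ≤ 1)
    (hKC : ∀ h, 1 ≤ h → ∀ w, c ≤ ∑' w', K h w w' + C h w)
    (hKF : ∀ h w w', K h w w' ≤ Fr h w w')
    (hK1 : ∀ h w, ∑' w', K h w w' ≤ 1)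
    (hKS : ∀ (R : ℕ) (ε : ℝ≥0∞), ε ≠ 0 → ∃ m0, ∀ m, m0 ≤ m → ∀ h, 1 ≤ h → h ≤ R * m → ∀ w,
      ∑' w', Fr m w w' * C h w' ≤ ε)
    (hfar : ∀ h, ∀ ε : ℝ≥0∞, ε ≠ 0 → ∃ w, C h w ≤ ε)
    (hsur : ∀ w, ∃ (a : ℝ≥0∞) (s : ℕ → ℝ≥0∞), a ≠ 0 ∧ ∑' n, s n ≠ ⊤ ∧
      ∀ hs : List ℕ, hs ≠ [] → (∀ h ∈ hs, 1 ≤ h) → a * T K hs (fun _ => 1) w ≤ s hs.sum) :
    False := by
  have hcT : c ≠ ⊤ := ne_top_of_le_ne_top ENNReal.one_ne_top hc1
  have hc20 : c / 2 ≠ 0 := by
    rw [Ne, ENNReal.div_eq_zero_iff, not_or]; exact ⟨hc0, by norm_num⟩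
  have hc2T : c / 2 ≠ ⊤ := ENNReal.div_ne_top hcT (by norm_num)
  -- the ratio
  obtain ⟨R, hR⟩ : ∃ R : ℕ, (c / 2)⁻¹ * 2 < R :=
    ENNReal.exists_nat_gt (ENNReal.mul_ne_top (ENNReal.inv_ne_top.2 hc20) (by norm_num))
  have hR1 : 1 ≤ R := by
    rcases Nat.eq_zero_or_pos R with h | h
    · rw [h] at hR; simp at hR
    · exact h
  have hR2 : (2 : ℝ≥0∞) ≤ R * (c / 2) := by
    have h1 := mul_le_mul_left hR.le (c / 2)
    rwa [mul_assoc, mul_comm 2 (c / 2), ← mul_assoc, ENNReal.inv_mul_cancel hc20 hc2T,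
      one_mul] at h1
  obtain ⟨m1, hm1⟩ := hKS R (c / 2 * (c / 2)) (mul_ne_zero hc20 hc20)
  obtain ⟨w, hw⟩ := hfar (max m1 1) (c / 2) hc20
  obtain ⟨a, s, ha, hs, hsur⟩ := hsur w
  set m0 := max m1 1 with hm0
  have hm01 : 1 ≤ m0 := le_max_right _ _
  have hKS' : ∀ m, m0 ≤ m → ∀ h, 1 ≤ h → h ≤ R * m → ∀ w,
      ∑' w', Fr m w w' * C h w' ≤ c / 2 * (c / 2) := fun m hm =>
    hm1 m ((le_max_left _ _).trans hm)
  -- the sum
  have hbig : ∀ k : ℕ, a * (c / 2) ^ 2 * 2 ^ k ≤ ∑' n, s n := by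
    intro k
    set N := m0 * R ^ k with hN
    have hNle : R ^ k ≤ N := Nat.le_mul_of_pos_left _ hm01
    have h1 : ∀ h ∈ Finset.range N, a * (c / 2) ^ (k + 2) ≤ s ((Hts m0 R (k + 1)).sum + (h + 1)) := by
      intro h hh
      rw [Finset.mem_range] at hh
      have hle : h + 1 ≤ R * (m0 * R ^ k) := by
        have : N ≤ R * N := Nat.le_mul_of_pos_left _ hR1
        exact (Nat.succ_le_of_lt hh).trans this
      have h2 := (lower_pow K Fr C c hc0 hc1 hKC hKF hK1 R m0 hR1 hm01 hKS' w hw k).2 (h + 1)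
        (by omega) hle
      have h3 := hsur (Hts m0 R (k + 1) ++ [h + 1]) (by simp) (by
        intro x hx
        rw [List.mem_append, List.mem_singleton] at hx
        rcases hx with hx | rfl
        · exact Hts_pos hm01 hR1 _ x hx
        · omega)
      rw [List.sum_append, List.sum_singleton] at h3
      exact (mul_le_mul_right h2 _).trans h3
    have h4 : (N : ℝ≥0∞) * (a * (c / 2) ^ (k + 2)) ≤ ∑' n, s n := by
      calc (N : ℝ≥0∞) * (a * (c / 2) ^ (k + 2))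
          = ∑ _h ∈ Finset.range N, a * (c / 2) ^ (k + 2) := by
            rw [Finset.sum_const, Finset.card_range, nsmul_eq_mul]
        _ ≤ ∑ h ∈ Finset.range N, s ((Hts m0 R (k + 1)).sum + (h + 1)) := Finset.sum_le_sum h1
        _ = ∑ n ∈ (Finset.range N).image (fun h => (Hts m0 R (k + 1)).sum + (h + 1)), s n := by
            rw [Finset.sum_image]
            intro x _ y _ hxy
            simp only at hxy
            omega
        _ ≤ ∑' n, s n := ENNReal.sum_le_tsum _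
    refine le_trans ?_ h4
    have h5 : ((2 : ℝ≥0∞)) ^ k ≤ (R : ℝ≥0∞) ^ k * (c / 2) ^ k := by
      rw [← mul_pow]; exact pow_le_pow_left' hR2 k
    calc a * (c / 2) ^ 2 * 2 ^ k ≤ a * (c / 2) ^ 2 * ((R : ℝ≥0∞) ^ k * (c / 2) ^ k) :=
          mul_le_mul_right h5 _
      _ = (R : ℝ≥0∞) ^ k * (a * (c / 2) ^ (k + 2)) := by rw [pow_add]; ring
      _ ≤ _ := by
          refine mul_le_mul_left ?_ _
          exact_mod_cast hNle
  have hpos : a * (c / 2) ^ 2 ≠ 0 := mul_ne_zero ha (pow_ne_zero 2 hc20)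
  have htop : ∑' n, s n = ⊤ := by
    by_contra hne
    obtain ⟨k, hk⟩ := ENNReal.exists_nat_gt (ENNReal.div_ne_top hne hpos)
    have h1 := hbig k
    have h2 : (∑' n, s n) < a * (c / 2) ^ 2 * k := by
      rcases eq_or_ne (a * (c / 2) ^ 2) ⊤ with htop | htop
      · rw [htop] at h1
        have : (⊤ : ℝ≥0∞) * 2 ^ k = ⊤ := ENNReal.top_mul (by positivity)
        rw [this] at h1
        exact absurd (top_le_iff.1 h1) hne
      · rw [ENNReal.div_lt_iff (Or.inl hpos) (Or.inl htop)] at hk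
        rwa [mul_comm] at hk
    have h3 : (k : ℝ≥0∞) ≤ 2 ^ k := by
      have : k ≤ 2 ^ k := Nat.lt_two_pow_self.le
      exact_mod_cast this
    have h4 : a * (c / 2) ^ 2 * k ≤ a * (c / 2) ^ 2 * 2 ^ k := mul_le_mul_right h3 _
    exact absurd (h2.trans_le (h4.trans h1)) (lt_irrefl _)
  exact hs htop

end Crest.Agent.R154.Slab453
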