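import Crest.Agent.R154.B5Abs_566

/-! Row 154, road 801 (helper669): attempts, smooth lists, density of the smooth part.
`smooth T i0 S J L` : among the first `J` attempts (first passages over height `T`, read from the tie down) there is one
which is small (`S`), all attempts before it have overshoot `≤ i0`. -/

set_option autoImplicit false

namespace Crest.Agent.R154.Sm669

open scoped ENNReal
open B5A

variable {B G : Type*} (Λ : B → ℝ≥0∞) (ht : B → ℕ) (dp : B → G)

/-- first passage over `T` -/
def FP (T : ℕ) (L : List B) : Prop := T ≤ HT ht L ∧ ∀ p : List B, p <+: L → p ≠ L → HT ht p < T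

/-- the cut of a list at its first passage over `T` -/
def cut : List B → ℕ → List B × List B
  | [], _ => ([], [])
  | b :: L, T => if T = 0 then ([], b :: L) else (b :: (cut L (T - ht b)).1, (cut L (T - ht b)).2)

lemma cut_append (L : List B) : ∀ T : ℕ, (cut ht L T).1 ++ (cut ht L T).2 = L := by
  induction L with
  | nil => intro T; rfl
  | cons b L ih =>
    intro T
    by_cases h : T = 0
    · simp [cut, h]
    · simp [cut, h, ih]

lemma cut_FP (L : List B) : ∀ T : ℕ, T ≤ HT ht L → FP ht T (cut ht L T).1 := by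
  induction L with
  | nil =>
    intro T h
    refine ⟨by simpa [cut] using h, fun p hp hne => ?_⟩
    exact absurd (List.prefix_nil.1 hp) hne
  | cons b L ih =>
    intro T h
    by_cases h0 : T = 0
    · refine ⟨by simp [h0], fun p hp hne => ?_⟩
      have e : (cut ht (b :: L) T).1 = [] := by simp [cut, h0]
      rw [e] at hp hne
      exact absurd (List.prefix_nil.1 hp) hne
    · have e : (cut ht (b :: L) T).1 = b :: (cut ht L (T - ht b)).1 := by simp [cut, h0]
      rw [e]
      rw [HT_cons] at h
      obtain ⟨h1, h2⟩ := ih (T - ht b) (by omega)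
      refine ⟨by rw [HT_cons]; omega, fun p hp hne => ?_⟩
      rcases p with _ | ⟨b', p⟩
      · rw [HT_nil]; omega
      · rw [List.cons_prefix_cons] at hp
        obtain ⟨rfl, hp⟩ := hp
        have := h2 p hp (fun hh => hne (by rw [hh]))
        rw [HT_cons]; omega

/-- injection of a sum over lists in a sum over pairs -/
lemma tsum_split (P : List B → Prop) [DecidablePred P] (Q : List B → List B → Prop)
    [∀ a b, Decidable (Q a b)] (g : List B → ℝ≥0∞)
    (h : ∀ L, P L → ∃ L1 L2, L = L1 ++ L2 ∧ Q L1 L2) :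
    ∑' L, (if P L then g L else 0) ≤ ∑' L1, ∑' L2, if Q L1 L2 then g (L1 ++ L2) else 0 := by
  classical
  have h' : ∀ L, ∃ p : List B × List B, L = p.1 ++ p.2 ∧ (P L → Q p.1 p.2) := by
    intro L
    by_cases hP : P L
    · obtain ⟨L1, L2, h1, h2⟩ := h L hP
      exact ⟨(L1, L2), h1, fun _ => h2⟩
    · exact ⟨([], L), rfl, fun hh => absurd hh hP⟩
  choose φ hφ1 hφ2 using h'
  have hinj : Function.Injective φ := by
    intro L L' hh
    rw [hφ1 L, hφ1 L', hh]
  rw [← ENNReal.tsum_prod (f := fun L1 L2 => if Q L1 L2 then g (L1 ++ L2) else 0)]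
  refine le_trans (ENNReal.tsum_le_tsum fun L => ?_)
    (ENNReal.tsum_comp_le_tsum_of_injective hinj
      (fun p : List B × List B => if Q p.1 p.2 then g (p.1 ++ p.2) else 0))
  by_cases hP : P L
  · simp only [hP, if_true, hφ2 L hP]
    rw [← hφ1 L]
  · simp [hP]

open Classical in
lemma split_le (T : ℕ) (g : List B → ℝ≥0∞) :
    ∑' L, (if T ≤ HT ht L then g L else 0)
      ≤ ∑' L1, ∑' L2, if FP ht T L1 then g (L1 ++ L2) else 0 :=
  tsum_split _ _ g fun L hL =>
    ⟨(cut ht L T).1, (cut ht L T).2, (cut_append ht L T).symm, cut_FP ht L T hL⟩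

variable [AddCommGroup G]

/-- displacement of a list -/
def Dp (L : List B) : G := (L.map dp).sum

lemma Dp_append (L L' : List B) : Dp dp (L ++ L') = Dp dp L + Dp dp L' := by simp [Dp]

/-- smooth lists -/
def smooth (T i0 : ℕ) (S : ℕ → G → Prop) : ℕ → List B → Prop
  | 0, _ => False
  | J + 1, L => ∃ L1 L2, L = L1 ++ L2 ∧ FP ht T L1 ∧ HT ht L1 ≤ T + i0 ∧
      (S (HT ht L1) (Dp dp L1) ∨ smooth T i0 S J L2)

open Classical in
/-- **(D1)** the law of the smooth part has density `≤ Gc`. -/
theorem D1 (T i0 : ℕ) (S : ℕ → G → Prop) (th q Gc : ℝ≥0∞) (hU : ∀ n, U Λ ht n ≤ 1)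
    (hS : ∀ h z, S h z →
      ∑' L : List B, (if FP ht T L ∧ HT ht L = h ∧ Dp dp L = z then LW Λ L else 0) ≤ th)
    (hq : ∑' L : List B, (if FP ht T L ∧ HT ht L ≤ T + i0 ∧ ¬ S (HT ht L) (Dp dp L) then LW Λ L
      else 0) ≤ q)
    (hG : ((i0 + 1 : ℕ) : ℝ≥0∞) * th + q * Gc ≤ Gc) (J : ℕ) : ∀ (a : ℕ) (z : G),
    ∑' L : List B, (if HT ht L = a ∧ Dp dp L = z ∧ smooth ht dp T i0 S J L then LW Λ L else 0)
      ≤ Gc := by
  induction J with
  | zero =>
    intro a z
    have : ∀ L : List B, (if HT ht L = a ∧ Dp dp L = z ∧ smooth ht dp T i0 S 0 L then LW Λ L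
        else 0) = 0 := fun L => by simp [smooth]
    simp [this]
  | succ J ih =>
    intro a z
    refine le_trans (tsum_split _ (fun L1 L2 =>
      (FP ht T L1 ∧ HT ht L1 ≤ T + i0 ∧ S (HT ht L1) (Dp dp L1) ∧ HT ht L1 + HT ht L2 = a ∧
        Dp dp L1 + Dp dp L2 = z) ∨
      (FP ht T L1 ∧ HT ht L1 ≤ T + i0 ∧ ¬ S (HT ht L1) (Dp dp L1) ∧ HT ht L1 + HT ht L2 = a ∧
        Dp dp L1 + Dp dp L2 = z ∧ smooth ht dp T i0 S J L2)) (LW Λ) ?_) ?_
    · rintro L ⟨h1, h2, L1, L2, rfl, h3, h4, h5⟩
      refine ⟨L1, L2, rfl, ?_⟩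
      rw [HT_append] at h1
      rw [Dp_append] at h2
      by_cases hs : S (HT ht L1) (Dp dp L1)
      · exact Or.inl ⟨h3, h4, hs, h1, h2⟩
      · exact Or.inr ⟨h3, h4, hs, h1, h2, h5.resolve_left hs⟩
    · refine le_trans ?_ hG
      refine le_trans (b := (∑' L1 : List B, ∑' L2 : List B,
          if FP ht T L1 ∧ HT ht L1 ≤ T + i0 ∧ S (HT ht L1) (Dp dp L1) ∧ HT ht L1 + HT ht L2 = a ∧
            Dp dp L1 + Dp dp L2 = z then LW Λ L1 * LW Λ L2 else 0)
        + ∑' L1 : List B, ∑' L2 : List B,
          if FP ht T L1 ∧ HT ht L1 ≤ T + i0 ∧ ¬ S (HT ht L1) (Dp dp L1) ∧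
            HT ht L1 + HT ht L2 = a ∧ Dp dp L1 + Dp dp L2 = z ∧ smooth ht dp T i0 S J L2
          then LW Λ L1 * LW Λ L2 else 0) ?_ (add_le_add ?_ ?_)
      · rw [← ENNReal.tsum_add]
        refine ENNReal.tsum_le_tsum fun L1 => ?_
        rw [← ENNReal.tsum_add]
        refine ENNReal.tsum_le_tsum fun L2 => ?_
        rw [LW_append]
        split_ifs with h1 h2 h3 h4 h5 <;> simp_all
      · rw [ENNReal.tsum_comm]
        calc ∑' L2 : List B, ∑' L1 : List B,
              (if FP ht T L1 ∧ HT ht L1 ≤ T + i0 ∧ S (HT ht L1) (Dp dp L1) ∧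
                HT ht L1 + HT ht L2 = a ∧ Dp dp L1 + Dp dp L2 = z then LW Λ L1 * LW Λ L2 else 0)
            ≤ ∑' L2 : List B, ∑ i ∈ Finset.range (i0 + 1),
              th * (if HT ht L2 = a - (T + i) then LW Λ L2 else 0) := by
              refine ENNReal.tsum_le_tsum fun L2 => ?_
              by_cases hc : HT ht L2 ≤ a ∧ T ≤ a - HT ht L2 ∧ a - HT ht L2 ≤ T + i0 ∧
                  S (a - HT ht L2) (z - Dp dp L2)
              · obtain ⟨c1, c2, c3, c4⟩ := hc
                refine le_trans ?_ (Finset.single_le_sum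
                  (f := fun i => th * (if HT ht L2 = a - (T + i) then LW Λ L2 else 0))
                  (fun _ _ => zero_le) (Finset.mem_range.2
                    (show a - HT ht L2 - T < i0 + 1 by omega)))
                change _ ≤ th * (if HT ht L2 = a - (T + (a - HT ht L2 - T)) then LW Λ L2 else 0)
                rw [if_pos (by omega)]
                refine le_trans ?_ (mul_le_mul_left (hS _ _ c4) _)
                rw [← ENNReal.tsum_mul_right]
                refine ENNReal.tsum_le_tsum fun L1 => ?_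
                split_ifs with h1 h2 h2
                · exact le_rfl
                · exact absurd ⟨h1.1, by omega, by rw [← h1.2.2.2.2]; abel⟩ h2
                · exact zero_le
                · simp
              · refine le_trans (le_of_eq ?_) zero_le
                rw [ENNReal.tsum_eq_zero]
                intro L1
                rw [if_neg]
                rintro ⟨h1, h2, h3, h4, h5⟩
                apply hc
                have e1 : a - HT ht L2 = HT ht L1 := by omega
                have e2 : z - Dp dp L2 = Dp dp L1 := by rw [← h5]; abel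
                rw [e1, e2]
                exact ⟨by omega, h1.1, h2, h3⟩
          _ = ∑ i ∈ Finset.range (i0 + 1), th * U Λ ht (a - (T + i)) := by
              rw [Summable.tsum_finsetSum (fun _ _ => ENNReal.summable)]
              refine Finset.sum_congr rfl fun i _ => ?_
              rw [ENNReal.tsum_mul_left, U]
          _ ≤ ∑ i ∈ Finset.range (i0 + 1), th := by
              refine Finset.sum_le_sum fun i _ => ?_
              calc th * U Λ ht (a - (T + i)) ≤ th * 1 := mul_le_mul_right (hU _) _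
                _ = th := mul_one _
          _ = ((i0 + 1 : ℕ) : ℝ≥0∞) * th := by simp
      · refine le_trans ?_ (mul_le_mul_left hq _)
        rw [← ENNReal.tsum_mul_right]
        refine ENNReal.tsum_le_tsum fun L1 => ?_
        by_cases hc : FP ht T L1 ∧ HT ht L1 ≤ T + i0 ∧ ¬ S (HT ht L1) (Dp dp L1)
        · rw [if_pos hc]
          refine le_trans ?_ (mul_le_mul_right (ih (a - HT ht L1) (z - Dp dp L1)) _)
          rw [← ENNReal.tsum_mul_left]
          refine ENNReal.tsum_le_tsum fun L2 => ?_
          split_ifs with h1 h2 h2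
          · exact le_rfl
          · exact absurd ⟨by omega, by rw [← h1.2.2.2.2.1]; abel, h1.2.2.2.2.2⟩ h2
          · exact zero_le
          · simp
        · refine le_trans (le_of_eq ?_) zero_le
          rw [ENNReal.tsum_eq_zero]
          intro L2
          rw [if_neg]
          rintro ⟨h1, h2, h3, _⟩
          exact hc ⟨h1, h2, h3⟩

open Classical in
/-- **(D2)** the non-smooth lists have small weight (paid once). -/
theorem D2 (T i0 : ℕ) (S : ℕ → G → Prop) (q ε : ℝ≥0∞) (hU : ∀ n, U Λ ht n ≤ 1) (hq1 : q ≤ 1)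
    (hq : ∑' L : List B, (if FP ht T L ∧ HT ht L ≤ T + i0 ∧ ¬ S (HT ht L) (Dp dp L) then LW Λ L
      else 0) ≤ q)
    (hε : ∑' L : List B, (if FP ht T L ∧ T + i0 < HT ht L then LW Λ L else 0) ≤ ε) (J : ℕ) :
    ∀ n : ℕ, J * (T + i0) ≤ n →
    ∑' L : List B, (if HT ht L = n ∧ ¬ smooth ht dp T i0 S J L then LW Λ L else 0)
      ≤ q ^ J + J * ε := by
  induction J with
  | zero =>
    intro n _
    simp only [smooth, not_false_eq_true, and_true, pow_zero, Nat.cast_zero, zero_mul, add_zero]
    exact hU n
  | succ J ih =>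
    intro n hn
    have hn' : T + i0 + J * (T + i0) ≤ n := by rw [Nat.succ_mul] at hn; omega
    refine le_trans (tsum_split _ (fun L1 L2 =>
      (FP ht T L1 ∧ T + i0 < HT ht L1 ∧ HT ht L1 + HT ht L2 = n) ∨
      (FP ht T L1 ∧ HT ht L1 ≤ T + i0 ∧ ¬ S (HT ht L1) (Dp dp L1) ∧ HT ht L1 + HT ht L2 = n ∧
        ¬ smooth ht dp T i0 S J L2)) (LW Λ) ?_) ?_
    · rintro L ⟨h1, h2⟩
      have hFP := cut_FP ht L T (by omega)
      have happ := cut_append ht L T
      refine ⟨(cut ht L T).1, (cut ht L T).2, happ.symm, ?_⟩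
      have hh : HT ht (cut ht L T).1 + HT ht (cut ht L T).2 = n := by
        rw [← HT_append, happ, h1]
      by_cases hi : T + i0 < HT ht (cut ht L T).1
      · exact Or.inl ⟨hFP, hi, hh⟩
      · refine Or.inr ⟨hFP, by omega, fun hs => h2 ?_, hh, fun hs => h2 ?_⟩
        · exact ⟨_, _, happ.symm, hFP, by omega, Or.inl hs⟩
        · exact ⟨_, _, happ.symm, hFP, by omega, Or.inr hs⟩
    · refine le_trans (b := (∑' L1 : List B, ∑' L2 : List B,
          if FP ht T L1 ∧ T + i0 < HT ht L1 ∧ HT ht L1 + HT ht L2 = n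
            then LW Λ L1 * LW Λ L2 else 0)
        + ∑' L1 : List B, ∑' L2 : List B,
          if FP ht T L1 ∧ HT ht L1 ≤ T + i0 ∧ ¬ S (HT ht L1) (Dp dp L1) ∧
            HT ht L1 + HT ht L2 = n ∧ ¬ smooth ht dp T i0 S J L2
          then LW Λ L1 * LW Λ L2 else 0) ?_ ?_
      · rw [← ENNReal.tsum_add]
        refine ENNReal.tsum_le_tsum fun L1 => ?_
        rw [← ENNReal.tsum_add]
        refine ENNReal.tsum_le_tsum fun L2 => ?_
        rw [LW_append]
        split_ifs with h1 h2 h3 h4 h5 <;> simp_all
      · have hA : ∑' L1 : List B, ∑' L2 : List B,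
            (if FP ht T L1 ∧ T + i0 < HT ht L1 ∧ HT ht L1 + HT ht L2 = n
            then LW Λ L1 * LW Λ L2 else 0) ≤ ε := by
          refine le_trans ?_ hε
          refine ENNReal.tsum_le_tsum fun L1 => ?_
          by_cases hc : FP ht T L1 ∧ T + i0 < HT ht L1
          · rw [if_pos hc]
            calc _ ≤ LW Λ L1 * U Λ ht (n - HT ht L1) := by
                  rw [U, ← ENNReal.tsum_mul_left]
                  refine ENNReal.tsum_le_tsum fun L2 => ?_
                  split_ifs with h1 h2 h2
                  · exact le_rfl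
                  · exact absurd (by omega) h2
                  · exact zero_le
                  · simp
              _ ≤ LW Λ L1 * 1 := mul_le_mul_right (hU _) _
              _ = _ := mul_one _
          · refine le_trans (le_of_eq ?_) zero_le
            rw [ENNReal.tsum_eq_zero]
            intro L2
            rw [if_neg]
            rintro ⟨h1, h2, _⟩
            exact hc ⟨h1, h2⟩
        have hB : ∑' L1 : List B, ∑' L2 : List B,
            (if FP ht T L1 ∧ HT ht L1 ≤ T + i0 ∧ ¬ S (HT ht L1) (Dp dp L1) ∧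
              HT ht L1 + HT ht L2 = n ∧ ¬ smooth ht dp T i0 S J L2
            then LW Λ L1 * LW Λ L2 else 0) ≤ q * (q ^ J + J * ε) := by
          refine le_trans ?_ (mul_le_mul_left hq _)
          rw [← ENNReal.tsum_mul_right]
          refine ENNReal.tsum_le_tsum fun L1 => ?_
          by_cases hc : FP ht T L1 ∧ HT ht L1 ≤ T + i0 ∧ ¬ S (HT ht L1) (Dp dp L1)
          · rw [if_pos hc]
            refine le_trans ?_ (mul_le_mul_right (ih (n - HT ht L1) (by omega)) _)
            rw [← ENNReal.tsum_mul_left]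
            refine ENNReal.tsum_le_tsum fun L2 => ?_
            split_ifs with h1 h2 h2
            · exact le_rfl
            · exact absurd ⟨by omega, h1.2.2.2.2⟩ h2
            · exact zero_le
            · simp
          · refine le_trans (le_of_eq ?_) zero_le
            rw [ENNReal.tsum_eq_zero]
            intro L2
            rw [if_neg]
            rintro ⟨h1, h2, h3, _⟩
            exact hc ⟨h1, h2, h3⟩
        refine (add_le_add hA hB).trans ?_
        calc ε + q * (q ^ J + J * ε) = q ^ (J + 1) + (ε + q * (J * ε)) := by ring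
          _ ≤ q ^ (J + 1) + (ε + 1 * (J * ε)) := by gcongr
          _ = q ^ (J + 1) + ((J + 1 : ℕ) : ℝ≥0∞) * ε := by push_cast; ring

/-- **(D3)** smoothness is decided by the top part. -/
theorem D3 (T i0 : ℕ) (S : ℕ → G → Prop) (J : ℕ) : ∀ (L1 L2 : List B),
    J * (T + i0) ≤ HT ht L1 → smooth ht dp T i0 S J (L1 ++ L2) → smooth ht dp T i0 S J L1 := by
  induction J with
  | zero => intro L1 L2 _ h; exact h
  | succ J ih =>
    intro L1 L2 hh h
    obtain ⟨P, R, hPR, hFP, hi, hS⟩ := h
    have hh' : T + i0 + J * (T + i0) ≤ HT ht L1 := by rw [Nat.succ_mul] at hh; omega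
    have hpre : P <+: L1 := by
      rcases List.prefix_or_prefix_of_prefix (⟨R, hPR.symm⟩ : P <+: L1 ++ L2)
        (⟨L2, rfl⟩ : L1 <+: L1 ++ L2) with h1 | h1
      · exact h1
      · by_cases he : L1 = P
        · rw [he]
        · have := hFP.2 L1 h1 he
          omega
    obtain ⟨R1, rfl⟩ := hpre
    have hR : R = R1 ++ L2 := by
      have := hPR
      rw [List.append_assoc] at this
      exact (List.append_cancel_left this).symm
    refine ⟨P, R1, rfl, hFP, hi, hS.imp id fun hs => ?_⟩
    rw [hR] at hs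
    refine ih R1 L2 ?_ hs
    rw [HT_append] at hh'
    omega

end Crest.Agent.R154.Sm669
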