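import Crest.Agent.R154.RatioA_872

/-! Row 154 (helper386): measurable MEDIAN SPLIT of a (random) weight along one lateral
coordinate `lat : S → ℤ`. Used by HM5 (traveller + median split). -/

set_option autoImplicit false
set_option linter.unusedSectionVars false
set_option linter.deprecated false

namespace Crest.Agent.R154.X386

open MeasureTheory Set Filter Topology
open scoped ENNReal

variable {S : Type*} {lat : S → ℤ}

/-- mass of `{lat ≤ m}` -/
noncomputable def cum (lat : S → ℤ) (w : S → ℝ≥0∞) (m : ℤ) : ℝ≥0∞ :=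
  ∑' x, if lat x ≤ m then w x else 0

/-- left half: sites at or left of the median -/
noncomputable def sl (lat : S → ℤ) (w : S → ℝ≥0∞) (x : S) : ℝ≥0∞ := by
  classical
  exact if 2 * cum lat w (lat x - 1) < ∑' y, w y then w x else 0

/-- right half: sites at or right of the median -/
noncomputable def sr (lat : S → ℤ) (w : S → ℝ≥0∞) (x : S) : ℝ≥0∞ := by
  classical
  exact if ∑' y, w y ≤ 2 * cum lat w (lat x) then w x else 0

lemma cum_mono (w : S → ℝ≥0∞) : Monotone (cum lat w) := by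
  intro a b hab
  refine ENNReal.tsum_le_tsum fun x => ?_
  by_cases h : lat x ≤ a
  · rw [if_pos h, if_pos (h.trans hab)]
  · rw [if_neg h]; exact bot_le

lemma sl_le (w : S → ℝ≥0∞) (x : S) : sl lat w x ≤ w x := by
  unfold sl; split_ifs
  · exact le_rfl
  · exact bot_le

lemma sr_le (w : S → ℝ≥0∞) (x : S) : sr lat w x ≤ w x := by
  unfold sr; split_ifs
  · exact le_rfl
  · exact bot_le

/-- the left half lies (weakly) to the left of the right half -/
lemma sl_sr_le {w : S → ℝ≥0∞} {x y : S} (hx : sl lat w x ≠ 0) (hy : sr lat w y ≠ 0) :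
    lat x ≤ lat y := by
  unfold sl at hx
  unfold sr at hy
  split_ifs at hx with h1
  · split_ifs at hy with h2
    · by_contra hlt
      push Not at hlt
      have h3 : cum lat w (lat y) ≤ cum lat w (lat x - 1) := cum_mono w (by omega)
      have h4 : 2 * cum lat w (lat y) ≤ 2 * cum lat w (lat x - 1) := by gcongr
      exact absurd (h2.trans h4) (not_le.2 h1)
    · exact absurd rfl hy
  · exact absurd rfl hx

/-- existence of the median -/
lemma exists_med {w : S → ℝ≥0∞} (h0 : ∑' y, w y ≠ 0) (hT : ∑' y, w y ≠ ∞) :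
    ∃ m : ℤ, ∑' y, w y ≤ 2 * cum lat w m ∧ 2 * cum lat w (m - 1) < ∑' y, w y := by
  classical
  set t := ∑' y, w y with ht
  have ht2 : (0 : ℝ≥0∞) < t / 2 := ENNReal.half_pos h0
  have hlim := ENNReal.tendsto_tsum_compl_atTop_zero hT
  obtain ⟨s, hs⟩ := ((hlim.eventually (gt_mem_nhds ht2))).exists
  -- a finite set carrying more than half of the mass
  have hle : ∑' x : {x // x ∉ s}, w x = ∑' x, if x ∉ s then w x else 0 := by
    rw [show (∑' x : {x // x ∉ s}, w x) = ∑' x : ({x | x ∉ s} : Set S), w x from rfl,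
      tsum_subtype {x | x ∉ s} w]
    refine tsum_congr fun x => ?_
    by_cases hx : x ∉ s
    · rw [if_pos hx, Set.indicator_of_mem (show x ∈ {x | x ∉ s} from hx)]
    · rw [if_neg hx, Set.indicator_of_notMem (show x ∉ {x | x ∉ s} from hx)]
  have hsum : ∑ x ∈ s, w x + ∑' x : {x // x ∉ s}, w x = t := by
    have e1 : ∑ x ∈ s, w x = ∑' x, if x ∈ s then w x else 0 := by
      rw [tsum_eq_sum (s := s)]
      · exact Finset.sum_congr rfl fun x hx => by rw [if_pos hx]
      · intro x hx; rw [if_neg hx]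
    rw [e1, hle, ht, ← ENNReal.tsum_add]
    refine tsum_congr fun x => ?_
    by_cases hx : x ∈ s
    · rw [if_pos hx, if_neg (not_not.2 hx), add_zero]
    · rw [if_neg hx, if_pos hx, zero_add]
  -- bounds
  obtain ⟨lo, hlo⟩ : ∃ lo : ℤ, ∀ x ∈ s, lo < lat x := by
    obtain ⟨b, hb⟩ := (s.image lat).bddBelow
    refine ⟨b - 1, fun x hx => ?_⟩
    have := hb (Finset.mem_coe.2 (Finset.mem_image_of_mem lat hx))
    omega
  obtain ⟨hi, hhi⟩ : ∃ hi : ℤ, ∀ x ∈ s, lat x ≤ hi := by
    obtain ⟨b, hb⟩ := (s.image lat).bddAbove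
    exact ⟨b, fun x hx => hb (Finset.mem_coe.2 (Finset.mem_image_of_mem lat hx))⟩
  have hlo' : ∀ m : ℤ, m ≤ lo → 2 * cum lat w m < t := by
    intro m hm
    have h1 : cum lat w m ≤ ∑' x : {x // x ∉ s}, w x := by
      rw [hle]
      refine ENNReal.tsum_le_tsum fun x => ?_
      by_cases h : lat x ≤ m
      · have : x ∉ s := fun hx => by have := hlo x hx; omega
        rw [if_pos h, if_pos this]
      · rw [if_neg h]; exact bot_le
    calc 2 * cum lat w m ≤ 2 * ∑' x : {x // x ∉ s}, w x := by gcongr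
      _ < 2 * (t / 2) := by
          exact ENNReal.mul_lt_mul_right (by norm_num) (by norm_num) hs
      _ = t := ENNReal.mul_div_cancel (by norm_num) (by norm_num)
  have hhi' : t ≤ 2 * cum lat w hi := by
    have h1 : ∑ x ∈ s, w x ≤ cum lat w hi := by
      have : ∑ x ∈ s, w x = ∑ x ∈ s, (if lat x ≤ hi then w x else 0) :=
        Finset.sum_congr rfl fun x hx => by rw [if_pos (hhi x hx)]
      rw [this]
      exact ENNReal.sum_le_tsum s
    have h2 : t / 2 ≤ ∑ x ∈ s, w x := by
      by_contra hlt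
      push Not at hlt
      have h3 : t < t / 2 + t / 2 := by
        conv_lhs => rw [← hsum]
        exact ENNReal.add_lt_add hlt hs
      rw [ENNReal.add_halves] at h3
      exact lt_irrefl _ h3
    calc t = 2 * (t / 2) := (ENNReal.mul_div_cancel (by norm_num) (by norm_num)).symm
      _ ≤ 2 * cum lat w hi := by gcongr; exact h2.trans h1
  obtain ⟨m, hm1, hm2⟩ := Int.exists_least_of_bdd (P := fun m => t ≤ 2 * cum lat w m)
    ⟨lo, fun z hz => by
      by_contra hlt
      push Not at hlt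
      exact absurd hz (not_le.2 (hlo' z hlt.le))⟩ ⟨hi, hhi'⟩
  refine ⟨m, hm1, ?_⟩
  by_contra hge
  push Not at hge
  have := hm2 _ hge
  omega

/-- the left half has at least half of the mass -/
theorem sl_mass {w : S → ℝ≥0∞} (hT : ∑' y, w y ≠ ∞) :
    ∑' y, w y ≤ 2 * ∑' x, sl lat w x := by
  by_cases h0 : ∑' y, w y = 0
  · rw [h0]; exact bot_le
  obtain ⟨m, hm1, hm2⟩ := exists_med (lat := lat) h0 hT
  refine hm1.trans ?_
  gcongr
  unfold cum
  refine ENNReal.tsum_le_tsum fun x => ?_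
  by_cases h : lat x ≤ m
  · rw [if_pos h]
    unfold sl
    have : 2 * cum lat w (lat x - 1) < ∑' y, w y := by
      refine lt_of_le_of_lt ?_ hm2
      gcongr
      exact cum_mono w (by omega)
    rw [if_pos this]
  · rw [if_neg h]; exact bot_le

/-- the right half has at least half of the mass -/
theorem sr_mass {w : S → ℝ≥0∞} (hT : ∑' y, w y ≠ ∞) :
    ∑' y, w y ≤ 2 * ∑' x, sr lat w x := by
  by_cases h0 : ∑' y, w y = 0
  · rw [h0]; exact bot_le
  obtain ⟨m, hm1, hm2⟩ := exists_med (lat := lat) h0 hT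
  set t := ∑' y, w y with ht
  -- t = cum (m-1) + rest, rest = mass of {lat ≥ m}
  have hsplit : t ≤ cum lat w (m - 1) + ∑' x, sr lat w x := by
    rw [ht]
    unfold cum
    rw [← ENNReal.tsum_add]
    refine ENNReal.tsum_le_tsum fun x => ?_
    by_cases h : lat x ≤ m - 1
    · rw [if_pos h]; exact le_self_add
    · rw [if_neg h, zero_add]
      unfold sr
      have : ∑' y, w y ≤ 2 * cum lat w (lat x) := by
        refine hm1.trans ?_
        gcongr
        exact cum_mono w (by omega)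
      rw [if_pos this]
  have h1 : 2 * cum lat w (m - 1) ≤ t := hm2.le
  have hfin : cum lat w (m - 1) ≠ ∞ := by
    intro hinf
    rw [hinf, ENNReal.mul_top (by norm_num)] at h1
    exact hT (top_le_iff.1 h1)
  -- 2t ≤ 2 cum + 2 sr ≤ t + 2 sr
  have h2 : t + t ≤ t + 2 * ∑' x, sr lat w x := by
    calc t + t = 2 * t := (two_mul t).symm
      _ ≤ 2 * (cum lat w (m - 1) + ∑' x, sr lat w x) := by gcongr
      _ = 2 * cum lat w (m - 1) + 2 * ∑' x, sr lat w x := by ring
      _ ≤ t + 2 * ∑' x, sr lat w x := by gcongr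
  exact (ENNReal.add_le_add_iff_left hT).1 h2

section meas
variable [Countable S] {Ω : Type*} {mΩ : MeasurableSpace Ω}

lemma meas_cum {w : Ω → S → ℝ≥0∞} (hw : ∀ x, Measurable[mΩ] fun ω => w ω x) (m : ℤ) :
    Measurable[mΩ] fun ω => cum lat (w ω) m := by
  unfold cum
  refine Measurable.ennreal_tsum fun x => ?_
  by_cases h : lat x ≤ m
  · simpa [h] using hw x
  · simp [h]

lemma meas_tot {w : Ω → S → ℝ≥0∞} (hw : ∀ x, Measurable[mΩ] fun ω => w ω x) :
    Measurable[mΩ] fun ω => ∑' x, w ω x := Measurable.ennreal_tsum fun x => hw x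

lemma meas_sl {w : Ω → S → ℝ≥0∞} (hw : ∀ x, Measurable[mΩ] fun ω => w ω x) (x : S) :
    Measurable[mΩ] fun ω => sl lat (w ω) x := by
  unfold sl
  refine Measurable.ite ?_ (hw x) measurable_const
  exact measurableSet_lt ((meas_cum hw _).const_mul 2) (meas_tot hw)

lemma meas_sr {w : Ω → S → ℝ≥0∞} (hw : ∀ x, Measurable[mΩ] fun ω => w ω x) (x : S) :
    Measurable[mΩ] fun ω => sr lat (w ω) x := by
  unfold sr
  refine Measurable.ite ?_ (hw x) measurable_const
  exact measurableSet_le (meas_tot hw) ((meas_cum hw _).const_mul 2)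

end meas

section ker
open Crest.Agent.R154.RatioR872 Crest.Agent.R154.RatioR872.KerSys
variable [Countable S] {Ω : Type*} {m0 : MeasurableSpace Ω} {P : Measure Ω} {A : KerSys S P}

/-- the left half of a random weight at level `a` is a random weight at level `a` -/
lemma Wt_sl {a : ℕ} {w : Ω → S → ℝ≥0∞} (hw : A.Wt a w) : A.Wt a (fun ω => sl lat (w ω)) where
  meas x := meas_sl hw.meas x
  supp ω x hx := le_antisymm ((sl_le (w ω) x).trans (hw.supp ω x hx).le) bot_le

/-- the right half of a random weight at level `a` is a random weight at level `a` -/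
lemma Wt_sr {a : ℕ} {w : Ω → S → ℝ≥0∞} (hw : A.Wt a w) : A.Wt a (fun ω => sr lat (w ω)) where
  meas x := meas_sr hw.meas x
  supp ω x hx := le_antisymm ((sr_le (w ω) x).trans (hw.supp ω x hx).le) bot_le

/-- **MEDIAN SPLIT** in one statement -/
theorem split (lat : S → ℤ) {a : ℕ} {w : Ω → S → ℝ≥0∞} (hw : A.Wt a w)
    (hfin : ∀ ω, tot w ω ≠ ∞) :
    ∃ wl wr : Ω → S → ℝ≥0∞, A.Wt a wl ∧ A.Wt a wr ∧
      (∀ ω x, wl ω x ≤ w ω x) ∧ (∀ ω x, wr ω x ≤ w ω x) ∧
      (∀ ω, tot w ω ≤ 2 * tot wl ω) ∧ (∀ ω, tot w ω ≤ 2 * tot wr ω) ∧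
      (∀ ω x y, wl ω x ≠ 0 → wr ω y ≠ 0 → lat x ≤ lat y) :=
  ⟨fun ω => sl lat (w ω), fun ω => sr lat (w ω), Wt_sl hw, Wt_sr hw,
    fun ω x => sl_le _ x, fun ω x => sr_le _ x, fun ω => sl_mass (hfin ω),
    fun ω => sr_mass (hfin ω), fun _ _ _ hx hy => sl_sr_le hx hy⟩

end ker

end Crest.Agent.R154.X386
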