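import Crest.Agent.R154.PFDefs_692
import Crest.Agent.R154.H5_501

/-! Row 154, ROAD 801, joint-cut frame of 692: the window decomposition `SplitSt` (helper501). -/

set_option autoImplicit false

namespace Crest.Agent.R154.Split501

open scoped ENNReal
open Crest.Agent.R154.B5A
open Crest.Agent.R154.H5N501 (tsum_le_of_split exists_cut sumR U_le_one)

variable {B : Type*} (Λ : B → ℝ≥0∞) (ht : B → ℕ)

open Classical in
lemma tsum_le_of_split3 {α β₁ β₂ β₃ : Type*} (f : α → ℝ≥0∞) (g₁ : β₁ → ℝ≥0∞) (π₁ : β₁ → α)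
    (g₂ : β₂ → ℝ≥0∞) (π₂ : β₂ → α) (g₃ : β₃ → ℝ≥0∞) (π₃ : β₃ → α)
    (h : ∀ x, f x ≠ 0 → (∃ y, π₁ y = x ∧ f x ≤ g₁ y) ∨ (∃ y, π₂ y = x ∧ f x ≤ g₂ y) ∨
      (∃ y, π₃ y = x ∧ f x ≤ g₃ y)) :
    ∑' x, f x ≤ ∑' y, g₁ y + ∑' y, g₂ y + ∑' y, g₃ y := by
  set f₁ : α → ℝ≥0∞ := fun x => if ∃ y, π₁ y = x ∧ f x ≤ g₁ y then f x else 0 with hf₁
  set f₂ : α → ℝ≥0∞ := fun x => if ∃ y, π₂ y = x ∧ f x ≤ g₂ y then f x else 0 with hf₂
  set f₃ : α → ℝ≥0∞ := fun x => if ∃ y, π₃ y = x ∧ f x ≤ g₃ y then f x else 0 with hf₃
  have h1 : ∑' x, f₁ x ≤ ∑' y, g₁ y := by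
    refine tsum_le_of_split f₁ g₁ π₁ fun x hx => ?_
    simp only [hf₁] at hx ⊢
    by_cases hc : ∃ y, π₁ y = x ∧ f x ≤ g₁ y
    · rw [if_pos hc]; exact hc
    · rw [if_neg hc] at hx; exact absurd rfl hx
  have h2 : ∑' x, f₂ x ≤ ∑' y, g₂ y := by
    refine tsum_le_of_split f₂ g₂ π₂ fun x hx => ?_
    simp only [hf₂] at hx ⊢
    by_cases hc : ∃ y, π₂ y = x ∧ f x ≤ g₂ y
    · rw [if_pos hc]; exact hc
    · rw [if_neg hc] at hx; exact absurd rfl hx
  have h3 : ∑' x, f₃ x ≤ ∑' y, g₃ y := by
    refine tsum_le_of_split f₃ g₃ π₃ fun x hx => ?_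
    simp only [hf₃] at hx ⊢
    by_cases hc : ∃ y, π₃ y = x ∧ f x ≤ g₃ y
    · rw [if_pos hc]; exact hc
    · rw [if_neg hc] at hx; exact absurd rfl hx
  calc ∑' x, f x ≤ ∑' x, (f₁ x + f₂ x + f₃ x) := by
        refine ENNReal.tsum_le_tsum fun x => ?_
        by_cases hx : f x = 0
        · rw [hx]; exact zero_le
        · rcases h x hx with hc | hc | hc
          · refine le_trans (le_of_eq ?_) (le_trans (b := f₁ x + f₂ x) le_self_add le_self_add)
            simp only [hf₁]; rw [if_pos hc]
          · refine le_trans (le_of_eq ?_) (le_trans (b := f₁ x + f₂ x) le_add_self le_self_add)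
            simp only [hf₂]; rw [if_pos hc]
          · refine le_trans (le_of_eq ?_) le_add_self
            simp only [hf₃]; rw [if_pos hc]
    _ = ∑' x, f₁ x + ∑' x, f₂ x + ∑' x, f₃ x := by
        rw [ENNReal.tsum_add, ENNReal.tsum_add]
    _ ≤ _ := add_le_add (add_le_add h1 h2) h3

lemma coreSum (c : ℕ) (φ : ℕ → ℝ≥0∞) :
    ∑' P : List B, (if HT ht P < c then LW Λ P * φ (HT ht P) else 0)
      = ∑ h ∈ Finset.range c, U Λ ht h * φ h := by
  classical
  calc _ = ∑' P : List B, ∑ h ∈ Finset.range c, (if HT ht P = h then LW Λ P else 0) * φ h := by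
        refine tsum_congr fun P => ?_
        by_cases hP : HT ht P < c
        · rw [if_pos hP, Finset.sum_eq_single (HT ht P)]
          · rw [if_pos rfl]
          · intro h _ hh; rw [if_neg (Ne.symm hh), zero_mul]
          · intro h; exact absurd (Finset.mem_range.2 hP) h
        · rw [if_neg hP, Finset.sum_eq_zero]
          intro h hh
          rw [if_neg (by have := Finset.mem_range.1 hh; omega), zero_mul]
    _ = _ := by
        rw [Summable.tsum_finsetSum (fun _ _ => ENNReal.summable)]
        refine Finset.sum_congr rfl fun h _ => ?_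
        rw [ENNReal.tsum_mul_right]
        rfl

lemma fpl_concat {a : ℕ} {L1 : List B} (h : FPL ht a L1) (hne : L1 ≠ []) :
    ∃ P b, L1 = P ++ [b] ∧ HT ht P < a := by
  obtain ⟨P, b, rfl⟩ : ∃ P b, L1 = P ++ [b] := by
    rcases List.eq_nil_or_concat L1 with h' | ⟨P, b, h'⟩
    · exact absurd h' hne
    · exact ⟨P, b, by simpa using h'⟩
  refine ⟨P, b, rfl, h.2 P (List.prefix_append P [b]) ?_⟩
  intro h'
  have := congrArg List.length h'
  simp at this

/-- first passage lists: mass and overshoot -/
lemma fp_sum (a j : ℕ) (ha : 1 ≤ a) (Q : List B → Prop) [DecidablePred Q]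
    (hQ : ∀ L, Q L → FPL ht a L ∧ a + j ≤ HT ht L) :
    ∑' L : List B, (if Q L then LW Λ L else 0)
      ≤ ∑ h ∈ Finset.range a, U Λ ht h * tail Λ ht (a - 1 + j - h) := by
  classical
  calc ∑' L : List B, (if Q L then LW Λ L else 0)
      ≤ ∑' y : List B × B, (if HT ht y.1 < a ∧ a - 1 + j < HT ht y.1 + ht y.2
          then LW Λ y.1 * Λ y.2 else 0) := by
        refine tsum_le_of_split _ _ (fun y : List B × B => y.1 ++ [y.2]) fun L hL => ?_
        by_cases hq : Q L
        · obtain ⟨h1, h2⟩ := hQ L hq
          have hne : L ≠ [] := by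
            rintro rfl
            have := h1.1
            rw [HT_nil] at this
            omega
          obtain ⟨P, b, rfl, hP⟩ := fpl_concat ht h1 hne
          have e : HT ht (P ++ [b]) = HT ht P + ht b := by
            rw [HT_append, HT_cons, HT_nil, add_zero]
          refine ⟨(P, b), rfl, ?_⟩
          rw [if_pos hq, if_pos ⟨hP, by simp only; omega⟩, LW_append, LW_cons, LW_nil, mul_one]
        · rw [if_neg hq] at hL; exact absurd rfl hL
    _ = ∑' P : List B, (if HT ht P < a then LW Λ P * tail Λ ht (a - 1 + j - HT ht P) else 0) := by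
        rw [ENNReal.tsum_prod']
        refine tsum_congr fun P => ?_
        by_cases hP : HT ht P < a
        · rw [if_pos hP, tail, ← ENNReal.tsum_mul_left]
          refine tsum_congr fun b => ?_
          by_cases hb : a - 1 + j < HT ht P + ht b
          · rw [if_pos ⟨hP, hb⟩, if_pos (by omega)]
          · rw [if_neg (fun h => hb h.2), if_neg (by omega), mul_zero]
        · rw [if_neg hP]
          refine ENNReal.tsum_eq_zero.2 fun b => ?_
          rw [if_neg (fun h => hP h.1)]
    _ = _ := coreSum Λ ht a fun h => tail Λ ht (a - 1 + j - h)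

lemma ren_tl (h1 : ∀ b, 1 ≤ ht b) (hΛ : ∑' b, Λ b = 1) (c i : ℕ) :
    ∑ h ∈ Finset.range c, U Λ ht h * tail Λ ht (c + i - h) ≤ tl Λ ht i := by
  calc ∑ h ∈ Finset.range c, U Λ ht h * tail Λ ht (c + i - h)
      ≤ ∑ h ∈ Finset.range c, tail Λ ht (c + i - h) :=
        Finset.sum_le_sum fun h _ => mul_le_of_le_one_left zero_le (U_le_one Λ ht h1 hΛ h)
    _ = ∑ k ∈ Finset.range c, tail Λ ht (i + (k + 1)) := by
        rw [← Finset.sum_range_reflect]
        refine Finset.sum_congr rfl fun k hk => ?_
        have := Finset.mem_range.1 hk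
        congr 1
        omega
    _ ≤ ∑' k, tail Λ ht (i + (k + 1)) := ENNReal.sum_le_tsum _
    _ ≤ tl Λ ht i := by
        rw [tl]
        exact ENNReal.tsum_comp_le_tsum_of_injective (f := fun k : ℕ => k + 1)
          (fun a b h => Nat.succ_injective h) (fun k => tail Λ ht (i + k))

open Classical in
lemma fp_mass (h1 : ∀ b, 1 ≤ ht b) (hΛ : ∑' b, Λ b = 1) (a : ℕ) :
    ∑' L : List B, (if FPL ht a L then LW Λ L else 0) ≤ 1 := by
  rcases Nat.eq_zero_or_pos a with rfl | ha
  · have : ∀ L : List B, (if FPL ht 0 L then LW Λ L else 0) ≤ (if L = [] then 1 else 0) := by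
      intro L
      by_cases hL : FPL ht 0 L
      · have : L = [] := by
          by_contra hne
          have := hL.2 [] (List.nil_prefix) (fun h => hne h.symm)
          omega
        subst this
        rw [if_pos rfl, if_pos hL, LW_nil]
      · rw [if_neg hL]; exact zero_le
    refine (ENNReal.tsum_le_tsum this).trans ?_
    rw [tsum_eq_single ([] : List B) (fun L hL => if_neg hL), if_pos rfl]
  · refine (fp_sum Λ ht a 0 ha (FPL ht a) fun L hL => ⟨hL, by simpa using hL.1⟩).trans ?_
    rw [← renewal_one Λ ht h1 hΛ (a - 1), show a - 1 + 1 = a by omega, ← Finset.sum_range_reflect]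
    refine Finset.sum_le_sum fun k hk => ?_
    have := Finset.mem_range.1 hk
    rw [show a - 1 + 0 - (a - 1 - k) = k by omega]

open Classical in
theorem split_st : SplitSt Λ ht := by
  intro h1 hΛ hU1 n a g F P i hn hig hF hP
  -- the three index sets
  set g₁ : List B × List B → ℝ≥0∞ := fun y =>
    (if FPL ht a y.1 ∧ a + i < HT ht y.1 then LW Λ y.1 else 0) *
      (if HT ht y.1 + HT ht y.2 = n then LW Λ y.2 else 0) with hg₁
  set g₂ : List B × ((List B × B) × List B) → ℝ≥0∞ := fun y =>
    (if FPL ht a y.1 then LW Λ y.1 else 0) *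
      ((if HT ht y.2.1.1 < g - i ∧ g < HT ht y.2.1.1 + ht y.2.1.2
        then LW Λ y.2.1.1 * Λ y.2.1.2 else 0) *
      (if (HT ht y.1 + HT ht y.2.1.1 + ht y.2.1.2) + HT ht y.2.2 = n then LW Λ y.2.2 else 0))
    with hg₂
  set g₃ : List B × ((List B × B) × List B) → ℝ≥0∞ := fun y =>
    (if FPL ht a y.1 then LW Λ y.1 else 0) *
      (((if HT ht y.2.1.1 ≤ g ∧ g < HT ht y.2.1.1 + ht y.2.1.2
        then LW Λ y.2.1.1 * Λ y.2.1.2 else 0) * P y.1 y.2.1.1) *
      (if (HT ht y.1 + HT ht y.2.1.1 + ht y.2.1.2) + HT ht y.2.2 = n then LW Λ y.2.2 else 0))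
    with hg₃
  have hsplit : ∑' L : List B, (if HT ht L = n then LW Λ L * F L else 0)
      ≤ ∑' y, g₁ y + ∑' y, g₂ y + ∑' y, g₃ y := by
    refine tsum_le_of_split3 _ g₁ (fun y => y.1 ++ y.2) g₂
      (fun y => y.1 ++ (y.2.1.1 ++ (y.2.1.2 :: y.2.2))) g₃
      (fun y => y.1 ++ (y.2.1.1 ++ (y.2.1.2 :: y.2.2))) fun L hL => ?_
    by_cases hLn : HT ht L = n
    swap
    · rw [if_neg hLn] at hL; exact absurd rfl hL
    rw [if_pos hLn]
    -- first passage prefix
    obtain ⟨L1, L2, hL12, hfp⟩ : ∃ L1 L2, L = L1 ++ L2 ∧ FPL ht a L1 := by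
      rcases Nat.eq_zero_or_pos a with ha | ha
      · refine ⟨[], L, rfl, by rw [ha]; exact Nat.zero_le _, fun L' hL' hne => ?_⟩
        exact absurd (List.prefix_nil.1 hL') hne
      · obtain ⟨Q, b, R, h2, h3, h4⟩ := exists_cut ht L a ha (by omega)
        refine ⟨Q ++ [b], R, by rw [h2]; simp, ?_, fun L' hL' hne => ?_⟩
        · rw [HT_append, HT_cons, HT_nil, add_zero]; exact h4
        · have h5 : L' <+: Q := by
            rcases List.prefix_concat_iff.1 hL' with h | h
            · exact absurd h hne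
            · exact h
          obtain ⟨t, ht'⟩ := h5
          have : HT ht L' ≤ HT ht Q := by rw [← ht', HT_append]; omega
          omega
    have hH : HT ht L1 + HT ht L2 = n := by rw [← HT_append, ← hL12, hLn]
    by_cases hov : a + i < HT ht L1
    · left
      refine ⟨(L1, L2), hL12.symm, ?_⟩
      simp only [hg₁]
      rw [if_pos ⟨hfp, hov⟩, if_pos hH, hL12, LW_append]
      exact mul_le_of_le_one_right zero_le (hF _)
    · right
      obtain ⟨Lp, b, R, h2, h3, h4⟩ := exists_cut ht L2 (g + 1) (by omega) (by omega)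
      have hHH : (HT ht L1 + HT ht Lp + ht b) + HT ht R = n := by
        rw [← hH, h2, HT_append, HT_cons]; omega
      have heq : L1 ++ (Lp ++ (b :: R)) = L := by rw [hL12, h2]
      by_cases hlow : HT ht Lp < g - i
      · left
        refine ⟨(L1, ((Lp, b), R)), heq, ?_⟩
        simp only [hg₂]
        rw [if_pos hfp, if_pos ⟨hlow, by omega⟩, if_pos hHH, ← heq, LW_append, LW_append, LW_cons]
        refine (mul_le_of_le_one_right zero_le (hF _)).trans (le_of_eq ?_)
        ring
      · right
        refine ⟨(L1, ((Lp, b), R)), heq, ?_⟩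
        simp only [hg₃]
        rw [if_pos hfp, if_pos ⟨by omega, by omega⟩, if_pos hHH]
        have hPF : F L ≤ P L1 Lp := by
          rw [← heq]
          refine hP L1 Lp (b :: R) hfp (by omega) (by omega) (by omega) ?_
          rw [heq, hLn]
        calc LW Λ L * F L ≤ LW Λ L * P L1 Lp := mul_le_mul_right hPF _
          _ = _ := by
            rw [← heq, LW_append, LW_append, LW_cons]
            ring
  refine hsplit.trans ?_
  rw [two_mul]
  refine add_le_add (add_le_add ?_ ?_) ?_
  · -- overshoot
    rw [ENNReal.tsum_prod']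
    calc ∑' L1 : List B, ∑' L2 : List B, g₁ (L1, L2)
        ≤ ∑' L1 : List B, (if FPL ht a L1 ∧ a + i < HT ht L1 then LW Λ L1 else 0) := by
          refine ENNReal.tsum_le_tsum fun L1 => ?_
          simp only [hg₁]
          rw [ENNReal.tsum_mul_left]
          exact mul_le_of_le_one_right zero_le (sumR Λ ht h1 hΛ _ _)
      _ ≤ tl Λ ht i := by
          rcases Nat.eq_zero_or_pos a with ha | ha
          · refine le_trans (le_of_eq ?_) zero_le
            refine ENNReal.tsum_eq_zero.2 fun L1 => ?_
            rw [if_neg]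
            rintro ⟨h2, h3⟩
            by_cases hne : L1 = []
            · rw [hne, HT_nil] at h3; omega
            · obtain ⟨Q, b, hQ, hQ2⟩ := fpl_concat ht h2 hne
              omega
          · refine (fp_sum Λ ht a (i + 1) ha _ fun L hL => ⟨hL.1, by omega⟩).trans ?_
            refine le_trans (le_of_eq ?_) (ren_tl Λ ht h1 hΛ a i)
            refine Finset.sum_congr rfl fun h _ => ?_
            congr 2
            omega
  · -- short piece
    calc ∑' y, g₂ y = ∑' L1 : List B, ∑' z : (List B × B), ∑' R : List B, g₂ (L1, (z, R)) := by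
          rw [ENNReal.tsum_prod']
          refine tsum_congr fun L1 => ?_
          rw [ENNReal.tsum_prod']
      _ ≤ ∑' L1 : List B, ∑' z : (List B × B), (if FPL ht a L1 then LW Λ L1 else 0) *
            (if HT ht z.1 < g - i ∧ g < HT ht z.1 + ht z.2 then LW Λ z.1 * Λ z.2 else 0) := by
          refine ENNReal.tsum_le_tsum fun L1 => ENNReal.tsum_le_tsum fun z => ?_
          simp only [hg₂]
          rw [ENNReal.tsum_mul_left, ENNReal.tsum_mul_left]
          refine mul_le_mul_right ?_ _
          exact mul_le_of_le_one_right zero_le (sumR Λ ht h1 hΛ _ _)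
      _ = (∑' L1 : List B, (if FPL ht a L1 then LW Λ L1 else 0)) *
            ∑' z : (List B × B),
            (if HT ht z.1 < g - i ∧ g < HT ht z.1 + ht z.2 then LW Λ z.1 * Λ z.2 else 0) := by
          rw [← ENNReal.tsum_mul_right]
          refine tsum_congr fun L1 => ?_
          rw [ENNReal.tsum_mul_left]
      _ ≤ 1 * tl Λ ht i := by
          refine mul_le_mul' (fp_mass Λ ht h1 hΛ a) ?_
          refine le_trans (le_of_eq ?_) (ren_tl Λ ht h1 hΛ (g - i) i)
          rw [← coreSum Λ ht (g - i) fun h => tail Λ ht (g - i + i - h), ENNReal.tsum_prod']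
          refine tsum_congr fun Q => ?_
          by_cases hQ : HT ht Q < g - i
          · rw [if_pos hQ, tail, ← ENNReal.tsum_mul_left]
            refine tsum_congr fun b => ?_
            by_cases hb : g < HT ht Q + ht b
            · rw [if_pos ⟨hQ, hb⟩, if_pos (by omega)]
            · rw [if_neg (fun h => hb h.2), if_neg (by omega), mul_zero]
          · rw [if_neg hQ]
            refine ENNReal.tsum_eq_zero.2 fun b => ?_
            rw [if_neg (fun h => hQ h.1)]
      _ = tl Λ ht i := one_mul _
  · -- main term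
    calc ∑' y, g₃ y = ∑' L1 : List B, ∑' z : (List B × B), ∑' R : List B, g₃ (L1, (z, R)) := by
          rw [ENNReal.tsum_prod']
          refine tsum_congr fun L1 => ?_
          rw [ENNReal.tsum_prod']
      _ ≤ ∑' L1 : List B, ∑' z : (List B × B), (if FPL ht a L1 then LW Λ L1 else 0) *
            ((if HT ht z.1 ≤ g ∧ g < HT ht z.1 + ht z.2 then LW Λ z.1 * Λ z.2 else 0)
              * P L1 z.1) := by
          refine ENNReal.tsum_le_tsum fun L1 => ENNReal.tsum_le_tsum fun z => ?_
          simp only [hg₃]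
          rw [ENNReal.tsum_mul_left, ENNReal.tsum_mul_left]
          refine mul_le_mul_right ?_ _
          exact mul_le_of_le_one_right zero_le (sumR Λ ht h1 hΛ _ _)
      _ = ∑' L1 : List B, ∑' Q : List B, ∑ h ∈ Finset.range (g + 1), tail Λ ht (g - h) *
            (if FPL ht a L1 then LW Λ L1 * (if HT ht Q = h then LW Λ Q * P L1 Q else 0) else 0) := by
          refine tsum_congr fun L1 => ?_
          rw [ENNReal.tsum_prod']
          refine tsum_congr fun Q => ?_
          by_cases hL1 : FPL ht a L1
          swap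
          · simp [if_neg hL1]
          simp only [if_pos hL1]
          by_cases hQ : HT ht Q ≤ g
          · rw [Finset.sum_eq_single (HT ht Q)]
            · rw [if_pos rfl, tail, ENNReal.tsum_mul_left, ENNReal.tsum_mul_right]
              have : ∑' b, (if HT ht Q ≤ g ∧ g < HT ht Q + ht b then LW Λ Q * Λ b else 0)
                  = LW Λ Q * ∑' b, (if g - HT ht Q < ht b then Λ b else 0) := by
                rw [← ENNReal.tsum_mul_left]
                refine tsum_congr fun b => ?_
                by_cases hb : g < HT ht Q + ht b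
                · rw [if_pos ⟨hQ, hb⟩, if_pos (by omega)]
                · rw [if_neg (fun h => hb h.2), if_neg (by omega), mul_zero]
              rw [this]
              ring
            · intro h _ hh; rw [if_neg (Ne.symm hh)]; simp
            · intro h; exact absurd (Finset.mem_range.2 (by omega)) h
          · rw [Finset.sum_eq_zero]
            · refine ENNReal.tsum_eq_zero.2 fun b => ?_
              rw [if_neg (fun h => hQ h.1)]; simp
            · intro h hh
              rw [if_neg (by have := Finset.mem_range.1 hh; omega)]; simp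
      _ = ∑ h ∈ Finset.range (g + 1), ∑' L1 : List B, ∑' Q : List B, tail Λ ht (g - h) *
            (if FPL ht a L1 then LW Λ L1 * (if HT ht Q = h then LW Λ Q * P L1 Q else 0) else 0) := by
          rw [← Summable.tsum_finsetSum (fun _ _ => ENNReal.summable)]
          refine tsum_congr fun L1 => ?_
          rw [Summable.tsum_finsetSum (fun _ _ => ENNReal.summable)]
      _ = _ := by
          refine Finset.sum_congr rfl fun h _ => ?_
          rw [← ENNReal.tsum_mul_left]
          refine tsum_congr fun L1 => ?_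
          rw [ENNReal.tsum_mul_left]
          congr 1
          by_cases hL1 : FPL ht a L1
          · simp only [if_pos hL1]
            rw [ENNReal.tsum_mul_left]
          · simp [if_neg hL1]

end Crest.Agent.R154.Split501
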