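import Crest.Agent.R154.RatioA_872

/-! Row 154, HM5: median split of a random weight, algebra of sub-weights, seeds. -/

set_option autoImplicit false
set_option linter.unusedSectionVars false
set_option linter.unusedVariables false
set_option linter.deprecated false

namespace Crest.Agent.R154.Split931

open MeasureTheory ProbabilityTheory Set Filter
open Crest.Agent.R154.RatioR872 Crest.Agent.R154.RatioR872.KerSys
open scoped ENNReal

variable {S : Type*} [Countable S] {Ω : Type*} {m0 : MeasurableSpace Ω} {P : Measure Ω}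

/-- part of a weight on `lat ≤ m` -/
def lo (lat : S → ℤ) (m : Ω → ℤ) (w : Ω → S → ℝ≥0∞) (ω : Ω) (x : S) : ℝ≥0∞ :=
  open Classical in if lat x ≤ m ω then w ω x else 0

/-- part of a weight on `m ≤ lat` -/
def hi (lat : S → ℤ) (m : Ω → ℤ) (w : Ω → S → ℝ≥0∞) (ω : Ω) (x : S) : ℝ≥0∞ :=
  open Classical in if m ω ≤ lat x then w ω x else 0

/-- mass below a deterministic level -/
noncomputable def Sn (lat : S → ℤ) (v : S → ℝ≥0∞) (n : ℤ) : ℝ≥0∞ :=
  ∑' x, (open Classical in if lat x ≤ n then v x else 0)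

lemma Sn_mono (lat : S → ℤ) (v : S → ℝ≥0∞) {n n' : ℤ} (h : n ≤ n') : Sn lat v n ≤ Sn lat v n' := by
  classical
  unfold Sn
  refine ENNReal.tsum_le_tsum fun x => ?_
  by_cases h1 : lat x ≤ n
  · rw [if_pos h1, if_pos (h1.trans h)]
  · rw [if_neg h1]; exact bot_le

lemma Sn_split (lat : S → ℤ) (v : S → ℝ≥0∞) (n : ℤ) :
    ∑' x, v x = Sn lat v (n - 1) + ∑' x, (open Classical in if n ≤ lat x then v x else 0) := by
  classical
  unfold Sn
  rw [← ENNReal.tsum_add]
  refine tsum_congr fun x => ?_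
  by_cases h1 : n ≤ lat x
  · rw [if_pos h1, if_neg (by omega), zero_add]
  · rw [if_neg h1, if_pos (by omega), add_zero]

lemma exists_med (lat : S → ℤ) (v : S → ℝ≥0∞) (h0 : ∑' x, v x ≠ 0) (ht : ∑' x, v x ≠ ∞) :
    ∃ n : ℤ, ∑' x, v x ≤ 2 * Sn lat v n ∧ 2 * Sn lat v (n - 1) < ∑' x, v x := by
  classical
  set T := ∑' x, v x with hT
  have hhalf : T / 2 < T := ENNReal.half_lt_self h0 ht
  obtain ⟨s, hs⟩ : ∃ s : Finset S, T / 2 < ∑ x ∈ s, v x := by
    have : T / 2 < ⨆ s : Finset S, ∑ x ∈ s, v x := by rw [← ENNReal.tsum_eq_iSup_sum]; exact hhalf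
    exact lt_iSup_iff.1 this
  have hs' : T < 2 * ∑ x ∈ s, v x := by
    have h5 := ENNReal.mul_lt_mul_right (a := 2) (by norm_num) (by norm_num) hs
    rwa [ENNReal.mul_div_cancel (by norm_num) (by norm_num)] at h5
  have hinh : ∃ z : ℤ, T ≤ 2 * Sn lat v z := by
    obtain ⟨b, hb⟩ := (s.image lat).bddAbove
    refine ⟨b, hs'.le.trans ?_⟩
    gcongr
    unfold Sn
    calc ∑ x ∈ s, v x = ∑ x ∈ s, (if lat x ≤ b then v x else 0) := by
          refine Finset.sum_congr rfl fun x hx => ?_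
          rw [if_pos (hb (by exact_mod_cast Finset.mem_image_of_mem _ hx))]
      _ ≤ _ := ENNReal.sum_le_tsum s
  have hbdd : ∃ b : ℤ, ∀ z : ℤ, T ≤ 2 * Sn lat v z → b ≤ z := by
    obtain ⟨b, hb⟩ := (s.image lat).bddBelow
    refine ⟨b, fun z hz => ?_⟩
    by_contra hcon
    push Not at hcon
    have h1 : Sn lat v z ≤ Sn lat v (b - 1) := Sn_mono lat v (by omega)
    have h2 := Sn_split lat v b
    have h3 : ∑ x ∈ s, v x ≤ ∑' x, (if b ≤ lat x then v x else 0) := by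
      calc ∑ x ∈ s, v x = ∑ x ∈ s, (if b ≤ lat x then v x else 0) := by
            refine Finset.sum_congr rfl fun x hx => ?_
            rw [if_pos (hb (by exact_mod_cast Finset.mem_image_of_mem _ hx))]
        _ ≤ _ := ENNReal.sum_le_tsum s
    have h4 : T + T < T + T := by
      calc T + T ≤ 2 * Sn lat v (b - 1) + T := by gcongr; exact hz.trans (by gcongr)
        _ < 2 * Sn lat v (b - 1) + 2 * ∑ x ∈ s, v x := by
            refine ENNReal.add_lt_add_left ?_ hs'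
            refine ENNReal.mul_ne_top (by norm_num) (ne_top_of_le_ne_top ht ?_)
            rw [hT, h2]; exact le_self_add
        _ ≤ 2 * (Sn lat v (b - 1) + ∑' x, (if b ≤ lat x then v x else 0)) := by
            rw [mul_add]; gcongr
        _ = T + T := by rw [← h2, ← hT, two_mul]
    exact lt_irrefl _ h4
  obtain ⟨n, hn, hmin⟩ := Int.exists_least_of_bdd hbdd hinh
  refine ⟨n, hn, ?_⟩
  by_contra hcon
  push Not at hcon
  have := hmin _ hcon
  omega

variable (A : KerSys S P)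

/-- **median split** -/
theorem med {a : ℕ} {w : Ω → S → ℝ≥0∞} (hw : A.Wt a w) (lat : S → ℤ) :
    ∃ m : Ω → ℤ, Measurable[A.F a] m ∧ A.Wt a (lo lat m w) ∧ A.Wt a (hi lat m w) ∧
      ∀ ω, tot w ω ≠ ∞ → tot w ω ≤ 2 * tot (lo lat m w) ω ∧ tot w ω ≤ 2 * tot (hi lat m w) ω := by
  classical
  set E : ℤ → Set Ω := fun n =>
    {ω | tot w ω ≤ 2 * Sn lat (w ω) n ∧ 2 * Sn lat (w ω) (n - 1) < tot w ω} with hE
  have hSm : ∀ n, Measurable[A.F a] fun ω => Sn lat (w ω) n := by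
    intro n
    unfold Sn
    refine Measurable.ennreal_tsum fun x => ?_
    by_cases h : lat x ≤ n
    · simp only [if_pos h]; exact hw.meas x
    · simp only [if_neg h]; exact measurable_const
  have hTm : Measurable[A.F a] fun ω => tot w ω := hw.meas_tot
  have hEm : ∀ n, MeasurableSet[A.F a] (E n) := by
    intro n
    refine MeasurableSet.inter ?_ ?_
    · exact @measurableSet_le _ _ _ _ _ (A.F a) _ _ _ _ _ hTm ((hSm n).const_mul 2)
    · exact @measurableSet_lt _ _ _ _ _ (A.F a) _ _ _ _ _ ((hSm (n-1)).const_mul 2) hTm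
  set e : ℕ → ℤ := fun k => Equiv.intEquivNat.symm k with he
  set p : ℕ → Ω → Prop := fun k ω => ω ∈ E (e k) ∨ ω ∉ ⋃ n, E n with hp
  have hpm : ∀ k, MeasurableSet[A.F a] {ω | p k ω} := by
    intro k
    exact (hEm _).union (MeasurableSet.iUnion hEm).compl
  have hex : ∀ ω, ∃ k, p k ω := by
    intro ω
    by_cases h : ω ∈ ⋃ n, E n
    · obtain ⟨n, hn⟩ := mem_iUnion.1 h
      refine ⟨Equiv.intEquivNat n, Or.inl ?_⟩
      simpa [he] using hn
    · exact ⟨0, Or.inr h⟩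
  set m : Ω → ℤ := fun ω => e (Nat.find (hex ω)) with hm
  have hmm : Measurable[A.F a] m := by
    have := @Measurable.find Ω ℤ ⊤ (A.F a) (fun k _ => e k) p _ (fun n => measurable_const) hpm hex
    exact this
  have hmE : ∀ ω, ω ∈ ⋃ n, E n → ω ∈ E (m ω) := by
    intro ω h
    rcases Nat.find_spec (hex ω) with h1 | h1
    · exact h1
    · exact absurd h h1
  have hmset : ∀ n : ℤ, MeasurableSet[A.F a] {ω | m ω = n} := fun n =>
    hmm (measurableSet_singleton n)
  refine ⟨m, hmm, ⟨fun x => ?_, fun ω x hx => ?_⟩, ⟨fun x => ?_, fun ω x hx => ?_⟩, fun ω hω => ?_⟩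
  · have h1 : MeasurableSet[A.F a] {ω | lat x ≤ m ω} := hmm (measurableSet_Ici (a := lat x))
    exact Measurable.ite h1 (hw.meas x) measurable_const
  · unfold lo; rw [hw.supp ω x hx]; simp
  · have h1 : MeasurableSet[A.F a] {ω | m ω ≤ lat x} := hmm (measurableSet_Iic (a := lat x))
    exact Measurable.ite h1 (hw.meas x) measurable_const
  · unfold hi; rw [hw.supp ω x hx]; simp
  · by_cases h0 : tot w ω = 0
    · rw [h0]; exact ⟨bot_le, bot_le⟩
    obtain ⟨n, hn1, hn2⟩ := exists_med lat (w ω) h0 hω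
    have hmem := hmE ω (mem_iUnion.2 ⟨n, hn1, hn2⟩)
    refine ⟨hmem.1, ?_⟩
    have h2 := Sn_split lat (w ω) (m ω)
    have h3 : tot (hi lat m w) ω = ∑' x, (if m ω ≤ lat x then w ω x else 0) := rfl
    rw [h3]
    by_contra hcon
    push Not at hcon
    have h4 : tot w ω + tot w ω < tot w ω + tot w ω := by
      calc tot w ω + tot w ω = 2 * (Sn lat (w ω) (m ω - 1) +
            ∑' x, (if m ω ≤ lat x then w ω x else 0)) := by rw [← h2, two_mul]; rfl
        _ = 2 * Sn lat (w ω) (m ω - 1) + 2 * ∑' x, (if m ω ≤ lat x then w ω x else 0) := by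
            rw [mul_add]
        _ < tot w ω + tot w ω := ENNReal.add_lt_add hmem.2 hcon
    exact lt_irrefl _ h4

/-! ### sub-weights -/

lemma lo_le (lat : S → ℤ) (m : Ω → ℤ) (w : Ω → S → ℝ≥0∞) (ω : Ω) (x : S) : lo lat m w ω x ≤ w ω x := by
  unfold lo; split_ifs
  · exact le_rfl
  · exact bot_le

lemma hi_le (lat : S → ℤ) (m : Ω → ℤ) (w : Ω → S → ℝ≥0∞) (ω : Ω) (x : S) : hi lat m w ω x ≤ w ω x := by
  unfold hi; split_ifs
  · exact le_rfl
  · exact bot_le

lemma lo_ne {lat : S → ℤ} {m : Ω → ℤ} {w : Ω → S → ℝ≥0∞} {ω : Ω} {x : S} (h : lo lat m w ω x ≠ 0) :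
    lat x ≤ m ω ∧ w ω x ≠ 0 := by
  unfold lo at h
  split_ifs at h with h1
  · exact ⟨h1, h⟩
  · exact absurd rfl h

lemma hi_ne {lat : S → ℤ} {m : Ω → ℤ} {w : Ω → S → ℝ≥0∞} {ω : Ω} {x : S} (h : hi lat m w ω x ≠ 0) :
    m ω ≤ lat x ∧ w ω x ≠ 0 := by
  unfold hi at h
  split_ifs at h with h1
  · exact ⟨h1, h⟩
  · exact absurd rfl h

variable {A}

lemma push_mono {a b : ℕ} {w w' : Ω → S → ℝ≥0∞} {ω : Ω} (h : ∀ x, w' ω x ≤ w ω x) (y : S) :
    A.push a b w' ω y ≤ A.push a b w ω y := by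
  unfold KerSys.push
  exact ENNReal.tsum_le_tsum fun x => by gcongr; exact h x

lemma tot_mono {w w' : Ω → S → ℝ≥0∞} {ω : Ω} (h : ∀ x, w' ω x ≤ w ω x) : tot w' ω ≤ tot w ω :=
  ENNReal.tsum_le_tsum h

variable (A) in
/-- composition of sub-weights -/
lemma push_push {a b c : ℕ} (hab : a ≤ b) (hbc : b ≤ c) :
    ∀ᵐ ω ∂P, ∀ w w' : Ω → S → ℝ≥0∞, (∀ y, w' ω y ≤ A.push a b w ω y) →
      ∀ z, A.push b c w' ω z ≤ A.push a c w ω z := by
  filter_upwards [A.comp a b c hab hbc] with ω hω w w' hw z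
  calc A.push b c w' ω z ≤ ∑' y, A.push a b w ω y * A.G b c ω y z := by
        unfold KerSys.push
        exact ENNReal.tsum_le_tsum fun y => by gcongr; exact hw y
    _ = ∑' y, ∑' x, w ω x * (A.G a b ω x y * A.G b c ω y z) := by
        refine tsum_congr fun y => ?_
        unfold KerSys.push
        rw [← ENNReal.tsum_mul_right]
        exact tsum_congr fun x => by ring
    _ = ∑' x, w ω x * ∑' y, A.G a b ω x y * A.G b c ω y z := by
        rw [ENNReal.tsum_comm]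
        exact tsum_congr fun x => by rw [ENNReal.tsum_mul_left]
    _ ≤ _ := by
        unfold KerSys.push
        exact ENNReal.tsum_le_tsum fun x => by gcongr; exact hω x z

variable (A) in
/-- off probability `η`, every weight at level `a` has a sub-weight at level `b`, supports related by
`R`, keeping the fraction `q` of the mass -/
def Carry (lat : S → ℤ) (a b : ℕ) (R : ℤ → ℤ → Prop) (q η : ℝ≥0∞) : Prop :=
  ∀ w, A.Wt a w → ∀ B, MeasurableSet[A.F a] B → (∀ ω ∈ B, tot w ω ≠ ∞) →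
    ∃ (w' : Ω → S → ℝ≥0∞) (B' : Set Ω), A.Wt b w' ∧ B' ⊆ B ∧ MeasurableSet[A.F b] B' ∧
      P (B \ B') ≤ η * P B ∧ ∀ᵐ ω ∂P, ω ∈ B' → (∀ y, w' ω y ≤ A.push a b w ω y) ∧
        (∀ y, w' ω y ≠ 0 → ∃ x, w ω x ≠ 0 ∧ R (lat x) (lat y)) ∧ q * tot w ω ≤ tot w' ω

lemma Carry.comp {lat : S → ℤ} {a b c : ℕ} (hab : a ≤ b) (hbc : b ≤ c) {R R' : ℤ → ℤ → Prop}
    {q q' η η' : ℝ≥0∞} (h : Carry A lat a b R q η) (h' : Carry A lat b c R' q' η') :
    Carry A lat a c (fun x z => ∃ y, R x y ∧ R' y z) (q' * q) (η + η') := by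
  intro w hw B hB hfin
  obtain ⟨w1, B1, hw1, hB1, hB1m, hP1, hae1⟩ := h w hw B hB hfin
  obtain ⟨N, hN⟩ : ∃ N : Set Ω, N = {ω | tot w1 ω ≠ ∞} := ⟨_, rfl⟩
  have hNm : MeasurableSet[A.F b] N := by
    rw [hN]
    exact hw1.meas_tot (measurableSet_singleton (∞ : ℝ≥0∞)).compl
  have hsub : ∀ᵐ ω ∂P, ω ∈ B1 → ω ∈ N := by
    filter_upwards [hae1] with ω hω hωB
    rw [hN]
    refine ne_top_of_le_ne_top (hfin ω (hB1 hωB)) ?_
    exact (tot_mono (hω hωB).1).trans (A.tot_push_le hab w ω)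
  obtain ⟨w2, B2, hw2, hB2, hB2m, hP2, hae2⟩ := h' w1 hw1 (B1 ∩ N) (hB1m.inter hNm)
    (fun ω hω => by have := hω.2; rw [hN] at this; exact this)
  refine ⟨w2, B2, hw2, hB2.trans (inter_subset_left.trans hB1), hB2m, ?_, ?_⟩
  · have e1 : P (B \ B2) ≤ P (B \ B1) + P ((B1 ∩ N) \ B2) := by
      have h1 : B \ B2 ⊆ ((B \ B1) ∪ ((B1 ∩ N) \ B2)) ∪ (B1 \ N) := by
        intro ω hω
        by_cases h3 : ω ∈ B1
        · by_cases h4 : ω ∈ N
          · exact Or.inl (Or.inr ⟨⟨h3, h4⟩, hω.2⟩)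
          · exact Or.inr ⟨h3, h4⟩
        · exact Or.inl (Or.inl ⟨hω.1, h3⟩)
      have h2 : P (B1 \ N) = 0 := by
        refine measure_mono_null (fun ω hω => ?_) (ae_iff.1 hsub)
        exact fun hcon => hω.2 (hcon hω.1)
      calc P (B \ B2) ≤ P ((B \ B1) ∪ ((B1 ∩ N) \ B2)) + P (B1 \ N) :=
            (measure_mono h1).trans (measure_union_le _ _)
        _ ≤ (P (B \ B1) + P ((B1 ∩ N) \ B2)) + 0 := by
            rw [h2]; gcongr; exact measure_union_le _ _
        _ = _ := add_zero _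
    calc P (B \ B2) ≤ η * P B + η' * P B := by
          refine e1.trans (add_le_add hP1 (hP2.trans ?_))
          gcongr
          exact inter_subset_left.trans hB1
      _ = (η + η') * P B := by rw [add_mul]
  · filter_upwards [hae1, hae2, push_push A hab hbc] with ω g1 g2 g3 hω
    have hω1 : ω ∈ B1 := (hB2 hω).1
    obtain ⟨k1, k2, k3⟩ := g1 hω1
    obtain ⟨l1, l2, l3⟩ := g2 hω
    refine ⟨fun z => (l1 z).trans (g3 w w1 k1 z), fun z hz => ?_, ?_⟩
    · obtain ⟨y, hy, hyz⟩ := l2 z hz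
      obtain ⟨x, hx, hxy⟩ := k2 y hy
      exact ⟨x, hx, lat y, hxy, hyz⟩
    · calc q' * q * tot w ω = q' * (q * tot w ω) := by ring
        _ ≤ q' * tot w1 ω := by gcongr
        _ ≤ _ := l3

lemma Carry.mono {lat : S → ℤ} {a b : ℕ} {R R' : ℤ → ℤ → Prop} {q q' η η' : ℝ≥0∞}
    (h : Carry A lat a b R q η) (hR : ∀ x y, R x y → R' x y) (hq : q' ≤ q) (hη : η ≤ η') :
    Carry A lat a b R' q' η' := by
  intro w hw B hB hfin
  obtain ⟨w1, B1, hw1, hB1, hB1m, hP1, hae1⟩ := h w hw B hB hfin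
  refine ⟨w1, B1, hw1, hB1, hB1m, hP1.trans (by gcongr), ?_⟩
  filter_upwards [hae1] with ω g1 hω
  obtain ⟨k1, k2, k3⟩ := g1 hω
  exact ⟨k1, fun y hy => by
    obtain ⟨x, hx, hxy⟩ := k2 y hy
    exact ⟨x, hx, hR _ _ hxy⟩, le_trans (by gcongr) k3⟩

variable (A) in
/-- **seeds**: `n + 1` travel phases of the right half, the left halves are carried statically -/
theorem seeds (lat : S → ℤ) {Δ Δ' : ℤ} (hΔ : 0 ≤ Δ) (hΔ' : 0 ≤ Δ') {qS qT ηS ηT : ℝ≥0∞} (hqS : qS ≤ 1) (hqT : qT ≤ 1) :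
    ∀ (n : ℕ) (Lv : ℕ → ℕ), Monotone Lv →
    (∀ p ≤ n, Carry A lat (Lv p) (Lv (p + 1)) (fun x y => x + Δ' ≤ y) qT ηT) →
    (∀ p ≤ n, Carry A lat (Lv p) (Lv (n + 1)) (fun x y => |y - x| ≤ Δ) qS ηS) →
    ∀ w, A.Wt (Lv 0) w → ∀ B, MeasurableSet[A.F (Lv 0)] B → (∀ ω ∈ B, tot w ω ≠ ∞) →
    ∃ (W : Fin (n + 2) → Ω → S → ℝ≥0∞) (B' : Set Ω), (∀ j, A.Wt (Lv (n + 1)) (W j)) ∧ B' ⊆ B ∧
      MeasurableSet[A.F (Lv (n + 1))] B' ∧ P (B \ B') ≤ (n + 1 : ℕ) * (ηS + ηT) * P B ∧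
      ∀ᵐ ω ∂P, ω ∈ B' → (∀ j y, W j ω y ≤ A.push (Lv 0) (Lv (n + 1)) w ω y) ∧
        (∀ j y, W j ω y ≠ 0 → ∃ x, w ω x ≠ 0 ∧ lat x - Δ ≤ lat y) ∧
        (∀ j, (qS / 2) * (qT / 2) ^ (n + 1) * tot w ω ≤ tot (W j) ω) ∧
        (∀ i j, i < j → ∀ x y, W i ω x ≠ 0 → W j ω y ≠ 0 → lat x + (Δ' - 2 * Δ) ≤ lat y) := by
  have hq2 : qT / 2 ≤ 1 := (ENNReal.half_le_self).trans hqT
  intro n
  induction n with
  | zero =>
    intro Lv hLv hT hS w hw B hB hfin
    have h01 : Lv 0 ≤ Lv 1 := hLv (by omega)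
    obtain ⟨m, hm, hlo, hhi, hmed⟩ := med A hw lat
    have hfl : ∀ ω ∈ B, tot (lo lat m w) ω ≠ ∞ := fun ω hω =>
      ne_top_of_le_ne_top (hfin ω hω) (tot_mono (lo_le lat m w ω))
    have hfh : ∀ ω ∈ B, tot (hi lat m w) ω ≠ ∞ := fun ω hω =>
      ne_top_of_le_ne_top (hfin ω hω) (tot_mono (hi_le lat m w ω))
    obtain ⟨u, B1, hu, hB1, hB1m, hP1, hae1⟩ := hS 0 le_rfl _ hlo B hB hfl
    obtain ⟨t, B2, ht, hB2, hB2m, hP2, hae2⟩ := hT 0 le_rfl _ hhi B hB hfh
    refine ⟨Fin.cons u (fun _ => t), B1 ∩ B2, ?_, inter_subset_left.trans hB1, hB1m.inter hB2m, ?_, ?_⟩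
    · intro j
      refine Fin.cases ?_ (fun i => ?_) j
      · simpa using hu
      · simpa using ht
    · have h1 : B \ (B1 ∩ B2) ⊆ (B \ B1) ∪ (B \ B2) := by
        intro ω hω
        by_cases h3 : ω ∈ B1
        · exact Or.inr ⟨hω.1, fun h4 => hω.2 ⟨h3, h4⟩⟩
        · exact Or.inl ⟨hω.1, h3⟩
      calc P (B \ (B1 ∩ B2)) ≤ P (B \ B1) + P (B \ B2) := (measure_mono h1).trans (measure_union_le _ _)
        _ ≤ ηS * P B + ηT * P B := add_le_add hP1 hP2
        _ = _ := by push_cast; ring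
    · filter_upwards [hae1, hae2] with ω g1 g2 hω
      obtain ⟨a1, a2, a3⟩ := g1 hω.1
      obtain ⟨b1, b2, b3⟩ := g2 hω.2
      have hωB : ω ∈ B := hB1 hω.1
      obtain ⟨m1, m2⟩ := hmed ω (hfin ω hωB)
      have hm1 : tot w ω / 2 ≤ tot (lo lat m w) ω := ENNReal.div_le_of_le_mul (by rwa [mul_comm])
      have hm2 : tot w ω / 2 ≤ tot (hi lat m w) ω := ENNReal.div_le_of_le_mul (by rwa [mul_comm])
      refine ⟨?_, ?_, ?_, ?_⟩
      · intro j y
        refine Fin.cases ?_ (fun i => ?_) j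
        · exact (a1 y).trans (push_mono (lo_le lat m w ω) y)
        · exact (b1 y).trans (push_mono (hi_le lat m w ω) y)
      · intro j y
        refine Fin.cases (fun hy => ?_) (fun i hy => ?_) j
        · obtain ⟨x, hx, hxy⟩ := a2 y hy
          have := abs_le.1 hxy
          exact ⟨x, (lo_ne hx).2, by linarith [this.1]⟩
        · obtain ⟨x, hx, hxy⟩ := b2 y hy
          exact ⟨x, (hi_ne hx).2, by linarith⟩
      · intro j
        refine Fin.cases ?_ (fun i => ?_) j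
        · calc (qS / 2) * (qT / 2) ^ (0 + 1) * tot w ω ≤ (qS / 2) * 1 * tot w ω := by
                gcongr
                rw [zero_add, pow_one]; exact hq2
            _ = qS * (tot w ω / 2) := by rw [ENNReal.div_eq_inv_mul, ENNReal.div_eq_inv_mul]; ring
            _ ≤ qS * tot (lo lat m w) ω := by gcongr
            _ ≤ _ := a3
        · calc (qS / 2) * (qT / 2) ^ (0 + 1) * tot w ω ≤ 1 * (qT / 2) * tot w ω := by
                gcongr
                · exact (ENNReal.half_le_self).trans hqS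
                · rw [zero_add, pow_one]
            _ = qT * (tot w ω / 2) := by rw [ENNReal.div_eq_inv_mul, ENNReal.div_eq_inv_mul]; ring
            _ ≤ qT * tot (hi lat m w) ω := by gcongr
            _ ≤ _ := b3
      · intro i j hij x y
        refine Fin.cases (fun hij => ?_) (fun j' hij => ?_) j hij
        · exact absurd hij (Fin.not_lt_zero _)
        refine Fin.cases (fun hij hx hy => ?_) (fun i' hij => ?_) i hij
        · obtain ⟨x0, hx0, hx1⟩ := a2 x hx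
          obtain ⟨y0, hy0, hy1⟩ := b2 y hy
          have c1 := (lo_ne hx0).1
          have c2 := (hi_ne hy0).1
          have c3 := abs_le.1 hx1
          linarith [c3.2]
        · exfalso
          have h1 := Fin.succ_lt_succ_iff.1 hij
          omega
  | succ n ih =>
    intro Lv hLv hT hS w hw B hB hfin
    have h01 : Lv 0 ≤ Lv 1 := hLv (by omega)
    have h1n : Lv 1 ≤ Lv (n + 2) := hLv (by omega)
    obtain ⟨m, hm, hlo, hhi, hmed⟩ := med A hw lat
    have hfl : ∀ ω ∈ B, tot (lo lat m w) ω ≠ ∞ := fun ω hω =>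
      ne_top_of_le_ne_top (hfin ω hω) (tot_mono (lo_le lat m w ω))
    have hfh : ∀ ω ∈ B, tot (hi lat m w) ω ≠ ∞ := fun ω hω =>
      ne_top_of_le_ne_top (hfin ω hω) (tot_mono (hi_le lat m w ω))
    obtain ⟨u, B1, hu, hB1, hB1m, hP1, hae1⟩ := hS 0 (by omega) _ hlo B hB hfl
    obtain ⟨t, B2, ht, hB2, hB2m, hP2, hae2⟩ := hT 0 (by omega) _ hhi B hB hfh
    obtain ⟨N, hN⟩ : ∃ N : Set Ω, N = {ω | tot t ω ≠ ∞} := ⟨_, rfl⟩
    have hNm : MeasurableSet[A.F (Lv 1)] N := by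
      rw [hN]
      exact ht.meas_tot (measurableSet_singleton (∞ : ℝ≥0∞)).compl
    have hsub : ∀ᵐ ω ∂P, ω ∈ B2 → ω ∈ N := by
      filter_upwards [hae2] with ω hω hωB
      rw [hN]
      refine ne_top_of_le_ne_top (hfh ω (hB2 hωB)) ?_
      exact (tot_mono (hω hωB).1).trans (A.tot_push_le h01 _ ω)
    obtain ⟨W, B3, hW, hB3, hB3m, hP3, hae3⟩ := ih (fun p => Lv (p + 1))
      (fun i j hij => hLv (by omega)) (fun p hp => hT (p + 1) (by omega))
      (fun p hp => hS (p + 1) (by omega)) t ht (B2 ∩ N) (hB2m.inter hNm)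
      (fun ω hω => by have := hω.2; rw [hN] at this; exact this)
    refine ⟨Fin.cons u W, B1 ∩ B3, ?_, inter_subset_left.trans hB1, hB1m.inter hB3m, ?_, ?_⟩
    · intro j
      refine Fin.cases ?_ (fun i => ?_) j
      · simpa using hu
      · simpa using hW i
    · have h1 : B \ (B1 ∩ B3) ⊆ ((B \ B1) ∪ (B \ B2)) ∪ (((B2 ∩ N) \ B3) ∪ (B2 \ N)) := by
        intro ω hω
        by_cases h3 : ω ∈ B1
        · have h4 : ω ∉ B3 := fun h4 => hω.2 ⟨h3, h4⟩
          by_cases h5 : ω ∈ B2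
          · by_cases h6 : ω ∈ N
            · exact Or.inr (Or.inl ⟨⟨h5, h6⟩, h4⟩)
            · exact Or.inr (Or.inr ⟨h5, h6⟩)
          · exact Or.inl (Or.inr ⟨hω.1, h5⟩)
        · exact Or.inl (Or.inl ⟨hω.1, h3⟩)
      have h2 : P (B2 \ N) = 0 := by
        refine measure_mono_null (fun ω hω => ?_) (ae_iff.1 hsub)
        exact fun hcon => hω.2 (hcon hω.1)
      calc P (B \ (B1 ∩ B3)) ≤ (P (B \ B1) + P (B \ B2)) + (P ((B2 ∩ N) \ B3) + P (B2 \ N)) :=
            (measure_mono h1).trans ((measure_union_le _ _).trans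
              (add_le_add (measure_union_le _ _) (measure_union_le _ _)))
        _ ≤ (ηS * P B + ηT * P B) + ((n + 1 : ℕ) * (ηS + ηT) * P B + 0) := by
            refine add_le_add (add_le_add hP1 hP2) (add_le_add (hP3.trans ?_) h2.le)
            gcongr
            exact inter_subset_left.trans hB2
        _ = _ := by push_cast; ring
    · filter_upwards [hae1, hae2, hae3, push_push A h01 h1n] with ω g1 g2 g3 g4 hω
      obtain ⟨a1, a2, a3⟩ := g1 hω.1
      have hω2 : ω ∈ B2 := (hB3 hω.2).1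
      obtain ⟨b1, b2, b3⟩ := g2 hω2
      obtain ⟨c1, c2, c3, c4⟩ := g3 hω.2
      have hωB : ω ∈ B := hB1 hω.1
      obtain ⟨m1, m2⟩ := hmed ω (hfin ω hωB)
      have hm1 : tot w ω / 2 ≤ tot (lo lat m w) ω := ENNReal.div_le_of_le_mul (by rwa [mul_comm])
      have hm2 : tot w ω / 2 ≤ tot (hi lat m w) ω := ENNReal.div_le_of_le_mul (by rwa [mul_comm])
      have hbelow : ∀ j y, W j ω y ≠ 0 → ∃ x, hi lat m w ω x ≠ 0 ∧ lat x + Δ' - Δ ≤ lat y := by
        intro j y hy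
        obtain ⟨x, hx, hxy⟩ := c2 j y hy
        obtain ⟨x0, hx0, hx1⟩ := b2 x hx
        exact ⟨x0, hx0, by linarith⟩
      refine ⟨?_, ?_, ?_, ?_⟩
      · intro j y
        refine Fin.cases ?_ (fun i => ?_) j
        · exact (a1 y).trans (push_mono (lo_le lat m w ω) y)
        · refine (c1 i y).trans ?_
          refine (g4 _ t b1 y).trans (push_mono (hi_le lat m w ω) y)
      · intro j y
        refine Fin.cases (fun hy => ?_) (fun i hy => ?_) j
        · obtain ⟨x, hx, hxy⟩ := a2 y hy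
          have := abs_le.1 hxy
          exact ⟨x, (lo_ne hx).2, by linarith [this.1]⟩
        · obtain ⟨x, hx, hxy⟩ := hbelow i y hy
          exact ⟨x, (hi_ne hx).2, by linarith⟩
      · intro j
        refine Fin.cases ?_ (fun i => ?_) j
        · calc (qS / 2) * (qT / 2) ^ (n + 1 + 1) * tot w ω ≤ (qS / 2) * 1 * tot w ω := by
                gcongr
                exact pow_le_one' hq2 _
            _ = qS * (tot w ω / 2) := by rw [ENNReal.div_eq_inv_mul, ENNReal.div_eq_inv_mul]; ring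
            _ ≤ qS * tot (lo lat m w) ω := by gcongr
            _ ≤ _ := a3
        · calc (qS / 2) * (qT / 2) ^ (n + 1 + 1) * tot w ω
                = (qS / 2) * (qT / 2) ^ (n + 1) * (qT * (tot w ω / 2)) := by
                rw [pow_succ, ENNReal.div_eq_inv_mul (a := tot w ω), ENNReal.div_eq_inv_mul (a := qT)]; ring
            _ ≤ (qS / 2) * (qT / 2) ^ (n + 1) * tot t ω := by
                gcongr
                exact (by gcongr : qT * (tot w ω / 2) ≤ qT * tot (hi lat m w) ω).trans b3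
            _ ≤ _ := c3 i
      · intro i j hij x y
        refine Fin.cases (fun hij => ?_) (fun j' hij => ?_) j hij
        · exact absurd hij (Fin.not_lt_zero _)
        refine Fin.cases (fun hij hx hy => ?_) (fun i' hij hx hy => ?_) i hij
        · obtain ⟨x0, hx0, hx1⟩ := a2 x hx
          obtain ⟨y0, hy0, hy1⟩ := hbelow j' y hy
          have d1 := (lo_ne hx0).1
          have d2 := (hi_ne hy0).1
          have d3 := abs_le.1 hx1
          linarith [d3.2]
        · exact c4 i' j' (Fin.succ_lt_succ_iff.1 hij) x y hx hy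

end Crest.Agent.R154.Split931
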