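import Crest.Agent.R154.DensJ_947

/-! Row 154 (helper947), pair frame of 692: the window decomposition `SplitSt`. -/

set_option autoImplicit false

namespace Crest.Agent.R154.J947

open scoped ENNReal
open Crest.Agent.R154.B5A Crest.Agent.R154.FP178

variable {B W : Type*} (Λ : B → ℝ≥0∞) (ht : B → ℕ)

open Classical in
/-- decomposition at the last cut of height `≤ N`. -/
theorem last_cut (h1 : ∀ b, 1 ≤ ht b) (N : ℕ) (f : List B → ℝ≥0∞) :
    ∑' L, (if N < HT ht L then LW Λ L * f L else 0)
      = ∑' P, (if HT ht P ≤ N then LW Λ P * ∑' b, (if N < HT ht P + ht b then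
          Λ b * ∑' R, LW Λ R * f (P ++ b :: R) else 0) else 0) := by
  induction N using Nat.strong_induction_on generalizing f with
  | _ N ih =>
    rw [tsum_list, tsum_list (fun P => if HT ht P ≤ N then LW Λ P * ∑' b, (if N < HT ht P + ht b
      then Λ b * ∑' R, LW Λ R * f (P ++ b :: R) else 0) else 0)]
    simp only [HT_nil, HT_cons, LW_nil, LW_cons, not_lt_zero', if_false, zero_add, Nat.zero_le,
      if_true, one_mul, List.nil_append, List.cons_append]
    rw [← ENNReal.tsum_add]
    refine tsum_congr fun b => ?_
    by_cases hb : N < ht b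
    · have e1 : ∀ L : List B, (if N < ht b + HT ht L then Λ b * LW Λ L * f (b :: L) else 0)
          = Λ b * (LW Λ L * f (b :: L)) := by
        intro L
        rw [if_pos (by omega), mul_assoc]
      have e2 : ∀ P : List B, (if ht b + HT ht P ≤ N then Λ b * LW Λ P * ∑' b', (if N < ht b +
          HT ht P + ht b' then Λ b' * ∑' R, LW Λ R * f (b :: (P ++ b' :: R)) else 0) else 0)
          = 0 := by
        intro P
        rw [if_neg (by omega)]
      simp only [e1, e2, tsum_zero, add_zero, if_pos hb]
      rw [ENNReal.tsum_mul_left]
    · have e1 : ∀ L : List B, (if N < ht b + HT ht L then Λ b * LW Λ L * f (b :: L) else 0)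
          = Λ b * (if N - ht b < HT ht L then LW Λ L * f (b :: L) else 0) := by
        intro L
        by_cases h : N < ht b + HT ht L
        · rw [if_pos h, if_pos (by omega), mul_assoc]
        · rw [if_neg h, if_neg (by omega), mul_zero]
      have e2 : ∀ P : List B, (if ht b + HT ht P ≤ N then Λ b * LW Λ P * ∑' b', (if N < ht b +
          HT ht P + ht b' then Λ b' * ∑' R, LW Λ R * f (b :: (P ++ b' :: R)) else 0) else 0)
          = Λ b * (if HT ht P ≤ N - ht b then LW Λ P * ∑' b', (if N - ht b < HT ht P + ht b' then
            Λ b' * ∑' R, LW Λ R * f (b :: (P ++ b' :: R)) else 0) else 0) := by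
        intro P
        by_cases h : ht b + HT ht P ≤ N
        · rw [if_pos h, if_pos (by omega), mul_assoc]
          congr 2
          refine tsum_congr fun b' => ?_
          by_cases h' : N < ht b + HT ht P + ht b'
          · rw [if_pos h', if_pos (by omega)]
          · rw [if_neg h', if_neg (by omega)]
        · rw [if_neg h, if_neg (by omega), mul_zero]
      simp only [e1, e2, if_neg hb, zero_add]
      rw [ENNReal.tsum_mul_left, ENNReal.tsum_mul_left]
      congr 1
      exact ih (N - ht b) (by have := h1 b; omega) (fun L => f (b :: L))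

open Classical in
/-- **(S)** -/
theorem split_st : SplitSt Λ ht := by
  intro h1 hΛ hU1 n a g F P i hn hig hF hP
  set f : List B → ℝ≥0∞ := fun L => if HT ht L = n then F L else 0 with hf
  have hf1 : ∀ L, f L ≤ 1 := by
    intro L; rw [hf]; simp only; split_ifs
    · exact hF L
    · exact zero_le
  -- total mass of the continuations
  have hmass : ∀ (X : List B), ∑' R, LW Λ R * f (X ++ R) ≤ 1 := by
    intro X
    refine le_trans ?_ (hU1 (n - HT ht X))
    rw [U]
    refine ENNReal.tsum_le_tsum fun R => ?_
    by_cases h : HT ht (X ++ R) = n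
    · rw [HT_append] at h
      rw [if_pos (by omega)]
      calc LW Λ R * f (X ++ R) ≤ LW Λ R * 1 := mul_le_mul' le_rfl (hf1 _)
        _ = _ := mul_one _
    · rw [hf]; simp only [if_neg h, mul_zero]; exact zero_le
  set Q : List B → ℝ≥0∞ := fun L1 => ∑' Lp : List B, (if HT ht Lp ≤ g then
    LW Λ Lp * tail Λ ht (g - HT ht Lp) * P L1 Lp else 0) with hQ
  have htail : ∑' Lp : List B, (if HT ht Lp < g - i then LW Λ Lp * tail Λ ht (g - HT ht Lp) else 0)
      ≤ tl Λ ht i := by
    have : ∀ L : List B, (if HT ht L < g - i then LW Λ L * tail Λ ht (g - HT ht L) else 0)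
        = ∑ k ∈ Finset.range (g - i), (if HT ht L = k then LW Λ L else 0) * tail Λ ht (g - k) := by
      intro L
      by_cases h : HT ht L < g - i
      · rw [if_pos h, Finset.sum_eq_single (HT ht L)]
        · rw [if_pos rfl]
        · intro k _ hk; rw [if_neg hk.symm, zero_mul]
        · intro hn; exact absurd (Finset.mem_range.2 h) hn
      · rw [if_neg h, Finset.sum_eq_zero]
        intro k hk
        have := Finset.mem_range.1 hk
        rw [if_neg (by omega), zero_mul]
    rw [tsum_congr this, Summable.tsum_finsetSum (fun _ _ => ENNReal.summable)]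
    calc ∑ k ∈ Finset.range (g - i), ∑' L, (if HT ht L = k then LW Λ L else 0) * tail Λ ht (g - k)
        ≤ ∑ k ∈ Finset.range (g - i), tail Λ ht (g - k) := by
          refine Finset.sum_le_sum fun k _ => ?_
          rw [ENNReal.tsum_mul_right]
          calc (∑' L, if HT ht L = k then LW Λ L else 0) * tail Λ ht (g - k)
              ≤ 1 * tail Λ ht (g - k) := mul_le_mul_left (hU1 k) _
            _ = _ := one_mul _
      _ = ∑ k ∈ Finset.range (g - i), tail Λ ht (i + (k + 1)) := by
          rw [← Finset.sum_range_reflect (fun k => tail Λ ht (g - k))]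
          refine Finset.sum_congr rfl fun k hk => ?_
          have := Finset.mem_range.1 hk
          congr 1
          omega
      _ ≤ ∑' k, tail Λ ht (i + (k + 1)) := ENNReal.sum_le_tsum _
      _ ≤ ∑' k, tail Λ ht (i + k) :=
          ENNReal.tsum_comp_le_tsum_of_injective (add_left_injective 1)
            (fun k => tail Λ ht (i + k))
  -- one `L1`
  have hone : ∀ L1, fp ht a L1 → HT ht L1 ≤ a + i →
      ∑' L2, LW Λ L2 * f (L1 ++ L2) ≤ tl Λ ht i + Q L1 := by
    intro L1 hfp hL1
    have e0 : ∑' L2, LW Λ L2 * f (L1 ++ L2)
        = ∑' L2, (if g < HT ht L2 then LW Λ L2 * f (L1 ++ L2) else 0) := by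
      refine tsum_congr fun L2 => ?_
      by_cases h : g < HT ht L2
      · rw [if_pos h]
      · rw [if_neg h, hf]
        simp only
        rw [if_neg, mul_zero]
        rw [HT_append]; omega
    rw [e0, last_cut Λ ht h1 g (fun L2 => f (L1 ++ L2))]
    refine le_trans (ENNReal.tsum_le_tsum (g := fun Lp => (if HT ht Lp < g - i then LW Λ Lp *
      tail Λ ht (g - HT ht Lp) else 0) + (if HT ht Lp ≤ g then
      LW Λ Lp * tail Λ ht (g - HT ht Lp) * P L1 Lp else 0)) fun Lp => ?_) ?_
    · by_cases hLp : HT ht Lp ≤ g
      · rw [if_pos hLp, if_pos hLp]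
        by_cases hs : HT ht Lp < g - i
        · rw [if_pos hs]
          refine le_trans ?_ le_self_add
          refine mul_le_mul' le_rfl ?_
          rw [tail]
          refine ENNReal.tsum_le_tsum fun b => ?_
          by_cases hb : g < HT ht Lp + ht b
          · rw [if_pos hb, if_pos (by omega)]
            have := hmass (L1 ++ (Lp ++ [b]))
            simp only [List.append_assoc, List.cons_append, List.nil_append] at this
            calc Λ b * ∑' R, LW Λ R * f (L1 ++ (Lp ++ b :: R)) ≤ Λ b * 1 :=
                  mul_le_mul' le_rfl this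
              _ = _ := mul_one _
          · rw [if_neg hb]; exact zero_le
        · rw [if_neg hs, zero_add, mul_assoc]
          refine mul_le_mul' le_rfl ?_
          rw [tail, ← ENNReal.tsum_mul_right]
          refine ENNReal.tsum_le_tsum fun b => ?_
          by_cases hb : g < HT ht Lp + ht b
          · rw [if_pos hb, if_pos (by omega)]
            refine mul_le_mul' le_rfl ?_
            calc ∑' R, LW Λ R * f (L1 ++ (Lp ++ b :: R))
                ≤ ∑' R, (if HT ht R = n - HT ht (L1 ++ (Lp ++ [b])) then LW Λ R else 0)
                    * P L1 Lp := by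
                  refine ENNReal.tsum_le_tsum fun R => ?_
                  by_cases h : HT ht (L1 ++ (Lp ++ b :: R)) = n
                  · have h' := h
                    simp only [HT_append, HT_cons] at h'
                    rw [if_pos (by simp only [HT_append, HT_cons, HT_nil]; omega)]
                    refine mul_le_mul' le_rfl ?_
                    rw [hf]; simp only [if_pos h]
                    exact hP L1 Lp (b :: R) ((FPL_iff ht a L1).2 hfp) hL1 (by omega) hLp h
                  · rw [hf]; simp only [if_neg h, mul_zero]; exact zero_le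
              _ = (∑' R, (if HT ht R = n - HT ht (L1 ++ (Lp ++ [b])) then LW Λ R else 0))
                    * P L1 Lp := ENNReal.tsum_mul_right
              _ ≤ 1 * P L1 Lp := mul_le_mul_left (hU1 _) _
              _ = _ := one_mul _
          · rw [if_neg hb]; exact zero_le
      · rw [if_neg hLp]; exact zero_le
    · rw [ENNReal.tsum_add]
      exact add_le_add htail le_rfl
  -- first passage decomposition
  have e1 : (∑' L : List B, if HT ht L = n then LW Λ L * F L else 0)
      = ∑' L, (if a ≤ HT ht L then LW Λ L * f L else 0) := by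
    refine tsum_congr fun L => ?_
    by_cases h : HT ht L = n
    · rw [if_pos h, if_pos (by omega), hf]; simp only [if_pos h]
    · rw [if_neg h, hf]; simp only [if_neg h, mul_zero, ite_self]
  rw [e1, split Λ ht h1 a f]
  calc ∑' L1, (if fp ht a L1 then LW Λ L1 * ∑' L2, LW Λ L2 * f (L1 ++ L2) else 0)
      ≤ ∑' L1, ((if fp ht a L1 ∧ a + i < HT ht L1 then LW Λ L1 else 0)
          + ((if fp ht a L1 then LW Λ L1 else 0) * tl Λ ht i
          + (if fp ht a L1 then LW Λ L1 * Q L1 else 0))) := by
        refine ENNReal.tsum_le_tsum fun L1 => ?_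
        by_cases hfp : fp ht a L1
        · by_cases hL1 : HT ht L1 ≤ a + i
          · rw [if_pos hfp, if_neg (by rintro ⟨_, h⟩; omega), if_pos hfp, if_pos hfp, zero_add,
              ← mul_add]
            exact mul_le_mul' le_rfl (hone L1 hfp hL1)
          · rw [if_pos hfp, if_pos ⟨hfp, by omega⟩]
            refine le_trans ?_ le_self_add
            calc LW Λ L1 * ∑' L2, LW Λ L2 * f (L1 ++ L2) ≤ LW Λ L1 * 1 :=
                  mul_le_mul' le_rfl (hmass L1)
              _ = _ := mul_one _
        · rw [if_neg hfp]; exact zero_le
    _ ≤ tl Λ ht i + (tl Λ ht i + ∑' L1, (if fp ht a L1 then LW Λ L1 * Q L1 else 0)) := by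
        rw [ENNReal.tsum_add, ENNReal.tsum_add]
        refine add_le_add (overshoot Λ ht h1 hU1 i a) (add_le_add ?_ le_rfl)
        rw [ENNReal.tsum_mul_right]
        calc (∑' L1, if fp ht a L1 then LW Λ L1 else 0) * tl Λ ht i ≤ 1 * tl Λ ht i :=
              mul_le_mul_left (sum_FP Λ ht h1 hΛ.le a) _
          _ = _ := one_mul _
    _ = 2 * tl Λ ht i + ∑' L1, (if fp ht a L1 then LW Λ L1 * Q L1 else 0) := by ring
    _ = _ := by
        congr 1
        have e2 : ∀ L1, Q L1 = ∑ h ∈ Finset.range (g + 1), tail Λ ht (g - h) *
            ∑' Lp : List B, (if HT ht Lp = h then LW Λ Lp * P L1 Lp else 0) := by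
          intro L1
          rw [hQ]
          simp only
          have : ∀ L : List B, (if HT ht L ≤ g then LW Λ L * tail Λ ht (g - HT ht L) * P L1 L
              else 0) = ∑ k ∈ Finset.range (g + 1), tail Λ ht (g - k) *
                (if HT ht L = k then LW Λ L * P L1 L else 0) := by
            intro L
            by_cases h : HT ht L ≤ g
            · rw [if_pos h, Finset.sum_eq_single (HT ht L)]
              · rw [if_pos rfl]; ring
              · intro k _ hk; rw [if_neg hk.symm, mul_zero]
              · intro hn; exact absurd (Finset.mem_range.2 (by omega)) hn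
            · rw [if_neg h, Finset.sum_eq_zero]
              intro k hk
              have := Finset.mem_range.1 hk
              rw [if_neg (by omega), mul_zero]
          rw [tsum_congr this, Summable.tsum_finsetSum (fun _ _ => ENNReal.summable)]
          refine Finset.sum_congr rfl fun k _ => ?_
          rw [ENNReal.tsum_mul_left]
        have e3 : ∀ L1, (if fp ht a L1 then LW Λ L1 * Q L1 else 0)
            = ∑ h ∈ Finset.range (g + 1), tail Λ ht (g - h) * (if FPL ht a L1 then LW Λ L1 *
              ∑' Lp : List B, (if HT ht Lp = h then LW Λ Lp * P L1 Lp else 0) else 0) := by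
          intro L1
          by_cases h : fp ht a L1
          · rw [if_pos h, e2, Finset.mul_sum]
            refine Finset.sum_congr rfl fun k _ => ?_
            rw [if_pos ((FPL_iff ht a L1).2 h)]
            ring
          · rw [if_neg h, Finset.sum_eq_zero]
            intro k _
            rw [if_neg (fun hh => h ((FPL_iff ht a L1).1 hh)), mul_zero]
        rw [tsum_congr e3, Summable.tsum_finsetSum (fun _ _ => ENNReal.summable)]
        refine Finset.sum_congr rfl fun k _ => ?_
        rw [ENNReal.tsum_mul_left]

end Crest.Agent.R154.J947
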