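import Crest.Agent.R154.Multi_993

/-!
# Row 154: the recursion of stages (T1)

`c m` = cost at unit `m`, nondecreasing, adapted.  `D a b` = "the stage started at `a` is alive at
`b`" (`F b`-measurable, antitone in `b`, cost `≤ R1` while alive).
-/

set_option autoImplicit false
set_option linter.unusedVariables false
set_option linter.deprecated false

open MeasureTheory ENNReal Crest.Agent.R154.Sun95 Crest.Agent.R154.Multi993

namespace Crest.Agent.R154.Stage993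

variable {Ω : Type*} {m0 : MeasurableSpace Ω} {P : Measure Ω}

/-- steep interval of `n` units above `b + n` -/
def St (c : ℕ → Ω → ℝ) (X : ℝ) (b n : ℕ) : Set Ω :=
  {ω | (n : ℝ) * X ≤ c (b + 2 * n) ω - c (b + n) ω}

/-- `s` is the first level at which the stage from `a` is not alive -/
def Fst (D : ℕ → ℕ → Set Ω) (a s : ℕ) : Set Ω := (D a s)ᶜ ∩ {ω | a < s → ω ∈ D a (s - 1)}

/-- a block starts at `b` -/
noncomputable def Wf (c : ℕ → Ω → ℝ) (X θ : ℝ) (n0 K : ℕ) (z : ℕ → Ω → ℝ≥0∞) (b : ℕ) (ω : Ω) :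
    ℝ≥0∞ :=
  ∑ n ∈ (Finset.Icc n0 K).filter (fun n => b + 2 * n ≤ K),
    (St c X b n).indicator
      (fun ω => ENNReal.ofReal (Real.exp (2 * θ * (n * X))) * z (b + 2 * n) ω) ω

/-- a stage starts at `a` -/
noncomputable def Vf (c : ℕ → Ω → ℝ) (X θ : ℝ) (n0 K : ℕ) (D : ℕ → ℕ → Set Ω) (R1 R2 : ℝ)
    (z : ℕ → Ω → ℝ≥0∞) (a : ℕ) (ω : Ω) : ℝ≥0∞ :=
  ENNReal.ofReal (Real.exp (θ * R1)) +
    (∑ s ∈ Finset.Icc a K, (Fst D a s).indicator
      (fun ω => ENNReal.ofReal (Real.exp (θ * (R1 + R2 / 2))) * z s ω) ω +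
    ∑ b ∈ Finset.Icc a K, (D a b).indicator
      (fun ω => ENNReal.ofReal (Real.exp (θ * R1)) * Wf c X θ n0 K z b ω) ω)

/-- the recursion (fuel `j`) -/
noncomputable def Z (c : ℕ → Ω → ℝ) (X θ : ℝ) (n0 K : ℕ) (D : ℕ → ℕ → Set Ω) (R1 R2 : ℝ) :
    ℕ → ℕ → Ω → ℝ≥0∞
  | 0, _ => fun _ => 1
  | j + 1, t => fun ω => 1 + (ENNReal.ofReal (Real.exp (θ * (R2 / 2))) *
      Vf c X θ n0 K D R1 R2 (Z c X θ n0 K D R1 R2 j) (t + 1) ω +
        Wf c X θ n0 K (Z c X θ n0 K D R1 R2 j) t ω)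

/-- steep units of `[t, K]` are covered by disjoint blocks -/
inductive Cov (c : ℕ → Ω → ℝ) (X : ℝ) (n0 K : ℕ) (R2 : ℝ) (ω : Ω) : ℕ → Prop
  | top : Cov c X n0 K R2 ω K
  | step (t : ℕ) (h1 : t < K) (h2 : c (t + 1) ω - c t ω < R2 / 2)
      (h3 : Cov c X n0 K R2 ω (t + 1)) : Cov c X n0 K R2 ω t
  | block (t n : ℕ) (h1 : n0 ≤ n) (h2 : t + 2 * n ≤ K) (h3 : ω ∈ St c X t n)
      (h4 : c (t + 2 * n) ω - c t ω < 2 * (n * X)) (h5 : Cov c X n0 K R2 ω (t + 2 * n)) :
      Cov c X n0 K R2 ω t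

theorem Cov.le {c : ℕ → Ω → ℝ} {X : ℝ} {n0 K : ℕ} {R2 : ℝ} {ω : Ω} {t : ℕ}
    (h : Cov c X n0 K R2 ω t) : t ≤ K := by
  cases h with
  | top => exact le_rfl
  | step t h1 h2 h3 => exact h1.le
  | block t n h1 h2 h3 h4 h5 => omega

theorem le_Wf {c : ℕ → Ω → ℝ} {X θ : ℝ} {n0 K : ℕ} {z : ℕ → Ω → ℝ≥0∞} {b n : ℕ} {ω : Ω}
    (h1 : n0 ≤ n) (h2 : b + 2 * n ≤ K) (h3 : ω ∈ St c X b n) :
    ENNReal.ofReal (Real.exp (2 * θ * (n * X))) * z (b + 2 * n) ω ≤ Wf c X θ n0 K z b ω := by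
  unfold Wf
  have hmem : n ∈ (Finset.Icc n0 K).filter (fun n => b + 2 * n ≤ K) := by
    rw [Finset.mem_filter, Finset.mem_Icc]
    exact ⟨⟨h1, by omega⟩, h2⟩
  refine le_trans ?_ (Finset.single_le_sum
    (f := fun n : ℕ => (St c X b n).indicator
      (fun ω => ENNReal.ofReal (Real.exp (2 * θ * (n * X))) * z (b + 2 * n) ω) ω)
      (fun _ _ => zero_le) hmem)
  simp only [Set.indicator_of_mem h3]
  exact le_rfl

theorem exp_mul_le {x y : ℝ} {v : ℝ≥0∞} {w : ℝ} (h : ENNReal.ofReal (Real.exp y) ≤ v)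
    (hx : w ≤ x + y) : ENNReal.ofReal (Real.exp w) ≤ ENNReal.ofReal (Real.exp x) * v := by
  calc ENNReal.ofReal (Real.exp w) ≤ ENNReal.ofReal (Real.exp (x + y)) :=
        ENNReal.ofReal_le_ofReal (Real.exp_le_exp.2 hx)
    _ = ENNReal.ofReal (Real.exp x) * ENNReal.ofReal (Real.exp y) := by
        rw [Real.exp_add, ENNReal.ofReal_mul (Real.exp_pos _).le]
    _ ≤ _ := mul_le_mul_right h _

theorem detV {c : ℕ → Ω → ℝ} {X θ : ℝ} {n0 K : ℕ} {D : ℕ → ℕ → Set Ω} {R1 R2 : ℝ}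
    (hθ : 0 ≤ θ) (hR1 : 0 ≤ R1) (hR2 : 0 ≤ R2)
    (hDc : ∀ a b, a ≤ b → b ≤ K → ∀ ω ∈ D a b, c b ω - c a ω ≤ R1)
    {z : ℕ → Ω → ℝ≥0∞} {ω : Ω} {a : ℕ}
    (hz : ∀ p, a ≤ p → p ≤ K → Cov c X n0 K R2 ω p →
      ENNReal.ofReal (Real.exp (θ * (c K ω - c p ω))) ≤ z p ω) :
    ∀ p, Cov c X n0 K R2 ω p → a ≤ p → (a < p → ω ∈ D a (p - 1)) →
      c p ω - c a ω ≤ R1 + R2 / 2 →
      ENNReal.ofReal (Real.exp (θ * (c K ω - c a ω))) ≤ Vf c X θ n0 K D R1 R2 z a ω := by
  -- the failing case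
  have hfail : ∀ p, Cov c X n0 K R2 ω p → a ≤ p → (a < p → ω ∈ D a (p - 1)) →
      c p ω - c a ω ≤ R1 + R2 / 2 → ω ∉ D a p →
      ENNReal.ofReal (Real.exp (θ * (c K ω - c a ω))) ≤ Vf c X θ n0 K D R1 R2 z a ω := by
    intro p hp hap h1 h2 hD
    have hmem : p ∈ Finset.Icc a K := Finset.mem_Icc.2 ⟨hap, hp.le⟩
    have hF : ω ∈ Fst D a p := ⟨hD, h1⟩
    unfold Vf
    refine le_trans ?_ (le_add_left (le_add_right (Finset.single_le_sum
      (f := fun s : ℕ => (Fst D a s).indicator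
        (fun ω => ENNReal.ofReal (Real.exp (θ * (R1 + R2 / 2))) * z s ω) ω)
        (fun _ _ => zero_le) hmem)))
    simp only [Set.indicator_of_mem hF]
    refine exp_mul_le (hz p hap hp.le hp) ?_
    have := mul_le_mul_of_nonneg_left h2 hθ
    linarith
  intro p hp
  induction hp with
  | top =>
    intro hap h1 h2
    by_cases hD : ω ∈ D a K
    · unfold Vf
      refine le_add_right (ENNReal.ofReal_le_ofReal (Real.exp_le_exp.2 ?_))
      exact mul_le_mul_of_nonneg_left (hDc a K hap le_rfl ω hD) hθ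
    · exact hfail K Cov.top hap h1 h2 hD
  | step t g1 g2 g3 ih =>
    intro hap h1 h2
    by_cases hD : ω ∈ D a t
    · refine ih (by omega) (fun _ => by rwa [Nat.add_sub_cancel]) ?_
      have := hDc a t hap g1.le ω hD
      linarith
    · exact hfail t (Cov.step t g1 g2 g3) hap h1 h2 hD
  | block t n g1 g2 g3 g4 g5 ih =>
    intro hap h1 h2
    by_cases hD : ω ∈ D a t
    · have hmem : t ∈ Finset.Icc a K := Finset.mem_Icc.2 ⟨hap, by omega⟩
      have h3 := hDc a t hap (by omega) ω hD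
      unfold Vf
      refine le_trans ?_ (le_add_left (le_add_left (Finset.single_le_sum
        (f := fun b : ℕ => (D a b).indicator
          (fun ω => ENNReal.ofReal (Real.exp (θ * R1)) * Wf c X θ n0 K z b ω) ω)
          (fun _ _ => zero_le) hmem)))
      simp only [Set.indicator_of_mem hD]
      have h4 : ENNReal.ofReal (Real.exp (2 * θ * (n * X) + θ * (c K ω - c (t + 2 * n) ω))) ≤
          Wf c X θ n0 K z t ω := by
        refine le_trans ?_ (le_Wf g1 g2 g3)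
        exact exp_mul_le (hz (t + 2 * n) (by omega) g2 g5) le_rfl
      refine exp_mul_le h4 ?_
      have h5 := mul_le_mul_of_nonneg_left h3 hθ
      have h6 := mul_le_mul_of_nonneg_left g4.le hθ
      linarith
    · exact hfail t (Cov.block t n g1 g2 g3 g4 g5) hap h1 h2 hD

theorem detZ {c : ℕ → Ω → ℝ} {X θ : ℝ} {n0 K : ℕ} {D : ℕ → ℕ → Set Ω} {R1 R2 : ℝ}
    (hθ : 0 ≤ θ) (hR1 : 0 ≤ R1) (hR2 : 0 ≤ R2) (hn0 : 1 ≤ n0)
    (hDc : ∀ a b, a ≤ b → b ≤ K → ∀ ω ∈ D a b, c b ω - c a ω ≤ R1) {ω : Ω} :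
    ∀ j t, K ≤ t + j → Cov c X n0 K R2 ω t →
      ENNReal.ofReal (Real.exp (θ * (c K ω - c t ω))) ≤ Z c X θ n0 K D R1 R2 j t ω := by
  intro j
  induction j with
  | zero =>
    intro t ht hc
    have h1 := hc.le
    have h2 : t = K := by omega
    subst h2
    simp [Z]
  | succ j ih =>
    intro t ht hc
    simp only [Z]
    cases hc with
    | top => simp
    | step t g1 g2 g3 =>
      refine le_add_left (le_add_right ?_)
      have hV : ENNReal.ofReal (Real.exp (θ * (c K ω - c (t + 1) ω))) ≤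
          Vf c X θ n0 K D R1 R2 (Z c X θ n0 K D R1 R2 j) (t + 1) ω := by
        refine detV hθ hR1 hR2 hDc (fun p hp1 hp2 hp3 => ih p (by omega) hp3) (t + 1) g3 le_rfl
          (fun h => absurd h (lt_irrefl _)) ?_
        have : 0 ≤ R1 + R2 / 2 := by positivity
        linarith
      refine exp_mul_le hV ?_
      have := mul_le_mul_of_nonneg_left g2.le hθ
      linarith
    | block t n g1 g2 g3 g4 g5 =>
      refine le_add_left (le_add_left ?_)
      refine le_trans ?_ (le_Wf g1 g2 g3)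
      refine exp_mul_le (ih (t + 2 * n) (by omega) g5) ?_
      have := mul_le_mul_of_nonneg_left g4.le hθ
      linarith

/-- the blocks, chosen from the top -/
theorem exists_cov {c : ℕ → Ω → ℝ} (hmono : ∀ ω, Monotone fun m => c m ω) {X : ℝ} {n0 J : ℕ}
    {R2 : ℝ} (hn0 : 1 ≤ n0) (hnR : n0 * X ≤ R2 / 2) (hJ : 4 * n0 ≤ J) {ω : Ω}
    (hno : ∀ e n : ℕ, J < e → e ≤ 2 * J → e < 4 * n → 2 * n ≤ e →
      c e ω - c (e - n) ω < n * X) :
    ∀ d e, e = J + d → e ≤ 2 * J → Cov c X n0 (2 * J) R2 ω e →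
      Cov c X n0 (2 * J) R2 ω J ∨ ∃ b n, b < J ∧ J < b + 2 * n ∧ n0 ≤ n ∧ b + 2 * n ≤ 2 * J ∧
        ω ∈ St c X b n ∧ c (b + 2 * n) ω - c b ω < 2 * (n * X) ∧
        Cov c X n0 (2 * J) R2 ω (b + 2 * n) := by
  intro d
  induction d using Nat.strong_induction_on with
  | _ d ih =>
    intro e he he2 hc
    by_cases hd : d = 0
    · left
      rw [he, hd, Nat.add_zero] at hc
      exact hc
    obtain ⟨e', rfl⟩ : ∃ e', e = e' + 1 := ⟨e - 1, by omega⟩
    by_cases hZ : c (e' + 1) ω - c e' ω < R2 / 2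
    · exact ih (d - 1) (by omega) e' (by omega) (by omega)
        (Cov.step e' (by omega) hZ hc)
    push Not at hZ
    set e := e' + 1 with he'
    let Q : ℕ → Prop := fun n => (n : ℝ) * X ≤ c e ω - c (e - n) ω
    have : DecidablePred Q := fun _ => Classical.propDecidable _
    set n := Nat.findGreatest Q (e / 4) with hn
    have he4 : n0 ≤ e / 4 := by omega
    have hQ1 : Q n0 := by
      show (n0 : ℝ) * X ≤ c e ω - c (e - n0) ω
      have h1 : c (e - n0) ω ≤ c e' ω := hmono ω (show e - n0 ≤ e' by omega)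
      linarith
    have hn1 : n0 ≤ n := Nat.le_findGreatest he4 hQ1
    have hQn : Q n := Nat.findGreatest_spec he4 hQ1
    have hnle : n ≤ e / 4 := Nat.findGreatest_le _
    have h4n : 4 * n ≤ e := by omega
    have hcost : c e ω - c (e - 2 * n) ω < 2 * (n * X) := by
      by_cases h2n : 2 * n ≤ e / 4
      · have : ¬ Q (2 * n) := Nat.findGreatest_is_greatest (by omega) h2n
        simp only [Q, not_le] at this
        push_cast at this
        linarith
      · have := hno e (2 * n) (by omega) he2 (by omega) (by omega)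
        push_cast at this
        linarith
    obtain ⟨b, hb⟩ : ∃ b, e = b + 2 * n := ⟨e - 2 * n, by omega⟩
    have e1 : e - 2 * n = b := by omega
    have e2 : e - n = b + n := by omega
    have hSt : ω ∈ St c X b n := by
      show (n : ℝ) * X ≤ c (b + 2 * n) ω - c (b + n) ω
      rw [← hb, ← e2]
      exact hQn
    rw [e1] at hcost
    rw [hb] at hcost hc
    by_cases hbJ : J ≤ b
    · exact ih (b - J) (by omega) b (by omega) (by omega)
        (Cov.block b n hn1 (by omega) hSt hcost hc)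
    · right
      exact ⟨b, n, by omega, by omega, hn1, by omega, hSt, hcost, hc⟩

/-! ### measurability -/

theorem St_meas {F : Filtration ℕ m0} {c : ℕ → Ω → ℝ} (hcm : ∀ m, Measurable[F m] (c m))
    (X : ℝ) (b n : ℕ) : MeasurableSet[F (b + 2 * n)] (St c X b n) :=
  measurableSet_le measurable_const
    (Measurable.sub (hcm (b + 2 * n)) ((hcm (b + n)).mono (F.mono (by omega)) le_rfl))

theorem Fst_meas {F : Filtration ℕ m0} {D : ℕ → ℕ → Set Ω} (hDm : ∀ a b, MeasurableSet[F b] (D a b))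
    (a s : ℕ) : MeasurableSet[F s] (Fst D a s) := by
  unfold Fst
  refine (hDm a s).compl.inter ?_
  by_cases h : a < s
  · have : {ω | a < s → ω ∈ D a (s - 1)} = D a (s - 1) := by
      ext ω; simp [h]
    rw [this]
    exact F.mono (Nat.sub_le s 1) _ (hDm a (s - 1))
  · have : {ω : Ω | a < s → ω ∈ D a (s - 1)} = Set.univ := by
      ext ω; simp [h]
    rw [this]
    exact MeasurableSet.univ

theorem Wf_meas {F : Filtration ℕ m0} {c : ℕ → Ω → ℝ} (hcm : ∀ m, Measurable[F m] (c m))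
    {X θ : ℝ} {n0 K : ℕ} {z : ℕ → Ω → ℝ≥0∞} (hz : ∀ t, Measurable (z t)) (b : ℕ) :
    Measurable (Wf c X θ n0 K z b) := by
  unfold Wf
  refine Finset.measurable_sum _ fun n _ => ?_
  exact Measurable.indicator (Measurable.const_mul (hz _) _) (F.le _ _ (St_meas hcm X b n))

theorem Vf_meas {F : Filtration ℕ m0} {c : ℕ → Ω → ℝ} (hcm : ∀ m, Measurable[F m] (c m))
    {X θ : ℝ} {n0 K : ℕ} {D : ℕ → ℕ → Set Ω} (hDm : ∀ a b, MeasurableSet[F b] (D a b)) {R1 R2 : ℝ}
    {z : ℕ → Ω → ℝ≥0∞} (hz : ∀ t, Measurable (z t)) (a : ℕ) :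
    Measurable (Vf c X θ n0 K D R1 R2 z a) := by
  have h1 : Measurable fun ω => ∑ s ∈ Finset.Icc a K, (Fst D a s).indicator
      (fun ω => ENNReal.ofReal (Real.exp (θ * (R1 + R2 / 2))) * z s ω) ω :=
    Finset.measurable_sum _ fun s _ =>
      Measurable.indicator (Measurable.const_mul (hz _) _) (F.le _ _ (Fst_meas hDm a s))
  have h2 : Measurable fun ω => ∑ b ∈ Finset.Icc a K, (D a b).indicator
      (fun ω => ENNReal.ofReal (Real.exp (θ * R1)) * Wf c X θ n0 K z b ω) ω :=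
    Finset.measurable_sum _ fun b _ =>
      Measurable.indicator (Measurable.const_mul (Wf_meas hcm hz b) _) (F.le _ _ (hDm a b))
  exact (h1.add h2).const_add _

theorem Z_meas {F : Filtration ℕ m0} {c : ℕ → Ω → ℝ} (hcm : ∀ m, Measurable[F m] (c m))
    {X θ : ℝ} {n0 K : ℕ} {D : ℕ → ℕ → Set Ω} (hDm : ∀ a b, MeasurableSet[F b] (D a b)) {R1 R2 : ℝ} :
    ∀ j t, Measurable (Z c X θ n0 K D R1 R2 j t) := by
  intro j
  induction j with
  | zero => intro t; exact measurable_const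
  | succ j ih =>
    intro t
    have h1 := (Vf_meas (X := X) (θ := θ) (n0 := n0) (K := K) (R1 := R1) (R2 := R2)
      hcm hDm ih (t + 1)).const_mul (ENNReal.ofReal (Real.exp (θ * (R2 / 2))))
    have h2 := Wf_meas (X := X) (θ := θ) (n0 := n0) (K := K) hcm ih t
    exact (h1.add h2).const_add _

/-! ### expectations -/

theorem Wf_int {F : Filtration ℕ m0} {c : ℕ → Ω → ℝ} (hcm : ∀ m, Measurable[F m] (c m))
    {X θ : ℝ} {n0 K : ℕ} {z : ℕ → Ω → ℝ≥0∞} (hzm : ∀ t, Measurable (z t)) {zz : ℝ≥0∞} {b : ℕ}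
    (hz : ∀ t, b ≤ t → ∀ B, MeasurableSet[F t] B → ∫⁻ ω in B, z t ω ∂P ≤ zz * P B)
    {B : Set Ω} (hB : MeasurableSet[F b] B) :
    ∫⁻ ω in B, Wf c X θ n0 K z b ω ∂P ≤
      ∑ n ∈ (Finset.Icc n0 K).filter (fun n => b + 2 * n ≤ K),
        ENNReal.ofReal (Real.exp (2 * θ * (n * X))) * (zz * P (B ∩ St c X b n)) := by
  unfold Wf
  rw [lintegral_finset_sum _ fun n _ => Measurable.indicator
    (Measurable.const_mul (hzm (b + 2 * n)) _) (F.le _ _ (St_meas hcm X b n))]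
  refine Finset.sum_le_sum fun n _ => ?_
  have hm : MeasurableSet (St c X b n) := F.le _ _ (St_meas hcm X b n)
  rw [lintegral_indicator hm, Measure.restrict_restrict hm,
    lintegral_const_mul _ (hzm (b + 2 * n)), Set.inter_comm]
  refine mul_le_mul_right (hz (b + 2 * n) (by omega) _ ?_) _
  exact (F.mono (by omega) _ hB : MeasurableSet[F (b + 2 * n)] B).inter (St_meas hcm X b n)

theorem Vf_int {F : Filtration ℕ m0} {c : ℕ → Ω → ℝ} (hcm : ∀ m, Measurable[F m] (c m))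
    {X θ : ℝ} {n0 K : ℕ} {D : ℕ → ℕ → Set Ω} (hDm : ∀ a b, MeasurableSet[F b] (D a b))
    (hDanti : ∀ a b b', a ≤ b → b ≤ b' → D a b' ⊆ D a b) {R1 R2 : ℝ}
    {z : ℕ → Ω → ℝ≥0∞} (hzm : ∀ t, Measurable (z t)) {zz α : ℝ≥0∞} {ρ : ℕ → ℝ≥0∞} {a : ℕ}
    (hz : ∀ t, a ≤ t → ∀ B, MeasurableSet[F t] B → ∫⁻ ω in B, z t ω ∂P ≤ zz * P B)
    (ha : ∀ e, a ≤ e → e ≤ K → ∀ B, MeasurableSet[F (a - 1)] B → P (B ∩ (D a e)ᶜ) ≤ α * P B)
    (hc : ∀ n, n0 ≤ n → ∀ B, MeasurableSet[F (a - 1)] B →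
      ∑ b ∈ (Finset.Icc a K).filter (fun b => b + 2 * n ≤ K),
        P (B ∩ (D a b ∩ St c X b n)) ≤ ρ n * P B)
    {B : Set Ω} (hB : MeasurableSet[F (a - 1)] B) :
    ∫⁻ ω in B, Vf c X θ n0 K D R1 R2 z a ω ∂P ≤
      (ENNReal.ofReal (Real.exp (θ * R1)) +
        (ENNReal.ofReal (Real.exp (θ * (R1 + R2 / 2))) * α +
          ENNReal.ofReal (Real.exp (θ * R1)) *
            ∑ n ∈ Finset.Icc n0 K, ρ n * ENNReal.ofReal (Real.exp (2 * θ * (n * X)))) * zz) *
        P B := by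
  have hBs : ∀ s, a ≤ s → MeasurableSet[F s] B := fun s hs => F.mono (by omega) _ hB
  have m1 : ∀ s, Measurable ((Fst D a s).indicator
      (fun ω => ENNReal.ofReal (Real.exp (θ * (R1 + R2 / 2))) * z s ω)) := fun s =>
    Measurable.indicator (Measurable.const_mul (hzm _) _) (F.le _ _ (Fst_meas hDm a s))
  have m2 : ∀ b, Measurable ((D a b).indicator
      (fun ω => ENNReal.ofReal (Real.exp (θ * R1)) * Wf c X θ n0 K z b ω)) := fun b =>
    Measurable.indicator (Measurable.const_mul (Wf_meas hcm hzm b) _) (F.le _ _ (hDm a b))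
  -- first sum
  have h1 : ∑ s ∈ Finset.Icc a K, ∫⁻ ω in B, (Fst D a s).indicator
      (fun ω => ENNReal.ofReal (Real.exp (θ * (R1 + R2 / 2))) * z s ω) ω ∂P ≤
      ENNReal.ofReal (Real.exp (θ * (R1 + R2 / 2))) * (zz * (α * P B)) := by
    by_cases haK : a ≤ K
    swap
    · rw [Finset.Icc_eq_empty (by omega), Finset.sum_empty]; exact zero_le
    have h2 : ∑ s ∈ Finset.Icc a K, P (B ∩ Fst D a s) ≤ α * P B := by
      refine le_trans ?_ (ha K haK le_rfl B hB)
      rw [← measure_biUnion_finset]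
      · refine measure_mono ?_
        intro ω hω
        rw [Set.mem_iUnion₂] at hω
        obtain ⟨s, hs, hωB, hωs⟩ := hω
        rw [Finset.mem_Icc] at hs
        exact ⟨hωB, fun h => hωs.1 (hDanti a s K hs.1 hs.2 h)⟩
      · intro s hs s' hs' hne
        have hdis : ∀ s s' : ℕ, a ≤ s → s < s' → Disjoint (B ∩ Fst D a s) (B ∩ Fst D a s') := by
          intro s s' has hlt
          rw [Set.disjoint_left]
          rintro ω ⟨_, h5, _⟩ ⟨_, _, h6⟩
          exact h5 (hDanti a s (s' - 1) has (by omega) (h6 (by omega)))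
        rw [Finset.coe_Icc, Set.mem_Icc] at hs hs'
        rcases lt_or_gt_of_ne hne with h | h
        · exact hdis s s' hs.1 h
        · exact (hdis s' s hs'.1 h).symm
      · intro s hs
        rw [Finset.mem_Icc] at hs
        exact (F.le _ _ (hBs s hs.1)).inter (F.le _ _ (Fst_meas hDm a s))
    calc _ ≤ ∑ s ∈ Finset.Icc a K, ENNReal.ofReal (Real.exp (θ * (R1 + R2 / 2))) *
          (zz * P (B ∩ Fst D a s)) := by
          refine Finset.sum_le_sum fun s hs => ?_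
          rw [Finset.mem_Icc] at hs
          have hm : MeasurableSet (Fst D a s) := F.le _ _ (Fst_meas hDm a s)
          rw [lintegral_indicator hm, Measure.restrict_restrict hm,
            lintegral_const_mul _ (hzm s), Set.inter_comm]
          exact mul_le_mul_right (hz s hs.1 _ ((hBs s hs.1).inter (Fst_meas hDm a s))) _
      _ = ENNReal.ofReal (Real.exp (θ * (R1 + R2 / 2))) *
          (zz * ∑ s ∈ Finset.Icc a K, P (B ∩ Fst D a s)) := by
          rw [Finset.mul_sum, Finset.mul_sum]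
      _ ≤ _ := by gcongr
  -- second sum
  have h3 : ∑ b ∈ Finset.Icc a K, ∫⁻ ω in B, (D a b).indicator
      (fun ω => ENNReal.ofReal (Real.exp (θ * R1)) * Wf c X θ n0 K z b ω) ω ∂P ≤
      ENNReal.ofReal (Real.exp (θ * R1)) *
        (zz * ((∑ n ∈ Finset.Icc n0 K, ρ n * ENNReal.ofReal (Real.exp (2 * θ * (n * X)))) *
          P B)) := by
    calc _ ≤ ∑ b ∈ Finset.Icc a K, ENNReal.ofReal (Real.exp (θ * R1)) *
          ∑ n ∈ (Finset.Icc n0 K).filter (fun n => b + 2 * n ≤ K),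
            ENNReal.ofReal (Real.exp (2 * θ * (n * X))) *
              (zz * P (B ∩ (D a b ∩ St c X b n))) := by
          refine Finset.sum_le_sum fun b hb => ?_
          rw [Finset.mem_Icc] at hb
          have hm : MeasurableSet (D a b) := F.le _ _ (hDm a b)
          rw [lintegral_indicator hm, Measure.restrict_restrict hm,
            lintegral_const_mul _ (Wf_meas hcm hzm b), Set.inter_comm]
          refine mul_le_mul_right ((Wf_int hcm hzm (fun t ht => hz t (hb.1.trans ht))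
            ((hBs b hb.1).inter (hDm a b))).trans (le_of_eq ?_)) _
          refine Finset.sum_congr rfl fun n _ => ?_
          rw [Set.inter_assoc]
      _ = ENNReal.ofReal (Real.exp (θ * R1)) * ∑ n ∈ Finset.Icc n0 K,
            ENNReal.ofReal (Real.exp (2 * θ * (n * X))) * (zz *
              ∑ b ∈ (Finset.Icc a K).filter (fun b => b + 2 * n ≤ K),
                P (B ∩ (D a b ∩ St c X b n))) := by
          rw [← Finset.mul_sum]
          congr 1
          simp only [Finset.sum_filter, Finset.mul_sum]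
          rw [Finset.sum_comm]
          refine Finset.sum_congr rfl fun n _ => Finset.sum_congr rfl fun b _ => ?_
          split_ifs <;> simp
      _ ≤ ENNReal.ofReal (Real.exp (θ * R1)) * ∑ n ∈ Finset.Icc n0 K,
            ENNReal.ofReal (Real.exp (2 * θ * (n * X))) * (zz * (ρ n * P B)) := by
          gcongr with n hn
          exact hc n (Finset.mem_Icc.1 hn).1 B hB
      _ = _ := by
          congr 1
          rw [Finset.sum_mul, Finset.mul_sum]
          refine Finset.sum_congr rfl fun n _ => ?_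
          ring
  unfold Vf
  rw [lintegral_add_left measurable_const, lintegral_add_left
    (Finset.measurable_sum _ fun s _ => m1 s), lintegral_finset_sum _ fun s _ => m1 s,
    lintegral_finset_sum _ fun b _ => m2 b, lintegral_const, Measure.restrict_apply_univ]
  calc _ ≤ ENNReal.ofReal (Real.exp (θ * R1)) * P B +
        (ENNReal.ofReal (Real.exp (θ * (R1 + R2 / 2))) * (zz * (α * P B)) +
          ENNReal.ofReal (Real.exp (θ * R1)) *
        (zz * ((∑ n ∈ Finset.Icc n0 K, ρ n * ENNReal.ofReal (Real.exp (2 * θ * (n * X)))) *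
          P B))) := add_le_add le_rfl (add_le_add h1 h3)
    _ = _ := by ring

theorem Z_int {F : Filtration ℕ m0} {c : ℕ → Ω → ℝ} (hcm : ∀ m, Measurable[F m] (c m))
    {X θ : ℝ} {n0 K J : ℕ} {D : ℕ → ℕ → Set Ω} (hDm : ∀ a b, MeasurableSet[F b] (D a b))
    (hDanti : ∀ a b b', a ≤ b → b ≤ b' → D a b' ⊆ D a b) {R1 R2 : ℝ}
    {zz α : ℝ≥0∞} {ζ ρ : ℕ → ℝ≥0∞}
    (ha : ∀ a e, J < a → a ≤ e → e ≤ K → ∀ B, MeasurableSet[F (a - 1)] B →
      P (B ∩ (D a e)ᶜ) ≤ α * P B)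
    (hb : ∀ b n, J ≤ b → n0 ≤ n → b + 2 * n ≤ K → ∀ B, MeasurableSet[F b] B →
      P (B ∩ St c X b n) ≤ ζ n * P B)
    (hc : ∀ a n, J < a → n0 ≤ n → ∀ B, MeasurableSet[F (a - 1)] B →
      ∑ b ∈ (Finset.Icc a K).filter (fun b => b + 2 * n ≤ K),
        P (B ∩ (D a b ∩ St c X b n)) ≤ ρ n * P B)
    (hzz : 1 + (ENNReal.ofReal (Real.exp (θ * (R2 / 2))) *
      (ENNReal.ofReal (Real.exp (θ * R1)) +
        (ENNReal.ofReal (Real.exp (θ * (R1 + R2 / 2))) * α +
          ENNReal.ofReal (Real.exp (θ * R1)) *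
            ∑ n ∈ Finset.Icc n0 K, ρ n * ENNReal.ofReal (Real.exp (2 * θ * (n * X)))) * zz) +
      (∑ n ∈ Finset.Icc n0 K, ζ n * ENNReal.ofReal (Real.exp (2 * θ * (n * X)))) * zz) ≤ zz) :
    ∀ j t, J ≤ t → ∀ B, MeasurableSet[F t] B →
      ∫⁻ ω in B, Z c X θ n0 K D R1 R2 j t ω ∂P ≤ zz * P B := by
  have hzz1 : 1 ≤ zz := le_trans le_self_add hzz
  intro j
  induction j with
  | zero =>
    intro t _ B _
    simp only [Z]
    rw [lintegral_one, Measure.restrict_apply_univ]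
    calc P B = 1 * P B := (one_mul _).symm
      _ ≤ zz * P B := mul_le_mul_left hzz1 _
  | succ j ih =>
    intro t ht B hB
    have hzm := Z_meas (X := X) (θ := θ) (n0 := n0) (K := K) (R1 := R1) (R2 := R2) hcm hDm j
    simp only [Z]
    have mV := (Vf_meas (X := X) (θ := θ) (n0 := n0) (K := K) (R1 := R1) (R2 := R2)
      hcm hDm hzm (t + 1))
    rw [lintegral_add_left measurable_const, lintegral_add_left (mV.const_mul _),
      lintegral_const_mul _ mV, lintegral_const, Measure.restrict_apply_univ]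
    have h1 := Vf_int (P := P) (X := X) (θ := θ) (n0 := n0) (K := K) (R1 := R1) (R2 := R2)
      (zz := zz) (α := α) (ρ := ρ) (a := t + 1) hcm hDm hDanti hzm
      (fun t' ht' => ih t' (by omega)) (fun e => ha (t + 1) e (by omega))
      (fun n => hc (t + 1) n (by omega)) (B := B) (by rwa [Nat.add_sub_cancel])
    have h2 := Wf_int (P := P) (X := X) (θ := θ) (n0 := n0) (K := K) (zz := zz) (b := t) hcm hzm
      (fun t' ht' => ih t' (by omega)) hB
    have h3 : ∑ n ∈ (Finset.Icc n0 K).filter (fun n => t + 2 * n ≤ K),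
        ENNReal.ofReal (Real.exp (2 * θ * (n * X))) * (zz * P (B ∩ St c X t n)) ≤
        (∑ n ∈ Finset.Icc n0 K, ζ n * ENNReal.ofReal (Real.exp (2 * θ * (n * X)))) * zz * P B := by
      calc _ ≤ ∑ n ∈ (Finset.Icc n0 K).filter (fun n => t + 2 * n ≤ K),
            ENNReal.ofReal (Real.exp (2 * θ * (n * X))) * (zz * (ζ n * P B)) := by
            refine Finset.sum_le_sum fun n hn => ?_
            rw [Finset.mem_filter, Finset.mem_Icc] at hn
            gcongr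
            exact hb t n ht hn.1.1 hn.2 B hB
        _ ≤ ∑ n ∈ Finset.Icc n0 K,
            ENNReal.ofReal (Real.exp (2 * θ * (n * X))) * (zz * (ζ n * P B)) :=
            Finset.sum_le_sum_of_subset (Finset.filter_subset _ _)
        _ = _ := by
            rw [Finset.sum_mul, Finset.sum_mul]
            refine Finset.sum_congr rfl fun n _ => ?_
            ring
    calc _ ≤ 1 * P B + (ENNReal.ofReal (Real.exp (θ * (R2 / 2))) * ((ENNReal.ofReal (Real.exp (θ * R1)) +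
        (ENNReal.ofReal (Real.exp (θ * (R1 + R2 / 2))) * α +
          ENNReal.ofReal (Real.exp (θ * R1)) *
            ∑ n ∈ Finset.Icc n0 K, ρ n * ENNReal.ofReal (Real.exp (2 * θ * (n * X)))) * zz) *
        P B) + (∑ n ∈ Finset.Icc n0 K, ζ n * ENNReal.ofReal (Real.exp (2 * θ * (n * X)))) *
          zz * P B) :=
        add_le_add le_rfl (add_le_add (mul_le_mul_right h1 _) (h2.trans h3))
      _ = (1 + (ENNReal.ofReal (Real.exp (θ * (R2 / 2))) *
      (ENNReal.ofReal (Real.exp (θ * R1)) +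
        (ENNReal.ofReal (Real.exp (θ * (R1 + R2 / 2))) * α +
          ENNReal.ofReal (Real.exp (θ * R1)) *
            ∑ n ∈ Finset.Icc n0 K, ρ n * ENNReal.ofReal (Real.exp (2 * θ * (n * X)))) * zz) +
      (∑ n ∈ Finset.Icc n0 K, ζ n * ENNReal.ofReal (Real.exp (2 * θ * (n * X)))) * zz)) * P B := by
        ring
      _ ≤ _ := mul_le_mul_left hzz _

/-! ### the result, real cost process -/

/-- blocks crossing the level `J` -/
noncomputable def Cr (c : ℕ → Ω → ℝ) (X θ : ℝ) (n0 J : ℕ) (z : ℕ → Ω → ℝ≥0∞) (ω : Ω) : ℝ≥0∞ :=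
  ∑ n ∈ Finset.Icc n0 (2 * J), ∑ b ∈ (Finset.range J).filter (fun b => J < b + 2 * n ∧
    b + 2 * n ≤ 2 * J), (St c X b n).indicator
      (fun ω => ENNReal.ofReal (Real.exp (2 * θ * (n * X))) * z (b + 2 * n) ω) ω

/-- long steep intervals -/
def Lg (c : ℕ → Ω → ℝ) (X : ℝ) (J : ℕ) : Set Ω :=
  ⋃ q ∈ ((Finset.range (2 * J + 1)) ×ˢ (Finset.range (2 * J + 1))).filter
    (fun q : ℕ × ℕ => J < q.1 ∧ q.1 ≤ 2 * J ∧ q.1 < 4 * q.2 ∧ 2 * q.2 ≤ q.1),
    {ω | (q.2 : ℝ) * X ≤ c q.1 ω - c (q.1 - q.2) ω}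

theorem card_cross (J n : ℕ) : (((Finset.range J).filter (fun b => J < b + 2 * n ∧
    b + 2 * n ≤ 2 * J)).card : ℝ≥0∞) ≤ 2 * n := by
  have h1 : (Finset.range J).filter (fun b => J < b + 2 * n ∧ b + 2 * n ≤ 2 * J) ⊆
      Finset.Ico (J - 2 * n) J := by
    intro b hb
    rw [Finset.mem_filter, Finset.mem_range] at hb
    rw [Finset.mem_Ico]
    omega
  have h2 := Finset.card_le_card h1
  rw [Nat.card_Ico] at h2
  have h3 : ((Finset.range J).filter (fun b => J < b + 2 * n ∧ b + 2 * n ≤ 2 * J)).card ≤ 2 * n := by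
    omega
  exact_mod_cast h3

theorem stage_real {F : Filtration ℕ m0} {c : ℕ → Ω → ℝ} (hcm : ∀ m, Measurable[F m] (c m))
    (hmono : ∀ ω, Monotone fun m => c m ω) {X θ R1 R2 u : ℝ} {n0 J : ℕ} (hθ : 0 ≤ θ)
    (hX : 0 < X) (hR1 : 0 ≤ R1) (hn0 : 1 ≤ n0) (hnR : n0 * X ≤ R2 / 2) (hJ : 4 * n0 ≤ J)
    {D : ℕ → ℕ → Set Ω} (hDm : ∀ a b, MeasurableSet[F b] (D a b))
    (hDanti : ∀ a b b', a ≤ b → b ≤ b' → D a b' ⊆ D a b)
    (hDc : ∀ a b, a ≤ b → ∀ ω ∈ D a b, c b ω - c a ω ≤ R1)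
    {α : ℝ≥0∞} {ζ ρ : ℕ → ℝ≥0∞}
    (ha : ∀ a e, J < a → a ≤ e → e ≤ 2 * J → ∀ B, MeasurableSet[F (a - 1)] B →
      P (B ∩ (D a e)ᶜ) ≤ α * P B)
    (hb : ∀ b n, n0 ≤ n → b + 2 * n ≤ 2 * J → ∀ B, MeasurableSet[F b] B →
      P (B ∩ St c X b n) ≤ ζ n * P B)
    (hc : ∀ a n, J < a → n0 ≤ n → ∀ B, MeasurableSet[F (a - 1)] B →
      ∑ b ∈ (Finset.Icc a (2 * J)).filter (fun b => b + 2 * n ≤ 2 * J),
        P (B ∩ (D a b ∩ St c X b n)) ≤ ρ n * P B)
    (hζ : ∑ n ∈ Finset.Icc n0 (2 * J),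
      (2 * n : ℝ≥0∞) * (ζ n * ENNReal.ofReal (Real.exp (2 * θ * (n * X)))) ≤ 1 / 4)
    (hρ : ENNReal.ofReal (Real.exp (θ * (R2 / 2))) *
      (ENNReal.ofReal (Real.exp (θ * (R1 + R2 / 2))) * α + ENNReal.ofReal (Real.exp (θ * R1)) *
        ∑ n ∈ Finset.Icc n0 (2 * J), ρ n * ENNReal.ofReal (Real.exp (2 * θ * (n * X)))) ≤ 1 / 4) :
    P {ω | u ≤ c (2 * J) ω - c J ω} ≤
      (ENNReal.ofReal (8 * Real.exp (θ * (R1 + R2 / 2) - θ * u)) +
        (2 * J + 1) ^ 2 * ⨆ n ∈ {n : ℕ | J ≤ 4 * n}, ζ n) * P Set.univ := by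
  classical
  have hR2 : 0 ≤ R2 := by
    have : (0 : ℝ) ≤ n0 * X := by positivity
    linarith
  set A : ℝ≥0∞ := ENNReal.ofReal (Real.exp (θ * R1)) with hA
  set β : ℝ≥0∞ := ENNReal.ofReal (Real.exp (θ * (R2 / 2))) with hβ
  set G : ℝ≥0∞ := ENNReal.ofReal (Real.exp (θ * (R1 + R2 / 2))) * α +
    ENNReal.ofReal (Real.exp (θ * R1)) *
      ∑ n ∈ Finset.Icc n0 (2 * J), ρ n * ENNReal.ofReal (Real.exp (2 * θ * (n * X))) with hG
  set S1 : ℝ≥0∞ := ∑ n ∈ Finset.Icc n0 (2 * J),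
    ζ n * ENNReal.ofReal (Real.exp (2 * θ * (n * X))) with hS1
  set zz : ℝ≥0∞ := 2 * (1 + β * A) with hzzd
  have hβA : β * A = ENNReal.ofReal (Real.exp (θ * (R1 + R2 / 2))) := by
    rw [hβ, hA, ← ENNReal.ofReal_mul (Real.exp_pos _).le, ← Real.exp_add]
    congr 2
    ring
  have hβA1 : 1 ≤ β * A := by
    rw [hβA, ENNReal.one_le_ofReal, Real.one_le_exp_iff]
    positivity
  have hS1' : S1 ≤ 1 / 4 := by
    refine le_trans ?_ hζ
    refine Finset.sum_le_sum fun n hn => ?_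
    rw [Finset.mem_Icc] at hn
    have h1 : (1 : ℝ≥0∞) ≤ 2 * n := by exact_mod_cast (by omega : 1 ≤ 2 * n)
    calc _ = 1 * (ζ n * ENNReal.ofReal (Real.exp (2 * θ * (n * X)))) := (one_mul _).symm
      _ ≤ _ := mul_le_mul_left h1 _
  have hhalf : (1 / 4 : ℝ≥0∞) + 1 / 4 = 1 / 2 := by
    rw [ENNReal.div_add_div_same]
    have : (1 : ℝ≥0∞) + 1 = 2 := one_add_one_eq_two
    rw [this]
    rw [ENNReal.div_eq_div_iff (by norm_num) (by norm_num) (by norm_num) (by norm_num)]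
    norm_num
  have hzz : 1 + (β * (A + G * zz) + S1 * zz) ≤ zz := by
    have h1 : β * G ≤ 1 / 4 := hρ
    calc 1 + (β * (A + G * zz) + S1 * zz) = (1 + β * A) + (β * G + S1) * zz := by ring
      _ ≤ (1 + β * A) + (1 / 4 + 1 / 4) * zz := by gcongr
      _ = (1 + β * A) + (1 / 2 * 2) * (1 + β * A) := by rw [hhalf, hzzd]; ring
      _ = zz := by
          rw [hzzd]
          have : (1 / 2 : ℝ≥0∞) * 2 = 1 := by
            rw [one_div]; exact ENNReal.inv_mul_cancel (by norm_num) (by norm_num)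
          rw [this]; ring
  have hZ := Z_int (P := P) (X := X) (θ := θ) (n0 := n0) (K := 2 * J) (J := J) (R1 := R1)
    (R2 := R2) (zz := zz) (α := α) (ζ := ζ) (ρ := ρ) hcm hDm hDanti ha
    (fun b n _ => hb b n) hc hzz
  have hzm := Z_meas (X := X) (θ := θ) (n0 := n0) (K := 2 * J) (R1 := R1) (R2 := R2) hcm hDm
  set z : ℕ → Ω → ℝ≥0∞ := Z c X θ n0 (2 * J) D R1 R2 (2 * J) with hz
  -- long steep intervals
  set L : ℝ≥0∞ := ⨆ n ∈ {n : ℕ | J ≤ 4 * n}, ζ n with hL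
  have hLgP : P (Lg c X J) ≤ (2 * J + 1) ^ 2 * L * P Set.univ := by
    unfold Lg
    set Ix := ((Finset.range (2 * J + 1)) ×ˢ (Finset.range (2 * J + 1))).filter
      (fun q : ℕ × ℕ => J < q.1 ∧ q.1 ≤ 2 * J ∧ q.1 < 4 * q.2 ∧ 2 * q.2 ≤ q.1) with hIx
    have h1 : ∀ q ∈ Ix, P {ω | (q.2 : ℝ) * X ≤ c q.1 ω - c (q.1 - q.2) ω} ≤ L * P Set.univ := by
      intro q hq
      rw [hIx, Finset.mem_filter] at hq
      obtain ⟨_, h2, h3, h4, h5⟩ := hq
      obtain ⟨b, hbq⟩ : ∃ b, q.1 = b + 2 * q.2 := ⟨q.1 - 2 * q.2, by omega⟩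
      have h6 := hb b q.2 (by omega) (by omega) Set.univ MeasurableSet.univ
      rw [Set.univ_inter] at h6
      have h7 : {ω | (q.2 : ℝ) * X ≤ c q.1 ω - c (q.1 - q.2) ω} = St c X b q.2 := by
        unfold St
        rw [hbq]
        have : b + 2 * q.2 - q.2 = b + q.2 := by omega
        rw [this]
      rw [h7]
      refine h6.trans (mul_le_mul_left ?_ _)
      exact le_iSup₂ (f := fun (n : ℕ) (_ : n ∈ {n : ℕ | J ≤ 4 * n}) => ζ n) q.2
        (show J ≤ 4 * q.2 by omega)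
    have hcard : (Ix.card : ℝ≥0∞) ≤ (2 * J + 1) ^ 2 := by
      have h9 : Ix.card ≤ (2 * J + 1) ^ 2 := by
        refine (Finset.card_filter_le _ _).trans ?_
        rw [Finset.card_product, Finset.card_range, sq]
      exact_mod_cast h9
    calc _ ≤ ∑ q ∈ Ix, P {ω | (q.2 : ℝ) * X ≤ c q.1 ω - c (q.1 - q.2) ω} :=
          measure_biUnion_finset_le _ _
      _ ≤ ∑ _q ∈ Ix, L * P Set.univ := Finset.sum_le_sum h1
      _ = Ix.card * (L * P Set.univ) := by rw [Finset.sum_const, nsmul_eq_mul]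
      _ ≤ (2 * J + 1) ^ 2 * (L * P Set.univ) := mul_le_mul_left hcard _
      _ = _ := (mul_assoc _ _ _).symm
  -- moment
  have hCrm : Measurable (Cr c X θ n0 J z) := by
    unfold Cr
    refine Finset.measurable_sum _ fun n _ => Finset.measurable_sum _ fun b _ => ?_
    exact Measurable.indicator (Measurable.const_mul (hzm _ _) _) (F.le _ _ (St_meas hcm X b n))
  have hCr : ∫⁻ ω, Cr c X θ n0 J z ω ∂P ≤ 1 / 4 * zz * P Set.univ := by
    unfold Cr
    rw [lintegral_finset_sum _ fun n _ => Finset.measurable_sum _ fun b _ =>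
      Measurable.indicator (Measurable.const_mul (hzm _ _) _) (F.le _ _ (St_meas hcm X b n))]
    have h1 : ∀ n ∈ Finset.Icc n0 (2 * J), ∫⁻ ω, ∑ b ∈ (Finset.range J).filter (fun b =>
        J < b + 2 * n ∧ b + 2 * n ≤ 2 * J), (St c X b n).indicator
        (fun ω => ENNReal.ofReal (Real.exp (2 * θ * (n * X))) * z (b + 2 * n) ω) ω ∂P ≤
        (2 * n : ℝ≥0∞) * (ζ n * ENNReal.ofReal (Real.exp (2 * θ * (n * X)))) *
          (zz * P Set.univ) := by
      intro n hn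
      rw [Finset.mem_Icc] at hn
      rw [lintegral_finset_sum _ fun b _ =>
        Measurable.indicator (Measurable.const_mul (hzm _ _) _) (F.le _ _ (St_meas hcm X b n))]
      have h2 : ∀ b ∈ (Finset.range J).filter (fun b => J < b + 2 * n ∧ b + 2 * n ≤ 2 * J),
          ∫⁻ ω, (St c X b n).indicator
          (fun ω => ENNReal.ofReal (Real.exp (2 * θ * (n * X))) * z (b + 2 * n) ω) ω ∂P ≤
          (ζ n * ENNReal.ofReal (Real.exp (2 * θ * (n * X)))) * (zz * P Set.univ) := by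
        intro b hbb
        rw [Finset.mem_filter, Finset.mem_range] at hbb
        have hm : MeasurableSet (St c X b n) := F.le _ _ (St_meas hcm X b n)
        rw [lintegral_indicator hm, lintegral_const_mul _ (hzm _ _)]
        have h3 := hZ (2 * J) (b + 2 * n) (by omega) (St c X b n) (St_meas hcm X b n)
        have h4 := hb b n hn.1 hbb.2.2 Set.univ MeasurableSet.univ
        rw [Set.univ_inter] at h4
        calc _ ≤ ENNReal.ofReal (Real.exp (2 * θ * (n * X))) * (zz * (ζ n * P Set.univ)) :=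
              mul_le_mul_right (h3.trans (mul_le_mul_right h4 _)) _
          _ = _ := by ring
      calc _ ≤ ∑ _b ∈ (Finset.range J).filter (fun b => J < b + 2 * n ∧ b + 2 * n ≤ 2 * J),
            (ζ n * ENNReal.ofReal (Real.exp (2 * θ * (n * X)))) * (zz * P Set.univ) :=
            Finset.sum_le_sum h2
        _ = ((Finset.range J).filter (fun b => J < b + 2 * n ∧ b + 2 * n ≤ 2 * J)).card *
            ((ζ n * ENNReal.ofReal (Real.exp (2 * θ * (n * X)))) * (zz * P Set.univ)) := by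
            rw [Finset.sum_const, nsmul_eq_mul]
        _ ≤ (2 * n : ℝ≥0∞) *
            ((ζ n * ENNReal.ofReal (Real.exp (2 * θ * (n * X)))) * (zz * P Set.univ)) :=
            mul_le_mul_left (card_cross J n) _
        _ = _ := by ring
    calc _ ≤ ∑ n ∈ Finset.Icc n0 (2 * J), (2 * n : ℝ≥0∞) *
          (ζ n * ENNReal.ofReal (Real.exp (2 * θ * (n * X)))) * (zz * P Set.univ) :=
          Finset.sum_le_sum h1
      _ = (∑ n ∈ Finset.Icc n0 (2 * J), (2 * n : ℝ≥0∞) *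
          (ζ n * ENNReal.ofReal (Real.exp (2 * θ * (n * X))))) * (zz * P Set.univ) := by
          rw [Finset.sum_mul]
      _ ≤ 1 / 4 * (zz * P Set.univ) := mul_le_mul_left hζ _
      _ = _ := (mul_assoc _ _ _).symm
  have hZJ : ∫⁻ ω, z J ω ∂P ≤ zz * P Set.univ := by
    have := hZ (2 * J) J le_rfl Set.univ MeasurableSet.univ
    rwa [Measure.restrict_univ] at this
  have hTot : ∫⁻ ω, (z J ω + Cr c X θ n0 J z ω) ∂P ≤
      ENNReal.ofReal (Real.exp (Real.log 8 + θ * (R1 + R2 / 2))) * P Set.univ := by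
    rw [lintegral_add_left (hzm _ _)]
    have h8 : ENNReal.ofReal (Real.exp (Real.log 8 + θ * (R1 + R2 / 2))) = 8 * (β * A) := by
      rw [Real.exp_add, Real.exp_log (by norm_num), ENNReal.ofReal_mul (by norm_num), hβA]
      norm_num
    rw [h8]
    have h9 : (1 / 4 : ℝ≥0∞) ≤ 1 := by
      rw [one_div]; exact ENNReal.inv_le_one.2 (by norm_num)
    calc _ ≤ zz * P Set.univ + 1 / 4 * zz * P Set.univ := add_le_add hZJ hCr
      _ ≤ zz * P Set.univ + 1 * zz * P Set.univ := by gcongr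
      _ = 4 * (1 + β * A) * P Set.univ := by rw [hzzd]; ring
      _ ≤ 4 * (β * A + β * A) * P Set.univ := by gcongr
      _ = _ := by ring
  have hmk := markov_exp (P := P) (a := θ * u) ((hzm (2 * J) J).add hCrm) hTot
  have e8 : Real.exp (Real.log 8 + θ * (R1 + R2 / 2) - θ * u) =
      8 * Real.exp (θ * (R1 + R2 / 2) - θ * u) := by
    rw [add_sub_assoc, Real.exp_add, Real.exp_log (by norm_num)]
  rw [e8] at hmk
  -- combination
  have hsub : {ω | u ≤ c (2 * J) ω - c J ω} ⊆ {ω | ENNReal.ofReal (Real.exp (θ * u)) ≤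
      (z J + Cr c X θ n0 J z) ω} ∪ Lg c X J := by
    intro ω hω
    by_cases hLω : ω ∈ Lg c X J
    · exact Or.inr hLω
    left
    have hno : ∀ e n : ℕ, J < e → e ≤ 2 * J → e < 4 * n → 2 * n ≤ e →
        c e ω - c (e - n) ω < n * X := by
      intro e n h1 h2 h3 h4
      by_contra hcon
      push Not at hcon
      apply hLω
      unfold Lg
      rw [Set.mem_iUnion₂]
      refine ⟨(e, n), ?_, hcon⟩
      rw [Finset.mem_filter, Finset.mem_product, Finset.mem_range, Finset.mem_range]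
      exact ⟨⟨by simp only; omega, by simp only; omega⟩, h1, h2, h3, h4⟩
    have hω' : u ≤ c (2 * J) ω - c J ω := hω
    have hcovZ : ∀ t, Cov c X n0 (2 * J) R2 ω t →
        ENNReal.ofReal (Real.exp (θ * (c (2 * J) ω - c t ω))) ≤ z t ω := fun t ht =>
      detZ hθ hR1 hR2 hn0 (fun a b h1 _ => hDc a b h1) (2 * J) t (by omega) ht
    show ENNReal.ofReal (Real.exp (θ * u)) ≤ z J ω + Cr c X θ n0 J z ω
    rcases exists_cov hmono hn0 hnR hJ hno J (2 * J) (by ring) le_rfl Cov.top with h | h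
    · refine le_add_right (le_trans ?_ (hcovZ J h))
      exact ENNReal.ofReal_le_ofReal (Real.exp_le_exp.2 (mul_le_mul_of_nonneg_left hω' hθ))
    · obtain ⟨b, n, h1, h2, h3, h4, h5, h6, h7⟩ := h
      refine le_add_left ?_
      unfold Cr
      have hmem1 : n ∈ Finset.Icc n0 (2 * J) := Finset.mem_Icc.2 ⟨h3, by omega⟩
      have hmem2 : b ∈ (Finset.range J).filter (fun b => J < b + 2 * n ∧ b + 2 * n ≤ 2 * J) := by
        rw [Finset.mem_filter, Finset.mem_range]; exact ⟨h1, h2, h4⟩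
      refine le_trans ?_ (Finset.single_le_sum
        (f := fun n : ℕ => ∑ b ∈ (Finset.range J).filter (fun b => J < b + 2 * n ∧
          b + 2 * n ≤ 2 * J), (St c X b n).indicator
          (fun ω => ENNReal.ofReal (Real.exp (2 * θ * (n * X))) * z (b + 2 * n) ω) ω)
          (fun _ _ => zero_le) hmem1)
      refine le_trans ?_ (Finset.single_le_sum
        (f := fun b : ℕ => (St c X b n).indicator
          (fun ω => ENNReal.ofReal (Real.exp (2 * θ * (n * X))) * z (b + 2 * n) ω) ω)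
          (fun _ _ => zero_le) hmem2)
      simp only [Set.indicator_of_mem h5]
      refine exp_mul_le (hcovZ (b + 2 * n) h7) ?_
      have h8 : c b ω ≤ c J ω := hmono ω h1.le
      have h9 : u ≤ 2 * (n * X) + (c (2 * J) ω - c (b + 2 * n) ω) := by linarith
      have := mul_le_mul_of_nonneg_left h9 hθ
      linarith
  calc _ ≤ _ := measure_mono hsub
    _ ≤ _ := measure_union_le _ _
    _ ≤ ENNReal.ofReal (8 * Real.exp (θ * (R1 + R2 / 2) - θ * u)) * P Set.univ +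
        (2 * J + 1) ^ 2 * L * P Set.univ := add_le_add hmk hLgP
    _ = _ := (add_mul _ _ _).symm

/-! ### survival form -/

/-- transfer from the real form to a nonincreasing survival process `s`, any constant `M` -/
theorem survG {F : Filtration ℕ m0} {s : ℕ → Ω → ℝ≥0∞} (hsm : ∀ m, Measurable[F m] (s m))
    (hanti : ∀ m ω, s (m + 1) ω ≤ s m ω) (hfin : ∀ m ω, s m ω ≠ ∞) {u : ℝ} (hu : 0 < u) {k k' : ℕ}
    {M : ℝ≥0∞} {B : Set Ω} (hB : MeasurableSet[F 0] B)
    (hreal : ∀ c : ℕ → Ω → ℝ, (∀ m, Measurable[F m] (c m)) → (∀ ω, Monotone fun m => c m ω) →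
      (∀ (x : ℝ) (_ : 0 < x) (a b : ℕ) (ω : Ω), x ≤ c b ω - c a ω →
        s a ω ≠ 0 ∧ s b ω ≤ ENNReal.ofReal (Real.exp (-x)) * s a ω) →
      (∀ (x : ℝ) (_ : 0 ≤ x) (a b : ℕ) (ω : Ω),
        ENNReal.ofReal (Real.exp (-x)) * s a ω ≤ s b ω → c b ω - c a ω ≤ x) →
      P.restrict B {ω | u ≤ c k' ω - c k ω} ≤ M * P.restrict B Set.univ) :
    P (B ∩ {ω | s k ω ≠ 0 ∧ s k' ω ≤ ENNReal.ofReal (Real.exp (-u)) * s k ω}) ≤ M * P B := by
  have hBm : MeasurableSet[m0] B := F.le 0 _ hB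
  -- the event in real form
  have hev : ∀ (ε : ℝ) (_ : 0 < ε) (x : ℝ) (_ : 0 < x) (a b : ℕ) (ω : Ω),
      x ≤ ce s ε b ω - ce s ε a ω →
        s a ω ≠ 0 ∧ s b ω ≤ ENNReal.ofReal (Real.exp (-x)) * s a ω := by
    intro ε hε x hx a b ω h
    obtain ⟨h1, h2⟩ := (ce_iff hε hx a b ω).1 h
    constructor
    · intro h0
      rw [h0] at h1
      simp at h1
      linarith
    · rw [← ENNReal.ofReal_toReal (hfin b ω), ← ENNReal.ofReal_toReal (hfin a ω),
        ← ENNReal.ofReal_mul (Real.exp_pos _).le]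
      exact ENNReal.ofReal_le_ofReal h2
  have hev2 : ∀ (ε : ℝ) (_ : 0 < ε) (x : ℝ) (_ : 0 ≤ x) (a b : ℕ) (ω : Ω),
      ENNReal.ofReal (Real.exp (-x)) * s a ω ≤ s b ω → ce s ε b ω - ce s ε a ω ≤ x := by
    intro ε hε x hx a b ω h
    have h1 : Real.exp (-x) * (s a ω).toReal ≤ (s b ω).toReal := by
      have := ENNReal.toReal_mono (hfin b ω) h
      rwa [ENNReal.toReal_mul, ENNReal.toReal_ofReal (Real.exp_pos _).le] at this
    have h2 : Real.exp (-x) ≤ 1 := Real.exp_le_one_iff.2 (by linarith)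
    have h3 : Real.exp (-x) * max (s a ω).toReal ε ≤ max (s b ω).toReal ε := by
      rcases le_total (s a ω).toReal ε with h4 | h4
      · rw [max_eq_right h4]
        refine le_trans ?_ (le_max_right _ _)
        nlinarith
      · rw [max_eq_left h4]
        exact h1.trans (le_max_left _ _)
    have hMA : 0 < max (s a ω).toReal ε := lt_max_of_lt_right hε
    have hMB : 0 < max (s b ω).toReal ε := lt_max_of_lt_right hε
    have h5 := Real.log_le_log (mul_pos (Real.exp_pos _) hMA) h3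
    rw [Real.log_mul (Real.exp_pos _).ne' hMA.ne', Real.log_exp] at h5
    unfold ce
    linarith
  have hmain : ∀ ε : ℝ, 0 < ε →
      P (B ∩ {ω | u ≤ ce s ε k' ω - ce s ε k ω}) ≤ M * P B := by
    intro ε hε
    have hcm : ∀ m, Measurable[F m] (ce s ε m) := by
      intro m
      unfold ce
      exact (Real.measurable_log.comp
        ((ENNReal.measurable_toReal.comp (hsm m)).max measurable_const)).neg
    have hmono : ∀ ω, Monotone fun m => ce s ε m ω := by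
      intro ω
      refine monotone_nat_of_le_succ fun m => ?_
      unfold ce
      have h1 : max (s (m + 1) ω).toReal ε ≤ max (s m ω).toReal ε :=
        max_le_max (ENNReal.toReal_mono (hfin m ω) (hanti m ω)) le_rfl
      have h2 := Real.log_le_log (lt_max_of_lt_right hε) h1
      linarith
    have h1 := hreal (ce s ε) hcm hmono (hev ε hε) (hev2 ε hε)
    rw [Measure.restrict_apply' hBm, Measure.restrict_apply' hBm, Set.univ_inter,
      Set.inter_comm] at h1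
    exact h1
  -- exhaustion
  set D : ℕ → Set Ω := fun n => B ∩ {ω | u ≤ ce s ((n : ℝ) + 1)⁻¹ k' ω -
    ce s ((n : ℝ) + 1)⁻¹ k ω} with hD
  have hDmono : Monotone D := by
    refine monotone_nat_of_le_succ fun n => ?_
    rintro ω ⟨h1, h2⟩
    refine ⟨h1, ?_⟩
    have hp1 : (0 : ℝ) < ((n : ℝ) + 1)⁻¹ := by positivity
    have hp2 : (0 : ℝ) < (((n + 1 : ℕ) : ℝ) + 1)⁻¹ := by positivity
    obtain ⟨h3, h4⟩ := (ce_iff hp1 hu k k' ω).1 h2
    refine (ce_iff hp2 hu k k' ω).2 ⟨le_trans ?_ h3, h4⟩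
    apply inv_anti₀ (by positivity)
    push_cast
    linarith
  have hsub : B ∩ {ω | s k ω ≠ 0 ∧ s k' ω ≤ ENNReal.ofReal (Real.exp (-u)) * s k ω} ⊆
      ⋃ n, D n := by
    rintro ω ⟨h1, h2, h3⟩
    have hA : 0 < (s k ω).toReal := ENNReal.toReal_pos h2 (hfin k ω)
    have hA' : 0 < Real.exp (-u) * (s k ω).toReal := mul_pos (Real.exp_pos _) hA
    obtain ⟨n, hn⟩ := exists_nat_one_div_lt hA'
    rw [Set.mem_iUnion]
    refine ⟨n, h1, (ce_iff (by positivity) hu k k' ω).2 ⟨?_, ?_⟩⟩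
    · rw [← one_div]; exact hn.le
    · have h4 := ENNReal.toReal_mono (ENNReal.mul_ne_top ENNReal.ofReal_ne_top (hfin k ω)) h3
      rw [ENNReal.toReal_mul, ENNReal.toReal_ofReal (Real.exp_pos _).le] at h4
      exact h4
  refine (measure_mono hsub).trans ?_
  rw [hDmono.measure_iUnion]
  exact iSup_le fun n => hmain _ (by positivity)

/-- **T1: the recursion of stages**, for a nonincreasing survival process `s`. -/
theorem stage {F : Filtration ℕ m0} {s : ℕ → Ω → ℝ≥0∞} (hsm : ∀ m, Measurable[F m] (s m))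
    (hanti : ∀ m ω, s (m + 1) ω ≤ s m ω) (hfin : ∀ m ω, s m ω ≠ ∞)
    {X θ R1 R2 u : ℝ} {n0 J : ℕ} (hθ : 0 ≤ θ) (hX : 0 < X) (hR1 : 0 ≤ R1) (hu : 0 < u)
    (hn0 : 1 ≤ n0) (hnR : n0 * X ≤ R2 / 2) (hJ : 4 * n0 ≤ J)
    (D : ℕ → ℕ → Set Ω) (hDm : ∀ a b, MeasurableSet[F b] (D a b))
    (hDanti : ∀ a b b', a ≤ b → b ≤ b' → D a b' ⊆ D a b)
    (hDc : ∀ a b, a ≤ b → ∀ ω ∈ D a b, ENNReal.ofReal (Real.exp (-R1)) * s a ω ≤ s b ω)
    {α : ℝ≥0∞} {ζ ρ : ℕ → ℝ≥0∞}
    (ha : ∀ a e, J < a → a ≤ e → e ≤ 2 * J → ∀ B, MeasurableSet[F (a - 1)] B →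
      P (B ∩ (D a e)ᶜ) ≤ α * P B)
    (hb : ∀ b n, n0 ≤ n → b + 2 * n ≤ 2 * J → ∀ B, MeasurableSet[F b] B →
      P (B ∩ {ω | s (b + n) ω ≠ 0 ∧ s (b + 2 * n) ω ≤
        ENNReal.ofReal (Real.exp (-(n * X))) * s (b + n) ω}) ≤ ζ n * P B)
    (hc : ∀ a n, J < a → n0 ≤ n → ∀ B, MeasurableSet[F (a - 1)] B →
      ∑ b ∈ (Finset.Icc a (2 * J)).filter (fun b => b + 2 * n ≤ 2 * J),
        P (B ∩ (D a b ∩ {ω | s (b + n) ω ≠ 0 ∧ s (b + 2 * n) ω ≤
          ENNReal.ofReal (Real.exp (-(n * X))) * s (b + n) ω})) ≤ ρ n * P B)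
    (hζ : ∑ n ∈ Finset.Icc n0 (2 * J),
      (2 * n : ℝ≥0∞) * (ζ n * ENNReal.ofReal (Real.exp (2 * θ * (n * X)))) ≤ 1 / 4)
    (hρ : ENNReal.ofReal (Real.exp (θ * (R2 / 2))) *
      (ENNReal.ofReal (Real.exp (θ * (R1 + R2 / 2))) * α + ENNReal.ofReal (Real.exp (θ * R1)) *
        ∑ n ∈ Finset.Icc n0 (2 * J), ρ n * ENNReal.ofReal (Real.exp (2 * θ * (n * X)))) ≤ 1 / 4)
    {B : Set Ω} (hB : MeasurableSet[F 0] B) :
    P (B ∩ {ω | s J ω ≠ 0 ∧ s (2 * J) ω ≤ ENNReal.ofReal (Real.exp (-u)) * s J ω}) ≤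
      (ENNReal.ofReal (8 * Real.exp (θ * (R1 + R2 / 2) - θ * u)) +
        (2 * J + 1) ^ 2 * ⨆ n ∈ {n : ℕ | J ≤ 4 * n}, ζ n) * P B := by
  have hBm : MeasurableSet[m0] B := F.le 0 _ hB
  refine survG hsm hanti hfin hu hB fun c hcm hmono hev hev2 => ?_
  have hSt : ∀ b n, n0 ≤ n → St c X b n ⊆ {ω | s (b + n) ω ≠ 0 ∧ s (b + 2 * n) ω ≤
      ENNReal.ofReal (Real.exp (-(n * X))) * s (b + n) ω} := by
    intro b n hn ω hω
    have hn' : (0 : ℝ) < n := by exact_mod_cast (by omega : 0 < n)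
    exact hev (n * X) (by positivity) (b + n) (b + 2 * n) ω hω
  refine stage_real hcm hmono hθ hX hR1 hn0 hnR hJ hDm hDanti
    (fun a b hab ω hω => hev2 R1 hR1 a b ω (hDc a b hab ω hω)) (α := α) (ζ := ζ) (ρ := ρ)
    ?_ ?_ ?_ hζ hρ
  · intro a e h1 h2 h3 B' hB'
    rw [Measure.restrict_apply' hBm, Measure.restrict_apply' hBm]
    refine le_trans (measure_mono ?_) (ha a e h1 h2 h3 (B' ∩ B)
      (hB'.inter (F.mono (Nat.zero_le _) _ hB)))
    rintro ω ⟨⟨g1, g2⟩, g3⟩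
    exact ⟨⟨g1, g3⟩, g2⟩
  · intro b n h1 h2 B' hB'
    rw [Measure.restrict_apply' hBm, Measure.restrict_apply' hBm]
    refine le_trans (measure_mono ?_) (hb b n h1 h2 (B' ∩ B)
      (hB'.inter (F.mono (Nat.zero_le _) _ hB)))
    rintro ω ⟨⟨g1, g2⟩, g3⟩
    exact ⟨⟨g1, g3⟩, hSt b n h1 g2⟩
  · intro a n h1 h2 B' hB'
    rw [Measure.restrict_apply' hBm]
    refine le_trans (Finset.sum_le_sum fun b _ => ?_) (hc a n h1 h2 (B' ∩ B)
      (hB'.inter (F.mono (Nat.zero_le _) _ hB)))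
    rw [Measure.restrict_apply' hBm]
    refine measure_mono ?_
    rintro ω ⟨⟨g1, g2, g4⟩, g3⟩
    exact ⟨⟨g1, g3⟩, g2, hSt b n h2 g4⟩

end Crest.Agent.R154.Stage993
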