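import Crest.Agent.R154.StartTile_872
import Crest.Agent.R154.TileInst_748

/-! Row 154, B8, TILE: the field `start` of `TileInst748.Inputs` for the kernel system `kS` of the
natural climbs (two stages). -/

set_option autoImplicit false
set_option linter.unusedSectionVars false
set_option linter.deprecated false

namespace Crest.Agent.R154.Tile872

open MeasureTheory ProbabilityTheory Set Filter Crest.ProbabilityR.RandomEnvironment
open Crest.Agent.R154.Ren263 (Det)
open Crest.Agent.R154.Mk561 Crest.Agent.R154.Q561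
open Crest.Agent.R154.Flux132 (lev)
open Crest.Agent.R154.B6I (Hit bf Alv Eqv Nt zt SP PP Om NoC tip th Al Dt PSm PIm ct)
open Crest.Agent.R154.RatioR872
open Crest.Agent.R154.TileInst748
open scoped ENNReal Topology

variable {d : ℕ}

section eqs

variable (u : Step d) (R : ℕ) (κ : ℝ) (Q : Measure (Environment d)) [IsProbabilityMeasure Q]
variable (hstat : ∀ z : Site d, MeasurePreserving (shiftEnv z) Q Q)
variable (hR : IsFiniteRangeDependent Q R)

lemma G_eq {a b : ℕ} {x : Site d} (hx : lev u x = a) (ω : Environment d) (y : Site d) :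
    (kS u R κ Q hstat hR).G a b ω x y = gk u R κ b ω x y := by
  simp only [kS, kerSys, hx, if_true]

lemma pushM_eq {a b : ℕ} (T : Set (Site d)) {w : Site d → ℝ≥0∞}
    (hw : ∀ x, lev u x ≠ a → w x = 0) (ω : Environment d) (z : Site d) :
    pushM T w ((kS u R κ Q hstat hR).G a b ω) z = outm u R κ univ b T w ω z := by
  classical
  unfold pushM outm
  by_cases hz : z ∈ T
  · rw [if_pos hz, indicator_of_mem hz]
    refine tsum_congr fun x => ?_
    by_cases hx : lev u x = a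
    · rw [G_eq u R κ Q hstat hR hx, gc_univ]
    · simp [hw x hx]
  · rw [if_neg hz, indicator_of_notMem hz]

lemma massM_eq {a b : ℕ} (T : Set (Site d)) {w : Site d → ℝ≥0∞}
    (hw : ∀ x, lev u x ≠ a → w x = 0) (ω : Environment d) :
    massM T w ((kS u R κ Q hstat hR).G a b ω) = Fm u R κ univ b T w ω := by
  unfold massM
  simp_rw [pushM_eq u R κ Q hstat hR T hw]
  exact tsum_outm u R κ univ b T w ω

lemma enM_eq {a b c : ℕ} (T : Set (Site d)) {w : Site d → ℝ≥0∞}
    (hw : ∀ x, lev u x ≠ a → w x = 0) (ω : Environment d) :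
    enM T (Kc u R κ Q b c) w ((kS u R κ Q hstat hR).G a b ω)
      = en u R κ Q b c (outm u R κ univ b T w ω) := by
  unfold enM en
  simp_rw [pushM_eq u R κ Q hstat hR T hw]

lemma dl_supp {a : ℕ} {z : Site d} (hz : lev u z = a) : ∀ x, lev u x ≠ a → dl z x = 0 := by
  intro x hx
  have : x ≠ z := fun h => hx (h ▸ hz)
  simp [dl, this]

lemma single_eq_dl (z : Site d) : single z = dl z := by
  classical
  funext x
  unfold single dl
  by_cases hx : x = z
  · subst hx; simp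
  · simp [hx]

/-- only the mass part of the single tile -/
lemma prob_mass (hR : IsFiniteRangeDependent Q R) {a b : ℕ} (hab : a ≤ b)
    {S T : Set (Site d)} (hS : ∀ x ∈ S, lev u x = a) {g κ₁ : ℝ≥0∞} (hg0 : g ≠ 0)
    (hg : ∀ x ∈ S, g ≤ ∫⁻ ω, gT u R κ univ b T ω x ∂Q)
    {w : Site d → ℝ≥0∞} (hw : w ∈ Cls u R κ Q S a b κ₁) :
    Q {ω | Fm u R κ univ b T w ω < g / 2} ≤ κ₁ / (g / 2) ^ 2 := by
  obtain ⟨hw1, hw2, hw3⟩ := hw
  have hw2' : ∀ x, lev u x ≠ a → w x = 0 := fun x hx => hw2 x fun h => hx (hS x h)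
  refine cheb (measurable_Fm u R κ univ b T w) (fun ω => (Fm_le u R κ univ b T w ω).trans hw1.le)
    ((Fm_second u R κ Q univ hR hab T hw2').trans (by gcongr)) hg0 ?_
  rw [lint_Fm]
  calc g = ∑' x, w x * g := by rw [ENNReal.tsum_mul_right, hw1, one_mul]
    _ ≤ _ := ENNReal.tsum_le_tsum fun x => by
        by_cases hx : x ∈ S
        · gcongr; exact hg x hx
        · simp [hw2 x hx]

/-- composition: mass through the window `T` of level `b` -/
lemma Fm_comp {b c : ℤ} (hbc : b ≤ c) (T T₁ : Set (Site d)) (z : Site d) (ω : Environment d) :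
    Fm u R κ univ b T (dl z) ω * Fm u R κ univ c T₁ (nrm u R κ univ b T (dl z) ω) ω
      ≤ Fm u R κ univ c T₁ (dl z) ω := by
  set F1 := Fm u R κ univ b T (dl z) ω with hF1
  have hF1t : F1 ≠ ∞ := ne_top_of_le_ne_top ENNReal.one_ne_top
    ((Fm_le u R κ univ b T (dl z) ω).trans (tsum_dl_one z).le)
  by_cases h0 : F1 = 0
  · rw [h0, zero_mul]; exact zero_le
  have e1 : F1 * Fm u R κ univ c T₁ (nrm u R κ univ b T (dl z) ω) ω
      = ∑' y, outm u R κ univ b T (dl z) ω y * gT u R κ univ c T₁ ω y := by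
    unfold Fm
    rw [← ENNReal.tsum_mul_left]
    refine tsum_congr fun y => ?_
    unfold nrm
    rw [← mul_assoc, ← hF1, ENNReal.mul_div_cancel h0 hF1t]
  rw [e1]
  have e2 : ∀ y, outm u R κ univ b T (dl z) ω y ≤ gk u R κ b ω z y := by
    intro y
    unfold outm
    refine (indicator_le_self' (fun _ _ => zero_le) y).trans ?_
    rw [tsum_dl z (fun x => gc u R κ univ b ω x y), gc_univ]
  calc ∑' y, outm u R κ univ b T (dl z) ω y * gT u R κ univ c T₁ ω y
      ≤ ∑' y, gk u R κ b ω z y * gT u R κ univ c T₁ ω y :=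
        ENNReal.tsum_le_tsum fun y => by gcongr; exact e2 y
    _ = ∑' y, ∑' y', gk u R κ b ω z y * T₁.indicator (gc u R κ univ c ω y) y' := by
        refine tsum_congr fun y => ?_
        rw [gT_eq, ENNReal.tsum_mul_left]
    _ = ∑' y', ∑' y, gk u R κ b ω z y * T₁.indicator (gc u R κ univ c ω y) y' :=
        ENNReal.tsum_comm
    _ ≤ ∑' y', T₁.indicator (gc u R κ univ c ω z) y' := by
        refine ENNReal.tsum_le_tsum fun y' => ?_
        by_cases hy : y' ∈ T₁
        · simp only [indicator_of_mem hy, gc_univ]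
          exact gk_comp u R κ hbc ω z y'
        · simp [indicator_of_notMem hy]
    _ = gT u R κ univ c T₁ ω z := (gT_eq u R κ univ c T₁ ω z).symm
    _ = Fm u R κ univ c T₁ (dl z) ω := (tsum_dl z fun x => gT u R κ univ c T₁ ω x).symm

end eqs

section start2

variable {Q : Measure (Environment d)} [IsProbabilityMeasure Q] {κ : ℝ} {R : ℕ}

/-- **field `start`**: the natural climb from the point `z` (level `a`) to the level `c` charges the
cell `T₁` with mass `≥ γ₀` and small energy, off probability `q`. `T` = window at the intermediate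
level `b`. -/
theorem start2 (F : Bind263.Frame Q κ R) (u : Step d)
    (hA : annealedProb Q 0 (escapeEvent (B2d.dirVec u)) ≠ 0) {q κ₁ g : ℝ≥0∞} (hq : q ≠ 0)
    (hq1 : q ≤ 1) (hκ0 : κ₁ ≠ 0) (hκt : κ₁ ≠ ∞) (hg0 : g ≠ 0) (hg1 : g ≤ 1) :
    ∃ γ₀ : ℝ≥0∞, γ₀ ≠ 0 ∧ γ₀ ≤ 1 ∧ ∃ δ : ℝ≥0∞, δ ≠ 0 ∧ ∃ ε : ℝ≥0∞, ε ≠ 0 ∧
      ∀ (a b c e : ℕ) (z : Site d) (T T₁ : Set (Site d)), a ≤ b → b ≤ c → lev u z = a →
        (∀ x ∈ T, lev u x = b) →
        (∫⁻ ω, gT u R κ univ b Tᶜ ω z ∂Q ≤ δ) →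
        (∀ x x', lev u x = a → lev u x' = a →
          ∑' y, ∑' y', (∫⁻ ω, gk u R κ b ω x y * gk u R κ b ω x' y' ∂Q) * Kc u R κ Q b c y y'
            ≤ ε) →
        (∀ x ∈ T, g ≤ ∫⁻ ω, gT u R κ univ c T₁ ω x ∂Q) →
        (∀ x x', lev u x = a → lev u x' = a →
          ∑' y, ∑' y', (∫⁻ ω, gk u R κ c ω x y * gk u R κ c ω x' y' ∂Q) * Kc u R κ Q c e y y'
            ≤ ε) →
        Q {ω | okM T₁ (Kc u R κ Q c e) κ₁ γ₀ (single z)
          ((kS u R κ Q F.stat F.fin).G a c ω)}ᶜ ≤ q := by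
  classical
  set q3 : ℝ≥0∞ := q / 3 with hq3d
  have hq3 : q3 ≠ 0 := by simp [hq3d, hq]
  have hqt : q ≠ ∞ := ne_top_of_le_ne_top ENNReal.one_ne_top hq1
  have hq3t : q3 ≠ ∞ := ENNReal.div_ne_top hqt (by simp)
  have hq31 : q3 < 1 := by
    have : q3 ≤ 1 / 3 := ENNReal.div_le_div_right hq1 3
    refine this.trans_lt ?_
    rw [one_div, ENNReal.inv_lt_one]
    norm_num
  have hgt : g ≠ ∞ := ne_top_of_le_ne_top ENNReal.one_ne_top hg1
  have hg20 : g / 2 ≠ 0 := by simp [hg0]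
  have hg2t : g / 2 ≠ ∞ := ENNReal.div_ne_top hgt (by simp)
  have hG0 : (g / 2) ^ 2 ≠ 0 := pow_ne_zero 2 hg20
  have hGt : (g / 2) ^ 2 ≠ ∞ := ENNReal.pow_ne_top hg2t
  set κ₂ : ℝ≥0∞ := q3 * (g / 2) ^ 2 with hκ2d
  have hκ20 : κ₂ ≠ 0 := mul_ne_zero hq3 hG0
  have hκ2t : κ₂ ≠ ∞ := ENNReal.mul_ne_top hq3t hGt
  obtain ⟨σ, hσ0, hσ1, δ, hδ0, ε₁, hε10, H⟩ := start_tile F u hA hq3 hq3t hκ20 hκ2t
  have hσt : σ ≠ ∞ := ne_top_of_le_ne_top ENNReal.one_ne_top hσ1
  have hs0 : σ / 2 ≠ 0 := by simp [hσ0]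
  have hst : σ / 2 ≠ ∞ := ENNReal.div_ne_top hσt (by simp)
  set γ₀ : ℝ≥0∞ := σ / 2 * (g / 2) with hγd
  have hγ0 : γ₀ ≠ 0 := mul_ne_zero hs0 hg20
  have hγt : γ₀ ≠ ∞ := ENNReal.mul_ne_top hst hg2t
  have hγ1 : γ₀ ≤ 1 := by
    calc γ₀ ≤ 1 * 1 := mul_le_mul' (ENNReal.half_le_self.trans hσ1)
          (ENNReal.half_le_self.trans hg1)
      _ = 1 := one_mul 1
  have hkk0 : κ₁ * γ₀ ^ 2 ≠ 0 := mul_ne_zero hκ0 (pow_ne_zero 2 hγ0)
  have hkkt : κ₁ * γ₀ ^ 2 ≠ ∞ := ENNReal.mul_ne_top hκt (ENNReal.pow_ne_top hγt)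
  refine ⟨γ₀, hγ0, hγ1, δ, hδ0, min ε₁ (q3 * (κ₁ * γ₀ ^ 2)), ?_, ?_⟩
  · exact (lt_min (pos_iff_ne_zero.2 hε10) (pos_iff_ne_zero.2 (mul_ne_zero hq3 hkk0))).ne'
  intro a b c e z T T₁ hab hbc hz hT hδ h2 h3 h4
  set A := kS u R κ Q F.stat F.fin with hAd
  have hS1 := H a b c z T hab hz hδ (fun x x' hx hx' => (h2 x x' hx hx').trans (min_le_left _ _))
  set S1 := GoodT u R κ Q univ b c T (σ / 2) κ₂ (dl z) with hS1d
  have hsupp := dl_supp u hz
  -- the class is not empty
  have hne : (Cls u R κ Q T b c κ₂).Nonempty := by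
    by_contra hcon
    rw [Set.not_nonempty_iff_eq_empty] at hcon
    have hS1e : S1 = ∅ := by
      rw [Set.eq_empty_iff_forall_notMem]
      intro ω hω
      have := nrm_mem u R κ Q univ hs0 (tsum_dl_one z).le hω
      rw [hcon] at this
      exact this
    rw [hS1e, compl_empty, measure_univ] at hS1
    exact absurd hS1 (not_le.2 hq31)
  obtain ⟨w0, hw0⟩ := hne
  -- measurability in the past
  have hGF : ∀ y y', Measurable[A.F b] fun ω => A.G a b ω y y' := fun y y' => A.measF a b y y' hab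
  have hlF : ∀ y, Measurable[A.F b] fun _ : Environment d => dl z y :=
    fun y => @measurable_const _ _ _ (A.F b) _
  have hm1 : Measurable[A.F b] fun ω => massM T (dl z) (A.G a b ω) :=
    @meas_mass (Site d) _ (Environment d) (A.F b) (fun _ => dl z) (fun ω => A.G a b ω) T hlF hGF
  have hm2 : Measurable[A.F b] fun ω => enM T (Kc u R κ Q b c) (dl z) (A.G a b ω) :=
    @meas_en (Site d) _ (Environment d) (A.F b) (fun _ => dl z) (fun ω => A.G a b ω) T _ hlF hGF
  have hm3 : ∀ y, Measurable[A.F b] fun ω => pushM T (dl z) (A.G a b ω) y :=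
    @meas_push (Site d) _ (Environment d) (A.F b) (fun _ => dl z) (fun ω => A.G a b ω) T hlF hGF
  have hS1m : MeasurableSet[A.F b] S1 := by
    have e1 : S1 = {ω | σ / 2 ≤ massM T (dl z) (A.G a b ω)} ∩
        {ω | enM T (Kc u R κ Q b c) (dl z) (A.G a b ω) ≤ κ₂ * (σ / 2) ^ 2} := by
      ext ω
      simp only [hS1d, GoodT, hAd, massM_eq u R κ Q F.stat F.fin T hsupp,
        enM_eq u R κ Q F.stat F.fin T hsupp, mem_setOf_eq, mem_inter_iff]
    rw [e1]
    exact MeasurableSet.inter (hm1 measurableSet_Ici) (hm2 measurableSet_Iic)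
  set f : Environment d → Site d → ℝ≥0∞ := fun ω =>
    if ω ∈ S1 then nrm u R κ univ b T (dl z) ω else w0 with hfd
  have hfm : Measurable[A.F b] f := by
    refine Measurable.ite hS1m ?_ (@measurable_const _ _ _ (A.F b) _)
    refine @measurable_pi_lambda _ _ _ (A.F b) _ _ fun y => ?_
    have e1 : (fun ω => nrm u R κ univ b T (dl z) ω y)
        = fun ω => pushM T (dl z) (A.G a b ω) y / massM T (dl z) (A.G a b ω) := by
      funext ω
      rw [hAd, massM_eq u R κ Q F.stat F.fin T hsupp, pushM_eq u R κ Q F.stat F.fin T hsupp]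
      rfl
    rw [e1]
    exact (hm3 y).div hm1
  have hfc : ∀ ω, f ω ∈ Cls u R κ Q T b c κ₂ := by
    intro ω
    simp only [hfd]
    split_ifs with h
    · exact nrm_mem u R κ Q univ hs0 (tsum_dl_one z).le h
    · exact hw0
  -- the second stage
  set Bad : Set ((Site d → ℝ≥0∞) × Environment d) :=
    {p | massM T₁ p.1 (A.G b c p.2) < g / 2} with hBadd
  have hBad : @MeasurableSet _ (MeasurableSpace.pi.prod (A.H b)) Bad := by
    have hl : ∀ y, @Measurable _ _ (MeasurableSpace.pi.prod (A.H b)) _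
        fun p : (Site d → ℝ≥0∞) × Environment d => p.1 y := fun y =>
      (measurable_pi_apply y).comp (@measurable_fst _ _ MeasurableSpace.pi (A.H b))
    have hg' : ∀ y y', @Measurable _ _ (MeasurableSpace.pi.prod (A.H b)) _
        fun p : (Site d → ℝ≥0∞) × Environment d => A.G b c p.2 y y' := fun y y' =>
      (A.measH b c y y' hbc).comp (@measurable_snd _ _ MeasurableSpace.pi (A.H b))
    have hm := @meas_mass (Site d) _ ((Site d → ℝ≥0∞) × Environment d)
      (MeasurableSpace.pi.prod (A.H b)) (fun p => p.1) (fun p => A.G b c p.2) T₁ hl hg'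
    exact hm measurableSet_Iio
  have hclev : ∀ w ∈ Cls u R κ Q T b c κ₂, ∀ x, lev u x ≠ b → w x = 0 :=
    fun w hw x hx => hw.2.1 x fun h => hx (hT x h)
  have hst2 := TileInd748.rand_state (m1 := A.F b) (m2 := A.H b) Q (A.F.le b) (A.H_le b)
    (A.indep b) Bad hBad f hfm (Cls u R κ Q T b c κ₂) hfc q3 (fun w hw => by
      have e1 : {ω | (w, ω) ∈ Bad} = {ω | Fm u R κ univ c T₁ w ω < g / 2} := by
        ext ω
        simp only [hBadd, mem_setOf_eq, hAd]
        rw [massM_eq u R κ Q F.stat F.fin T₁ (hclev w hw)]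
      rw [e1]
      refine (prob_mass u R κ Q F.fin hbc hT hg0 h3 hw).trans (le_of_eq ?_)
      rw [hκ2d, ENNReal.mul_div_cancel_right hG0 hGt]) S1 hS1m
  -- the energy
  have h5 : Q {ω | κ₁ * γ₀ ^ 2 < en u R κ Q c e (outm u R κ univ c T₁ (dl z) ω)} ≤ q3 := by
    refine (markov (ε := q3 * (κ₁ * γ₀ ^ 2)) ((measurable_en u R κ Q c e).comp
      (measurable_pi_iff.2 fun y => measurable_outm u R κ univ c T₁ (dl z) y)) hkk0 hkkt
      (en_outm u R κ Q univ (fun x x' hx hx' => (h4 x x' hx hx').trans (min_le_right _ _)) T₁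
        hsupp (tsum_dl_one z).le)).trans (le_of_eq ?_)
    exact ENNReal.mul_div_cancel_right hkk0 hkkt
  calc Q {ω | okM T₁ (Kc u R κ Q c e) κ₁ γ₀ (single z) (A.G a c ω)}ᶜ
      ≤ Q ((S1ᶜ ∪ (S1 ∩ {ω | (f ω, ω) ∈ Bad}))
        ∪ {ω | κ₁ * γ₀ ^ 2 < en u R κ Q c e (outm u R κ univ c T₁ (dl z) ω)}) := by
        refine measure_mono fun ω hω => ?_
        by_contra hcon
        simp only [mem_union, mem_compl_iff, mem_inter_iff, mem_setOf_eq, not_or, not_not,
          not_and, not_lt] at hcon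
        obtain ⟨⟨g1, g2⟩, g3⟩ := hcon
        refine hω ?_
        have g4 : f ω = nrm u R κ univ b T (dl z) ω := by simp only [hfd, if_pos g1]
        have g5 : g / 2 ≤ Fm u R κ univ c T₁ (f ω) ω := by
          have := g2 g1
          simp only [hBadd, mem_setOf_eq, hAd, not_lt] at this
          rwa [massM_eq u R κ Q F.stat F.fin T₁ (hclev _ (hfc ω))] at this
        rw [g4] at g5
        have g6 : γ₀ ≤ Fm u R κ univ c T₁ (dl z) ω := by
          refine le_trans ?_ (Fm_comp u R κ (b := b) (c := c) (by exact_mod_cast hbc) T T₁ z ω)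
          rw [hγd]
          exact mul_le_mul' g1.1 g5
        change okM T₁ (Kc u R κ Q c e) κ₁ γ₀ (single z) (A.G a c ω)
        rw [single_eq_dl]
        refine ⟨?_, ?_⟩
        · rw [hAd, massM_eq u R κ Q F.stat F.fin T₁ hsupp]
          exact g6
        · rw [hAd, massM_eq u R κ Q F.stat F.fin T₁ hsupp, enM_eq u R κ Q F.stat F.fin T₁ hsupp]
          refine g3.trans ?_
          gcongr
    _ ≤ q3 + q3 + q3 := by
        refine (measure_union_le _ _).trans (add_le_add ((measure_union_le _ _).trans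
          (add_le_add hS1 ?_)) h5)
        refine hst2.trans ?_
        calc q3 * Q S1 ≤ q3 * 1 := by gcongr; exact prob_le_one
          _ = q3 := mul_one _
    _ = q := by rw [hq3d]; exact ENNReal.add_thirds q

end start2

end Crest.Agent.R154.Tile872
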