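import Crest.Agent.R154.Tight_872

/-! Row 154, B8, TILE: the start of an attempt from a point, and the single tile, in the form
"off probability `q`" (natural climbs, no corridor). -/

set_option autoImplicit false
set_option linter.unusedSectionVars false
set_option linter.deprecated false

namespace Crest.Agent.R154.Tile872

open MeasureTheory ProbabilityTheory Set Filter Crest.ProbabilityR.RandomEnvironment
open Crest.Agent.R154.Ren263 (Det)
open Crest.Agent.R154.Mk561 Crest.Agent.R154.Q561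
open Crest.Agent.R154.Flux132 (lev)
open Crest.Agent.R154.B6I (Hit bf Alv Eqv Nt zt SP PP Om NoC tip th Al Dt PSm PIm ct)
open Crest.Agent.R154.RatioR872
open scoped ENNReal Topology

variable {d : ℕ}

section basic

variable (u : Step d) (R : ℕ) (κ : ℝ)

/-- no corridor -/
lemma CfT_univ (x : Site d) (b : ℤ) (T : Set (Site d)) :
    CfT u R univ x b T = ⋃ m, {M | M ∈ ClM u R x b m ∧ pos x M m ∈ T} := by
  simp [CfT, CfM]

lemma gc_univ (b : ℤ) (ω : Environment d) (x y : Site d) :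
    gc u R κ univ b ω x y = gk u R κ b ω x y := by
  unfold gc gk
  congr 1
  simp [Cf, CfY, CfM, Cl, ClY]

lemma gT_add_compl (b : ℤ) (ω : Environment d) (x : Site d) (T : Set (Site d)) :
    gT u R κ univ b T ω x + gT u R κ univ b Tᶜ ω x = mkLaw κ ω x (ClA u R x b) := by
  rw [gT_eq, gT_eq, ← ENNReal.tsum_add, ← tsum_gk]
  refine tsum_congr fun y => ?_
  simp only [Set.indicator, gc_univ]
  by_cases hy : y ∈ T
  · simp [hy]
  · simp [hy]

/-- the point mass -/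
noncomputable def dl (z : Site d) : Site d → ℝ≥0∞ := Pi.single z 1

lemma tsum_dl (z : Site d) (f : Site d → ℝ≥0∞) : ∑' x, dl z x * f x = f z := by
  rw [tsum_eq_single z]
  · simp [dl]
  · intro x hx
    simp [dl, hx]

lemma tsum_dl_one (z : Site d) : ∑' x, dl z x = 1 := by
  have := tsum_dl z (fun _ => 1)
  simpa using this

end basic

section start

variable {Q : Measure (Environment d)} [IsProbabilityMeasure Q] {κ : ℝ} {R : ℕ}

/-- **START OF AN ATTEMPT FROM A POINT**: for every `q, κ₁` there are `σ` (mass), `δ`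
(annealed probability to miss the window `T`) and `ε` (exit energy) such that, off probability `q`,
the natural climb from the point `z` to the level `b` has mass `≥ σ/2` into `T` with exit energy
`≤ κ₁ (σ/2)²`; so its normalised exit law is a state of the class `Cls T b c κ₁` (`nrm_mem`). -/
theorem start_tile (F : Bind263.Frame Q κ R) (u : Step d)
    (hA : annealedProb Q 0 (escapeEvent (B2d.dirVec u)) ≠ 0) {q κ₁ : ℝ≥0∞} (hq : q ≠ 0)
    (hqt : q ≠ ∞) (hκ0 : κ₁ ≠ 0) (hκt : κ₁ ≠ ∞) :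
    ∃ σ : ℝ≥0∞, σ ≠ 0 ∧ σ ≤ 1 ∧ ∃ δ : ℝ≥0∞, δ ≠ 0 ∧ ∃ ε : ℝ≥0∞, ε ≠ 0 ∧
      ∀ (a b c : ℕ) (z : Site d) (T : Set (Site d)), a ≤ b → lev u z = a →
        (∫⁻ ω, gT u R κ univ b Tᶜ ω z ∂Q ≤ δ) →
        (∀ x x', lev u x = a → lev u x' = a →
          ∑' y, ∑' y', (∫⁻ ω, gk u R κ b ω x y * gk u R κ b ω x' y' ∂Q) * Kc u R κ Q b c y y'
            ≤ ε) →
        Q (GoodT u R κ Q univ b c T (σ / 2) κ₁ (dl z))ᶜ ≤ q := by
  have hq4 : q / 4 ≠ 0 := by simp [hq]
  obtain ⟨σ, hσ0, hσ1, hσ⟩ := tight F u hA hq4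
  have hσt : σ ≠ ∞ := ne_top_of_le_ne_top ENNReal.one_ne_top hσ1
  have hs0 : σ / 2 ≠ 0 := by simp [hσ0]
  have hst : σ / 2 ≠ ∞ := ENNReal.div_ne_top hσt (by simp)
  refine ⟨σ, hσ0, hσ1, q / 4 * (σ / 2), mul_ne_zero hq4 hs0, q / 2 * (κ₁ * (σ / 2) ^ 2),
    mul_ne_zero (by simp [hq]) (mul_ne_zero hκ0 (pow_ne_zero 2 hs0)), ?_⟩
  intro a b c z T hab hz hδ hε
  have hkk : κ₁ * (σ / 2) ^ 2 ≠ 0 := mul_ne_zero hκ0 (pow_ne_zero 2 hs0)
  have hkkt : κ₁ * (σ / 2) ^ 2 ≠ ∞ := ENNReal.mul_ne_top hκt (ENNReal.pow_ne_top hst)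
  have hF : ∀ ω, Fm u R κ univ b T (dl z) ω = gT u R κ univ b T ω z := fun ω => tsum_dl z _
  -- small total mass
  have h1 : Q {ω | mkLaw κ ω z (ClA u R z b) < σ} ≤ q / 4 := by
    rw [lev_add_sub u hab hz]
    simp only [ClA_eq]
    exact hσ _ z
  -- large mass outside the window
  have h2 : Q {ω | σ / 2 < gT u R κ univ b Tᶜ ω z} ≤ q / 4 := by
    refine (markov (measurable_gT u R κ univ b Tᶜ z) hs0 hst hδ).trans (le_of_eq ?_)
    exact ENNReal.mul_div_cancel_right hs0 hst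
  -- large energy
  have h3 : Q {ω | κ₁ * (σ / 2) ^ 2 < en u R κ Q b c (outm u R κ univ b T (dl z) ω)}
      ≤ q / 2 := by
    refine (markov (ε := q / 2 * (κ₁ * (σ / 2) ^ 2)) ((measurable_en u R κ Q b c).comp
      (measurable_pi_iff.2 fun y => measurable_outm u R κ univ b T (dl z) y)) hkk hkkt
      (en_outm u R κ Q univ hε T (fun x hx => ?_) (tsum_dl_one z).le)).trans (le_of_eq ?_)
    · have : x ≠ z := fun h => hx (h ▸ hz)
      simp [dl, this]
    · exact ENNReal.mul_div_cancel_right hkk hkkt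
  have hsum : q / 4 + q / 4 + q / 2 = q := by
    have e : q / 4 + q / 4 = q / 2 := by
      rw [← two_mul, ENNReal.div_eq_inv_mul, ENNReal.div_eq_inv_mul, ← mul_assoc]
      congr 1
      have : (4 : ℝ≥0∞) = 2 * 2 := by norm_num
      rw [this, ENNReal.mul_inv (Or.inl (by simp)) (Or.inl (by simp)), ← mul_assoc,
        ENNReal.mul_inv_cancel (by simp) (by simp), one_mul]
    rw [e, ENNReal.add_halves]
  calc Q (GoodT u R κ Q univ b c T (σ / 2) κ₁ (dl z))ᶜ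
      ≤ Q (({ω | mkLaw κ ω z (ClA u R z b) < σ} ∪ {ω | σ / 2 < gT u R κ univ b Tᶜ ω z})
        ∪ {ω | κ₁ * (σ / 2) ^ 2 < en u R κ Q b c (outm u R κ univ b T (dl z) ω)}) := by
        refine measure_mono fun ω hω => ?_
        by_contra hcon
        simp only [mem_union, mem_setOf_eq, not_or, not_lt] at hcon
        refine hω ⟨?_, hcon.2⟩
        rw [hF]
        have e := gT_add_compl u R κ b ω z T
        have h4 : σ / 2 + σ / 2 ≤ gT u R κ univ b T ω z + σ / 2 := by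
          rw [ENNReal.add_halves]
          refine hcon.1.1.trans ?_
          rw [← e]
          gcongr
          exact hcon.1.2
        exact (ENNReal.add_le_add_iff_right hst).1 h4
    _ ≤ q / 4 + q / 4 + q / 2 :=
        (measure_union_le _ _).trans (add_le_add ((measure_union_le _ _).trans (add_le_add h1 h2)) h3)
    _ = q := hsum

/-- **SINGLE TILE, "off probability `q`"**: for every `g, q` there are `κ₁` and `ε`. -/
theorem single_tile (hR : IsFiniteRangeDependent Q R) (u : Step d) {g q : ℝ≥0∞} (hg0 : g ≠ 0)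
    (hg1 : g ≤ 1) (hq : q ≠ 0) (hq1 : q ≤ 1) :
    ∃ κ₁ : ℝ≥0∞, κ₁ ≠ 0 ∧ κ₁ ≤ 1 ∧ ∃ ε : ℝ≥0∞, ε ≠ 0 ∧
      ∀ (a b c : ℕ) (S T : Set (Site d)), a ≤ b → (∀ x ∈ S, lev u x = a) →
        (∀ x ∈ S, g ≤ ∫⁻ ω, gT u R κ univ b T ω x ∂Q) →
        (∀ x x', lev u x = a → lev u x' = a →
          ∑' y, ∑' y', (∫⁻ ω, gk u R κ b ω x y * gk u R κ b ω x' y' ∂Q) * Kc u R κ Q b c y y'
            ≤ ε) →
        ∀ w ∈ Cls u R κ Q S a b κ₁, Q (GoodT u R κ Q univ b c T (g / 2) κ₁ w)ᶜ ≤ q := by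
  have hgt : g ≠ ∞ := ne_top_of_le_ne_top ENNReal.one_ne_top hg1
  have hqt : q ≠ ∞ := ne_top_of_le_ne_top ENNReal.one_ne_top hq1
  have hG0 : (g / 2) ^ 2 ≠ 0 := pow_ne_zero 2 (by simp [hg0])
  have hGt : (g / 2) ^ 2 ≠ ∞ := ENNReal.pow_ne_top (ENNReal.div_ne_top hgt (by simp))
  have hq2 : q / 2 ≠ 0 := by simp [hq]
  have hk0 : q / 2 * (g / 2) ^ 2 ≠ 0 := mul_ne_zero hq2 hG0
  have hk1 : q / 2 * (g / 2) ^ 2 ≤ 1 := by
    have e1 : q / 2 ≤ 1 := ENNReal.half_le_self.trans hq1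
    have e2 : (g / 2) ^ 2 ≤ 1 := pow_le_one₀ zero_le (ENNReal.half_le_self.trans hg1)
    calc q / 2 * (g / 2) ^ 2 ≤ 1 * 1 := mul_le_mul' e1 e2
      _ = 1 := one_mul 1
  have hkt : q / 2 * (g / 2) ^ 2 ≠ ∞ := ne_top_of_le_ne_top ENNReal.one_ne_top hk1
  refine ⟨q / 2 * (g / 2) ^ 2, hk0, hk1, q / 2 * (q / 2 * (g / 2) ^ 2 * (g / 2) ^ 2),
    mul_ne_zero hq2 (mul_ne_zero hk0 hG0), ?_⟩
  intro a b c S T hab hS hg hε w hw
  refine (prob_not_good u R κ Q univ hR hab hS hg0 hgt hk0 hkt hg hε hw).trans (le_of_eq ?_)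
  rw [ENNReal.mul_div_cancel_right hG0 hGt,
    ENNReal.mul_div_cancel_right (mul_ne_zero hk0 hG0) (ENNReal.mul_ne_top hkt hGt),
    ENNReal.add_halves]

end start

end Crest.Agent.R154.Tile872
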