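import Mathlib

/-!
Row 154, block d = 2 (helper470): one subharmonic function for a symmetric walk killed by the
extent of its steps.

`(ξ, E)` has law `μ` on `ℝ × ℝ`, symmetric in `ξ` given `E`, `|ξ| ≤ E`, `E[E²] < ∞`, `ξ ≢ 0`.
`subh`: there are `φ`, `r0` with `φ v ≤ v` for `v ≥ 0`, `φ v ≥ v/2` for `v ≥ r0` and
`E[φ (v + ξ); E < v] ≥ φ v` for all `v > 0`.
-/

set_option autoImplicit false

namespace Crest.Agent.R154.Subh470

open MeasureTheory Set Filter
open scoped ENNReal Topology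

/-- tail first moment of the extent -/
noncomputable def tf (μ : Measure (ℝ × ℝ)) (t : ℝ) : ℝ := ∫ p in {p : ℝ × ℝ | t ≤ p.2}, p.2 ∂μ

theorem ms_ge (t : ℝ) : MeasurableSet {p : ℝ × ℝ | t ≤ p.2} :=
  measurableSet_le measurable_const measurable_snd

theorem ms_lt (t : ℝ) : MeasurableSet {p : ℝ × ℝ | p.2 < t} :=
  measurableSet_lt measurable_snd measurable_const

section

variable {μ : Measure (ℝ × ℝ)} [IsProbabilityMeasure μ]

theorem int_E (h0 : ∀ᵐ p ∂μ, |p.1| ≤ p.2) (h2 : Integrable (fun p : ℝ × ℝ => p.2 ^ 2) μ) :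
    Integrable (fun p : ℝ × ℝ => p.2) μ := by
  refine Integrable.mono' (g := fun p : ℝ × ℝ => 1 + p.2 ^ 2) ((integrable_const _).add h2)
    measurable_snd.aestronglyMeasurable ?_
  filter_upwards [h0] with p hp
  have : 0 ≤ p.2 := (abs_nonneg _).trans hp
  rw [Real.norm_of_nonneg this]
  nlinarith [sq_nonneg (p.2 - 1)]

theorem int_xi (h0 : ∀ᵐ p ∂μ, |p.1| ≤ p.2) (h2 : Integrable (fun p : ℝ × ℝ => p.2 ^ 2) μ) :
    Integrable (fun p : ℝ × ℝ => p.1) μ := by
  refine Integrable.mono' (int_E h0 h2) measurable_fst.aestronglyMeasurable ?_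
  filter_upwards [h0] with p hp
  simpa using hp

omit [IsProbabilityMeasure μ] in
theorem tf_nonneg (h0 : ∀ᵐ p ∂μ, |p.1| ≤ p.2) (t : ℝ) : 0 ≤ tf μ t := by
  refine integral_nonneg_of_ae ?_
  refine ae_restrict_of_ae ?_
  filter_upwards [h0] with p hp
  exact (abs_nonneg _).trans hp

theorem tf_anti (h0 : ∀ᵐ p ∂μ, |p.1| ≤ p.2) (h2 : Integrable (fun p : ℝ × ℝ => p.2 ^ 2) μ)
    {s t : ℝ} (hst : s ≤ t) : tf μ t ≤ tf μ s := by
  refine setIntegral_mono_set (int_E h0 h2).integrableOn ?_ ?_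
  · refine ae_restrict_of_ae ?_
    filter_upwards [h0] with p hp
    exact (abs_nonneg _).trans hp
  · refine LE.le.eventuallyLE ?_
    intro p hp
    exact hst.trans hp

theorem mul_le_tf (h0 : ∀ᵐ p ∂μ, |p.1| ≤ p.2) (h2 : Integrable (fun p : ℝ × ℝ => p.2 ^ 2) μ)
    (t : ℝ) : t * μ.real {p : ℝ × ℝ | t ≤ p.2} ≤ tf μ t := by
  have h1 : ∫ _ in {p : ℝ × ℝ | t ≤ p.2}, t ∂μ = t * μ.real {p : ℝ × ℝ | t ≤ p.2} := by
    rw [setIntegral_const, smul_eq_mul, mul_comm]
  rw [← h1]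
  refine setIntegral_mono_on (integrable_const t).integrableOn (int_E h0 h2).integrableOn
    (ms_ge t) ?_
  intro p hp
  exact hp

theorem tf_summable (h0 : ∀ᵐ p ∂μ, |p.1| ≤ p.2) (h2 : Integrable (fun p : ℝ × ℝ => p.2 ^ 2) μ)
    {δ : ℝ} (hδ : 0 < δ) : Summable (fun j : ℕ => tf μ (j * δ)) := by
  have hint : Integrable (fun p : ℝ × ℝ => p.2 * (p.2 / δ + 1)) μ := by
    have := (h2.mul_const (1 / δ)).add (int_E h0 h2)
    refine this.congr (ae_of_all _ fun p => ?_)
    simp only [Pi.add_apply]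
    field_simp
  refine summable_of_sum_range_le (c := ∫ p : ℝ × ℝ, p.2 * (p.2 / δ + 1) ∂μ)
    (fun j => tf_nonneg h0 _) fun n => ?_
  have h1 : ∀ j : ℕ, tf μ (j * δ)
      = ∫ p, ({p : ℝ × ℝ | (j : ℝ) * δ ≤ p.2}).indicator (fun p : ℝ × ℝ => p.2) p ∂μ := fun j => by
    rw [integral_indicator (ms_ge _)]; rfl
  rw [Finset.sum_congr rfl fun j _ => h1 j, ← integral_finsetSum _ fun j _ =>
    (int_E h0 h2).indicator (ms_ge _)]
  refine integral_mono_ae (integrable_finsetSum _ fun j _ =>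
    (int_E h0 h2).indicator (ms_ge _)) hint ?_
  filter_upwards [h0] with p hp
  have hp0 : 0 ≤ p.2 := (abs_nonneg _).trans hp
  have h3 : ∀ j : ℕ, ({p : ℝ × ℝ | (j : ℝ) * δ ≤ p.2}).indicator (fun p : ℝ × ℝ => p.2) p
      = if (j : ℝ) * δ ≤ p.2 then p.2 else 0 := fun j => by
    simp only [indicator, mem_ofPred_eq]
  rw [Finset.sum_congr rfl fun j _ => h3 j, ← Finset.sum_filter, Finset.sum_const, nsmul_eq_mul,
    mul_comm]
  refine mul_le_mul_of_nonneg_left ?_ hp0
  have h4 : (Finset.filter (fun j : ℕ => (j : ℝ) * δ ≤ p.2) (Finset.range n))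
      ⊆ Finset.range (⌊p.2 / δ⌋₊ + 1) := by
    intro j hj
    rw [Finset.mem_filter] at hj
    rw [Finset.mem_range, Nat.lt_succ_iff]
    exact Nat.le_floor (by rw [le_div_iff₀ hδ]; exact hj.2)
  have h5 := Finset.card_le_card h4
  rw [Finset.card_range] at h5
  calc ((Finset.filter (fun j : ℕ => (j : ℝ) * δ ≤ p.2) (Finset.range n)).card : ℝ)
      ≤ ((⌊p.2 / δ⌋₊ + 1 : ℕ) : ℝ) := by exact_mod_cast h5
    _ = (⌊p.2 / δ⌋₊ : ℝ) + 1 := by push_cast; ring
    _ ≤ p.2 / δ + 1 := by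
        have := Nat.floor_le (div_nonneg hp0 hδ.le)
        linarith

end

/-- concavity of `min · T` -/
theorem min_avg (v x T : ℝ) : min (v + x) T + min (v - x) T ≤ 2 * min v T := by
  rcases le_total v T with h | h
  · rw [min_eq_left h]
    linarith [min_le_left (v + x) T, min_le_left (v - x) T]
  · rw [min_eq_right h]
    linarith [min_le_right (v + x) T, min_le_right (v - x) T]

/-- strict concavity of `min · T` near `T` -/
theorem min_avg' {v x T δ : ℝ} (h1 : |v - T| ≤ δ) (h2 : 2 * δ ≤ |x|) :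
    min (v + x) T + min (v - x) T ≤ 2 * min v T - δ := by
  have hδ : 0 ≤ δ := (abs_nonneg _).trans h1
  have h3 := abs_le.1 h1
  rcases le_total 0 x with hx | hx
  · rw [abs_of_nonneg hx] at h2
    have a1 : min (v + x) T ≤ T := min_le_right _ _
    have a2 : min (v - x) T ≤ v - x := min_le_left _ _
    rcases le_total v T with h | h
    · rw [min_eq_left h]; linarith [h3.1, h3.2]
    · rw [min_eq_right h]; linarith [h3.1, h3.2]
  · rw [abs_of_nonpos hx] at h2
    have a1 : min (v + x) T ≤ v + x := min_le_left _ _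
    have a2 : min (v - x) T ≤ T := min_le_right _ _
    rcases le_total v T with h | h
    · rw [min_eq_left h]; linarith [h3.1, h3.2]
    · rw [min_eq_right h]; linarith [h3.1, h3.2]

section

variable (C : ℝ) (T F : ℕ → ℝ)

/-- the concave correction -/
noncomputable def hh (v : ℝ) : ℝ := C * ∑' j, min v (T j) * F j

variable {C T F}

theorem hh_sum (hT : ∀ j, 0 ≤ T j) (hF : ∀ j, 0 ≤ F j) (hs : Summable F) (v : ℝ) :
    Summable fun j => min v (T j) * F j := by
  refine Summable.of_norm_bounded (g := fun j => |v| * F j) (hs.mul_left _) fun j => ?_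
  rw [norm_mul, Real.norm_of_nonneg (hF j)]
  refine mul_le_mul_of_nonneg_right ?_ (hF j)
  rw [Real.norm_eq_abs, abs_le]
  constructor
  · exact le_min (neg_abs_le v) ((neg_nonpos.2 (abs_nonneg v)).trans (hT j))
  · exact (min_le_left _ _).trans (le_abs_self v)

theorem hh_nonneg (hC : 0 ≤ C) (hT : ∀ j, 0 ≤ T j) (hF : ∀ j, 0 ≤ F j) {v : ℝ}
    (hv : 0 ≤ v) : 0 ≤ hh C T F v :=
  mul_nonneg hC (tsum_nonneg fun j => mul_nonneg (le_min hv (hT j)) (hF j))

theorem hh_le (hC : 0 ≤ C) (hT : ∀ j, 0 ≤ T j) (hF : ∀ j, 0 ≤ F j) (hs : Summable F)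
    {ε : ℝ} (hε : C * ∑' j, F j ≤ ε) {v : ℝ} (hv : 0 ≤ v) : hh C T F v ≤ ε * v := by
  have h1 : ∑' j, min v (T j) * F j ≤ ∑' j, v * F j :=
    Summable.tsum_le_tsum (fun j => mul_le_mul_of_nonneg_right (min_le_left _ _) (hF j))
      (hh_sum hT hF hs v) (hs.mul_left v)
  rw [tsum_mul_left] at h1
  calc hh C T F v ≤ C * (v * ∑' j, F j) := mul_le_mul_of_nonneg_left h1 hC
    _ = (C * ∑' j, F j) * v := by ring
    _ ≤ ε * v := mul_le_mul_of_nonneg_right hε hv

theorem hh_lip (hC : 0 ≤ C) (hT : ∀ j, 0 ≤ T j) (hF : ∀ j, 0 ≤ F j) (hs : Summable F)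
    {ε : ℝ} (hε : C * ∑' j, F j ≤ ε) (v w : ℝ) : |hh C T F v - hh C T F w| ≤ ε * |v - w| := by
  unfold hh
  rw [← mul_sub, ← (hh_sum hT hF hs v).tsum_sub (hh_sum hT hF hs w), abs_mul, abs_of_nonneg hC]
  have h1 : ∀ j, |min v (T j) * F j - min w (T j) * F j| ≤ |v - w| * F j := fun j => by
    rw [← sub_mul, abs_mul, abs_of_nonneg (hF j)]
    refine mul_le_mul_of_nonneg_right ?_ (hF j)
    have := abs_min_sub_min_le_max v (T j) w (T j)
    simpa using this
  have h2 : |∑' j, (min v (T j) * F j - min w (T j) * F j)| ≤ ∑' j, |v - w| * F j := by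
    have := tsum_of_norm_bounded (f := fun j => min v (T j) * F j - min w (T j) * F j)
      (hs.mul_left |v - w|).hasSum h1
    simpa using this
  rw [tsum_mul_left] at h2
  calc C * |∑' j, (min v (T j) * F j - min w (T j) * F j)| ≤ C * (|v - w| * ∑' j, F j) :=
        mul_le_mul_of_nonneg_left h2 hC
    _ = (C * ∑' j, F j) * |v - w| := by ring
    _ ≤ ε * |v - w| := mul_le_mul_of_nonneg_right hε (abs_nonneg _)

theorem hh_avg (hC : 0 ≤ C) (hT : ∀ j, 0 ≤ T j) (hF : ∀ j, 0 ≤ F j) (hs : Summable F)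
    (v x : ℝ) : hh C T F (v + x) + hh C T F (v - x) ≤ 2 * hh C T F v := by
  unfold hh
  rw [← mul_add, ← (hh_sum hT hF hs _).tsum_add (hh_sum hT hF hs _), mul_left_comm]
  refine mul_le_mul_of_nonneg_left ?_ hC
  rw [← tsum_mul_left]
  refine Summable.tsum_le_tsum (fun j => ?_) ((hh_sum hT hF hs _).add (hh_sum hT hF hs _))
    ((hh_sum hT hF hs _).mul_left 2)
  rw [← add_mul, ← mul_assoc]
  exact mul_le_mul_of_nonneg_right (min_avg v x (T j)) (hF j)

theorem hh_avg' (hC : 0 ≤ C) (hT : ∀ j, 0 ≤ T j) (hF : ∀ j, 0 ≤ F j) (hs : Summable F)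
    {v x δ : ℝ} (j0 : ℕ) (h1 : |v - T j0| ≤ δ) (h2 : 2 * δ ≤ |x|) :
    hh C T F (v + x) + hh C T F (v - x) ≤ 2 * hh C T F v - C * (δ * F j0) := by
  unfold hh
  rw [← mul_add, ← (hh_sum hT hF hs _).tsum_add (hh_sum hT hF hs _), mul_left_comm, ← mul_sub]
  refine mul_le_mul_of_nonneg_left ?_ hC
  have hsum := (hh_sum hT hF hs (v + x)).add (hh_sum hT hF hs (v - x))
  have h3 : ∑' j, (min (v + x) (T j) * F j + min (v - x) (T j) * F j)
      + ∑' j, (if j = j0 then δ * F j0 else 0) ≤ ∑' j, 2 * (min v (T j) * F j) := by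
    rw [← hsum.tsum_add (summable_of_ne_finset_zero (s := {j0}) (by
      intro j hj; rw [if_neg (by simpa using hj)]))]
    refine Summable.tsum_le_tsum (fun j => ?_) (hsum.add (summable_of_ne_finset_zero (s := {j0})
      (by intro j hj; rw [if_neg (by simpa using hj)]))) ((hh_sum hT hF hs _).mul_left 2)
    rw [← add_mul, ← mul_assoc]
    by_cases hj : j = j0
    · subst hj
      rw [if_pos rfl, ← add_mul]
      exact mul_le_mul_of_nonneg_right (by linarith [min_avg' h1 h2]) (hF j)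
    · rw [if_neg hj, add_zero]
      exact mul_le_mul_of_nonneg_right (min_avg v x (T j)) (hF j)
  rw [tsum_ite_eq, tsum_mul_left] at h3
  linarith

end

theorem exists_pos {μ : Measure (ℝ × ℝ)} [IsProbabilityMeasure μ] (hnd : μ {p | p.1 ≠ 0} ≠ 0) :
    ∃ a K : ℝ, 0 < a ∧ 0 < K ∧ 0 < μ.real {p : ℝ × ℝ | a ≤ |p.1| ∧ p.2 < K} := by
  by_contra hcon
  push Not at hcon
  apply hnd
  have h1 : {p : ℝ × ℝ | p.1 ≠ 0}
      ⊆ ⋃ n : ℕ, {p : ℝ × ℝ | 1 / ((n : ℝ) + 1) ≤ |p.1| ∧ p.2 < (n : ℝ) + 1} := by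
    intro p hp
    have hp' : 0 < |p.1| := abs_pos.2 hp
    obtain ⟨n, hn⟩ := exists_nat_gt (max (1 / |p.1|) p.2)
    refine mem_iUnion.2 ⟨n, ?_, ?_⟩
    · rw [div_le_iff₀ (by positivity)]
      have h3 : 1 / |p.1| < n := (le_max_left _ _).trans_lt hn
      rw [div_lt_iff₀ hp'] at h3
      nlinarith
    · have h3 : p.2 < n := (le_max_right _ _).trans_lt hn
      linarith
  refine measure_mono_null h1 (measure_iUnion_null fun n => ?_)
  have h2 := hcon (1 / ((n : ℝ) + 1)) ((n : ℝ) + 1) (by positivity) (by positivity)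
  have h3 : μ.real {p : ℝ × ℝ | 1 / ((n : ℝ) + 1) ≤ |p.1| ∧ p.2 < (n : ℝ) + 1} = 0 :=
    le_antisymm h2 measureReal_nonneg
  exact (measureReal_eq_zero_iff (measure_ne_top _ _)).1 h3

theorem flip_int {μ : Measure (ℝ × ℝ)} (hsym : μ.map (fun p : ℝ × ℝ => (-p.1, p.2)) = μ)
    (g : ℝ → ℝ) (hg : Continuous g) (v : ℝ) :
    ∫ p in {p : ℝ × ℝ | p.2 < v}, g (-p.1) ∂μ = ∫ p in {p : ℝ × ℝ | p.2 < v}, g p.1 ∂μ := by
  have hm : Measurable (fun p : ℝ × ℝ => (-p.1, p.2)) :=
    (measurable_fst.neg).prodMk measurable_snd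
  conv_rhs => rw [← hsym]
  rw [← integral_indicator (ms_lt v), ← integral_indicator (ms_lt v),
    integral_map hm.aemeasurable]
  · refine integral_congr_ae (ae_of_all _ fun p => ?_)
    simp only [indicator, mem_ofPred_eq]
  · exact ((hg.measurable.comp measurable_fst).indicator (ms_lt v)).aestronglyMeasurable

/-- **The subharmonic function.** -/
theorem subh (μ : Measure (ℝ × ℝ)) [IsProbabilityMeasure μ]
    (hsym : μ.map (fun p : ℝ × ℝ => (-p.1, p.2)) = μ) (h0 : ∀ᵐ p ∂μ, |p.1| ≤ p.2)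
    (h2 : Integrable (fun p : ℝ × ℝ => p.2 ^ 2) μ) (hnd : μ {p | p.1 ≠ 0} ≠ 0) :
    ∃ (φ : ℝ → ℝ) (r0 : ℝ), 0 < r0 ∧ (∀ v w, |φ v - φ w| ≤ 2 * |v - w|) ∧
      (∀ v, 0 ≤ v → φ v ≤ v) ∧ (∀ v, r0 ≤ v → v / 2 ≤ φ v) ∧
      ∀ v, 0 < v → φ v ≤ ∫ p in {p : ℝ × ℝ | p.2 < v}, φ (v + p.1) ∂μ := by
  obtain ⟨a, K, ha, hK, hp⟩ := exists_pos hnd
  set p0 : ℝ := μ.real {p : ℝ × ℝ | a ≤ |p.1| ∧ p.2 < K} with hp0
  set δ : ℝ := a / 2 with hδd
  have hδ : 0 < δ := by positivity
  set C : ℝ := 2 / (δ * p0) with hCd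
  have hC : 0 < C := by positivity
  have hS := tf_summable h0 h2 hδ
  -- the tail of the series is small
  have htail : ∃ j0 : ℕ, K ≤ (j0 : ℝ) * δ ∧ C * ∑' j, tf μ (((j + j0 : ℕ) : ℝ) * δ) ≤ 1 / 16 := by
    have h1 : Tendsto (fun i : ℕ => ∑' j, tf μ (((j + i : ℕ) : ℝ) * δ)) atTop (𝓝 0) :=
      tendsto_sum_nat_add fun j : ℕ => tf μ ((j : ℝ) * δ)
    have h3 : Tendsto (fun i : ℕ => C * ∑' j, tf μ (((j + i : ℕ) : ℝ) * δ)) atTop (𝓝 0) := by
      simpa using h1.const_mul C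
    have h4 : ∀ᶠ i : ℕ in atTop, C * ∑' j, tf μ (((j + i : ℕ) : ℝ) * δ) ≤ 1 / 16 :=
      h3.eventually_le_const (by norm_num)
    have h5 : ∀ᶠ i : ℕ in atTop, K ≤ (i : ℝ) * δ :=
      (tendsto_natCast_atTop_atTop.atTop_mul_const hδ).eventually_ge_atTop K
    obtain ⟨i, hi1, hi2⟩ := (h4.and h5).exists
    exact ⟨i, hi2, hi1⟩
  obtain ⟨j0, hj1, hj2⟩ := htail
  set T : ℕ → ℝ := fun j => ((j + j0 : ℕ) : ℝ) * δ + δ with hTd
  set F : ℕ → ℝ := fun j => tf μ (((j + j0 : ℕ) : ℝ) * δ) with hFd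
  have hT : ∀ j, 0 ≤ T j := fun j => by positivity
  have hF : ∀ j, 0 ≤ F j := fun j => tf_nonneg h0 _
  have hFs : Summable F := (summable_nat_add_iff j0).2 hS
  set v0 : ℝ := (j0 : ℝ) * δ with hv0
  have hv0pos : 0 < v0 := hK.trans_le hj1
  set h : ℝ → ℝ := hh C T F with hhd
  have hlip : ∀ v w, |h v - h w| ≤ 1 / 16 * |v - w| := hh_lip hC.le hT hF hFs hj2
  have hcont : Continuous h := by
    have : LipschitzWith (1 / 16 : ℝ).toNNReal h := LipschitzWith.of_dist_le_mul fun v w => by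
      rw [Real.dist_eq, Real.dist_eq, Real.coe_toNNReal _ (by norm_num)]
      exact hlip v w
    exact this.continuous
  -- the drift of `h`
  have key : ∀ v, 0 < v → ∫ p in {p : ℝ × ℝ | p.2 < v}, h (v + p.1) ∂μ
      ≤ h v * μ.real {p : ℝ × ℝ | p.2 < v} - (if v0 ≤ v then tf μ v else 0) := by
    intro v hv
    have hi : ∀ s : ℝ, IntegrableOn (fun p : ℝ × ℝ => h (v + s * p.1))
        {p : ℝ × ℝ | p.2 < v} μ := by
      intro s
      refine Integrable.integrableOn ?_
      refine Integrable.mono' (g := fun p : ℝ × ℝ => |h v| + 1 / 16 * (|s| * |p.1|))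
        ((integrable_const _).add (((int_xi h0 h2).abs.const_mul _).const_mul _))
        (hcont.measurable.comp (measurable_const.add
          (measurable_fst.const_mul s))).aestronglyMeasurable (ae_of_all _ fun p => ?_)
      have := hlip (v + s * p.1) v
      rw [add_sub_cancel_left, abs_mul] at this
      rw [Real.norm_eq_abs]
      have h7 : |h (v + s * p.1)| ≤ |h v| + |h (v + s * p.1) - h v| := by
        have := abs_add_le (h v) (h (v + s * p.1) - h v)
        simpa using this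
      linarith
    have hi1 : IntegrableOn (fun p : ℝ × ℝ => h (v + p.1)) {p : ℝ × ℝ | p.2 < v} μ := by
      simpa using hi 1
    have hi2 : IntegrableOn (fun p : ℝ × ℝ => h (v - p.1)) {p : ℝ × ℝ | p.2 < v} μ := by
      have := hi (-1)
      simpa [sub_eq_add_neg] using this
    have hflip : ∫ p in {p : ℝ × ℝ | p.2 < v}, h (v - p.1) ∂μ
        = ∫ p in {p : ℝ × ℝ | p.2 < v}, h (v + p.1) ∂μ := by
      have := flip_int hsym (fun x => h (v + x)) (hcont.comp (continuous_const.add continuous_id)) v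
      simpa [sub_eq_add_neg] using this
    have hsum : 2 * ∫ p in {p : ℝ × ℝ | p.2 < v}, h (v + p.1) ∂μ
        = ∫ p in {p : ℝ × ℝ | p.2 < v}, (h (v + p.1) + h (v - p.1)) ∂μ := by
      rw [integral_add hi1 hi2, hflip]; ring
    by_cases hvv : v0 ≤ v
    · rw [if_pos hvv]
      -- the index of the grid point
      obtain ⟨i, hi3⟩ : ∃ i : ℕ, ⌊v / δ⌋₊ = i + j0 := by
        have : j0 ≤ ⌊v / δ⌋₊ := Nat.le_floor (by rw [le_div_iff₀ hδ]; exact hvv)
        exact ⟨⌊v / δ⌋₊ - j0, by omega⟩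
      have hfl1 : ((i + j0 : ℕ) : ℝ) * δ ≤ v := by
        rw [← hi3, ← le_div_iff₀ hδ]
        exact Nat.floor_le (by positivity)
      have hfl2 : v < ((i + j0 : ℕ) : ℝ) * δ + δ := by
        have := Nat.lt_floor_add_one (v / δ)
        rw [hi3, div_lt_iff₀ hδ] at this
        linarith
      have hFi : tf μ v ≤ F i := tf_anti h0 h2 hfl1
      have hTi : |v - T i| ≤ δ := by
        rw [abs_le]; constructor <;> simp only [hTd] <;> linarith
      have hpt : ∀ p : ℝ × ℝ, h (v + p.1) + h (v - p.1)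
          ≤ 2 * h v - ({p : ℝ × ℝ | a ≤ |p.1|}).indicator (fun _ => C * (δ * tf μ v)) p := by
        intro p
        by_cases hpa : a ≤ |p.1|
        · rw [indicator_of_mem (by exact hpa)]
          have h8 := hh_avg' hC.le hT hF hFs i hTi (x := p.1) (by rw [hδd]; linarith)
          have h9 : C * (δ * tf μ v) ≤ C * (δ * F i) :=
            mul_le_mul_of_nonneg_left (mul_le_mul_of_nonneg_left hFi hδ.le) hC.le
          linarith
        · rw [indicator_of_notMem (by exact hpa), sub_zero]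
          exact hh_avg hC.le hT hF hFs v p.1
      have hma : MeasurableSet {p : ℝ × ℝ | a ≤ |p.1|} :=
        measurableSet_le measurable_const measurable_fst.abs
      have hle : ∫ p in {p : ℝ × ℝ | p.2 < v}, (h (v + p.1) + h (v - p.1)) ∂μ
          ≤ ∫ p in {p : ℝ × ℝ | p.2 < v}, (2 * h v
            - ({p : ℝ × ℝ | a ≤ |p.1|}).indicator (fun _ => C * (δ * tf μ v)) p) ∂μ := by
        refine integral_mono_ae (hi1.add hi2) ?_ (ae_of_all _ hpt)
        exact ((integrable_const _).sub ((integrable_const _).indicator hma)).integrableOn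
      have hev : ∫ p in {p : ℝ × ℝ | p.2 < v}, (2 * h v
            - ({p : ℝ × ℝ | a ≤ |p.1|}).indicator (fun _ => C * (δ * tf μ v)) p) ∂μ
          = 2 * h v * μ.real {p : ℝ × ℝ | p.2 < v}
            - C * (δ * tf μ v) * μ.real ({p : ℝ × ℝ | a ≤ |p.1|} ∩ {p : ℝ × ℝ | p.2 < v}) := by
        have e1 : IntegrableOn (fun _ : ℝ × ℝ => 2 * h v) {p : ℝ × ℝ | p.2 < v} μ :=
          (integrable_const _).integrableOn
        have e2 : IntegrableOn (({p : ℝ × ℝ | a ≤ |p.1|}).indicator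
            (fun _ : ℝ × ℝ => C * (δ * tf μ v))) {p : ℝ × ℝ | p.2 < v} μ :=
          ((integrable_const (C * (δ * tf μ v))).indicator hma).integrableOn
        rw [integral_sub e1 e2, setIntegral_const,
          integral_indicator hma, Measure.restrict_restrict hma, setIntegral_const]
        simp only [smul_eq_mul]
        ring
      have hpp : p0 ≤ μ.real ({p : ℝ × ℝ | a ≤ |p.1|} ∩ {p : ℝ × ℝ | p.2 < v}) := by
        refine measureReal_mono ?_
        intro p hp'
        exact ⟨hp'.1, hp'.2.trans_le (hj1.trans hvv)⟩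
      have h10 : C * (δ * tf μ v) * p0 = 2 * tf μ v := by
        rw [hCd]; field_simp
      have h11 : C * (δ * tf μ v) * p0 ≤ C * (δ * tf μ v)
          * μ.real ({p : ℝ × ℝ | a ≤ |p.1|} ∩ {p : ℝ × ℝ | p.2 < v}) :=
        mul_le_mul_of_nonneg_left hpp
          (mul_nonneg hC.le (mul_nonneg hδ.le (tf_nonneg h0 v)))
      rw [← hsum, hev] at hle
      linarith
    · rw [if_neg hvv, sub_zero]
      have hle : ∫ p in {p : ℝ × ℝ | p.2 < v}, (h (v + p.1) + h (v - p.1)) ∂μ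
          ≤ ∫ _ in {p : ℝ × ℝ | p.2 < v}, (2 * h v) ∂μ := by
        refine integral_mono_ae (hi1.add hi2) (integrable_const _).integrableOn
          (ae_of_all _ fun p => ?_)
        exact hh_avg hC.le hT hF hFs v p.1
      rw [← hsum, setIntegral_const, smul_eq_mul] at hle
      linarith
  refine ⟨fun v => v - h v - v0, 3 * v0, by positivity, ?_, ?_, ?_, ?_⟩
  · intro v w
    have h3 := hlip v w
    have h4 : v - h v - v0 - (w - h w - v0) = (v - w) - (h v - h w) := by ring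
    simp only
    rw [h4]
    have h5 := abs_sub (v - w) (h v - h w)
    have h6 := abs_nonneg (v - w)
    linarith
  · intro v hv
    have := hh_nonneg hC.le hT hF hv
    simp only
    linarith
  · intro v hv
    have hv' : 0 ≤ v := by linarith
    have := hh_le hC.le hT hF hFs hj2 hv'
    simp only
    linarith
  · intro v hv
    have hi1 : IntegrableOn (fun p : ℝ × ℝ => h (v + p.1)) {p : ℝ × ℝ | p.2 < v} μ := by
      refine Integrable.integrableOn ?_
      refine Integrable.mono' (g := fun p : ℝ × ℝ => |h v| + 1 / 16 * |p.1|)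
        ((integrable_const _).add ((int_xi h0 h2).abs.const_mul _))
        (hcont.measurable.comp (measurable_const.add
          measurable_fst)).aestronglyMeasurable (ae_of_all _ fun p => ?_)
      have := hlip (v + p.1) v
      rw [add_sub_cancel_left] at this
      rw [Real.norm_eq_abs]
      have h7 : |h (v + p.1)| ≤ |h v| + |h (v + p.1) - h v| := by
        have := abs_add_le (h v) (h (v + p.1) - h v)
        simpa using this
      linarith
    have hix : IntegrableOn (fun p : ℝ × ℝ => p.1) {p : ℝ × ℝ | p.2 < v} μ :=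
      (int_xi h0 h2).integrableOn
    have hx0 : ∫ p in {p : ℝ × ℝ | p.2 < v}, p.1 ∂μ = 0 := by
      have := flip_int hsym (fun x => x) continuous_id v
      rw [integral_neg] at this
      linarith
    have hev : ∫ p in {p : ℝ × ℝ | p.2 < v}, (v + p.1 - h (v + p.1) - v0) ∂μ
        = (v - v0) * μ.real {p : ℝ × ℝ | p.2 < v}
          - ∫ p in {p : ℝ × ℝ | p.2 < v}, h (v + p.1) ∂μ := by
      have e1 : (fun p : ℝ × ℝ => v + p.1 - h (v + p.1) - v0)
          = fun p : ℝ × ℝ => ((v - v0) + p.1) - h (v + p.1) := by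
        funext p; ring
      have e2 : IntegrableOn (fun _ : ℝ × ℝ => v - v0) {p : ℝ × ℝ | p.2 < v} μ :=
        (integrable_const _).integrableOn
      have e3 : IntegrableOn (fun p : ℝ × ℝ => (v - v0) + p.1) {p : ℝ × ℝ | p.2 < v} μ :=
        e2.add hix
      rw [e1, integral_sub e3 hi1, integral_add e2 hix, hx0, setIntegral_const, smul_eq_mul]
      ring
    simp only
    rw [hev]
    have hk := key v hv
    have hcompl : μ.real {p : ℝ × ℝ | p.2 < v} = 1 - μ.real {p : ℝ × ℝ | v ≤ p.2} := by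
      have h12 : {p : ℝ × ℝ | p.2 < v} = {p : ℝ × ℝ | v ≤ p.2}ᶜ := by
        ext p; simp
      rw [h12, probReal_compl_eq_one_sub (ms_ge v)]
    have hm0 : 0 ≤ μ.real {p : ℝ × ℝ | v ≤ p.2} := measureReal_nonneg
    have hh0 : 0 ≤ h v := hh_nonneg hC.le hT hF hv.le
    have hml := mul_le_tf h0 h2 v
    set q : ℝ := μ.real {p : ℝ × ℝ | v ≤ p.2} with hq
    rw [hcompl] at hk ⊢
    by_cases hvv : v0 ≤ v
    · rw [if_pos hvv] at hk
      nlinarith [mul_nonneg hh0 hm0, mul_nonneg hv0pos.le hm0]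
    · rw [if_neg hvv, sub_zero] at hk
      push Not at hvv
      nlinarith [mul_nonneg hh0 hm0, mul_nonneg (sub_nonneg.2 hvv.le) hm0]

end Crest.Agent.R154.Subh470
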