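import Crest.Agent.R154.Sun_95

/-!
# Row 154: SUN lemma with the free range (998's FREE RANGE, 95's SUN)

`c m` = cost (`-log Sh`) at level `h_0 + m y`, nondecreasing, adapted.  Hypotheses:
(a) threshold `X` only, ANY later level, given the past one window below;
(b) one slope `X` per window, `n` windows, given the past `n` windows below.
Conclusion: `P (c (2k) - c k ≥ u) ≤ exp (-(lam/16) u)` for `8 X ≤ u ≤ k X`, as long as
`k ≤ u exp (lam X / 8)`.  The number of windows may be polynomial in the scale.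
-/

set_option autoImplicit false
set_option linter.unusedVariables false
set_option linter.deprecated false

open MeasureTheory ENNReal

namespace Crest.Agent.R154.Sun327

open Crest.Agent.R154.Sun95

variable {Ω : Type*} {m0 : MeasurableSpace Ω} {P : Measure Ω}

/-! ### deterministic facts on the light part -/

theorem T_of_le (c : ℕ → Ω → ℝ) (X : ℝ) {k e : ℕ} (h : e ≤ k) (ω : Ω) : T c X k e ω = 0 := by
  unfold T
  rw [Finset.Ico_eq_empty_of_le h, Finset.sum_empty]

theorem zz_le {c : ℕ → Ω → ℝ} {X : ℝ} (hX : 0 ≤ X) (m : ℕ) (ω : Ω) : zz c X m ω ≤ X := by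
  unfold zz
  split_ifs with h
  · exact h.le
  · exact hX

theorem zz_le_diff {c : ℕ → Ω → ℝ} (hmono : ∀ ω, Monotone fun m => c m ω) (X : ℝ) (m : ℕ)
    (ω : Ω) : zz c X m ω ≤ c (m + 1) ω - c m ω := by
  unfold zz
  split_ifs
  · exact le_rfl
  · have := hmono ω (Nat.le_succ m)
    simp only [Nat.succ_eq_add_one] at this
    linarith

theorem T_le_diff {c : ℕ → Ω → ℝ} (hmono : ∀ ω, Monotone fun m => c m ω) (X : ℝ) (k : ℕ)
    (ω : Ω) : ∀ e, k ≤ e → T c X k e ω ≤ c e ω - c k ω := by
  intro e he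
  induction e, he using Nat.le_induction with
  | base => rw [T_of_le c X le_rfl ω]; simp
  | succ e he ih =>
    rw [T_succ c X he ω]
    have := zz_le_diff hmono X e ω
    linarith

theorem T_split (c : ℕ → Ω → ℝ) (X : ℝ) {k t e : ℕ} (h1 : k ≤ t) (h2 : t ≤ e) (ω : Ω) :
    T c X k e ω = T c X k t ω + T c X t e ω := by
  unfold T
  rw [Finset.sum_Ico_consecutive _ h1 h2]

theorem T_head (c : ℕ → Ω → ℝ) (X : ℝ) {t e : ℕ} (h : t < e) (ω : Ω) :
    T c X t e ω = zz c X t ω + T c X (t + 1) e ω := by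
  unfold T
  rw [Finset.sum_eq_sum_Ico_succ_bot h]

/-- `T(k,t) ≤ T(k,t-1) + X` -/
theorem T_pred {c : ℕ → Ω → ℝ} (hmono : ∀ ω, Monotone fun m => c m ω) {X : ℝ} (hX : 0 ≤ X)
    {k t : ℕ} (h : k ≤ t) (ω : Ω) : T c X k t ω ≤ T c X k (t - 1) ω + X := by
  rcases h.eq_or_lt with rfl | h
  · rw [T_of_le c X le_rfl ω, T_of_le c X (Nat.sub_le _ _) ω]
    linarith
  · obtain ⟨t', rfl⟩ : ∃ t', t = t' + 1 := ⟨t - 1, by omega⟩
    rw [T_succ c X (by omega) ω, Nat.add_sub_cancel]
    have := zz_le (c := c) hX t' ω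
    linarith

/-- upper bound of `exp (θ * light part)` -/
noncomputable def G (c : ℕ → Ω → ℝ) (X θ : ℝ) (k : ℕ) : ℕ → ℕ → Ω → ℝ≥0∞
  | 0, _ => fun _ => 1
  | j + 1, e => fun ω => if e ≤ k then 1 else
      ENNReal.ofReal (Real.exp (θ * X)) + ∑ t ∈ Finset.Ico k e,
        {ω' | X ≤ c e ω' - c t ω'}.indicator
          (fun ω' => ENNReal.ofReal (Real.exp (3 * θ * X)) * G c X θ k j (t - 1) ω') ω

theorem det2 {c : ℕ → Ω → ℝ} (hmono : ∀ ω, Monotone fun m => c m ω) {X θ : ℝ}
    (hθ : 0 ≤ θ) (hX : 0 < X) {k : ℕ} (ω : Ω) :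
    ∀ j e, e ≤ k + j → ENNReal.ofReal (Real.exp (θ * T c X k e ω)) ≤ G c X θ k j e ω := by
  have hsmall : ∀ e, e ≤ k → ENNReal.ofReal (Real.exp (θ * T c X k e ω)) ≤ 1 := by
    intro e he
    rw [T_of_le c X he ω]
    simp
  intro j
  induction j with
  | zero => intro e he; exact hsmall e (by omega)
  | succ j ih =>
    intro e he
    simp only [G]
    split_ifs with hek
    · exact hsmall e hek
    push Not at hek
    by_cases hT : T c X k e ω < X
    · refine le_trans ?_ le_self_add
      exact ENNReal.ofReal_le_ofReal (Real.exp_le_exp.2 (mul_le_mul_of_nonneg_left hT.le hθ))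
    · push Not at hT
      let Q : ℕ → Prop := fun t => X ≤ T c X t e ω
      have : DecidablePred Q := fun _ => Classical.propDecidable _
      set t := Nat.findGreatest Q e with ht
      have hQk : Q k := hT
      have htk : k ≤ t := Nat.le_findGreatest hek.le hQk
      have hQt : Q t := Nat.findGreatest_spec hek.le hQk
      have hte : t ≤ e := Nat.findGreatest_le _
      have hne : t ≠ e := by
        intro h
        have h1 : X ≤ T c X t e ω := hQt
        rw [h, T_of_le c X le_rfl ω] at h1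
        linarith
      have hlt : t < e := lt_of_le_of_ne hte hne
      have hnQ : ¬ Q (t + 1) := Nat.findGreatest_is_greatest (Nat.lt_succ_self _) (by omega)
      simp only [Q, not_le] at hnQ
      have h1 : T c X k e ω ≤ T c X k (t - 1) ω + 3 * X := by
        rw [T_split c X htk hte ω, T_head c X hlt ω]
        have h2 := zz_le (c := c) hX.le t ω
        have h3 := T_pred hmono hX.le htk ω
        linarith
      have h4 : X ≤ c e ω - c t ω := le_trans hQt (T_le_diff hmono X t ω e hte)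
      have hmem : t ∈ Finset.Ico k e := Finset.mem_Ico.2 ⟨htk, hlt⟩
      refine le_trans ?_ (le_add_left (Finset.single_le_sum
        (f := fun t : ℕ => {ω' | X ≤ c e ω' - c t ω'}.indicator
          (fun ω' => ENNReal.ofReal (Real.exp (3 * θ * X)) * G c X θ k j (t - 1) ω') ω)
        (fun _ _ => zero_le) hmem))
      have hind : ω ∈ {ω' | X ≤ c e ω' - c t ω'} := h4
      simp only [Set.indicator_of_mem hind]
      refine le_trans ?_ (mul_le_mul_right (ih (t - 1) (by omega)) _)
      rw [← ENNReal.ofReal_mul (Real.exp_pos _).le, ← Real.exp_add]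
      refine ENNReal.ofReal_le_ofReal (Real.exp_le_exp.2 ?_)
      calc θ * T c X k e ω ≤ θ * (T c X k (t - 1) ω + 3 * X) :=
            mul_le_mul_of_nonneg_left h1 hθ
        _ = _ := by ring

theorem G_meas {F : Filtration ℕ m0} {c : ℕ → Ω → ℝ} (hcm : ∀ m, Measurable[F m] (c m))
    (X θ : ℝ) (k : ℕ) : ∀ j e, Measurable[F e] (G c X θ k j e) := by
  intro j
  induction j with
  | zero => intro e; exact measurable_const
  | succ j ih =>
    intro e
    simp only [G]
    by_cases hek : e ≤ k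
    · simp only [hek, if_true]; exact measurable_const
    · simp only [hek, if_false]
      refine Measurable.const_add ?_ _
      refine Finset.measurable_sum _ fun t ht => ?_
      rw [Finset.mem_Ico] at ht
      refine Measurable.indicator ?_ ?_
      · exact Measurable.const_mul ((ih (t - 1)).mono (F.mono (by omega)) le_rfl) _
      · exact measurableSet_le measurable_const
          (Measurable.sub (hcm e) ((hcm t).mono (F.mono (by omega)) le_rfl))

theorem geo (η : ℝ≥0∞) (n : ℕ) : 1 + ∑ s ∈ Finset.range n, η * (1 + η) ^ s = (1 + η) ^ n := by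
  induction n with
  | zero => simp
  | succ n ih =>
    rw [Finset.sum_range_succ, ← add_assoc, ih, pow_succ, mul_add, mul_one, mul_comm η]

theorem G_int {F : Filtration ℕ m0} {c : ℕ → Ω → ℝ} (hcm : ∀ m, Measurable[F m] (c m))
    {X lam : ℝ} (hlX : 0 ≤ lam * X) {k : ℕ}
    (ha : ∀ t t' : ℕ, k ≤ t → t < t' → t' ≤ 2 * k → ∀ B, MeasurableSet[F (t - 1)] B →
      P (B ∩ {ω | X ≤ c t' ω - c t ω}) ≤ ENNReal.ofReal (Real.exp (-(lam * X))) * P B) :
    ∀ j e, e ≤ 2 * k → ∫⁻ ω, G c X (lam / 4) k j e ω ∂P ≤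
      (1 + ENNReal.ofReal (Real.exp (-(lam * X / 4)))) ^ (e - k) *
        (ENNReal.ofReal (Real.exp (lam * X / 4)) * P Set.univ) := by
  set η : ℝ≥0∞ := ENNReal.ofReal (Real.exp (-(lam * X / 4))) with hη
  set A : ℝ≥0∞ := ENNReal.ofReal (Real.exp (lam * X / 4)) * P Set.univ with hA
  have h1A : P Set.univ ≤ A := by
    rw [hA]
    calc P Set.univ = 1 * P Set.univ := (one_mul _).symm
      _ ≤ _ := by
        refine mul_le_mul_left ?_ _
        rw [ENNReal.one_le_ofReal]
        exact Real.one_le_exp (by linarith)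
  have hone : ∀ a : ℕ, A ≤ (1 + η) ^ a * A := by
    intro a
    calc A = 1 * A := (one_mul _).symm
      _ ≤ _ := mul_le_mul_left (one_le_pow₀ le_self_add) _
  intro j
  induction j with
  | zero => intro e _; simp only [G]; rw [lintegral_one]; exact h1A.trans (hone _)
  | succ j ih =>
    intro e he2
    simp only [G]
    by_cases hek : e ≤ k
    · simp only [hek, if_true]; rw [lintegral_one]; exact h1A.trans (hone _)
    · simp only [hek, if_false]
      have hmE : ∀ t : ℕ, MeasurableSet {ω' | X ≤ c e ω' - c t ω'} := fun t =>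
        measurableSet_le measurable_const
          (Measurable.sub ((hcm e).mono (F.le _) le_rfl) ((hcm t).mono (F.le _) le_rfl))
      rw [lintegral_add_left measurable_const,
        lintegral_finset_sum _ fun t _ => Measurable.indicator
          (Measurable.const_mul ((G_meas hcm X (lam / 4) k j (t - 1)).mono (F.le _) le_rfl) _)
          (hmE t), lintegral_const]
      have h0 : ENNReal.ofReal (Real.exp (lam / 4 * X)) * P Set.univ = A := by
        rw [hA]; congr 3; ring
      rw [h0]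
      have h2 : ∀ t ∈ Finset.Ico k e,
          ∫⁻ ω, {ω' | X ≤ c e ω' - c t ω'}.indicator
            (fun ω' => ENNReal.ofReal (Real.exp (3 * (lam / 4) * X)) *
              G c X (lam / 4) k j (t - 1) ω') ω ∂P ≤
            η * (1 + η) ^ (t - k) * A := by
        intro t ht
        rw [Finset.mem_Ico] at ht
        have h3 := lint_ind_le (P := P) (F.le (t - 1)) (hmE t)
          (ha t e ht.1 ht.2 he2)
          (f := fun ω' => ENNReal.ofReal (Real.exp (3 * (lam / 4) * X)) *
              G c X (lam / 4) k j (t - 1) ω')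
          (Measurable.const_mul (G_meas hcm X (lam / 4) k j (t - 1)) _)
        refine h3.trans ?_
        rw [lintegral_const_mul _ ((G_meas hcm X (lam / 4) k j (t - 1)).mono (F.le _) le_rfl),
          ← mul_assoc, ← ENNReal.ofReal_mul (Real.exp_pos _).le, ← Real.exp_add, mul_assoc η]
        refine mul_le_mul' ?_ ((ih (t - 1) (by omega)).trans ?_)
        · rw [hη]
          refine ENNReal.ofReal_le_ofReal (Real.exp_le_exp.2 ?_)
          linarith
        · exact mul_le_mul_left (pow_le_pow_right₀ le_self_add (by omega)) _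
      calc A + ∑ t ∈ Finset.Ico k e, ∫⁻ ω, {ω' | X ≤ c e ω' - c t ω'}.indicator
            (fun ω' => ENNReal.ofReal (Real.exp (3 * (lam / 4) * X)) *
              G c X (lam / 4) k j (t - 1) ω') ω ∂P
          ≤ A + ∑ t ∈ Finset.Ico k e, η * (1 + η) ^ (t - k) * A :=
            add_le_add le_rfl (Finset.sum_le_sum h2)
        _ = (1 + ∑ s ∈ Finset.range (e - k), η * (1 + η) ^ s) * A := by
            rw [← Finset.sum_mul, add_mul, one_mul, Finset.sum_Ico_eq_sum_range]
            congr 2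
            refine Finset.sum_congr rfl fun s _ => ?_
            rw [Nat.add_sub_cancel_left]
        _ = (1 + η) ^ (e - k) * A := by rw [geo]

/-- steep part, exponential moment, sharp growth -/
theorem V_int2 {F : Filtration ℕ m0} {c : ℕ → Ω → ℝ} (hcm : ∀ m, Measurable[F m] (c m))
    {X lam : ℝ} (hlX : 4 ≤ lam * X) {k : ℕ}
    (hb : ∀ e n : ℕ, 1 ≤ n → 2 * n ≤ e → e ≤ 2 * k → ∀ B, MeasurableSet[F (e - 2 * n)] B →
      P (B ∩ {ω | (n : ℝ) * X ≤ c e ω - c (e - n) ω}) ≤
        ENNReal.ofReal (Real.exp (-(lam * (n * X)))) * P B) :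
    ∀ j e, e ≤ 2 * k → ∫⁻ ω, V c X (lam / 4) k j e ω ∂P ≤
      (1 + ENNReal.ofReal (Real.exp (-(lam * X / 4)))) ^ (e - k) * P Set.univ := by
  set η : ℝ≥0∞ := ENNReal.ofReal (Real.exp (-(lam * X / 4))) with hη
  have hone : ∀ a : ℕ, P Set.univ ≤ (1 + η) ^ a * P Set.univ := by
    intro a
    calc P Set.univ = 1 * P Set.univ := (one_mul _).symm
      _ ≤ _ := mul_le_mul_left (one_le_pow₀ le_self_add) _
  intro j
  induction j with
  | zero => intro e _; simp only [V]; rw [lintegral_one]; exact hone _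
  | succ j ih =>
    intro e he2
    simp only [V]
    by_cases hek : e ≤ k
    · simp only [hek, if_true]; rw [lintegral_one]; exact hone _
    · simp only [hek, if_false]
      have hmE : ∀ n : ℕ, MeasurableSet {ω' | (n : ℝ) * X ≤ c e ω' - c (e - n) ω'} := fun n =>
        measurableSet_le measurable_const
          (Measurable.sub ((hcm e).mono (F.le _) le_rfl) ((hcm (e - n)).mono (F.le _) le_rfl))
      rw [lintegral_add_left ((V_meas hcm X (lam / 4) k j (e - 1)).mono (F.le _) le_rfl),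
        lintegral_finset_sum _ fun n _ => Measurable.indicator
          (Measurable.const_mul ((V_meas hcm X (lam / 4) k j (e - 2 * n)).mono (F.le _) le_rfl) _)
          (hmE n)]
      have h1 := ih (e - 1) (by omega)
      have h2 : ∀ n ∈ Finset.Icc 1 (e / 2),
          ∫⁻ ω, {ω' | (n : ℝ) * X ≤ c e ω' - c (e - n) ω'}.indicator
            (fun ω' => ENNReal.ofReal (Real.exp (2 * (lam / 4) * (n * X))) *
              V c X (lam / 4) k j (e - 2 * n) ω') ω ∂P ≤
            (2⁻¹ : ℝ≥0∞) ^ n * (η * ((1 + η) ^ (e - 1 - k) * P Set.univ)) := by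
        intro n hn
        rw [Finset.mem_Icc] at hn
        have h3 := lint_ind_le (P := P) (F.le (e - 2 * n)) (hmE n)
          (hb e n hn.1 (by omega) he2)
          (f := fun ω' => ENNReal.ofReal (Real.exp (2 * (lam / 4) * (n * X))) *
              V c X (lam / 4) k j (e - 2 * n) ω')
          (Measurable.const_mul (V_meas hcm X (lam / 4) k j (e - 2 * n)) _)
        refine h3.trans ?_
        rw [lintegral_const_mul _ ((V_meas hcm X (lam / 4) k j (e - 2 * n)).mono (F.le _) le_rfl),
          ← mul_assoc, ← ENNReal.ofReal_mul (Real.exp_pos _).le, ← Real.exp_add,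
          ← mul_assoc ((2⁻¹ : ℝ≥0∞) ^ n) η]
        refine mul_le_mul' ?_ ((ih (e - 2 * n) (by omega)).trans ?_)
        · have h4 := half_pow (t := lam * X / 4) (by linarith) n
          refine le_trans ?_ (mul_le_mul_left h4 _)
          rw [hη, ← ENNReal.ofReal_mul (Real.exp_pos _).le, ← Real.exp_add]
          refine ENNReal.ofReal_le_ofReal (Real.exp_le_exp.2 ?_)
          have h5 : (1 : ℝ) ≤ n := by exact_mod_cast hn.1
          nlinarith
        · refine mul_le_mul_left (pow_le_pow_right₀ le_self_add (by omega)) _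
      calc _ ≤ (1 + η) ^ (e - 1 - k) * P Set.univ + ∑ n ∈ Finset.Icc 1 (e / 2),
            (2⁻¹ : ℝ≥0∞) ^ n * (η * ((1 + η) ^ (e - 1 - k) * P Set.univ)) :=
            add_le_add h1 (Finset.sum_le_sum h2)
        _ = (∑ n ∈ Finset.Icc 1 (e / 2), (2⁻¹ : ℝ≥0∞) ^ n) *
              (η * ((1 + η) ^ (e - 1 - k) * P Set.univ)) +
              (1 + η) ^ (e - 1 - k) * P Set.univ := by rw [← Finset.sum_mul, add_comm]
        _ ≤ 1 * (η * ((1 + η) ^ (e - 1 - k) * P Set.univ)) +
              (1 + η) ^ (e - 1 - k) * P Set.univ := by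
            refine add_le_add (mul_le_mul_left ?_ _) le_rfl
            rw [← sum_half (e / 2)]; exact le_self_add
        _ = (1 + η) * ((1 + η) ^ (e - 1 - k) * P Set.univ) := by ring
        _ = (1 + η) ^ (e - k) * P Set.univ := by
            rw [← mul_assoc, ← pow_succ']
            congr 2
            omega

/-- growth factor over `k` windows -/
theorem growth {X lam u : ℝ} (hlX : 64 ≤ lam * X) {k : ℕ}
    (hku : (k : ℝ) ≤ u * Real.exp (lam * X / 8)) (hu : 0 ≤ u) :
    (1 + ENNReal.ofReal (Real.exp (-(lam * X / 4)))) ^ k ≤ ENNReal.ofReal (Real.exp (u / 64)) := by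
  have h8 : Real.exp (-(lam * X / 8)) ≤ 1 / 64 := by
    have h1 : (64 : ℝ) ≤ Real.exp 8 := by
      have h7 : (2 : ℝ) ≤ Real.exp 1 := by have := Real.add_one_le_exp (1 : ℝ); linarith
      calc (64 : ℝ) ≤ 2 ^ 8 := by norm_num
        _ ≤ Real.exp 1 ^ 8 := pow_le_pow_left₀ (by norm_num) h7 8
        _ = Real.exp 8 := by rw [← Real.exp_nat_mul]; norm_num
    calc Real.exp (-(lam * X / 8)) ≤ Real.exp (-8) := Real.exp_le_exp.2 (by linarith)
      _ = (Real.exp 8)⁻¹ := Real.exp_neg 8
      _ ≤ (64 : ℝ)⁻¹ := inv_anti₀ (by norm_num) h1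
      _ = 1 / 64 := by norm_num
  have h1 : (1 : ℝ≥0∞) + ENNReal.ofReal (Real.exp (-(lam * X / 4))) =
      ENNReal.ofReal (1 + Real.exp (-(lam * X / 4))) := by
    rw [ENNReal.ofReal_add (by norm_num) (Real.exp_pos _).le, ENNReal.ofReal_one]
  rw [h1, ← ENNReal.ofReal_pow (by positivity)]
  refine ENNReal.ofReal_le_ofReal ?_
  calc (1 + Real.exp (-(lam * X / 4))) ^ k ≤ Real.exp (Real.exp (-(lam * X / 4))) ^ k := by
        refine pow_le_pow_left₀ (by positivity) ?_ k
        rw [add_comm]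
        exact Real.add_one_le_exp _
    _ = Real.exp (k * Real.exp (-(lam * X / 4))) := by rw [← Real.exp_nat_mul]
    _ ≤ Real.exp (u / 64) := by
        refine Real.exp_le_exp.2 ?_
        calc (k : ℝ) * Real.exp (-(lam * X / 4))
            ≤ (u * Real.exp (lam * X / 8)) * Real.exp (-(lam * X / 4)) := by gcongr
          _ = u * Real.exp (-(lam * X / 8)) := by
              rw [mul_assoc, ← Real.exp_add]; congr 2; ring
          _ ≤ u * (1 / 64) := by gcongr
          _ = u / 64 := by ring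

/-- **SUN lemma with free range, real cost process.** -/
theorem sun2_real {F : Filtration ℕ m0} {c : ℕ → Ω → ℝ} (hcm : ∀ m, Measurable[F m] (c m))
    (hmono : ∀ ω, Monotone fun m => c m ω) {X lam : ℝ} (hlam : 1 ≤ lam) (hX : 64 ≤ X)
    {k : ℕ}
    (ha : ∀ t t' : ℕ, k ≤ t → t < t' → t' ≤ 2 * k → ∀ B, MeasurableSet[F (t - 1)] B →
      P (B ∩ {ω | X ≤ c t' ω - c t ω}) ≤ ENNReal.ofReal (Real.exp (-(lam * X))) * P B)
    (hb : ∀ e n : ℕ, 1 ≤ n → 2 * n ≤ e → e ≤ 2 * k → ∀ B, MeasurableSet[F (e - 2 * n)] B →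
      P (B ∩ {ω | (n : ℝ) * X ≤ c e ω - c (e - n) ω}) ≤
        ENNReal.ofReal (Real.exp (-(lam * (n * X)))) * P B)
    {u : ℝ} (hu1 : 8 * X ≤ u) (hu2 : u ≤ k * X) (hku : (k : ℝ) ≤ u * Real.exp (lam * X / 8)) :
    P {ω | u ≤ c (2 * k) ω - c k ω} ≤ ENNReal.ofReal (Real.exp (-(lam / 16 * u))) * P Set.univ := by
  have hk8 : (8 : ℝ) ≤ k := by
    by_contra hcon
    push Not at hcon
    nlinarith
  have hk : 3 ≤ k := by
    have : (3 : ℝ) ≤ k := by linarith
    exact_mod_cast this
  have hu0 : 512 ≤ u := by linarith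
  have hlX : 64 ≤ lam * X := by nlinarith
  have hlu : u ≤ lam * u := by nlinarith
  have hlXu : 8 * (lam * X) ≤ lam * u := by nlinarith
  have hgr := growth hlX hku (by linarith)
  -- long steep intervals
  set Ix := ((Finset.range (2 * k + 1)) ×ˢ (Finset.range (2 * k + 1))).filter
    (fun q : ℕ × ℕ => k < q.1 ∧ q.1 ≤ 2 * k ∧ q.1 < 4 * q.2 ∧ 2 * q.2 ≤ q.1) with hIx
  set Lg : Set Ω := ⋃ q ∈ Ix, {ω | (q.2 : ℝ) * X ≤ c q.1 ω - c (q.1 - q.2) ω} with hLg
  have hLgP : P Lg ≤ ENNReal.ofReal (1 / 4 * Real.exp (-(lam / 16 * u))) * P Set.univ := by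
    have h1 : ∀ q ∈ Ix, P {ω | (q.2 : ℝ) * X ≤ c q.1 ω - c (q.1 - q.2) ω} ≤
        ENNReal.ofReal (Real.exp (-(lam * (k * X / 4)))) * P Set.univ := by
      intro q hq
      rw [hIx, Finset.mem_filter] at hq
      obtain ⟨_, h2, h3, h4, h5⟩ := hq
      have h6 := hb q.1 q.2 (by omega) h5 h3 Set.univ MeasurableSet.univ
      rw [Set.univ_inter] at h6
      refine h6.trans (mul_le_mul_left (ENNReal.ofReal_le_ofReal (Real.exp_le_exp.2 ?_)) _)
      have h7 : (k : ℝ) ≤ 4 * q.2 := by exact_mod_cast (by omega : k ≤ 4 * q.2)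
      have h8 : k * X / 4 ≤ q.2 * X := by nlinarith
      have : lam * (k * X / 4) ≤ lam * (q.2 * X) := mul_le_mul_of_nonneg_left h8 (by linarith)
      linarith
    have hcard : (Ix.card : ℝ) ≤ Real.exp (4 * k) := by
      have h9 : Ix.card ≤ (2 * k + 1) * (2 * k + 1) := by
        refine (Finset.card_filter_le _ _).trans ?_
        rw [Finset.card_product, Finset.card_range]
      have h10 : ((Ix.card : ℕ) : ℝ) ≤ (2 * k + 1) * (2 * k + 1) := by exact_mod_cast h9
      have h11 : (2 * (k : ℝ) + 1) ≤ Real.exp (2 * k) := Real.add_one_le_exp _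
      calc (Ix.card : ℝ) ≤ (2 * k + 1) * (2 * k + 1) := h10
        _ ≤ Real.exp (2 * k) * Real.exp (2 * k) := by gcongr
        _ = Real.exp (4 * k) := by rw [← Real.exp_add]; congr 1; ring
    calc P Lg ≤ ∑ q ∈ Ix, P {ω | (q.2 : ℝ) * X ≤ c q.1 ω - c (q.1 - q.2) ω} :=
          measure_biUnion_finset_le _ _
      _ ≤ ∑ _q ∈ Ix, ENNReal.ofReal (Real.exp (-(lam * (k * X / 4)))) * P Set.univ :=
          Finset.sum_le_sum h1
      _ = ENNReal.ofReal ((Ix.card : ℝ) * Real.exp (-(lam * (k * X / 4)))) * P Set.univ := by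
          rw [Finset.sum_const, nsmul_eq_mul, ← mul_assoc,
            ENNReal.ofReal_mul (Nat.cast_nonneg _), ENNReal.ofReal_natCast]
      _ ≤ _ := by
          refine mul_le_mul_left (ENNReal.ofReal_le_ofReal ?_) _
          calc (Ix.card : ℝ) * Real.exp (-(lam * (k * X / 4)))
              ≤ Real.exp (4 * k) * Real.exp (-(lam * (k * X / 4))) := by gcongr
            _ = Real.exp (4 * k - lam * (k * X / 4)) := by rw [← Real.exp_add]; congr 1
            _ ≤ _ := by
                apply quarter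
                have h12 : lam * u ≤ lam * (k * X) := mul_le_mul_of_nonneg_left hu2 (by linarith)
                have h13 : 64 * (k : ℝ) ≤ lam * (k * X) := by nlinarith
                linarith
  -- steep part
  have hVm : Measurable (V c X (lam / 4) k k (2 * k)) :=
    (V_meas hcm X (lam / 4) k k (2 * k)).mono (F.le _) le_rfl
  have e1 : 2 * k - k = k := by omega
  have hV : P {ω | ENNReal.ofReal (Real.exp (lam * u / 8)) ≤ V c X (lam / 4) k k (2 * k) ω} ≤
      ENNReal.ofReal (1 / 4 * Real.exp (-(lam / 16 * u))) * P Set.univ := by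
    have h1 : ∫⁻ ω, V c X (lam / 4) k k (2 * k) ω ∂P ≤
        ENNReal.ofReal (Real.exp (u / 64)) * P Set.univ := by
      refine (V_int2 hcm (by linarith) hb k (2 * k) le_rfl).trans (mul_le_mul_left ?_ _)
      rw [e1]
      exact hgr
    refine (markov_exp hVm h1).trans (mul_le_mul_left (ENNReal.ofReal_le_ofReal ?_) _)
    apply quarter
    linarith
  -- light part
  have hGm : Measurable (G c X (lam / 4) k k (2 * k)) :=
    (G_meas hcm X (lam / 4) k k (2 * k)).mono (F.le _) le_rfl
  have hG : P {ω | ENNReal.ofReal (Real.exp (lam * u / 8)) ≤ G c X (lam / 4) k k (2 * k) ω} ≤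
      ENNReal.ofReal (1 / 4 * Real.exp (-(lam / 16 * u))) * P Set.univ := by
    have h1 : ∫⁻ ω, G c X (lam / 4) k k (2 * k) ω ∂P ≤
        ENNReal.ofReal (Real.exp (u / 64 + lam * X / 4)) * P Set.univ := by
      refine (G_int hcm (by linarith) ha k (2 * k) le_rfl).trans ?_
      rw [e1, Real.exp_add, ENNReal.ofReal_mul (Real.exp_pos _).le, mul_assoc]
      exact mul_le_mul_left hgr _
    refine (markov_exp hGm h1).trans (mul_le_mul_left (ENNReal.ofReal_le_ofReal ?_) _)
    apply quarter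
    linarith
  -- combination
  have hsub : {ω | u ≤ c (2 * k) ω - c k ω} ⊆ Lg ∪
      ({ω | ENNReal.ofReal (Real.exp (lam * u / 8)) ≤ V c X (lam / 4) k k (2 * k) ω} ∪
      {ω | ENNReal.ofReal (Real.exp (lam * u / 8)) ≤ G c X (lam / 4) k k (2 * k) ω}) := by
    intro ω hω
    by_cases hL : ω ∈ Lg
    · exact Or.inl hL
    right
    have hno : ∀ e n : ℕ, k < e → e ≤ 2 * k → e < 4 * n → 2 * n ≤ e →
        c e ω - c (e - n) ω < n * X := by
      intro e n h1 h2 h3 h4
      by_contra hcon
      push Not at hcon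
      apply hL
      rw [hLg, Set.mem_iUnion₂]
      refine ⟨(e, n), ?_, hcon⟩
      rw [hIx, Finset.mem_filter, Finset.mem_product, Finset.mem_range, Finset.mem_range]
      exact ⟨⟨by simp only; omega, by simp only; omega⟩, h1, h2, h3, h4⟩
    have hdet := det hmono (θ := lam / 4) (by linarith) hk ω hno k (2 * k) (by omega) le_rfl
    have hω' : u ≤ c (2 * k) ω - c k ω := hω
    by_cases h1 : u / 2 ≤ T c X k (2 * k) ω
    · right
      refine le_trans (ENNReal.ofReal_le_ofReal (Real.exp_le_exp.2 ?_))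
        (det2 hmono (θ := lam / 4) (by linarith) (by linarith) ω k (2 * k) (by omega))
      nlinarith
    · left
      push Not at h1
      refine le_trans (ENNReal.ofReal_le_ofReal (Real.exp_le_exp.2 ?_)) hdet
      nlinarith
  refine (measure_mono hsub).trans ?_
  refine (measure_union_le _ _).trans ((add_le_add le_rfl (measure_union_le _ _)).trans ?_)
  refine (add_le_add hLgP (add_le_add hV hG)).trans ?_
  rw [← add_mul, ← add_mul, ← ENNReal.ofReal_add (by positivity) (by positivity),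
    ← ENNReal.ofReal_add (by positivity) (by positivity)]
  refine mul_le_mul_left (ENNReal.ofReal_le_ofReal ?_) _
  have := Real.exp_pos (-(lam / 16 * u))
  linarith

/-- **SUN lemma with free range**, for a nonincreasing survival process `s`. -/
theorem sun2 {F : Filtration ℕ m0} {s : ℕ → Ω → ℝ≥0∞} (hsm : ∀ m, Measurable[F m] (s m))
    (hanti : ∀ m ω, s (m + 1) ω ≤ s m ω) (hfin : ∀ m ω, s m ω ≠ ∞)
    {X lam : ℝ} (hlam : 1 ≤ lam) (hX : 64 ≤ X) {k : ℕ}
    (ha : ∀ t t' : ℕ, k ≤ t → t < t' → t' ≤ 2 * k → ∀ B, MeasurableSet[F (t - 1)] B →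
      P (B ∩ {ω | s t ω ≠ 0 ∧ s t' ω ≤ ENNReal.ofReal (Real.exp (-X)) * s t ω}) ≤
        ENNReal.ofReal (Real.exp (-(lam * X))) * P B)
    (hb : ∀ e n : ℕ, 1 ≤ n → 2 * n ≤ e → e ≤ 2 * k → ∀ B, MeasurableSet[F (e - 2 * n)] B →
      P (B ∩ {ω | s (e - n) ω ≠ 0 ∧ s e ω ≤
        ENNReal.ofReal (Real.exp (-(n * X))) * s (e - n) ω}) ≤
        ENNReal.ofReal (Real.exp (-(lam * (n * X)))) * P B)
    {u : ℝ} (hu1 : 8 * X ≤ u) (hu2 : u ≤ k * X) (hku : (k : ℝ) ≤ u * Real.exp (lam * X / 8))
    {B : Set Ω} (hB : MeasurableSet[F 0] B) :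
    P (B ∩ {ω | s k ω ≠ 0 ∧ s (2 * k) ω ≤ ENNReal.ofReal (Real.exp (-u)) * s k ω}) ≤
      ENNReal.ofReal (Real.exp (-(lam / 16 * u))) * P B := by
  have hupos : 0 < u := by linarith
  have hXpos : 0 < X := by linarith
  have hBm : MeasurableSet[m0] B := F.le 0 _ hB
  have hanti' : ∀ ω, Antitone fun m => s m ω := fun ω => antitone_nat_of_succ_le fun m => hanti m ω
  -- the event in real form
  have hev : ∀ (ε : ℝ) (_ : 0 < ε) (x : ℝ) (_ : 0 < x) (a b : ℕ) (ω : Ω),
      x ≤ ce s ε b ω - ce s ε a ω →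
        s a ω ≠ 0 ∧ s b ω ≤ ENNReal.ofReal (Real.exp (-x)) * s a ω := by
    intro ε hε x hx a b ω h
    obtain ⟨h1, h2⟩ := (ce_iff hε hx a b ω).1 h
    constructor
    · intro h0
      rw [h0] at h1
      simp at h1
      linarith
    · rw [← ENNReal.ofReal_toReal (hfin b ω), ← ENNReal.ofReal_toReal (hfin a ω),
        ← ENNReal.ofReal_mul (Real.exp_pos _).le]
      exact ENNReal.ofReal_le_ofReal h2
  -- real version for every truncation
  have hmain : ∀ ε : ℝ, 0 < ε →
      P (B ∩ {ω | u ≤ ce s ε (2 * k) ω - ce s ε k ω}) ≤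
        ENNReal.ofReal (Real.exp (-(lam / 16 * u))) * P B := by
    intro ε hε
    have hcm : ∀ m, Measurable[F m] (ce s ε m) := by
      intro m
      unfold ce
      exact (Real.measurable_log.comp
        ((ENNReal.measurable_toReal.comp (hsm m)).max measurable_const)).neg
    have hmono : ∀ ω, Monotone fun m => ce s ε m ω := by
      intro ω
      refine monotone_nat_of_le_succ fun m => ?_
      unfold ce
      have h1 : max (s (m + 1) ω).toReal ε ≤ max (s m ω).toReal ε :=
        max_le_max (ENNReal.toReal_mono (hfin m ω) (hanti m ω)) le_rfl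
      have h2 := Real.log_le_log (lt_max_of_lt_right hε) h1
      linarith
    have h1 := sun2_real (P := P.restrict B) hcm hmono hlam hX (k := k)
      (by
        intro t t' ht1 ht2 ht3 B' hB'
        rw [Measure.restrict_apply' hBm, Measure.restrict_apply' hBm]
        refine le_trans (measure_mono ?_) (ha t t' ht1 ht2 ht3 (B' ∩ B)
          (hB'.inter (F.mono (Nat.zero_le _) _ hB)))
        rintro ω ⟨⟨h2, h3⟩, h4⟩
        exact ⟨⟨h2, h4⟩, hev ε hε X hXpos t t' ω h3⟩)
      (by
        intro e n hn1 hn2 hn3 B' hB'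
        rw [Measure.restrict_apply' hBm, Measure.restrict_apply' hBm]
        refine le_trans (measure_mono ?_) (hb e n hn1 hn2 hn3 (B' ∩ B)
          (hB'.inter (F.mono (Nat.zero_le _) _ hB)))
        rintro ω ⟨⟨h2, h3⟩, h4⟩
        have hn0 : (0 : ℝ) < n := by exact_mod_cast hn1
        exact ⟨⟨h2, h4⟩, hev ε hε (n * X) (by positivity) (e - n) e ω h3⟩)
      hu1 hu2 hku
    rw [Measure.restrict_apply' hBm, Measure.restrict_apply' hBm, Set.univ_inter,
      Set.inter_comm] at h1
    exact h1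
  -- exhaustion
  set D : ℕ → Set Ω := fun n => B ∩ {ω | u ≤ ce s ((n : ℝ) + 1)⁻¹ (2 * k) ω -
    ce s ((n : ℝ) + 1)⁻¹ k ω} with hD
  have hDmono : Monotone D := by
    refine monotone_nat_of_le_succ fun n => ?_
    rintro ω ⟨h1, h2⟩
    refine ⟨h1, ?_⟩
    have hp1 : (0 : ℝ) < ((n : ℝ) + 1)⁻¹ := by positivity
    have hp2 : (0 : ℝ) < (((n + 1 : ℕ) : ℝ) + 1)⁻¹ := by positivity
    obtain ⟨h3, h4⟩ := (ce_iff hp1 hupos k (2 * k) ω).1 h2
    refine (ce_iff hp2 hupos k (2 * k) ω).2 ⟨le_trans ?_ h3, h4⟩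
    apply inv_anti₀ (by positivity)
    push_cast
    linarith
  have hsub : B ∩ {ω | s k ω ≠ 0 ∧ s (2 * k) ω ≤ ENNReal.ofReal (Real.exp (-u)) * s k ω} ⊆
      ⋃ n, D n := by
    rintro ω ⟨h1, h2, h3⟩
    have hA : 0 < (s k ω).toReal := ENNReal.toReal_pos h2 (hfin k ω)
    have hA' : 0 < Real.exp (-u) * (s k ω).toReal := mul_pos (Real.exp_pos _) hA
    obtain ⟨n, hn⟩ := exists_nat_one_div_lt hA'
    rw [Set.mem_iUnion]
    refine ⟨n, h1, (ce_iff (by positivity) hupos k (2 * k) ω).2 ⟨?_, ?_⟩⟩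
    · rw [← one_div]; exact hn.le
    · have h4 := ENNReal.toReal_mono (ENNReal.mul_ne_top ENNReal.ofReal_ne_top (hfin k ω)) h3
      rw [ENNReal.toReal_mul, ENNReal.toReal_ofReal (Real.exp_pos _).le] at h4
      exact h4
  refine (measure_mono hsub).trans ?_
  rw [hDmono.measure_iUnion]
  exact iSup_le fun n => hmain _ (by positivity)

end Crest.Agent.R154.Sun327
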