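import Crest.Agent.R154.Mult_441

/-!
# Row 154: SUN+ (one octave, no window estimate at moderate strengths beyond the unit)

`c m` = cost (`-log Sh`) at level `m * y`, nondecreasing, adapted.  Hypotheses:
* (t) `P (c (m+1) - c m ≥ ε | F (m-1)) ≤ exp (-D)` (one unit, small cost `ε`);
* (b) slope `s` per unit, `n ≥ n0` units, given the past `n` units below:
  `P (c e - c (e - n) ≥ n s) ≤ exp (-lam n s)`.
Conclusion: `P (c (2k) - c k ≥ u) ≤ exp (-(lam/16) u)` as soon as
`k (lam/2 ε + exp (lam R/2 - D)) + 2 ≤ lam u / 16`, `k exp (-(lam s/2)(n0-1)) + 2 ≤ lam u/16`,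
`(2k+1)^2 ≤ exp (lam u/8)`, `u ≤ k s`, where `2 s n0 ≤ R`.
-/

set_option autoImplicit false
set_option linter.unusedVariables false
set_option linter.deprecated false

open MeasureTheory ENNReal Crest.Agent.R154.Sun95 Crest.Agent.R154.Mult441

namespace Crest.Agent.R154.SunT441

variable {Ω : Type*} {m0 : MeasurableSpace Ω} {P : Measure Ω}

/-- discretised exponential of one truncated unit -/
theorem exp_zz_le' {c : ℕ → Ω → ℝ} {R θ ε : ℝ} (hθ : 0 ≤ θ) (hε : 0 ≤ ε) (m : ℕ) (ω : Ω) :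
    ENNReal.ofReal (Real.exp (θ * zz c R m ω)) ≤ ENNReal.ofReal (Real.exp (θ * ε)) +
      {ω' | ε ≤ c (m + 1) ω' - c m ω'}.indicator
          (fun _ => ENNReal.ofReal (Real.exp (θ * R))) ω := by
  by_cases h : zz c R m ω ≤ ε
  · exact le_add_right (ENNReal.ofReal_le_ofReal (Real.exp_le_exp.2
      (mul_le_mul_of_nonneg_left h hθ)))
  · push Not at h
    have hz : zz c R m ω = c (m + 1) ω - c m ω ∧ zz c R m ω < R := by
      unfold zz at h ⊢
      split_ifs at h ⊢ with h1
      · exact ⟨rfl, h1⟩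
      · exfalso; linarith
    refine le_add_left ?_
    have hind : ω ∈ {ω' | ε ≤ c (m + 1) ω' - c m ω'} := by
      show ε ≤ c (m + 1) ω - c m ω
      rw [← hz.1]; exact h.le
    rw [Set.indicator_of_mem hind]
    exact ENNReal.ofReal_le_ofReal (Real.exp_le_exp.2 (mul_le_mul_of_nonneg_left hz.2.le hθ))

/-- regular part, exponential moment, from (t) -/
theorem Tp_int' {F : Filtration ℕ m0} {c : ℕ → Ω → ℝ} (hcm : ∀ m, Measurable[F m] (c m))
    {R θ ε D : ℝ} (hθ : 0 ≤ θ) (hε : 0 ≤ ε) {k : ℕ} (hk : 1 ≤ k)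
    (ht : ∀ m, k ≤ m → m < 2 * k → ∀ B, MeasurableSet[F (m - 1)] B →
      P (B ∩ {ω | ε ≤ c (m + 1) ω - c m ω}) ≤ ENNReal.ofReal (Real.exp (-D)) * P B)
    (p : ℕ) : ∀ i, i ≤ k →
      ∫⁻ ω, ENNReal.ofReal (Real.exp (θ * Tp c R k p (k + i) ω)) ∂P ≤
        ENNReal.ofReal (Real.exp (i * (θ * ε + Real.exp (θ * R - D)))) * P Set.univ := by
  have hpos : 0 ≤ θ * ε + Real.exp (θ * R - D) := by positivity
  intro i
  induction i with
  | zero =>
    intro _
    have : ∀ ω, Tp c R k p (k + 0) ω = 0 := by intro ω; simp [Tp]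
    simp only [this]
    simp
  | succ i ih =>
    intro hi
    have ih' := ih (by omega)
    rw [← add_assoc]
    set m := k + i with hm
    by_cases hmp : m % 2 = p
    · have hf : Measurable[F (m - 1)]
          (fun ω => ENNReal.ofReal (Real.exp (θ * Tp c R k p m ω))) :=
        (Real.measurable_exp.comp (Measurable.const_mul (Tp_meas hcm R k p m hmp) _)).ennreal_ofReal
      have hmE : MeasurableSet {ω' | ε ≤ c (m + 1) ω' - c m ω'} :=
        measurableSet_le measurable_const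
          (Measurable.sub ((hcm (m + 1)).mono (F.le _) le_rfl) ((hcm m).mono (F.le _) le_rfl))
      have hfm : Measurable (fun ω => ENNReal.ofReal (Real.exp (θ * Tp c R k p m ω))) :=
        hf.mono (F.le _) le_rfl
      have h1 : ∀ ω, ENNReal.ofReal (Real.exp (θ * Tp c R k p (m + 1) ω)) ≤
          ENNReal.ofReal (Real.exp (θ * ε)) *
            ENNReal.ofReal (Real.exp (θ * Tp c R k p m ω)) +
          {ω' | ε ≤ c (m + 1) ω' - c m ω'}.indicator
            (fun ω => ENNReal.ofReal (Real.exp (θ * R)) *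
              ENNReal.ofReal (Real.exp (θ * Tp c R k p m ω))) ω := by
        intro ω
        rw [Tp_succ_of_eq c R (by omega) hmp ω, mul_add, Real.exp_add,
          ENNReal.ofReal_mul (Real.exp_pos _).le]
        have h2 := exp_zz_le' (c := c) (R := R) hθ hε m ω
        calc ENNReal.ofReal (Real.exp (θ * Tp c R k p m ω)) *
              ENNReal.ofReal (Real.exp (θ * zz c R m ω))
            ≤ ENNReal.ofReal (Real.exp (θ * Tp c R k p m ω)) *
              (ENNReal.ofReal (Real.exp (θ * ε)) +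
                {ω' | ε ≤ c (m + 1) ω' - c m ω'}.indicator
                  (fun _ => ENNReal.ofReal (Real.exp (θ * R))) ω) := mul_le_mul_right h2 _
          _ = _ := by
              rw [mul_add, mul_comm]
              congr 1
              by_cases hω : ω ∈ {ω' | ε ≤ c (m + 1) ω' - c m ω'}
              · rw [Set.indicator_of_mem hω, Set.indicator_of_mem hω, mul_comm]
              · rw [Set.indicator_of_notMem hω, Set.indicator_of_notMem hω, mul_zero]
      set I := ∫⁻ ω, ENNReal.ofReal (Real.exp (θ * Tp c R k p m ω)) ∂P with hI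
      have h3 : ∫⁻ ω, {ω' | ε ≤ c (m + 1) ω' - c m ω'}.indicator
            (fun ω => ENNReal.ofReal (Real.exp (θ * R)) *
              ENNReal.ofReal (Real.exp (θ * Tp c R k p m ω))) ω ∂P ≤
          ENNReal.ofReal (Real.exp (θ * R - D)) * I := by
        have h4 := lint_ind_le (P := P) (F.le (m - 1)) hmE
          (ht m (by omega) (by omega))
          (f := fun ω => ENNReal.ofReal (Real.exp (θ * R)) *
              ENNReal.ofReal (Real.exp (θ * Tp c R k p m ω)))
          (Measurable.const_mul hf _)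
        refine h4.trans (le_of_eq ?_)
        rw [lintegral_const_mul _ hfm, ← mul_assoc, ← ENNReal.ofReal_mul (Real.exp_pos _).le,
          ← Real.exp_add]
        congr 3
        ring
      calc ∫⁻ ω, ENNReal.ofReal (Real.exp (θ * Tp c R k p (m + 1) ω)) ∂P
          ≤ ∫⁻ ω, (ENNReal.ofReal (Real.exp (θ * ε)) *
            ENNReal.ofReal (Real.exp (θ * Tp c R k p m ω)) +
          {ω' | ε ≤ c (m + 1) ω' - c m ω'}.indicator
            (fun ω => ENNReal.ofReal (Real.exp (θ * R)) *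
              ENNReal.ofReal (Real.exp (θ * Tp c R k p m ω))) ω) ∂P := lintegral_mono h1
        _ = ENNReal.ofReal (Real.exp (θ * ε)) * I +
            ∫⁻ ω, {ω' | ε ≤ c (m + 1) ω' - c m ω'}.indicator
            (fun ω => ENNReal.ofReal (Real.exp (θ * R)) *
              ENNReal.ofReal (Real.exp (θ * Tp c R k p m ω))) ω ∂P := by
            rw [lintegral_add_left (Measurable.const_mul hfm _), lintegral_const_mul _ hfm]
        _ ≤ ENNReal.ofReal (Real.exp (θ * ε)) * I +
            ENNReal.ofReal (Real.exp (θ * R - D)) * I := add_le_add le_rfl h3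
        _ = ENNReal.ofReal (Real.exp (θ * ε) + Real.exp (θ * R - D)) * I := by
            rw [← add_mul, ← ENNReal.ofReal_add (Real.exp_pos _).le (Real.exp_pos _).le]
        _ ≤ ENNReal.ofReal (Real.exp (θ * ε + Real.exp (θ * R - D))) *
            (ENNReal.ofReal (Real.exp (i * (θ * ε + Real.exp (θ * R - D)))) * P Set.univ) := by
            refine mul_le_mul' (ENNReal.ofReal_le_ofReal ?_) ih'
            have e1 : 1 ≤ Real.exp (θ * ε) := Real.one_le_exp (mul_nonneg hθ hε)
            have e2 := Real.add_one_le_exp (Real.exp (θ * R - D))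
            have e3 : 0 < Real.exp (θ * R - D) := Real.exp_pos _
            rw [Real.exp_add (θ * ε)]
            nlinarith
        _ = _ := by
            rw [← mul_assoc, ← ENNReal.ofReal_mul (Real.exp_pos _).le, ← Real.exp_add]
            congr 3
            push_cast
            ring
    · simp only [Tp_succ_of_ne c R (show k ≤ m by omega) hmp]
      refine ih'.trans (mul_le_mul_left (ENNReal.ofReal_le_ofReal (Real.exp_le_exp.2 ?_)) _)
      push_cast
      nlinarith

/-- **SUN+, real cost process.** -/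
theorem sunplus_real {F : Filtration ℕ m0} {c : ℕ → Ω → ℝ} (hcm : ∀ m, Measurable[F m] (c m))
    (hmono : ∀ ω, Monotone fun m => c m ω) {R s lam ε D u : ℝ} {k n0 : ℕ}
    (hlam : 0 < lam) (hε : 0 ≤ ε) (hs : 0 < s) (hls : 2 ≤ lam * s)
    (hn0 : 1 ≤ n0) (hsR : 2 * s * n0 ≤ R) (hk : 3 ≤ k) (hk4 : 4 * n0 ≤ k)
    (ht : ∀ m, k ≤ m → m < 2 * k → ∀ B, MeasurableSet[F (m - 1)] B →
      P (B ∩ {ω | ε ≤ c (m + 1) ω - c m ω}) ≤ ENNReal.ofReal (Real.exp (-D)) * P B)
    (hb : ∀ e n : ℕ, n0 ≤ n → 2 * n ≤ e → e ≤ 2 * k → ∀ B, MeasurableSet[F (e - 2 * n)] B →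
      P (B ∩ {ω | (n : ℝ) * s ≤ c e ω - c (e - n) ω}) ≤
        ENNReal.ofReal (Real.exp (-(lam * (n * s)))) * P B)
    (hreg : k * (lam / 2 * ε + Real.exp (lam / 2 * R - D)) + 2 ≤ lam * u / 16)
    (hρ : k * Real.exp (-(lam * s / 2 * ((n0 : ℝ) - 1))) + 2 ≤ lam * u / 16)
    (hcard : (2 * (k : ℝ) + 1) * (2 * (k : ℝ) + 1) ≤ Real.exp (lam * u / 8))
    (hu : u ≤ k * s) :
    P {ω | u ≤ c (2 * k) ω - c k ω} ≤ ENNReal.ofReal (Real.exp (-(lam / 16 * u))) * P Set.univ := by
  have hk0 : (3 : ℝ) ≤ k := by exact_mod_cast hk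
  have hlu : 32 ≤ lam * u := by
    have : 0 ≤ (k : ℝ) * Real.exp (-(lam * s / 2 * ((n0 : ℝ) - 1))) := by positivity
    linarith
  have hn0' : (1 : ℝ) ≤ n0 := by exact_mod_cast hn0
  have hsR1 : s ≤ R := by nlinarith
  have hR : 0 ≤ R := by linarith
  -- long steep intervals
  set Ix := ((Finset.range (2 * k + 1)) ×ˢ (Finset.range (2 * k + 1))).filter
    (fun q : ℕ × ℕ => k < q.1 ∧ q.1 ≤ 2 * k ∧ q.1 < 4 * q.2 ∧ 2 * q.2 ≤ q.1) with hIx
  set Lg : Set Ω := ⋃ q ∈ Ix, {ω | (q.2 : ℝ) * s ≤ c q.1 ω - c (q.1 - q.2) ω} with hLg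
  have hLgP : P Lg ≤ ENNReal.ofReal (1 / 4 * Real.exp (-(lam / 16 * u))) * P Set.univ := by
    have h1 : ∀ q ∈ Ix, P {ω | (q.2 : ℝ) * s ≤ c q.1 ω - c (q.1 - q.2) ω} ≤
        ENNReal.ofReal (Real.exp (-(lam * (u / 4)))) * P Set.univ := by
      intro q hq
      rw [hIx, Finset.mem_filter] at hq
      obtain ⟨_, h2, h3, h4, h5⟩ := hq
      have h6 := hb q.1 q.2 (by omega) h5 h3 Set.univ MeasurableSet.univ
      rw [Set.univ_inter] at h6
      refine h6.trans (mul_le_mul_left (ENNReal.ofReal_le_ofReal (Real.exp_le_exp.2 ?_)) _)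
      have h7 : (k : ℝ) ≤ 4 * q.2 := by exact_mod_cast (by omega : k ≤ 4 * q.2)
      have h8 : u / 4 ≤ q.2 * s := by nlinarith
      have : lam * (u / 4) ≤ lam * (q.2 * s) := mul_le_mul_of_nonneg_left h8 hlam.le
      linarith
    have hcard' : (Ix.card : ℝ) ≤ Real.exp (lam * u / 8) := by
      have h9 : Ix.card ≤ (2 * k + 1) * (2 * k + 1) := by
        refine (Finset.card_filter_le _ _).trans ?_
        rw [Finset.card_product, Finset.card_range]
      have h10 : ((Ix.card : ℕ) : ℝ) ≤ (2 * k + 1) * (2 * k + 1) := by exact_mod_cast h9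
      exact h10.trans hcard
    calc P Lg ≤ ∑ q ∈ Ix, P {ω | (q.2 : ℝ) * s ≤ c q.1 ω - c (q.1 - q.2) ω} :=
          measure_biUnion_finset_le _ _
      _ ≤ ∑ _q ∈ Ix, ENNReal.ofReal (Real.exp (-(lam * (u / 4)))) * P Set.univ :=
          Finset.sum_le_sum h1
      _ = ENNReal.ofReal ((Ix.card : ℝ) * Real.exp (-(lam * (u / 4)))) * P Set.univ := by
          rw [Finset.sum_const, nsmul_eq_mul, ← mul_assoc,
            ENNReal.ofReal_mul (Nat.cast_nonneg _), ENNReal.ofReal_natCast]
      _ ≤ _ := by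
          refine mul_le_mul_left (ENNReal.ofReal_le_ofReal ?_) _
          calc (Ix.card : ℝ) * Real.exp (-(lam * (u / 4)))
              ≤ Real.exp (lam * u / 8) * Real.exp (-(lam * (u / 4))) := by gcongr
            _ = Real.exp (lam * u / 8 - lam * (u / 4)) := by rw [← Real.exp_add]; congr 1
            _ ≤ _ := by
                apply quarter
                linarith
  -- steep part
  have hVm : Measurable (Mult441.V c s (lam / 4) n0 k k (2 * k)) :=
    (Mult441.V_meas hcm s (lam / 4) n0 k k (2 * k)).mono (F.le _) le_rfl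
  have hV : P {ω | ENNReal.ofReal (Real.exp (lam * u / 8)) ≤ Mult441.V c s (lam / 4) n0 k k (2 * k) ω} ≤
      ENNReal.ofReal (1 / 4 * Real.exp (-(lam / 16 * u))) * P Set.univ := by
    have h1 := Mult441.V_int (P := P) hcm hls hn0 hb k (2 * k) le_rfl
    refine (markov_exp hVm h1).trans (mul_le_mul_left (ENNReal.ofReal_le_ofReal ?_) _)
    apply quarter
    have e1 : 2 * k - k = k := by omega
    rw [e1, mul_comm]
    linarith
  -- regular part
  have hT : ∀ p, p < 2 → P {ω | ENNReal.ofReal (Real.exp (lam * u / 8)) ≤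
      ENNReal.ofReal (Real.exp (lam / 2 * Tp c R k p (2 * k) ω))} ≤
      ENNReal.ofReal (1 / 4 * Real.exp (-(lam / 16 * u))) * P Set.univ := by
    intro p _
    have h1 := Tp_int' (P := P) hcm (R := R) (θ := lam / 2) (by linarith) hε (by omega) ht p k le_rfl
    have e2 : k + k = 2 * k := by ring
    rw [e2] at h1
    have hm : Measurable (fun ω => ENNReal.ofReal (Real.exp (lam / 2 * Tp c R k p (2 * k) ω))) := by
      refine (Real.measurable_exp.comp (Measurable.const_mul ?_ _)).ennreal_ofReal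
      unfold Tp
      exact Finset.measurable_sum _ fun i _ => (zz_meas hcm R i).mono (F.le _) le_rfl
    refine (markov_exp hm h1).trans (mul_le_mul_left (ENNReal.ofReal_le_ofReal ?_) _)
    apply quarter
    linarith
  -- combination
  have hsub : {ω | u ≤ c (2 * k) ω - c k ω} ⊆ Lg ∪
      ({ω | ENNReal.ofReal (Real.exp (lam * u / 8)) ≤ Mult441.V c s (lam / 4) n0 k k (2 * k) ω} ∪
      ({ω | ENNReal.ofReal (Real.exp (lam * u / 8)) ≤
        ENNReal.ofReal (Real.exp (lam / 2 * Tp c R k 0 (2 * k) ω))} ∪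
      {ω | ENNReal.ofReal (Real.exp (lam * u / 8)) ≤
        ENNReal.ofReal (Real.exp (lam / 2 * Tp c R k 1 (2 * k) ω))})) := by
    intro ω hω
    by_cases hL : ω ∈ Lg
    · exact Or.inl hL
    right
    have hno : ∀ e n : ℕ, k < e → e ≤ 2 * k → e < 4 * n → 2 * n ≤ e →
        c e ω - c (e - n) ω < n * s := by
      intro e n h1 h2 h3 h4
      by_contra hcon
      push Not at hcon
      apply hL
      rw [hLg, Set.mem_iUnion₂]
      refine ⟨(e, n), ?_, hcon⟩
      rw [hIx, Finset.mem_filter, Finset.mem_product, Finset.mem_range, Finset.mem_range]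
      exact ⟨⟨by simp only; omega, by simp only; omega⟩, h1, h2, h3, h4⟩
    have hdet := Mult441.det hmono (θ := lam / 4) (by linarith) hs hsR hsR1 hk ω hno k (2 * k)
      (by omega) le_rfl
    have hTT := T_eq c R k (2 * k) ω
    have hω' : u ≤ c (2 * k) ω - c k ω := hω
    by_cases h1 : u / 2 ≤ T c R k (2 * k) ω
    · right
      by_cases h2 : u / 4 ≤ Tp c R k 0 (2 * k) ω
      · left
        exact ENNReal.ofReal_le_ofReal (Real.exp_le_exp.2 (by nlinarith))
      · right
        push Not at h2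
        have h3 : u / 4 ≤ Tp c R k 1 (2 * k) ω := by linarith
        exact ENNReal.ofReal_le_ofReal (Real.exp_le_exp.2 (by nlinarith))
    · left
      push Not at h1
      refine le_trans (ENNReal.ofReal_le_ofReal (Real.exp_le_exp.2 ?_)) hdet
      nlinarith
  refine (measure_mono hsub).trans ?_
  refine (measure_union_le _ _).trans ((add_le_add le_rfl ((measure_union_le _ _).trans
    (add_le_add le_rfl (measure_union_le _ _)))).trans ?_)
  refine (add_le_add hLgP (add_le_add hV (add_le_add (hT 0 (by norm_num)) (hT 1 (by norm_num))))).trans ?_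
  rw [← add_mul, ← add_mul, ← add_mul, ← ENNReal.ofReal_add (by positivity) (by positivity),
    ← ENNReal.ofReal_add (by positivity) (by positivity),
    ← ENNReal.ofReal_add (by positivity) (by positivity)]
  refine mul_le_mul_left (ENNReal.ofReal_le_ofReal (le_of_eq ?_)) _
  ring

/-! ### survival form -/

/-- **SUN+**, for a nonincreasing survival process `s`. -/
theorem sunplus {F : Filtration ℕ m0} {s : ℕ → Ω → ℝ≥0∞} (hsm : ∀ m, Measurable[F m] (s m))
    (hanti : ∀ m ω, s (m + 1) ω ≤ s m ω) (hfin : ∀ m ω, s m ω ≠ ∞)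
    {R σ lam ε D u : ℝ} {k n0 : ℕ}
    (hlam : 0 < lam) (hε : 0 < ε) (hσ : 0 < σ) (hls : 2 ≤ lam * σ)
    (hn0 : 1 ≤ n0) (hsR : 2 * σ * n0 ≤ R) (hk : 3 ≤ k) (hk4 : 4 * n0 ≤ k)
    {B : Set Ω} (hB : MeasurableSet[F 0] B)
    (ht : ∀ m, k ≤ m → m < 2 * k → ∀ B', MeasurableSet[F (m - 1)] B' →
      P (B' ∩ {ω | s m ω ≠ 0 ∧ s (m + 1) ω ≤ ENNReal.ofReal (Real.exp (-ε)) * s m ω}) ≤
        ENNReal.ofReal (Real.exp (-D)) * P B')
    (hb : ∀ e n : ℕ, n0 ≤ n → 2 * n ≤ e → e ≤ 2 * k → ∀ B', MeasurableSet[F (e - 2 * n)] B' →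
      P (B' ∩ {ω | s (e - n) ω ≠ 0 ∧ s e ω ≤
        ENNReal.ofReal (Real.exp (-(n * σ))) * s (e - n) ω}) ≤
        ENNReal.ofReal (Real.exp (-(lam * (n * σ)))) * P B')
    (hreg : k * (lam / 2 * ε + Real.exp (lam / 2 * R - D)) + 2 ≤ lam * u / 16)
    (hρ : k * Real.exp (-(lam * σ / 2 * ((n0 : ℝ) - 1))) + 2 ≤ lam * u / 16)
    (hcard : (2 * (k : ℝ) + 1) * (2 * (k : ℝ) + 1) ≤ Real.exp (lam * u / 8))
    (hu : u ≤ k * σ) :
    P (B ∩ {ω | s k ω ≠ 0 ∧ s (2 * k) ω ≤ ENNReal.ofReal (Real.exp (-u)) * s k ω}) ≤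
      ENNReal.ofReal (Real.exp (-(lam / 16 * u))) * P B := by
  have hk0 : (3 : ℝ) ≤ k := by exact_mod_cast hk
  have hlu : 32 ≤ lam * u := by
    have : 0 ≤ (k : ℝ) * Real.exp (-(lam * σ / 2 * ((n0 : ℝ) - 1))) := by positivity
    linarith
  have hupos : 0 < u := by
    by_contra hcon
    push Not at hcon
    nlinarith
  have hBm : MeasurableSet[m0] B := F.le 0 _ hB
  have hanti' : ∀ ω, Antitone fun m => s m ω := fun ω => antitone_nat_of_succ_le fun m => hanti m ω
  -- the event in real form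
  have hev : ∀ (η : ℝ) (_ : 0 < η) (x : ℝ) (_ : 0 < x) (a b : ℕ) (ω : Ω),
      x ≤ ce s η b ω - ce s η a ω →
        s a ω ≠ 0 ∧ s b ω ≤ ENNReal.ofReal (Real.exp (-x)) * s a ω := by
    intro η hη x hx a b ω h
    obtain ⟨h1, h2⟩ := (ce_iff hη hx a b ω).1 h
    constructor
    · intro h0
      rw [h0] at h1
      simp at h1
      linarith
    · rw [← ENNReal.ofReal_toReal (hfin b ω), ← ENNReal.ofReal_toReal (hfin a ω),
        ← ENNReal.ofReal_mul (Real.exp_pos _).le]
      exact ENNReal.ofReal_le_ofReal h2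
  -- real version for every truncation
  have hmain : ∀ η : ℝ, 0 < η →
      P (B ∩ {ω | u ≤ ce s η (2 * k) ω - ce s η k ω}) ≤
        ENNReal.ofReal (Real.exp (-(lam / 16 * u))) * P B := by
    intro η hη
    have hcm : ∀ m, Measurable[F m] (ce s η m) := by
      intro m
      unfold ce
      exact (Real.measurable_log.comp
        ((ENNReal.measurable_toReal.comp (hsm m)).max measurable_const)).neg
    have hmono : ∀ ω, Monotone fun m => ce s η m ω := by
      intro ω
      refine monotone_nat_of_le_succ fun m => ?_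
      unfold ce
      have h1 : max (s (m + 1) ω).toReal η ≤ max (s m ω).toReal η :=
        max_le_max (ENNReal.toReal_mono (hfin m ω) (hanti m ω)) le_rfl
      have h2 := Real.log_le_log (lt_max_of_lt_right hη) h1
      linarith
    have h1 := sunplus_real (P := P.restrict B) hcm hmono (u := u) (ε := ε) hlam hε.le hσ hls hn0
      hsR hk hk4
      (by
        intro m hm1 hm2 B' hB'
        rw [Measure.restrict_apply' hBm, Measure.restrict_apply' hBm]
        refine le_trans (measure_mono ?_) (ht m hm1 hm2 (B' ∩ B)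
          (hB'.inter (F.mono (Nat.zero_le _) _ hB)))
        rintro ω ⟨⟨h2, h3⟩, h4⟩
        exact ⟨⟨h2, h4⟩, hev η hη ε hε m (m + 1) ω h3⟩)
      (by
        intro e n hn1 hn2 hn3 B' hB'
        rw [Measure.restrict_apply' hBm, Measure.restrict_apply' hBm]
        refine le_trans (measure_mono ?_) (hb e n hn1 hn2 hn3 (B' ∩ B)
          (hB'.inter (F.mono (Nat.zero_le _) _ hB)))
        rintro ω ⟨⟨h2, h3⟩, h4⟩
        have hn0 : (0 : ℝ) < n := by exact_mod_cast (by omega : 0 < n)
        exact ⟨⟨h2, h4⟩, hev η hη (n * σ) (by positivity) (e - n) e ω h3⟩)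
      hreg hρ hcard hu
    rw [Measure.restrict_apply' hBm, Measure.restrict_apply' hBm, Set.univ_inter,
      Set.inter_comm] at h1
    exact h1
  -- exhaustion
  set Dn : ℕ → Set Ω := fun n => B ∩ {ω | u ≤ ce s ((n : ℝ) + 1)⁻¹ (2 * k) ω -
    ce s ((n : ℝ) + 1)⁻¹ k ω} with hD
  have hDmono : Monotone Dn := by
    refine monotone_nat_of_le_succ fun n => ?_
    rintro ω ⟨h1, h2⟩
    refine ⟨h1, ?_⟩
    have hp1 : (0 : ℝ) < ((n : ℝ) + 1)⁻¹ := by positivity
    have hp2 : (0 : ℝ) < (((n + 1 : ℕ) : ℝ) + 1)⁻¹ := by positivity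
    obtain ⟨h3, h4⟩ := (ce_iff hp1 hupos k (2 * k) ω).1 h2
    refine (ce_iff hp2 hupos k (2 * k) ω).2 ⟨le_trans ?_ h3, h4⟩
    apply inv_anti₀ (by positivity)
    push_cast
    linarith
  have hsub : B ∩ {ω | s k ω ≠ 0 ∧ s (2 * k) ω ≤ ENNReal.ofReal (Real.exp (-u)) * s k ω} ⊆
      ⋃ n, Dn n := by
    rintro ω ⟨h1, h2, h3⟩
    have hA : 0 < (s k ω).toReal := ENNReal.toReal_pos h2 (hfin k ω)
    have hA' : 0 < Real.exp (-u) * (s k ω).toReal := mul_pos (Real.exp_pos _) hA
    obtain ⟨n, hn⟩ := exists_nat_one_div_lt hA'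
    rw [Set.mem_iUnion]
    refine ⟨n, h1, (ce_iff (by positivity) hupos k (2 * k) ω).2 ⟨?_, ?_⟩⟩
    · rw [← one_div]; exact hn.le
    · have h4 := ENNReal.toReal_mono (ENNReal.mul_ne_top ENNReal.ofReal_ne_top (hfin k ω)) h3
      rw [ENNReal.toReal_mul, ENNReal.toReal_ofReal (Real.exp_pos _).le] at h4
      exact h4
  refine (measure_mono hsub).trans ?_
  rw [hDmono.measure_iUnion]
  exact iSup_le fun n => hmain _ (by positivity)


end Crest.Agent.R154.SunT441
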