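import Crest.Agent.R154.Flux2_566
import Crest.Agent.R154.B5Abs_566

/-! Row 154, S0219 (helper375): THE SURGERY for pair crossings, in words (iid, merely elliptic).
`aw` annealed weight of a word; `UpW`, `DnW` up / down crossings of height `n`;
`surgery : c * Σ_n Σ_π Σ_ρ (no contact) aw π * aw ρ ≤ 1`. -/

set_option autoImplicit false

open MeasureTheory ProbabilityTheory Crest.ProbabilityR.RandomEnvironment
open scoped ENNReal

namespace Crest.Agent.R154.SurgW375

open Crest.Agent.R154 Crest.Agent.R154.Flux566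

variable {d : ℕ}

/-- annealed weight of a word -/
noncomputable def aw (ν : Measure (Row d)) (l : List (Step d)) : ℝ≥0∞ :=
  ∫⁻ ω, lw ω 0 l ∂(iidEnvironmentLaw ν)

/-! ### words -/

lemma pre_append {α : Type*} {p a b : List α} (h : p <+: a ++ b) :
    p <+: a ∨ ∃ q, q <+: b ∧ p = a ++ q := by
  obtain ⟨t, ht⟩ := h
  rcases List.append_eq_append_iff.1 ht with ⟨c, h1, h2⟩ | ⟨c, h1, h2⟩
  · exact Or.inl ⟨c, h1.symm⟩
  · exact Or.inr ⟨c, ⟨t, h2.symm⟩, h1⟩

lemma mem_sitesL {y : Site d} {l : List (Step d)} {x : Site d} (h : y ∈ sitesL x l) :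
    ∃ p, p <+: l ∧ p ≠ l ∧ y = endp x p := by
  induction l generalizing x with
  | nil => simp [sitesL] at h
  | cons e l ih =>
    simp only [sitesL, List.mem_cons] at h
    rcases h with rfl | h
    · exact ⟨[], List.nil_prefix, by simp, rfl⟩
    · obtain ⟨p, h1, h2, h3⟩ := ih h
      exact ⟨e :: p, List.cons_prefix_cons.2 ⟨rfl, h1⟩, by simpa using h2, h3⟩

lemma sitesL_append (l l' : List (Step d)) (x : Site d) :
    sitesL x (l ++ l') = sitesL x l ++ sitesL (endp x l) l' := by
  induction l generalizing x with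
  | nil => rfl
  | cons e l ih => simp only [List.cons_append, sitesL, endp, ih]

lemma lw_append (ω : Environment d) (l l' : List (Step d)) (x : Site d) :
    lw ω x (l ++ l') = lw ω x l * lw ω (endp x l) l' := by
  induction l generalizing x with
  | nil => simp [lw, endp]
  | cons e l ih => simp only [List.cons_append, lw, endp, ih, mul_assoc]

lemma lw_shift (z : Site d) (ω : Environment d) (l : List (Step d)) (x : Site d) :
    lw (shiftEnv z ω) x l = lw ω (x + z) l := by
  induction l generalizing x with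
  | nil => rfl
  | cons e l ih =>
    simp only [lw]
    rw [ih, show x + stepVec e + z = x + z + stepVec e by abel]
    congr 1

lemma lint_lw (ν : Measure (Row d)) [IsProbabilityMeasure ν] (x : Site d) (l : List (Step d)) :
    ∫⁻ ω, lw ω x l ∂(iidEnvironmentLaw ν) = aw ν l := by
  have h := (Q561.iid_shift ν x).lintegral_comp (measurable_lw (0 : Site d) l)
  rw [aw, ← h]
  refine lintegral_congr fun ω => ?_
  rw [lw_shift, zero_add]

/-- product formula for words using disjoint sets of sites -/
lemma aw_append (ν : Measure (Row d)) [IsProbabilityMeasure ν] (l l' : List (Step d))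
    (h : ∀ y ∈ sitesL (0 : Site d) l, y ∉ sitesL (endp 0 l) l') :
    aw ν (l ++ l') = aw ν l * aw ν l' := by
  rw [← lint_lw ν (endp 0 l) l', aw, aw]
  simp_rw [lw_append]
  refine Q561.iid_lintegral_mul ν (S := {y | y ∈ sitesL (0 : Site d) l})
    (T := {y | y ∈ sitesL (endp 0 l) l'}) ?_ (measurable_lw _ _) (measurable_lw _ _)
    (locOn_lw _ _) (locOn_lw _ _)
  rw [Set.disjoint_left]
  exact h

/-! ### prefix-free families have total weight at most one -/

lemma row_sum (p : Row d) : ∑ e : Step d, ENNReal.ofReal (p.1 e) = 1 := by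
  rw [← ENNReal.ofReal_sum_of_nonneg (fun e _ => p.2.1 e), p.2.2, ENNReal.ofReal_one]

open Classical in
lemma pf_le (ω : Environment d) (N : ℕ) : ∀ (x : Site d) (S : Set (List (Step d))),
    (∀ a ∈ S, ∀ b ∈ S, a <+: b → a = b) →
    ∑' l : List (Step d), (if l ∈ S ∧ l.length ≤ N then lw ω x l else 0) ≤ 1 := by
  induction N with
  | zero =>
    intro x S _
    rw [B5A.tsum_list]
    have h0 : ∀ (b : Step d) (L : List (Step d)), ¬ ((b :: L) ∈ S ∧ (b :: L).length ≤ 0) := by
      rintro b L ⟨_, h⟩
      simp at h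
    simp only [if_neg (h0 _ _), tsum_zero, add_zero]
    split_ifs
    · simp [lw]
    · simp
  | succ N ih =>
    intro x S hS
    rw [B5A.tsum_list]
    by_cases hn : ([] : List (Step d)) ∈ S
    · have h0 : ∀ (b : Step d) (L : List (Step d)), ¬ ((b :: L) ∈ S ∧ (b :: L).length ≤ N + 1) := by
        rintro b L ⟨h, _⟩
        have := hS [] hn (b :: L) h List.nil_prefix
        simp at this
      simp only [if_neg (h0 _ _), tsum_zero, add_zero]
      split_ifs
      · simp [lw]
      · simp
    · rw [if_neg (fun h => hn h.1), zero_add, tsum_fintype]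
      calc ∑ b : Step d, ∑' L : List (Step d),
            (if (b :: L) ∈ S ∧ (b :: L).length ≤ N + 1 then lw ω x (b :: L) else 0)
          ≤ ∑ b : Step d, ENNReal.ofReal ((ω x).1 b) * 1 := by
            refine Finset.sum_le_sum fun b _ => ?_
            have h1 := ih (x + stepVec b) {L | (b :: L) ∈ S} (by
              intro a ha c hc hac
              have := hS _ ha _ hc (List.cons_prefix_cons.2 ⟨rfl, hac⟩)
              simpa using this)
            refine le_trans (le_of_eq ?_) (mul_le_mul_right h1 (ENNReal.ofReal ((ω x).1 b)))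
            rw [← ENNReal.tsum_mul_left]
            refine tsum_congr fun L => ?_
            simp only [List.length_cons, Set.mem_ofPred_eq, add_le_add_iff_right, lw]
            split_ifs <;> simp
        _ = 1 := by simp only [mul_one]; exact row_sum (ω x)

open Classical in
/-- total quenched weight of a prefix-free family -/
lemma prefixfree_le (ω : Environment d) (x : Site d) (S : Set (List (Step d)))
    (hS : ∀ a ∈ S, ∀ b ∈ S, a <+: b → a = b) :
    ∑' l : List (Step d), (if l ∈ S then lw ω x l else 0) ≤ 1 := by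
  rw [ENNReal.tsum_eq_iSup_sum]
  refine iSup_le fun s => ?_
  refine le_trans ?_ (pf_le ω (s.sup List.length) x S hS)
  refine le_trans (le_of_eq ?_) (ENNReal.sum_le_tsum s)
  refine Finset.sum_congr rfl fun l hl => ?_
  have h1 : l.length ≤ s.sup List.length := Finset.le_sup (f := List.length) hl
  simp only [h1, and_true]

/-! ### crossings -/

/-- up crossing of height `n` (started at level `0`) -/
def UpW (e0 : Step d) (n : ℕ) (l : List (Step d)) : Prop :=
  (∀ p, p <+: l → p ≠ l → 0 ≤ lev e0 (endp 0 p) ∧ lev e0 (endp 0 p) < n) ∧ lev e0 (endp 0 l) = n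

/-- down crossing of height `n` (started at level `n - 1`; levels are relative to the start) -/
def DnW (e0 : Step d) (n : ℕ) (l : List (Step d)) : Prop :=
  (∀ p, p <+: l → p ≠ l → -(n : ℤ) < lev e0 (endp 0 p) ∧ lev e0 (endp 0 p) ≤ 0) ∧
    lev e0 (endp 0 l) = -n

lemma lev_endp_append (e0 : Step d) (a b : List (Step d)) :
    lev e0 (endp 0 (a ++ b)) = lev e0 (endp 0 a) + lev e0 (endp 0 b) := by
  rw [endp_append, endp_eq_add, lev_add]

lemma lev_sg {e0 : Step d} {l : List (Step d)} (hl : ∀ e ∈ l, lev e0 (stepVec e) = 0)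
    {q : List (Step d)} (hq : q <+: l) : lev e0 (endp 0 q) = 0 := by
  induction q using List.reverseRecOn with
  | nil => exact lev_zero e0
  | append_singleton q e ih =>
    have h1 : q <+: l := (List.prefix_append q [e]).trans hq
    have h2 : e ∈ l := hq.subset (by simp)
    rw [lev_endp_append, ih h1]
    simp only [endp, zero_add]
    exact hl e h2

lemma pre_sg {e0 : Step d} {l : List (Step d)} (hl : ∀ e ∈ l, lev e0 (stepVec e) = 0)
    {q : List (Step d)} (hq : q <+: l ++ [opp e0]) :
    (q = l ++ [opp e0] ∧ lev e0 (endp 0 q) = -1) ∨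
      (q ≠ l ++ [opp e0] ∧ lev e0 (endp 0 q) = 0) := by
  rcases pre_append hq with h | ⟨r, hr, rfl⟩
  · refine Or.inr ⟨?_, lev_sg hl h⟩
    rintro rfl
    have := h.length_le
    simp at this
  · have hr2 : r = [] ∨ r = [opp e0] := by
      rcases r with _ | ⟨a, r'⟩
      · exact Or.inl rfl
      · obtain ⟨t, ht⟩ := hr
        simp only [List.cons_append, List.cons.injEq, List.append_eq_nil_iff] at ht
        obtain ⟨rfl, rfl, _⟩ := ht
        exact Or.inr rfl
    rcases hr2 with rfl | rfl
    · refine Or.inr ⟨by simp, ?_⟩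
      rw [List.append_nil]
      exact lev_sg hl (List.prefix_refl l)
    · refine Or.inl ⟨rfl, ?_⟩
      rw [lev_endp_append, lev_sg hl (List.prefix_refl l)]
      simp only [endp, zero_add]
      rw [stepVec_opp, lev_neg, lev_self]

/-- the whole word -/
def big (e0 : Step d) (l pi rho : List (Step d)) : List (Step d) :=
  pi ++ ((l ++ [opp e0]) ++ rho)

lemma big_lev {e0 : Step d} {l : List (Step d)} (hl : ∀ e ∈ l, lev e0 (stepVec e) = 0)
    {n : ℕ} {pi rho : List (Step d)} (hp : UpW e0 n pi) (hr : DnW e0 n rho) :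
    (∀ p, p <+: big e0 l pi rho → lev e0 (endp 0 p) ≤ n) ∧
    (∀ p, p <+: big e0 l pi rho → p ≠ big e0 l pi rho → 0 ≤ lev e0 (endp 0 p)) ∧
    lev e0 (endp 0 (big e0 l pi rho)) = -1 := by
  have hsg : lev e0 (endp 0 (l ++ [opp e0])) = -1 := by
    rcases pre_sg hl (List.prefix_refl (l ++ [opp e0])) with h | h
    · exact h.2
    · exact absurd rfl h.1
  have hn0 : rho ≠ [] → 1 ≤ n := by
    intro h
    have := (hr.1 [] List.nil_prefix (Ne.symm h)).1
    simp only [endp, lev_zero] at this
    omega
  refine ⟨fun p hpp => ?_, fun p hpp hne => ?_, ?_⟩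
  · rcases pre_append hpp with h | ⟨q, hq, rfl⟩
    · by_cases hpe : p = pi
      · rw [hpe, hp.2]
      · exact (hp.1 p h hpe).2.le
    · rw [lev_endp_append, hp.2]
      rcases pre_append hq with h | ⟨r, hr', rfl⟩
      · rcases pre_sg hl h with h | h <;> · rw [h.2]; omega
      · rw [lev_endp_append, hsg]
        by_cases hre : r = rho
        · rw [hre, hr.2]; omega
        · have := (hr.1 r hr' hre).2; omega
  · rcases pre_append hpp with h | ⟨q, hq, rfl⟩
    · by_cases hpe : p = pi
      · rw [hpe, hp.2]; omega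
      · exact (hp.1 p h hpe).1
    · rw [lev_endp_append, hp.2]
      rcases pre_append hq with h | ⟨r, hr', rfl⟩
      · rcases pre_sg hl h with h | h
        · rw [h.2]
          have : rho ≠ [] := by
            rintro rfl
            apply hne
            rw [h.1, big, List.append_nil]
          have := hn0 this
          omega
        · rw [h.2]; omega
      · rw [lev_endp_append, hsg]
        have hre : r ≠ rho := by
          rintro rfl
          exact hne rfl
        have := (hr.1 r hr' hre).1; omega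
  · rw [big, lev_endp_append, lev_endp_append, hp.2, hsg, hr.2]
    omega

lemma big_inj_aux {e0 : Step d} {l : List (Step d)} (hl : ∀ e ∈ l, lev e0 (stepVec e) = 0)
    {n n' : ℕ} {pi rho pi' rho' : List (Step d)} (hp : UpW e0 n pi) (hr : DnW e0 n rho)
    (hp' : UpW e0 n' pi')
    (h : big e0 l pi rho = big e0 l pi' rho') (hpre : pi <+: pi') : pi = pi' := by
  by_contra hne
  have h1 := (hp'.1 pi hpre hne).2
  rw [hp.2] at h1
  have h2 : pi' <+: big e0 l pi rho := by
    rw [h]; exact List.prefix_append _ _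
  have h3 := (big_lev hl hp hr).1 pi' h2
  rw [hp'.2] at h3
  omega

lemma big_inj {e0 : Step d} {l : List (Step d)} (hl : ∀ e ∈ l, lev e0 (stepVec e) = 0)
    {n n' : ℕ} {pi rho pi' rho' : List (Step d)} (hp : UpW e0 n pi) (hr : DnW e0 n rho)
    (hp' : UpW e0 n' pi') (hr' : DnW e0 n' rho')
    (h : big e0 l pi rho = big e0 l pi' rho') : n = n' ∧ pi = pi' ∧ rho = rho' := by
  have h1 : pi <+: big e0 l pi rho := List.prefix_append _ _
  have h2 : pi' <+: big e0 l pi rho := by rw [h]; exact List.prefix_append _ _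
  have hpi : pi = pi' := by
    rcases List.prefix_or_prefix_of_prefix h1 h2 with h3 | h3
    · exact big_inj_aux hl hp hr hp' h h3
    · exact (big_inj_aux hl hp' hr' hp h.symm h3).symm
  subst hpi
  have hn : n = n' := by
    have := hp.2.symm.trans hp'.2
    exact_mod_cast this
  subst hn
  refine ⟨rfl, rfl, ?_⟩
  have := List.append_cancel_left h
  exact List.append_cancel_left this

lemma lev_site {e0 : Step d} {l : List (Step d)} {x y : Site d} (h : y ∈ sitesL x l) :
    ∃ p, p <+: l ∧ p ≠ l ∧ lev e0 y = lev e0 x + lev e0 (endp 0 p) := by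
  obtain ⟨p, h1, h2, rfl⟩ := mem_sitesL h
  exact ⟨p, h1, h2, by rw [endp_eq_add, lev_add]⟩

/-- weight of the whole word -/
lemma aw_big (ν : Measure (Row d)) [IsProbabilityMeasure ν] {e0 : Step d} {w : Site d}
    {l : List (Step d)} (hl : ∀ e ∈ l, lev e0 (stepVec e) = 0)
    (hend : ∀ x : Site d, endp x l = x + w)
    {n : ℕ} {pi rho : List (Step d)} (hp : UpW e0 n pi) (hr : DnW e0 n rho)
    (hc : ∀ y ∈ sitesL (0 : Site d) pi, y ∉ sitesL (endp 0 pi + w - stepVec e0) rho) :
    aw ν (big e0 l pi rho) = aw ν (l ++ [opp e0]) * (aw ν pi * aw ν rho) := by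
  have hend2 : ∀ x : Site d, endp x (l ++ [opp e0]) = x + w - stepVec e0 := by
    intro x
    rw [endp_append, hend]
    simp only [endp]
    rw [stepVec_opp]; abel
  rw [big, aw_append ν pi, aw_append ν (l ++ [opp e0])]
  · ring
  · intro y hy hy2
    obtain ⟨p, hp1, hp2, hp3⟩ := lev_site (e0 := e0) hy
    obtain ⟨q, hq1, hq2, hq3⟩ := lev_site (e0 := e0) hy2
    have h1 : lev e0 (endp 0 p) = 0 := by
      rcases pre_sg hl hp1 with h | h
      · exact absurd h.1 hp2
      · exact h.2
    have h2 : lev e0 (endp 0 (l ++ [opp e0])) = -1 := by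
      rcases pre_sg hl (List.prefix_refl (l ++ [opp e0])) with h | h
      · exact h.2
      · exact absurd rfl h.1
    have h3 := (hr.1 q hq1 hq2).2
    rw [hp3, h1, h2, lev_zero] at hq3
    omega
  · intro y hy hy2
    rw [sitesL_append, List.mem_append, hend2] at hy2
    rcases hy2 with hy2 | hy2
    · obtain ⟨p, hp1, hp2, hp3⟩ := lev_site (e0 := e0) hy
      obtain ⟨q, hq1, hq2, hq3⟩ := lev_site (e0 := e0) hy2
      have h1 : lev e0 (endp 0 q) = 0 := by
        rcases pre_sg hl hq1 with h | h
        · exact absurd h.1 hq2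
        · exact h.2
      have h3 := (hp.1 p hp1 hp2).2
      rw [hp3, h1, hp.2, lev_zero] at hq3
      omega
    · exact hc y hy hy2

open Classical in
/-- **THE SURGERY** (all heights together), any iid law -/
theorem surgery_le (ν : Measure (Row d)) [IsProbabilityMeasure ν] (e0 : Step d) (w : Site d)
    (l : List (Step d)) (hl : ∀ e ∈ l, lev e0 (stepVec e) = 0)
    (hend : ∀ x : Site d, endp x l = x + w) :
    aw ν (l ++ [opp e0]) * ∑' t : ℕ × List (Step d) × List (Step d),
      (if UpW e0 t.1 t.2.1 ∧ DnW e0 t.1 t.2.2 ∧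
        (∀ y ∈ sitesL (0 : Site d) t.2.1, y ∉ sitesL (endp 0 t.2.1 + w - stepVec e0) t.2.2)
        then aw ν t.2.1 * aw ν t.2.2 else 0) ≤ 1 := by
  set C : Set (ℕ × List (Step d) × List (Step d)) := {t | UpW e0 t.1 t.2.1 ∧ DnW e0 t.1 t.2.2 ∧
        (∀ y ∈ sitesL (0 : Site d) t.2.1, y ∉ sitesL (endp 0 t.2.1 + w - stepVec e0) t.2.2)} with hC
  set S : Set (List (Step d)) := {W | (∀ p, p <+: W → p ≠ W → 0 ≤ lev e0 (endp 0 p)) ∧
    lev e0 (endp 0 W) = -1} with hS
  have hSpf : ∀ a ∈ S, ∀ b ∈ S, a <+: b → a = b := by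
    intro a ha b hb hab
    by_contra hne
    have h1 := hb.1 a hab hne
    rw [ha.2] at h1
    omega
  rw [← ENNReal.tsum_mul_left]
  calc ∑' t : ℕ × List (Step d) × List (Step d), aw ν (l ++ [opp e0]) *
        (if UpW e0 t.1 t.2.1 ∧ DnW e0 t.1 t.2.2 ∧
        (∀ y ∈ sitesL (0 : Site d) t.2.1, y ∉ sitesL (endp 0 t.2.1 + w - stepVec e0) t.2.2)
        then aw ν t.2.1 * aw ν t.2.2 else 0)
      = ∑' t : C, aw ν (big e0 l t.1.2.1 t.1.2.2) := by
        rw [tsum_subtype C (fun t => aw ν (big e0 l t.2.1 t.2.2))]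
        refine tsum_congr fun t => ?_
        by_cases ht : UpW e0 t.1 t.2.1 ∧ DnW e0 t.1 t.2.2 ∧
            (∀ y ∈ sitesL (0 : Site d) t.2.1, y ∉ sitesL (endp 0 t.2.1 + w - stepVec e0) t.2.2)
        · rw [if_pos ht, Set.indicator_of_mem (show t ∈ C from ht),
            aw_big ν hl hend ht.1 ht.2.1 ht.2.2]
        · rw [if_neg ht, Set.indicator_of_notMem (show t ∉ C from ht), mul_zero]
    _ ≤ ∑' W : List (Step d), (if W ∈ S then aw ν W else 0) := by
        have hinj : Function.Injective (fun t : C => big e0 l t.1.2.1 t.1.2.2) := by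
          rintro ⟨⟨n, pi, rho⟩, h1, h2, h3⟩ ⟨⟨n', pi', rho'⟩, h1', h2', h3'⟩ h
          obtain ⟨rfl, rfl, rfl⟩ := big_inj hl h1 h2 h1' h2' h
          rfl
        refine le_trans (ENNReal.tsum_le_tsum fun t => ?_)
          (ENNReal.tsum_comp_le_tsum_of_injective hinj (fun W => if W ∈ S then aw ν W else 0))
        have hb := big_lev hl t.2.1 t.2.2.1
        have hm : big e0 l t.1.2.1 t.1.2.2 ∈ S := ⟨hb.2.1, hb.2.2⟩
        simp only [if_pos hm, le_refl]
    _ = ∫⁻ ω, ∑' W : List (Step d), (if W ∈ S then lw ω 0 W else 0) ∂(iidEnvironmentLaw ν) := by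
        rw [lintegral_tsum]
        · refine tsum_congr fun W => ?_
          by_cases hW : W ∈ S
          · simp only [if_pos hW, aw]
          · simp only [if_neg hW, lintegral_zero]
        · intro W
          by_cases hW : W ∈ S
          · simp only [if_pos hW]; exact (measurable_lw _ _).aemeasurable
          · simp only [if_neg hW]; exact aemeasurable_const
    _ ≤ ∫⁻ _, 1 ∂(iidEnvironmentLaw ν) := by
        refine lintegral_mono fun ω => le_trans (le_of_eq ?_) (prefixfree_le ω 0 S hSpf)
        refine tsum_congr fun W => ?_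
        by_cases hW : W ∈ S <;> simp [hW]
    _ = 1 := by simp

open Classical in
/-- **THE SURGERY**: for every lateral `w` the no-contact pair crossings have finite total weight. -/
theorem surgery (ν : Measure (Row d)) [IsProbabilityMeasure ν]
    (hν : ∀ᵐ p ∂ν, ∀ e : Step d, 0 < p.1 e) (e0 : Step d) (w : Site d) (hw : lev e0 w = 0) :
    ∑' t : ℕ × List (Step d) × List (Step d),
      (if UpW e0 t.1 t.2.1 ∧ DnW e0 t.1 t.2.2 ∧
        (∀ y ∈ sitesL (0 : Site d) t.2.1, y ∉ sitesL (endp 0 t.2.1 + w - stepVec e0) t.2.2)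
        then aw ν t.2.1 * aw ν t.2.2 else 0) ≠ ⊤ := by
  obtain ⟨l, hl1, hl2, hl3⟩ := exists_word e0 (opp e0) (n1 w) w hw rfl
  -- positive mean of every entry
  have hell : ∀ (x : Site d) , ∀ᵐ ω ∂(iidEnvironmentLaw ν), ∀ (e : Step d), 0 < (ω x).1 e := by
    intro x
    have hmap : (iidEnvironmentLaw ν).map (fun ω : Environment d => ω x) = ν := by
      rw [iidEnvironmentLaw]
      exact Measure.infinitePi_map_eval _ _
    have := hν
    rw [← hmap] at this
    exact ae_of_ae_map (measurable_pi_apply x).aemeasurable this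
  have hm : ∀ (x : Site d) (e : Step d),
      Measurable fun ω : Environment d => ENNReal.ofReal ((ω x).1 e) := fun x e =>
    ENNReal.measurable_ofReal.comp
      ((measurable_pi_apply e).comp (measurable_subtype_coe.comp (measurable_pi_apply x)))
  have hpos : ∀ e : Step d, ∫⁻ ω : Environment d, ENNReal.ofReal ((ω 0).1 e)
      ∂(iidEnvironmentLaw ν) ≠ 0 := by
    intro e h0
    rw [lintegral_eq_zero_iff (hm 0 e)] at h0
    have h2 : ∀ᵐ ω ∂(iidEnvironmentLaw ν), False := by
      filter_upwards [h0, hell 0] with ω h3 h4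
      have h3' : ENNReal.ofReal ((ω 0).1 e) = 0 := h3
      rw [ENNReal.ofReal_eq_zero] at h3'
      exact absurd (h4 e) (not_lt.2 h3')
    have h5 : (iidEnvironmentLaw ν) Set.univ = 0 := by
      have := ae_iff.1 h2
      simpa using this
    rw [measure_univ] at h5
    exact one_ne_zero h5
  haveI : Nonempty (Step d) := ⟨e0⟩
  obtain ⟨e1, he1⟩ := Finite.exists_min (fun e : Step d => ∫⁻ ω : Environment d,
    ENNReal.ofReal ((ω 0).1 e) ∂(iidEnvironmentLaw ν))
  have hc : ∀ (x : Site d) (e : Step d), (∫⁻ ω : Environment d, ENNReal.ofReal ((ω 0).1 e1)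
      ∂(iidEnvironmentLaw ν)) ≤ ∫⁻ ω : Environment d, ENNReal.ofReal ((ω x).1 e)
      ∂(iidEnvironmentLaw ν) := by
    intro x e
    refine (he1 e).trans (le_of_eq ?_)
    have h := (Q561.iid_shift ν x).lintegral_comp (hm 0 e)
    rw [← h]
    refine lintegral_congr fun ω => ?_
    have : (shiftEnv x ω) 0 = ω x := by
      simp [shiftEnv]
    rw [this]
  have h1 := ann_lw_ge ν _ hc (l ++ [opp e0]) 0 (hl3 0).2.1
  have h2 : aw ν (l ++ [opp e0]) ≠ 0 := by
    intro h0
    rw [aw] at h0
    rw [h0] at h1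
    exact pow_ne_zero _ (hpos e1) (le_antisymm h1 zero_le)
  intro htop
  have h3 := surgery_le ν e0 w l hl1 (fun x => (hl3 x).1)
  rw [htop, ENNReal.mul_top h2] at h3
  exact absurd h3 (by simp)

end Crest.Agent.R154.SurgW375
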