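import Crest.Agent.R154.Flux2_566
import Crest.Agent.R154.FinE_804

/-! Row 154, T0219 / NBProp (helper450): the surgery in finite words (letters of Flux2_566: `lw`,
`endp`, `sitesL`).  Argument: 566's B5 document (surgery), Kraft's inequality for words which end at
their first visit below level `0`. -/

set_option autoImplicit false

open MeasureTheory ProbabilityTheory Crest.ProbabilityR.RandomEnvironment
open scoped ENNReal

namespace Crest.Agent.R154.Surg450

open Flux566

variable {d : ℕ}

/-! ### words -/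

lemma sitesL_append (l l' : List (Step d)) (x : Site d) :
    sitesL x (l ++ l') = sitesL x l ++ sitesL (endp x l) l' := by
  induction l generalizing x with
  | nil => rfl
  | cons e l ih => simp only [List.cons_append, sitesL, endp, ih]

lemma lw_append (ω : Environment d) (l l' : List (Step d)) (x : Site d) :
    lw ω x (l ++ l') = lw ω x l * lw ω (endp x l) l' := by
  induction l generalizing x with
  | nil => simp [lw, endp]
  | cons e l ih => simp only [List.cons_append, lw, endp, ih, mul_assoc]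

lemma sitesL_eq_map (l : List (Step d)) (x : Site d) :
    sitesL x l = (sitesL 0 l).map (fun z => x + z) := by
  induction l generalizing x with
  | nil => rfl
  | cons e l ih =>
    simp only [sitesL, List.map_cons, add_zero, zero_add]
    rw [ih (x + stepVec e), ih (stepVec e), List.map_map]
    congr 1
    refine List.map_congr_left fun z _ => ?_
    simp only [Function.comp_apply, add_assoc]

/-- translation of the sites of a word -/
lemma mem_sitesL_add (l : List (Step d)) (a x z : Site d) :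
    z ∈ sitesL (a + x) l ↔ z - a ∈ sitesL x l := by
  rw [sitesL_eq_map l (a + x), sitesL_eq_map l x, List.mem_map, List.mem_map]
  constructor
  · rintro ⟨y, hy, rfl⟩
    exact ⟨y, hy, by abel⟩
  · rintro ⟨y, hy, h⟩
    refine ⟨y, hy, ?_⟩
    rw [add_assoc, h]; abel

lemma lw_shift (ω : Environment d) (l : List (Step d)) (x y : Site d) :
    lw (shiftEnv y ω) x l = lw ω (x + y) l := by
  induction l generalizing x with
  | nil => rfl
  | cons e l ih =>
    simp only [lw]
    rw [ih, add_right_comm]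
    rfl

/-- annealed weight of a word -/
noncomputable def aw (ν : Measure (Row d)) (l : List (Step d)) : ℝ≥0∞ :=
  ∫⁻ ω, lw ω 0 l ∂(iidEnvironmentLaw ν)

/-- stationarity: the annealed weight does not depend on the starting point -/
lemma lintegral_lw (ν : Measure (Row d)) [IsProbabilityMeasure ν] (x : Site d)
    (l : List (Step d)) : ∫⁻ ω, lw ω x l ∂(iidEnvironmentLaw ν) = aw ν l := by
  have h := (Q561.iid_shift ν x).lintegral_comp (measurable_lw (0 : Site d) l)
  unfold aw
  rw [← h]
  refine lintegral_congr fun ω => ?_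
  rw [lw_shift, zero_add]

/-- product formula for two words which read disjoint sets of sites -/
lemma lintegral_lw_mul (ν : Measure (Row d)) [IsProbabilityMeasure ν] (x y : Site d)
    (l l' : List (Step d)) (h : ∀ z ∈ sitesL x l, z ∉ sitesL y l') :
    ∫⁻ ω, lw ω x l * lw ω y l' ∂(iidEnvironmentLaw ν) = aw ν l * aw ν l' := by
  rw [Q561.iid_lintegral_mul ν (S := {z | z ∈ sitesL x l}) (T := {z | z ∈ sitesL y l'}) ?_
    (measurable_lw _ _) (measurable_lw _ _) (locOn_lw _ _) (locOn_lw _ _), lintegral_lw,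
    lintegral_lw]
  rw [Set.disjoint_left]
  exact fun z hz hz' => h z hz hz'

/-- the annealed weight of a concatenation which reads disjoint sites -/
lemma aw_append (ν : Measure (Row d)) [IsProbabilityMeasure ν] (l l' : List (Step d))
    (h : ∀ z ∈ sitesL 0 l, z ∉ sitesL (endp 0 l) l') :
    aw ν (l ++ l') = aw ν l * aw ν l' := by
  rw [← lintegral_lw_mul ν 0 (endp 0 l) l l' h]
  unfold aw
  exact lintegral_congr fun ω => lw_append ω l l' 0

lemma fol_prefix (l : List (Step d)) : ∀ (l' : List (Step d)) (X : Path d),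
    X ∈ Fol l Set.univ → X ∈ Fol l' Set.univ → l <+: l' ∨ l' <+: l := by
  induction l with
  | nil => intro l' X _ _; exact Or.inl List.nil_prefix
  | cons e l ih =>
    intro l' X h h'
    cases l' with
    | nil => exact Or.inr List.nil_prefix
    | cons e' l' =>
      obtain ⟨h1, h2⟩ := h
      obtain ⟨h3, h4⟩ := h'
      have he : e = e' := by
        apply Q561.stepVec_injective
        have h5 : X 0 + stepVec e = X 0 + stepVec e' := h1.symm.trans h3
        exact add_left_cancel h5
      subst he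
      rcases ih l' (shift 1 X) h2 h4 with h6 | h6
      · exact Or.inl (List.cons_prefix_cons.2 ⟨rfl, h6⟩)
      · exact Or.inr (List.cons_prefix_cons.2 ⟨rfl, h6⟩)

/-- KRAFT: the quenched weights of a prefix-free family of words sum to at most one -/
lemma tsum_pf (ω : Environment d) (x : Site d) (S : Set (List (Step d)))
    (hpf : ∀ l ∈ S, ∀ l' ∈ S, l <+: l' → l = l') : ∑' l : S, lw ω x l ≤ 1 := by
  have h1 : ∀ l : List (Step d), lw ω x l ≤ quenchedLaw ω x (Fol l Set.univ) := by
    intro l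
    have h := fol_ge ω l x (B := Set.univ) MeasurableSet.univ
    rwa [measure_univ, mul_one] at h
  calc ∑' l : S, lw ω x l ≤ ∑' l : S, quenchedLaw ω x (Fol l.1 Set.univ) :=
        ENNReal.tsum_le_tsum fun l => h1 l.1
    _ = quenchedLaw ω x (⋃ l : S, Fol l.1 Set.univ) := by
        rw [measure_iUnion]
        · intro a b hab
          change Disjoint (Fol a.1 Set.univ) (Fol b.1 Set.univ)
          rw [Set.disjoint_left]
          intro X hX hX'
          apply hab
          apply Subtype.ext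
          rcases fol_prefix a.1 b.1 X hX hX' with h | h
          · exact hpf _ a.2 _ b.2 h
          · exact (hpf _ b.2 _ a.2 h).symm
        · exact fun l => measurableSet_Fol l.1 MeasurableSet.univ
    _ ≤ 1 := prob_le_one

/-- KRAFT, annealed -/
lemma tsum_aw_pf (ν : Measure (Row d)) [IsProbabilityMeasure ν] (S : Set (List (Step d)))
    (hpf : ∀ l ∈ S, ∀ l' ∈ S, l <+: l' → l = l') : ∑' l : S, aw ν l ≤ 1 := by
  unfold aw
  rw [← lintegral_tsum fun l : S => (measurable_lw (0 : Site d) l.1).aemeasurable]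
  calc ∫⁻ ω, ∑' l : S, lw ω 0 l.1 ∂(iidEnvironmentLaw ν)
      ≤ ∫⁻ _ω, 1 ∂(iidEnvironmentLaw ν) := lintegral_mono fun ω => tsum_pf ω 0 S hpf
    _ = 1 := by simp

/-! ### crossings -/

/-- up crossing of `n` levels (word at `0`) -/
def IsUp (u : Step d) (n : ℕ) (l : List (Step d)) : Prop :=
  (∀ y ∈ sitesL 0 l, 0 ≤ lev u y ∧ lev u y < n) ∧ lev u (endp 0 l) = n

/-- down crossing of `n` levels (word at `0`) -/
def IsDn (u : Step d) (n : ℕ) (l : List (Step d)) : Prop :=
  (∀ y ∈ sitesL 0 l, -(n : ℤ) < lev u y ∧ lev u y ≤ 0) ∧ lev u (endp 0 l) = -(n : ℤ)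

/-- no contact: the up crossing hung at `0`, the down crossing started at `w - u` -/
def NC (u : Step d) (w : Site d) (π γ : List (Step d)) : Prop :=
  ∀ y ∈ sitesL (-endp 0 π) π, y ∉ sitesL (w + stepVec (opp u)) γ

/-- words which end at their first visit below level `0` -/
def S0 (u : Step d) : Set (List (Step d)) :=
  {l | (∀ z ∈ sitesL 0 l, 0 ≤ lev u z) ∧ lev u (endp 0 l) < 0}

lemma S0_pf (u : Step d) : ∀ l ∈ S0 u, ∀ l' ∈ S0 u, l <+: l' → l = l' := by
  rintro l hl l' hl' ⟨t, rfl⟩
  cases t with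
  | nil => simp
  | cons e t =>
    exfalso
    have h1 := hl'.1 (endp 0 l) (by
      rw [sitesL_append]; simp [sitesL])
    have h2 := hl.2
    omega

lemma lev_sitesL_add (u : Step d) (x : Site d) (l : List (Step d)) (z : Site d)
    (hz : z ∈ sitesL x l) : ∃ y ∈ sitesL 0 l, lev u z = lev u x + lev u y := by
  rw [sitesL_eq_map, List.mem_map] at hz
  obtain ⟨y, hy, rfl⟩ := hz
  exact ⟨y, hy, lev_add _ _ _⟩

section

variable (u : Step d) (w : Site d) (wd : List (Step d))
  (hwd : ∀ e ∈ wd, lev u (stepVec e) = 0) (hend : ∀ x : Site d, endp x wd = x + w)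

include hend in
lemma endp_sg (x : Site d) : endp x (wd ++ [opp u]) = x + (w + stepVec (opp u)) := by
  rw [endp_append, hend]
  simp only [endp]
  rw [add_assoc]

include hwd hend in
/-- levels of the surgered word -/
lemma lev_W (hw : lev u w = 0) {n : ℕ} {π γ : List (Step d)} (hπ : IsUp u n π)
    (hγ : IsDn u n γ) : (∀ z ∈ sitesL 0 (π ++ ((wd ++ [opp u]) ++ γ)), 0 ≤ lev u z ∧ lev u z ≤ n) ∧
      lev u (endp 0 (π ++ ((wd ++ [opp u]) ++ γ))) = -1 := by
  have hop : lev u (stepVec (opp u)) = -1 := by rw [stepVec_opp, lev_neg, lev_self]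
  refine ⟨fun z hz => ?_, ?_⟩
  · rw [sitesL_append, sitesL_append, List.mem_append, List.mem_append] at hz
    rcases hz with hz | hz | hz
    · have := hπ.1 z hz
      exact ⟨this.1, this.2.le⟩
    · rw [lev_sites u (opp u) wd hwd _ z hz, hπ.2]
      exact ⟨by omega, le_rfl⟩
    · rw [endp_sg u w wd hend] at hz
      obtain ⟨y, hy, hzy⟩ := lev_sitesL_add u _ γ z hz
      have := hγ.1 y hy
      rw [lev_add, lev_add, hw, hop, hπ.2] at hzy
      constructor <;> omega
  · rw [endp_append, endp_append, endp_sg u w wd hend, endp_eq_add γ, lev_add, lev_add, lev_add,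
      hγ.2, hπ.2, hw, hop]
    ring

lemma mem_W {n : ℕ} {π γ : List (Step d)} :
    endp 0 π ∈ sitesL 0 (π ++ ((wd ++ [opp u]) ++ γ)) := by
  rw [sitesL_append, List.mem_append]
  right
  cases wd with
  | nil => simp [sitesL]
  | cons e wd => simp [sitesL]

include hwd hend in
/-- weight of the surgered word -/
lemma aw_W (ν : Measure (Row d)) [IsProbabilityMeasure ν] (hw : lev u w = 0) {n : ℕ}
    {π γ : List (Step d)} (hπ : IsUp u n π) (hγ : IsDn u n γ) (hnc : NC u w π γ) :
    aw ν (π ++ ((wd ++ [opp u]) ++ γ)) = aw ν (wd ++ [opp u]) * (aw ν π * aw ν γ) := by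
  have hop : lev u (stepVec (opp u)) = -1 := by rw [stepVec_opp, lev_neg, lev_self]
  have hlevγ : ∀ z ∈ sitesL (endp 0 π + (w + stepVec (opp u))) γ, lev u z < n := by
    intro z hz
    obtain ⟨y, hy, hzy⟩ := lev_sitesL_add u _ γ z hz
    have := hγ.1 y hy
    rw [lev_add, lev_add, hw, hop, hπ.2] at hzy
    omega
  have h1 : aw ν ((wd ++ [opp u]) ++ γ) = aw ν (wd ++ [opp u]) * aw ν γ := by
    refine aw_append ν _ _ fun z hz hz' => ?_
    have h2 := lev_sites u (opp u) wd hwd _ z hz
    rw [endp_sg u w wd hend, zero_add] at hz'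
    obtain ⟨y, hy, hzy⟩ := lev_sitesL_add u _ γ z hz'
    have := hγ.1 y hy
    rw [lev_add, hw, hop] at hzy
    rw [lev_zero] at h2
    omega
  rw [aw_append ν π _ ?_, h1]
  · ring
  · intro z hz hz'
    rw [sitesL_append, List.mem_append] at hz'
    rcases hz' with hz' | hz'
    · have h2 := lev_sites u (opp u) wd hwd _ z hz'
      have h3 := hπ.1 z hz
      rw [hπ.2] at h2
      omega
    · rw [endp_sg u w wd hend, mem_sitesL_add] at hz'
      refine hnc (z - endp 0 π) ?_ hz'
      rw [← mem_sitesL_add]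
      rwa [add_neg_cancel]

include hwd hend in
lemma W_inj (hw : lev u w = 0) {n n' : ℕ} {π γ π' γ' : List (Step d)} (hπ : IsUp u n π)
    (hγ : IsDn u n γ) (hπ' : IsUp u n' π') (hγ' : IsDn u n' γ')
    (h : π ++ ((wd ++ [opp u]) ++ γ) = π' ++ ((wd ++ [opp u]) ++ γ')) :
    n = n' ∧ π = π' ∧ γ = γ' := by
  have key : ∀ {n n' : ℕ} {π γ π' γ' : List (Step d)}, IsUp u n π → IsDn u n γ → IsUp u n' π' →
      IsDn u n' γ' → π ++ ((wd ++ [opp u]) ++ γ) = π' ++ ((wd ++ [opp u]) ++ γ') →
      ∀ a, π' = π ++ a → a = [] := by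
    intro n n' π γ π' γ' hπ hγ hπ' hγ' h a ha
    cases a with
    | nil => rfl
    | cons e a =>
      exfalso
      have h1 : endp 0 π ∈ sitesL 0 π' := by
        rw [ha, sitesL_append]; simp [sitesL]
      have h2 := (hπ'.1 _ h1).2
      rw [hπ.2] at h2
      have h3 := ((lev_W u w wd hwd hend hw hπ hγ).1 (endp 0 π')
        (by rw [h]; exact mem_W (n := n) u wd)).2
      rw [hπ'.2] at h3
      omega
  have hππ : π = π' := by
    rcases List.append_eq_append_iff.1 h with ⟨a, ha, _⟩ | ⟨a, ha, _⟩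
    · have := key hπ hγ hπ' hγ' h a ha
      subst this
      simpa using ha.symm
    · have := key hπ' hγ' hπ hγ h.symm a ha
      subst this
      simpa using ha
  subst hππ
  have hn : (n : ℤ) = n' := hπ.2.symm.trans hπ'.2
  refine ⟨by exact_mod_cast hn, rfl, ?_⟩
  exact List.append_cancel_left (List.append_cancel_left h)

end

open Classical in
/-- SURGERY: the non-contact pairs of crossings have bounded total weight, summed over the height. -/
theorem surgery (ν : Measure (Row d)) [IsProbabilityMeasure ν]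
    (hν : ∀ᵐ p ∂ν, ∀ e : Step d, 0 < p.1 e) (u : Step d) {w : Site d} (hw : lev u w = 0) :
    ∃ c : ℝ≥0∞, c ≠ 0 ∧ c * ∑' n : ℕ, ∑' π : List (Step d), ∑' γ : List (Step d),
      (if IsUp u n π ∧ IsDn u n γ ∧ NC u w π γ then aw ν π * aw ν γ else 0) ≤ 1 := by
  obtain ⟨wd, hwd, _, h3⟩ := exists_word u (opp u) (n1 w) w hw rfl
  have hend : ∀ x : Site d, endp x wd = x + w := fun x => (h3 x).1
  obtain ⟨c0, hc0, _, hc⟩ := FinE804.exists_c ν hν
  refine ⟨aw ν (wd ++ [opp u]), ?_, ?_⟩
  · have h := ann_lw_ge ν (ENNReal.ofReal c0) hc (wd ++ [opp u]) 0 (h3 0).2.1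
    intro h0
    change _ ≤ aw ν _ at h
    rw [h0, nonpos_iff_eq_zero] at h
    have := pow_eq_zero_iff (n := (wd ++ [opp u]).length) (by simp) |>.1 h
    rw [ENNReal.ofReal_eq_zero] at this
    linarith
  · set T : Set (ℕ × List (Step d) × List (Step d)) :=
      {p | IsUp u p.1 p.2.1 ∧ IsDn u p.1 p.2.2 ∧ NC u w p.2.1 p.2.2} with hT
    have e1 : ∑' n : ℕ, ∑' π : List (Step d), ∑' γ : List (Step d),
        (if IsUp u n π ∧ IsDn u n γ ∧ NC u w π γ then aw ν π * aw ν γ else 0)
        = ∑' p : T, aw ν p.1.2.1 * aw ν p.1.2.2 := by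
      rw [tsum_subtype T fun p => aw ν p.2.1 * aw ν p.2.2, ENNReal.tsum_prod']
      refine tsum_congr fun n => ?_
      rw [ENNReal.tsum_prod']
      refine tsum_congr fun π => tsum_congr fun γ => ?_
      simp only [Set.indicator, hT, Set.mem_setOf_eq]
    rw [e1, ← ENNReal.tsum_mul_left]
    have e2 : ∀ p : T, aw ν (wd ++ [opp u]) * (aw ν p.1.2.1 * aw ν p.1.2.2)
        = aw ν (p.1.2.1 ++ ((wd ++ [opp u]) ++ p.1.2.2)) := fun p =>
      (aw_W u w wd hwd hend ν hw p.2.1 p.2.2.1 p.2.2.2).symm
    rw [tsum_congr e2]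
    let F : T → S0 u := fun p => ⟨p.1.2.1 ++ ((wd ++ [opp u]) ++ p.1.2.2), by
      have h := lev_W u w wd hwd hend hw p.2.1 p.2.2.1
      refine ⟨fun z hz => (h.1 z hz).1, ?_⟩
      rw [h.2]; norm_num⟩
    have hF : Function.Injective F := by
      rintro ⟨⟨n, π, γ⟩, hp⟩ ⟨⟨n', π', γ'⟩, hp'⟩ h
      have h' := congrArg Subtype.val h
      obtain ⟨rfl, rfl, rfl⟩ := W_inj u w wd hwd hend hw hp.1 hp.2.1 hp'.1 hp'.2.1 h'
      rfl
    calc ∑' p : T, aw ν (p.1.2.1 ++ ((wd ++ [opp u]) ++ p.1.2.2))
        = ∑' p : T, aw ν (F p).1 := rfl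
      _ ≤ ∑' l : S0 u, aw ν l.1 :=
          ENNReal.tsum_comp_le_tsum_of_injective hF fun l : S0 u => aw ν l.1
      _ ≤ 1 := tsum_aw_pf ν (S0 u) (S0_pf u)

end Crest.Agent.R154.Surg450
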