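import Crest.Agent.R154.Flux2_566
import Crest.Agent.R154.Loc_561

/-! Row 154 (helper613), SURGERY IN WORDS for the up / down pair (road 801): the words
`X ++ γ ++ [opp u] ++ Y` (X up-crossing, γ lateral, Y down-crossing of the same height, disjoint
sites) form a prefix-free family, hence their annealed weights sum to at most one. -/

set_option autoImplicit false

open MeasureTheory ProbabilityTheory Crest.ProbabilityR.RandomEnvironment
open scoped ENNReal

namespace Crest.Agent.R154.Surg613

open Crest.Agent.R154.Flux566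

variable {d : ℕ}

lemma stepVec_injective : Function.Injective (stepVec : Step d → Site d) := by
  rintro ⟨i, b⟩ ⟨j, c⟩ h
  have h1 := congrFun h i
  have h2 := congrFun h j
  by_cases hij : i = j
  · subst hij
    unfold stepVec at h1
    simp only [Pi.single_eq_same] at h1
    cases b <;> cases c <;> simp_all
  · exfalso
    unfold stepVec at h1
    simp only [Pi.single_eq_same] at h1
    rw [Pi.single_eq_of_ne hij] at h1
    cases b <;> simp_all

lemma lw_append (ω : Environment d) (l l' : List (Step d)) (x : Site d) :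
    lw ω x (l ++ l') = lw ω x l * lw ω (endp x l) l' := by
  induction l generalizing x with
  | nil => simp [lw, endp]
  | cons e l ih => simp only [List.cons_append, lw, endp]; rw [ih, mul_assoc]

lemma sitesL_append (l l' : List (Step d)) (x : Site d) :
    sitesL x (l ++ l') = sitesL x l ++ sitesL (endp x l) l' := by
  induction l generalizing x with
  | nil => simp [sitesL, endp]
  | cons e l ih => simp only [List.cons_append, sitesL, endp]; rw [ih]

lemma mem_sitesL {l : List (Step d)} {x y : Site d} :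
    y ∈ sitesL x l ↔ ∃ k < l.length, y = endp x (l.take k) := by
  induction l generalizing x with
  | nil => simp [sitesL]
  | cons e l ih =>
    simp only [sitesL, List.mem_cons, List.length_cons]
    constructor
    · rintro (rfl | h)
      · exact ⟨0, by omega, by simp [endp]⟩
      · obtain ⟨k, hk, rfl⟩ := ih.1 h
        exact ⟨k + 1, by omega, by simp [endp]⟩
    · rintro ⟨k, hk, rfl⟩
      cases k with
      | zero => left; simp [endp]
      | succ k => right; exact ih.2 ⟨k, by omega, by simp [endp]⟩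

lemma lw_shift (z : Site d) (ω : Environment d) (x : Site d) (l : List (Step d)) :
    lw (shiftEnv z ω) x l = lw ω (x + z) l := by
  induction l generalizing x with
  | nil => rfl
  | cons e l ih =>
    simp only [lw]
    rw [ih]
    have : x + stepVec e + z = x + z + stepVec e := by abel
    rw [this]
    rfl

/-- annealed weight of a word -/
noncomputable def aw (ν : Measure (Row d)) [IsProbabilityMeasure ν] (l : List (Step d)) : ℝ≥0∞ :=
  ∫⁻ ω, lw ω 0 l ∂(iidEnvironmentLaw ν)

lemma lint_lw (ν : Measure (Row d)) [IsProbabilityMeasure ν] (x : Site d) (l : List (Step d)) :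
    ∫⁻ ω, lw ω x l ∂(iidEnvironmentLaw ν) = aw ν l := by
  have h := (Q561.iid_shift ν x).lintegral_comp (measurable_lw (0 : Site d) l)
  unfold aw
  rw [← h]
  refine lintegral_congr fun ω => ?_
  rw [lw_shift, zero_add]

/-- prefix-free set of words -/
def PF (S : Set (List (Step d))) : Prop := ∀ l ∈ S, ∀ l' ∈ S, l <+: l' → l = l'

lemma fol_prefix (l l' : List (Step d)) (X : Path d) (h : X ∈ Fol l Set.univ)
    (h' : X ∈ Fol l' Set.univ) : l <+: l' ∨ l' <+: l := by
  induction l generalizing l' X with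
  | nil => left; exact List.nil_prefix
  | cons e l ih =>
    cases l' with
    | nil => right; exact List.nil_prefix
    | cons e' l' =>
      obtain ⟨h1, h2⟩ := h
      obtain ⟨h1', h2'⟩ := h'
      have he : e = e' := by
        apply stepVec_injective
        have := h1.symm.trans h1'
        exact add_left_cancel this
      subst he
      rcases ih l' (shift 1 X) h2 h2' with h | h
      · left; exact (List.prefix_cons_inj e).2 h
      · right; exact (List.prefix_cons_inj e).2 h

open Classical in
/-- quenched weights of a prefix-free set sum to at most one -/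
theorem sum_pf_le {S : Set (List (Step d))} (hS : PF S) (ω : Environment d) (x : Site d) :
    ∑' l : List (Step d), (if l ∈ S then lw ω x l else 0) ≤ 1 := by
  have hle : ∀ l : List (Step d), (if l ∈ S then lw ω x l else 0)
      ≤ quenchedLaw ω x (if l ∈ S then Fol l Set.univ else ∅) := by
    intro l
    by_cases hl : l ∈ S
    · simp only [if_pos hl]
      have := fol_ge ω l x MeasurableSet.univ
      rwa [measure_univ, mul_one] at this
    · simp [if_neg hl]
  refine (ENNReal.tsum_le_tsum hle).trans ?_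
  refine (tsum_meas_le_meas_iUnion_of_disjoint _ (fun l => ?_) ?_).trans prob_le_one
  · split_ifs
    · exact measurableSet_Fol _ MeasurableSet.univ
    · exact MeasurableSet.empty
  · intro l l' hne
    show Disjoint _ _
    by_cases hl : l ∈ S
    · by_cases hl' : l' ∈ S
      · simp only [if_pos hl, if_pos hl']
        rw [Set.disjoint_left]
        intro X hX hX'
        rcases fol_prefix l l' X hX hX' with h | h
        · exact hne (hS l hl l' hl' h)
        · exact hne (hS l' hl' l hl h).symm
      · simp [if_neg hl']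
    · simp [if_neg hl]

open Classical in
theorem sum_pf_aw (ν : Measure (Row d)) [IsProbabilityMeasure ν] {S : Set (List (Step d))}
    (hS : PF S) : ∑' l : List (Step d), (if l ∈ S then aw ν l else 0) ≤ 1 := by
  have h1 : ∀ l : List (Step d), (if l ∈ S then aw ν l else 0)
      = ∫⁻ ω, (if l ∈ S then lw ω 0 l else 0) ∂(iidEnvironmentLaw ν) := by
    intro l
    by_cases hl : l ∈ S
    · simp only [if_pos hl]; rfl
    · simp [if_neg hl]
  rw [tsum_congr h1, ← lintegral_tsum]
  · calc _ ≤ ∫⁻ _, 1 ∂(iidEnvironmentLaw ν) := lintegral_mono fun ω => sum_pf_le hS ω 0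
      _ = 1 := by simp
  · intro l
    by_cases hl : l ∈ S
    · simp only [if_pos hl]; exact (measurable_lw 0 l).aemeasurable
    · simp only [if_neg hl]; exact measurable_const.aemeasurable

/-- up-crossing words of height `n` -/
def UpW (u : Step d) (n : ℕ) (l : List (Step d)) : Prop :=
  lev u (endp 0 l) = n ∧ ∀ k < l.length, 0 ≤ lev u (endp 0 (l.take k)) ∧
    lev u (endp 0 (l.take k)) < n

/-- down-crossing words of height `n` -/
def DnW (u : Step d) (n : ℕ) (l : List (Step d)) : Prop :=
  lev u (endp 0 l) = -(n : ℤ) ∧ ∀ k < l.length, -(n : ℤ) < lev u (endp 0 (l.take k)) ∧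
    lev u (endp 0 (l.take k)) ≤ 0

/-- the surgery word -/
def SW (g X Y : List (Step d)) : List (Step d) := X ++ (g ++ Y)

/-- the words do not read a common site (`Y` starts at the end of `X` plus `z`) -/
def Dis (z : Site d) (X Y : List (Step d)) : Prop :=
  ∀ y ∈ sitesL 0 X, y ∉ sitesL (endp 0 X + z) Y

section

variable {u : Step d} {g : List (Step d)} {z : Site d}

lemma up_sites {n : ℕ} {X : List (Step d)} (h : UpW u n X) {y : Site d} (hy : y ∈ sitesL 0 X) :
    0 ≤ lev u y ∧ lev u y < n := by
  obtain ⟨k, hk, rfl⟩ := mem_sitesL.1 hy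
  exact h.2 k hk

lemma dn_sites {n : ℕ} {Y : List (Step d)} (h : DnW u n Y) {x y : Site d}
    (hy : y ∈ sitesL x Y) : lev u x - n < lev u y ∧ lev u y ≤ lev u x := by
  obtain ⟨k, hk, rfl⟩ := mem_sitesL.1 hy
  have h2 := h.2 k hk
  rw [endp_eq_add, lev_add]
  constructor <;> omega

lemma sw_sites {n : ℕ} {X Y : List (Step d)} (hX : UpW u n X) (hY : DnW u n Y)
    (hg : ∀ x y, y ∈ sitesL x g → lev u y = lev u x) (hz : endp 0 g = z)
    (hz1 : lev u z = -1) {y : Site d} (hy : y ∈ sitesL 0 (SW g X Y)) :
    0 ≤ lev u y ∧ lev u y ≤ n := by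
  have hn : (0 : ℤ) ≤ n := Int.natCast_nonneg n
  unfold SW at hy
  rw [sitesL_append, sitesL_append] at hy
  rcases List.mem_append.1 hy with h | h
  · have := up_sites hX h; constructor <;> omega
  · rcases List.mem_append.1 h with h | h
    · have := hg _ _ h
      rw [hX.1] at this
      constructor <;> omega
    · have h1 := dn_sites hY h
      rw [endp_eq_add g, hz, lev_add, hX.1, hz1] at h1
      constructor <;> omega

lemma sw_end {n : ℕ} {X Y : List (Step d)} (hX : UpW u n X) (hY : DnW u n Y)
    (hz : endp 0 g = z) (hz1 : lev u z = -1) : lev u (endp 0 (SW g X Y)) = -1 := by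
  unfold SW
  rw [endp_append, endp_append, endp_eq_add Y, endp_eq_add g, hz, lev_add, lev_add, hX.1, hY.1,
    hz1]
  ring

lemma sw_prefix {n n' : ℕ} {X Y X' Y' : List (Step d)} (hX : UpW u n X) (hY : DnW u n Y)
    (hX' : UpW u n' X') (hY' : DnW u n' Y')
    (hg : ∀ x y, y ∈ sitesL x g → lev u y = lev u x) (hz : endp 0 g = z)
    (hz1 : lev u z = -1) (h : SW g X Y <+: SW g X' Y') : SW g X Y = SW g X' Y' := by
  by_contra hne
  have hlen : (SW g X Y).length < (SW g X' Y').length := by
    rcases lt_or_eq_of_le h.length_le with h1 | h1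
    · exact h1
    · exact absurd (h.eq_of_length h1) hne
  have h2 : endp 0 (SW g X Y) ∈ sitesL 0 (SW g X' Y') := by
    refine mem_sitesL.2 ⟨_, hlen, ?_⟩
    rw [← List.prefix_iff_eq_take.1 h]
  have h3 := sw_sites hX' hY' hg hz hz1 h2
  rw [sw_end hX hY hz hz1] at h3
  omega

lemma g_ne (hz : endp 0 g = z) (hz1 : lev u z = -1) : g ≠ [] := by
  rintro rfl
  simp only [endp] at hz
  rw [← hz, lev_zero] at hz1
  omega

lemma top_site {n : ℕ} {X Y : List (Step d)} (hX : UpW u n X) (hgn : g ≠ []) :
    ∃ y ∈ sitesL 0 (SW g X Y), lev u y = n := by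
  refine ⟨endp 0 X, ?_, hX.1⟩
  refine mem_sitesL.2 ⟨X.length, ?_, ?_⟩
  · unfold SW
    have : 0 < g.length := List.length_pos_iff.2 hgn
    simp only [List.length_append]
    omega
  · unfold SW
    rw [List.take_left']
    rfl

lemma up_eq {n : ℕ} {X X' : List (Step d)} (hX : UpW u n X) (hX' : UpW u n X')
    (h : X <+: X') : X = X' := by
  by_contra hne
  have hlen : X.length < X'.length := by
    rcases lt_or_eq_of_le h.length_le with h1 | h1
    · exact h1
    · exact absurd (h.eq_of_length h1) hne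
  have h2 := (hX'.2 _ hlen).2
  rw [← List.prefix_iff_eq_take.1 h, hX.1] at h2
  omega

lemma sw_inj {n n' : ℕ} {X Y X' Y' : List (Step d)} (hX : UpW u n X) (hY : DnW u n Y)
    (hX' : UpW u n' X') (hY' : DnW u n' Y')
    (hg : ∀ x y, y ∈ sitesL x g → lev u y = lev u x) (hz : endp 0 g = z)
    (hz1 : lev u z = -1) (h : SW g X Y = SW g X' Y') : X = X' ∧ Y = Y' := by
  have hgn := g_ne hz hz1
  have hnn : n = n' := by
    obtain ⟨y, hy, hl⟩ := top_site (Y := Y) hX hgn
    obtain ⟨y', hy', hl'⟩ := top_site (Y := Y') hX' hgn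
    rw [h] at hy
    rw [← h] at hy'
    have h1 := (sw_sites hX' hY' hg hz hz1 hy).2
    have h2 := (sw_sites hX hY hg hz hz1 hy').2
    omega
  subst hnn
  have hXX : X = X' := by
    have p1 : X <+: SW g X' Y' := by rw [← h]; exact List.prefix_append _ _
    have p2 : X' <+: SW g X' Y' := List.prefix_append _ _
    rcases le_total X.length X'.length with hl | hl
    · exact up_eq hX hX' (List.prefix_of_prefix_length_le p1 p2 hl)
    · exact (up_eq hX' hX (List.prefix_of_prefix_length_le p2 p1 hl)).symm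
  subst hXX
  refine ⟨rfl, ?_⟩
  unfold SW at h
  exact List.append_cancel_left (List.append_cancel_left h)

lemma aw_sw (ν : Measure (Row d)) [IsProbabilityMeasure ν] {n : ℕ} {X Y : List (Step d)}
    (hX : UpW u n X) (hY : DnW u n Y)
    (hg : ∀ x y, y ∈ sitesL x g → lev u y = lev u x) (hz : endp 0 g = z)
    (hz1 : lev u z = -1) (hD : Dis z X Y) :
    aw ν (SW g X Y) = aw ν X * aw ν Y * aw ν g := by
  have e1 : aw ν (SW g X Y)
      = ∫⁻ ω, lw ω 0 X * (lw ω (endp 0 X) g * lw ω (endp 0 X + z) Y)
          ∂(iidEnvironmentLaw ν) := by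
    unfold aw SW
    refine lintegral_congr fun ω => ?_
    rw [lw_append, lw_append, endp_eq_add g, hz]
  rw [e1, Q561.iid_lintegral_mul ν (S := {y | y ∈ sitesL 0 X})
    (T := {y | y ∈ sitesL (endp 0 X) g ∨ y ∈ sitesL (endp 0 X + z) Y})
    (g := fun ω => lw ω (endp 0 X) g * lw ω (endp 0 X + z) Y) ?_ (measurable_lw _ _)
    ((measurable_lw _ _).mul (measurable_lw _ _)) (locOn_lw _ _) ?_,
    Q561.iid_lintegral_mul ν (S := {y | y ∈ sitesL (endp 0 X) g})
    (T := {y | y ∈ sitesL (endp 0 X + z) Y}) ?_ (measurable_lw _ _) (measurable_lw _ _)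
    (locOn_lw _ _) (locOn_lw _ _), lint_lw, lint_lw, lint_lw]
  · ring
  · rw [Set.disjoint_left]
    intro y hy hy'
    have h1 := hg _ _ hy
    have h2 := (dn_sites hY hy').2
    rw [hX.1] at h1
    rw [lev_add, hX.1, hz1] at h2
    omega
  · rw [Set.disjoint_left]
    intro y hy hy'
    rcases hy' with h | h
    · have h1 := hg _ _ h
      have h2 := (up_sites hX hy).2
      rw [hX.1] at h1
      omega
    · exact hD y hy h
  · intro ω ω' h
    show lw ω (endp 0 X) g * lw ω (endp 0 X + z) Y = lw ω' (endp 0 X) g * lw ω' (endp 0 X + z) Y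
    have a1 : lw ω (endp 0 X) g = lw ω' (endp 0 X) g :=
      locOn_lw (endp 0 X) g ω ω' fun y hy => h y (Or.inl hy)
    have a2 : lw ω (endp 0 X + z) Y = lw ω' (endp 0 X + z) Y :=
      locOn_lw (endp 0 X + z) Y ω ω' fun y hy => h y (Or.inr hy)
    rw [a1, a2]

open Classical in
/-- **SURGERY, words**: the contact-free pairs at offset `z` have total weight `≤ 1 / aw g`. -/
theorem surg_le (ν : Measure (Row d)) [IsProbabilityMeasure ν]
    (hg : ∀ x y, y ∈ sitesL x g → lev u y = lev u x) (hz : endp 0 g = z)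
    (hz1 : lev u z = -1) :
    (∑' p : List (Step d) × List (Step d),
      if (∃ n, UpW u n p.1 ∧ DnW u n p.2) ∧ Dis z p.1 p.2 then aw ν p.1 * aw ν p.2 else 0)
      * aw ν g ≤ 1 := by
  set D : Set (List (Step d) × List (Step d)) :=
    {p | (∃ n, UpW u n p.1 ∧ DnW u n p.2) ∧ Dis z p.1 p.2} with hDdef
  set S : Set (List (Step d)) := {l | ∃ p ∈ D, l = SW g p.1 p.2} with hSdef
  have hPF : PF S := by
    rintro l ⟨p, ⟨⟨n, hX, hY⟩, _⟩, rfl⟩ l' ⟨p', ⟨⟨n', hX', hY'⟩, _⟩, rfl⟩ h
    exact sw_prefix hX hY hX' hY' hg hz hz1 h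
  rw [← ENNReal.tsum_mul_right]
  have e1 : ∀ p : List (Step d) × List (Step d),
      (if (∃ n, UpW u n p.1 ∧ DnW u n p.2) ∧ Dis z p.1 p.2 then aw ν p.1 * aw ν p.2 else 0)
        * aw ν g = D.indicator (fun p => aw ν (SW g p.1 p.2)) p := by
    intro p
    by_cases hp : (∃ n, UpW u n p.1 ∧ DnW u n p.2) ∧ Dis z p.1 p.2
    · rw [Set.indicator_of_mem (s := D) hp, if_pos hp]
      obtain ⟨⟨n, hX, hY⟩, hDis⟩ := hp
      rw [aw_sw ν hX hY hg hz hz1 hDis]
    · rw [Set.indicator_of_notMem (s := D) hp, if_neg hp, zero_mul]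
  rw [tsum_congr e1, ← tsum_subtype D fun p => aw ν (SW g p.1 p.2)]
  have hinj : Function.Injective fun p : D => SW g p.1.1 p.1.2 := by
    rintro ⟨p, ⟨⟨n, hX, hY⟩, hd⟩⟩ ⟨p', ⟨⟨n', hX', hY'⟩, hd'⟩⟩ h
    obtain ⟨h1, h2⟩ := sw_inj hX hY hX' hY' hg hz hz1 h
    exact Subtype.ext (Prod.ext h1 h2)
  calc ∑' p : D, aw ν (SW g p.1.1 p.1.2)
      = ∑' p : D, (fun l => if l ∈ S then aw ν l else 0) (SW g p.1.1 p.1.2) := by
        refine tsum_congr fun p => ?_
        have : SW g p.1.1 p.1.2 ∈ S := ⟨p.1, p.2, rfl⟩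
        simp only [if_pos this]
    _ ≤ ∑' l, (if l ∈ S then aw ν l else 0) :=
        ENNReal.tsum_comp_le_tsum_of_injective hinj _
    _ ≤ 1 := sum_pf_aw ν hPF

/-- **SURGERY, final form**: for every lateral offset `w` the contact-free pairs `(X, Y)` of equal
height (`Y` starts at `end of X + w - u`) have finite total annealed weight. -/
theorem surg_lt_top (ν : Measure (Row d)) [IsProbabilityMeasure ν] (c : ℝ≥0∞) (hc0 : c ≠ 0)
    (hc : ∀ (x : Site d) (e : Step d),
      c ≤ ∫⁻ ω : Environment d, ENNReal.ofReal ((ω x).1 e) ∂(iidEnvironmentLaw ν))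
    (u : Step d) (w : Site d) (hw : lev u w = 0) :
    (∑' p : List (Step d) × List (Step d),
      open Classical in
      if (∃ n, UpW u n p.1 ∧ DnW u n p.2) ∧ Dis (w - stepVec u) p.1 p.2
        then aw ν p.1 * aw ν p.2 else 0) ≠ ⊤ := by
  obtain ⟨l, hl1, _, hl3⟩ := exists_word u (opp u) (n1 w) w hw rfl
  have hend : ∀ x : Site d, endp x (l ++ [opp u]) = x + (w - stepVec u) := by
    intro x
    rw [endp_append, (hl3 x).1]
    simp only [endp]
    rw [stepVec_opp]; abel
  have h := surg_le (u := u) (g := l ++ [opp u]) (z := w - stepVec u) ν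
    (fun x y hy => lev_sites u (opp u) l hl1 x y hy) (by rw [hend, zero_add])
    (by rw [sub_eq_add_neg, lev_add, lev_neg, lev_self, hw]; norm_num)
  have hpos : aw ν (l ++ [opp u]) ≠ 0 := by
    have h1 := ann_lw_ge ν c hc (l ++ [opp u]) 0 (hl3 0).2.1
    intro h0
    unfold aw at h0
    rw [h0] at h1
    exact pow_ne_zero _ hc0 (le_antisymm h1 zero_le)
  intro htop
  rw [htop, ENNReal.top_mul hpos] at h
  exact absurd h (by simp)

end

end Crest.Agent.R154.Surg613
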