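import Crest.Agent.R154.Bd_736
import Crest.Agent.R154.HomeDefs_736
import Crest.Agent.R154.HomeLin_775
import Crest.Agent.R154.D2Asm_244

/-! Row 154, HOME doc (263), HM6a/HM6c: `TailH` on the kernel systems of the natural climbs. -/

set_option autoImplicit false
set_option linter.unusedSectionVars false
set_option linter.deprecated false

namespace Crest.Agent.R154.Home736

open MeasureTheory ProbabilityTheory Set Filter Crest.ProbabilityR.RandomEnvironment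
open Crest.Agent.R154.Mk561 Crest.Agent.R154.Q561
open Crest.Agent.R154.RatioR872 Crest.Agent.R154.RatioR872.KerSys Crest.Agent.R154.Bd736
open Crest.Agent.R154.Flux132 (lev lev_add lev_neg lev_zero)
open Crest.Agent.R154.Bind263 (Frame)
open Crest.Agent.R154.B4Inst797 (Nat0 natLaw lat lat_add UU lp)
open Crest.Agent.R154.MobW437 (wl)
open Crest.Agent.R154.D2Asm244 (kT)
open scoped ENNReal

variable {d : ℕ} {Q : Measure (Environment d)} [IsProbabilityMeasure Q] {κ : ℝ} {R : ℕ}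

/-- the sheared lateral coordinate (431) -/
def ph (u : Step d) (i1 i2 : Fin d) (i : Fin 2) (α : ℝ) (x : Site d) : ℝ :=
  lat i1 i2 x i - α * (lev u x : ℝ)

lemma ph_sub (u : Step d) (i1 i2 : Fin d) (i : Fin 2) (α : ℝ) (x y : Site d) :
    ph u i1 i2 i α y - ph u i1 i2 i α x = ph u i1 i2 i α (y - x) := by
  have h1 : lat i1 i2 y = lat i1 i2 (y - x) + lat i1 i2 x := by
    rw [← lat_add, sub_add_cancel]
  have h2 : lev u y = lev u (y - x) + lev u x := by rw [← lev_add, sub_add_cancel]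
  unfold ph
  rw [h1, h2, Pi.add_apply]
  push_cast
  ring

/-- home displacements -/
def HD (u : Step d) (i1 i2 : Fin d) (i : Fin 2) (α D : ℝ) : Set (Site d) :=
  {z | |ph u i1 i2 i α z| ≤ D}

/-- **TailH** from the tail of the level process -/
theorem tailH_of (F : Frame Q κ R) (u : Step d) (i1 i2 : Fin d) (i : Fin 2)
    (hc : mkAnn κ Q 0 (Nat0 u R) ≠ 0) (K : ℕ → ℕ → Site d → Site d → ℝ≥0∞) (hK) {α D : ℝ} {N : ℕ}
    {ν : ℝ≥0∞}
    (hbad : natLaw κ Q u R {s | ∃ l ≤ N, s ∈ B4Inst797.th u l ⁻¹' (Nat0 u R) ∧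
      D < |UU u i1 i2 l s i - α * l|} ≤ ν) :
    TailH (kerSys u R κ Q F.stat F.fin K hK) (ph u i1 i2 i α) N D ν := by
  classical
  intro a c hac hcN
  refine ⟨fun x ω => if lev u x = a then Bd u R κ (HD u i1 i2 i α D) c ω x else 0, fun x => ?_,
    fun x hx => ?_, fun b hab hbc => Eventually.of_forall fun ω x hx => ?_⟩
  · by_cases h : lev u x = a
    · simp only [h, if_true]
      refine measurable_coord (measurable_Bd u R κ _ c x) ?_
      refine (locOn_Bd u R κ _ c x).mono fun z hz => ?_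
      have := hz.1
      rw [h] at this
      exact this
    · simp only [h, if_false]
      exact @measurable_const _ _ _ (coordSigmaAlgebra _) _
  · have h : lev u x = a := hx
    simp only [h, if_true]
    refine (lint_Bd F u _ hc hac h).trans (le_trans (measure_mono ?_) hbad)
    refine (BadC_subset (R := R) u i1 i2 i (fun l => α * l) D (c - a)).trans ?_
    rintro s ⟨l, hl, h1, h2⟩
    exact ⟨l, by omega, h1, by simpa using h2⟩
  · have h : lev u x = a := hx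
    simp only [h, if_true]
    refine le_trans (ENNReal.tsum_le_tsum fun y => ?_)
      (le_Bd u R κ (HD u i1 i2 i α D) (b := b) (c := c) (by exact_mod_cast hbc) ω x)
    refine mul_le_mul' ?_ ?_
    · change (if |ph u i1 i2 i α y - ph u i1 i2 i α x| ≤ D then 0
        else (if lev u x = (a : ℤ) then gk u R κ b ω x y else 0)) ≤ _
      rw [ph_sub, if_pos h]
      exact le_of_eq rfl
    · unfold KerSys.N
      refine ENNReal.tsum_le_tsum fun z => ?_
      change (if lev u y = (b : ℤ) then gk u R κ c ω y z else 0) ≤ _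
      split_ifs
      · exact le_rfl
      · exact zero_le

/-- **TailH on every kernel system of natural climbs**, from 775's `home_lin` -/
theorem tailH_home (F : Frame Q κ R) (u : Step d) {i1 i2 : Fin d} (h1 : i1 ≠ u.1)
    (h2 : i2 ≠ u.1) (h12 : i1 ≠ i2) (hc : mkAnn κ Q 0 (Nat0 u R) ≠ 0) (i : Fin 2)
    (K : ℕ → ℕ → Site d → Site d → ℝ≥0∞) (hK) {ν : ℝ} (hν : 0 < ν) :
    ∃ n : ℕ, 3 ≤ n ∧ ∃ l0 : ℕ, ∀ N, l0 ≤ N → ∃ α : ℝ,
      TailH (kerSys u R κ Q F.stat F.fin K hK) (ph u i1 i2 i α) N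
        (180 * wl (lp F u h1 h2 h12 hc) i (n * N)) (ENNReal.ofReal ν) := by
  have := B4Inst797.natLaw_isProb (κ := κ) (Q := Q) (R := R) (u := u) hc
  obtain ⟨n, hn, l0, h⟩ := HomeLin775.home_lin (lp F u h1 h2 h12 hc) i hν
  refine ⟨n, hn, l0, fun N hN => ?_⟩
  obtain ⟨α, hα⟩ := h N hN
  refine ⟨α, tailH_of F u i1 i2 i hc K hK ?_⟩
  have e : natLaw κ Q u R {s | ∃ l ≤ N, s ∈ B4Inst797.th u l ⁻¹' (Nat0 u R) ∧
      180 * wl (lp F u h1 h2 h12 hc) i (n * N) < |UU u i1 i2 l s i - α * l|}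
      = ENNReal.ofReal ((natLaw κ Q u R).real {ω | ∃ l ≤ N, ω ∈ (lp F u h1 h2 h12 hc).C l ∧
        180 * wl (lp F u h1 h2 h12 hc) i (n * N) < |(lp F u h1 h2 h12 hc).U l ω i - α * l|}) := by
    rw [Measure.real, ENNReal.ofReal_toReal (measure_ne_top _ _)]
    rfl
  rw [e]
  exact ENNReal.ofReal_le_ofReal hα

/-- **TailH on `kT`** (doc HOME) -/
theorem tailH_kT (F : Frame Q κ R) (u : Step d) {i1 i2 : Fin d} (h1 : i1 ≠ u.1)
    (h2 : i2 ≠ u.1) (h12 : i1 ≠ i2) (hc : mkAnn κ Q 0 (Nat0 u R) ≠ 0) (i : Fin 2)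
    {ν : ℝ} (hν : 0 < ν) :
    ∃ n : ℕ, 3 ≤ n ∧ ∃ l0 : ℕ, ∀ N, l0 ≤ N → ∃ α : ℝ,
      TailH (kT u R κ Q F.stat F.fin) (ph u i1 i2 i α) N
        (180 * wl (lp F u h1 h2 h12 hc) i (n * N)) (ENNReal.ofReal ν) :=
  tailH_home F u h1 h2 h12 hc i _ _ hν

/-- **TailH on `kS`** -/
theorem tailH_kS (F : Frame Q κ R) (u : Step d) {i1 i2 : Fin d} (h1 : i1 ≠ u.1)
    (h2 : i2 ≠ u.1) (h12 : i1 ≠ i2) (hc : mkAnn κ Q 0 (Nat0 u R) ≠ 0) (i : Fin 2)
    {ν : ℝ} (hν : 0 < ν) :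
    ∃ n : ℕ, 3 ≤ n ∧ ∃ l0 : ℕ, ∀ N, l0 ≤ N → ∃ α : ℝ,
      TailH (kS u R κ Q F.stat F.fin) (ph u i1 i2 i α) N
        (180 * wl (lp F u h1 h2 h12 hc) i (n * N)) (ENNReal.ofReal ν) :=
  tailH_home F u h1 h2 h12 hc i _ _ hν

end Crest.Agent.R154.Home736
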