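import Crest.Agent.R154.TailH_736

/-! Row 154, HOME doc (263), J4 and J5 of 199 #37787: home tails at two scales with ONE slope. -/

set_option autoImplicit false
set_option linter.unusedSectionVars false
set_option linter.deprecated false

namespace Crest.Agent.R154.Home736

open MeasureTheory ProbabilityTheory Set Filter Crest.ProbabilityR.RandomEnvironment
open Crest.Agent.R154.Mk561 Crest.Agent.R154.Q561
open Crest.Agent.R154.RatioR872 Crest.Agent.R154.RatioR872.KerSys Crest.Agent.R154.Bd736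
open Crest.Agent.R154.Flux132 (lev lev_add lev_neg lev_zero)
open Crest.Agent.R154.Bind263 (Frame)
open Crest.Agent.R154.B4Inst797 (Nat0 natLaw lat lat_add UU lp)
open Crest.Agent.R154.MobW437 (wl meas_U)
open Crest.Agent.R154.D2Asm244 (kT)
open Crest.Agent.R154.B4 (LP)
open scoped ENNReal

section level

variable {Ω : Type*} [mΩ : MeasurableSpace Ω] {P : Measure Ω}

/-- (J4) home tail for every multiple `n ≥ n0` -/
theorem home_tail_all [IsProbabilityMeasure P] (L : LP P) (i : Fin 2) {ν : ℝ} (hν : 0 < ν) :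
    ∃ n0 : ℕ, ∀ n, n0 ≤ n → ∃ l0 : ℕ, ∀ N, l0 ≤ N → ∃ c : ℕ → ℝ,
      P.real {ω | ∃ l ≤ N, ω ∈ L.C l ∧ 18 * wl L i (n * N) < |L.U l ω i - c l|} ≤ ν := by
  have hp := L.p_pos
  obtain ⟨n0, hn0⟩ := exists_nat_gt (12 / (100 * min L.p ν))
  refine ⟨max n0 3, fun n hn => ?_⟩
  have hmin : 0 < min L.p ν := lt_min hp hν
  have hn3 : 3 ≤ n := (le_max_right _ _).trans hn
  have hnr : (0 : ℝ) < n := by exact_mod_cast (by omega : 0 < n)
  have hn1 : 12 / (100 * min L.p ν) ≤ n :=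
    hn0.le.trans (by exact_mod_cast (le_max_left _ _).trans hn)
  have h12 : 2 * (6 / (100 * (n : ℝ))) ≤ min L.p ν := by
    rw [div_le_iff₀ (by positivity)] at hn1
    rw [show 2 * (6 / (100 * (n : ℝ))) = 12 / (100 * n) by ring, div_le_iff₀ (by positivity)]
    linarith
  obtain ⟨l0, hl0⟩ := MobW437.mob L i n
  refine ⟨l0, fun N hN => ?_⟩
  obtain ⟨-, -, c1, c2, a, -, -, -, -, -, -, htail⟩ := hl0 N hN
  have h1 := htail n hn3 le_rfl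
  obtain ⟨c, hc⟩ := HomeTail775.ottaviani L i (N := N) (cN := c1) (r := 9 * wl L i (n * N))
    (e := 6 / (100 * n)) h1 (h12.trans (min_le_left _ _))
  refine ⟨c, ?_⟩
  have e1 : (2 : ℝ) * (9 * wl L i (n * N)) = 18 * wl L i (n * N) := by ring
  rw [e1] at hc
  exact hc.trans (h12.trans (min_le_right _ _))

/-- (J4) home tail with one linear centre for every multiple `n ≥ n0` -/
theorem home_lin_all [IsProbabilityMeasure P] (L : LP P) (i : Fin 2) {ν : ℝ} (hν : 0 < ν) :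
    ∃ n0 : ℕ, ∀ n, n0 ≤ n → ∃ l0 : ℕ, ∀ N, l0 ≤ N → ∃ α : ℝ,
      P.real {ω | ∃ l ≤ N, ω ∈ L.C l ∧ 180 * wl L i (n * N) < |L.U l ω i - α * l|} ≤ ν := by
  have hp := L.p_pos
  set ν' : ℝ := min ν (L.p ^ 2 / 4) with hν'
  have hν'0 : 0 < ν' := lt_min hν (by positivity)
  obtain ⟨n0, h0⟩ := home_tail_all L i hν'0
  refine ⟨n0, fun n hn => ?_⟩
  obtain ⟨l0, hl0⟩ := h0 n hn
  refine ⟨max l0 1, fun N hN => ?_⟩
  obtain ⟨c, hc⟩ := hl0 N ((le_max_left _ _).trans hN)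
  have hN1 : 1 ≤ N := (le_max_right _ _).trans hN
  have hep : 3 * ν' < L.p ^ 2 := by
    have h1 : ν' ≤ L.p ^ 2 / 4 := min_le_right _ _
    have h2 : 0 < L.p ^ 2 := by positivity
    linarith
  have hq := HomeLin775.quasi_add L i hc hep
  have hs := HomeLin775.shear hN1 hq
  refine ⟨c N / N, le_trans (measureReal_mono ?_ (measure_ne_top _ _)) (hc.trans (min_le_left _ _))⟩
  rintro ω ⟨l, hl, hCl, hlt⟩
  refine ⟨l, hl, hCl, ?_⟩
  have h1 := hs l hl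
  have h2 : L.U l ω i - c N / N * l = (L.U l ω i - c l) + (c l - c N / N * l) := by ring
  rw [h2] at hlt
  have h3 := abs_add_le (L.U l ω i - c l) (c l - c N / N * l)
  linarith

/-- (J5) the slope of the long window serves the short window -/
theorem shear_two [IsProbabilityMeasure P] (L : LP P) (i : Fin 2) {N z : ℕ} (hzN : z ≤ N)
    {α α' D D' ν ν' : ℝ}
    (h : P.real {ω | ∃ l ≤ N, ω ∈ L.C l ∧ D < |L.U l ω i - α * l|} ≤ ν)
    (h' : P.real {ω | ∃ l ≤ z, ω ∈ L.C l ∧ D' < |L.U l ω i - α' * l|} ≤ ν')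
    (hp : ν + ν' < L.p) :
    P.real {ω | ∃ l ≤ z, ω ∈ L.C l ∧ D + 2 * D' < |L.U l ω i - α * l|} ≤ ν' := by
  have hC : L.p ≤ P.real (L.C z) := by
    have h1 : ENNReal.ofReal L.p ≤ P (L.C z) := by
      have := L.cut z univ MeasurableSet.univ
      simpa using this
    exact (ENNReal.ofReal_le_iff_le_toReal (measure_ne_top _ _)).1 h1
  -- a good point
  obtain ⟨ω, hω, h1, h2⟩ : ∃ ω, ω ∈ L.C z ∧ |L.U z ω i - α * z| ≤ D ∧
      |L.U z ω i - α' * z| ≤ D' := by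
    by_contra hcon
    push Not at hcon
    have hsub : L.C z ⊆ {ω | ∃ l ≤ N, ω ∈ L.C l ∧ D < |L.U l ω i - α * l|} ∪
        {ω | ∃ l ≤ z, ω ∈ L.C l ∧ D' < |L.U l ω i - α' * l|} := by
      intro ω hω
      by_cases h1 : |L.U z ω i - α * z| ≤ D
      · exact Or.inr ⟨z, le_rfl, hω, hcon ω hω h1⟩
      · exact Or.inl ⟨z, hzN, hω, not_le.1 h1⟩
    have h3 := (measureReal_mono hsub (measure_ne_top P _)).trans (measureReal_union_le _ _)
    linarith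
  have hz : |α - α'| * z ≤ D + D' := by
    have e : (α - α') * z = (L.U z ω i - α' * z) - (L.U z ω i - α * z) := by ring
    have h3 : |(α - α') * z| ≤ D' + D := by
      rw [e]; exact (abs_sub _ _).trans (add_le_add h2 h1)
    rw [abs_mul, abs_of_nonneg (Nat.cast_nonneg z : (0 : ℝ) ≤ z)] at h3
    linarith
  refine le_trans (measureReal_mono ?_ (measure_ne_top _ _)) h'
  rintro ω' ⟨l, hl, hCl, hlt⟩
  refine ⟨l, hl, hCl, ?_⟩
  have hlz : |α - α'| * l ≤ |α - α'| * z := by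
    gcongr
  have e : L.U l ω' i - α * l = (L.U l ω' i - α' * l) - (α - α') * l := by ring
  have h3 : |L.U l ω' i - α * l| ≤ |L.U l ω' i - α' * l| + |(α - α') * l| := by
    rw [e]; exact abs_sub _ _
  rw [abs_mul, abs_of_nonneg (Nat.cast_nonneg l : (0 : ℝ) ≤ l)] at h3
  linarith

/-- (J4 + J5), level process form -/
theorem home_pow [IsProbabilityMeasure P] (L : LP P) (i : Fin 2) {ν : ℝ} (hν : 0 < ν) :
    ∃ a0 : ℕ, ∀ a, a0 ≤ a → ∃ α : ℕ → ℝ, (∃ n0 : ℕ, ∀ n, n0 ≤ n →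
        P.real {ω | ∃ l ≤ 2 ^ (n - a), ω ∈ L.C l ∧
          180 * wl L i (2 ^ n) < |L.U l ω i - α n * l|} ≤ ν) ∧
      ∀ ν' : ℝ, 0 < ν' → ∃ b0 : ℕ, ∀ b, b0 ≤ b → ∃ n1 : ℕ, ∀ n, n1 ≤ n →
        P.real {ω | ∃ l ≤ 2 ^ (n - b), ω ∈ L.C l ∧
          540 * wl L i (2 ^ n) < |L.U l ω i - α n * l|} ≤ ν' := by
  have hp := L.p_pos
  have hν0 : 0 < min ν (L.p / 4) := lt_min hν (by positivity)
  obtain ⟨m0, h0⟩ := home_lin_all L i hν0
  obtain ⟨a0, ha0⟩ : ∃ a0 : ℕ, m0 ≤ 2 ^ a0 := ⟨m0, Nat.lt_two_pow_self.le⟩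
  refine ⟨a0, fun a ha => ?_⟩
  obtain ⟨l0, hl0⟩ := h0 (2 ^ a) (ha0.trans (Nat.pow_le_pow_right (by norm_num) ha))
  obtain ⟨q, hq⟩ : ∃ q : ℕ, l0 ≤ 2 ^ q := ⟨l0, Nat.lt_two_pow_self.le⟩
  have hmain : ∀ n, a + q ≤ n → ∃ α : ℝ,
      P.real {ω | ∃ l ≤ 2 ^ (n - a), ω ∈ L.C l ∧
          180 * wl L i (2 ^ n) < |L.U l ω i - α * l|} ≤ min ν (L.p / 4) := by
    intro n hn
    obtain ⟨α, hα⟩ := hl0 (2 ^ (n - a)) (hq.trans (Nat.pow_le_pow_right (by norm_num) (by omega)))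
    have e : 2 ^ a * 2 ^ (n - a) = 2 ^ n := by
      rw [← pow_add]; congr 1; omega
    rw [e] at hα
    exact ⟨α, hα⟩
  classical
  set α : ℕ → ℝ := fun n => if h : a + q ≤ n then Classical.choose (hmain n h) else 0 with hαdef
  have hα : ∀ n, a + q ≤ n → P.real {ω | ∃ l ≤ 2 ^ (n - a), ω ∈ L.C l ∧
          180 * wl L i (2 ^ n) < |L.U l ω i - α n * l|} ≤ min ν (L.p / 4) := by
    intro n hn
    have := Classical.choose_spec (hmain n hn)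
    simp only [hαdef, dif_pos hn]
    exact this
  refine ⟨α, ⟨a + q, fun n hn => (hα n hn).trans (min_le_left _ _)⟩, fun ν' hν' => ?_⟩
  have hν'0 : 0 < min ν' (L.p / 4) := lt_min hν' (by positivity)
  obtain ⟨m1, h1⟩ := home_lin_all L i hν'0
  obtain ⟨b0, hb0⟩ : ∃ b0 : ℕ, m1 ≤ 2 ^ b0 := ⟨m1, Nat.lt_two_pow_self.le⟩
  refine ⟨max a b0, fun b hb => ?_⟩
  obtain ⟨l1, hl1⟩ := h1 (2 ^ b)
    (hb0.trans (Nat.pow_le_pow_right (by norm_num) ((le_max_right _ _).trans hb)))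
  obtain ⟨q1, hq1⟩ : ∃ q : ℕ, l1 ≤ 2 ^ q := ⟨l1, Nat.lt_two_pow_self.le⟩
  refine ⟨max (a + q) (b + q1), fun n hn => ?_⟩
  have hn1 : a + q ≤ n := (le_max_left _ _).trans hn
  have hn2 : b + q1 ≤ n := (le_max_right _ _).trans hn
  obtain ⟨α', hα'⟩ := hl1 (2 ^ (n - b)) (hq1.trans (Nat.pow_le_pow_right (by norm_num) (by omega)))
  have e : 2 ^ b * 2 ^ (n - b) = 2 ^ n := by
    rw [← pow_add]; congr 1; omega
  rw [e] at hα'
  have hab : a ≤ b := (le_max_left _ _).trans hb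
  have h2 := shear_two L i (N := 2 ^ (n - a)) (z := 2 ^ (n - b))
    (Nat.pow_le_pow_right (by norm_num) (by omega)) (hα n hn1) hα' (by
      have h3 : min ν (L.p / 4) ≤ L.p / 4 := min_le_right _ _
      have h4 : min ν' (L.p / 4) ≤ L.p / 4 := min_le_right _ _
      linarith)
  have e2 : 180 * wl L i (2 ^ n) + 2 * (180 * wl L i (2 ^ n)) = 540 * wl L i (2 ^ n) := by ring
  rw [e2] at h2
  exact h2.trans (min_le_left _ _)

end level

variable {d : ℕ} {Q : Measure (Environment d)} [IsProbabilityMeasure Q] {κ : ℝ} {R : ℕ}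

/-- `TailH` from a real tail on `lp` -/
lemma tailH_real (F : Frame Q κ R) (u : Step d) {i1 i2 : Fin d} (h1 : i1 ≠ u.1)
    (h2 : i2 ≠ u.1) (h12 : i1 ≠ i2) (hc : mkAnn κ Q 0 (Nat0 u R) ≠ 0) (i : Fin 2)
    (K : ℕ → ℕ → Site d → Site d → ℝ≥0∞) (hK) {ν α D : ℝ} {N : ℕ}
    (h : (natLaw κ Q u R).real {ω | ∃ l ≤ N, ω ∈ (lp F u h1 h2 h12 hc).C l ∧
        D < |(lp F u h1 h2 h12 hc).U l ω i - α * l|} ≤ ν) :
    TailH (kerSys u R κ Q F.stat F.fin K hK) (ph u i1 i2 i α) N D (ENNReal.ofReal ν) := by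
  have := B4Inst797.natLaw_isProb (κ := κ) (Q := Q) (R := R) (u := u) hc
  refine tailH_of F u i1 i2 i hc K hK ?_
  have e : natLaw κ Q u R {s | ∃ l ≤ N, s ∈ B4Inst797.th u l ⁻¹' (Nat0 u R) ∧
      D < |UU u i1 i2 l s i - α * l|}
      = ENNReal.ofReal ((natLaw κ Q u R).real {ω | ∃ l ≤ N, ω ∈ (lp F u h1 h2 h12 hc).C l ∧
        D < |(lp F u h1 h2 h12 hc).U l ω i - α * l|}) := by
    rw [Measure.real, ENNReal.ofReal_toReal (measure_ne_top _ _)]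
    rfl
  rw [e]
  exact ENNReal.ofReal_le_ofReal h

/-- **(J4 + J5)**: home tails of the epoch scale `2^(n-a)` and of the diversification scale
`2^(n-b)` with the same slope -/
theorem tail_pow (F : Frame Q κ R) (u : Step d) {i1 i2 : Fin d} (h1 : i1 ≠ u.1)
    (h2 : i2 ≠ u.1) (h12 : i1 ≠ i2) (hc : mkAnn κ Q 0 (Nat0 u R) ≠ 0) (i : Fin 2)
    (K : ℕ → ℕ → Site d → Site d → ℝ≥0∞) (hK) {ν : ℝ} (hν : 0 < ν) :
    ∃ a0 : ℕ, ∀ a, a0 ≤ a → ∃ α : ℕ → ℝ, (∃ n0 : ℕ, ∀ n, n0 ≤ n →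
        TailH (kerSys u R κ Q F.stat F.fin K hK) (ph u i1 i2 i (α n)) (2 ^ (n - a))
          (180 * wl (lp F u h1 h2 h12 hc) i (2 ^ n)) (ENNReal.ofReal ν)) ∧
      ∀ ν' : ℝ, 0 < ν' → ∃ b0 : ℕ, ∀ b, b0 ≤ b → ∃ n1 : ℕ, ∀ n, n1 ≤ n →
        TailH (kerSys u R κ Q F.stat F.fin K hK) (ph u i1 i2 i (α n)) (2 ^ (n - b))
          (540 * wl (lp F u h1 h2 h12 hc) i (2 ^ n)) (ENNReal.ofReal ν') := by
  have := B4Inst797.natLaw_isProb (κ := κ) (Q := Q) (R := R) (u := u) hc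
  obtain ⟨a0, h⟩ := home_pow (lp F u h1 h2 h12 hc) i hν
  refine ⟨a0, fun a ha => ?_⟩
  obtain ⟨α, ⟨n0, h3⟩, h4⟩ := h a ha
  refine ⟨α, ⟨n0, fun n hn => tailH_real F u h1 h2 h12 hc i K hK (h3 n hn)⟩, fun ν' hν' => ?_⟩
  obtain ⟨b0, h5⟩ := h4 ν' hν'
  refine ⟨b0, fun b hb => ?_⟩
  obtain ⟨n1, h6⟩ := h5 b hb
  exact ⟨n1, fun n hn => tailH_real F u h1 h2 h12 hc i K hK (h6 n hn)⟩

/-- `tail_pow` on `kT` -/
theorem tail_pow_kT (F : Frame Q κ R) (u : Step d) {i1 i2 : Fin d} (h1 : i1 ≠ u.1)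
    (h2 : i2 ≠ u.1) (h12 : i1 ≠ i2) (hc : mkAnn κ Q 0 (Nat0 u R) ≠ 0) (i : Fin 2)
    {ν : ℝ} (hν : 0 < ν) :
    ∃ a0 : ℕ, ∀ a, a0 ≤ a → ∃ α : ℕ → ℝ, (∃ n0 : ℕ, ∀ n, n0 ≤ n →
        TailH (kT u R κ Q F.stat F.fin) (ph u i1 i2 i (α n)) (2 ^ (n - a))
          (180 * wl (lp F u h1 h2 h12 hc) i (2 ^ n)) (ENNReal.ofReal ν)) ∧
      ∀ ν' : ℝ, 0 < ν' → ∃ b0 : ℕ, ∀ b, b0 ≤ b → ∃ n1 : ℕ, ∀ n, n1 ≤ n →
        TailH (kT u R κ Q F.stat F.fin) (ph u i1 i2 i (α n)) (2 ^ (n - b))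
          (540 * wl (lp F u h1 h2 h12 hc) i (2 ^ n)) (ENNReal.ofReal ν') :=
  tail_pow F u h1 h2 h12 hc i _ _ hν

end Crest.Agent.R154.Home736
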