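import Crest.Agent.R154.Hair_738

/-!
Row 154, d = 2 (D2.5, helper4).  From 738's NDA: the hypothesis of 504's tube holds with the radius
`A * wd N`, any error `η`.
-/

set_option autoImplicit false

namespace Crest.Agent.R154.TubeLin4

open MeasureTheory ProbabilityTheory Filter Set
open Crest.Agent.R154.Hair738
open scoped ENNReal Topology

variable {Ω : Type*} [MeasurableSpace Ω] {P : Measure Ω} [IsProbabilityMeasure P] {V B : Ω → ℝ}

/-- truncated second moment at radius `r ≥ w` -/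
lemma int_min_le (hV : Measurable V) (hB : Measurable B) (hVB : ∀ ω, |V ω| ≤ B ω) {r w : ℝ}
    (hr : 0 < r) :
    ∫ ω, min ((V ω / r) ^ 2) 1 ∂P ≤ U P V B w / r ^ 2 + T P B w := by
  have hms : MeasurableSet {ω | B ω ≤ w} := measurableSet_le hB measurable_const
  have hmc : MeasurableSet {ω | w < B ω} := measurableSet_lt measurable_const hB
  have hi1 : Integrable (fun ω => {ω | B ω ≤ w}.indicator (fun ω => (V ω) ^ 2) ω / r ^ 2) P :=
    ((integrable_indicator_iff hms).2 (intOn hV hB hVB w)).div_const _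
  have hi2 : Integrable ({ω | w < B ω}.indicator (fun _ => (1 : ℝ))) P :=
    (integrable_const 1).indicator hmc
  have hi0 : Integrable (fun ω => min ((V ω / r) ^ 2) 1) P := by
    refine Integrable.of_bound (((hV.div_const r).pow_const 2).min measurable_const).aestronglyMeasurable
      1 (Eventually.of_forall fun ω => ?_)
    rw [Real.norm_eq_abs, abs_of_nonneg (le_min (sq_nonneg _) zero_le_one)]
    exact min_le_right _ _
  calc ∫ ω, min ((V ω / r) ^ 2) 1 ∂P
      ≤ ∫ ω, ({ω | B ω ≤ w}.indicator (fun ω => (V ω) ^ 2) ω / r ^ 2 +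
          {ω | w < B ω}.indicator (fun _ => (1 : ℝ)) ω) ∂P := by
        refine integral_mono hi0 (hi1.add hi2) fun ω => ?_
        by_cases h : B ω ≤ w
        · have h1 : ω ∈ {ω | B ω ≤ w} := h
          have h2 : ω ∉ {ω | w < B ω} := not_lt.2 h
          simp only [indicator_of_mem h1, indicator_of_notMem h2, add_zero]
          rw [← div_pow]
          exact min_le_left _ _
        · have h1 : ω ∉ {ω | B ω ≤ w} := h
          have h2 : ω ∈ {ω | w < B ω} := not_le.1 h
          simp only [indicator_of_notMem h1, indicator_of_mem h2, zero_div, zero_add]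
          exact min_le_right _ _
    _ = _ := by
        rw [integral_add hi1 hi2, integral_div, integral_indicator hms, integral_indicator hmc,
          setIntegral_const, smul_eq_mul, mul_one]
        rfl

/-- **the hypothesis of the tube at radius `A * wd N`** -/
theorem small_kol (hV : Measurable V) (hB : Measurable B) (hVB : ∀ ω, |V ω| ≤ B ω)
    (hne : P {ω | V ω ≠ 0} ≠ 0) (hN : NDA (T P B) (U P V B)) {η : ℝ} (hη : 0 < η) :
    ∃ A : ℕ, 1 ≤ A ∧ ∀ᶠ N : ℕ in atTop,
      2 * ((N : ℝ) * ∫ ω, min ((V ω / ((A * wd P V B N : ℕ) : ℝ)) ^ 2) 1 ∂P)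
        + N * P.real {ω | ((A * wd P V B N : ℕ) : ℝ) < B ω} ≤ η := by
  have H := core (P := P) hV hB hVB hne
  obtain ⟨A, hA⟩ := exists_nat_ge (1 / η + 1)
  have hA1' : (1 : ℝ) ≤ A := by
    have : 0 < 1 / η := by positivity
    linarith
  have hA1 : 1 ≤ A := by exact_mod_cast hA1'
  have hAη : 1 / η ≤ A := by linarith
  have hAη' : 1 / (A : ℝ) ≤ η := by
    rw [div_le_iff₀ (by positivity)] at hAη ⊢
    linarith
  refine ⟨A, hA1, ?_⟩
  have h1 := (hN.hair H 1 one_pos).eventually (gt_mem_nhds (show (0:ℝ) < η / 6 by positivity))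
  filter_upwards [h1] with N hN1
  simp only [one_mul] at hN1
  set w : ℕ := wd P V B N with hw
  have hwC : wdC (T P B) (U P V B) N = w := rfl
  rw [hwC] at hN1
  obtain ⟨hs1, hs2, hs3⟩ := H.wd_spec N
  rw [hwC] at hs1 hs2 hs3
  have hw1 : (1 : ℝ) ≤ w := by exact_mod_cast hs1
  have hr : (0 : ℝ) < ((A * w : ℕ) : ℝ) := by push_cast; positivity
  have h2 := int_min_le (P := P) hV hB hVB (w := (w : ℝ)) hr
  have h3 : P.real {ω | ((A * w : ℕ) : ℝ) < B ω} ≤ T P B w := by
    refine measureReal_mono fun ω hω => lt_of_le_of_lt ?_ (show ((A * w : ℕ) : ℝ) < B ω from hω)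
    push_cast
    nlinarith
  have hN0 : (0 : ℝ) ≤ N := by positivity
  have h4 : (N : ℝ) * (U P V B w / ((A * w : ℕ) : ℝ) ^ 2) ≤ η / 64 := by
    have h5 : (N : ℝ) * (U P V B w / ((A * w : ℕ) : ℝ) ^ 2) ≤ (w : ℝ) ^ 2 / 64 / ((A * w : ℕ) : ℝ) ^ 2 := by
      rw [← mul_div_assoc]
      gcongr
    refine h5.trans ?_
    push_cast
    have e : (w : ℝ) ^ 2 / 64 / ((A : ℝ) * w) ^ 2 = (1 / (A : ℝ)) * (1 / A) / 64 := by
      field_simp
    rw [e]
    have h6 : (1 / (A : ℝ)) * (1 / A) ≤ η * 1 := by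
      have : 1 / (A : ℝ) ≤ 1 := by
        rw [div_le_one (by positivity)]; exact hA1'
      gcongr
    linarith
  calc 2 * ((N : ℝ) * ∫ ω, min ((V ω / ((A * w : ℕ) : ℝ)) ^ 2) 1 ∂P)
        + N * P.real {ω | ((A * w : ℕ) : ℝ) < B ω}
      ≤ 2 * ((N : ℝ) * (U P V B w / ((A * w : ℕ) : ℝ) ^ 2 + T P B w)) + N * T P B w := by
        gcongr
    _ = 2 * ((N : ℝ) * (U P V B w / ((A * w : ℕ) : ℝ) ^ 2)) + 3 * (N * T P B w) := by ring
    _ ≤ _ := by linarith

end Crest.Agent.R154.TubeLin4
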