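import Crest.Agent.R154.JObj1_132
import Crest.Agent.R154.Tube_504
import Crest.Agent.R154.Slab_491

/-!
# Row 154, d = 2: the tube on the walk

`close_path` : pathwise, all same-level differences of two natural walkers below level `n` are
`≤ 2 r` if the partial sums of `Vj` and the deviations `Bj` of the joint blocks are `≤ r`.
`close_prob` : probability under the product of two natural laws.
`tube_nat`   : a deterministic tube for one natural walker (Fubini).
`tube_ann`   : the annealed (unmarked) probability of climbing inside the tube.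
-/

set_option autoImplicit false
set_option linter.unusedSectionVars false
set_option linter.deprecated false

namespace Crest.Agent.R154.Tube504

open MeasureTheory ProbabilityTheory Filter Set Crest.ProbabilityR.RandomEnvironment
open Crest.Agent.R154.Mk561 Crest.Agent.R154.Bind263 Crest.Agent.R154.B4Inst797
open Crest.Agent.R154.Ren263 (Word Stay)
open Crest.Agent.R154.RenG263 (blks RegInf measurable_blks)
open Crest.Agent.R154.J132
open Crest.Agent.R154.KB424 (NS)
open scoped ENNReal

variable {d : ℕ} {u : Step d} {κ : ℝ} {R : ℕ} {Q : Measure (Environment d)}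
  [IsProbabilityMeasure Q]

lemma jw_jr {π : MPath d × MPath d} (hπ : π ∈ JG u κ R) (k : ℕ) :
    jw u κ R k (jr u κ R π) = jw u κ R (k + 1) π := by
  unfold jw wdk
  rw [bp_jr hπ, Function.iterate_succ_apply]

lemma phi_split (φ : Site d →+ ℝ) (M : MPath d) (n k : ℕ) :
    φ (pos 0 M (n + k)) = φ (pos 0 M n) + φ (pos 0 (Ren263.shift n M) k) := by
  have h1 : pos (pos 0 M n) (Ren263.shift n M) k = pos 0 M (n + k) := pos_shift (0 : Site d) M n k
  have h2 : pos (0 + pos 0 M n) (Ren263.shift n M) k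
      = pos 0 (Ren263.shift n M) k + pos 0 M n := pos_add (0 : Site d) (pos 0 M n) _ k
  rw [zero_add] at h2
  have h3 : pos 0 M (n + k) = pos 0 (Ren263.shift n M) k + pos 0 M n := by
    rw [← h1, h2]
  rw [h3, map_add, add_comm]

/-- **pathwise closeness** -/
theorem close_path (φ : Site d →+ ℝ) (n : ℕ) : ∀ {π : MPath d × MPath d}, π ∈ JG u κ R →
    ∀ {c r : ℝ}, (∀ k < n, Bj u φ (jw u κ R k π) ≤ r) →
    (∀ k ≤ n, |c + ∑ i ∈ Finset.range k, Vj φ (jw u κ R i π)| ≤ r) →
    ∀ t t', zh u π.1 t = zh u π.2 t' → zh u π.1 t < n →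
      |c + (φ (pos 0 π.1 t) - φ (pos 0 π.2 t'))| ≤ 2 * r := by
  induction n with
  | zero =>
    intro π hπ c r _ _ t t' _ hlt
    have h0 : 0 ≤ zh u π.1 t := stay_zh.1 hπ.1.1 t
    push_cast at hlt
    omega
  | succ n ih =>
    intro π hπ c r hB hW t t' he hlt
    obtain ⟨g1, g2, g3, g4, g5⟩ := first_block hπ
    by_cases h1 : t ≤ (J1 u κ R π).1 ∧ t' ≤ (J1 u κ R π).2
    · have a1 := first_B hπ φ h1.1 h1.2 he
      have a2 := hB 0 (Nat.succ_pos n)
      have a3 := hW 0 (Nat.zero_le _)
      simp only [Finset.range_zero, Finset.sum_empty, add_zero] at a3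
      calc _ ≤ |c| + |φ (pos 0 π.1 t) - φ (pos 0 π.2 t')| := abs_add_le _ _
        _ ≤ r + r := add_le_add a3 (a1.trans a2)
        _ = _ := by ring
    · have h2 : (J1 u κ R π).1 ≤ t ∧ (J1 u κ R π).2 ≤ t' := by
        rw [not_and_or, not_le, not_le] at h1
        rcases h1 with h1 | h1
        · refine ⟨h1.le, ?_⟩
          by_contra hc
          push Not at hc
          have b1 := g3 t h1.le
          have b2 := g2.2 t' hc
          rw [← he] at b2
          exact absurd b1 (not_le.2 b2)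
        · refine ⟨?_, h1.le⟩
          by_contra hc
          push Not at hc
          have b1 := g4 t' h1.le
          have b2 := g1.2 t hc
          rw [he] at b2
          exact absurd b1 (not_le.2 b2)
      obtain ⟨s, rfl⟩ := Nat.exists_eq_add_of_le h2.1
      obtain ⟨s', rfl⟩ := Nat.exists_eq_add_of_le h2.2
      have e1 := zh_add u π.1 (J1 u κ R π).1 s
      have e2 := zh_add u π.2 (J1 u κ R π).2 s'
      rw [g1.1] at e1
      rw [g2.1] at e2
      have hg5 : (1 : ℤ) ≤ (Rj u (jw u κ R 0 π) : ℤ) := by exact_mod_cast g5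
      have f1 : zh u (jr u κ R π).1 s = zh u (Ren263.shift (J1 u κ R π).1 π.1) s := rfl
      have f2 : zh u (jr u κ R π).2 s' = zh u (Ren263.shift (J1 u κ R π).2 π.2) s' := rfl
      rw [← f1] at e1
      rw [← f2] at e2
      have f3 : zh u (jr u κ R π).1 s = zh u (jr u κ R π).2 s' := by
        rw [e1, e2] at he
        exact add_left_cancel he
      have f4 : zh u (jr u κ R π).1 s < n := by
        rw [e1] at hlt
        push_cast at hlt
        linarith
      have key := ih (π := jr u κ R π) (jr_mem hπ) (c := c + Vj φ (jw u κ R 0 π)) (r := r)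
        (fun k hk => by rw [jw_jr hπ]; exact hB (k + 1) (by omega))
        (fun k hk => by
          have := hW (k + 1) (by omega)
          rw [Finset.sum_range_succ'] at this
          have e : ∀ i ∈ Finset.range k, Vj φ (jw u κ R i (jr u κ R π))
              = Vj φ (jw u κ R (i + 1) π) := fun i _ => by rw [jw_jr hπ]
          rw [Finset.sum_congr rfl e]
          convert this using 2
          ring)
        s s' f3 f4
      rw [phi_split, phi_split]
      rw [first_V hπ φ] at key
      convert key using 2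
      simp only [jr]
      ring

/-! ### measurability -/

lemma measurable_zh (n : ℕ) : Measurable fun s : MPath d => zh u s n := by
  unfold zh
  exact Finset.measurable_sum _ fun i _ => (measurable_of_countable (zht u)).comp
    (measurable_pi_apply i)

lemma measurable_phi (φ : Site d →+ ℝ) (n : ℕ) : Measurable fun s : MPath d => φ (pos 0 s n) :=
  (measurable_of_countable φ).comp (B4Inst797.measurable_pos 0 n)

/-- some same-level difference below level `n` exceeds `ρ` -/
def Far (u : Step d) (φ : Site d →+ ℝ) (n : ℕ) (ρ : ℝ) : Set (MPath d × MPath d) :=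
  {π | ∃ t t', zh u π.1 t = zh u π.2 t' ∧ zh u π.1 t < n ∧
    ρ < |φ (pos 0 π.1 t) - φ (pos 0 π.2 t')|}

lemma measurableSet_Far (φ : Site d →+ ℝ) (n : ℕ) (ρ : ℝ) : MeasurableSet (Far u φ n ρ) := by
  have e : Far u φ n ρ = ⋃ t : ℕ, ⋃ t' : ℕ, {π : MPath d × MPath d |
      zh u π.1 t = zh u π.2 t' ∧ zh u π.1 t < n ∧
        ρ < |φ (pos 0 π.1 t) - φ (pos 0 π.2 t')|} := by
    ext π; simp [Far]
  rw [e]
  refine MeasurableSet.iUnion fun t => MeasurableSet.iUnion fun t' => ?_
  have m1 : Measurable fun π : MPath d × MPath d => zh u π.1 t :=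
    (measurable_zh t).comp measurable_fst
  have m2 : Measurable fun π : MPath d × MPath d => zh u π.2 t' :=
    (measurable_zh t').comp measurable_snd
  have m3 : Measurable fun π : MPath d × MPath d => φ (pos 0 π.1 t) - φ (pos 0 π.2 t') :=
    ((measurable_phi φ t).comp measurable_fst).sub ((measurable_phi φ t').comp measurable_snd)
  exact (measurableSet_eq_fun m1 m2).inter ((measurableSet_lt m1 measurable_const).inter
    (measurableSet_lt measurable_const m3.abs))

/-! ### probability -/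

/-- truncated second moment of the increment of the difference in a joint block -/
noncomputable def trV (Q : Measure (Environment d)) (κ : ℝ) (R : ℕ) (u : Step d)
    (φ : Site d →+ ℝ) (r : ℝ) : ℝ :=
  ∫ p, min ((Vj φ (wd (Yw u) p) / r) ^ 2) 1 ∂(pairL (muW Q κ R u))

/-- tail of the deviation in a joint block -/
noncomputable def tlB (Q : Measure (Environment d)) (κ : ℝ) (R : ℕ) (u : Step d)
    (φ : Site d →+ ℝ) (r : ℝ) : ℝ :=
  (pairL (muW Q κ R u)).real {p | r < Bj u φ (wd (Yw u) p)}

theorem good_W (F : Frame Q κ R) (hA : annealedProb Q 0 (escapeEvent (B2d.dirVec u)) ≠ 0) :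
    pairL (muW Q κ R u) (Good (Yw u))ᶜ = 0 := by
  have := probW F hA
  have hs := sum_noCut_ne_top F hA
  refine good_ae _ (one_le_Yw u) ?_
  have h1 := ENNReal.tendsto_sum_nat_add (fun m => pairL (muW Q κ R u) (NoCut (Yw u) m)) hs
  refine tendsto_of_tendsto_of_tendsto_of_le_of_le tendsto_const_nhds h1 (fun _ => zero_le)
    fun m => ?_
  have := ENNReal.le_tsum (f := fun k => pairL (muW Q κ R u) (NoCut (Yw u) (k + m))) 0
  simp only [zero_add] at this
  exact this

theorem close_prob (F : Frame Q κ R)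
    (hA : annealedProb Q 0 (escapeEvent (B2d.dirVec u)) ≠ 0) (φ : Site d →+ ℝ) {r : ℝ}
    (hr : 0 < r) (n : ℕ) {η : ℝ} (hη : 2 * (n * trV Q κ R u φ r) + n * tlB Q κ R u φ r ≤ η) :
    ((stL Q κ u).prod (stL Q κ u)) (Far u φ n (2 * r)) ≤ ENNReal.ofReal η := by
  have := probW F hA
  have hp : mkAnn κ Q 0 (Stay (mht (B2d.dirVec u))) ≠ 0 := F.hp _ hA
  have hst : IsProbabilityMeasure (stL Q κ u) := cond_isProbabilityMeasure hp
  have hY := one_le_Yw u
  have hg := good_W F hA
  set μ := muW Q κ R u with hμ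
  set V : ℕ → ((ℕ → Word (Mark d)) × (ℕ → Word (Mark d))) → ℝ :=
    fun k p => Vj φ (wdk (Yw u) k p) with hV
  set B : ℕ → ((ℕ → Word (Mark d)) × (ℕ → Word (Mark d))) → ℝ :=
    fun k p => Bj u φ (wdk (Yw u) k p) with hB
  have hVm : ∀ k, Measurable (V k) := measurable_wdk (Vj φ) hY
  have hBm : ∀ k, Measurable (B k) := measurable_wdk (Bj u φ) hY
  have hind : iIndepFun V (pairL μ) := indep_wdk (Vj φ) μ hY hg
  set ν : Measure ℝ := (pairL μ).map (fun p => Vj φ (wd (Yw u) p)) with hν
  have hlaw : ∀ k, (pairL μ).map (V k) = ν := law_wdk (Vj φ) μ hY hg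
  have hwdm : Measurable fun p => Vj φ (wd (Yw u) p) := measurable_wd (Vj φ) hY
  have hsym : ν.map (fun x => -x) = ν := by
    have h1 := swap_wd (Vj φ) μ hY hg
    rw [hν, Measure.map_map measurable_neg hwdm, ← h1]
    congr 1
    funext p
    simp only [Function.comp_apply, Vj_swap]
  have hint : ∫ x, min ((x / r) ^ 2) 1 ∂ν = trV Q κ R u φ r := by
    rw [hν, integral_map hwdm.aemeasurable (by fun_prop)]
    rfl
  have hBk : ∀ k, (pairL μ).real {p | r < B k p} ≤ tlB Q κ R u φ r := by
    intro k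
    have h1 := law_wdk (Bj u φ) μ hY hg k
    have h2 : Measurable fun p => Bj u φ (wd (Yw u) p) := measurable_wd (Bj u φ) hY
    have h3 := congrArg (fun m : Measure ℝ => m {x | r < x}) h1
    have hm : MeasurableSet {x : ℝ | r < x} := measurableSet_Ioi
    simp only [Measure.map_apply (measurable_wdk (Bj u φ) hY k) hm, Measure.map_apply h2 hm] at h3
    refine le_of_eq ?_
    unfold tlB Measure.real
    exact congrArg ENNReal.toReal h3
  have hk := kol hVm hind hlaw hsym hr hBk n
  rw [hint] at hk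
  set C : Set ((ℕ → Word (Mark d)) × (ℕ → Word (Mark d))) :=
    ({p | ∃ j ≤ n, r < |∑ i ∈ Finset.range j, V i p|} ∪ {p | ∃ k < n, r < B k p})
      ∪ (AllGood (Yw u))ᶜ with hC
  have hCm : MeasurableSet C := by
    refine (MeasurableSet.union ?_ ?_).union ?_
    · have e : {p | ∃ j ≤ n, r < |∑ i ∈ Finset.range j, V i p|}
          = ⋃ j : ℕ, ⋃ _ : j ≤ n, {p | r < |∑ i ∈ Finset.range j, V i p|} := by
        ext p; simp
      rw [e]
      exact MeasurableSet.iUnion fun j => MeasurableSet.iUnion fun _ =>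
        measurableSet_lt measurable_const (Finset.measurable_sum _ fun i _ => hVm i).abs
    · have e : {p | ∃ k < n, r < B k p} = ⋃ k : ℕ, ⋃ _ : k < n, {p | r < B k p} := by
        ext p; simp
      rw [e]
      exact MeasurableSet.iUnion fun k => MeasurableSet.iUnion fun _ =>
        measurableSet_lt measurable_const (hBm k)
    · have e : AllGood (Yw u) = ⋂ k : ℕ, (J132.rest (Yw u))^[k] ⁻¹' (Good (Yw u)) := by
        ext p; simp [AllGood]
      rw [e]
      exact (MeasurableSet.iInter fun k =>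
        ((measurable_rest hY).iterate k) (measurableSet_good _)).compl
  have hCv : pairL μ C ≤ ENNReal.ofReal η := by
    have h1 : (pairL μ).real C ≤ η := by
      have hgood : (pairL μ).real (AllGood (Yw u))ᶜ = 0 := by
        unfold Measure.real
        rw [allGood_ae μ hY hg]; rfl
      refine (measureReal_union_le _ _).trans ?_
      rw [hgood, add_zero]
      exact hk.trans hη
    rw [← ENNReal.ofReal_toReal (measure_ne_top (pairL μ) C)]
    exact ENNReal.ofReal_le_ofReal h1
  have hm : Measurable (blks (rhoU u κ R)) := measurable_blks _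
  calc ((stL Q κ u).prod (stL Q κ u)) (Far u φ n (2 * r))
      ≤ ((stL Q κ u).prod (stL Q κ u))
        (Prod.map (blks (rhoU u κ R)) (blks (rhoU u κ R)) ⁻¹' C) := by
        refine measure_mono_ae ?_
        have h1 := Measure.quasiMeasurePreserving_fst (μ := stL Q κ u) (ν := stL Q κ u)
          |>.ae (ae_regInfU F hA)
        have h2 := Measure.quasiMeasurePreserving_snd (μ := stL Q κ u) (ν := stL Q κ u)
          |>.ae (ae_regInfU F hA)
        filter_upwards [h1, h2] with π hp1 hp2 hpB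
        by_contra hnC
        have hnC' : bp u κ R π ∉ C := hnC
        simp only [hC, mem_union, mem_ofPred_eq, mem_compl_iff, not_or, not_exists, not_and,
          not_lt, not_not] at hnC'
        obtain ⟨⟨c1, c2⟩, c3⟩ := hnC'
        have hJG : π ∈ JG u κ R := ⟨hp1, hp2, c3⟩
        obtain ⟨t, t', e1, e2, e3⟩ := hpB
        have key := close_path φ n hJG (c := 0) (r := r) (fun k hk => c2 k hk)
          (fun k hk => by rw [zero_add]; exact c1 k hk) t t' e1 e2
        rw [zero_add] at key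
        linarith
    _ = pairL μ C := by
        rw [pairL, hμ, ← map_blksU F hA, Measure.map_prod_map _ _ hm hm,
          Measure.map_apply (hm.prodMap hm) hCm]
    _ ≤ _ := hCv

/-- **TUBE for one natural walker** -/
theorem tube_nat (F : Frame Q κ R)
    (hA : annealedProb Q 0 (escapeEvent (B2d.dirVec u)) ≠ 0) (φ : Site d →+ ℝ) {r : ℝ}
    (hr : 0 < r) (n : ℕ) {η : ℝ} (hη : 2 * (n * trV Q κ R u φ r) + n * tlB Q κ R u φ r ≤ η) :
    ∃ y : ℕ → Site d, y 0 = 0 ∧ (∀ l, Flux132.lev u (y l) = l) ∧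
      stL Q κ u {s | ∃ t, zh u s t < n ∧
        2 * r < |φ (pos 0 s t) - φ (y (zh u s t).toNat)|} ≤ ENNReal.ofReal η := by
  have hp : mkAnn κ Q 0 (Stay (mht (B2d.dirVec u))) ≠ 0 := F.hp _ hA
  have hst : IsProbabilityMeasure (stL Q κ u) := cond_isProbabilityMeasure hp
  have hm := measurableSet_Far (u := u) φ n (2 * r)
  have h1 := close_prob F hA φ hr n hη
  rw [Measure.prod_apply_symm hm] at h1
  have hN : stL Q κ u (RegInf (rhoU u κ R))ᶜ = 0 := ae_regInfU F hA
  obtain ⟨s', hs', h2⟩ := exists_notMem_null_le_lintegral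
    (μ := stL Q κ u) (f := fun s' => stL Q κ u ((fun s => (s, s')) ⁻¹' Far u φ n (2 * r)))
    (measurable_measure_prodMk_right hm).aemeasurable hN
  rw [mem_compl_iff, not_not] at hs'
  choose T hT using exists_hit_regInf hs'
  refine ⟨fun l => pos 0 s' (T l), ?_, fun l => ?_, ?_⟩
  · have : T 0 = 0 := hit_unique (hT 0) (hit_zero u s')
    show pos 0 s' (T 0) = 0
    rw [this]; exact pos_zero _ _
  · have h3 := B6I.lev_pos (u := u) (0 : Site d) s' (T l)
    have h4 : Flux132.lev u (0 : Site d) = 0 := by simp [Flux132.lev]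
    rw [h4, zero_add, zt_eq] at h3
    rw [h3]; exact (hT l).1
  · refine (measure_mono_ae ?_).trans (h2.trans h1)
    have hae := ae_regInfU F hA
    filter_upwards [hae] with s hs hbad
    obtain ⟨t, ht1, ht2⟩ := hbad
    refine ⟨t, T (zh u s t).toNat, ?_, ht1, ht2⟩
    have h0 : 0 ≤ zh u s t := stay_zh.1 hs.1 t
    have h3 := (hT (zh u s t).toNat).1
    change zh u s t = zh u s' _
    rw [h3]
    omega

/-! ### annealed, unmarked -/

/-- the lateral coordinate as a real functional -/
noncomputable def latR (i : Fin d) : Site d →+ ℝ :=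
  (Int.castAddHom ℝ).comp (Pi.evalAddMonoidHom (fun _ => ℤ) i)

lemma latR_apply (i : Fin d) (z : Site d) : latR i z = (z i : ℝ) := rfl

lemma lev_pos0 (s : MPath d) (n : ℕ) : Flux132.lev u (pos 0 s n) = zh u s n := by
  have h3 := B6I.lev_pos (u := u) (0 : Site d) s n
  have h4 : Flux132.lev u (0 : Site d) = 0 := by simp [Flux132.lev]
  rw [h4, zero_add, zt_eq] at h3
  exact h3

/-- climbing inside the tube, unmarked -/
def TubeEv (u : Step d) (i : Fin d) (v : ℤ → ℤ) (n : ℤ) (a : ℤ) : Set (Path d) :=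
  {X | ∃ m, Flux132.lev u (X m) = n ∧ ∀ j < m, 0 ≤ Flux132.lev u (X j) ∧
    Flux132.lev u (X j) < n ∧ |X j i - v (Flux132.lev u (X j))| < a}

lemma measurableSet_TubeEv (i : Fin d) (v : ℤ → ℤ) (n a : ℤ) :
    MeasurableSet (TubeEv u i v n a) := by
  have e : TubeEv u i v n a = ⋃ m : ℕ, ({X | Flux132.lev u (X m) = n} ∩ ⋂ j : ℕ, ⋂ _ : j < m,
      {X | 0 ≤ Flux132.lev u (X j) ∧ Flux132.lev u (X j) < n ∧
        |X j i - v (Flux132.lev u (X j))| < a}) := by
    ext X; simp [TubeEv]
  rw [e]
  refine MeasurableSet.iUnion fun m => MeasurableSet.inter ?_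
    (MeasurableSet.iInter fun j => MeasurableSet.iInter fun _ => ?_)
  · have hm : Measurable fun X : Path d => X m := measurable_pi_apply m
    exact hm (Set.to_countable {z : Site d | Flux132.lev u z = n}).measurableSet
  · have hm : Measurable fun X : Path d => X j := measurable_pi_apply j
    exact hm (Set.to_countable {z : Site d | 0 ≤ Flux132.lev u z ∧
      Flux132.lev u z < n ∧ |z i - v (Flux132.lev u z)| < a}).measurableSet

/-- **THE TUBE, annealed**: `P(NS) (1 - η) ≤ P_ann(climb n levels inside the tube)`. -/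
theorem tube_ann (F : Frame Q κ R)
    (hA : annealedProb Q 0 (escapeEvent (B2d.dirVec u)) ≠ 0) (i : Fin d) {r : ℕ}
    (hr : 0 < r) (n : ℕ) {η : ℝ}
    (hη : 2 * (n * trV Q κ R u (latR i) r) + n * tlB Q κ R u (latR i) r ≤ η) :
    ∃ v : ℤ → ℤ, v 0 = 0 ∧ mkAnn κ Q 0 (NS u) * ENNReal.ofReal (1 - η)
      ≤ annealedProb Q 0 (TubeEv u i v n (2 * r + 1)) := by
  have hp : mkAnn κ Q 0 (Stay (mht (B2d.dirVec u))) ≠ 0 := F.hp _ hA
  have hst : IsProbabilityMeasure (stL Q κ u) := cond_isProbabilityMeasure hp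
  have hr0 : (0:ℝ) < r := by exact_mod_cast hr
  obtain ⟨y, hy0, hyl, hy⟩ := tube_nat F hA (latR i) hr0 n hη
  refine ⟨fun l => y l.toNat i, by simp [hy0], ?_⟩
  set v : ℤ → ℤ := fun l => y l.toNat i with hv
  set Bad : Set (MPath d) := {s | ∃ t, zh u s t < n ∧
    2 * (r : ℝ) < |latR i (pos 0 s t) - latR i (y (zh u s t).toNat)|} with hBad
  have hBm : MeasurableSet Bad := by
    have e : Bad = ⋃ t : ℕ, {s : MPath d | zh u s t < n ∧
        2 * (r : ℝ) < |latR i (pos 0 s t) - latR i (y (zh u s t).toNat)|} := by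
      ext s; simp [hBad]
    rw [e]
    refine MeasurableSet.iUnion fun t => ?_
    have m1 : Measurable fun s : MPath d => (zh u s t, pos 0 s t) :=
      (measurable_zh t).prodMk (B4Inst797.measurable_pos 0 t)
    exact m1 (Set.to_countable {x : ℤ × Site d | x.1 < n ∧
      2 * (r : ℝ) < |latR i x.2 - latR i (y x.1.toNat)|}).measurableSet
  have h1 : ENNReal.ofReal (1 - η) ≤ stL Q κ u Badᶜ := by
    rw [measure_compl hBm (measure_ne_top _ _), measure_univ]
    rw [ENNReal.ofReal_sub _ (by
      have h0 : 0 ≤ trV Q κ R u (latR i) r :=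
        integral_nonneg fun p => le_min (sq_nonneg _) zero_le_one
      have h0' : 0 ≤ tlB Q κ R u (latR i) r := measureReal_nonneg
      have : (0:ℝ) ≤ n := Nat.cast_nonneg n
      refine le_trans ?_ hη
      positivity), ENNReal.ofReal_one]
    exact tsub_le_tsub_left hy 1
  have hNS : mkAnn κ Q 0 (NS u) ≠ ⊤ := measure_ne_top _ _
  have h2 : mkAnn κ Q 0 (NS u) * stL Q κ u Badᶜ = mkAnn κ Q 0 (NS u ∩ Badᶜ) := by
    have h := restrict_eq F hA
    have h' := congrArg (fun m : Measure (MPath d) => m Badᶜ) h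
    simp only [Measure.smul_apply, smul_eq_mul] at h'
    rw [← h', Measure.restrict_apply hBm.compl, inter_comm]
  have hae : mkAnn κ Q 0 (NS u ∩ Badᶜ) = mkAnn κ Q 0 (NS u ∩ Badᶜ ∩ RegInf (rhoU u κ R)) := by
    have hN : stL Q κ u (RegInf (rhoU u κ R))ᶜ = 0 := ae_regInfU F hA
    have h3 : mkAnn κ Q 0 (NS u ∩ (RegInf (rhoU u κ R))ᶜ) = 0 := by
      have h := restrict_eq F hA
      have h' := congrArg (fun m : Measure (MPath d) => m (RegInf (rhoU u κ R))ᶜ) h
      simp only [Measure.smul_apply, smul_eq_mul, hN, mul_zero] at h'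
      have hle : mkAnn κ Q 0 ((RegInf (rhoU u κ R))ᶜ ∩ NS u)
          ≤ (mkAnn κ Q 0).restrict (NS u) (RegInf (rhoU u κ R))ᶜ := Measure.le_restrict_apply _ _
      rw [inter_comm]
      exact le_antisymm (hle.trans h'.le) (zero_le)
    refine le_antisymm ?_ (measure_mono inter_subset_left)
    have hsub : NS u ∩ Badᶜ ⊆ (NS u ∩ Badᶜ ∩ RegInf (rhoU u κ R))
        ∪ (NS u ∩ (RegInf (rhoU u κ R))ᶜ) := by
      intro s hs
      by_cases h : s ∈ RegInf (rhoU u κ R)
      · exact Or.inl ⟨hs, h⟩
      · exact Or.inr ⟨hs.1, h⟩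
    refine (measure_mono hsub).trans ((measure_union_le _ _).trans ?_)
    rw [h3, add_zero]
  calc mkAnn κ Q 0 (NS u) * ENNReal.ofReal (1 - η) ≤ mkAnn κ Q 0 (NS u) * stL Q κ u Badᶜ := by
        gcongr
    _ = mkAnn κ Q 0 (NS u ∩ Badᶜ ∩ RegInf (rhoU u κ R)) := by rw [h2, hae]
    _ ≤ mkAnn κ Q 0 (mpath 0 ⁻¹' TubeEv u i v n (2 * r + 1)) := by
        refine measure_mono ?_
        rintro s ⟨⟨hs1, hs2⟩, hs3⟩
        obtain ⟨m, hm⟩ := exists_hit_regInf hs3 n
        refine ⟨m, ?_, fun j hj => ?_⟩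
        · show Flux132.lev u (pos 0 s m) = n
          rw [lev_pos0]; exact hm.1
        · show 0 ≤ Flux132.lev u (pos 0 s j) ∧ Flux132.lev u (pos 0 s j) < n ∧
            |pos 0 s j i - v (Flux132.lev u (pos 0 s j))| < 2 * r + 1
          rw [lev_pos0]
          have a1 : 0 ≤ zh u s j := stay_zh.1 hs3.1 j
          have a2 : zh u s j < n := hm.2 j hj
          refine ⟨a1, a2, ?_⟩
          by_contra hc
          push Not at hc
          apply hs2
          refine ⟨j, a2, ?_⟩
          rw [latR_apply, latR_apply]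
          have hc' : ((2 * r + 1 : ℤ) : ℝ) ≤ ((|pos 0 s j i - v (zh u s j)| : ℤ) : ℝ) := by
            exact_mod_cast hc
          rw [Int.cast_abs] at hc'
          push_cast at hc'
          have : (y (zh u s j).toNat i : ℝ) = ((v (zh u s j) : ℤ) : ℝ) := rfl
          rw [this]
          linarith
    _ = annealedProb Q 0 (TubeEv u i v n (2 * r + 1)) :=
        mkAnn_projection F.ell 0 (measurableSet_TubeEv i v _ _)

/-- **SLAB TAIL, `d = 2`**: with the tube `v` at scale `r`, the annealed probability to reach the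
distance `1 + 4 (2 r + 1) K` from the tube before leaving the slab `0 ≤ lev < n` is at most
`2 (1 - P(NS) (1 - η)) ^ K`. -/
theorem slab_tail {u : Step 2} (ν : Measure (Row 2)) [IsProbabilityMeasure ν]
    (hν : ∀ᵐ q ∂ν, ∀ e : Step 2, 0 < q.1 e)
    (F : Frame (iidEnvironmentLaw ν) κ R)
    (hA : annealedProb (iidEnvironmentLaw ν) 0 (escapeEvent (B2d.dirVec u)) ≠ 0) {i : Fin 2}
    (hi : i ≠ u.1) {r : ℕ} (hr : 0 < r) {n : ℕ} (hn : 0 < n) {η : ℝ}
    (hη : 2 * (n * trV (iidEnvironmentLaw ν) κ R u (latR i) r)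
      + n * tlB (iidEnvironmentLaw ν) κ R u (latR i) r ≤ η) :
    ∃ v : ℤ → ℤ, v 0 = 0 ∧ ∀ K : ℕ, annealedProb (iidEnvironmentLaw ν) 0
      {X | ∃ m, 1 + 4 * (2 * (r : ℤ) + 1) * K ≤ |X m i - v (Flux132.lev u (X m))| ∧
        ∀ j ≤ m, 0 ≤ Flux132.lev u (X j) ∧ Flux132.lev u (X j) < n}
      ≤ 2 * (1 - mkAnn κ (iidEnvironmentLaw ν) 0 (NS u) * ENNReal.ofReal (1 - η)) ^ K := by
  obtain ⟨v, hv0, hv⟩ := tube_ann F hA i hr n hη
  refine ⟨v, hv0, fun K => ?_⟩
  have h0 : Flux132.lev u (0 : Site 2) = 0 := by simp [Flux132.lev]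
  have hn' : (0 : ℤ) < n := by exact_mod_cast hn
  have := Slab491.slab2' ν hν u hi v (l0 := 0) (l1 := (n : ℤ)) (A := 2 * (r : ℤ) + 1) (r := 1)
    (by positivity) hn' (xb := 0) (x0 := 0) h0 (by simp [hv0]) hv (le_of_eq h0.symm)
    (by rw [h0]; exact hn') (by rw [h0, hv0]; simp) K
  exact this

end Crest.Agent.R154.Tube504
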