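import Crest.Agent.R154.TubeLinB_4
import Crest.Agent.R154.TubeKol_4
import Crest.Agent.R154.NDAObj_24
import Crest.Agent.R154.TubeObj_504
import Crest.Agent.R154.P2Defs_916

/-!
Row 154, d = 2 (D2.5, helper4).  **THETA**: from NDA of the joint blocks (24), the Kolmogorov tubes
(504) and `tube_lin`: there is ONE real slope `θ` such that at every scale `N` the natural walk stays
within `A_ε * wdJ N` of the line `θ * level` up to probability `ε`.
-/

set_option autoImplicit false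
set_option linter.unusedSectionVars false
set_option linter.deprecated false

namespace Crest.Agent.R154.TubeLin4

open MeasureTheory ProbabilityTheory Filter Set Crest.ProbabilityR.RandomEnvironment
open Crest.Agent.R154.Mk561 Crest.Agent.R154.Bind263 Crest.Agent.R154.B4Inst797
open Crest.Agent.R154.J132 Crest.Agent.R154.J6_24 Crest.Agent.R154.NDAObj24
open Crest.Agent.R154.Hair738 (T U Core NDA)
open Crest.Agent.R154.Ren263 (Word Stay)
open Crest.Agent.R154.Flux132 (lev)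
open scoped ENNReal Topology

/-! ### almost sure version of `small_kol` -/

section ae
variable {Ω : Type*} [MeasurableSpace Ω] {P : Measure Ω} [IsProbabilityMeasure P] {V B : Ω → ℝ}

theorem small_kol_ae (hV : Measurable V) (hB : Measurable B) (h : ∀ᵐ ω ∂P, |V ω| ≤ B ω)
    (hne : P {ω | V ω ≠ 0} ≠ 0) (hN : NDA (T P B) (U P V B)) {η : ℝ} (hη : 0 < η) :
    ∃ A : ℕ, 1 ≤ A ∧ ∀ᶠ N : ℕ in atTop,
      2 * ((N : ℝ) * ∫ ω, min ((V ω / ((A * Hair738.wd P V B N : ℕ) : ℝ)) ^ 2) 1 ∂P)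
        + N * P.real {ω | ((A * Hair738.wd P V B N : ℕ) : ℝ) < B ω} ≤ η := by
  have eT := T_congr (Bh_ae h)
  have eU := U_congr hB (hB.max measurable_const) (Vh_ae h) (Bh_ae h)
  have ew : ∀ k, Hair738.wd P V B k = Hair738.wd P (Vh V B) (fun ω => max (B ω) 0) k := by
    intro k
    change Hair738.wdC (T P B) (U P V B) k = Hair738.wdC (T P _) (U P _ _) k
    rw [eT, eU]
  rw [eT, eU] at hN
  obtain ⟨A, hA, hev⟩ := small_kol (P := P) (measurable_Vh hV hB) (hB.max measurable_const) Vh_le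
    (ne_ae h hne) hN hη
  refine ⟨A, hA, ?_⟩
  filter_upwards [hev] with N hN'
  rw [ew N]
  refine le_trans (le_of_eq ?_) hN'
  have e1 : ∫ ω, min ((V ω / ((A * Hair738.wd P (Vh V B) (fun ω => max (B ω) 0) N : ℕ) : ℝ)) ^ 2) 1 ∂P
      = ∫ ω, min ((Vh V B ω / ((A * Hair738.wd P (Vh V B) (fun ω => max (B ω) 0) N : ℕ) : ℝ)) ^ 2) 1
        ∂P := by
    refine integral_congr_ae ?_
    filter_upwards [Vh_ae h] with ω hω
    rw [← hω]
  have e2 : P.real {ω | ((A * Hair738.wd P (Vh V B) (fun ω => max (B ω) 0) N : ℕ) : ℝ) < B ω}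
      = P.real {ω | ((A * Hair738.wd P (Vh V B) (fun ω => max (B ω) 0) N : ℕ) : ℝ) < max (B ω) 0} := by
    refine measureReal_congr ?_
    filter_upwards [Bh_ae h] with ω hω
    refine propext ?_
    change _ < B ω ↔ _ < max (B ω) 0
    rw [← hω]
  rw [e1, e2]

end ae

variable {d : ℕ} {u : Step d} {κ : ℝ} {R : ℕ} {Q : Measure (Environment d)}
  [IsProbabilityMeasure Q]

/-! ### the two laws of the natural walk -/

lemma nat0_eq (u : Step d) : Nat0 u 0 = Stay (mht (B2d.dirVec u)) := by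
  ext s
  rw [stay_zh]
  constructor
  · intro h n
    exact_mod_cast h.2 n (Nat.zero_le _)
  · intro h
    exact ⟨fun i hi => absurd hi (Nat.not_lt_zero _), fun n _ => by exact_mod_cast h n⟩

lemma natLaw_eq (Q : Measure (Environment d)) (κ : ℝ) (u : Step d) :
    natLaw κ Q u 0 = stL Q κ u := by
  unfold natLaw stL
  rw [nat0_eq]

lemma nat0_ne (F : Frame Q κ R) (hA : annealedProb Q 0 (escapeEvent (B2d.dirVec u)) ≠ 0) :
    mkAnn κ Q 0 (Nat0 u 0) ≠ 0 := by
  rw [nat0_eq]; exact F.hp _ hA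

/-! ### THETA -/

/-- **ONE REAL SLOPE** -/
theorem theta_tube (F : Frame Q κ 0) (hA : annealedProb Q 0 (escapeEvent (B2d.dirVec u)) ≠ 0)
    {i : Fin d} (hi : i ≠ u.1)
    (hN : NDA (T (triL Q κ 0 u (phi i)) Bt) (U (triL Q κ 0 u (phi i)) Vt Bt)) :
    ∃ θ : ℝ, ∀ ε : ℝ, 0 < ε → ∃ (A : ℝ) (N1 : ℕ), ∀ N, N1 ≤ N →
      1 - ε ≤ (stL Q κ u).real (TubeE u i N (A * wdJ Q κ 0 u i N) fun l => θ * l) := by
  have hprob := probTri F hA (phi i)
  have hW := probW F hA
  have H := core_tri F hA hi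
  have hc := nat0_ne F hA
  have hst : IsProbabilityMeasure (stL Q κ u) := cond_isProbabilityMeasure (F.hp _ hA)
  rw [← natLaw_eq]
  -- growth of the width
  obtain ⟨N0, hN0⟩ := eventually_atTop.1 (hN.wd_upper H 16 (by norm_num))
  have hreg : ∀ N, N0 ≤ N → (wdJ Q κ 0 u i (16 * N) : ℝ) ≤ 12 * wdJ Q κ 0 u i N := by
    intro N hN'
    have h1 := hN0 N hN'
    have h2 : Real.sqrt ((16 : ℕ) : ℝ) = 4 := by
      rw [show (((16 : ℕ) : ℝ)) = 4 ^ 2 by norm_num, Real.sqrt_sq (by norm_num)]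
    rw [h2] at h1
    calc (wdJ Q κ 0 u i (16 * N) : ℝ) ≤ 3 * (4 * wdJ Q κ 0 u i N) := h1
      _ = _ := by ring
  refine tube_lin F hc i (wdJ Q κ 0 u i) (one_le_wdJ F hA hi) (fun a b hab => H.wd_mono hab)
    (s := 16) (by norm_num) (q := 12) (by norm_num) (N0 := N0) hreg ?_
  intro ε hε
  obtain ⟨A, hA1, hev⟩ := small_kol_ae (P := triL Q κ 0 u (phi i)) (V := Vt) (B := Bt)
    measurable_fst (measurable_fst.comp measurable_snd)
    ((tri_le F hA (phi i)).mono fun t h => h.1) (tri_ne F hA hi (phi_step i)) hN hε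
  obtain ⟨N1, hN1⟩ := eventually_atTop.1 hev
  refine ⟨2 * A, N1, fun N hNN => ?_⟩
  set w := wdJ Q κ 0 u i N with hw
  have hw1 : 1 ≤ w := one_le_wdJ F hA hi N
  have hr : (0 : ℝ) < ((A * w : ℕ) : ℝ) := by
    have : 0 < A * w := Nat.mul_pos hA1 hw1
    exact_mod_cast this
  have h1 := hN1 N hNN
  -- change of law
  have hmt := measurable_wd (tri u (phi i)) (one_le_Yw u)
  have e1 : ∫ t, min ((Vt t / ((A * w : ℕ) : ℝ)) ^ 2) 1 ∂(triL Q κ 0 u (phi i))
      = Tube504.trV Q κ 0 u (phi i) ((A * w : ℕ) : ℝ) := by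
    unfold triL jlawOf Tube504.trV
    rw [integral_map hmt.aemeasurable (by fun_prop)]
    rfl
  have e2 : (triL Q κ 0 u (phi i)).real {t | ((A * w : ℕ) : ℝ) < Bt t}
      = Tube504.tlB Q κ 0 u (phi i) ((A * w : ℕ) : ℝ) := by
    unfold triL jlawOf Tube504.tlB
    have hSm : MeasurableSet {t : ℝ × ℝ × ℕ | ((A * w : ℕ) : ℝ) < Bt t} :=
      measurableSet_lt measurable_const (measurable_fst.comp measurable_snd)
    rw [measureReal_def, Measure.map_apply hmt hSm, ← measureReal_def]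
    rfl
  rw [e1, e2] at h1
  obtain ⟨y, -, -, hy⟩ := Tube504.tube_nat F hA (phi i) hr N h1
  refine ⟨fun l => phi i (y l), ?_⟩
  rw [natLaw_eq]
  set S : Set (MPath d) := TubeE u i N (2 * (A : ℝ) * w) fun l => phi i (y l) with hS
  have hcov : (univ : Set (MPath d)) ⊆ S ∪ {s | ∃ t, zh u s t < N ∧
      2 * ((A * w : ℕ) : ℝ) < |phi i (pos 0 s t) - phi i (y (zh u s t).toNat)|} := by
    intro s _
    by_cases h : s ∈ S
    · exact Or.inl h
    · right
      simp only [hS, TubeE, mem_setOf_eq, not_forall, not_le] at h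
      obtain ⟨t, ht, h2⟩ := h
      refine ⟨t, ht, ?_⟩
      rw [phi_apply, phi_apply]
      rw [phi_apply] at h2
      push_cast
      linarith
  have h2 := (measureReal_mono (μ := stL Q κ u) hcov).trans (measureReal_union_le _ _)
  rw [probReal_univ] at h2
  have h3 : (stL Q κ u).real {s | ∃ t, zh u s t < N ∧
      2 * ((A * w : ℕ) : ℝ) < |phi i (pos 0 s t) - phi i (y (zh u s t).toNat)|} ≤ ε := by
    rw [measureReal_def]
    refine (ENNReal.toReal_mono ENNReal.ofReal_ne_top hy).trans ?_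
    rw [ENNReal.toReal_ofReal hε.le]
  linarith

/-! ### the annealed forms -/

section two
variable {u : Step 2} {i : Fin 2} {κ : ℝ} {Q : Measure (Environment 2)} [IsProbabilityMeasure Q]

/-- from the `θ`-tube of the natural law to the annealed climb inside the tube (unmarked) -/
theorem climb_theta (F : Frame Q κ 0)
    (hA : annealedProb Q 0 (escapeEvent (B2d.dirVec u)) ≠ 0) {θ : ℝ} {wd : ℕ → ℕ}
    (hw1 : ∀ N, 1 ≤ wd N) {A ε : ℝ} {N : ℕ} (hA0 : 0 ≤ A)
    (h : 1 - ε ≤ (stL Q κ u).real (TubeE u i N (A * wd N) fun l => θ * l)) :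
    mkAnn κ Q 0 (Stay (mht (B2d.dirVec u))) * ENNReal.ofReal (1 - ε) ≤ annealedProb Q 0
      {X | ∃ n, lev u (X n) = (N : ℤ) ∧ ∀ j < n, 0 ≤ lev u (X j) ∧ lev u (X j) < (N : ℤ) ∧
        |P2916.sl u i θ (X j)| ≤ (A + 4) * wd N} := by
  set v : ℤ → ℤ := fun l => ⌊θ * l⌋ with hv
  set w : ℤ := ⌈A * wd N⌉ + 1 with hw
  have hst : IsProbabilityMeasure (stL Q κ u) := cond_isProbabilityMeasure (F.hp _ hA)
  have hsub : (stL Q κ u) (TubeE u i N (A * wd N) fun l => θ * l)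
      ≤ stL Q κ u {s | ∀ t, zh u s t < N → |pos 0 s t i - v (zh u s t)| ≤ w} := by
    refine measure_mono_ae ?_
    filter_upwards [ae_regInfU F hA] with s hs hT
    intro t ht
    have h0 : 0 ≤ zh u s t := stay_zh.1 hs.1 t
    have h1 : |(pos 0 s t i : ℝ) - θ * ((zh u s t).toNat : ℝ)| ≤ A * wd N := hT t ht
    have e : ((zh u s t).toNat : ℝ) = (zh u s t : ℝ) := by
      exact_mod_cast congrArg (Int.cast (R := ℝ)) (Int.toNat_of_nonneg h0)
    rw [e] at h1
    have h2 : (|pos 0 s t i - v (zh u s t)| : ℤ) ≤ w := by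
      have h3 : ((|pos 0 s t i - v (zh u s t)| : ℤ) : ℝ) ≤ (w : ℝ) := by
        push_cast
        have h4 : |(v (zh u s t) : ℝ) - θ * (zh u s t : ℝ)| ≤ 1 := by
          simp only [hv]
          rw [abs_le]
          constructor
          · linarith [Int.lt_floor_add_one (θ * (zh u s t : ℝ))]
          · linarith [Int.floor_le (θ * (zh u s t : ℝ))]
        have h5 : A * wd N ≤ (⌈A * wd N⌉ : ℤ) := Int.le_ceil _
        calc |(pos 0 s t i : ℝ) - (v (zh u s t) : ℝ)|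
            = |((pos 0 s t i : ℝ) - θ * (zh u s t : ℝ)) -
              ((v (zh u s t) : ℝ) - θ * (zh u s t : ℝ))| := by congr 1; ring
          _ ≤ _ := abs_sub _ _
          _ ≤ A * wd N + 1 := add_le_add h1 h4
          _ ≤ _ := by rw [hw]; push_cast; linarith
      exact_mod_cast h3
    exact h2
  have hc : ENNReal.ofReal (1 - ε) ≤
      stL Q κ u {s | ∀ t, zh u s t < N → |pos 0 s t i - v (zh u s t)| ≤ w} := by
    refine le_trans ?_ hsub
    rw [← ENNReal.ofReal_toReal (measure_ne_top (stL Q κ u) (TubeE u i N (A * wd N) fun l => θ * l))]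
    exact ENNReal.ofReal_le_ofReal h
  refine (climb_of_tube F hA i v N w (w + 1) (by omega) hc).trans ?_
  unfold annealedProb
  refine lintegral_mono fun ω => measure_mono ?_
  rintro X ⟨n, hn, hX⟩
  refine ⟨n, hn, fun j hj => ⟨(hX j hj).1, (hX j hj).2.1, ?_⟩⟩
  have h1 := (hX j hj).2.2
  have h2 : ((|X j i - v (lev u (X j))| : ℤ) : ℝ) < ((w + 1 : ℤ) : ℝ) := by exact_mod_cast h1
  push_cast at h2
  have h4 : |(v (lev u (X j)) : ℝ) - θ * (lev u (X j) : ℝ)| ≤ 1 := by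
    simp only [hv]
    rw [abs_le]
    constructor
    · linarith [Int.lt_floor_add_one (θ * (lev u (X j) : ℝ))]
    · linarith [Int.floor_le (θ * (lev u (X j) : ℝ))]
  have hwr : (w : ℝ) ≤ A * wd N + 2 := by
    rw [hw]; push_cast
    linarith [Int.ceil_lt_add_one (A * (wd N : ℝ))]
  have hw1' : (1 : ℝ) ≤ wd N := by exact_mod_cast hw1 N
  unfold P2916.sl
  calc |(X j i : ℝ) - θ * (lev u (X j) : ℝ)|
      = |((X j i : ℝ) - (v (lev u (X j)) : ℝ)) +
        ((v (lev u (X j)) : ℝ) - θ * (lev u (X j) : ℝ))| := by congr 1; ring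
    _ ≤ _ := abs_add_le _ _
    _ ≤ (A * wd N + 2 + 1) + 1 := by linarith
    _ ≤ (A + 4) * wd N := by nlinarith

/-- **28's `TubeP`** -/
theorem tubeP (F : Frame Q κ 0) (hA : annealedProb Q 0 (escapeEvent (B2d.dirVec u)) ≠ 0)
    {θ : ℝ} {wd : ℕ → ℕ} (hw1 : ∀ N, 1 ≤ wd N)
    (h : ∀ ε : ℝ, 0 < ε → ∃ (A : ℝ) (N1 : ℕ), ∀ N, N1 ≤ N →
      1 - ε ≤ (stL Q κ u).real (TubeE u i N (A * wd N) fun l => θ * l)) :
    ∃ A p0 : ℝ, 0 < A ∧ 0 < p0 ∧ ∃ H0 : ℕ, ∀ H ≥ H0, ENNReal.ofReal p0 ≤ annealedProb Q 0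
      {X | ∃ n, lev u (X n) = (H : ℤ) ∧ ∀ j < n, 0 ≤ lev u (X j) ∧ lev u (X j) < (H : ℤ) ∧
        |P2916.sl u i θ (X j)| ≤ A * wd H} := by
  obtain ⟨A, N1, hAN⟩ := h (1 / 2) (by norm_num)
  set p := mkAnn κ Q 0 (Stay (mht (B2d.dirVec u))) with hp
  have hp0 : p ≠ 0 := F.hp _ hA
  have hpr : 0 < p.toReal := ENNReal.toReal_pos hp0 (measure_ne_top _ _)
  refine ⟨|A| + 4, p.toReal / 2, by positivity, by positivity, N1, fun H hH => ?_⟩
  have h1 := hAN H hH
  have h2 : 1 - 1 / 2 ≤ (stL Q κ u).real (TubeE u i H (|A| * wd H) fun l => θ * l) := by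
    have hst : IsProbabilityMeasure (stL Q κ u) := cond_isProbabilityMeasure (F.hp _ hA)
    refine h1.trans (measureReal_mono ?_)
    intro s hs t ht
    refine (hs t ht).trans ?_
    have := le_abs_self A
    gcongr
  refine le_trans ?_ (climb_theta F hA hw1 (abs_nonneg A) h2)
  rw [← ENNReal.ofReal_toReal (measure_ne_top (mkAnn κ Q 0) (Stay (mht (B2d.dirVec u)))), ← hp,
    ← ENNReal.ofReal_mul hpr.le]
  refine ENNReal.ofReal_le_ofReal (le_of_eq ?_)
  ring

end two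

end Crest.Agent.R154.TubeLin4
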