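import Crest.Agent.R154.B5Abs_566
import Crest.Agent.R154.Dens_903

/-!
Row 154, ROAD 801, line (1) (helper602): smooth density of the FIRST PASSAGE law
(overshoot, displacement) of a list of blocks; the bad mass is paid once, not per height.
-/

set_option autoImplicit false

namespace Crest.Agent.R154.Tie602

open scoped ENNReal Classical
open Finset
open Crest.Agent.R154.B5A Crest.Agent.R154.Dens903

/-! ### the recursion with a far part -/

section dens

variable {V : Type*} [AddCommGroup V]

/-- `Dens903.dens_split` with a far part of mass `≤ ε` at every step -/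
theorem dens_far (U p Fr : ℕ → V → ℝ≥0∞) (s i0 : ℕ) (th q ε : ℝ≥0∞)
    (hU : ∀ h, s + i0 ≤ h → ∀ z, U h z
      ≤ (∑' i, ∑' z', if i ≤ i0 then p i z' * U (h - s - i) (z - z') else 0) + Fr h z)
    (hU1 : ∀ h, ∑' z, U h z ≤ 1)
    (hNG : ∑' i, ∑' z, (if i ≤ i0 ∧ th < p i z then p i z else 0) ≤ q)
    (hFar : ∀ h, s + i0 ≤ h → ∑' z, Fr h z ≤ ε) (J : ℕ) :
    ∀ h, J * (s + i0) ≤ h → ∃ Ag Bb : V → ℝ≥0∞, (∀ z, U h z ≤ Ag z + Bb z) ∧
      (∀ z, Ag z ≤ (i0 + 1) * th * ∑ j ∈ range J, q ^ j) ∧
      ∑' z, Bb z ≤ q ^ J + ε * ∑ j ∈ range J, q ^ j := by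
  induction J with
  | zero =>
    intro h _
    refine ⟨fun _ => 0, U h, fun z => by simp, fun z => by simp, ?_⟩
    simpa using hU1 h
  | succ J ih =>
    intro h hh
    have hs : s + i0 ≤ h := by
      have : s + i0 ≤ (J + 1) * (s + i0) := Nat.le_mul_of_pos_left _ (Nat.succ_pos J)
      omega
    have hrest : ∀ i, i ≤ i0 → J * (s + i0) ≤ h - s - i := by
      intro i hi
      have : (J + 1) * (s + i0) = J * (s + i0) + (s + i0) := by ring
      omega
    have hch : ∀ i, ∃ Ag Bb : V → ℝ≥0∞, i ≤ i0 → (∀ z, U (h - s - i) z ≤ Ag z + Bb z) ∧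
        (∀ z, Ag z ≤ (i0 + 1) * th * ∑ j ∈ range J, q ^ j) ∧
        ∑' z, Bb z ≤ q ^ J + ε * ∑ j ∈ range J, q ^ j := by
      intro i
      by_cases hi : i ≤ i0
      · obtain ⟨a, b, h1⟩ := ih _ (hrest i hi)
        exact ⟨a, b, fun _ => h1⟩
      · exact ⟨0, 0, fun h => absurd h hi⟩
    choose A B hAB using hch
    refine ⟨fun z => ∑' i, ∑' z', ((if i ≤ i0 ∧ ¬ th < p i z' then p i z' * U (h - s - i) (z - z') else 0)
        + (if i ≤ i0 ∧ th < p i z' then p i z' * A i (z - z') else 0)),
      fun z => Fr h z + ∑' i, ∑' z', (if i ≤ i0 ∧ th < p i z' then p i z' * B i (z - z') else 0),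
      ?_, ?_, ?_⟩
    · intro z
      refine (hU h hs z).trans ?_
      beta_reduce
      rw [add_comm (Fr h z), ← add_assoc]
      refine add_le_add ?_ le_rfl
      rw [← ENNReal.tsum_add]
      refine ENNReal.tsum_le_tsum fun i => ?_
      rw [← ENNReal.tsum_add]
      refine ENNReal.tsum_le_tsum fun z' => ?_
      by_cases hi : i ≤ i0
      · by_cases ht : th < p i z'
        · simp only [hi, ht, not_true, and_false, and_self, if_true, if_false, zero_add]
          rw [← mul_add]
          gcongr
          exact (hAB i hi).1 _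
        · simp [hi, ht]
      · simp [hi]
    · intro z
      have hq : ∑ j ∈ range (J + 1), q ^ j = 1 + q * ∑ j ∈ range J, q ^ j := by
        rw [Finset.sum_range_succ', Finset.mul_sum, add_comm]
        simp [pow_succ, mul_comm]
      rw [hq, mul_add, mul_one]
      have h1 : ∑' i, ∑' z', (if i ≤ i0 ∧ ¬ th < p i z' then p i z' * U (h - s - i) (z - z') else 0)
          ≤ (i0 + 1) * th := by
        calc _ ≤ ∑' i, (if i ≤ i0 then th else 0) := by
              refine ENNReal.tsum_le_tsum fun i => ?_
              by_cases hi : i ≤ i0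
              · rw [if_pos hi]
                calc _ ≤ ∑' z', th * U (h - s - i) (z - z') := by
                      refine ENNReal.tsum_le_tsum fun z' => ?_
                      by_cases ht : th < p i z'
                      · simp [ht]
                      · simp only [hi, ht, not_false_eq_true, and_self, if_true]
                        gcongr
                        exact not_lt.1 ht
                  _ = th * ∑' z', U (h - s - i) z' := by
                      rw [ENNReal.tsum_mul_left, tsum_sub]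
                  _ ≤ th * 1 := by gcongr; exact hU1 _
                  _ = th := mul_one _
              · simp [hi]
          _ = ∑ i ∈ range (i0 + 1), (if i ≤ i0 then th else 0) := by
              refine tsum_eq_sum fun i hi => ?_
              rw [Finset.mem_range, not_lt] at hi
              rw [if_neg (by omega)]
          _ = (i0 + 1) * th := by
              rw [Finset.sum_congr rfl fun i hi => if_pos (by
                have := Finset.mem_range.1 hi; omega)]
              simp
      have h2 : ∑' i, ∑' z', (if i ≤ i0 ∧ th < p i z' then p i z' * A i (z - z') else 0)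
          ≤ (i0 + 1) * th * (q * ∑ j ∈ range J, q ^ j) := by
        calc _ ≤ ∑' i, ∑' z', (if i ≤ i0 ∧ th < p i z' then p i z' else 0)
                * ((i0 + 1) * th * ∑ j ∈ range J, q ^ j) := by
              refine ENNReal.tsum_le_tsum fun i => ENNReal.tsum_le_tsum fun z' => ?_
              by_cases hi : i ≤ i0 ∧ th < p i z'
              · rw [if_pos hi, if_pos hi]
                gcongr
                exact (hAB i hi.1).2.1 _
              · simp [if_neg hi]
          _ = (∑' i, ∑' z', (if i ≤ i0 ∧ th < p i z' then p i z' else 0))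
                * ((i0 + 1) * th * ∑ j ∈ range J, q ^ j) := by
              rw [← ENNReal.tsum_mul_right]
              refine tsum_congr fun i => ?_
              rw [ENNReal.tsum_mul_right]
          _ ≤ q * ((i0 + 1) * th * ∑ j ∈ range J, q ^ j) := by gcongr
          _ = _ := by ring
      calc _ = ∑' i, ∑' z', (if i ≤ i0 ∧ ¬ th < p i z' then p i z' * U (h - s - i) (z - z') else 0)
            + ∑' i, ∑' z', (if i ≤ i0 ∧ th < p i z' then p i z' * A i (z - z') else 0) := by
              rw [← ENNReal.tsum_add]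
              refine tsum_congr fun i => ?_
              rw [← ENNReal.tsum_add]
        _ ≤ _ := add_le_add h1 h2
    · have hq : q ^ (J + 1) + ε * ∑ j ∈ range (J + 1), q ^ j
          = ε + q * (q ^ J + ε * ∑ j ∈ range J, q ^ j) := by
        have hq' : ∑ j ∈ range (J + 1), q ^ j = 1 + q * ∑ j ∈ range J, q ^ j := by
          rw [Finset.sum_range_succ', Finset.mul_sum, add_comm]
          simp [pow_succ, mul_comm]
        rw [hq']
        ring
      rw [hq]
      have h2 : ∑' z, ∑' i, ∑' z', (if i ≤ i0 ∧ th < p i z' then p i z' * B i (z - z') else 0)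
          ≤ q * (q ^ J + ε * ∑ j ∈ range J, q ^ j) := by
        rw [ENNReal.tsum_comm]
        calc _ ≤ ∑' i, (∑' z', (if i ≤ i0 ∧ th < p i z' then p i z' else 0))
                * (q ^ J + ε * ∑ j ∈ range J, q ^ j) := by
              refine ENNReal.tsum_le_tsum fun i => ?_
              have e : ∀ z z', (if i ≤ i0 ∧ th < p i z' then p i z' * B i (z - z') else 0)
                  = (if i ≤ i0 ∧ th < p i z' then p i z' else 0) * B i (z - z') := by
                intro z z'; by_cases hi : i ≤ i0 ∧ th < p i z'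
                · rw [if_pos hi, if_pos hi]
                · rw [if_neg hi, if_neg hi, zero_mul]
              simp_rw [e]
              rw [tsum_conv]
              by_cases hi : i ≤ i0
              · gcongr
                exact (hAB i hi).2.2
              · simp [hi]
          _ = (∑' i, ∑' z', (if i ≤ i0 ∧ th < p i z' then p i z' else 0))
                * (q ^ J + ε * ∑ j ∈ range J, q ^ j) := ENNReal.tsum_mul_right
          _ ≤ _ := by gcongr
      rw [ENNReal.tsum_add]
      exact add_le_add (hFar h hs) h2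

end dens

/-! ### first passage lists -/

section fp

variable {B G : Type*} (ht : B → ℕ)

/-- first passage lists of depth `a` (read from the tie) -/
def FP (a : ℕ) : Set (List B) := {L | a ≤ HT ht L ∧ ∀ L', L' <+: L → L' ≠ L → HT ht L' < a}

lemma nil_mem_FP {a : ℕ} : ([] : List B) ∈ FP ht a ↔ a = 0 := by
  constructor
  · rintro ⟨h, -⟩
    rw [HT_nil] at h
    omega
  · rintro rfl
    refine ⟨Nat.zero_le _, fun L' h h' => absurd (List.prefix_nil.1 h) h'⟩

lemma cons_mem_FP {a : ℕ} {b : B} {L : List B} :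
    b :: L ∈ FP ht a ↔ 0 < a ∧ L ∈ FP ht (a - ht b) := by
  constructor
  · rintro ⟨h, h'⟩
    have h0 := h' [] List.nil_prefix (by simp)
    rw [HT_nil] at h0
    refine ⟨h0, ?_, fun L' hL hne => ?_⟩
    · rw [HT_cons] at h; omega
    · have := h' (b :: L') (List.cons_prefix_cons.2 ⟨rfl, hL⟩) (by simpa using hne)
      rw [HT_cons] at this
      omega
  · rintro ⟨h0, h, h'⟩
    refine ⟨by rw [HT_cons]; omega, fun L' hL hne => ?_⟩
    rcases List.prefix_cons_iff.1 hL with rfl | ⟨t, rfl, ht'⟩
    · rw [HT_nil]; exact h0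
    · have := h' t ht' (by rintro rfl; exact hne rfl)
      rw [HT_cons]
      omega

lemma mem_FP_zero {L : List B} : L ∈ FP ht 0 ↔ L = [] := by
  cases L with
  | nil => simp [nil_mem_FP]
  | cons b L => simp [cons_mem_FP]

/-- sum over the first passage lists -/
noncomputable def S (a : ℕ) (F : List B → ℝ≥0∞) : ℝ≥0∞ := ∑' L, if L ∈ FP ht a then F L else 0

lemma S_zero (F : List B → ℝ≥0∞) : S ht 0 F = F [] := by
  rw [S, tsum_eq_single []]
  · rw [if_pos ((mem_FP_zero ht).2 rfl)]
  · intro L hL
    rw [if_neg fun h => hL ((mem_FP_zero ht).1 h)]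

lemma S_pos {a : ℕ} (ha : 0 < a) (F : List B → ℝ≥0∞) :
    S ht a F = ∑' b, S ht (a - ht b) fun L => F (b :: L) := by
  rw [S, tsum_list, if_neg (by rw [nil_mem_FP]; omega), zero_add]
  refine tsum_congr fun b => ?_
  rw [S]
  refine tsum_congr fun L => ?_
  simp only [cons_mem_FP, ha, true_and]

lemma S_congr {a : ℕ} {F F' : List B → ℝ≥0∞} (h : ∀ L ∈ FP ht a, F L = F' L) :
    S ht a F = S ht a F' := by
  refine tsum_congr fun L => ?_
  by_cases hL : L ∈ FP ht a
  · rw [if_pos hL, if_pos hL, h L hL]
  · rw [if_neg hL, if_neg hL]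

lemma S_mono {a : ℕ} {F F' : List B → ℝ≥0∞} (h : ∀ L ∈ FP ht a, F L ≤ F' L) :
    S ht a F ≤ S ht a F' := by
  refine ENNReal.tsum_le_tsum fun L => ?_
  by_cases hL : L ∈ FP ht a
  · rw [if_pos hL, if_pos hL]; exact h L hL
  · rw [if_neg hL, if_neg hL]

lemma S_mul (a : ℕ) (c : ℝ≥0∞) (F : List B → ℝ≥0∞) : S ht a (fun L => c * F L) = c * S ht a F := by
  rw [S, S, ← ENNReal.tsum_mul_left]
  refine tsum_congr fun L => ?_
  split_ifs <;> simp

lemma S_add (a : ℕ) (F F' : List B → ℝ≥0∞) :
    S ht a (fun L => F L + F' L) = S ht a F + S ht a F' := by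
  rw [S, S, S, ← ENNReal.tsum_add]
  refine tsum_congr fun L => ?_
  split_ifs <;> simp

lemma S_tsum {ι : Type*} (a : ℕ) (F : ι → List B → ℝ≥0∞) :
    S ht a (fun L => ∑' i, F i L) = ∑' i, S ht a (F i) := by
  unfold S
  rw [ENNReal.tsum_comm]
  refine tsum_congr fun L => ?_
  split_ifs <;> simp

/-- **splitting at an earlier depth** -/
lemma S_split (h1 : ∀ b, 1 ≤ ht b) (s : ℕ) : ∀ a, s ≤ a → ∀ F : List B → ℝ≥0∞,
    S ht a F = S ht s fun P => S ht (a - HT ht P) fun L => F (P ++ L) := by
  induction s using Nat.strong_induction_on with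
  | _ s ih =>
    intro a ha F
    rcases Nat.eq_zero_or_pos s with rfl | hs
    · rw [S_zero]; simp [HT_nil]
    · rw [S_pos ht (lt_of_lt_of_le hs ha), S_pos ht hs]
      refine tsum_congr fun b => ?_
      rw [ih (s - ht b) (by have := h1 b; omega) (a - ht b) (by omega)]
      refine S_congr ht fun P _ => ?_
      rw [HT_cons, Nat.sub_sub]
      rfl

variable (Λ : B → ℝ≥0∞)

/-- total weight of the first passage lists -/
lemma S_one (h1 : ∀ b, 1 ≤ ht b) (hΛ : ∑' b, Λ b ≤ 1) (a : ℕ) : S ht a (LW Λ) ≤ 1 := by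
  induction a using Nat.strong_induction_on with
  | _ a ih =>
    rcases Nat.eq_zero_or_pos a with rfl | ha
    · rw [S_zero, LW_nil]
    · rw [S_pos ht ha]
      refine le_trans (ENNReal.tsum_le_tsum fun b => ?_) hΛ
      calc S ht (a - ht b) (fun L => LW Λ (b :: L))
          = Λ b * S ht (a - ht b) (LW Λ) := by
            rw [← S_mul]
            exact S_congr ht fun L _ => LW_cons Λ b L
        _ ≤ Λ b * 1 := by gcongr; exact ih _ (by have := h1 b; omega)
        _ = Λ b := mul_one _

variable [AddCommGroup G] (z : B → G)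

/-- displacement of a list -/
def Dp (L : List B) : G := (L.map z).sum

lemma Dp_append (L L' : List B) : Dp z (L ++ L') = Dp z L + Dp z L' := by simp [Dp]

/-- law of (overshoot, displacement) at the first passage of depth `a` -/
noncomputable def VL (a : ℕ) (v : ℤ × G) : ℝ≥0∞ :=
  S ht a fun A => if (HT ht A : ℤ) = a + v.1 ∧ Dp z A = v.2 then LW Λ A else 0

/-- attempt law -/
noncomputable def pA (s i : ℕ) (y : G) : ℝ≥0∞ :=
  S ht s fun P => if HT ht P = s + i ∧ Dp z P = y then LW Λ P else 0

lemma tsum_ite_pair (a : ℕ) (A : List B) (c : ℝ≥0∞) :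
    ∑' v : ℤ × G, (if (HT ht A : ℤ) = a + v.1 ∧ Dp z A = v.2 then c else 0) = c := by
  rw [tsum_eq_single ((HT ht A : ℤ) - a, Dp z A)]
  · rw [if_pos ⟨by ring, rfl⟩]
  · rintro ⟨r, y⟩ hv
    rw [if_neg]
    rintro ⟨h, h'⟩
    apply hv
    simp only at h h'
    rw [← h']
    ext
    · simp only; omega
    · rfl

lemma tsum_VL (a : ℕ) : ∑' v, VL ht Λ z a v = S ht a (LW Λ) := by
  unfold VL
  rw [← S_tsum]
  exact S_congr ht fun A _ => tsum_ite_pair ht z a A _

/-- **smooth density of the first passage law** -/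
theorem fp_split (h1 : ∀ b, 1 ≤ ht b) (hΛ : ∑' b, Λ b ≤ 1) (s i0 : ℕ) (th q ε : ℝ≥0∞)
    (hNG : ∑' i, ∑' y, (if i ≤ i0 ∧ th < pA ht Λ z s i y then pA ht Λ z s i y else 0) ≤ q)
    (hFar : S ht s (fun P => if s + i0 < HT ht P then LW Λ P else 0) ≤ ε) (J a : ℕ)
    (ha : J * (s + i0) ≤ a) :
    ∃ Ag Bb : ℤ × G → ℝ≥0∞, (∀ v, VL ht Λ z a v ≤ Ag v + Bb v) ∧
      (∀ v, Ag v ≤ (i0 + 1) * th * ∑ j ∈ range J, q ^ j) ∧
      ∑' v, Bb v ≤ q ^ J + ε * ∑ j ∈ range J, q ^ j := by
  set p : ℕ → ℤ × G → ℝ≥0∞ := fun i v => if v.1 = 0 then pA ht Λ z s i v.2 else 0 with hp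
  set Fr : ℕ → ℤ × G → ℝ≥0∞ := fun h v => S ht s fun P => if s + i0 < HT ht P then
    S ht (h - HT ht P) (fun A => if (HT ht (P ++ A) : ℤ) = h + v.1 ∧ Dp z (P ++ A) = v.2
      then LW Λ (P ++ A) else 0) else 0 with hFr
  refine dens_far (VL ht Λ z) p Fr s i0 th q ε ?_ ?_ ?_ ?_ J a ha
  · intro h hh v
    have e1 : VL ht Λ z h v = S ht s (fun P => (if s + i0 < HT ht P then 0 else
        S ht (h - HT ht P) (fun A => if (HT ht (P ++ A) : ℤ) = h + v.1 ∧ Dp z (P ++ A) = v.2
          then LW Λ (P ++ A) else 0)) + (if s + i0 < HT ht P then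
        S ht (h - HT ht P) (fun A => if (HT ht (P ++ A) : ℤ) = h + v.1 ∧ Dp z (P ++ A) = v.2
          then LW Λ (P ++ A) else 0) else 0)) := by
      rw [VL, S_split ht h1 s h (by omega)]
      refine S_congr ht fun P _ => ?_
      split_ifs <;> simp
    rw [e1, S_add]
    refine add_le_add ?_ le_rfl
    -- expand the right hand side
    have e2 : ∀ i v', (if i ≤ i0 then p i v' * VL ht Λ z (h - s - i) (v - v') else 0)
        = ∑' P, (if P ∈ FP ht s then (if i ≤ i0 ∧ v'.1 = 0 ∧ HT ht P = s + i ∧ Dp z P = v'.2 then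
            LW Λ P * VL ht Λ z (h - s - i) (v - v') else 0) else 0) := by
      intro i v'
      by_cases hi : i ≤ i0 ∧ v'.1 = 0
      · rw [if_pos hi.1]
        simp only [hp, hi.2, if_true]
        rw [pA, S, ← ENNReal.tsum_mul_right]
        refine tsum_congr fun P => ?_
        by_cases hP : P ∈ FP ht s
        · simp only [hP, if_true, hi.1, true_and]
          split_ifs <;> simp
        · simp [hP]
      · have : (if i ≤ i0 then p i v' * VL ht Λ z (h - s - i) (v - v') else 0) = 0 := by
          by_cases hi1 : i ≤ i0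
          · have hv : ¬ v'.1 = 0 := fun h => hi ⟨hi1, h⟩
            simp [hp, hv]
          · simp [hi1]
        rw [this]
        symm
        rw [ENNReal.tsum_eq_zero]
        intro P
        by_cases hP : P ∈ FP ht s
        · rw [if_pos hP, if_neg]
          rintro ⟨h1', h2', -⟩
          exact hi ⟨h1', h2'⟩
        · rw [if_neg hP]
    simp_rw [e2]
    have e3 : ∑' i, ∑' v', ∑' P, (if P ∈ FP ht s then (if i ≤ i0 ∧ v'.1 = 0 ∧ HT ht P = s + i ∧
          Dp z P = v'.2 then LW Λ P * VL ht Λ z (h - s - i) (v - v') else 0) else 0)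
        = ∑' P, ∑' i, ∑' v' : ℤ × G, (if P ∈ FP ht s then (if i ≤ i0 ∧ v'.1 = 0 ∧ HT ht P = s + i ∧
          Dp z P = v'.2 then LW Λ P * VL ht Λ z (h - s - i) (v - v') else 0) else 0) := by
      rw [ENNReal.tsum_comm]
      rw [← ENNReal.tsum_comm]
      calc _ = ∑' i, ∑' P, ∑' v' : ℤ × G, _ := tsum_congr fun i => ENNReal.tsum_comm
        _ = _ := ENNReal.tsum_comm
    rw [e3, S]
    refine ENNReal.tsum_le_tsum fun P => ?_
    by_cases hP : P ∈ FP ht s
    · rw [if_pos hP]
      by_cases hfar : s + i0 < HT ht P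
      · rw [if_pos hfar]; exact zero_le
      · rw [if_neg hfar]
        have hsP : s ≤ HT ht P := hP.1
        refine le_trans ?_ (ENNReal.le_tsum (HT ht P - s))
        refine le_trans ?_ (ENNReal.le_tsum ((0 : ℤ), Dp z P))
        rw [if_pos hP, if_pos ⟨by omega, rfl, by omega, rfl⟩]
        have hsub : h - s - (HT ht P - s) = h - HT ht P := by omega
        rw [hsub, VL, ← S_mul]
        refine S_mono ht fun A _ => ?_
        rw [HT_append, Dp_append, LW_append]
        by_cases hc : ((HT ht P + HT ht A : ℕ) : ℤ) = h + v.1 ∧ Dp z P + Dp z A = v.2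
        · rw [if_pos hc, if_pos]
          refine ⟨?_, ?_⟩
          · have h3 := hc.1
            push_cast at h3
            have h4 : ((h - HT ht P : ℕ) : ℤ) = (h : ℤ) - HT ht P := by
              rw [Nat.cast_sub (by omega)]
            rw [h4]
            simp only [Prod.fst_sub, sub_zero]
            linarith
          · simp only [Prod.snd_sub]
            rw [← hc.2]
            abel
        · rw [if_neg hc]; exact zero_le
    · rw [if_neg hP]; exact zero_le
  · intro h
    rw [tsum_VL]
    exact S_one ht Λ h1 hΛ h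
  · have e : ∀ i, ∑' v : ℤ × G, (if i ≤ i0 ∧ th < p i v then p i v else 0)
        = ∑' y, (if i ≤ i0 ∧ th < pA ht Λ z s i y then pA ht Λ z s i y else 0) := by
      intro i
      rw [ENNReal.tsum_prod', tsum_eq_single (0 : ℤ)]
      · refine tsum_congr fun y => ?_
        simp [hp]
      · intro r hr
        rw [ENNReal.tsum_eq_zero]
        intro y
        simp [hp, hr]
    simp_rw [e]
    exact hNG
  · intro h hh
    have e : ∑' v, Fr h v = S ht s (fun P => if s + i0 < HT ht P then
        S ht (h - HT ht P) (fun A => LW Λ (P ++ A)) else 0) := by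
      simp only [hFr]
      rw [← S_tsum]
      refine S_congr ht fun P _ => ?_
      by_cases hfar : s + i0 < HT ht P
      · simp only [hfar, if_true]
        rw [← S_tsum]
        exact S_congr ht fun A _ => tsum_ite_pair ht z h (P ++ A) _
      · simp [hfar]
    rw [e]
    refine le_trans (S_mono ht fun P _ => ?_) hFar
    by_cases hfar : s + i0 < HT ht P
    · rw [if_pos hfar, if_pos hfar]
      calc S ht (h - HT ht P) (fun A => LW Λ (P ++ A))
          = LW Λ P * S ht (h - HT ht P) (LW Λ) := by
            rw [← S_mul]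
            exact S_congr ht fun A _ => LW_append Λ P A
        _ ≤ LW Λ P * 1 := by gcongr; exact S_one ht Λ h1 hΛ _
        _ = LW Λ P := mul_one _
    · rw [if_neg hfar, if_neg hfar]

end fp

end Crest.Agent.R154.Tie602
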