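import Crest.Agent.R154.WordB_956
import Crest.Agent.R154.Dyad_431
import Crest.Agent.R154.Surg2_799

/-! Row 154, T0219, ROAD 801 (helper799): the two window lemmas in words.
Tools: decompositions of words, minimal words (Doob), conditional weights. -/

set_option autoImplicit false

open MeasureTheory ProbabilityTheory Crest.ProbabilityR.RandomEnvironment
open scoped ENNReal

namespace Crest.Agent.R154.Tie799

open Crest.Agent.R154.Flux566 (lw endp sitesL measurable_lw endp_eq_add)
open Crest.Agent.R154.Flux132 (lev opp)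
open Crest.Agent.R154.NB28 (IsUp IsDn)
open Crest.Agent.R154.Surg799 (aw aw_shift ann_mul)
open Crest.Agent.R154.WordB956 (PF FH Vis lw_append sitesL_append pf_FH pf_sum_le vis_le mem_sitesL)

variable {d : ℕ}

open Classical in
/-- decomposition, upper bound -/
lemma tsum_le_split (F : List (Step d) → ℝ≥0∞) (Ξ : Set (List (Step d)))
    (h : ∀ s, F s ≠ 0 → ∃ l1 l2, s = l1 ++ l2 ∧ l1 ∈ Ξ) :
    ∑' s, F s ≤ ∑' l1 : List (Step d), (if l1 ∈ Ξ then ∑' l2, F (l1 ++ l2) else 0) := by
  have hh : ∀ s, ∃ p : List (Step d) × List (Step d), s = p.1 ++ p.2 ∧ (F s ≠ 0 → p.1 ∈ Ξ) := by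
    intro s
    by_cases hs : F s = 0
    · exact ⟨([], s), rfl, fun h => absurd hs h⟩
    · obtain ⟨l1, l2, h1, h2⟩ := h s hs
      exact ⟨(l1, l2), h1, fun _ => h2⟩
  choose p hp1 hp2 using hh
  have hinj : Function.Injective p := by
    intro a b hab
    rw [hp1 a, hp1 b, hab]
  calc ∑' s, F s ≤ ∑' s, (fun q : List (Step d) × List (Step d) =>
          if q.1 ∈ Ξ then F (q.1 ++ q.2) else 0) (p s) := by
        refine ENNReal.tsum_le_tsum fun s => ?_
        by_cases hs : F s = 0
        · rw [hs]; exact zero_le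
        · simp only
          rw [if_pos (hp2 s hs), ← hp1 s]
    _ ≤ ∑' q : List (Step d) × List (Step d), (if q.1 ∈ Ξ then F (q.1 ++ q.2) else 0) :=
        ENNReal.tsum_comp_le_tsum_of_injective hinj _
    _ = _ := by
        rw [ENNReal.tsum_prod (f := fun a b : List (Step d) => if a ∈ Ξ then F (a ++ b) else 0)]
        refine tsum_congr fun l1 => ?_
        by_cases h : l1 ∈ Ξ <;> simp [h]

lemma pf_unique {S : Set (List (Step d))} (hS : PF S) {l1 l2 m1 m2 : List (Step d)}
    (h : l1 ++ l2 = m1 ++ m2) (h1 : l1 ∈ S) (h2 : m1 ∈ S) : l1 = m1 ∧ l2 = m2 := by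
  have hh : l1 = m1 := by
    rcases List.append_eq_append_iff.1 h with ⟨a, ha, _⟩ | ⟨a, ha, _⟩
    · have : a = [] := hS l1 h1 a (ha ▸ h2)
      rw [ha, this, List.append_nil]
    · have : a = [] := hS m1 h2 a (ha ▸ h1)
      rw [ha, this, List.append_nil]
  subst hh
  exact ⟨rfl, List.append_cancel_left h⟩

open Classical in
lemma tsum_split_le (F : List (Step d) → ℝ≥0∞) {Ξ : Set (List (Step d))} (hΞ : PF Ξ) :
    ∑' l1 : List (Step d), (if l1 ∈ Ξ then ∑' l2, F (l1 ++ l2) else 0) ≤ ∑' s, F s := by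
  calc ∑' l1 : List (Step d), (if l1 ∈ Ξ then ∑' l2, F (l1 ++ l2) else 0)
      = ∑' q : List (Step d) × List (Step d), (if q.1 ∈ Ξ then F (q.1 ++ q.2) else 0) := by
        rw [ENNReal.tsum_prod (f := fun a b : List (Step d) => if a ∈ Ξ then F (a ++ b) else 0)]
        refine tsum_congr fun l1 => ?_
        by_cases h : l1 ∈ Ξ <;> simp [h]
    _ = ∑' q : {p : List (Step d) × List (Step d) // p.1 ∈ Ξ}, F (q.1.1 ++ q.1.2) := by
        rw [← tsum_subtype_eq_of_support_subset
          (s := {p : List (Step d) × List (Step d) | p.1 ∈ Ξ})]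
        · refine tsum_congr fun q => ?_
          exact if_pos q.2
        · intro p hp
          by_contra h
          exact hp (if_neg h)
    _ ≤ _ := by
        refine ENNReal.tsum_comp_le_tsum_of_injective
          (f := fun q : {p : List (Step d) × List (Step d) // p.1 ∈ Ξ} => q.1.1 ++ q.1.2) ?_ F
        rintro ⟨⟨a, b⟩, ha⟩ ⟨⟨a', b'⟩, ha'⟩ h
        obtain ⟨h1, h2⟩ := pf_unique hΞ h ha ha'
        simp only at h1 h2
        subst h1; subst h2; rfl

/-- minimal words of a set -/
def mn (B : Set (List (Step d))) : Set (List (Step d)) :=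
  {l | l ∈ B ∧ ∀ l1 l2, l = l1 ++ l2 → l2 ≠ [] → l1 ∉ B}

lemma pf_mn (B : Set (List (Step d))) : PF (mn B) := by
  intro l hl l' hl'
  by_contra h
  exact hl'.2 l l' rfl h hl.1

lemma exists_mn {B : Set (List (Step d))} (n : ℕ) : ∀ l : List (Step d), l.length = n → l ∈ B →
    ∃ l1 l2, l = l1 ++ l2 ∧ l1 ∈ mn B := by
  induction n using Nat.strong_induction_on with
  | _ n ih =>
    intro l hn h
    by_cases hm : l ∈ mn B
    · exact ⟨l, [], by simp, hm⟩
    · have hm' : ¬ (∀ l1 l2, l = l1 ++ l2 → l2 ≠ [] → l1 ∉ B) := fun h' => hm ⟨h, h'⟩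
      push Not at hm'
      obtain ⟨l1, l2, h1, h2, h3⟩ := hm'
      have hlen : l1.length < n := by
        rw [← hn, h1, List.length_append]
        have := List.length_pos_iff.2 h2
        omega
      obtain ⟨m1, m2, h4, h5⟩ := ih l1.length hlen l1 rfl h3
      exact ⟨m1, m2 ++ l2, by rw [h1, h4, List.append_assoc], h5⟩

open Classical in
/-- quenched weight of a prefix-free family inside `B` is at most that of the minimal words -/
lemma doob_le (ω : Environment d) (x : Site d) {T B : Set (List (Step d))} (hT : PF T) :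
    ∑' s : List (Step d), (if s ∈ T ∧ s ∈ B then lw ω x s else 0)
      ≤ ∑' ξ : List (Step d), (if ξ ∈ mn B then lw ω x ξ else 0) := by
  refine (tsum_le_split _ (mn B) ?_).trans ?_
  · intro s hs
    have : s ∈ T ∧ s ∈ B := by by_contra h; exact hs (if_neg h)
    exact exists_mn _ s rfl this.2
  · refine ENNReal.tsum_le_tsum fun ξ => ?_
    by_cases h : ξ ∈ mn B
    · rw [if_pos h, if_pos h]
      calc ∑' l2, (if ξ ++ l2 ∈ T ∧ ξ ++ l2 ∈ B then lw ω x (ξ ++ l2) else 0)
          ≤ lw ω x ξ * ∑' l2, (if l2 ∈ {l | ξ ++ l ∈ T} then lw ω (endp x ξ) l2 else 0) := by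
            rw [← ENNReal.tsum_mul_left]
            refine ENNReal.tsum_le_tsum fun l2 => ?_
            by_cases h2 : ξ ++ l2 ∈ T
            · by_cases h3 : ξ ++ l2 ∈ B
              · simp [h2, h3, lw_append]
              · simp [h3]
            · simp [h2]
        _ ≤ lw ω x ξ * 1 := by
            gcongr
            refine pf_sum_le ω _ ?_
            intro l hl l' hl'
            refine hT _ hl l' ?_
            rw [List.append_assoc]
            exact hl'
        _ = _ := mul_one _
    · rw [if_neg h, if_neg h]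

/-! ### conditional weights -/

open Classical in
/-- weight of the continuations of `ξ` in `P`, with `f` at the endpoint -/
noncomputable def W (ν : Measure (Row d)) (P : Set (List (Step d))) (f : Site d → ℝ≥0∞)
    (x : Site d) (ξ : List (Step d)) : ℝ≥0∞ :=
  ∑' l : List (Step d), (if ξ ++ l ∈ P then aw ν (ξ ++ l) * f (endp x (ξ ++ l)) else 0)

lemma W_le (ν : Measure (Row d)) [IsProbabilityMeasure ν] {P : Set (List (Step d))} (hP : PF P)
    {f : Site d → ℝ≥0∞} {M : ℝ≥0∞} (hf : ∀ z, f z ≤ M) (x : Site d) (ξ : List (Step d)) :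
    W ν P f x ξ ≤ aw ν ξ * M := by
  classical
  have hS : PF {l | ξ ++ l ∈ P} := by
    intro l hl l' hl'
    refine hP _ hl l' ?_
    rw [List.append_assoc]
    exact hl'
  calc W ν P f x ξ ≤ ∑' l : List (Step d),
        (if l ∈ {l | ξ ++ l ∈ P} then WordB956.aw (iidEnvironmentLaw ν) 0 (ξ ++ l) else 0) * M := by
        unfold W
        refine ENNReal.tsum_le_tsum fun l => ?_
        by_cases h : ξ ++ l ∈ P
        · rw [if_pos h, if_pos (show l ∈ {l | ξ ++ l ∈ P} from h)]
          exact mul_le_mul' le_rfl (hf _)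
        · rw [if_neg h]; exact zero_le
    _ = (∑' l : List (Step d),
        (if l ∈ {l | ξ ++ l ∈ P} then WordB956.aw (iidEnvironmentLaw ν) 0 (ξ ++ l) else 0)) * M :=
        ENNReal.tsum_mul_right
    _ ≤ _ := mul_le_mul' (WordB956.pf_ext_le (iidEnvironmentLaw ν) 0 ξ hS) le_rfl

lemma aw_le_one (ν : Measure (Row d)) [IsProbabilityMeasure ν] (l : List (Step d)) :
    aw ν l ≤ 1 := by
  classical
  have h := WordB956.pf_aw_le (iidEnvironmentLaw ν) (0 : Site d) (S := {l}) (by
    intro a ha l' hl'
    rw [Set.mem_singleton_iff] at ha hl'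
    rw [ha] at hl'
    simpa using hl')
  refine le_trans ?_ h
  refine le_trans ?_ (ENNReal.le_tsum l)
  rw [if_pos (Set.mem_singleton l)]
  exact le_rfl

/-- conditional weight -/
noncomputable def wt (ν : Measure (Row d)) (P : Set (List (Step d))) (f : Site d → ℝ≥0∞)
    (x : Site d) (ξ : List (Step d)) : ℝ≥0∞ := W ν P f x ξ / aw ν ξ

lemma W_eq (ν : Measure (Row d)) [IsProbabilityMeasure ν] {P : Set (List (Step d))} (hP : PF P)
    {f : Site d → ℝ≥0∞} {M : ℝ≥0∞} (hf : ∀ z, f z ≤ M) (x : Site d)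
    (ξ : List (Step d)) : W ν P f x ξ = aw ν ξ * wt ν P f x ξ := by
  unfold wt
  by_cases h0 : aw ν ξ = 0
  · have := W_le ν hP hf x ξ
    rw [h0, zero_mul] at this
    rw [h0, zero_mul]
    exact le_antisymm this zero_le
  · rw [ENNReal.mul_div_cancel h0 (ne_top_of_le_ne_top ENNReal.one_ne_top (aw_le_one ν ξ))]

lemma wt_le (ν : Measure (Row d)) [IsProbabilityMeasure ν] {P : Set (List (Step d))} (hP : PF P)
    {f : Site d → ℝ≥0∞} {M : ℝ≥0∞} (hf : ∀ z, f z ≤ M) (x : Site d) (ξ : List (Step d)) :
    wt ν P f x ξ ≤ M := by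
  unfold wt
  refine ENNReal.div_le_of_le_mul ?_
  rw [mul_comm]
  exact W_le ν hP hf x ξ

lemma W_sum_le (ν : Measure (Row d)) [IsProbabilityMeasure ν] (P : Set (List (Step d)))
    (f : Site d → ℝ≥0∞) (x : Site d) {Ξ : Set (List (Step d))} (hΞ : PF Ξ) [DecidablePred (· ∈ Ξ)] :
    ∑' ξ : List (Step d), (if ξ ∈ Ξ then W ν P f x ξ else 0) ≤ W ν P f x [] := by
  classical
  have h := tsum_split_le (fun s => if s ∈ P then aw ν s * f (endp x s) else 0) hΞ
  refine le_trans (le_of_eq ?_) (h.trans (le_of_eq ?_))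
  · refine tsum_congr fun ξ => ?_
    by_cases h : ξ ∈ Ξ
    · rw [if_pos h, if_pos h]; rfl
    · rw [if_neg h, if_neg h]
  · unfold W
    simp only [List.nil_append]

lemma W_nil_sum (ν : Measure (Row d)) [IsProbabilityMeasure ν] {P : Set (List (Step d))} (hP : PF P)
    (f : Site d → ℝ≥0∞) (hf : ∑' x, f x ≤ 1) : ∑' x : Site d, W ν P f x [] ≤ 1 := by
  classical
  unfold W
  rw [ENNReal.tsum_comm]
  simp only [List.nil_append]
  calc ∑' l : List (Step d), ∑' x : Site d, (if l ∈ P then aw ν l * f (endp x l) else 0)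
      ≤ ∑' l : List (Step d), (if l ∈ P then WordB956.aw (iidEnvironmentLaw ν) 0 l else 0) := by
        refine ENNReal.tsum_le_tsum fun l => ?_
        by_cases h : l ∈ P
        · simp only [if_pos h]
          rw [ENNReal.tsum_mul_left]
          calc aw ν l * ∑' x : Site d, f (endp x l) ≤ aw ν l * 1 := by
                gcongr
                refine le_trans ?_ hf
                have hinj : Function.Injective fun x : Site d => endp x l := by
                  intro a b hab
                  simp only at hab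
                  rw [endp_eq_add, endp_eq_add l b] at hab
                  exact add_right_cancel hab
                exact ENNReal.tsum_comp_le_tsum_of_injective hinj f
            _ = _ := mul_one _
        · simp [if_neg h]
    _ ≤ 1 := WordB956.pf_aw_le (iidEnvironmentLaw ν) 0 hP

end Crest.Agent.R154.Tie799
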