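import Crest.Agent.R154.Perc_272

/-!
R154 (helper272): width of the wet set of oriented percolation in `1+1` dimensions: from `n` adjacent
sources, alive at level `j` but with at most `m` wet cells has probability
`≤ M (24 q)^(n+j) (8 q)^(-m)`.
-/

set_option autoImplicit false

open MeasureTheory
open scoped ENNReal NNReal

namespace Crest.Agent.R154.Perc272

/-! ### Numbers with an inequality -/

theorem gz_Z_le2 (q x y : ℝ≥0∞) (hxy : x * y = 1) (hu : q * x ≤ ((1 / 8 : ℝ≥0) : ℝ≥0∞))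
    (hy : y ≤ ((1 / 6 : ℝ≥0) : ℝ≥0∞)) (j : ℕ) :
    gz (Z q j) x ≤ ((5 / 4 : ℝ≥0) : ℝ≥0∞) ∧
      gY q x (Z q j) ≤ ((3 / 2 : ℝ≥0) : ℝ≥0∞) := by
  have key : ∀ z : ℕ → ℝ≥0∞, gz z x ≤ ((5 / 4 : ℝ≥0) : ℝ≥0∞) →
      gY q x z ≤ ((3 / 2 : ℝ≥0) : ℝ≥0∞) := by
    intro z hz
    refine gY_le q x _ z ?_
    refine (add_le_add hz (mul_le_mul' hz (mul_le_mul' hu le_rfl))).trans ?_
    rw [← ENNReal.coe_mul, ← ENNReal.coe_mul, ← ENNReal.coe_add, ENNReal.coe_le_coe,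
      ← NNReal.coe_le_coe]
    push_cast
    norm_num
  induction j with
  | zero =>
    have h0 : gz (Z q 0) x ≤ ((5 / 4 : ℝ≥0) : ℝ≥0∞) := by
      have : ∀ d, zb (Z q 0) d * x ^ d = if d = 0 then 1 else 0 := by
        intro d
        unfold zb
        by_cases hd : d = 0
        · simp [hd]
        · simp [hd, Z]
      unfold gz
      rw [tsum_congr this, tsum_ite_eq]
      have e : (1 : ℝ≥0∞) = ((1 : ℝ≥0) : ℝ≥0∞) := by simp
      rw [e, ENNReal.coe_le_coe, ← NNReal.coe_le_coe]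
      push_cast
      norm_num
    exact ⟨h0, key _ h0⟩
  | succ j ih =>
    have h1 : gz (Z q (j + 1)) x ≤ ((5 / 4 : ℝ≥0) : ℝ≥0∞) := by
      refine (gz_step q x y hxy (Z q j)).trans ?_
      refine (add_le_add le_rfl (mul_le_mul' hy ih.2)).trans ?_
      have e : (1 : ℝ≥0∞) = ((1 : ℝ≥0) : ℝ≥0∞) := by simp
      rw [e, ← ENNReal.coe_mul, ← ENNReal.coe_add, ENNReal.coe_le_coe, ← NNReal.coe_le_coe]
      push_cast
      norm_num
    exact ⟨h1, key _ h1⟩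

theorem Psi_le2 (q x y : ℝ≥0∞) (hxy : x * y = 1) (hu : q * x ≤ ((1 / 8 : ℝ≥0) : ℝ≥0∞))
    (hy : y ≤ ((1 / 6 : ℝ≥0) : ℝ≥0∞)) (n j : ℕ) :
    Psi q y n j ≤ y ^ n * (((3 / 2 : ℝ≥0) : ℝ≥0∞) * y) ^ j := by
  induction j with
  | zero => simpa using Psi_zero q y n
  | succ j ih =>
    refine (Psi_succ q x y hxy n j).trans ?_
    have hR : ∑' s, R q (Z q j) s * x ^ s ≤ ((19 / 16 : ℝ≥0) : ℝ≥0∞) := by
      refine (gR_le q x (Z q j)).trans ?_
      refine (add_le_add le_rfl (mul_le_mul' hu (gz_Z_le2 q x y hxy hu hy j).2)).trans ?_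
      have e : (1 : ℝ≥0∞) = ((1 : ℝ≥0) : ℝ≥0∞) := by simp
      rw [e, ← ENNReal.coe_mul, ← ENNReal.coe_add, ENNReal.coe_le_coe, ← NNReal.coe_le_coe]
      push_cast
      norm_num
    have hR2 : (∑' s, R q (Z q j) s * x ^ s) ^ 2 ≤ ((3 / 2 : ℝ≥0) : ℝ≥0∞) := by
      refine (pow_le_pow_left' hR 2).trans ?_
      rw [← ENNReal.coe_pow, ENNReal.coe_le_coe, ← NNReal.coe_le_coe]
      push_cast
      norm_num
    refine (mul_le_mul' (mul_le_mul' le_rfl hR2) ih).trans (le_of_eq ?_)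
    rw [pow_succ]
    ring

/-- every maximal dry run of length `l` costs `(8 q)^l` (form: `y = x⁻¹`, `q x ≤ 1/8`). -/
theorem Z_le (q x y : ℝ≥0∞) (hxy : x * y = 1) (hu : q * x ≤ ((1 / 8 : ℝ≥0) : ℝ≥0∞))
    (hy : y ≤ ((1 / 6 : ℝ≥0) : ℝ≥0∞)) (j l : ℕ) (hl : 0 < l) : Z q j l ≤ y ^ l := by
  have h := (gz_Z_le2 q x y hxy hu hy j).1
  have h2 : zb (Z q j) 0 * x ^ 0 + zb (Z q j) l * x ^ l ≤ gz (Z q j) x := by
    unfold gz
    have := ENNReal.sum_le_tsum (f := fun d => zb (Z q j) d * x ^ d) ({0, l} : Finset ℕ)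
    rwa [Finset.sum_pair (by omega)] at this
  have e0 : zb (Z q j) 0 = 1 := by simp [zb]
  have el : zb (Z q j) l = Z q j l := by simp [zb, Nat.pos_iff_ne_zero.1 hl]
  rw [e0, el, pow_zero, one_mul] at h2
  have h3 : 1 + Z q j l * x ^ l ≤ 1 + 1 := by
    refine (h2.trans h).trans ?_
    have e : (1 : ℝ≥0∞) = ((1 : ℝ≥0) : ℝ≥0∞) := by simp
    rw [e, ← ENNReal.coe_add, ENNReal.coe_le_coe, ← NNReal.coe_le_coe]
    push_cast
    norm_num
  have h4 : Z q j l * x ^ l ≤ 1 := (ENNReal.add_le_add_iff_left ENNReal.one_ne_top).1 h3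
  calc Z q j l = (Z q j l * x ^ l) * y ^ l := by
        rw [mul_assoc, ← mul_pow, hxy, one_pow, mul_one]
    _ ≤ 1 * y ^ l := mul_le_mul' h4 le_rfl
    _ = y ^ l := one_mul _

theorem exists_run {S : Set ℤ} {a b y : ℤ} (h : Hull S a b) (hy : y ∉ S) (h1 : a ≤ y)
    (h2 : y ≤ b) : ∃ (x : ℤ) (l : ℕ), Run S x l ∧ x ≤ y ∧ y < x + l := by
  obtain ⟨ha, hb, hab⟩ := h
  have hay : a < y := lt_of_le_of_ne h1 fun h => hy (h ▸ ha)
  have hyb : y < b := lt_of_le_of_ne h2 fun h => hy (h ▸ hb)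
  obtain ⟨g, ⟨hg1, hg2⟩, hg3⟩ := Int.exists_greatest_of_bdd (P := fun z => z ∈ S ∧ z < y)
    ⟨y, fun z hz => hz.2.le⟩ ⟨a, ha, hay⟩
  obtain ⟨k, ⟨hk1, hk2⟩, hk3⟩ := Int.exists_least_of_bdd (P := fun z => z ∈ S ∧ y < z)
    ⟨y, fun z hz => hz.2.le⟩ ⟨b, hb, hyb⟩
  refine ⟨g + 1, (k - g - 1).toNat, ⟨by omega, ?_, ?_, ?_⟩, by omega, by omega⟩
  · simpa using hg1
  · have : g + 1 + ((k - g - 1).toNat : ℤ) = k := by omega
    rw [this]; exact hk1
  · intro z hz1 hz2 hz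
    rcases lt_trichotomy z y with h | h | h
    · have := hg3 z ⟨hz, h⟩
      omega
    · exact hy (h ▸ hz)
    · have := hk3 z ⟨hz, h⟩
      omega

section width

variable {Ω : Type*} [MeasurableSpace Ω]

theorem hull_width (μ : Measure Ω) (A : Set Ω) (M q x y : ℝ≥0∞) (hxy : x * y = 1)
    (hu : q * x ≤ ((1 / 8 : ℝ≥0) : ℝ≥0∞)) (hy : y ≤ ((1 / 6 : ℝ≥0) : ℝ≥0∞))
    (bad : ℕ → ℤ → Ω → Prop) (n : ℕ)
    (hK : ∀ K : Finset (ℕ × ℤ), μ (A ∩ {ω | ∀ p ∈ K, bad p.1 p.2 ω}) ≤ M * q ^ K.card)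
    (j m : ℕ) (a : ℤ) (w : ℕ) :
    μ ((A ∩ {ω | Hull (W bad n j ω) a (a + w)}) ∩ {ω | (W bad n j ω).ncard ≤ m}) ≤
      (M * E q n j a w) * (2 ^ (w + 1) * y ^ (w + 1 - m)) := by
  classical
  have hy1 : y ≤ 1 := by
    refine hy.trans ?_
    have e : (1 : ℝ≥0∞) = ((1 : ℝ≥0) : ℝ≥0∞) := by simp
    rw [e, ENNReal.coe_le_coe, ← NNReal.coe_le_coe]
    push_cast
    norm_num
  set J : Finset ℤ := Finset.Icc a (a + w) with hJ
  have hJc : J.card = w + 1 := by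
    rw [hJ, Int.card_Icc]
    omega
  set Dy : Finset ℤ → Set Ω := fun D => {ω | ∀ z, z ∈ D ↔ (z ∈ J ∧ z ∉ W bad n j ω)} with hDy
  set FD : Finset (Finset ℤ) := J.powerset.filter fun D => w + 1 - m ≤ D.card with hFD
  have hcov : (A ∩ {ω | Hull (W bad n j ω) a (a + w)}) ∩ {ω | (W bad n j ω).ncard ≤ m} ⊆
      ⋃ D ∈ FD, (A ∩ {ω | Hull (W bad n j ω) a (a + w)}) ∩ Dy D := by
    rintro ω ⟨hAH, hm⟩
    have hH : Hull (W bad n j ω) a (a + w) := hAH.2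
    set D : Finset ℤ := J.filter fun z => z ∉ W bad n j ω with hD
    simp only [Set.mem_iUnion]
    refine ⟨D, ?_, hAH, ?_⟩
    · rw [hFD, Finset.mem_filter, Finset.mem_powerset]
      refine ⟨Finset.filter_subset _ _, ?_⟩
      have h1 : (J.filter fun z => z ∈ W bad n j ω).card + D.card = J.card := by
        rw [hD]; exact Finset.card_filter_add_card_filter_not _
      have h2 : (W bad n j ω).ncard = (J.filter fun z => z ∈ W bad n j ω).card := by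
        rw [← Set.ncard_coe_finset]
        congr 1
        ext z
        simp only [Finset.coe_filter, Set.mem_ofPred_eq, hJ, Finset.mem_Icc]
        exact ⟨fun hz => ⟨hH.2.2 z hz, hz⟩, fun hz => hz.2⟩
      simp only [Set.mem_ofPred_eq] at hm
      omega
    · intro z
      rw [hD, Finset.mem_filter]
  have hone : ∀ D ∈ FD, μ ((A ∩ {ω | Hull (W bad n j ω) a (a + w)}) ∩ Dy D) ≤
      (M * E q n j a w) * y ^ (w + 1 - m) := by
    intro D hD
    rw [hFD, Finset.mem_filter, Finset.mem_powerset] at hD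
    rcases Set.eq_empty_or_nonempty
      ((A ∩ {ω | Hull (W bad n j ω) a (a + w)}) ∩ Dy D) with h | h
    · rw [h]; simp
    obtain ⟨ω₀, ⟨-, hH₀⟩, hD₀⟩ := h
    simp only [Set.mem_ofPred_eq] at hH₀
    have hrun : ∀ z : ℤ, ∃ p : ℤ × ℕ, z ∈ D → Run (W bad n j ω₀) p.1 p.2 ∧ p.1 ≤ z ∧
        z < p.1 + p.2 := by
      intro z
      by_cases hz : z ∈ D
      · have h1 := (hD₀ z).1 hz
        rw [hJ, Finset.mem_Icc] at h1
        obtain ⟨x', l', h2⟩ := exists_run hH₀ h1.2 h1.1.1 h1.1.2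
        exact ⟨(x', l'), fun _ => h2⟩
      · exact ⟨(0, 0), fun h => absurd h hz⟩
    choose f hf using hrun
    set I : Finset (ℤ × ℕ) := D.image f with hI
    have hIrun : ∀ p ∈ I, Run (W bad n j ω₀) p.1 p.2 := by
      intro p hp
      rw [hI, Finset.mem_image] at hp
      obtain ⟨z, hz, rfl⟩ := hp
      exact (hf z hz).1
    have hsum : D.card ≤ ∑ p ∈ I, p.2 := by
      have hsub : D ⊆ I.biUnion fun p => Finset.Ico p.1 (p.1 + p.2) := by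
        intro z hz
        rw [Finset.mem_biUnion]
        refine ⟨f z, by rw [hI]; exact Finset.mem_image_of_mem _ hz, ?_⟩
        rw [Finset.mem_Ico]
        exact (hf z hz).2
      refine (Finset.card_le_card hsub).trans (Finset.card_biUnion_le.trans (le_of_eq ?_))
      refine Finset.sum_congr rfl fun p _ => ?_
      rw [Int.card_Ico]
      omega
    have hsub : (A ∩ {ω | Hull (W bad n j ω) a (a + w)}) ∩ Dy D ⊆
        (A ∩ {ω | Hull (W bad n j ω) a (a + w)}) ∩ Ev (W bad n j) bad j I ∅ [] := by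
      rintro ω ⟨hAH, hDω⟩
      refine ⟨hAH, ?_, by simp, by simp⟩
      have hW : W bad n j ω = W bad n j ω₀ := by
        have hH : Hull (W bad n j ω) a (a + w) := hAH.2
        ext z
        constructor
        · intro hz
          by_contra hz'
          have h1 : z ∈ J := by rw [hJ, Finset.mem_Icc]; exact hH.2.2 z hz
          exact ((hDω z).1 ((hD₀ z).2 ⟨h1, hz'⟩)).2 hz
        · intro hz
          by_contra hz'
          have h1 : z ∈ J := by rw [hJ, Finset.mem_Icc]; exact hH₀.2.2 z hz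
          exact ((hD₀ z).1 ((hDω z).2 ⟨h1, hz'⟩)).2 hz
      rw [hW]
      exact hIrun
    refine (measure_mono hsub).trans ((claim μ A M q bad n hK j a w I ∅ (by simp)).trans ?_)
    rw [Finset.card_empty, pow_zero, mul_one]
    refine mul_le_mul' le_rfl ?_
    calc ∏ p ∈ I, Z q j p.2 ≤ ∏ p ∈ I, y ^ p.2 :=
          Finset.prod_le_prod' fun p hp => Z_le q x y hxy hu hy j p.2 (hIrun p hp).1
      _ = y ^ (∑ p ∈ I, p.2) := (Finset.prod_pow_eq_pow_sum _ _ _)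
      _ ≤ y ^ (w + 1 - m) := pow_le_pow_right_of_le_one' hy1 (hD.2.trans hsum)
  refine (measure_mono hcov).trans ((measure_biUnion_finset_le _ _).trans ?_)
  refine (Finset.sum_le_sum hone).trans ?_
  rw [Finset.sum_const, nsmul_eq_mul]
  have hcard : (FD.card : ℝ≥0∞) ≤ 2 ^ (w + 1) := by
    have h1 : FD.card ≤ 2 ^ (w + 1) := by
      rw [← hJc, ← Finset.card_powerset]
      exact Finset.card_filter_le _ _
    exact_mod_cast h1
  calc (FD.card : ℝ≥0∞) * ((M * E q n j a w) * y ^ (w + 1 - m))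
      ≤ 2 ^ (w + 1) * ((M * E q n j a w) * y ^ (w + 1 - m)) := mul_le_mul' hcard le_rfl
    _ = _ := by ring

/-- **Width.** `n ≥ 1` adjacent sources: alive at level `j` with at most `m` wet cells. -/
theorem width_le (μ : Measure Ω) (A : Set Ω) (M q : ℝ≥0∞)
    (bad : ℕ → ℤ → Ω → Prop) (hq0 : q ≠ 0) (hq : q ≤ ((1 / 96 : ℝ≥0) : ℝ≥0∞)) (n j m : ℕ)
    (hK : ∀ K : Finset (ℕ × ℤ), μ (A ∩ {ω | ∀ p ∈ K, bad p.1 p.2 ω}) ≤ M * q ^ K.card) :
    μ (A ∩ {ω | (W bad n j ω).Nonempty ∧ (W bad n j ω).ncard ≤ m}) ≤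
      M * ((8 * q)⁻¹ ^ m * (24 * q) ^ (n + j)) := by
  classical
  have hqt : q ≠ ⊤ := ne_top_of_le_ne_top ENNReal.coe_ne_top hq
  have e8 : (8 : ℝ≥0∞) = ((8 : ℝ≥0) : ℝ≥0∞) := by simp
  have e16 : (16 : ℝ≥0∞) = ((16 : ℝ≥0) : ℝ≥0∞) := by simp
  have e24 : (24 : ℝ≥0∞) = ((24 : ℝ≥0) : ℝ≥0∞) := by simp
  set y : ℝ≥0∞ := 8 * q with hydef
  set x : ℝ≥0∞ := y⁻¹ with hxdef
  have hy0 : y ≠ 0 := mul_ne_zero (by norm_num) hq0
  have hyt : y ≠ ⊤ := ENNReal.mul_ne_top (by norm_num) hqt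
  have hxy : x * y = 1 := ENNReal.inv_mul_cancel hy0 hyt
  set y2 : ℝ≥0∞ := 16 * q with hy2def
  set x2 : ℝ≥0∞ := y2⁻¹ with hx2def
  have hy20 : y2 ≠ 0 := mul_ne_zero (by norm_num) hq0
  have hy2t : y2 ≠ ⊤ := ENNReal.mul_ne_top (by norm_num) hqt
  have hxy2 : x2 * y2 = 1 := ENNReal.inv_mul_cancel hy20 hy2t
  have hu : q * x ≤ ((1 / 8 : ℝ≥0) : ℝ≥0∞) := by
    have e : ((1 / 8 : ℝ≥0) : ℝ≥0∞) * 8 = 1 := by
      rw [e8, ← ENNReal.coe_mul]
      norm_num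
    refine le_of_eq ?_
    calc q * x = (((1 / 8 : ℝ≥0) : ℝ≥0∞) * 8) * (q * x) := by rw [e, one_mul]
      _ = ((1 / 8 : ℝ≥0) : ℝ≥0∞) * (x * (8 * q)) := by ring
      _ = _ := by rw [← hydef, hxy, mul_one]
  have hu2 : q * x2 ≤ ((1 / 8 : ℝ≥0) : ℝ≥0∞) := by
    have e : ((1 / 16 : ℝ≥0) : ℝ≥0∞) * 16 = 1 := by
      rw [e16, ← ENNReal.coe_mul]
      norm_num
    have e1 : q * x2 = ((1 / 16 : ℝ≥0) : ℝ≥0∞) := by
      calc q * x2 = (((1 / 16 : ℝ≥0) : ℝ≥0∞) * 16) * (q * x2) := by rw [e, one_mul]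
        _ = ((1 / 16 : ℝ≥0) : ℝ≥0∞) * (x2 * (16 * q)) := by ring
        _ = _ := by rw [← hy2def, hxy2, mul_one]
    rw [e1, ENNReal.coe_le_coe, ← NNReal.coe_le_coe]
    push_cast
    norm_num
  have hy : y ≤ ((1 / 6 : ℝ≥0) : ℝ≥0∞) := by
    rw [hydef, e8]
    refine (mul_le_mul' le_rfl hq).trans ?_
    rw [← ENNReal.coe_mul, ENNReal.coe_le_coe, ← NNReal.coe_le_coe]
    push_cast
    norm_num
  have hy2 : y2 ≤ ((1 / 6 : ℝ≥0) : ℝ≥0∞) := by
    rw [hy2def, e16]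
    refine (mul_le_mul' le_rfl hq).trans ?_
    rw [← ENNReal.coe_mul, ENNReal.coe_le_coe, ← NNReal.coe_le_coe]
    push_cast
    norm_num
  have hy1 : y ≤ 1 := by
    refine hy.trans ?_
    have e : (1 : ℝ≥0∞) = ((1 : ℝ≥0) : ℝ≥0∞) := by simp
    rw [e, ENNReal.coe_le_coe, ← NNReal.coe_le_coe]
    push_cast
    norm_num
  have hx1 : 1 ≤ x := ENNReal.one_le_inv.2 hy1
  have h24 : ((3 / 2 : ℝ≥0) : ℝ≥0∞) * y2 = 24 * q := by
    rw [hy2def, ← mul_assoc, e16, e24, ← ENNReal.coe_mul]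
    congr 2
    rw [← NNReal.coe_inj]; push_cast; norm_num
  have h16 : y2 ≤ 24 * q := by
    rw [hy2def, e16, e24]
    refine mul_le_mul' ?_ le_rfl
    rw [ENNReal.coe_le_coe, ← NNReal.coe_le_coe]
    push_cast
    norm_num
  have hcov : A ∩ {ω | (W bad n j ω).Nonempty ∧ (W bad n j ω).ncard ≤ m} ⊆
      ⋃ p : ℤ × ℕ, (A ∩ {ω | Hull (W bad n j ω) p.1 (p.1 + p.2)}) ∩
        {ω | (W bad n j ω).ncard ≤ m} := by
    rintro ω ⟨hA, hne, hm⟩
    obtain ⟨a0, b0, hH0⟩ := exists_hull (W bad n j ω) 0 (n + j) hne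
      (fun z hz => wet_sub bad n j ω z hz)
    have hab := (hH0.2.2 _ hH0.1).2
    obtain ⟨w, hw⟩ : ∃ w : ℕ, a0 + w = b0 := ⟨(b0 - a0).toNat, by omega⟩
    rw [Set.mem_iUnion]
    refine ⟨(a0, w), ⟨hA, ?_⟩, hm⟩
    simp only [Set.mem_ofPred_eq]; rw [hw]; exact hH0
  have hpw : ∀ w : ℕ, (2 : ℝ≥0∞) ^ (w + 1) * y ^ (w + 1 - m) ≤ y2 ^ (w + 1) * x ^ m := by
    intro w
    have e2 : y2 ^ (w + 1) = 2 ^ (w + 1) * y ^ (w + 1) := by
      rw [← mul_pow, hy2def, hydef]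
      congr 1
      ring
    rw [e2, mul_assoc]
    refine mul_le_mul' le_rfl ?_
    rcases le_total m (w + 1) with h | h
    · obtain ⟨r, hr⟩ := Nat.exists_eq_add_of_le h
      have e3 : w + 1 - m = r := by omega
      rw [e3, hr, pow_add]
      calc y ^ r = (x * y) ^ m * y ^ r := by rw [hxy, one_pow, one_mul]
        _ ≤ y ^ m * y ^ r * x ^ m := le_of_eq (by rw [mul_pow]; ring)
    · obtain ⟨r, hr⟩ := Nat.exists_eq_add_of_le h
      have e3 : w + 1 - m = 0 := by omega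
      rw [e3, hr, pow_zero, pow_add x (w + 1) r]
      calc (1 : ℝ≥0∞) ≤ x ^ r := one_le_pow_of_one_le' hx1 r
        _ = (x * y) ^ (w + 1) * x ^ r := by rw [hxy, one_pow, one_mul]
        _ = y ^ (w + 1) * (x ^ (w + 1) * x ^ r) := by rw [mul_pow]; ring
  refine (measure_mono hcov).trans ((measure_iUnion_le _).trans ?_)
  have hstep : ∀ p : ℤ × ℕ, μ ((A ∩ {ω | Hull (W bad n j ω) p.1 (p.1 + p.2)}) ∩
      {ω | (W bad n j ω).ncard ≤ m}) ≤ (M * x ^ m) * (E q n j p.1 p.2 * y2 ^ (p.2 + 1)) := by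
    rintro ⟨a, w⟩
    refine (hull_width μ A M q x y hxy hu hy bad n hK j m a w).trans ?_
    refine (mul_le_mul' le_rfl (hpw w)).trans (le_of_eq ?_)
    ring
  refine (ENNReal.tsum_le_tsum hstep).trans ?_
  rw [ENNReal.tsum_mul_left, mul_assoc M]
  refine mul_le_mul' le_rfl (mul_le_mul' le_rfl ?_)
  refine (Psi_le2 q x2 y2 hxy2 hu2 hy2 n j).trans ?_
  rw [h24, pow_add]
  exact mul_le_mul' (pow_le_pow_left' h16 n) le_rfl

/-- The field needs to be controlled only on the levels `< j` and the cells `[0, n + level)`. -/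
theorem width_le' (μ : Measure Ω) (A : Set Ω) (M q : ℝ≥0∞)
    (bad : ℕ → ℤ → Ω → Prop) (hq0 : q ≠ 0) (hq : q ≤ ((1 / 96 : ℝ≥0) : ℝ≥0∞)) (n j m : ℕ)
    (hK : ∀ K : Finset (ℕ × ℤ), (∀ p ∈ K, p.1 < j ∧ 0 ≤ p.2 ∧ p.2 < n + p.1) →
      μ (A ∩ {ω | ∀ p ∈ K, bad p.1 p.2 ω}) ≤ M * q ^ K.card) :
    μ (A ∩ {ω | (W bad n j ω).Nonempty ∧ (W bad n j ω).ncard ≤ m}) ≤
      M * ((8 * q)⁻¹ ^ m * (24 * q) ^ (n + j)) := by
  classical
  set bad' : ℕ → ℤ → Ω → Prop := fun i l ω => bad i l ω ∧ (i < j ∧ 0 ≤ l ∧ l < n + i) with hb'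
  have hW : ∀ i ≤ j, ∀ ω, W bad' n i ω = W bad n i ω := by
    intro i
    induction i with
    | zero => intro _ ω; rfl
    | succ i ih =>
      intro hi ω
      have h1 := ih (by omega) ω
      ext x
      have hs : ∀ y ∈ W bad n i ω, (bad' i y ω ↔ bad i y ω) := by
        intro y hy
        have := wet_sub bad n i ω y hy
        simp only [hb']
        constructor
        · exact fun h => h.1
        · exact fun h => ⟨h, by omega, by omega, by omega⟩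
      change ((x ∈ W bad' n i ω ∧ ¬ bad' i x ω) ∨ (x - 1 ∈ W bad' n i ω ∧ ¬ bad' i (x - 1) ω)) ↔
        ((x ∈ W bad n i ω ∧ ¬ bad i x ω) ∨ (x - 1 ∈ W bad n i ω ∧ ¬ bad i (x - 1) ω))
      rw [h1]
      constructor
      · rintro (⟨h, h'⟩ | ⟨h, h'⟩)
        · exact Or.inl ⟨h, fun hc => h' ((hs _ h).2 hc)⟩
        · exact Or.inr ⟨h, fun hc => h' ((hs _ h).2 hc)⟩
      · rintro (⟨h, h'⟩ | ⟨h, h'⟩)
        · exact Or.inl ⟨h, fun hc => h' ((hs _ h).1 hc)⟩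
        · exact Or.inr ⟨h, fun hc => h' ((hs _ h).1 hc)⟩
  have h := width_le μ A M q bad' hq0 hq n j m (by
    intro K
    by_cases hc : ∀ p ∈ K, p.1 < j ∧ 0 ≤ p.2 ∧ p.2 < n + p.1
    · refine (measure_mono ?_).trans (hK K hc)
      rintro ω ⟨hA, h⟩
      exact ⟨hA, fun p hp => (h p hp).1⟩
    · have : A ∩ {ω | ∀ p ∈ K, bad' p.1 p.2 ω} = ∅ := by
        rw [Set.eq_empty_iff_forall_notMem]
        rintro ω ⟨-, h⟩
        exact hc fun p hp => (h p hp).2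
      rw [this]
      simp)
  have e : {ω | (W bad' n j ω).Nonempty ∧ (W bad' n j ω).ncard ≤ m} =
      {ω | (W bad n j ω).Nonempty ∧ (W bad n j ω).ncard ≤ m} := by
    ext ω
    simp only [Set.mem_ofPred_eq]
    rw [hW j le_rfl ω]
  rw [e] at h
  exact h

end width

end Crest.Agent.R154.Perc272
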