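import Crest.Agent.R154.Planes_272
import Crest.Agent.R154.Width_272

/-!
Row 154, block B8 (helper272): abstract tile systems whose cells form ANY type `X` (strips `ℤ`,
boxes `ι × ℤ`, ...), started from any `F k`-measurable configuration of wet cells with states.
Outputs: all clusters die / one cluster is narrow / many clusters die, conditionally on `B ∈ F k`,
and the chain of good tiles to every wet cell.
-/

set_option autoImplicit false
set_option linter.unusedSectionVars false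
set_option linter.unusedVariables false

namespace Crest.Agent.R154.Gen272

open MeasureTheory Crest.Agent.R154.Perc272
open scoped ENNReal NNReal

/-- Abstract tile system with cells in `X`; the right neighbour of the cell `x` is `sh x`. -/
structure TSys {Ω : Type*} [m0 : MeasurableSpace Ω] (P : Measure Ω) (F : Filtration ℕ m0)
    (X Λ : Type*) [MeasurableSpace Λ] (q : ℝ≥0∞) where
  sh : Equiv.Perm X
  cls : ℕ → X → Set Λ
  dflt : ℕ → X → Λ
  dflt_mem : ∀ k x, dflt k x ∈ cls k x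
  good : ℕ → X → Λ → Set Ω
  outL : ℕ → X → Λ → Ω → Λ
  outR : ℕ → X → Λ → Ω → Λ
  outL_mem : ∀ k x lam ω, lam ∈ cls k x → ω ∈ good k x lam → outL k x lam ω ∈ cls (k + 1) x
  outR_mem : ∀ k x lam ω, lam ∈ cls k x → ω ∈ good k x lam → outR k x lam ω ∈ cls (k + 1) (sh x)
  good_meas : ∀ k x (f : Ω → Λ), Measurable[F k] f → MeasurableSet[F (k + 1)] {ω | ω ∈ good k x (f ω)}
  outL_meas : ∀ k x (f : Ω → Λ), Measurable[F k] f → Measurable[F (k + 1)] fun ω => outL k x (f ω) ω
  outR_meas : ∀ k x (f : Ω → Λ), Measurable[F k] f → Measurable[F (k + 1)] fun ω => outR k x (f ω) ω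
  kset : ∀ k (K : Finset X) (f : X → Ω → Λ), (∀ x, Measurable[F k] (f x)) →
    (∀ x ω, f x ω ∈ cls k x) → ∀ B, MeasurableSet[F k] B →
    P (B ∩ {ω | ∀ x ∈ K, ω ∉ good k x (f x ω)}) ≤ q ^ K.card * P B

/-- initial configuration at layer `k`: wet cells and their states -/
structure Conf {Ω : Type*} [m0 : MeasurableSpace Ω] {P : Measure Ω} {F : Filtration ℕ m0}
    {X Λ : Type*} [MeasurableSpace Λ] {q : ℝ≥0∞} (T : TSys P F X Λ q) (k : ℕ) where
  A : X → Set Ω
  f : X → Ω → Λ
  A_meas : ∀ x, MeasurableSet[F k] (A x)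
  f_meas : ∀ x, Measurable[F k] (f x)
  f_mem : ∀ x ω, f x ω ∈ T.cls k x

namespace TSys

variable {Ω : Type*} [m0 : MeasurableSpace Ω] {P : Measure Ω} {F : Filtration ℕ m0}
  {X Λ : Type*} [MeasurableSpace Λ] {q : ℝ≥0∞}

open Classical in
/-- wet cells and their states; layer `k+i`. -/
noncomputable def st (T : TSys P F X Λ q) {k : ℕ} (c : Conf T k) : ℕ → X → (Set Ω × (Ω → Λ))
  | 0, x => (c.A x, c.f x)
  | (i+1), x =>
      let A := (st T c i x).1 ∩ {ω | ω ∈ T.good (k + i) x ((st T c i x).2 ω)}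
      let A' := (st T c i (T.sh.symm x)).1 ∩
        {ω | ω ∈ T.good (k + i) (T.sh.symm x) ((st T c i (T.sh.symm x)).2 ω)}
      (A ∪ A', fun ω => if ω ∈ A then T.outL (k + i) x ((st T c i x).2 ω) ω
        else if ω ∈ A' then T.outR (k + i) (T.sh.symm x) ((st T c i (T.sh.symm x)).2 ω) ω
        else T.dflt (k + (i + 1)) x)

/-- the cell `x` of layer `k+i` is wet. -/
noncomputable def wet (T : TSys P F X Λ q) {k : ℕ} (c : Conf T k) (i : ℕ) (x : X) : Set Ω :=
  (T.st c i x).1

/-- its state. -/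
noncomputable def state (T : TSys P F X Λ q) {k : ℕ} (c : Conf T k) (i : ℕ) (x : X) : Ω → Λ :=
  (T.st c i x).2

/-- good tile with the actual state. -/
def gd (T : TSys P F X Λ q) {k : ℕ} (c : Conf T k) (i : ℕ) (x : X) : Set Ω :=
  {ω | ω ∈ T.good (k + i) x (T.state c i x ω)}

variable (T : TSys P F X Λ q) {k : ℕ} (c : Conf T k)

lemma wet_zero (x : X) : T.wet c 0 x = c.A x := rfl

lemma state_zero (x : X) : T.state c 0 x = c.f x := rfl

lemma wet_succ (i : ℕ) (x : X) : T.wet c (i + 1) x =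
    (T.wet c i x ∩ T.gd c i x) ∪ (T.wet c i (T.sh.symm x) ∩ T.gd c i (T.sh.symm x)) := rfl

open Classical in
lemma state_succ (i : ℕ) (x : X) : T.state c (i + 1) x = fun ω =>
    if ω ∈ T.wet c i x ∩ T.gd c i x then T.outL (k + i) x (T.state c i x ω) ω
    else if ω ∈ T.wet c i (T.sh.symm x) ∩ T.gd c i (T.sh.symm x) then
      T.outR (k + i) (T.sh.symm x) (T.state c i (T.sh.symm x) ω) ω
    else T.dflt (k + (i + 1)) x := rfl

lemma meas : ∀ i x, MeasurableSet[F (k + i)] (T.wet c i x) ∧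
    Measurable[F (k + i)] (T.state c i x) := by
  classical
  intro i
  induction i with
  | zero => exact fun x => ⟨c.A_meas x, c.f_meas x⟩
  | succ i ih =>
    have hg : ∀ x, MeasurableSet[F (k + (i + 1))] (T.wet c i x ∩ T.gd c i x) := fun x =>
      MeasurableSet.inter (F.mono (by omega) _ (ih x).1)
        (T.good_meas (k + i) x _ (ih x).2)
    intro x
    refine ⟨?_, ?_⟩
    · rw [wet_succ]
      exact MeasurableSet.union (hg x) (hg _)
    · rw [state_succ]
      refine Measurable.ite (m := F (k + (i + 1))) (hg x)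
        (T.outL_meas (k + i) x _ (ih x).2) ?_
      exact Measurable.ite (m := F (k + (i + 1))) (hg _)
        (T.outR_meas (k + i) _ _ (ih _).2) measurable_const

lemma state_mem : ∀ i x ω, T.state c i x ω ∈ T.cls (k + i) x := by
  classical
  intro i
  induction i with
  | zero => exact fun x ω => c.f_mem x ω
  | succ i ih =>
    intro x ω
    rw [state_succ]
    dsimp only
    split_ifs with h h'
    · exact T.outL_mem _ _ _ _ (ih x ω) h.2
    · have := T.outR_mem _ _ _ _ (ih (T.sh.symm x) ω) h'.2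
      rw [Equiv.apply_symm_apply] at this
      simpa [add_assoc] using this
    · exact T.dflt_mem _ _

/-- bad = wet and the tile with the actual state is not good. -/
def bd (i : ℕ) (x : X) : Set Ω := T.wet c i x \ T.gd c i x

lemma bd_meas (i : ℕ) (x : X) : MeasurableSet[F (k + i + 1)] (T.bd c i x) := by
  have h := T.meas c i x
  exact MeasurableSet.diff (F.mono (by omega) _ h.1) (T.good_meas (k + i) x _ h.2)

/-- one-layer K-set bound for the bad field. -/
lemma bd_kset (i : ℕ) (K : Finset X) (B : Set Ω) (hB : MeasurableSet[F (k + i)] B) :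
    P (B ∩ {ω | ∀ x ∈ K, ω ∈ T.bd c i x}) ≤ q ^ K.card * P B := by
  refine le_trans (measure_mono ?_) (T.kset (k + i) K (fun x => T.state c i x)
    (fun x => (T.meas c i x).2) (fun x ω => T.state_mem c i x ω) B hB)
  refine Set.inter_subset_inter_right _ ?_
  intro ω hω x hx
  exact (hω x hx).2

/-- space-time K-set bound, layers `a, ..., a + n - 1`. -/
theorem kset_all : ∀ (n a : ℕ) (K : Finset (ℕ × X)) (B : Set Ω), MeasurableSet[F (k + a)] B →
      (∀ p ∈ K, a ≤ p.1 ∧ p.1 < a + n) →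
      P (B ∩ {ω | ∀ p ∈ K, ω ∈ T.bd c p.1 p.2}) ≤ q ^ K.card * P B := by
  classical
  intro n
  induction n with
  | zero =>
    intro a K B hB hK
    have : K = ∅ := by
      apply Finset.eq_empty_of_forall_notMem
      intro p hp
      have := hK p hp
      omega
    subst this
    simp
  | succ n ih =>
    intro a K B hB hK
    set K0 : Finset X := (K.filter (fun p => p.1 = a)).image Prod.snd with hK0
    set K1 : Finset (ℕ × X) := K.filter (fun p => p.1 ≠ a) with hK1
    have hcard : K.card = K1.card + K0.card := by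
      have h1 : K0.card = (K.filter (fun p => p.1 = a)).card := by
        rw [hK0, Finset.card_image_of_injOn]
        intro p hp p' hp' h
        rw [Finset.mem_coe, Finset.mem_filter] at hp hp'
        exact Prod.ext (hp.2.trans hp'.2.symm) h
      rw [h1, hK1, add_comm]
      exact (Finset.card_filter_add_card_filter_not _).symm
    set B' : Set Ω := B ∩ {ω | ∀ x ∈ K0, ω ∈ T.bd c a x} with hB'
    have hB'm : MeasurableSet[F (k + (a + 1))] B' := by
      refine MeasurableSet.inter (F.mono (by omega) _ hB) ?_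
      have e : {ω | ∀ x ∈ K0, ω ∈ T.bd c a x} = ⋂ x ∈ K0, T.bd c a x := by
        ext ω; simp
      rw [e]
      exact Finset.measurableSet_biInter _ fun x _ => T.bd_meas c a x
    have h1 := ih (a + 1) K1 B' hB'm (by
      intro p hp
      rw [hK1, Finset.mem_filter] at hp
      have := hK p hp.1
      omega)
    have h2 := T.bd_kset c a K0 B hB
    calc P (B ∩ {ω | ∀ p ∈ K, ω ∈ T.bd c p.1 p.2})
        ≤ P (B' ∩ {ω | ∀ p ∈ K1, ω ∈ T.bd c p.1 p.2}) := by
          refine measure_mono ?_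
          rintro ω ⟨hω, hall⟩
          refine ⟨⟨hω, fun x hx => ?_⟩, fun p hp => ?_⟩
          · rw [hK0, Finset.mem_image] at hx
            obtain ⟨p, hp, rfl⟩ := hx
            rw [Finset.mem_filter] at hp
            rw [← hp.2]
            exact hall p hp.1
          · rw [hK1, Finset.mem_filter] at hp
            exact hall p hp.1
      _ ≤ q ^ K1.card * P B' := h1
      _ ≤ q ^ K1.card * (q ^ K0.card * P B) := by gcongr
      _ = q ^ K.card * P B := by rw [hcard, pow_add]; ring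

/-! ### Clusters of rows of sources -/

/-- the bad field seen from the cell `x0` -/
def bf (x0 : X) (i : ℕ) (y : ℤ) (ω : Ω) : Prop := ω ∈ T.bd c i ((T.sh ^ y) x0)

/-- the cluster of the `n` adjacent sources `x0, sh x0, ...` at layer `k + j` -/
def cl (x0 : X) (n j : ℕ) (ω : Ω) : Set ℤ := Perc272.W (T.bf c x0) n j ω

lemma cl_zero (x0 : X) (n : ℕ) (ω : Ω) : T.cl c x0 n 0 ω = Set.Ico 0 (n : ℤ) := rfl

lemma cl_bdd (x0 : X) (n j : ℕ) (ω : Ω) : ∀ y ∈ T.cl c x0 n j ω, 0 ≤ y ∧ y < n + j :=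
  Perc272.wet_sub _ n j ω

/-- cells of a cluster are wet -/
theorem wet_of_cl (x0 : X) (n : ℕ) (ω : Ω)
    (hsrc : ∀ y : ℕ, y < n → ω ∈ c.A ((T.sh ^ y) x0)) :
    ∀ (j : ℕ) (y : ℤ), y ∈ T.cl c x0 n j ω → ω ∈ T.wet c j ((T.sh ^ y) x0) := by
  intro j
  induction j with
  | zero =>
    intro y hy
    rw [cl_zero] at hy
    obtain ⟨z, rfl⟩ := Int.eq_ofNat_of_zero_le hy.1
    rw [wet_zero]
    have := hsrc z (by have := hy.2; omega)
    simpa using this
  | succ j ih =>
    intro y hy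
    rw [wet_succ]
    rcases hy with ⟨h1, h2⟩ | ⟨h1, h2⟩
    · left
      have h3 := ih y h1
      refine ⟨h3, ?_⟩
      by_contra h4
      exact h2 ⟨h3, h4⟩
    · right
      have h3 := ih (y - 1) h1
      have e : T.sh.symm ((T.sh ^ y) x0) = (T.sh ^ (y - 1)) x0 := by
        rw [Equiv.symm_apply_eq]
        have : T.sh ^ y = T.sh * T.sh ^ (y - 1) := by
          rw [← zpow_one_add]
          congr 1
          ring
        rw [this]
        rfl
      rw [e]
      refine ⟨h3, ?_⟩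
      by_contra h4
      exact h2 ⟨h3, h4⟩

/-- the K-set bound for the fields of several rows of sources -/
theorem kset_rows {ι : Type*} [DecidableEq ι] (x : ι → X) (n : ι → ℕ) (h : ℕ) (S : Finset ι)
    (hinj : Set.InjOn (fun p : ι × ℤ => (T.sh ^ p.2) (x p.1))
      {p | p.1 ∈ S ∧ 0 ≤ p.2 ∧ p.2 < n p.1 + h})
    (B : Set Ω) (hB : MeasurableSet[F k] B) (K : Finset (ι × ℕ × ℤ))
    (hK : ∀ p ∈ K, p.1 ∈ S ∧ p.2.1 ≤ h ∧ 0 ≤ p.2.2 ∧ p.2.2 < n p.1 + p.2.1) :
    P (B ∩ {ω | ∀ p ∈ K, T.bf c (x p.1) p.2.1 p.2.2 ω}) ≤ P B * q ^ K.card := by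
  classical
  set φ : ι × ℕ × ℤ → ℕ × X := fun p => (p.2.1, (T.sh ^ p.2.2) (x p.1)) with hφ
  have hφi : Set.InjOn φ K := by
    rintro ⟨s, l, y⟩ hp ⟨s', l', y'⟩ hp' heq
    have h1 := hK _ hp
    have h2 := hK _ hp'
    simp only [hφ, Prod.mk.injEq] at heq h1 h2
    have h3 := @hinj (s, y)
      ⟨h1.1, h1.2.2.1, by have := h1.2.1; have := h1.2.2.2; dsimp only; omega⟩ (s', y')
      ⟨h2.1, h2.2.2.1, by have := h2.2.1; have := h2.2.2.2; dsimp only; omega⟩ heq.2
    simp only [Prod.mk.injEq] at h3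
    rw [heq.1, h3.1, h3.2]
  have h := T.kset_all c (h + 1) 0 (K.image φ) B (by simpa using hB) (by
    intro p hp
    rw [Finset.mem_image] at hp
    obtain ⟨r, hr, rfl⟩ := hp
    have := hK r hr
    simp only [hφ]
    omega)
  rw [Finset.card_image_of_injOn hφi] at h
  rw [mul_comm]
  refine le_trans (measure_mono ?_) h
  refine Set.inter_subset_inter_right _ ?_
  intro ω hω p hp
  rw [Finset.mem_image] at hp
  obtain ⟨r, hr, rfl⟩ := hp
  exact hω r hr

/-- **All clusters die**: rows of `n s ≥ 1` adjacent sources, `s ∈ S`, with disjoint orbits. -/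
theorem dead_le {ι : Type*} [DecidableEq ι] (hq0 : q ≠ 0) (hq : q ≤ ((1 / 48 : ℝ≥0) : ℝ≥0∞))
    (x : ι → X) (n : ι → ℕ) (h : ℕ) (S : Finset ι) (hn : ∀ s ∈ S, 1 ≤ n s)
    (hinj : Set.InjOn (fun p : ι × ℤ => (T.sh ^ p.2) (x p.1))
      {p | p.1 ∈ S ∧ 0 ≤ p.2 ∧ p.2 < n p.1 + h})
    (B : Set Ω) (hB : MeasurableSet[F k] B) :
    P (B ∩ {ω | ∀ s ∈ S, T.cl c (x s) (n s) (h + 1) ω = ∅}) ≤
      P B * ∏ s ∈ S, (2 * (12 * q) ^ n s) :=
  planes_le P (P B) q (fun s => T.bf c (x s)) hq0 hq n h S hn B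
    fun K hK => T.kset_rows c x n h S hinj B hB K hK

/-- **Many clusters die.** -/
theorem many_dead_le {ι : Type*} [DecidableEq ι] (hq0 : q ≠ 0)
    (hq : q ≤ ((1 / 48 : ℝ≥0) : ℝ≥0∞)) (x : ι → X) (h : ℕ) (S : Finset ι)
    (hinj : Set.InjOn (fun p : ι × ℤ => (T.sh ^ p.2) (x p.1))
      {p | p.1 ∈ S ∧ 0 ≤ p.2 ∧ p.2 < 1 + h})
    (B : Set Ω) (hB : MeasurableSet[F k] B) (m : ℕ) :
    P (B ∩ {ω | ∃ S' ⊆ S, S'.card = m ∧ ∀ s ∈ S', T.cl c (x s) 1 (h + 1) ω = ∅}) ≤
      2 ^ S.card * (P B * (24 * q) ^ m) := by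
  classical
  have hcov : B ∩ {ω | ∃ S' ⊆ S, S'.card = m ∧ ∀ s ∈ S', T.cl c (x s) 1 (h + 1) ω = ∅} ⊆
      ⋃ S' ∈ S.powerset.filter fun S' => S'.card = m,
        (B ∩ {ω | ∀ s ∈ S', T.cl c (x s) 1 (h + 1) ω = ∅}) := by
    rintro ω ⟨hBω, S', hS', hm, hall⟩
    simp only [Set.mem_iUnion, Finset.mem_filter, Finset.mem_powerset]
    exact ⟨S', ⟨hS', hm⟩, hBω, hall⟩
  refine (measure_mono hcov).trans ((measure_biUnion_finset_le _ _).trans ?_)
  have hone : ∀ S' ∈ S.powerset.filter (fun S' => S'.card = m),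
      P (B ∩ {ω | ∀ s ∈ S', T.cl c (x s) 1 (h + 1) ω = ∅}) ≤ P B * (24 * q) ^ m := by
    intro S' hS'
    rw [Finset.mem_filter, Finset.mem_powerset] at hS'
    refine (T.dead_le c hq0 hq x (fun _ => 1) h S' (fun _ _ => le_rfl) ?_ B hB).trans ?_
    · refine hinj.mono ?_
      rintro p ⟨h1, h2, h3⟩
      exact ⟨hS'.1 h1, h2, by simpa using h3⟩
    · rw [Finset.prod_const, hS'.2, pow_one]
      refine le_of_eq ?_
      congr 2
      rw [← mul_assoc]
      norm_num
  refine (Finset.sum_le_sum hone).trans ?_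
  rw [Finset.sum_const, nsmul_eq_mul]
  refine mul_le_mul' ?_ le_rfl
  have h1 : (S.powerset.filter fun S' => S'.card = m).card ≤ 2 ^ S.card := by
    rw [← Finset.card_powerset]
    exact Finset.card_filter_le _ _
  exact_mod_cast h1

/-- **A cluster is alive but narrow.** -/
theorem narrow_le (hq0 : q ≠ 0) (hq : q ≤ ((1 / 96 : ℝ≥0) : ℝ≥0∞)) (x0 : X) (n j m : ℕ)
    (hinj : Set.InjOn (fun y : ℤ => (T.sh ^ y) x0) {y | 0 ≤ y ∧ y < n + j})
    (B : Set Ω) (hB : MeasurableSet[F k] B) :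
    P (B ∩ {ω | (T.cl c x0 n j ω).Nonempty ∧ (T.cl c x0 n j ω).ncard ≤ m}) ≤
      P B * ((8 * q)⁻¹ ^ m * (24 * q) ^ (n + j)) := by
  classical
  refine width_le' P B (P B) q (T.bf c x0) hq0 hq n j m ?_
  intro K hK
  have hsub := T.kset_rows c (fun _ : Unit => x0) (fun _ => n) j {()} (by
    rintro ⟨s, y⟩ hy ⟨s', y'⟩ hy' heq
    have := @hinj y ⟨hy.2.1, hy.2.2⟩ y' ⟨hy'.2.1, hy'.2.2⟩ heq
    rw [this]) B hB (K.image fun p => ((), p)) (by
    intro p hp
    rw [Finset.mem_image] at hp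
    obtain ⟨r, hr, rfl⟩ := hp
    have := hK r hr
    simp only [Finset.mem_singleton, true_and]
    omega)
  rw [Finset.card_image_of_injective _ (fun a b hab => by simpa using hab)] at hsub
  refine le_trans (measure_mono ?_) hsub
  refine Set.inter_subset_inter_right _ ?_
  intro ω hω p hp
  rw [Finset.mem_image] at hp
  obtain ⟨r, hr, rfl⟩ := hp
  exact hω r hr

/-! ### The chain of good tiles -/

/-- chain of good tiles from a source: `Conn j x lam` = the state `lam` is reached in the cell `x` of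
layer `k+j`. -/
inductive Conn (T : TSys P F X Λ q) {k : ℕ} (c : Conf T k) (ω : Ω) : ℕ → X → Λ → Prop
  | start {x : X} (h : ω ∈ c.A x) : Conn T c ω 0 x (c.f x ω)
  | left {s : ℕ} {x : X} {lam : Λ} (h : Conn T c ω s x lam) (hg : ω ∈ T.good (k + s) x lam) :
      Conn T c ω (s + 1) x (T.outL (k + s) x lam ω)
  | right {s : ℕ} {x : X} {lam : Λ} (h : Conn T c ω s x lam) (hg : ω ∈ T.good (k + s) x lam) :
      Conn T c ω (s + 1) (T.sh x) (T.outR (k + s) x lam ω)

theorem conn_of_wet (ω : Ω) : ∀ i x, ω ∈ T.wet c i x → Conn T c ω i x (T.state c i x ω) := by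
  classical
  intro i
  induction i with
  | zero => exact fun x hx => Conn.start hx
  | succ i ih =>
    intro x hx
    rw [state_succ]
    dsimp only
    rw [wet_succ] at hx
    by_cases hA : ω ∈ T.wet c i x ∩ T.gd c i x
    · rw [if_pos hA]
      exact Conn.left (ih x hA.1) hA.2
    · rw [if_neg hA]
      have hA' : ω ∈ T.wet c i (T.sh.symm x) ∩ T.gd c i (T.sh.symm x) := by
        rcases hx with h | h
        · exact absurd h hA
        · exact h
      rw [if_pos hA']
      have := Conn.right (ih _ hA'.1) hA'.2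
      rwa [Equiv.apply_symm_apply] at this

/-- invariant form: every wet cell satisfies an invariant of the chains. -/
theorem inv_of_wet {ω : Ω} (Inv : ℕ → X → Λ → Prop)
    (h0 : ∀ x, ω ∈ c.A x → Inv 0 x (c.f x ω))
    (hL : ∀ s x lam, Inv s x lam → ω ∈ T.good (k + s) x lam →
      Inv (s + 1) x (T.outL (k + s) x lam ω))
    (hR : ∀ s x lam, Inv s x lam → ω ∈ T.good (k + s) x lam →
      Inv (s + 1) (T.sh x) (T.outR (k + s) x lam ω))
    {i : ℕ} {x : X} (hw : ω ∈ T.wet c i x) : Inv i x (T.state c i x ω) := by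
  have hc := T.conn_of_wet c ω i x hw
  clear hw
  generalize T.state c i x ω = lam at hc
  induction hc with
  | start h => exact h0 _ h
  | left _ hg ih => exact hL _ _ _ ih hg
  | right _ hg ih => exact hR _ _ _ ih hg

end TSys

end Crest.Agent.R154.Gen272
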