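import Crest.Agent.R154.Start2_872
import Crest.Agent.R154.MobNat_927
import Crest.Agent.R154.SE_424

/-! Row 154, B8, TILE: annealed masses of the unconfined natural climb against the natural law (upper
bound), translation invariance of the pair energy, strips, first climb into a strip. -/

set_option autoImplicit false
set_option linter.unusedSectionVars false
set_option linter.deprecated false
set_option linter.unusedVariables false

namespace Crest.Agent.R154.Tile872

open MeasureTheory ProbabilityTheory Set Filter Crest.ProbabilityR.RandomEnvironment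
open Crest.Agent.R154.Ren263 (Det)
open Crest.Agent.R154.Mk561 Crest.Agent.R154.Q561
open Crest.Agent.R154.Flux132 (lev)
open Crest.Agent.R154.Fin804 (lev_add)
open Crest.Agent.R154.B6I (SP PP Om NoC tip th Al Dt PSm PIm ct)
open Crest.Agent.R154.RatioR872
open Crest.Agent.R154.TileInst748
open Crest.Agent.R154.B4Inst797 (Nat0 natLaw UU lat natLaw_apply)
open scoped ENNReal Topology

variable {d : ℕ}

section mass

variable {Q : Measure (Environment d)} [IsProbabilityMeasure Q] {κ : ℝ} {R : ℕ}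

/-- **upper bound**: the annealed mass of the natural climb into `T` is at most the natural law of
the displacement event. -/
theorem mass_lat_le (F : Bind263.Frame Q κ R) (u : Step d) (i1 i2 : Fin d) (x : Site d) (n : ℕ)
    (W : Set B4.V) (hW : MeasurableSet W) (T : Set (Site d))
    (hT : ∀ y ∈ T, lev u y = lev u x + n → lat i1 i2 y ∈ W)
    (hc : mkAnn κ Q 0 (Nat0 u R) ≠ 0) :
    ∫⁻ ω, gT u R κ univ (lev u x + n) T ω x ∂Q
      ≤ natLaw κ Q u R {s | lat i1 i2 x + UU u i1 i2 n s ∈ W} := by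
  set A : Set (MPath d) := {s | lat i1 i2 x + UU u i1 i2 n s ∈ W} with hA
  have hAm : MeasurableSet[B4Inst797.Fl u n] A :=
    ((B4Inst797.UU_meas u i1 i2 n).const_add _) hW
  have h1 : CfT u R univ x (lev u x + n) T ⊆ ⋃ m, B4Inst797.XX u R n m A := by
    intro M hM
    obtain ⟨m, ⟨h2, _⟩, h3⟩ := mem_iUnion.1 hM
    have h4 := (mem_ClM_iff u R).1 h2
    have hhit : B4Inst797.Hit u n m M := (B6I.hit_iff_797 u M n m).2 h4.1
    refine mem_iUnion.2 ⟨m, ⟨⟨fun i hi hin => h2.2.2.1 i hin hi, fun i hi him => ?_⟩, ?_, hhit⟩⟩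
    · have h5 := h2.2.2.2 i hi him
      rw [B6I.lev_pos] at h5
      rw [B6I.zh_eq_zt]
      linarith
    · have h5 : lev u (pos x M m) = lev u x + n := h2.1
      have h6 := hT _ h3 h5
      have h7 : pos x M m = x + pos 0 M m := B4Inst797.pos_start x M m
      rw [h7, B4Inst797.lat_add, ← (B4Inst797.hit_eq i1 i2 hhit).2] at h6
      exact h6
  have h2 : mkAnn κ Q 0 (CfT u R univ x (lev u x + n) T) ≤ B4Inst797.mX κ Q u R n A :=
    (measure_mono h1).trans (measure_iUnion_le _)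
  have h3 := B4Inst797.key F u hAm (E := univ) MeasurableSet.univ
  simp only [inter_univ] at h3
  have h4 : mkAnn κ Q 0 (Nat0 u R) * B4Inst797.mX κ Q u R n A ≤ mkAnn κ Q 0 (Nat0 u R ∩ A) := by
    rw [mul_comm, ← h3]
    exact measure_mono fun s hs => ⟨hs.1, hs.2.1⟩
  rw [MobNat927.lint_gT F u x, natLaw_apply]
  refine h2.trans ?_
  calc B4Inst797.mX κ Q u R n A
      = (mkAnn κ Q 0 (Nat0 u R))⁻¹ * (mkAnn κ Q 0 (Nat0 u R) * B4Inst797.mX κ Q u R n A) := by
        rw [← mul_assoc, ENNReal.inv_mul_cancel hc (measure_ne_top _ _), one_mul]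
    _ ≤ _ := by gcongr

end mass

section trans

variable {Q : Measure (Environment d)} [IsProbabilityMeasure Q] {κ : ℝ} {R : ℕ}

lemma PSm_trans (hstat : ∀ z : Site d, MeasurePreserving (shiftEnv z) Q Q) (x x' v : Site d)
    {B : Set (PP d)} (hB : MeasurableSet B) :
    PSm κ Q (x + v) (x' + v) B = PSm κ Q x x' B := by
  rw [B6I.PSm_apply κ Q _ _ hB, B6I.PSm_apply κ Q _ _ hB]
  have hm : Measurable fun ω : Environment d => ((mkLaw κ ω x).prod (mkLaw κ ω x')) B := by
    have h := Kernel.measurable_coe (mkK κ x ×ₖ mkK κ x') hB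
    have e : (fun ω : Environment d => ((mkLaw κ ω x).prod (mkLaw κ ω x')) B)
        = fun ω => (mkK κ x ×ₖ mkK κ x') ω B := by
      funext ω
      rw [Kernel.prod_apply]; rfl
    rw [e]; exact h
  rw [← (hstat v).lintegral_comp hm]
  refine lintegral_congr fun ω => ?_
  rw [mkLaw_shiftEnv, mkLaw_shiftEnv]

lemma Kc_trans (hstat : ∀ z : Site d, MeasurePreserving (shiftEnv z) Q Q) (u : Step d)
    (x x' v : Site d) {a b a' b' : ℕ} (h : b - a = b' - a') :
    Kc u R κ Q a b (x + v) (x' + v) = Kc u R κ Q a' b' x x' := by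
  classical
  unfold Kc
  have hl : lev u (x + v) = lev u (x' + v) ↔ lev u x = lev u x' := by
    rw [lev_add, lev_add]; constructor <;> intro h <;> linarith
  by_cases hx : lev u x = lev u x'
  · rw [dif_pos hx, dif_pos (hl.2 hx), h, PSm_trans hstat x x' v (meas_bc u R (Nat.zero_le _) _)]
    congr 1
    ext p
    simp only [bc, mem_setOf_eq, NoC, ct]
    have e : ∀ i i' c, pos (x + v) p.1 i c - pos (x' + v) p.2 i' c
        = pos x p.1 i c - pos x' p.2 i' c := by
      intro i i' c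
      rw [pos_add, pos_add]
      simp
    simp only [e]
  · rw [dif_neg hx, dif_neg fun h' => hx (hl.1 h')]

end trans

section strip

variable {Q : Measure (Environment d)} [IsProbabilityMeasure Q] {κ : ℝ} {R : ℕ}

/-- the strip of level `ℓ` with lateral coordinate `i` in `[t, t + a)` -/
def strip (u : Step d) (i1 i2 : Fin d) (i : Fin 2) (a : ℝ) (ℓ : ℕ) (t : ℝ) : Set (Site d) :=
  {y | lev u y = ℓ ∧ lat i1 i2 y i ∈ Ico t (t + a)}

/-- a site with prescribed level and prescribed (integer) lateral coordinate -/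
lemma exists_site {u : Step d} {i1 i2 : Fin d} (h1 : i1 ≠ u.1) (h2 : i2 ≠ u.1) (h12 : i1 ≠ i2)
    (i : Fin 2) (ℓ : ℤ) (m : ℤ) : ∃ z : Site d, lev u z = ℓ ∧ lat i1 i2 z i = m := by
  classical
  have h21 : i2 ≠ i1 := h12.symm
  refine ⟨fun j => if j = u.1 then (if u.2 then ℓ else -ℓ) else if j = ![i1, i2] i then m else 0,
    ?_, ?_⟩
  · unfold lev
    split_ifs <;> simp
  · unfold lat
    fin_cases i
    · simp [h1]
    · simp [h2]

variable (u : Step d) (i1 i2 : Fin d) (i : Fin 2)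

/-- **mass into a strip**: from the displacement probability -/
lemma strip_ge (F : Bind263.Frame Q κ R) {x : Site d} {ℓ n : ℕ} (hx : lev u x = ℓ) {a t : ℝ}
    {g : ℝ≥0∞} (hc : mkAnn κ Q 0 (Nat0 u R) ≠ 0)
    (h : g ≤ natLaw κ Q u R {s | lat i1 i2 x i + UU u i1 i2 n s i ∈ Ico t (t + a)}) :
    mkAnn κ Q 0 (Nat0 u R) * g
      ≤ ∫⁻ ω, gT u R κ univ (ℓ + n : ℕ) (strip u i1 i2 i a (ℓ + n) t) ω x ∂Q := by
  have h1 := MobNat927.mass_lat F u i1 i2 x n {w | w i ∈ Ico t (t + a)}
    (strip u i1 i2 i a (ℓ + n) t) (fun y hy hy2 => ⟨by rw [hy, hx]; push_cast; rfl, hy2⟩) hc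
  have e : lev u x + (n : ℤ) = ((ℓ + n : ℕ) : ℤ) := by rw [hx]; push_cast; rfl
  rw [e] at h1
  refine le_trans ?_ h1
  gcongr
  exact h

/-- mass outside a window -/
lemma out_le (F : Bind263.Frame Q κ R) {x : Site d} {ℓ n : ℕ} (hx : lev u x = ℓ) {r v : ℝ}
    {δ : ℝ≥0∞} (hc : mkAnn κ Q 0 (Nat0 u R) ≠ 0)
    (h : natLaw κ Q u R {s | r < |UU u i1 i2 n s i - v|} ≤ δ) :
    ∫⁻ ω, gT u R κ univ (ℓ + n : ℕ)
      {y | lev u y = (ℓ + n : ℕ) ∧ |lat i1 i2 y i - lat i1 i2 x i - v| ≤ r}ᶜ ω x ∂Q ≤ δ := by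
  have hm : MeasurableSet {w : B4.V | r < |w i - lat i1 i2 x i - v|} :=
    measurableSet_lt measurable_const
      ((((measurable_pi_apply i).sub_const _).sub_const _).abs)
  have h1 := mass_lat_le F u i1 i2 x n {w | r < |w i - lat i1 i2 x i - v|} hm
    {y | lev u y = (ℓ + n : ℕ) ∧ |lat i1 i2 y i - lat i1 i2 x i - v| ≤ r}ᶜ
    (fun y hy hy2 => by
      simp only [mem_compl_iff, mem_setOf_eq, not_and, not_le] at hy ⊢
      exact hy (by rw [hy2, hx]; push_cast; rfl)) hc
  have e : lev u x + (n : ℤ) = ((ℓ + n : ℕ) : ℤ) := by rw [hx]; push_cast; rfl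
  rw [e] at h1
  refine h1.trans (le_trans (measure_mono ?_) h)
  intro s hs
  simp only [mem_setOf_eq, Pi.add_apply] at hs ⊢
  have e2 : lat i1 i2 x i + UU u i1 i2 n s i - lat i1 i2 x i - v = UU u i1 i2 n s i - v := by ring
  rwa [e2] at hs

end strip

end Crest.Agent.R154.Tile872
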