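import Crest.Agent.R154.TileMass_872
import Crest.Agent.R154.StartLP_872
import Crest.Agent.R154.TileInst2_333
import Crest.Agent.R154.KSFin_333

/-! Row 154, B8, TILE: the regular tile system on the natural climbs (helper872).  From 480's K-set
bound `KSf`, the geometric input `ROW` for the strips and 437's mobility data at the height `N`:
`WindowK299.TileSys`. -/

set_option autoImplicit false
set_option linter.unusedSectionVars false
set_option linter.deprecated false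
set_option linter.unusedVariables false

namespace Crest.Agent.R154.TileReg872

open MeasureTheory ProbabilityTheory Set Filter Crest.ProbabilityR.RandomEnvironment
open Crest.Agent.R154.Ren263 (Det)
open Crest.Agent.R154.Mk561 Crest.Agent.R154.Q561
open Crest.Agent.R154.Flux132 (lev)
open Crest.Agent.R154.Fin804 (lev_add)
open Crest.Agent.R154.B6I (SP PP Om NoC tip th Al Dt PSm PIm ct)
open Crest.Agent.R154.RatioR872 Crest.Agent.R154.Tile872 Crest.Agent.R154.KS480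
open Crest.Agent.R154.TileInst748 (clsM okM massM enM pushM outM single tsum_single meas_ok out_mem
  FN gL succ0 good0)
open Crest.Agent.R154.B4Inst797 (Nat0 natLaw UU lat natLaw_apply lp natLaw_isProb nat_ne_zero)
open Crest.Agent.R154.MobW437 (wl)
open scoped ENNReal Topology

variable {d : ℕ}
variable {Q : Measure (Environment d)} [IsProbabilityMeasure Q] {κ : ℝ} {R : ℕ}

/-! ### small things -/

lemma ofReal_le_of_real {Ω : Type*} [MeasurableSpace Ω] {μ : Measure Ω} [IsFiniteMeasure μ]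
    {A : Set Ω} {c : ℝ} (h : c ≤ μ.real A) : ENNReal.ofReal c ≤ μ A :=
  ENNReal.ofReal_le_of_le_toReal h

lemma le_ofReal_of_real {Ω : Type*} [MeasurableSpace Ω] {μ : Measure Ω} [IsFiniteMeasure μ]
    {A : Set Ω} {c : ℝ} (h : μ.real A ≤ c) : μ A ≤ ENNReal.ofReal c := by
  rw [← ENNReal.ofReal_toReal (measure_ne_top μ A)]
  exact ENNReal.ofReal_le_ofReal h

/-- small exit energies from the late contact hypothesis -/
lemma exitE_of_late {u : Step d} {n0 : ℕ → ℝ≥0∞ → ℕ} (hR : IsFiniteRangeDependent Q R)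
    (hL : LateHyp u R κ Q n0) {r : ℕ} {ε : ℝ≥0∞} (hε : ε ≠ 0) {n : ℕ} (hn : n0 r ε ≤ n) {a c : ℕ}
    (h1 : a + n ≤ c) (h2 : c ≤ a + r * n) : ExitE u R κ Q a (a + n) c ε := by
  intro x x' hx hx'
  refine (energy_le u R κ Q hR h1 hx hx').trans ?_
  obtain ⟨m, rfl⟩ := Nat.exists_eq_add_of_le h1
  have := hL r ε hε n hn m (by omega) ⟨(x, x'), hx.trans hx'.symm⟩
  rwa [show a + n + m - a = n + m by omega]

/-! ### the first climb into a strip -/

section start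

variable {u : Step d} {i1 i2 : Fin d}

/-- **first climb**: at every height `N ≥ N0` and every width `a ≥ wl N / 80` there is a shift `sh`
such that from every site `z` the natural `N`-climb reaches well every strip whose left end is within
`a / 8` of `lat z + sh`. -/
theorem start_core (F : Bind263.Frame Q κ R) (h1 : i1 ≠ u.1) (h2 : i2 ≠ u.1) (h12 : i1 ≠ i2)
    (hA : annealedProb Q 0 (escapeEvent (B2d.dirVec u)) ≠ 0) (i : Fin 2) {q κ₁ : ℝ≥0∞}
    (hq : q ≠ 0) (hq1 : q ≤ 1) (hκ0 : κ₁ ≠ 0) (hκt : κ₁ ≠ ∞) {n0 : ℕ → ℝ≥0∞ → ℕ}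
    (hL : LateHyp u R κ Q n0) :
    ∃ γ₀ : ℝ≥0∞, γ₀ ≠ 0 ∧ γ₀ ≤ 1 ∧ ∃ N0 : ℕ, ∀ N, N0 ≤ N → ∀ a : ℝ,
      wl (lp F u h1 h2 h12 (nat_ne_zero F u hA)) i N / 80 ≤ a →
      ∃ sh : ℝ, ∀ (ℓ : ℕ) (z : Site d) (t : ℝ), lev u z = ℓ → |t - (lat i1 i2 z i + sh)| ≤ a / 8 →
        Q {ω | okM (strip u i1 i2 i a (ℓ + N) t) (Kc u R κ Q (ℓ + N) (ℓ + N + N)) κ₁ γ₀ (single z)
          ((kS u R κ Q F.stat F.fin).G ℓ (ℓ + N) ω)}ᶜ ≤ q := by
  have hc := nat_ne_zero F u hA
  haveI : IsProbabilityMeasure (natLaw κ Q u R) := natLaw_isProb hc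
  set g : ℝ≥0∞ := mkAnn κ Q 0 (Nat0 u R) * ENNReal.ofReal (1 / 700) with hg
  have hg0 : g ≠ 0 := mul_ne_zero hc (by simp)
  have hg1 : g ≤ 1 := by
    calc g ≤ 1 * 1 := mul_le_mul' prob_le_one (by
          rw [← ENNReal.ofReal_one]; exact ENNReal.ofReal_le_ofReal (by norm_num))
      _ = 1 := one_mul 1
  obtain ⟨γ₀, hγ0, hγ1, δ, hδ0, ε, hε0, H⟩ := start2 F u hA hq hq1 hκ0 hκt hg0 hg1
  -- a real `δ`
  obtain ⟨δr, hδr, hδr'⟩ : ∃ δr : ℝ, 0 < δr ∧ ENNReal.ofReal δr ≤ δ := by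
    rcases eq_or_ne δ ∞ with h | h
    · exact ⟨1, one_pos, by rw [h]; exact le_top⟩
    · exact ⟨δ.toReal, ENNReal.toReal_pos hδ0 h, by rw [ENNReal.ofReal_toReal h]⟩
  obtain ⟨n, hn1, N1, hN1⟩ := StartLP872.start_data (lp F u h1 h2 h12 hc) i hδr
  refine ⟨γ₀, hγ0, hγ1, N1 + n * (n0 (2 * n) ε) + n + n0 2 ε, fun N hN a ha => ?_⟩
  set l := N / n with hl
  have hnl : n * l ≤ N := Nat.mul_div_le N n
  have hNn : n ≤ N := by omega
  have hl1 : 1 ≤ l := (Nat.one_le_div_iff (by omega)).2 hNn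
  have hl2 : n0 (2 * n) ε ≤ l := by
    rw [hl, Nat.le_div_iff_mul_le (by omega), mul_comm]
    omega
  have hNl : N < n * (l + 1) := by
    have := Nat.lt_mul_div_succ N (show 0 < n by omega)
    rwa [← hl] at this
  have hN2 : N ≤ 2 * n * l := by nlinarith
  have hlN : l ≤ N := (Nat.le_mul_of_pos_left l (by omega)).trans hnl
  obtain ⟨⟨v, hv⟩, s0, hs0⟩ := hN1 N (by omega) l hnl a ha
  refine ⟨v + s0 - a / 4, fun ℓ z t hz ht => ?_⟩
  have ht' := abs_le.1 ht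
  set T : Set (Site d) :=
    {y | lev u y = (ℓ + l : ℕ) ∧ |lat i1 i2 y i - lat i1 i2 z i - v| ≤ a / 8} with hT
  refine H ℓ (ℓ + l) (ℓ + N) (ℓ + N + N) z T (strip u i1 i2 i a (ℓ + N) t) (by omega) (by omega) hz
    (fun x hx => hx.1) ?_ ?_ ?_ ?_
  · refine (out_le u i1 i2 i F hz hc (r := a / 8) (v := v) (δ := ENNReal.ofReal δr) ?_).trans hδr'
    exact le_ofReal_of_real hv
  · exact exitE_of_late F.fin hL hε0 hl2 (by omega) (by omega)
  · intro x hx
    have e : ℓ + l + (N - l) = ℓ + N := by omega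
    have h3 := strip_ge u i1 i2 i F (x := x) (ℓ := ℓ + l) (n := N - l) hx.1 (a := a) (t := t)
      (g := ENNReal.ofReal (1 / 700)) hc ?_
    · rw [e] at h3
      exact h3
    · refine (ofReal_le_of_real hs0).trans (measure_mono ?_)
      intro s hs
      have hs' : UU u i1 i2 (N - l) s i ∈ Ico s0 (s0 + a / 2) := hs
      have hx2 := abs_le.1 hx.2
      simp only [mem_setOf_eq, mem_Ico] at hs' ⊢
      constructor
      · linarith [ht'.1, ht'.2, hs'.1, hs'.2, hx2.1, hx2.2]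
      · linarith [ht'.1, ht'.2, hs'.1, hs'.2, hx2.1, hx2.2]
  · exact exitE_of_late F.fin hL hε0 (n := N) (r := 2) (by omega) (by omega) (by omega)

end start

/-! ### the classes are not empty -/

section nonempty

variable {u : Step d} {i1 i2 : Fin d}

lemma cls_nonempty (F : Bind263.Frame Q κ R) (h1 : i1 ≠ u.1) (h2 : i2 ≠ u.1) (h12 : i1 ≠ i2)
    (i : Fin 2) {q κ₁ γ₀ : ℝ≥0∞} (hq1 : q < 1) (hγ0 : γ₀ ≠ 0) {N : ℕ} {a sh : ℝ} (ha : 8 ≤ a)
    (H : ∀ (ℓ : ℕ) (z : Site d) (t : ℝ), lev u z = ℓ → |t - (lat i1 i2 z i + sh)| ≤ a / 8 →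
        Q {ω | okM (strip u i1 i2 i a (ℓ + N) t) (Kc u R κ Q (ℓ + N) (ℓ + N + N)) κ₁ γ₀ (single z)
          ((kS u R κ Q F.stat F.fin).G ℓ (ℓ + N) ω)}ᶜ ≤ q) (ℓ : ℕ) (t : ℝ) :
    (clsM (strip u i1 i2 i a ℓ t) (Kc u R κ Q ℓ (ℓ + N)) κ₁).Nonempty := by
  classical
  obtain ⟨z, hz, hz'⟩ := exists_site h1 h2 h12 i (ℓ : ℤ) (round (t - sh))
  have hr := abs_sub_round (t - sh)
  have h3 := H ℓ z t hz (by
    rw [hz']
    have e : t - ((round (t - sh) : ℝ) + sh) = t - sh - (round (t - sh) : ℝ) := by ring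
    rw [e]
    linarith)
  obtain ⟨ω, hω⟩ : ∃ ω, okM (strip u i1 i2 i a (ℓ + N) t) (Kc u R κ Q (ℓ + N) (ℓ + N + N)) κ₁ γ₀
      (single z) ((kS u R κ Q F.stat F.fin).G ℓ (ℓ + N) ω) := by
    by_contra hcon
    push Not at hcon
    have he : {ω | okM (strip u i1 i2 i a (ℓ + N) t) (Kc u R κ Q (ℓ + N) (ℓ + N + N)) κ₁ γ₀
      (single z) ((kS u R κ Q F.stat F.fin).G ℓ (ℓ + N) ω)}ᶜ = univ := by
      ext ω; simp [hcon ω]
    rw [he, measure_univ] at h3
    exact absurd h3 (not_le.2 hq1)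
  have h4 := out_mem (strip u i1 i2 i a (ℓ + N) t) (Kc u R κ Q (ℓ + N) (ℓ + N + N)) hγ0
    (le_of_eq (tsum_single z))
    (fun y => (kS u R κ Q F.stat F.fin).mass ℓ (ℓ + N) ω y (by omega)) hω
  set lam' := outM (strip u i1 i2 i a (ℓ + N) t) (single z)
    ((kS u R κ Q F.stat F.fin).G ℓ (ℓ + N) ω) with hlam'
  obtain ⟨e, he, he'⟩ := exists_site h1 h2 h12 i (N : ℤ) 0
  refine ⟨fun y => lam' (y + e), ?_, ?_, ?_⟩
  · rw [← h4.1]
    exact (Equiv.addRight e).tsum_eq lam'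
  · intro y hy
    refine h4.2.1 _ fun hcon => hy ?_
    obtain ⟨g1, g2⟩ := hcon
    refine ⟨?_, ?_⟩
    · rw [lev_add, he] at g1
      push_cast at g1
      linarith
    · rw [B4Inst797.lat_add] at g2
      simp only [Pi.add_apply, he', Int.cast_zero, add_zero] at g2
      exact g2
  · refine le_trans (le_of_eq ?_) h4.2.2
    have e1 : ∀ y y', Kc u R κ Q ℓ (ℓ + N) y y' = Kc u R κ Q (ℓ + N) (ℓ + N + N) (y + e) (y' + e) :=
      fun y y' => (Kc_trans F.stat u y y' e (by omega)).symm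
    simp only [e1]
    calc ∑' y, ∑' y', lam' (y + e) * lam' (y' + e) * Kc u R κ Q (ℓ + N) (ℓ + N + N) (y + e) (y' + e)
        = ∑' y, ∑' y', lam' (y + e) * lam' y' * Kc u R κ Q (ℓ + N) (ℓ + N + N) (y + e) y' := by
          refine tsum_congr fun y => ?_
          exact (Equiv.addRight e).tsum_eq
            (fun y' => lam' (y + e) * lam' y' * Kc u R κ Q (ℓ + N) (ℓ + N + N) (y + e) y')
      _ = _ := (Equiv.addRight e).tsum_eq
            (fun y => ∑' y', lam' y * lam' y' * Kc u R κ Q (ℓ + N) (ℓ + N + N) y y')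

end nonempty

/-! ### the tile system -/

section tile

variable {u : Step d} {i1 i2 : Fin d}

/-- **(ROW) for the strips**, own and right targets (output of helper12 / 424 / 923) -/
def RowStrips (u : Step d) (i1 i2 : Fin d) (R : ℕ) (κ : ℝ) (Q : Measure (Environment d))
    [IsProbabilityMeasure Q] (i : Fin 2) (s : ℝ≥0∞) (N : ℕ) (a c1 c2 : ℝ) (κx : ℝ≥0∞) : Prop :=
  ∀ (ℓ : ℕ) (t : ℝ),
    ROW u R κ Q s (ℓ + N : ℕ) (fun x : ℤ => strip u i1 i2 i a ℓ (t + x * (c2 - c1)))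
      (fun x : ℤ => strip u i1 i2 i a (ℓ + N) (t + c1 + x * (c2 - c1))) κx ∧
    ROW u R κ Q s (ℓ + N : ℕ) (fun x : ℤ => strip u i1 i2 i a ℓ (t + x * (c2 - c1)))
      (fun x : ℤ => strip u i1 i2 i a (ℓ + N) (t + c1 + (x + 1) * (c2 - c1))) κx

/-- mass of the success event from a strip -/
lemma succ_ge (F : Bind263.Frame Q κ R) (hc : mkAnn κ Q 0 (Nat0 u R) ≠ 0) {i : Fin 2} {N : ℕ}
    {a c : ℝ} {g : ℝ≥0∞}
    (hm : ∀ α z, z ∈ Ico α (α + a) →
      g ≤ natLaw κ Q u R {s | z + UU u i1 i2 N s i - c ∈ Ico α (α + a)})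
    {ℓ : ℕ} {t : ℝ} {x : Site d} (hx : x ∈ strip u i1 i2 i a ℓ t) {t' : ℝ} (ht' : t' = t + c) :
    mkAnn κ Q 0 (Nat0 u R) * g
      ≤ mkAnn κ Q x (succ u R (ℓ + N : ℕ) (strip u i1 i2 i a (ℓ + N) t') x) := by
  have h1 := strip_ge u i1 i2 i F (x := x) (ℓ := ℓ) (n := N) hx.1 (a := a) (t := t') (g := g) hc ?_
  · refine h1.trans (le_of_eq ?_)
    rw [MobNat927.lint_gT F u x, ← mkAnn_stat F.stat κ x]
    congr 1
    unfold CfT CfM succ succM
    simp
  · refine (hm t (lat i1 i2 x i) hx.2).trans (measure_mono ?_)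
    intro s hs
    simp only [mem_setOf_eq, mem_Ico, ht'] at hs ⊢
    constructor
    · linarith [hs.1]
    · linarith [hs.2]

/-- **THE REGULAR TILE SYSTEM** -/
theorem tileSys_reg (F : Bind263.Frame Q κ R) (h1 : i1 ≠ u.1) (h2 : i2 ≠ u.1) (h12 : i1 ≠ i2)
    (hA : annealedProb Q 0 (escapeEvent (B2d.dirVec u)) ≠ 0) (i : Fin 2)
    {n0 : ℕ → ℝ≥0∞ → ℕ} (hL : LateHyp u R κ Q n0)
    {g s γ κ₁ κx ε q θ : ℝ≥0∞} (hγ0 : γ ≠ 0) (hγ1 : γ ≤ 1) (hκ0 : κ₁ ≠ 0) (hκt : κ₁ ≠ ∞)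
    (hε0 : ε ≠ 0) (hq0 : q ≠ 0) (hKS : KSf u R κ Q g s γ κ₁ κx ε q)
    (hq : 54 * q ≤ 1) (hθ1 : θ ≤ 1) (hθ : 27 * q ≤ θ ^ 2) :
    ∃ γ₀ : ℝ≥0∞, γ₀ ≠ 0 ∧ γ₀ ≤ 1 ∧ ∃ N0 : ℕ, ∀ N, N0 ≤ N → ∀ (c1 c2 a : ℝ) (g' : ℝ≥0∞),
      wl (lp F u h1 h2 h12 (nat_ne_zero F u hA)) i N / 80 ≤ a →
      g ≤ mkAnn κ Q 0 (Nat0 u R) * g' →
      (∀ α z, z ∈ Ico α (α + a) →
        g' ≤ natLaw κ Q u R {s | z + UU u i1 i2 N s i - c1 ∈ Ico α (α + a)}) →
      (∀ α z, z ∈ Ico α (α + a) →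
        g' ≤ natLaw κ Q u R {s | z + UU u i1 i2 N s i - c2 ∈ Ico α (α + a)}) →
      RowStrips u i1 i2 R κ Q i s N a c1 c2 κx →
      WindowK299.TileSys (kS u R κ Q F.stat F.fin) N γ₀ γ θ := by
  have hc := nat_ne_zero F u hA
  haveI : IsProbabilityMeasure (natLaw κ Q u R) := natLaw_isProb hc
  have hq1 : q < 1 := by
    by_contra hcon
    rw [not_lt] at hcon
    have h3 : (54 : ℝ≥0∞) ≤ 1 := by
      calc (54 : ℝ≥0∞) = 54 * 1 := (mul_one _).symm
        _ ≤ 54 * q := by gcongr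
        _ ≤ 1 := hq
    norm_num at h3
  obtain ⟨γ₀, hγ00, hγ01, N1, HN1⟩ :=
    start_core F h1 h2 h12 hA i hq0 hq1.le hκ0 hκt hL
  obtain ⟨N2, HN2⟩ := StartLP872.wl_large (lp F u h1 h2 h12 hc) i 640 (by norm_num)
  refine ⟨γ₀, hγ00, hγ01, N1 + N2 + n0 2 ε, fun N hN c1 c2 a g' ha hg hm1 hm2 hrow => ?_⟩
  obtain ⟨sh, hsh⟩ := HN1 N (by omega) a ha
  have ha8 : 8 ≤ a := by
    have := HN2 N (by omega)
    linarith
  set A := kS u R κ Q F.stat F.fin with hAd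
  have hne := cls_nonempty F h1 h2 h12 i hq1 hγ00 ha8 hsh
  set D := c2 - c1 with hD
  refine TileInst2.tileSys (κ := κ₁) A N hγ0 hγ00 hγ1 hq hθ1 hθ fun L z hz => ?_
  have hz' : lev u z = L := hz
  set α : ℝ := lat i1 i2 z i + sh - c1 with hα
  -- the grid
  set Cell : ℕ → ℤ → Set (Site d) := fun k x =>
    strip u i1 i2 i a (L + k * N) (α + k * c1 + x * D) with hCell
  set En : ℕ → Site d → Site d → ℝ≥0∞ := fun k => Kc u R κ Q (L + k * N) (L + (k + 1) * N) with hEn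
  refine ⟨Cell, En, fun k x ω => kD u R κ Q s (L + k * N) (L + (k + 1) * N) (Cell (k + 1) x) ω,
    fun k x ω => kD u R κ Q s (L + k * N) (L + (k + 1) * N) (Cell (k + 1) (x + 1)) ω, ?_⟩
  have hlv : ∀ k : ℕ, L + k * N + N = L + (k + 1) * N := fun k => by ring
  constructor
  · exact ⟨fun k x ω y z => kD_le u R κ Q s F.stat F.fin _ _ _ ω y z,
      fun k x y z => measF_kD u R κ Q s F.stat F.fin _ _ _ y z,
      fun k x y z => measH_kD u R κ Q s F.stat F.fin _ _ _ y z⟩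
  · exact ⟨fun k x ω y z => kD_le u R κ Q s F.stat F.fin _ _ _ ω y z,
      fun k x y z => measF_kD u R κ Q s F.stat F.fin _ _ _ y z,
      fun k x y z => measH_kD u R κ Q s F.stat F.fin _ _ _ y z⟩
  · intro k x
    have h3 := hne (L + k * N) (α + k * c1 + x * D)
    rw [hlv k] at h3
    exact h3
  · intro k K lam hlam
    set b := L + k * N + N with hb
    have hbe : L + (k + 1) * N = b := (hlv k).symm
    have hbe2 : L + (k + 1 + 1) * N = b + N := by rw [hb]; ring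
    set t : ℝ := α + k * c1 with ht
    obtain ⟨r1, r2⟩ := hrow (L + k * N) t
    have hcell0 : ∀ x, Cell k x = strip u i1 i2 i a (L + k * N) (t + x * D) := fun x => rfl
    have hcell1 : ∀ x : ℤ, Cell (k + 1) x = strip u i1 i2 i a b (t + c1 + x * D) := by
      intro x
      simp only [hCell]
      rw [hbe]
      congr 1
      push_cast
      rw [ht]; ring
    have hcell2 : ∀ x : ℤ, Cell (k + 1) (x + 1) = strip u i1 i2 i a b (t + c1 + (x + 1) * D) := by
      intro x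
      rw [hcell1 (x + 1)]
      congr 1
      push_cast
      ring
    have hE : ExitE u R κ Q (L + k * N) b (b + N) ε := by
      rw [hb]
      exact exitE_of_late F.fin hL hε0 (n := N) (r := 2) (by omega) (by omega) (by omega)
    have hw : ∀ x ∈ K, lam x ∈ Cls u R κ Q (strip u i1 i2 i a (L + k * N) (t + x * D))
        (L + k * N) b κ₁ := by
      intro x _
      have h3 := hlam x
      rw [hcell0] at h3
      simp only [hEn] at h3
      rw [hbe] at h3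
      exact h3
    have h4 := hKS (L + k * N) b (b + N) (by omega) (by omega) ℤ
      (fun x => strip u i1 i2 i a (L + k * N) (t + x * D))
      (fun x => strip u i1 i2 i a b (t + c1 + x * D))
      (fun x => strip u i1 i2 i a b (t + c1 + (x + 1) * D))
      (fun x y hy => hy.1)
      (fun x y hy => hg.trans (succ_ge F hc hm1 hy (by ring)))
      (fun x y hy => hg.trans (succ_ge F hc hm2 hy (by rw [hD]; ring)))
      r1 r2 hE lam K hw
    refine le_trans (measure_mono ?_) h4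
    intro ω hω x hx hcon
    refine hω x hx ?_
    have hsupp : ∀ y, lev u y ≠ (L + k * N : ℕ) → lam x y = 0 :=
      fun y hy => (hw x hx).2.1 y fun h => hy h.1
    have g1 := okM_kD_of_GoodD hsupp hcon.1
    have g2 := okM_kD_of_GoodD hsupp hcon.2
    refine ⟨?_, ?_⟩
    · change okM (Cell (k + 1) x) (Kc u R κ Q (L + (k + 1) * N) (L + (k + 1 + 1) * N)) κ₁ γ (lam x)
        (kD u R κ Q s (L + k * N) (L + (k + 1) * N) (Cell (k + 1) x) ω)
      rw [hcell1, hbe, hbe2]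
      exact g1
    · change okM (Cell (k + 1) (x + 1)) (Kc u R κ Q (L + (k + 1) * N) (L + (k + 1 + 1) * N)) κ₁ γ
        (lam x) (kD u R κ Q s (L + k * N) (L + (k + 1) * N) (Cell (k + 1) (x + 1)) ω)
      rw [hcell2, hbe, hbe2]
      exact g2
  · -- start
    have h3 := hsh L z (α + c1) hz' (by
      rw [hα]
      have e : lat i1 i2 z i + sh - c1 + c1 - (lat i1 i2 z i + sh) = 0 := by ring
      rw [e, abs_zero]
      linarith)
    refine le_trans (measure_mono ?_) h3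
    intro ω hω hcon
    refine hω ⟨0, ?_⟩
    have hcell : Cell 1 0 = strip u i1 i2 i a (L + N) (α + c1) := by
      simp only [hCell]
      congr 1
      · ring
      · push_cast; ring
    change okM (Cell 1 0) (Kc u R κ Q (L + 1 * N) (L + (1 + 1) * N)) κ₁ γ₀ (single z)
      (A.G (L + 0 * N) (L + (0 + 1) * N) ω)
    have e1 : L + 1 * N = L + N := by ring
    have e2 : L + (1 + 1) * N = L + N + N := by ring
    have e3 : L + 0 * N = L := by ring
    rw [hcell, e1, e2, e3]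
    exact hcon

end tile

end Crest.Agent.R154.TileReg872
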