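import Crest.Agent.R154.Top2_169
import Crest.Agent.R154.HI_272
import Crest.Agent.R154.D2Fin_36
import Crest.Agent.R154.SpineH_796

/-!
Row 154 (helper28), SPLIT GLUE: the window input `HWPos` is needed only for uniformly elliptic
frames (`0 < κ`); it gives S0220 and S0221.  S0219 (iid, merely elliptic) hangs on `NBProp` only
(796's `s0219'`).
-/

set_option autoImplicit false

namespace Crest.Agent.R154.Top28

open MeasureTheory ProbabilityTheory Crest.ProbabilityR.RandomEnvironment Crest.Agent.R154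
open Crest.Agent.R154.Spine Crest.Agent.R154.Mk561
open scoped ENNReal

/-- **(W) for uniformly elliptic frames only** (`HWProp` with `0 < κ`, `kf d κ = κ`). -/
def HWPos : Prop :=
  ∀ (d : ℕ) (_ : 3 ≤ d) (Q : Measure (Environment d)) [IsProbabilityMeasure Q] (κ : ℝ) (R : ℕ)
    (F : Bind263.Frame Q κ R) (_ : KB424.Half κ Q) (_ : 0 < κ) (_ : kf d κ = κ) (u : Step d),
    annealedProb Q 0 (escapeEvent (B2d.dirVec u)) ≠ 0 →
      ChainFL.HW (D2Asm244.kT u R κ Q F.stat F.fin)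

theorem hwpos_of (h : Top169.HWProp) : HWPos :=
  fun d hd Q _ κ R F hh _ _ u hu => h d hd Q κ R F hh u hu

/-- `FLe` for uniformly elliptic laws -/
theorem fle_of_hwpos (hW : HWPos) {d : ℕ} (hd : 3 ≤ d) {Q : Measure (Environment d)}
    [IsProbabilityMeasure Q] {κ : ℝ} {R : ℕ} (hκ : 0 < κ) (F : Bind263.Frame Q κ R)
    (hell : ∀ᵐ ω ∂Q, ∀ (x : Site d) (e : Step d), κ ≤ (ω x).1 e) (u : Step d)
    (hu : annealed Q 0 (escapeEvent (B2d.dirVec u)) ≠ 0) : FinE804.FLe Q u := by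
  obtain ⟨F', hk, hh⟩ := KB424.frame_half hκ F.stat hell F.fin
  have hA : annealedProb Q 0 (escapeEvent (B2d.dirVec u)) ≠ 0 := by
    rw [← annealed_apply _ 0 (B2d.measurableSet_escapeEvent _)]
    exact hu
  exact ChainFL.fle_of F' u hA (hW d hd Q (κ / 2) R F' hh (half_pos hκ) hk u hA)
    (Box272.hiProp d hd Q (κ / 2) R F' hh u hA)

/-- 796's `FL3Prop` from `HWPos` -/
theorem fl3_of_hwpos (hW : HWPos) : FL3Prop :=
  fun d hd Q _ _ _ hκ F hell u hu =>
    FLofFLe169.flofFLe d Q _ hκ hell u (fle_of_hwpos hW hd hκ F hell u hu)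

/-- **S0220** from `HWPos` -/
theorem t0220 (hW : HWPos) : T0220 := s0220_weak (fl3_of_hwpos hW) D2Fin36.fl2

/-- **S0221** from `HWPos` -/
theorem t0221 (hW : HWPos) : T0221 := s0221' (fl3_of_hwpos hW)

/-- **THE ROW**: `HWPos` (uniformly elliptic windows) and `NBProp` (iid, merely elliptic) -/
theorem row3 (hW : HWPos) (hNB : NBProp) : T0219 ∧ T0220 ∧ T0221 :=
  ⟨s0219' hNB, t0220 hW, t0221 hW⟩

end Crest.Agent.R154.Top28
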