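import Crest.Agent.R154.FLofFLe_169
import Crest.Agent.R154.D1Small_569
import Crest.Agent.R154.D2Asm_244

/-!
Row 154 (helper169), TOP GLUE: the whole row (S0219, S0220, S0221) from the two open inputs
`Spine.FLeProp` (`d ≥ 3`) and `D2Asm244.TileD2` (`d = 2`).
-/

set_option autoImplicit false

namespace Crest.Agent.R154.Top169

open MeasureTheory ProbabilityTheory Crest.ProbabilityR.RandomEnvironment Crest.Agent.R154
open Crest.Agent.R154.Spine

/-- every direction of the plane has a lateral coordinate -/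
lemma exists_lat (u : Step 2) : ∃ i' : Fin 2, i' ≠ u.1 := by
  by_contra hcon
  push Not at hcon
  exact absurd ((hcon 0).trans (hcon 1).symm) (by decide)

theorem smallD2 : D2Asm244.SmallD2 := by
  intro ν _ κ hκ hν u hu A hA
  exact D1S.small_heights ν hκ hν u (exists_lat u) hu hA

theorem fl2 (h : D2Asm244.TileD2) : FL2Prop1 := D2Asm244.fl2_of h smallD2

/-- **S0219** from `FLeProp` -/
theorem t0219 (h : FLeProp) : T0219 := s0219_of_FLe h

/-- **S0220** from `FLeProp` and the `d = 2` tile -/
theorem t0220 (h : FLeProp) (h2 : D2Asm244.TileD2) : T0220 :=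
  s0220_of_FLe h FLofFLe169.flofFLe (fl2 h2)

/-- **S0221** from `FLeProp` -/
theorem t0221 (h : FLeProp) : T0221 := s0221_of_FLe h FLofFLe169.flofFLe

/-- **THE ROW** from the two open inputs -/
theorem row (h : FLeProp) (h2 : D2Asm244.TileD2) : T0219 ∧ T0220 ∧ T0221 :=
  ⟨t0219 h, t0220 h h2, t0221 h⟩

end Crest.Agent.R154.Top169
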