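import Crest.Agent.R154.Home_903

/-!
Row 154, `d ≥ 3` (helper469), HOME MASS, HM5b: sequential composition of macro steps for ONE law.

* `ScoreAt`: over one macro step, off probability `q i` (given the rows below), the part of the push
  that stays within `d0 + i * d1` has mass `≥ ε0 * ε1 ^ i * tot w`.
* `JumpAt`: off probability `δ`, the part of the push displaced by `≥ Δ` has mass `≥ ε * tot w`.
* `home`: `n + 1` macro steps, static law.
* `trav`: `n + 1` macro steps, jump law at every step, home law of the first good score when the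
  jump fails.
-/

set_option autoImplicit false
set_option linter.unusedSectionVars false

namespace Crest.Agent.R154.Trav469

open MeasureTheory ProbabilityTheory Set
open Crest.Agent.R154.RatioR872 Crest.Agent.R154.RatioR872.KerSys
open Crest.Agent.R154.Home903
open scoped ENNReal Classical

variable {S : Type*} [Countable S] {Ω : Type*} {m0 : MeasurableSpace Ω} {P : Measure Ω}
variable {A : KerSys S P}

/-- scores over one macro step -/
def ScoreAt (A : KerSys S P) (φ : S → ℝ) (a b : ℕ) (d0 d1 : ℝ) (ε0 ε1 : ℝ≥0∞) (q : ℕ → ℝ≥0∞) :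
    Prop :=
  ∀ w : Ω → S → ℝ≥0∞, A.Wt a w → (∀ ω, tot w ω ≤ 1) → ∀ B, MeasurableSet[A.F a] B → ∀ i : ℕ,
    P (B ∩ {ω | tot (rpush A (fun x y => |φ y - φ x| ≤ d0 + i * d1) a b w) ω
      < ε0 * ε1 ^ i * tot w ω}) ≤ q i * P B

/-- the jump over one macro step -/
def JumpAt (A : KerSys S P) (φ : S → ℝ) (a b : ℕ) (Δ : ℝ) (ε δ : ℝ≥0∞) : Prop :=
  ∀ w : Ω → S → ℝ≥0∞, A.Wt a w → (∀ ω, tot w ω ≤ 1) → ∀ B, MeasurableSet[A.F a] B →
    P (B ∩ {ω | tot (rpush A (fun x y => Δ ≤ φ y - φ x) a b w) ω < ε * tot w ω}) ≤ δ * P B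

lemma JumpAt.mono_eps {φ : S → ℝ} {a b : ℕ} {Δ : ℝ} {ε ε' δ : ℝ≥0∞} (h : JumpAt A φ a b Δ ε δ)
    (he : ε' ≤ ε) : JumpAt A φ a b Δ ε' δ := by
  intro w hw ht B hB
  refine le_trans (measure_mono (inter_subset_inter_right _ ?_)) (h w hw ht B hB)
  intro ω hω
  exact lt_of_lt_of_le hω (mul_le_mul_left he _)

lemma rpush_mono {D D' : S → S → Prop} (h : ∀ x y, D x y → D' x y) (a b : ℕ)
    (w : Ω → S → ℝ≥0∞) (ω : Ω) (y : S) : rpush A D a b w ω y ≤ rpush A D' a b w ω y := by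
  unfold rpush
  refine ENNReal.tsum_le_tsum fun x => mul_le_mul_right ?_ _
  by_cases hd : D x y
  · rw [if_pos hd, if_pos (h x y hd)]
  · rw [if_neg hd]
    exact zero_le

lemma tot_rpush_mono {D D' : S → S → Prop} (h : ∀ x y, D x y → D' x y) (a b : ℕ)
    (w : Ω → S → ℝ≥0∞) (ω : Ω) : tot (rpush A D a b w) ω ≤ tot (rpush A D' a b w) ω :=
  ENNReal.tsum_le_tsum fun y => rpush_mono h a b w ω y

lemma tot_rpush_le_tot {D : S → S → Prop} {a b : ℕ} (hab : a ≤ b) (w : Ω → S → ℝ≥0∞) (ω : Ω) :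
    tot (rpush A D a b w) ω ≤ tot w ω :=
  (tot_rpush_le D a b w ω).trans (tot_push_le A hab w ω)

/-- composition of restricted pushes -/
lemma tot_rpush_comp {a b c : ℕ} (hab : a ≤ b) (hbc : b ≤ c) {D1 D2 D3 : S → S → Prop}
    (h : ∀ x y z, D1 x y → D2 y z → D3 x z) :
    ∀ᵐ ω ∂P, ∀ w : Ω → S → ℝ≥0∞,
      tot (rpush A D2 b c (rpush A D1 a b w)) ω ≤ tot (rpush A D3 a c w) ω := by
  filter_upwards [A.comp a b c hab hbc] with ω hω w
  refine ENNReal.tsum_le_tsum fun z => ?_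
  unfold rpush
  have e1 : ∀ y, (∑' x, w ω x * (if D1 x y then A.G a b ω x y else 0))
      * (if D2 y z then A.G b c ω y z else 0)
      = ∑' x, w ω x * ((if D1 x y then A.G a b ω x y else 0)
        * (if D2 y z then A.G b c ω y z else 0)) := by
    intro y
    rw [← ENNReal.tsum_mul_right]
    exact tsum_congr fun x => by ring
  simp_rw [e1]
  rw [ENNReal.tsum_comm]
  refine ENNReal.tsum_le_tsum fun x => ?_
  rw [ENNReal.tsum_mul_left]
  refine mul_le_mul_right ?_ _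
  by_cases h3 : D3 x z
  · rw [if_pos h3]
    refine le_trans (ENNReal.tsum_le_tsum fun y => ?_) (hω x z)
    refine mul_le_mul' ?_ ?_
    · by_cases h1 : D1 x y
      · rw [if_pos h1]
      · rw [if_neg h1]; exact zero_le
    · by_cases h2 : D2 y z
      · rw [if_pos h2]
      · rw [if_neg h2]; exact zero_le
  · rw [if_neg h3]
    refine le_of_eq (ENNReal.tsum_eq_zero.2 fun y => ?_)
    by_cases h1 : D1 x y
    · by_cases h2 : D2 y z
      · exact absurd (h x y z h1 h2) h3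
      · rw [if_neg h2, mul_zero]
    · rw [if_neg h1, zero_mul]

/-- the sum `∑_{i ≤ s} β^i (2β)^{s-i+1} ≤ 2 (2β)^{s+1}` -/
lemma geo_sum (β : ℝ≥0∞) (s : ℕ) :
    ∑ i ∈ Finset.range (s + 1), β ^ i * (2 * β) ^ (s - i + 1) ≤ 2 * (2 * β) ^ (s + 1) := by
  have h1 : ∀ i ∈ Finset.range (s + 1), β ^ i * (2 * β) ^ (s - i + 1)
      = β ^ (s + 1) * 2 ^ (s - i + 1) := by
    intro i hi
    rw [Finset.mem_range] at hi
    rw [mul_pow]
    have : s + 1 = i + (s - i + 1) := by omega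
    calc β ^ i * (2 ^ (s - i + 1) * β ^ (s - i + 1))
        = (β ^ i * β ^ (s - i + 1)) * 2 ^ (s - i + 1) := by ring
      _ = β ^ (s + 1) * 2 ^ (s - i + 1) := by rw [← pow_add, ← this]
  rw [Finset.sum_congr rfl h1, ← Finset.mul_sum]
  have h2 : ∑ i ∈ Finset.range (s + 1), (2 : ℝ≥0∞) ^ (s - i + 1) ≤ 2 * 2 ^ (s + 1) := by
    have h3 : ∑ i ∈ Finset.range (s + 1), (2 : ℝ≥0∞) ^ (s - i + 1)
        = ∑ i ∈ Finset.range (s + 1), (2 : ℝ≥0∞) ^ (i + 1) := by
      rw [← Finset.sum_range_reflect]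
      refine Finset.sum_congr rfl fun i hi => ?_
      rw [Finset.mem_range] at hi
      congr 1
      omega
    rw [h3]
    clear h1 h3
    induction s with
    | zero => norm_num
    | succ s ih =>
      rw [Finset.sum_range_succ]
      calc ∑ i ∈ Finset.range (s + 1), (2 : ℝ≥0∞) ^ (i + 1) + 2 ^ (s + 1 + 1)
          ≤ 2 * 2 ^ (s + 1) + 2 ^ (s + 1 + 1) := by gcongr
        _ = 2 * 2 ^ (s + 1 + 1) := by ring
  calc β ^ (s + 1) * ∑ i ∈ Finset.range (s + 1), (2 : ℝ≥0∞) ^ (s - i + 1)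
      ≤ β ^ (s + 1) * (2 * 2 ^ (s + 1)) := by gcongr
    _ = 2 * (2 * β) ^ (s + 1) := by rw [mul_pow]; ring

/-- one stage: split on the first good score -/
lemma stage {φ : S → ℝ} {a b : ℕ} (hab : a ≤ b) {d0 d1 : ℝ} {ε0 ε1 : ℝ≥0∞} {q : ℕ → ℝ≥0∞}
    (hS : ScoreAt A φ a b d0 d1 ε0 ε1 q) {w : Ω → S → ℝ≥0∞} (hw : A.Wt a w)
    (ht : ∀ ω, tot w ω ≤ 1) {B : Set Ω} (hB : MeasurableSet[A.F a] B)
    -- a piece of `B` known at level `b` (`B` itself, or the jump failure)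
    {B' : Set Ω} (hB' : MeasurableSet[A.F b] B') (hBB : B' ⊆ B) {δ : ℝ≥0∞}
    (hδ : P B' ≤ δ * P B) (s : ℕ) {E : Set Ω} {R : ℕ → ℝ≥0∞}
    (hE : ∀ i, i ≤ s → ∀ B1, MeasurableSet[A.F b] B1 → B1 ⊆ B' →
      (∀ ω ∈ B1, ε0 * ε1 ^ i * tot w ω
        ≤ tot (rpush A (fun x y => |φ y - φ x| ≤ d0 + i * d1) a b w) ω) →
      P (B1 ∩ E) ≤ R i * P B1) {m : ℕ → ℝ≥0∞} (hm0 : δ ≤ m 0) (hm : ∀ i, min δ (q i) ≤ m (i + 1)) :
    P (B' ∩ E) ≤ (∑ i ∈ Finset.range (s + 1), m i * R i + m (s + 1)) * P B := by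
  set X : ℕ → Ω → ℝ≥0∞ := fun i ω =>
    tot (rpush A (fun x y => |φ y - φ x| ≤ d0 + i * d1) a b w) ω with hX
  set Gd : ℕ → Set Ω := fun i => {ω | ε0 * ε1 ^ i * tot w ω ≤ X i ω} with hGd
  have hXm : ∀ i, Measurable[A.F b] (X i) := fun i => (rpush_wt hab hw).meas_tot
  have htm : Measurable[A.F b] (fun ω => tot w ω) := hw.meas_tot.mono (A.F.mono hab) le_rfl
  have hGm : ∀ i, MeasurableSet[A.F b] (Gd i) := fun i =>
    measurableSet_le (htm.const_mul _) (hXm i)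
  set C : ℕ → Set Ω := fun i => B' ∩ (Gd i ∩ ⋂ j ∈ Finset.range i, (Gd j)ᶜ) with hC
  have hCm : ∀ i, MeasurableSet[A.F b] (C i) := fun i =>
    hB'.inter ((hGm i).inter (Finset.measurableSet_biInter _ fun j _ => (hGm j).compl))
  have hbad : ∀ i, P (B' ∩ (Gd i)ᶜ) ≤ m (i + 1) * P B := by
    intro i
    have h1 : P (B' ∩ (Gd i)ᶜ) ≤ δ * P B := (measure_mono inter_subset_left).trans hδ
    have h2 : P (B' ∩ (Gd i)ᶜ) ≤ q i * P B := by
      refine le_trans (measure_mono ?_) (hS w hw ht B hB i)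
      rintro ω ⟨h1, h2⟩
      refine ⟨hBB h1, ?_⟩
      show X i ω < ε0 * ε1 ^ i * tot w ω
      exact lt_of_not_ge fun h => h2 h
    calc P (B' ∩ (Gd i)ᶜ) ≤ min (δ * P B) (q i * P B) := le_min h1 h2
      _ = min δ (q i) * P B := by
          rcases le_total δ (q i) with h | h
          · rw [min_eq_left h, min_eq_left (mul_le_mul_left h _)]
          · rw [min_eq_right h, min_eq_right (mul_le_mul_left h _)]
      _ ≤ m (i + 1) * P B := mul_le_mul_left (hm i) _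
  have hCP : ∀ i, P (C i) ≤ m i * P B := by
    intro i
    rcases i with _ | i
    · exact (measure_mono inter_subset_left).trans (hδ.trans (mul_le_mul_left hm0 _))
    · refine le_trans (measure_mono ?_) (hbad i)
      rintro ω ⟨h1, -, h3⟩
      refine ⟨h1, ?_⟩
      simp only [mem_iInter] at h3
      exact h3 i (Finset.mem_range.2 (Nat.lt_succ_self i))
  have hcover : B' ∩ E ⊆ (⋃ i ∈ Finset.range (s + 1), C i ∩ E) ∪ (B' ∩ (Gd s)ᶜ) := by
    rintro ω ⟨h1, h2⟩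
    by_cases hs : ω ∈ Gd s
    · left
      have hex : ∃ i, ω ∈ Gd i := ⟨s, hs⟩
      have hmin : Nat.find hex ≤ s := Nat.find_min' hex hs
      simp only [mem_iUnion]
      refine ⟨Nat.find hex, Finset.mem_range.2 (Nat.lt_succ_of_le hmin), ⟨h1, Nat.find_spec hex, ?_⟩, h2⟩
      simp only [mem_iInter]
      intro j hj
      exact Nat.find_min hex (Finset.mem_range.1 hj)
    · right
      exact ⟨h1, hs⟩
  calc P (B' ∩ E) ≤ P ((⋃ i ∈ Finset.range (s + 1), C i ∩ E) ∪ (B' ∩ (Gd s)ᶜ)) :=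
        measure_mono hcover
    _ ≤ P (⋃ i ∈ Finset.range (s + 1), C i ∩ E) + P (B' ∩ (Gd s)ᶜ) := measure_union_le _ _
    _ ≤ ∑ i ∈ Finset.range (s + 1), P (C i ∩ E) + m (s + 1) * P B :=
        add_le_add (measure_biUnion_finset_le _ _) (hbad s)
    _ ≤ ∑ i ∈ Finset.range (s + 1), m i * R i * P B + m (s + 1) * P B := by
        refine add_le_add (Finset.sum_le_sum fun i hi => ?_) le_rfl
        rw [Finset.mem_range] at hi
        calc P (C i ∩ E) ≤ R i * P (C i) :=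
              hE i (by omega) (C i) (hCm i) inter_subset_left fun ω hω => hω.2.1
          _ ≤ R i * (m i * P B) := mul_le_mul_right (hCP i) _
          _ = m i * R i * P B := by ring
    _ = (∑ i ∈ Finset.range (s + 1), m i * R i + m (s + 1)) * P B := by
        rw [← Finset.sum_mul, add_mul]

/-- the a.e. inclusion of the next failure event -/
lemma step_le {a b c : ℕ} (hab : a ≤ b) (hbc : b ≤ c) {D1 D2 D3 : S → S → Prop}
    (h : ∀ x y z, D1 x y → D2 y z → D3 x z) {w : Ω → S → ℝ≥0∞} {ε ε' ε'' : ℝ≥0∞}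
    (hε : ε'' ≤ ε' * ε) {B1 : Set Ω}
    (h1 : ∀ ω ∈ B1, ε * tot w ω ≤ tot (rpush A D1 a b w) ω) :
    P (B1 ∩ {ω | tot (rpush A D3 a c w) ω < ε'' * tot w ω})
      ≤ P (B1 ∩ {ω | tot (rpush A D2 b c (rpush A D1 a b w)) ω
        < ε' * tot (rpush A D1 a b w) ω}) := by
  refine measure_mono_ae ?_
  filter_upwards [tot_rpush_comp (A := A) hab hbc h] with ω hω
  rintro ⟨h2, h3⟩
  refine ⟨h2, ?_⟩
  calc tot (rpush A D2 b c (rpush A D1 a b w)) ω ≤ tot (rpush A D3 a c w) ω := hω w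
    _ < ε'' * tot w ω := h3
    _ ≤ ε' * ε * tot w ω := mul_le_mul_left hε _
    _ = ε' * (ε * tot w ω) := by ring
    _ ≤ ε' * tot (rpush A D1 a b w) ω := mul_le_mul_right (h1 ω h2) _

/-- **the static law over `n + 1` macro steps.** -/
theorem home {φ : S → ℝ} {d0 d1 : ℝ} {ε0 ε1 : ℝ≥0∞} {q : ℕ → ℝ≥0∞} {C β : ℝ≥0∞}
    (hC : 1 ≤ C) (hq : ∀ i, q i ≤ C * β ^ (i + 1)) :
    ∀ (n : ℕ) (lv : ℕ → ℕ), Monotone lv →
      (∀ i ≤ n, ScoreAt A φ (lv i) (lv (i + 1)) d0 d1 ε0 ε1 q) →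
      ∀ (s : ℕ) (w : Ω → S → ℝ≥0∞), A.Wt (lv 0) w → (∀ ω, tot w ω ≤ 1) →
      ∀ B, MeasurableSet[A.F (lv 0)] B →
      P (B ∩ {ω | tot (rpush A (fun x y => |φ y - φ x| ≤ ((n + 1 : ℕ) : ℝ) * d0 + s * d1)
        (lv 0) (lv (n + 1)) w) ω < ε0 ^ (n + 1) * ε1 ^ s * tot w ω})
        ≤ (3 * C) ^ (n + 1) * (2 * β) ^ (s + 1) * P B := by
  intro n
  induction n with
  | zero =>
    intro lv hlv hS s w hw ht B hB
    have h1 := hS 0 le_rfl w hw ht B hB s
    simp only [zero_add, Nat.cast_one, one_mul, pow_one]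
    refine h1.trans (mul_le_mul_left ?_ _)
    refine (hq s).trans (mul_le_mul' ?_ ?_)
    · calc C = 1 * C := (one_mul C).symm
        _ ≤ 3 * C := mul_le_mul_left (by norm_num) _
    · refine pow_le_pow_left' ?_ _
      calc β = 1 * β := (one_mul β).symm
        _ ≤ 2 * β := mul_le_mul_left (by norm_num) _
  | succ n ih =>
    intro lv hlv hS s w hw ht B hB
    have h01 : lv 0 ≤ lv 1 := hlv (by omega)
    have h1n : lv 1 ≤ lv (n + 1 + 1) := hlv (by omega)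
    set m : ℕ → ℝ≥0∞ := fun i => C * β ^ i with hm
    have hst := stage (A := A) h01 (hS 0 (by omega)) hw ht hB (B' := B)
      (A.F.mono h01 _ hB) subset_rfl (δ := 1) (by rw [one_mul]) s
      (E := {ω | tot (rpush A (fun x y => |φ y - φ x| ≤ ((n + 1 + 1 : ℕ) : ℝ) * d0 + s * d1)
        (lv 0) (lv (n + 1 + 1)) w) ω < ε0 ^ (n + 1 + 1) * ε1 ^ s * tot w ω})
      (R := fun i => (3 * C) ^ (n + 1) * (2 * β) ^ (s - i + 1)) (m := m) ?_
      (by simpa [hm] using hC) (fun i => (min_le_right _ _).trans (hq i))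
    · refine hst.trans (mul_le_mul_left ?_ _)
      calc ∑ i ∈ Finset.range (s + 1), m i * ((3 * C) ^ (n + 1) * (2 * β) ^ (s - i + 1)) + m (s + 1)
          = C * (3 * C) ^ (n + 1) * ∑ i ∈ Finset.range (s + 1), β ^ i * (2 * β) ^ (s - i + 1)
            + C * β ^ (s + 1) := by
            rw [Finset.mul_sum]
            congr 1
            exact Finset.sum_congr rfl fun i _ => by simp only [hm]; ring
        _ ≤ C * (3 * C) ^ (n + 1) * (2 * (2 * β) ^ (s + 1))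
            + C * (3 * C) ^ (n + 1) * (2 * β) ^ (s + 1) := by
            refine add_le_add (mul_le_mul_right (geo_sum β s) _) (mul_le_mul' ?_ ?_)
            · calc C = C * 1 := (mul_one C).symm
                _ ≤ C * (3 * C) ^ (n + 1) := by
                  refine mul_le_mul_right (one_le_pow_of_one_le' ?_ _) _
                  calc (1 : ℝ≥0∞) = 1 * 1 := (mul_one 1).symm
                    _ ≤ 3 * C := mul_le_mul' (by norm_num) hC
            · refine pow_le_pow_left' ?_ _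
              calc β = 1 * β := (one_mul β).symm
                _ ≤ 2 * β := mul_le_mul_left (by norm_num) _
        _ = (3 * C) ^ (n + 1 + 1) * (2 * β) ^ (s + 1) := by ring
    · intro i hi B1 hB1 hB1s hgood
      have hw1 : A.Wt (lv 1) (rpush A (fun x y => |φ y - φ x| ≤ d0 + i * d1) (lv 0) (lv 1) w) :=
        rpush_wt h01 hw
      have ht1 : ∀ ω, tot (rpush A (fun x y => |φ y - φ x| ≤ d0 + i * d1) (lv 0) (lv 1) w) ω ≤ 1 :=
        fun ω => (tot_rpush_le_tot h01 w ω).trans (ht ω)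
      have hih := ih (fun j => lv (j + 1)) (fun j k hjk => hlv (by omega))
        (fun j hj => hS (j + 1) (by omega)) (s - i) _ hw1 ht1 B1 hB1
      refine le_trans (step_le (A := A) h01 h1n
        (D1 := fun x y => |φ y - φ x| ≤ d0 + i * d1)
        (D2 := fun x y => |φ y - φ x| ≤ ((n + 1 : ℕ) : ℝ) * d0 + ((s - i : ℕ) : ℝ) * d1)
        (ε := ε0 * ε1 ^ i) (ε' := ε0 ^ (n + 1) * ε1 ^ (s - i)) ?_ ?_ hgood) hih
      · intro x y z hxy hyz
        have e1 : ((s - i : ℕ) : ℝ) = (s : ℝ) - i := by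
          rw [Nat.cast_sub hi]
        have e2 : φ z - φ x = (φ z - φ y) + (φ y - φ x) := by ring
        rw [e2]
        refine (abs_add_le _ _).trans ?_
        refine (add_le_add hyz hxy).trans (le_of_eq ?_)
        rw [e1]
        push_cast
        ring
      · refine le_of_eq ?_
        have e3 : ε1 ^ s = ε1 ^ (s - i) * ε1 ^ i := by
          rw [← pow_add]
          congr 1
          omega
        rw [e3]
        ring

lemma geo_two {β : ℝ≥0∞} (hβ : 2 * β ≤ 1) (s : ℕ) : ∑ i ∈ Finset.range (s + 1), β ^ i ≤ 2 := by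
  have h1 : ∑ i ∈ Finset.range (s + 1), β ^ i + β ^ s ≤ 2 := by
    induction s with
    | zero => norm_num
    | succ s ih =>
      rw [Finset.sum_range_succ]
      calc ∑ i ∈ Finset.range (s + 1), β ^ i + β ^ (s + 1) + β ^ (s + 1)
          = ∑ i ∈ Finset.range (s + 1), β ^ i + (2 * β) * β ^ s := by ring
        _ ≤ ∑ i ∈ Finset.range (s + 1), β ^ i + 1 * β ^ s := by gcongr
        _ ≤ 2 := by rw [one_mul]; exact ih
  exact le_self_add.trans h1

/-- **the traveller over `n + 1` macro steps.**  `b` = allowed failures of the jump, `s` = total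
score of the static steps. -/
theorem trav {φ : S → ℝ} {d0 d1 Δ : ℝ} (hd0 : 0 ≤ d0) (hd1 : 0 ≤ d1) (hΔ : 0 ≤ Δ)
    {ε ε1 : ℝ≥0∞} (hε1 : ε1 ≤ 1) {q : ℕ → ℝ≥0∞} {C β δ δ1 : ℝ≥0∞}
    (hβ : 2 * β ≤ 1) (hδ1 : δ1 ≤ 1) (hδ : δ ≤ δ1 * C)
    (hq : ∀ i, min δ (q i) ≤ δ1 * (C * β ^ (i + 1))) :
    ∀ (n : ℕ) (lv : ℕ → ℕ), Monotone lv →
      (∀ i ≤ n, ScoreAt A φ (lv i) (lv (i + 1)) d0 d1 ε ε1 q) →
      (∀ i ≤ n, JumpAt A φ (lv i) (lv (i + 1)) Δ ε δ) →
      ∀ (b s : ℕ) (w : Ω → S → ℝ≥0∞), A.Wt (lv 0) w → (∀ ω, tot w ω ≤ 1) →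
      ∀ B, MeasurableSet[A.F (lv 0)] B →
      P (B ∩ {ω | tot (rpush A (fun x y =>
        (((n + 1 : ℕ) : ℝ) - b) * Δ - (((n + 1 : ℕ) : ℝ) * d0 + s * d1) ≤ φ y - φ x)
        (lv 0) (lv (n + 1)) w) ω < ε ^ (n + 1) * ε1 ^ s * tot w ω})
        ≤ (1 + 3 * C) ^ (n + 1) * (δ1 ^ b + (2 * β) ^ (s + 1)) * P B := by
  have hX1 : (1 : ℝ≥0∞) ≤ 1 + 3 * C := le_self_add
  have hββ : β ≤ 2 * β := by
    calc β = 1 * β := (one_mul β).symm
      _ ≤ 2 * β := mul_le_mul_left (by norm_num) _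
  intro n
  induction n with
  | zero =>
    intro lv hlv hS hJ b s w hw ht B hB
    have h01 : lv 0 ≤ lv 1 := hlv (by omega)
    rcases b with _ | b
    · refine (measure_mono inter_subset_left).trans ?_
      calc P B = 1 * P B := (one_mul _).symm
        _ ≤ _ := mul_le_mul_left (one_le_mul (one_le_pow_of_one_le' hX1 _)
            (by rw [pow_zero]; exact le_self_add)) _
    · simp only [zero_add, pow_one, Nat.cast_one, one_mul]
      set BJ : Set Ω := B ∩ {ω | tot (rpush A (fun x y => Δ ≤ φ y - φ x) (lv 0) (lv 1) w) ω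
        < ε * tot w ω} with hBJ
      set BS : Set Ω := B ∩ {ω | tot (rpush A (fun x y => |φ y - φ x| ≤ d0 + s * d1)
        (lv 0) (lv 1) w) ω < ε * ε1 ^ s * tot w ω} with hBS
      have hPJ : P BJ ≤ δ * P B := hJ 0 le_rfl w hw ht B hB
      have hPS : P BS ≤ q s * P B := hS 0 le_rfl w hw ht B hB s
      have hsub : B ∩ {ω | tot (rpush A (fun x y =>
          (1 - ((b + 1 : ℕ) : ℝ)) * Δ - (d0 + s * d1) ≤ φ y - φ x)
          (lv 0) (lv 1) w) ω < ε * ε1 ^ s * tot w ω} ⊆ BJ ∩ BS := by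
        rintro ω ⟨h1, h2⟩
        have hneg : (1 - ((b + 1 : ℕ) : ℝ)) * Δ ≤ 0 := by
          push_cast
          have : (0 : ℝ) ≤ b := Nat.cast_nonneg b
          nlinarith
        have hsd : 0 ≤ (s : ℝ) * d1 := mul_nonneg (Nat.cast_nonneg s) hd1
        refine ⟨⟨h1, ?_⟩, ⟨h1, ?_⟩⟩
        · refine lt_of_le_of_lt (tot_rpush_mono (fun x y hxy => ?_) _ _ w ω)
            (h2.trans_le ?_)
          · show (1 - ((b + 1 : ℕ) : ℝ)) * Δ - (d0 + s * d1) ≤ φ y - φ x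
            have : Δ ≤ φ y - φ x := hxy
            linarith
          · calc ε * ε1 ^ s * tot w ω ≤ ε * 1 * tot w ω := by
                  gcongr
                  exact pow_le_one' hε1 s
              _ = ε * tot w ω := by rw [mul_one]
        · refine lt_of_le_of_lt (tot_rpush_mono (fun x y hxy => ?_) _ _ w ω) h2
          show (1 - ((b + 1 : ℕ) : ℝ)) * Δ - (d0 + s * d1) ≤ φ y - φ x
          have h3 : |φ y - φ x| ≤ d0 + s * d1 := hxy
          have h4 := (abs_le.1 h3).1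
          linarith
      have hmin : P (BJ ∩ BS) ≤ min δ (q s) * P B := by
        have h1 : P (BJ ∩ BS) ≤ δ * P B := (measure_mono inter_subset_left).trans hPJ
        have h2 : P (BJ ∩ BS) ≤ q s * P B := (measure_mono inter_subset_right).trans hPS
        rcases le_total δ (q s) with h | h
        · rw [min_eq_left h]; exact h1
        · rw [min_eq_right h]; exact h2
      refine ((measure_mono hsub).trans hmin).trans (mul_le_mul_left ?_ _)
      calc min δ (q s) ≤ δ1 * (C * β ^ (s + 1)) := hq s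
        _ ≤ 1 * ((1 + 3 * C) * (2 * β) ^ (s + 1)) := by
            refine mul_le_mul' hδ1 (mul_le_mul' ?_ (pow_le_pow_left' hββ _))
            calc C = 0 + 1 * C := by rw [one_mul, zero_add]
              _ ≤ 1 + 3 * C := add_le_add zero_le (mul_le_mul_left (by norm_num) _)
        _ ≤ (1 + 3 * C) * (δ1 ^ (b + 1) + (2 * β) ^ (s + 1)) := by
            rw [one_mul]
            exact mul_le_mul_right le_add_self _
  | succ n ih =>
    intro lv hlv hS hJ b s w hw ht B hB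
    have h01 : lv 0 ≤ lv 1 := hlv (by omega)
    have h1n : lv 1 ≤ lv (n + 1 + 1) := hlv (by omega)
    rcases b with _ | b
    · refine (measure_mono inter_subset_left).trans ?_
      calc P B = 1 * P B := (one_mul _).symm
        _ ≤ _ := mul_le_mul_left (one_le_mul (one_le_pow_of_one_le' hX1 _)
            (by rw [pow_zero]; exact le_self_add)) _
    set E : Set Ω := {ω | tot (rpush A (fun x y =>
        (((n + 1 + 1 : ℕ) : ℝ) - ((b + 1 : ℕ) : ℝ)) * Δ
          - (((n + 1 + 1 : ℕ) : ℝ) * d0 + s * d1) ≤ φ y - φ x)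
        (lv 0) (lv (n + 1 + 1)) w) ω < ε ^ (n + 1 + 1) * ε1 ^ s * tot w ω} with hE
    set J : Set Ω := {ω | tot (rpush A (fun x y => Δ ≤ φ y - φ x) (lv 0) (lv 1) w) ω
        < ε * tot w ω} with hJd
    have hJm : MeasurableSet[A.F (lv 1)] J :=
      measurableSet_lt ((rpush_wt h01 hw).meas_tot)
        ((hw.meas_tot.mono (A.F.mono h01) le_rfl).const_mul _)
    have hB1 : MeasurableSet[A.F (lv 1)] B := A.F.mono h01 _ hB
    have hPJ : P (B ∩ J) ≤ δ * P B := hJ 0 (by omega) w hw ht B hB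
    have hlv' : Monotone fun j => lv (j + 1) := fun j k hjk => hlv (by omega)
    have hS' : ∀ i ≤ n, ScoreAt A φ (lv (i + 1)) (lv (i + 1 + 1)) d0 d1 ε ε1 q :=
      fun j hj => hS (j + 1) (by omega)
    have hJ' : ∀ i ≤ n, JumpAt A φ (lv (i + 1)) (lv (i + 1 + 1)) Δ ε δ :=
      fun j hj => hJ (j + 1) (by omega)
    -- the jump succeeds
    have hgoodJ : P ((B ∩ Jᶜ) ∩ E)
        ≤ (1 + 3 * C) ^ (n + 1) * (δ1 ^ (b + 1) + (2 * β) ^ (s + 1)) * P B := by
      have hw1 : A.Wt (lv 1) (rpush A (fun x y => Δ ≤ φ y - φ x) (lv 0) (lv 1) w) :=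
        rpush_wt h01 hw
      have ht1 : ∀ ω, tot (rpush A (fun x y => Δ ≤ φ y - φ x) (lv 0) (lv 1) w) ω ≤ 1 :=
        fun ω => (tot_rpush_le_tot h01 w ω).trans (ht ω)
      have hih := ih (fun j => lv (j + 1)) hlv' hS' hJ' (b + 1) s _ hw1 ht1 (B ∩ Jᶜ)
        (hB1.inter hJm.compl)
      refine le_trans (step_le (A := A) h01 h1n
        (D1 := fun x y => Δ ≤ φ y - φ x)
        (D2 := fun x y => (((n + 1 : ℕ) : ℝ) - ((b + 1 : ℕ) : ℝ)) * Δ
          - (((n + 1 : ℕ) : ℝ) * d0 + s * d1) ≤ φ y - φ x)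
        (ε := ε) (ε' := ε ^ (n + 1) * ε1 ^ s) ?_ ?_ ?_) (hih.trans ?_)
      · intro x y z hxy hyz
        show (((n + 1 + 1 : ℕ) : ℝ) - ((b + 1 : ℕ) : ℝ)) * Δ
          - (((n + 1 + 1 : ℕ) : ℝ) * d0 + s * d1) ≤ φ z - φ x
        have h1 : Δ ≤ φ y - φ x := hxy
        have h2 : (((n + 1 : ℕ) : ℝ) - ((b + 1 : ℕ) : ℝ)) * Δ
          - (((n + 1 : ℕ) : ℝ) * d0 + s * d1) ≤ φ z - φ y := hyz
        push_cast at h2 ⊢
        linarith
      · exact le_of_eq (by ring)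
      · rintro ω ⟨-, h2⟩
        exact le_of_not_gt h2
      · exact mul_le_mul_right (measure_mono inter_subset_left) _
    -- the jump fails
    set m : ℕ → ℝ≥0∞ := fun i => δ1 * (C * β ^ i) with hm
    have hst := stage (A := A) h01 (hS 0 (by omega)) hw ht hB (B' := B ∩ J)
      (hB1.inter hJm) inter_subset_left (δ := δ) hPJ s (E := E)
      (R := fun i => (1 + 3 * C) ^ (n + 1) * (δ1 ^ b + (2 * β) ^ (s - i + 1))) (m := m) ?_
      (by simpa [hm] using hδ) (fun i => hq i)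
    · have hsplit : B ∩ E ⊆ ((B ∩ Jᶜ) ∩ E) ∪ ((B ∩ J) ∩ E) := by
        rintro ω ⟨h1, h2⟩
        by_cases hj : ω ∈ J
        · exact Or.inr ⟨⟨h1, hj⟩, h2⟩
        · exact Or.inl ⟨⟨h1, hj⟩, h2⟩
      have hX := (1 + 3 * C) ^ (n + 1)
      have hmain : ∑ i ∈ Finset.range (s + 1),
          m i * ((1 + 3 * C) ^ (n + 1) * (δ1 ^ b + (2 * β) ^ (s - i + 1))) + m (s + 1)
          ≤ 3 * C * (1 + 3 * C) ^ (n + 1) * (δ1 ^ (b + 1) + (2 * β) ^ (s + 1)) := by
        have e1 : ∀ i, m i * ((1 + 3 * C) ^ (n + 1) * (δ1 ^ b + (2 * β) ^ (s - i + 1)))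
            = C * (1 + 3 * C) ^ (n + 1) * δ1 ^ (b + 1) * β ^ i
              + δ1 * (C * (1 + 3 * C) ^ (n + 1)) * (β ^ i * (2 * β) ^ (s - i + 1)) := by
          intro i
          simp only [hm]
          ring
        simp_rw [e1]
        rw [Finset.sum_add_distrib, ← Finset.mul_sum, ← Finset.mul_sum]
        calc C * (1 + 3 * C) ^ (n + 1) * δ1 ^ (b + 1) * ∑ i ∈ Finset.range (s + 1), β ^ i
            + δ1 * (C * (1 + 3 * C) ^ (n + 1))
              * ∑ i ∈ Finset.range (s + 1), β ^ i * (2 * β) ^ (s - i + 1) + m (s + 1)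
            ≤ C * (1 + 3 * C) ^ (n + 1) * δ1 ^ (b + 1) * 2
              + 1 * (C * (1 + 3 * C) ^ (n + 1)) * (2 * (2 * β) ^ (s + 1))
              + 1 * (C * (1 + 3 * C) ^ (n + 1) * (2 * β) ^ (s + 1)) := by
              refine add_le_add (add_le_add ?_ ?_) ?_
              · exact mul_le_mul_right (geo_two hβ s) _
              · exact mul_le_mul' (mul_le_mul_left hδ1 _) (geo_sum β s)
              · refine mul_le_mul' hδ1 (mul_le_mul' ?_ (pow_le_pow_left' hββ _))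
                calc C = C * 1 := (mul_one C).symm
                  _ ≤ C * (1 + 3 * C) ^ (n + 1) :=
                    mul_le_mul_right (one_le_pow_of_one_le' hX1 _) _
          _ ≤ C * (1 + 3 * C) ^ (n + 1) * δ1 ^ (b + 1) * 3
              + 1 * (C * (1 + 3 * C) ^ (n + 1)) * (2 * (2 * β) ^ (s + 1))
              + 1 * (C * (1 + 3 * C) ^ (n + 1) * (2 * β) ^ (s + 1)) := by
              gcongr
              norm_num
          _ = 3 * C * (1 + 3 * C) ^ (n + 1) * (δ1 ^ (b + 1) + (2 * β) ^ (s + 1)) := by ring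
      calc P (B ∩ E) ≤ P (((B ∩ Jᶜ) ∩ E) ∪ ((B ∩ J) ∩ E)) := measure_mono hsplit
        _ ≤ P ((B ∩ Jᶜ) ∩ E) + P ((B ∩ J) ∩ E) := measure_union_le _ _
        _ ≤ (1 + 3 * C) ^ (n + 1) * (δ1 ^ (b + 1) + (2 * β) ^ (s + 1)) * P B
            + 3 * C * (1 + 3 * C) ^ (n + 1) * (δ1 ^ (b + 1) + (2 * β) ^ (s + 1)) * P B :=
            add_le_add hgoodJ (hst.trans (mul_le_mul_left hmain _))
        _ = (1 + 3 * C) ^ (n + 1 + 1) * (δ1 ^ (b + 1) + (2 * β) ^ (s + 1)) * P B := by ring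
    · intro i hi B1 hB1' hB1s hgood
      have hw1 : A.Wt (lv 1) (rpush A (fun x y => |φ y - φ x| ≤ d0 + i * d1) (lv 0) (lv 1) w) :=
        rpush_wt h01 hw
      have ht1 : ∀ ω, tot (rpush A (fun x y => |φ y - φ x| ≤ d0 + i * d1) (lv 0) (lv 1) w) ω ≤ 1 :=
        fun ω => (tot_rpush_le_tot h01 w ω).trans (ht ω)
      have hih := ih (fun j => lv (j + 1)) hlv' hS' hJ' b (s - i) _ hw1 ht1 B1 hB1'
      refine le_trans (step_le (A := A) h01 h1n
        (D1 := fun x y => |φ y - φ x| ≤ d0 + i * d1)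
        (D2 := fun x y => (((n + 1 : ℕ) : ℝ) - (b : ℝ)) * Δ
          - (((n + 1 : ℕ) : ℝ) * d0 + ((s - i : ℕ) : ℝ) * d1) ≤ φ y - φ x)
        (ε := ε * ε1 ^ i) (ε' := ε ^ (n + 1) * ε1 ^ (s - i)) ?_ ?_ hgood) hih
      · intro x y z hxy hyz
        show (((n + 1 + 1 : ℕ) : ℝ) - ((b + 1 : ℕ) : ℝ)) * Δ
          - (((n + 1 + 1 : ℕ) : ℝ) * d0 + s * d1) ≤ φ z - φ x
        have h1 : |φ y - φ x| ≤ d0 + i * d1 := hxy
        have h2 : (((n + 1 : ℕ) : ℝ) - (b : ℝ)) * Δ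
          - (((n + 1 : ℕ) : ℝ) * d0 + ((s - i : ℕ) : ℝ) * d1) ≤ φ z - φ y := hyz
        have h3 := (abs_le.1 h1).1
        have e1 : ((s - i : ℕ) : ℝ) = (s : ℝ) - i := by
          rw [Nat.cast_sub hi]
        rw [e1] at h2
        push_cast at h2 ⊢
        linarith
      · refine le_of_eq ?_
        have e3 : ε1 ^ s = ε1 ^ (s - i) * ε1 ^ i := by
          rw [← pow_add]
          congr 1
          omega
        rw [e3]
        ring

/-- normalisation: from a bound for normalised laws (263's STAT with `k = 1`) to `ScoreAt`. -/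
theorem score_of_units {φ : S → ℝ} {a b : ℕ} {D : ℝ} {Q : ℕ → ℝ≥0∞ → ℝ≥0∞}
    (h : ∀ (s : ℕ) (w : Ω → S → ℝ≥0∞), A.Wt a w → ∀ B, MeasurableSet[A.F a] B →
      (∀ ω ∈ B, tot w ω = 1) → ∀ z : ℝ≥0∞,
      P (B ∩ {ω | tot (rpush A (fun x y => |φ y - φ x| ≤ s * D) a b w) ω ≤ z}) ≤ Q s z * P B)
    (ε1 : ℝ≥0∞) : ScoreAt A φ a b 0 D 1 ε1 (fun i => Q i (ε1 ^ i)) := by
  intro w hw ht B hB i
  set w' : Ω → S → ℝ≥0∞ := fun ω x => (tot w ω)⁻¹ * w ω x with hw'
  set B' : Set Ω := B ∩ {ω | tot w ω ≠ 0} with hB'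
  have hB'm : MeasurableSet[A.F a] B' :=
    hB.inter ((hw.meas_tot (measurableSet_singleton (0 : ℝ≥0∞))).compl)
  have hww : A.Wt a w' := ⟨fun x => hw.meas_tot.inv.mul (hw.meas x), fun ω x hx => by
    simp [hw', hw.supp ω x hx]⟩
  have htot : ∀ ω, tot w' ω = (tot w ω)⁻¹ * tot w ω := fun ω => ENNReal.tsum_mul_left
  have hone : ∀ ω ∈ B', tot w' ω = 1 := by
    rintro ω ⟨-, h0⟩
    rw [htot]
    exact ENNReal.inv_mul_cancel h0 (ne_top_of_le_ne_top ENNReal.one_ne_top (ht ω))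
  have hr : ∀ ω, tot (rpush A (fun x y => |φ y - φ x| ≤ i * D) a b w') ω
      = (tot w ω)⁻¹ * tot (rpush A (fun x y => |φ y - φ x| ≤ i * D) a b w) ω := by
    intro ω
    rw [tot_rpush, tot_rpush, ← ENNReal.tsum_mul_left]
    exact tsum_congr fun x => by simp only [hw']; ring
  refine le_trans ?_ ((h i w' hww B' hB'm hone (ε1 ^ i)).trans
    (mul_le_mul_right (measure_mono inter_subset_left) _))
  refine measure_mono ?_
  rintro ω ⟨h1, h2⟩
  have h2' : tot (rpush A (fun x y => |φ y - φ x| ≤ i * D) a b w) ω < ε1 ^ i * tot w ω := by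
    have h3 : tot (rpush A (fun x y => |φ y - φ x| ≤ 0 + i * D) a b w) ω
      < 1 * ε1 ^ i * tot w ω := h2
    simpa using h3
  have h0 : tot w ω ≠ 0 := by
    intro h0
    rw [h0, mul_zero] at h2'
    exact not_lt_zero h2'
  refine ⟨⟨h1, h0⟩, ?_⟩
  show tot (rpush A (fun x y => |φ y - φ x| ≤ i * D) a b w') ω ≤ ε1 ^ i
  rw [hr]
  calc (tot w ω)⁻¹ * tot (rpush A (fun x y => |φ y - φ x| ≤ i * D) a b w) ω
      ≤ (tot w ω)⁻¹ * (ε1 ^ i * tot w ω) := mul_le_mul_right h2'.le _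
    _ = ε1 ^ i * ((tot w ω)⁻¹ * tot w ω) := by ring
    _ = ε1 ^ i := by
        rw [ENNReal.inv_mul_cancel h0 (ne_top_of_le_ne_top ENNReal.one_ne_top (ht ω)), mul_one]

/-- closed form of the STAT bound -/
lemma score_closed {Ks η β ε1 : ℝ≥0∞} {θ : ℝ} {r : ℕ} (h1 : ε1 ^ θ ≤ β) (h2 : 2 * η ≤ β)
    (hβ0 : β ≠ 0) (hβ1 : β ≠ ∞) (i : ℕ) :
    (2 * Ks) ^ r * (ε1 ^ i) ^ θ + (2 * η) ^ i * (1 / η) ^ r
      ≤ (((2 * Ks) ^ r + (1 / η) ^ r) * β⁻¹) * β ^ (i + 1) := by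
  have e1 : (ε1 ^ i) ^ θ = (ε1 ^ θ) ^ i := by
    rw [← ENNReal.rpow_natCast, ← ENNReal.rpow_mul, ← ENNReal.rpow_natCast, ← ENNReal.rpow_mul,
      mul_comm]
  calc (2 * Ks) ^ r * (ε1 ^ i) ^ θ + (2 * η) ^ i * (1 / η) ^ r
      ≤ (2 * Ks) ^ r * β ^ i + β ^ i * (1 / η) ^ r := by
        rw [e1]
        exact add_le_add (mul_le_mul_right (pow_le_pow_left' h1 i) _)
          (mul_le_mul_left (pow_le_pow_left' h2 i) _)
    _ = ((2 * Ks) ^ r + (1 / η) ^ r) * β ^ i := by ring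
    _ = ((2 * Ks) ^ r + (1 / η) ^ r) * (β⁻¹ * β) * β ^ i := by
        rw [ENNReal.inv_mul_cancel hβ0 hβ1, mul_one]
    _ = (((2 * Ks) ^ r + (1 / η) ^ r) * β⁻¹) * β ^ (i + 1) := by ring

end Crest.Agent.R154.Trav469
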