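import Crest.Agent.R154.RatioB_872

/-! Row 154, HOME MASS plan (helper263 #36390), traveller over one grid step (helper751):
`n` macro-steps; at each macro-step the law is replaced by its jump part when that part has mass
`≥ εJ` and fewer than `J` jumps have been made, by its home part otherwise. -/

set_option autoImplicit false
set_option linter.unusedSectionVars false
set_option linter.deprecated false
set_option linter.unusedVariables false

namespace Crest.Agent.R154.Trav751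

open MeasureTheory ProbabilityTheory Set Filter Finset
open Crest.Agent.R154.RatioR872 Crest.Agent.R154.RatioR872.KerSys
open scoped ENNReal Topology

variable {S : Type*} [Countable S] {Ω : Type*} {m0 : MeasurableSpace Ω} {P : Measure Ω}

open Classical in
/-- push restricted to a relation between start and exit site -/
noncomputable def rp (A : KerSys S P) (D : S → S → Prop) (a b : ℕ) (w : Ω → S → ℝ≥0∞) (ω : Ω)
    (y : S) : ℝ≥0∞ :=
  ∑' x, w ω x * (if D x y then A.G a b ω x y else 0)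

lemma rp_le_push (A : KerSys S P) (D : S → S → Prop) (a b : ℕ) (w : Ω → S → ℝ≥0∞) (ω : Ω)
    (y : S) : rp A D a b w ω y ≤ A.push a b w ω y := by
  unfold rp push
  refine ENNReal.tsum_le_tsum fun x => ?_
  gcongr
  split_ifs <;> simp

lemma wt_rp {A : KerSys S P} (D : S → S → Prop) {a b : ℕ} (hab : a ≤ b) {w : Ω → S → ℝ≥0∞}
    (hw : A.Wt a w) : A.Wt b (rp A D a b w) where
  meas y := by
    unfold rp
    refine Measurable.ennreal_tsum fun x => ?_
    refine ((hw.meas x).mono (A.F.mono hab) le_rfl).mul ?_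
    by_cases h : D x y
    · simp only [if_pos h]; exact A.measF a b x y hab
    · simp only [if_neg h]; exact measurable_const
  supp ω y hy := by
    have h := rp_le_push A D a b w ω y
    rw [(hw.push hab).supp ω y hy] at h
    exact le_antisymm h (zero_le)

lemma tot_rp_le (A : KerSys S P) (D : S → S → Prop) {a b : ℕ} (hab : a ≤ b)
    (w : Ω → S → ℝ≥0∞) (ω : Ω) : tot (rp A D a b w) ω ≤ tot w ω :=
  (ENNReal.tsum_le_tsum fun y => rp_le_push A D a b w ω y).trans (A.tot_push_le hab w ω)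

lemma tot_rp_mono (A : KerSys S P) {D D' : S → S → Prop} (h : ∀ x y, D x y → D' x y) (a b : ℕ)
    (w : Ω → S → ℝ≥0∞) (ω : Ω) : tot (rp A D a b w) ω ≤ tot (rp A D' a b w) ω := by
  refine ENNReal.tsum_le_tsum fun y => ENNReal.tsum_le_tsum fun x => ?_
  gcongr
  by_cases hD : D x y
  · simp [hD, h x y hD]
  · simp [hD]

open Classical in
/-- concatenation of two restricted pushes -/
lemma tot_rp_chain (A : KerSys S P) {D1 D2 D : S → S → Prop}
    (hD : ∀ x y z, D1 x y → D2 y z → D x z) {a b c : ℕ} (hab : a ≤ b) (hbc : b ≤ c) :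
    ∀ᵐ ω ∂P, ∀ w : Ω → S → ℝ≥0∞,
      tot (rp A D2 b c (rp A D1 a b w)) ω ≤ tot (rp A D a c w) ω := by
  filter_upwards [A.comp a b c hab hbc] with ω hω w
  refine ENNReal.tsum_le_tsum fun z => ?_
  calc rp A D2 b c (rp A D1 a b w) ω z
      = ∑' y, ∑' x, w ω x * ((if D1 x y then A.G a b ω x y else 0) *
          (if D2 y z then A.G b c ω y z else 0)) := by
        unfold rp
        refine tsum_congr fun y => ?_
        rw [← ENNReal.tsum_mul_right]
        exact tsum_congr fun x => by ring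
    _ = ∑' x, w ω x * ∑' y, ((if D1 x y then A.G a b ω x y else 0) *
          (if D2 y z then A.G b c ω y z else 0)) := by
        rw [ENNReal.tsum_comm]
        exact tsum_congr fun x => ENNReal.tsum_mul_left
    _ ≤ ∑' x, w ω x * (if D x z then A.G a c ω x z else 0) := by
        refine ENNReal.tsum_le_tsum fun x => ?_
        gcongr
        by_cases hx : D x z
        · rw [if_pos hx]
          refine le_trans (ENNReal.tsum_le_tsum fun y => ?_) (hω x z)
          gcongr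
          · split_ifs <;> simp
          · split_ifs <;> simp
        · rw [if_neg hx]
          refine le_of_eq ?_
          rw [ENNReal.tsum_eq_zero]
          intro y
          by_cases h1 : D1 x y
          · by_cases h2 : D2 y z
            · exact absurd (hD x y z h1 h2) hx
            · simp [h2]
          · simp [h1]
    _ = rp A D a c w ω z := rfl

/-- from sets to functions -/
lemma set_to_fun {m : MeasurableSpace Ω} (hm : m ≤ m0) {E : Set Ω}
    {δ : ℝ≥0∞} (h : ∀ B, MeasurableSet[m] B → P (B ∩ E) ≤ δ * P B)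
    {Z : Ω → ℝ≥0∞} (hZ : Measurable[m] Z) :
    ∫⁻ ω in E, Z ω ∂P ≤ δ * ∫⁻ ω, Z ω ∂P := by
  have h1 : ∫⁻ ω in E, Z ω ∂P = ∫⁻ ω, Z ω ∂((P.restrict E).trim hm) := (lintegral_trim hm hZ).symm
  have h2 : ∫⁻ ω, Z ω ∂P = ∫⁻ ω, Z ω ∂(P.trim hm) := (lintegral_trim hm hZ).symm
  have h3 : δ * ∫⁻ ω, Z ω ∂(P.trim hm) = ∫⁻ ω, Z ω ∂(δ • P.trim hm) := by
    rw [lintegral_smul_measure, smul_eq_mul]
  rw [h1, h2, h3]
  refine lintegral_mono' ?_ le_rfl
  refine Measure.le_iff.2 fun B hB => ?_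
  rw [trim_measurableSet_eq hm hB, Measure.smul_apply, trim_measurableSet_eq hm hB,
    Measure.restrict_apply (hm B hB), smul_eq_mul]
  exact h B hB

/-- the recursion -/
noncomputable def U (a η K Λ : ℝ≥0∞) : ℕ → ℕ → ℝ≥0∞
  | 0, 0 => 1
  | 0, _ + 1 => Λ
  | m + 1, 0 => K * U a η K Λ m 0
  | m + 1, j + 1 => a * U a η K Λ m j + η * U a η K Λ m (j + 1)

lemma U_zero (a η K Λ : ℝ≥0∞) (m : ℕ) : U a η K Λ m 0 = K ^ m := by
  induction m with
  | zero => simp [U]
  | succ m ih => rw [U, ih, pow_succ, mul_comm]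

lemma U_le {a η K Λ ρ : ℝ≥0∞} (ha : 1 ≤ a) (hρ0 : ρ ≠ 0) (hρ : ρ ≤ 1) (hη : η ≤ ρ ^ 2)
    (hK : 2 ≤ K) (m j : ℕ) :
    U a η K Λ m (j + 1) ≤ a ^ (j + 1) * K ^ m + Λ * (a * ρ⁻¹) ^ (j + 1) * (2 * ρ) ^ m := by
  have hρt : ρ ≠ ∞ := ne_top_of_le_ne_top ENNReal.one_ne_top hρ
  have hρi : 1 ≤ ρ⁻¹ := ENNReal.one_le_inv.2 hρ
  have hK2 : 1 + ρ ^ 2 ≤ K := by
    calc 1 + ρ ^ 2 ≤ 1 + 1 ^ 2 := by gcongr
      _ = 2 := by norm_num
      _ ≤ K := hK
  induction m generalizing j with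
  | zero =>
    rw [U]
    simp only [pow_zero, mul_one]
    refine le_add_left ?_
    calc Λ = Λ * 1 := (mul_one _).symm
      _ ≤ Λ * (a * ρ⁻¹) ^ (j + 1) := by
        gcongr
        exact one_le_pow_of_one_le' (one_le_mul ha hρi) _
  | succ m ih =>
    rw [U]
    have key : ρ ^ 2 * (a * ρ⁻¹) ^ (j + 1) * (2 * ρ) ^ m
        = ρ * ρ * (a * ρ⁻¹) ^ (j + 1) * (2 * ρ) ^ m := by ring
    have hη' : η * U a η K Λ m (j + 1) ≤ ρ ^ 2 *
        (a ^ (j + 1) * K ^ m + Λ * (a * ρ⁻¹) ^ (j + 1) * (2 * ρ) ^ m) := by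
      gcongr
      exact ih j
    have hρρ : ρ * ρ⁻¹ = 1 := ENNReal.mul_inv_cancel hρ0 hρt
    cases j with
    | zero =>
      rw [U_zero]
      calc a * K ^ m + η * U a η K Λ m (0 + 1)
          ≤ a * K ^ m + ρ ^ 2 * (a ^ (0 + 1) * K ^ m + Λ * (a * ρ⁻¹) ^ (0 + 1) * (2 * ρ) ^ m) := by
            gcongr
        _ = a * K ^ m * (1 + ρ ^ 2) + (Λ * a * (ρ * ρ⁻¹)) * (ρ * (2 * ρ) ^ m) := by ring
        _ = a * K ^ m * (1 + ρ ^ 2) + (Λ * a) * (ρ * (2 * ρ) ^ m) := by rw [hρρ, mul_one]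
        _ ≤ a * K ^ m * K + (Λ * a) * (2 * (2 * ρ) ^ m) := by
            gcongr
            exact hρ.trans (by norm_num)
        _ = a * K ^ m * K + (Λ * a * (ρ * ρ⁻¹)) * (2 * (2 * ρ) ^ m) := by rw [hρρ, mul_one]
        _ = _ := by ring
    | succ j =>
      calc a * U a η K Λ m (j + 1) + η * U a η K Λ m (j + 1 + 1)
          ≤ a * (a ^ (j + 1) * K ^ m + Λ * (a * ρ⁻¹) ^ (j + 1) * (2 * ρ) ^ m)
            + ρ ^ 2 * (a ^ (j + 1 + 1) * K ^ m + Λ * (a * ρ⁻¹) ^ (j + 1 + 1) * (2 * ρ) ^ m) := by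
            gcongr
            exact ih j
        _ = a ^ (j + 1 + 1) * K ^ m * (1 + ρ ^ 2)
            + Λ * (a * ρ⁻¹) ^ (j + 1) * (2 * ρ) ^ m * a * 1
            + Λ * (a * ρ⁻¹) ^ (j + 1) * (2 * ρ) ^ m * a * (ρ * (ρ * ρ⁻¹)) := by ring
        _ = a ^ (j + 1 + 1) * K ^ m * (1 + ρ ^ 2)
            + Λ * (a * ρ⁻¹) ^ (j + 1) * (2 * ρ) ^ m * a * 1
            + Λ * (a * ρ⁻¹) ^ (j + 1) * (2 * ρ) ^ m * a * ρ := by
            rw [hρρ]; simp only [mul_one]
        _ ≤ a ^ (j + 1 + 1) * K ^ m * K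
            + Λ * (a * ρ⁻¹) ^ (j + 1) * (2 * ρ) ^ m * a * 1
            + Λ * (a * ρ⁻¹) ^ (j + 1) * (2 * ρ) ^ m * a * 1 := by
            gcongr
        _ = a ^ (j + 1 + 1) * K ^ m * K
            + Λ * (a * ρ⁻¹) ^ (j + 1) * (2 * ρ) ^ m * a * (2 * (ρ * ρ⁻¹)) := by
            rw [hρρ]; ring
        _ = _ := by ring

/-- the displacement reached after `n` macro-steps with `j` jumps -/
def thr (c : ℕ → ℤ) (dJ dH : ℤ) (n j : ℕ) : ℤ := ∑ i ∈ range n, c i + j * dJ - n * dH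

/-- the mass which makes that displacement -/
noncomputable def T (A : KerSys S P) (φ : S → ℤ) (dJ dH : ℤ) (l : ℕ → ℕ) (c : ℕ → ℤ) (n j : ℕ)
    (w : Ω → S → ℝ≥0∞) (ω : Ω) : ℝ≥0∞ :=
  if n = 0 then (if j = 0 then tot w ω else 0)
  else tot (rp A (fun x y => thr c dJ dH n j ≤ φ y - φ x) (l 0) (l n) w) ω

/-- one jump step -/
def JumpAt (A : KerSys S P) (φ : S → ℤ) (a b : ℕ) (d : ℤ) (ε δ : ℝ≥0∞) : Prop :=
  ∀ w, A.Wt a w → (∀ ω, tot w ω ≤ 1) → ∀ B, MeasurableSet[A.F a] B →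
    P (B ∩ {ω | tot (rp A (fun x y => d ≤ φ y - φ x) a b w) ω < ε * tot w ω}) ≤ δ * P B

/-- one home step, moment form (`0 / 0 = 0`) -/
def HomeMom (A : KerSys S P) (φ : S → ℤ) (a b : ℕ) (c d : ℤ) (t : ℝ) (K : ℝ≥0∞) : Prop :=
  ∀ w, A.Wt a w → (∀ ω, tot w ω ≤ 1) → ∀ Z : Ω → ℝ≥0∞, Measurable[A.F a] Z →
    ∫⁻ ω, Z ω * (tot w ω / tot (rp A (fun x y => |φ y - φ x - c| ≤ d) a b w) ω) ^ t ∂P
      ≤ K * ∫⁻ ω, Z ω ∂P

lemma meas_tot_rp {A : KerSys S P} (D : S → S → Prop) {a b : ℕ} (hab : a ≤ b)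
    {w : Ω → S → ℝ≥0∞} (hw : A.Wt a w) : Measurable (fun ω => tot (rp A D a b w) ω) :=
  ((wt_rp D hab hw).meas_tot).mono (A.F.le b) le_rfl

lemma mono_chain {l : ℕ → ℕ} {n : ℕ} (h : ∀ i < n, l i ≤ l (i + 1)) : l 0 ≤ l n := by
  induction n with
  | zero => exact le_rfl
  | succ n ih => exact (ih fun i hi => h i (by omega)).trans (h n (by omega))

lemma meas_T {A : KerSys S P} {φ : S → ℤ} {dJ dH : ℤ} {l : ℕ → ℕ} {c : ℕ → ℤ} {n j : ℕ}
    (hl : ∀ i < n, l i ≤ l (i + 1)) {w : Ω → S → ℝ≥0∞} (hw : A.Wt (l 0) w) :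
    Measurable (fun ω => T A φ dJ dH l c n j w ω) := by
  unfold T
  by_cases h0 : n = 0
  · by_cases h1 : j = 0
    · simp only [h0, h1, if_true]
      exact hw.meas_tot.mono (A.F.le _) le_rfl
    · simp only [h0, h1, if_true, if_false]
      exact measurable_const
  · simp only [h0, if_false]
    exact meas_tot_rp _ (mono_chain hl) hw

lemma T_step (A : KerSys S P) (φ : S → ℤ) (dJ dH : ℤ) (l : ℕ → ℕ) (c : ℕ → ℤ) (n j j' : ℕ)
    (hl : ∀ i < n + 1, l i ≤ l (i + 1)) (D1 : S → S → Prop)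
    (h : ∀ x y, D1 x y → thr c dJ dH (n + 1) j - thr (fun i => c (i + 1)) dJ dH n j' ≤ φ y - φ x) :
    ∀ᵐ ω ∂P, ∀ w : Ω → S → ℝ≥0∞,
      T A φ dJ dH (fun i => l (i + 1)) (fun i => c (i + 1)) n j' (rp A D1 (l 0) (l 1) w) ω
        ≤ T A φ dJ dH l c (n + 1) j w ω := by
  by_cases h0 : n = 0
  · subst h0
    refine Eventually.of_forall fun ω w => ?_
    unfold T
    by_cases h1 : j' = 0
    · subst h1
      simp only [if_true, Nat.zero_add, one_ne_zero, if_false]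
      refine tot_rp_mono A (fun x y hxy => ?_) _ _ w ω
      have := h x y hxy
      simp only [thr, Finset.range_zero, Finset.sum_empty, Nat.cast_zero, zero_mul] at this ⊢
      simpa using this
    · simp [h1]
  · have hl1 : l 1 ≤ l (n + 1) := by
      have := mono_chain (l := fun i => l (i + 1)) (n := n) (fun i hi => hl (i + 1) (by omega))
      simpa using this
    have hc := tot_rp_chain A (D1 := D1)
      (D2 := fun y z => thr (fun i => c (i + 1)) dJ dH n j' ≤ φ z - φ y)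
      (D := fun x z => thr c dJ dH (n + 1) j ≤ φ z - φ x)
      (fun x y z h1 h2 => by
        have h3 := h x y h1
        have h4 : thr (fun i => c (i + 1)) dJ dH n j' ≤ φ z - φ y := h2
        show thr c dJ dH (n + 1) j ≤ φ z - φ x
        omega)
      (hl 0 (by omega)) hl1
    filter_upwards [hc] with ω hω w
    unfold T
    simp only [h0, if_false, Nat.succ_ne_zero]
    exact hω w

lemma min_mul_le {a b Λ : ℝ≥0∞} (ha : 1 ≤ a) : min (a * b) Λ ≤ a * min b Λ := by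
  rcases le_total b Λ with h | h
  · rw [min_eq_left h]; exact min_le_left _ _
  · rw [min_eq_right h]
    exact (min_le_right _ _).trans (le_mul_of_one_le_left (zero_le) ha)

/-- the truncated cost functional -/
noncomputable def R (A : KerSys S P) (φ : S → ℤ) (dJ dH : ℤ) (θ : ℝ) (Λ : ℝ≥0∞) (l : ℕ → ℕ)
    (c : ℕ → ℤ) (n j : ℕ) (w : Ω → S → ℝ≥0∞) (ω : Ω) : ℝ≥0∞ :=
  min ((tot w ω / T A φ dJ dH l c n j w ω) ^ θ) Λ

lemma meas_R {A : KerSys S P} {φ : S → ℤ} {dJ dH : ℤ} {θ : ℝ} {Λ : ℝ≥0∞} {l : ℕ → ℕ}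
    {c : ℕ → ℤ} {n j : ℕ} (hl : ∀ i < n, l i ≤ l (i + 1)) {w : Ω → S → ℝ≥0∞}
    (hw : A.Wt (l 0) w) : Measurable (fun ω => R A φ dJ dH θ Λ l c n j w ω) := by
  unfold R
  refine Measurable.min ?_ measurable_const
  exact ((hw.meas_tot.mono (A.F.le _) le_rfl).div (meas_T hl hw)).pow_const _

theorem main [IsProbabilityMeasure P] (A : KerSys S P) (φ : S → ℤ) {θ : ℝ} (hθ : 0 < θ)
    {εJ δJ K s η Λ : ℝ≥0∞} {dJ dH : ℤ} (hdH : 0 ≤ dH) (hε0 : εJ ≠ 0) (hε1 : εJ ≤ 1)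
    (hK : K ≠ ∞) (hΛ : 1 ≤ Λ) (hs0 : s ≠ 0) (hs1 : s ≠ ∞) (hη : s * δJ + s⁻¹ * K ≤ η) (n : ℕ) :
    ∀ (l : ℕ → ℕ) (c : ℕ → ℤ), (∀ i < n, l i ≤ l (i + 1)) →
      (∀ i < n, JumpAt A φ (l i) (l (i + 1)) (c i + dJ) εJ δJ) →
      (∀ i < n, HomeMom A φ (l i) (l (i + 1)) (c i) dH (2 * θ) K) →
      ∀ (j : ℕ) (w : Ω → S → ℝ≥0∞), A.Wt (l 0) w → (∀ ω, tot w ω ≤ 1) →
        ∀ Z : Ω → ℝ≥0∞, Measurable[A.F (l 0)] Z →
          ∫⁻ ω, Z ω * R A φ dJ dH θ Λ l c n j w ω ∂P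
            ≤ U ((εJ⁻¹) ^ θ) η K Λ n j * ∫⁻ ω, Z ω ∂P := by
  induction n with
  | zero =>
    intro l c _ _ _ j w hw hw1 Z hZ
    cases j with
    | zero =>
      rw [U, one_mul]
      refine lintegral_mono fun ω => ?_
      have : R A φ dJ dH θ Λ l c 0 0 w ω ≤ 1 := by
        unfold R T
        simp only [if_true]
        refine (min_le_left _ _).trans ?_
        exact ENNReal.rpow_le_one ENNReal.div_self_le_one hθ.le
      calc Z ω * R A φ dJ dH θ Λ l c 0 0 w ω ≤ Z ω * 1 := by gcongr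
        _ = Z ω := mul_one _
    | succ j =>
      rw [U, mul_comm Λ]
      calc ∫⁻ ω, Z ω * R A φ dJ dH θ Λ l c 0 (j + 1) w ω ∂P ≤ ∫⁻ ω, Z ω * Λ ∂P := by
            refine lintegral_mono fun ω => ?_
            gcongr
            exact min_le_right _ _
        _ = (∫⁻ ω, Z ω ∂P) * Λ := lintegral_mul_const _ (hZ.mono (A.F.le _) le_rfl)
  | succ n ih =>
    intro l c hl hJ hH j w hw hw1 Z hZ
    have hl0 : l 0 ≤ l 1 := hl 0 (by omega)
    set l' : ℕ → ℕ := fun i => l (i + 1) with hl'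
    set c' : ℕ → ℤ := fun i => c (i + 1) with hc'
    have hll : ∀ i < n, l' i ≤ l' (i + 1) := fun i hi => hl (i + 1) (by omega)
    have IH := ih l' c' hll (fun i hi => hJ (i + 1) (by omega)) (fun i hi => hH (i + 1) (by omega))
    -- home part
    set DH : S → S → Prop := fun x y => |φ y - φ x - c 0| ≤ dH with hDH
    set w0 := rp A DH (l 0) (l 1) w with hw0
    have hW0 : A.Wt (l' 0) w0 := wt_rp DH hl0 hw
    have hW01 : ∀ ω, tot w0 ω ≤ 1 := fun ω => (tot_rp_le A DH hl0 w ω).trans (hw1 ω)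
    have hW0w : ∀ ω, tot w0 ω ≤ tot w ω := fun ω => tot_rp_le A DH hl0 w ω
    set r : Ω → ℝ≥0∞ := fun ω => (tot w ω / tot w0 ω) ^ θ with hr
    have hwm : Measurable[A.F (l 1)] (fun ω => tot w ω) := hw.meas_tot.mono (A.F.mono hl0) le_rfl
    have hw0m : Measurable[A.F (l 1)] (fun ω => tot w0 ω) := hW0.meas_tot
    have hrm : Measurable[A.F (l 1)] r := (hwm.div hw0m).pow_const _
    have hZ1 : Measurable[A.F (l 1)] Z := hZ.mono (A.F.mono hl0) le_rfl
    have hmom := hH 0 (by omega) w hw hw1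
    have hmom' : ∀ Z : Ω → ℝ≥0∞, Measurable[A.F (l 0)] Z → ∫⁻ ω, Z ω * r ω ^ 2 ∂P
        ≤ K * ∫⁻ ω, Z ω ∂P := by
      intro Z hZ
      refine le_trans (le_of_eq ?_) (hmom Z hZ)
      refine lintegral_congr fun ω => ?_
      simp only [hr]
      rw [← ENNReal.rpow_natCast, ← ENNReal.rpow_mul]
      congr 2
      push_cast
      ring
    have hfin : ∀ᵐ ω ∂P, tot w0 ω = 0 → tot w ω = 0 := by
      have h1 : ∫⁻ ω, 1 * r ω ^ 2 ∂P ≠ ∞ := by
        refine ne_top_of_le_ne_top ?_ (hmom' (fun _ => 1) (@measurable_const _ _ _ (A.F (l 0)) _))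
        simp [hK]
      have h2 : Measurable fun ω => 1 * r ω ^ 2 :=
        ((hrm.mono (A.F.le _) le_rfl).pow_const 2).const_mul 1
      filter_upwards [ae_lt_top h2 h1] with ω hω h0
      by_contra hne
      simp only [hr, h0, one_mul] at hω
      rw [ENNReal.div_zero hne, ENNReal.top_rpow_of_pos hθ] at hω
      simp at hω
    have hR0 : ∀ᵐ ω ∂P, R A φ dJ dH θ Λ l c (n + 1) j w ω
        ≤ r ω * R A φ dJ dH θ Λ l' c' n j w0 ω := by
      have ht := T_step A φ dJ dH l c n j j hl DH (fun x y hxy => by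
        have h1 := (abs_le.1 hxy).1
        simp only [thr, Finset.sum_range_succ']
        push_cast
        linarith)
      filter_upwards [ht, hfin] with ω h1 h2
      by_cases hw00 : tot w ω = 0
      · have : R A φ dJ dH θ Λ l c (n + 1) j w ω = 0 := by
          unfold R
          rw [hw00, ENNReal.zero_div, ENNReal.zero_rpow_of_pos hθ]
          simp
        rw [this]; exact zero_le
      · have hw0ne : tot w0 ω ≠ 0 := fun h => hw00 (h2 h)
        have hw0t : tot w0 ω ≠ ∞ := ne_top_of_le_ne_top ENNReal.one_ne_top (hW01 ω)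
        have hr1 : 1 ≤ r ω := by
          simp only [hr]
          refine ENNReal.one_le_rpow ?_ hθ
          rw [ENNReal.le_div_iff_mul_le (Or.inl hw0ne) (Or.inl hw0t), one_mul]
          exact hW0w ω
        refine le_trans ?_ (min_mul_le hr1)
        unfold R
        refine min_le_min ?_ le_rfl
        simp only [hr]
        rw [← ENNReal.mul_rpow_of_nonneg _ _ hθ.le]
        refine ENNReal.rpow_le_rpow ?_ hθ.le
        calc tot w ω / T A φ dJ dH l c (n + 1) j w ω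
            ≤ tot w ω / T A φ dJ dH l' c' n j w0 ω := by
              gcongr
              exact h1 w
          _ = tot w ω / tot w0 ω * (tot w0 ω / T A φ dJ dH l' c' n j w0 ω) := by
              rw [div_eq_mul_inv, div_eq_mul_inv, div_eq_mul_inv, mul_assoc, ← mul_assoc (_⁻¹),
                ENNReal.inv_mul_cancel hw0ne hw0t, one_mul]
    cases j with
    | zero =>
      rw [U]
      calc ∫⁻ ω, Z ω * R A φ dJ dH θ Λ l c (n + 1) 0 w ω ∂P
          ≤ ∫⁻ ω, (Z ω * r ω) * R A φ dJ dH θ Λ l' c' n 0 w0 ω ∂P := by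
            refine lintegral_mono_ae ?_
            filter_upwards [hR0] with ω hω
            rw [mul_assoc]
            gcongr
        _ ≤ U ((εJ⁻¹) ^ θ) η K Λ n 0 * ∫⁻ ω, Z ω * r ω ∂P :=
            IH 0 w0 hW0 hW01 (fun ω => Z ω * r ω) (hZ1.mul hrm)
        _ ≤ U ((εJ⁻¹) ^ θ) η K Λ n 0 * (K * ∫⁻ ω, Z ω ∂P) := by
            gcongr
            refine le_trans ?_ (hmom' Z hZ)
            refine lintegral_mono_ae ?_
            filter_upwards [hfin] with ω h2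
            gcongr
            by_cases hw00 : tot w ω = 0
            · simp only [hr, hw00, ENNReal.zero_div, ENNReal.zero_rpow_of_pos hθ]
              exact zero_le
            · have hw0ne : tot w0 ω ≠ 0 := fun h => hw00 (h2 h)
              have hw0t : tot w0 ω ≠ ∞ := ne_top_of_le_ne_top ENNReal.one_ne_top (hW01 ω)
              have hr1 : 1 ≤ r ω := by
                simp only [hr]
                refine ENNReal.one_le_rpow ?_ hθ
                rw [ENNReal.le_div_iff_mul_le (Or.inl hw0ne) (Or.inl hw0t), one_mul]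
                exact hW0w ω
              calc r ω = r ω ^ 1 := (pow_one _).symm
                _ ≤ r ω ^ 2 := pow_le_pow_right₀ hr1 (by norm_num)
        _ = _ := by ring
    | succ j =>
      rw [U]
      -- jump part
      set DJ : S → S → Prop := fun x y => c 0 + dJ ≤ φ y - φ x with hDJ
      set w1 := rp A DJ (l 0) (l 1) w with hw1'
      have hW1 : A.Wt (l' 0) w1 := wt_rp DJ hl0 hw
      have hW11 : ∀ ω, tot w1 ω ≤ 1 := fun ω => (tot_rp_le A DJ hl0 w ω).trans (hw1 ω)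
      set a : ℝ≥0∞ := (εJ⁻¹) ^ θ with ha
      have ha1 : 1 ≤ a := ENNReal.one_le_rpow (ENNReal.one_le_inv.2 hε1) hθ
      have hεt : εJ ≠ ∞ := ne_top_of_le_ne_top ENNReal.one_ne_top hε1
      set E : Set Ω := {ω | tot w1 ω < εJ * tot w ω} with hE
      have hw1m : Measurable[A.F (l 1)] (fun ω => tot w1 ω) := hW1.meas_tot
      have hEm : MeasurableSet[A.F (l 1)] E :=
        @measurableSet_lt _ _ _ _ _ (A.F (l 1)) _ _ _ _ _ hw1m (hwm.const_mul εJ)
      have hR1 : ∀ᵐ ω ∂P, ω ∉ E → R A φ dJ dH θ Λ l c (n + 1) (j + 1) w ω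
          ≤ a * R A φ dJ dH θ Λ l' c' n j w1 ω := by
        have ht := T_step A φ dJ dH l c n (j + 1) j hl DJ (fun x y hxy => by
          simp only [thr, Finset.sum_range_succ']
          push_cast
          simp only [hDJ] at hxy
          linarith)
        filter_upwards [ht] with ω h1 hωE
        refine le_trans ?_ (min_mul_le ha1)
        unfold R
        refine min_le_min ?_ le_rfl
        rw [ha, ← ENNReal.mul_rpow_of_nonneg _ _ hθ.le]
        refine ENNReal.rpow_le_rpow ?_ hθ.le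
        have hωE' : εJ * tot w ω ≤ tot w1 ω := not_lt.1 hωE
        have h3 : tot w ω ≤ εJ⁻¹ * tot w1 ω := by
          calc tot w ω = εJ⁻¹ * (εJ * tot w ω) := by
                rw [← mul_assoc, ENNReal.inv_mul_cancel hε0 hεt, one_mul]
            _ ≤ εJ⁻¹ * tot w1 ω := by gcongr
        calc tot w ω / T A φ dJ dH l c (n + 1) (j + 1) w ω
            ≤ (εJ⁻¹ * tot w1 ω) / T A φ dJ dH l' c' n j w1 ω := by
              gcongr
              exact h1 w
          _ = εJ⁻¹ * (tot w1 ω / T A φ dJ dH l' c' n j w1 ω) := mul_div_assoc _ _ _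
      set Z1 : Ω → ℝ≥0∞ := Eᶜ.indicator Z with hZ1d
      set Z0 : Ω → ℝ≥0∞ := fun ω => E.indicator Z ω * r ω with hZ0d
      have hZ1m : Measurable[A.F (l 1)] Z1 := hZ1.indicator hEm.compl
      have hZ0m : Measurable[A.F (l 1)] Z0 := (hZ1.indicator hEm).mul hrm
      have hptw : ∀ᵐ ω ∂P, Z ω * R A φ dJ dH θ Λ l c (n + 1) (j + 1) w ω
          ≤ a * (Z1 ω * R A φ dJ dH θ Λ l' c' n j w1 ω)
            + Z0 ω * R A φ dJ dH θ Λ l' c' n (j + 1) w0 ω := by
        filter_upwards [hR1, hR0] with ω h1 h0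
        by_cases hωE : ω ∈ E
        · refine le_add_left ?_
          simp only [hZ0d, Set.indicator_of_mem hωE]
          rw [mul_assoc]
          gcongr
        · refine le_add_right ?_
          simp only [hZ1d, Set.indicator_of_mem (Set.mem_compl hωE)]
          calc Z ω * R A φ dJ dH θ Λ l c (n + 1) (j + 1) w ω
              ≤ Z ω * (a * R A φ dJ dH θ Λ l' c' n j w1 ω) := by gcongr; exact h1 hωE
            _ = _ := by ring
      have hm1 : Measurable fun ω => Z1 ω * R A φ dJ dH θ Λ l' c' n j w1 ω :=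
        (hZ1m.mono (A.F.le _) le_rfl).mul (meas_R hll hW1)
      have hZint : ∫⁻ ω, Z0 ω ∂P ≤ η * ∫⁻ ω, Z ω ∂P := by
        have hE0 : MeasurableSet E := A.F.le _ _ hEm
        have hZ00 : Measurable Z := hZ.mono (A.F.le _) le_rfl
        have h1 : ∫⁻ ω in E, Z ω ∂P ≤ δJ * ∫⁻ ω, Z ω ∂P :=
          set_to_fun (A.F.le (l 0)) (fun B hB => hJ 0 (by omega) w hw hw1 B hB) hZ
        have h2 := hmom' Z hZ
        have hm2 : Measurable fun ω => Z ω * r ω ^ 2 :=
          hZ00.mul ((hrm.mono (A.F.le _) le_rfl).pow_const 2)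
        calc ∫⁻ ω, Z0 ω ∂P ≤ ∫⁻ ω, (s * E.indicator Z ω + s⁻¹ * (Z ω * r ω ^ 2)) ∂P := by
              refine lintegral_mono fun ω => ?_
              simp only [hZ0d]
              by_cases hωE : ω ∈ E
              · simp only [Set.indicator_of_mem hωE]
                rcases le_total (r ω) s with h | h
                · refine le_add_right ?_
                  rw [mul_comm]
                  gcongr
                · refine le_add_left ?_
                  calc Z ω * r ω = s⁻¹ * s * (Z ω * r ω) := by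
                        rw [ENNReal.inv_mul_cancel hs0 hs1, one_mul]
                    _ = s⁻¹ * (Z ω * (s * r ω)) := by ring
                    _ ≤ s⁻¹ * (Z ω * (r ω * r ω)) := by gcongr
                    _ = _ := by ring
              · simp [Set.indicator_of_notMem hωE]
          _ = s * ∫⁻ ω, E.indicator Z ω ∂P + s⁻¹ * ∫⁻ ω, Z ω * r ω ^ 2 ∂P := by
              rw [lintegral_add_left ((hZ00.indicator hE0).const_mul s),
                lintegral_const_mul _ (hZ00.indicator hE0),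
                lintegral_const_mul _ hm2]
          _ ≤ s * (δJ * ∫⁻ ω, Z ω ∂P) + s⁻¹ * (K * ∫⁻ ω, Z ω ∂P) := by
              gcongr
              rw [lintegral_indicator hE0]
              exact h1
          _ = (s * δJ + s⁻¹ * K) * ∫⁻ ω, Z ω ∂P := by ring
          _ ≤ _ := by gcongr
      calc ∫⁻ ω, Z ω * R A φ dJ dH θ Λ l c (n + 1) (j + 1) w ω ∂P
          ≤ ∫⁻ ω, (a * (Z1 ω * R A φ dJ dH θ Λ l' c' n j w1 ω)
            + Z0 ω * R A φ dJ dH θ Λ l' c' n (j + 1) w0 ω) ∂P := lintegral_mono_ae hptw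
        _ = a * ∫⁻ ω, Z1 ω * R A φ dJ dH θ Λ l' c' n j w1 ω ∂P
            + ∫⁻ ω, Z0 ω * R A φ dJ dH θ Λ l' c' n (j + 1) w0 ω ∂P := by
            rw [lintegral_add_left (hm1.const_mul a), lintegral_const_mul _ hm1]
        _ ≤ a * (U a η K Λ n j * ∫⁻ ω, Z1 ω ∂P)
            + U a η K Λ n (j + 1) * ∫⁻ ω, Z0 ω ∂P := by
            gcongr
            · exact IH j w1 hW1 hW11 Z1 hZ1m
            · exact IH (j + 1) w0 hW0 hW01 Z0 hZ0m
        _ ≤ a * (U a η K Λ n j * ∫⁻ ω, Z ω ∂P)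
            + U a η K Λ n (j + 1) * (η * ∫⁻ ω, Z ω ∂P) := by
            gcongr
            exact Set.indicator_le_self _ _ _
        _ = _ := by ring

/-- the mass which moves `≥ J` jumps forward in `n` macro-steps -/
theorem trav [IsProbabilityMeasure P] (A : KerSys S P) (φ : S → ℤ) {θ : ℝ} (hθ : 0 < θ)
    {εJ δJ K s ρ ex : ℝ≥0∞} {dJ dH : ℤ} (hdH : 0 ≤ dH) (hε0 : εJ ≠ 0) (hε1 : εJ ≤ 1)
    (hK : K ≠ ∞) (hK2 : 2 ≤ K) (hs0 : s ≠ 0) (hs1 : s ≠ ∞) (hρ0 : ρ ≠ 0) (hρ1 : ρ ≤ 1)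
    (hη : s * δJ + s⁻¹ * K ≤ ρ ^ 2) (hex0 : ex ≠ 0) (hex1 : ex ≤ 1)
    {n : ℕ} (hn : n ≠ 0) (J : ℕ) (hJ1 : J ≠ 0)
    (l : ℕ → ℕ) (c : ℕ → ℤ) (hl : ∀ i < n, l i ≤ l (i + 1))
    (hJ : ∀ i < n, JumpAt A φ (l i) (l (i + 1)) (c i + dJ) εJ δJ)
    (hH : ∀ i < n, HomeMom A φ (l i) (l (i + 1)) (c i) dH (2 * θ) K)
    {w : Ω → S → ℝ≥0∞} (hw : A.Wt (l 0) w) (hw1 : ∀ ω, tot w ω ≤ 1) {B : Set Ω}
    (hB : MeasurableSet[A.F (l 0)] B) :
    P (B ∩ {ω | tot (rp A (fun x y => ∑ i ∈ range n, c i + J * dJ - n * dH ≤ φ y - φ x)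
        (l 0) (l n) w) ω < εJ ^ J * ex * tot w ω})
      ≤ (ex ^ θ * K ^ n + ((εJ⁻¹) ^ θ * ρ⁻¹) ^ J * (2 * ρ) ^ n) * P B := by
  set ε : ℝ≥0∞ := εJ ^ J * ex with hε
  set a : ℝ≥0∞ := (εJ⁻¹) ^ θ with ha
  have hεt : εJ ≠ ∞ := ne_top_of_le_ne_top ENNReal.one_ne_top hε1
  have hext : ex ≠ ∞ := ne_top_of_le_ne_top ENNReal.one_ne_top hex1
  have hε1' : ε ≤ 1 := mul_le_one' (pow_le_one' hε1 J) hex1
  have hε0' : ε ≠ 0 := mul_ne_zero (pow_ne_zero _ hε0) hex0
  have hεt' : ε ≠ ∞ := ne_top_of_le_ne_top ENNReal.one_ne_top hε1'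
  set Λ : ℝ≥0∞ := (ε⁻¹) ^ θ with hΛ
  have hΛ1 : 1 ≤ Λ := ENNReal.one_le_rpow (ENNReal.one_le_inv.2 hε1') hθ
  have hΛt : Λ ≠ ∞ := ENNReal.rpow_ne_top_of_nonneg hθ.le (ENNReal.inv_ne_top.2 hε0')
  have hΛ0 : Λ ≠ 0 := (zero_lt_one.trans_le hΛ1).ne'
  have ha1 : 1 ≤ a := ENNReal.one_le_rpow (ENNReal.one_le_inv.2 hε1) hθ
  have hBm : MeasurableSet B := A.F.le _ _ hB
  set Q : Set Ω := {ω | tot (rp A (fun x y => ∑ i ∈ range n, c i + J * dJ - n * dH ≤ φ y - φ x)
        (l 0) (l n) w) ω < ε * tot w ω} with hQ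
  have hM := main A φ hθ (s := s) (η := ρ ^ 2) (Λ := Λ) hdH hε0 hε1 hK hΛ1 hs0 hs1 hη n l c hl hJ hH J w
    hw hw1 (B.indicator fun _ => 1) (measurable_const.indicator hB)
  have hI : ∫⁻ ω, B.indicator (fun _ => (1 : ℝ≥0∞)) ω ∂P = P B := by
    rw [lintegral_indicator hBm]; simp
  rw [hI] at hM
  have hlow : Λ * P (B ∩ Q) ≤ ∫⁻ ω, B.indicator (fun _ => (1 : ℝ≥0∞)) ω
      * R A φ dJ dH θ Λ l c n J w ω ∂P := by
    have hQm : MeasurableSet Q :=
      measurableSet_lt (meas_tot_rp _ (mono_chain hl) hw)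
        ((hw.meas_tot.mono (A.F.le _) le_rfl).const_mul ε)
    rw [← setLIntegral_const, ← lintegral_indicator (hBm.inter hQm)]
    refine lintegral_mono fun ω => ?_
    by_cases hω : ω ∈ B ∩ Q
    · rw [Set.indicator_of_mem hω, Set.indicator_of_mem hω.1, one_mul]
      unfold R
      refine le_min ?_ le_rfl
      rw [hΛ]
      refine ENNReal.rpow_le_rpow ?_ hθ.le
      have h1 : T A φ dJ dH l c n J w ω < ε * tot w ω := by
        unfold T
        rw [if_neg hn]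
        exact hω.2
      have h2 : tot w ω ≠ 0 := by
        rintro h
        rw [h, mul_zero] at h1
        exact not_lt_bot h1
      have h3 : tot w ω ≠ ∞ := ne_top_of_le_ne_top ENNReal.one_ne_top (hw1 ω)
      calc ε⁻¹ = tot w ω / (ε * tot w ω) := by
            rw [ENNReal.div_eq_inv_mul, ENNReal.mul_inv (Or.inl hε0') (Or.inl hεt'), mul_assoc,
              ENNReal.inv_mul_cancel h2 h3, mul_one]
        _ ≤ _ := by gcongr
    · rw [Set.indicator_of_notMem hω]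
      exact zero_le
  obtain ⟨J', rfl⟩ := Nat.exists_eq_succ_of_ne_zero hJ1
  have hU := U_le (Λ := Λ) ha1 hρ0 hρ1 (le_refl (ρ ^ 2)) hK2 n J'
  have hΛa : Λ⁻¹ * a ^ (J' + 1) = ex ^ θ := by
    have hp0 : (εJ ^ θ) ^ (J' + 1) ≠ 0 :=
      pow_ne_zero _ (ENNReal.rpow_pos (pos_iff_ne_zero.2 hε0) hεt).ne'
    have hpt : (εJ ^ θ) ^ (J' + 1) ≠ ∞ :=
      ENNReal.pow_ne_top (ENNReal.rpow_ne_top_of_nonneg hθ.le hεt)
    have hpp : (εJ ^ (J' + 1)) ^ θ = (εJ ^ θ) ^ (J' + 1) := by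
      rw [← ENNReal.rpow_natCast (εJ ^ θ), ← ENNReal.rpow_mul, ← ENNReal.rpow_natCast εJ,
        ← ENNReal.rpow_mul, mul_comm θ]
    rw [hΛ, ha, ENNReal.inv_rpow ε, inv_inv, hε, ENNReal.mul_rpow_of_nonneg _ _ hθ.le,
      ENNReal.inv_rpow εJ, ← ENNReal.inv_pow, Nat.succ_eq_add_one, hpp, mul_right_comm,
      ENNReal.mul_inv_cancel hp0 hpt, one_mul]
  calc P (B ∩ Q) = Λ⁻¹ * (Λ * P (B ∩ Q)) := by
        rw [← mul_assoc, ENNReal.inv_mul_cancel hΛ0 hΛt, one_mul]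
    _ ≤ Λ⁻¹ * ((a ^ (J' + 1) * K ^ n + Λ * (a * ρ⁻¹) ^ (J' + 1) * (2 * ρ) ^ n) * P B) := by
        refine mul_le_mul' le_rfl ((hlow.trans hM).trans ?_)
        exact mul_le_mul' hU le_rfl
    _ = ((Λ⁻¹ * a ^ (J' + 1)) * K ^ n + (Λ⁻¹ * Λ) * (a * ρ⁻¹) ^ (J' + 1) * (2 * ρ) ^ n) * P B := by
        ring
    _ = _ := by rw [hΛa, ENNReal.inv_mul_cancel hΛ0 hΛt, one_mul]

end Crest.Agent.R154.Trav751
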