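import Crest.Agent.R154.RatioA_872

/-!
# Row 154, home mass route (HM5 core): a single unit with displacement, static and travelling

`Reach A Rel c θ a b V`: from every random law at level `a` there is a sub-law of its push at level
`b`, displaced by at most the (random) tag `t`, with `E[(mass)^(-θ) * c t | F a] ≤ V`.
-/

set_option autoImplicit false
set_option linter.unusedSectionVars false
set_option linter.deprecated false
set_option linter.unusedVariables false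

namespace Crest.Agent.R154.Trav971

open MeasureTheory ProbabilityTheory Set Filter
open Crest.Agent.R154.RatioR872 Crest.Agent.R154.RatioR872.KerSys
open scoped ENNReal

variable {S : Type*} [Countable S] {Ω : Type*} {m0 : MeasurableSpace Ω} {P : Measure Ω}

/-! ### restricted pushes -/

open Classical in
/-- push restricted to the pairs (start, end) in `Q` -/
noncomputable def rp (A : KerSys S P) (Q : S → S → Prop) (a b : ℕ) (w : Ω → S → ℝ≥0∞) (ω : Ω)
    (y : S) : ℝ≥0∞ := ∑' x, w ω x * (if Q x y then A.G a b ω x y else 0)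

variable {A : KerSys S P}

lemma rp_le_push (Q : S → S → Prop) (a b : ℕ) (w : Ω → S → ℝ≥0∞) (ω : Ω) (y : S) :
    rp A Q a b w ω y ≤ A.push a b w ω y := by
  unfold rp KerSys.push
  refine ENNReal.tsum_le_tsum fun x => ?_
  gcongr
  split_ifs <;> simp

lemma Wt_rp (Q : S → S → Prop) {a b : ℕ} (hab : a ≤ b) {w : Ω → S → ℝ≥0∞} (hw : A.Wt a w) :
    A.Wt b (rp A Q a b w) where
  meas y := by
    unfold rp
    refine Measurable.ennreal_tsum fun x => ?_
    refine ((hw.meas x).mono (A.F.mono hab) le_rfl).mul ?_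
    by_cases h : Q x y
    · simp only [h, if_true]; exact A.measF a b x y hab
    · simp only [h, if_false]; exact @measurable_const _ _ _ (A.F b) _
  supp ω y hy := by
    unfold rp
    simp [A.supp a b ω _ y hy]

lemma rp_ne_zero {Q : S → S → Prop} {a b : ℕ} {w : Ω → S → ℝ≥0∞} {ω : Ω} {y : S}
    (h : rp A Q a b w ω y ≠ 0) : ∃ x, w ω x ≠ 0 ∧ Q x y := by
  by_contra hcon
  push Not at hcon
  apply h
  unfold rp
  rw [ENNReal.tsum_eq_zero]
  intro x
  by_cases hx : w ω x = 0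
  · simp [hx]
  · simp [hcon x hx]

lemma tot_mono {w w' : Ω → S → ℝ≥0∞} {ω : Ω} (h : ∀ y, w ω y ≤ w' ω y) : tot w ω ≤ tot w' ω :=
  ENNReal.tsum_le_tsum h

lemma tot_rp_le (Q : S → S → Prop) {a b : ℕ} (hab : a ≤ b) (w : Ω → S → ℝ≥0∞) (ω : Ω) :
    tot (rp A Q a b w) ω ≤ tot w ω :=
  (tot_mono fun y => rp_le_push Q a b w ω y).trans (A.tot_push_le hab w ω)

lemma push_mono {a b : ℕ} {w w' : Ω → S → ℝ≥0∞} {ω : Ω} (h : ∀ y, w ω y ≤ w' ω y) (z : S) :
    A.push a b w ω z ≤ A.push a b w' ω z := by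
  unfold KerSys.push
  exact ENNReal.tsum_le_tsum fun x => mul_le_mul_left (h x) _

/-- composition of restricted pushes -/
lemma rp_comp {Q1 Q2 Q3 : S → S → Prop} (hQ : ∀ x y z, Q1 x y → Q2 y z → Q3 x z) {a b c : ℕ}
    (hab : a ≤ b) (hbc : b ≤ c) (w : Ω → S → ℝ≥0∞) :
    ∀ᵐ ω ∂P, ∀ z, rp A Q2 b c (rp A Q1 a b w) ω z ≤ rp A Q3 a c w ω z := by
  classical
  filter_upwards [A.comp a b c hab hbc] with ω h z
  calc rp A Q2 b c (rp A Q1 a b w) ω z
      = ∑' y, (∑' x, w ω x * (if Q1 x y then A.G a b ω x y else 0)) *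
          (if Q2 y z then A.G b c ω y z else 0) := by
        unfold rp
        refine tsum_congr fun y => ?_
        congr 1
    _ = ∑' y, ∑' x, w ω x * ((if Q1 x y then A.G a b ω x y else 0) *
          (if Q2 y z then A.G b c ω y z else 0)) := by
        refine tsum_congr fun y => ?_
        rw [← ENNReal.tsum_mul_right]
        exact tsum_congr fun x => by ring
    _ = ∑' x, w ω x * ∑' y, ((if Q1 x y then A.G a b ω x y else 0) *
          (if Q2 y z then A.G b c ω y z else 0)) := by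
        rw [ENNReal.tsum_comm]
        exact tsum_congr fun x => ENNReal.tsum_mul_left
    _ ≤ ∑' x, w ω x * (if Q3 x z then A.G a c ω x z else 0) := by
        refine ENNReal.tsum_le_tsum fun x => ?_
        gcongr
        by_cases h3 : Q3 x z
        · rw [if_pos h3]
          refine le_trans (ENNReal.tsum_le_tsum fun y => ?_) (h x z)
          refine mul_le_mul' ?_ ?_
          · split_ifs <;> simp
          · split_ifs <;> simp
        · rw [if_neg h3, nonpos_iff_eq_zero, ENNReal.tsum_eq_zero]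
          intro y
          by_cases h1 : Q1 x y
          · by_cases h2 : Q2 y z
            · exact absurd (hQ x y z h1 h2) h3
            · simp [h2]
          · simp [h1]
    _ = rp A Q3 a c w ω z := by
        unfold rp
        refine tsum_congr fun x => ?_
        congr

lemma push_rp {Q : S → S → Prop} {a b c : ℕ} (hab : a ≤ b) (hbc : b ≤ c) (w : Ω → S → ℝ≥0∞) :
    ∀ᵐ ω ∂P, ∀ z, A.push b c (rp A Q a b w) ω z ≤ A.push a c w ω z := by
  classical
  filter_upwards [rp_comp (A := A) (P := P) (Q1 := Q) (Q2 := fun _ _ => True)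
    (Q3 := fun _ _ => True) (fun _ _ _ _ _ => trivial) hab hbc w] with ω h z
  have e : ∀ (a' b' : ℕ) (w' : Ω → S → ℝ≥0∞), rp A (fun _ _ => True) a' b' w' ω z
      = A.push a' b' w' ω z := by
    intro a' b' w'
    unfold rp KerSys.push
    simp
  have := h z
  rwa [e, e] at this

open Classical in
/-- mass of the restricted climb from one site -/
noncomputable def km (A : KerSys S P) (Q : S → S → Prop) (a b : ℕ) (ω : Ω) (x : S) : ℝ≥0∞ :=
  ∑' y, if Q x y then A.G a b ω x y else 0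

lemma tot_rp (Q : S → S → Prop) (a b : ℕ) (w : Ω → S → ℝ≥0∞) (ω : Ω) :
    tot (rp A Q a b w) ω = ∑' x, w ω x * km A Q a b ω x := by
  classical
  unfold tot rp km
  rw [ENNReal.tsum_comm]
  refine tsum_congr fun x => ?_
  rw [← ENNReal.tsum_mul_left]

lemma meas_tot_rp (Q : S → S → Prop) {a b : ℕ} (hab : a ≤ b) {w : Ω → S → ℝ≥0∞} (hw : A.Wt a w) :
    Measurable[A.F b] (tot (rp A Q a b w)) := (Wt_rp Q hab hw).meas_tot

/-- lower bound of the mass of a restricted push -/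
lemma tot_rp_ge {Q : S → S → Prop} {a b : ℕ} {κ : ℝ≥0∞} {ω : Ω} {w : Ω → S → ℝ≥0∞}
    (hs : ∀ x, x ∉ A.L a → w ω x = 0) (h : ∀ x ∈ A.L a, κ ≤ km A Q a b ω x) :
    κ * tot w ω ≤ tot (rp A Q a b w) ω := by
  rw [tot_rp, tot, ← ENNReal.tsum_mul_left]
  refine ENNReal.tsum_le_tsum fun x => ?_
  by_cases hx : x ∈ A.L a
  · rw [mul_comm]
    gcongr
    exact h x hx
  · simp [hs x hx]

/-! ### `Reach` -/

section reach

variable {T : Type*} [MeasurableSpace T]

/-- from every random law at level `a` a sub-law of its push at level `b`, with tag `t` -/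
def Reach (A : KerSys S P) (Rel : T → S → S → Prop) (c : T → ℝ≥0∞) (θ : ℝ) (G : Set T) (a b : ℕ)
    (V : ℝ≥0∞) : Prop :=
  ∀ (w : Ω → S → ℝ≥0∞) (f : Ω → ℝ≥0∞), A.Wt a w → (∀ ω, tot w ω ≤ 1) → Measurable[A.F a] f →
    (∫⁻ ω, f ω ∂P ≠ ∞) → (∀ᵐ ω ∂P, f ω ≠ 0 → tot w ω = 1) →
    ∃ (w' : Ω → S → ℝ≥0∞) (t : Ω → T), A.Wt b w' ∧ (Measurable[A.F b] t ∧ ∀ ω, t ω ∈ G) ∧
      (∀ᵐ ω ∂P, ∀ y, w' ω y ≤ A.push a b w ω y) ∧
      (∀ ω y, w' ω y ≠ 0 → ∃ x, w ω x ≠ 0 ∧ Rel (t ω) x y) ∧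
      ∫⁻ ω, f ω * (tot w' ω) ^ (-θ) * c (t ω) ∂P ≤ V * ∫⁻ ω, f ω ∂P

variable {Rel : T → S → S → Prop} {c : T → ℝ≥0∞} {θ : ℝ} {G : Set T}

lemma Reach.mono {a b : ℕ} {V V' : ℝ≥0∞} (h : Reach A Rel c θ G a b V) (hV : V ≤ V') :
    Reach A Rel c θ G a b V' := by
  intro w f h1 h2 h3 h4 h5
  obtain ⟨w', t, k1, k2, k3, k4, k5⟩ := h w f h1 h2 h3 h4 h5
  exact ⟨w', t, k1, k2, k3, k4, k5.trans (by gcongr)⟩

lemma rpow_neg_mul {x y : ℝ≥0∞} (hx : x ≠ ∞) (hy : y ≠ ∞) (z : ℝ) :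
    (x * y) ^ (-z) = x ^ (-z) * y ^ (-z) := ENNReal.mul_rpow_of_ne_top hx hy _

/-- **continue from a weight** (normalise, apply `Reach`, scale back) -/
lemma Reach.cont {l b : ℕ} {V : ℝ≥0∞} (h : Reach A Rel c θ G l b V) (hlb : l ≤ b)
    {u : Ω → S → ℝ≥0∞} (hu : A.Wt l u) (hu1 : ∀ᵐ ω ∂P, tot u ω ≤ 1) {g : Ω → ℝ≥0∞}
    (hg : Measurable[A.F l] g) (hgu : ∀ᵐ ω ∂P, g ω ≠ 0 → tot u ω ≠ 0)
    (hfin : ∫⁻ ω, g ω * (tot u ω) ^ (-θ) ∂P ≠ ∞) :
    ∃ (w' : Ω → S → ℝ≥0∞) (t : Ω → T), A.Wt b w' ∧ (Measurable[A.F b] t ∧ ∀ ω, t ω ∈ G) ∧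
      (∀ᵐ ω ∂P, ∀ y, w' ω y ≤ A.push l b u ω y) ∧
      (∀ ω y, w' ω y ≠ 0 → ∃ x, u ω x ≠ 0 ∧ Rel (t ω) x y) ∧
      ∫⁻ ω, g ω * (tot w' ω) ^ (-θ) * c (t ω) ∂P ≤ V * ∫⁻ ω, g ω * (tot u ω) ^ (-θ) ∂P := by
  have hut : ∀ᵐ ω ∂P, tot u ω ≠ ∞ := by
    filter_upwards [hu1] with ω h1
    exact ne_top_of_le_ne_top ENNReal.one_ne_top h1
  set v : Ω → S → ℝ≥0∞ := fun ω x => (tot u ω)⁻¹ * u ω x with hv
  have hvt : ∀ ω, tot v ω = (tot u ω)⁻¹ * tot u ω := by
    intro ω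
    rw [hv]
    simp only [tot]
    rw [ENNReal.tsum_mul_left]
  have hvW : A.Wt l v :=
    { meas := fun x => hu.meas_tot.inv.mul (hu.meas x)
      supp := fun ω x hx => by simp [hv, hu.supp ω x hx] }
  have hv1 : ∀ ω, tot v ω ≤ 1 := by
    intro ω
    rw [hvt]
    exact ENNReal.inv_mul_le_one _
  have hv2 : ∀ ω, tot u ω ≠ ∞ → tot u ω ≠ 0 → tot v ω = 1 := by
    intro ω ht h0
    rw [hvt, ENNReal.inv_mul_cancel h0 ht]
  have huv : ∀ ω x, tot u ω ≠ ∞ → u ω x = tot u ω * v ω x := by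
    intro ω x ht
    by_cases h0 : tot u ω = 0
    · have : u ω x = 0 := by
        have h1 : u ω x ≤ tot u ω := ENNReal.le_tsum x
        rw [h0] at h1
        exact nonpos_iff_eq_zero.1 h1
      rw [this, h0, zero_mul]
    · simp only [hv]
      rw [← mul_assoc, ENNReal.mul_inv_cancel h0 ht, one_mul]
  obtain ⟨w1, t, k1, k2, k3, k4, k5⟩ := h v (fun ω => g ω * (tot u ω) ^ (-θ)) hvW hv1
    (hg.mul (hu.meas_tot.pow_const _)) hfin (by
      filter_upwards [hgu, hut] with ω h1 h3 h2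
      exact hv2 ω h3 (h1 (left_ne_zero_of_mul h2)))
  have hw1 : ∀ᵐ ω ∂P, tot w1 ω ≤ 1 := by
    filter_upwards [k3] with ω h1
    calc tot w1 ω ≤ tot (A.push l b v) ω := tot_mono h1
      _ ≤ tot v ω := A.tot_push_le hlb v ω
      _ ≤ 1 := hv1 ω
  have htm : Measurable[A.F b] (tot u) := hu.meas_tot.mono (A.F.mono hlb) le_rfl
  have htot : ∀ ω, tot (fun ω y => tot u ω * w1 ω y) ω = tot u ω * tot w1 ω := by
    intro ω
    simp only [tot]
    rw [ENNReal.tsum_mul_left]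
  refine ⟨fun ω y => tot u ω * w1 ω y, t, ?_, k2, ?_, ?_, ?_⟩
  · exact { meas := fun x => htm.mul (k1.meas x)
            supp := fun ω x hx => by simp [k1.supp ω x hx] }
  · filter_upwards [k3, hut] with ω h1 h3 y
    calc tot u ω * w1 ω y ≤ tot u ω * A.push l b v ω y := by gcongr; exact h1 y
      _ = A.push l b u ω y := by
        unfold KerSys.push
        rw [← ENNReal.tsum_mul_left]
        refine tsum_congr fun x => ?_
        rw [← mul_assoc, ← huv ω x h3]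
  · intro ω y hy
    obtain ⟨x, hx1, hx2⟩ := k4 ω y (right_ne_zero_of_mul hy)
    exact ⟨x, right_ne_zero_of_mul hx1, hx2⟩
  · refine le_trans (le_of_eq ?_) k5
    refine lintegral_congr_ae ?_
    filter_upwards [hw1, hut] with ω h1 h3
    rw [htot, rpow_neg_mul h3 (ne_top_of_le_ne_top ENNReal.one_ne_top h1)]
    ring

lemma push_push {a b d : ℕ} (hab : a ≤ b) (hbd : b ≤ d) (w : Ω → S → ℝ≥0∞) :
    ∀ᵐ ω ∂P, ∀ z, A.push b d (A.push a b w) ω z ≤ A.push a d w ω z := by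
  classical
  filter_upwards [push_rp (A := A) (P := P) (Q := fun _ _ => True) hab hbd w] with ω h z
  have e : rp A (fun _ _ => True) a b w ω = A.push a b w ω := by
    funext y
    unfold rp KerSys.push
    simp
  have e2 : A.push b d (rp A (fun _ _ => True) a b w) ω z = A.push b d (A.push a b w) ω z := by
    unfold KerSys.push
    refine tsum_congr fun y => ?_
    rw [e]
    rfl
  rw [← e2]
  exact h z

lemma ne_zero_of_fin {f X c' : Ω → ℝ≥0∞} {θ : ℝ} (hθ : 0 < θ) (hf : Measurable f)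
    (hX : Measurable X) (hc : Measurable c') (hc0 : ∀ ω, c' ω ≠ 0)
    (hfin : ∫⁻ ω, f ω * (X ω) ^ (-θ) * c' ω ∂P ≠ ∞) : ∀ᵐ ω ∂P, f ω ≠ 0 → X ω ≠ 0 := by
  filter_upwards [ae_lt_top ((hf.mul (hX.pow_const _)).mul hc) hfin] with ω h1 h2 h3
  have h4 : f ω * (X ω) ^ (-θ) * c' ω < ∞ := h1
  rw [h3, ENNReal.zero_rpow_of_neg (by linarith), ENNReal.mul_top h2,
    ENNReal.top_mul (hc0 ω)] at h4
  exact lt_irrefl _ h4

/-- composition -/
lemma Reach.comp [Countable T] [MeasurableSingletonClass T] [Add T] {G1 G2 G3 : Set T}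
    (hG : ∀ s ∈ G1, ∀ t ∈ G2, s + t ∈ G3) (hRel : ∀ s t x y z, Rel s x y → Rel t y z → Rel (s + t) x z)
    (hc : ∀ s t, c (s + t) ≤ c s * c t) (hc0 : ∀ t, c t ≠ 0) (hθ : 0 < θ)
    {a b d : ℕ} (hab : a ≤ b) (hbd : b ≤ d) {V1 V2 : ℝ≥0∞} (hV1 : V1 ≠ ∞)
    (h1 : Reach A Rel c θ G1 a b V1) (h2 : Reach A Rel c θ G2 b d V2) :
    Reach A Rel c θ G3 a d (V1 * V2) := by
  intro w f hw hw1 hf hfi hft
  obtain ⟨w1, t1, k1, ⟨k2, kG⟩, k3, k4, k5⟩ := h1 w f hw hw1 hf hfi hft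
  have hcm : Measurable[A.F b] (fun ω => c (t1 ω)) := (measurable_of_countable c).comp k2
  have hf0 : Measurable f := hf.mono (A.F.le a) le_rfl
  have hfb : Measurable[A.F b] f := hf.mono (A.F.mono hab) le_rfl
  have hne : ∀ᵐ ω ∂P, f ω ≠ 0 → tot w1 ω ≠ 0 :=
    ne_zero_of_fin hθ hf0 (k1.meas_tot.mono (A.F.le b) le_rfl) (hcm.mono (A.F.le b) le_rfl)
      (fun ω => hc0 _) (ne_top_of_le_ne_top (ENNReal.mul_ne_top hV1 hfi) k5)
  have e1 : ∀ ω, f ω * c (t1 ω) * (tot w1 ω) ^ (-θ) = f ω * (tot w1 ω) ^ (-θ) * c (t1 ω) :=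
    fun ω => by ring
  have hw11 : ∀ᵐ ω ∂P, tot w1 ω ≤ 1 := by
    filter_upwards [k3] with ω h3
    exact ((tot_mono h3).trans (A.tot_push_le hab w ω)).trans (hw1 ω)
  obtain ⟨w2, t2, j1, ⟨j2, jG⟩, j3, j4, j5⟩ := h2.cont hbd k1 hw11 (g := fun ω => f ω * c (t1 ω))
    (hfb.mul hcm) (by
      filter_upwards [hne] with ω h3 h4
      exact h3 (left_ne_zero_of_mul h4)) (by
      simp_rw [e1]
      exact ne_top_of_le_ne_top (ENNReal.mul_ne_top hV1 hfi) k5)
  refine ⟨w2, fun ω => t1 ω + t2 ω, j1, ?_, ?_, ?_, ?_⟩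
  · exact ⟨(measurable_of_countable (fun p : T × T => p.1 + p.2)).comp
      ((k2.mono (A.F.mono hbd) le_rfl).prodMk j2), fun ω => hG _ (kG ω) _ (jG ω)⟩
  · filter_upwards [j3, k3, push_push (A := A) (P := P) hab hbd w] with ω h3 h4 h5 y
    exact (h3 y).trans ((push_mono h4 y).trans (h5 y))
  · intro ω y hy
    obtain ⟨x', hx1, hx2⟩ := j4 ω y hy
    obtain ⟨x, hx3, hx4⟩ := k4 ω x' hx1
    exact ⟨x, hx3, hRel _ _ _ _ _ hx4 hx2⟩
  · calc ∫⁻ ω, f ω * (tot w2 ω) ^ (-θ) * c (t1 ω + t2 ω) ∂P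
        ≤ ∫⁻ ω, f ω * c (t1 ω) * (tot w2 ω) ^ (-θ) * c (t2 ω) ∂P := by
          refine lintegral_mono fun ω => ?_
          calc f ω * (tot w2 ω) ^ (-θ) * c (t1 ω + t2 ω)
              ≤ f ω * (tot w2 ω) ^ (-θ) * (c (t1 ω) * c (t2 ω)) := by gcongr; exact hc _ _
            _ = _ := by ring
      _ ≤ V2 * ∫⁻ ω, f ω * c (t1 ω) * (tot w1 ω) ^ (-θ) ∂P := j5
      _ = V2 * ∫⁻ ω, f ω * (tot w1 ω) ^ (-θ) * c (t1 ω) ∂P := by simp_rw [e1]
      _ ≤ V2 * (V1 * ∫⁻ ω, f ω ∂P) := by gcongr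
      _ = V1 * V2 * ∫⁻ ω, f ω ∂P := by ring

end reach

lemma meas_sel {Ω' β : Type*} {m' : MeasurableSpace Ω'} [MeasurableSpace β] {σ : Ω' → ℕ}
    (hσ : Measurable σ) {F : ℕ → Ω' → β} (hF : ∀ n, Measurable (F n)) :
    Measurable (fun ω => F (σ ω) ω) := by
  have h : Measurable (fun p : Ω' × ℕ => F p.2 p.1) :=
    measurable_from_prod_countable_left (fun n => hF n)
  exact h.comp (measurable_id.prodMk hσ)

lemma rneg_anti {x y : ℝ≥0∞} {θ : ℝ} (hθ : 0 < θ) (h : x ≤ y) : y ^ (-θ) ≤ x ^ (-θ) := by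
  rw [ENNReal.rpow_neg, ENNReal.rpow_neg]
  exact ENNReal.inv_le_inv.2 (ENNReal.rpow_le_rpow h hθ.le)

/-- mass of the confined climb -/
noncomputable def Em (C : ℕ → Ω → S → S → ℝ≥0∞) (a : ℕ) (w : Ω → S → ℝ≥0∞) (ω : Ω) : ℝ≥0∞ :=
  ∑' x, w ω x * ∑' y, C a ω x y

/-- the inputs for one unit -/
structure SU (A : KerSys S P) (φ : S → ℝ) (D : ℝ) (s1 N : ℕ) (C : ℕ → Ω → S → S → ℝ≥0∞)
    (η κ κ0 κE κL : ℝ≥0∞) (θ : ℝ) : Prop where
  Cle : ∀ a, ∀ᵐ ω ∂P, ∀ x y, C a ω x y ≤ A.G a (a + s1) ω x y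
  CD : ∀ a ω x y, C a ω x y ≠ 0 → |φ y - φ x| ≤ D
  Cm : ∀ a x y, Measurable[A.F (a + s1)] (fun ω => C a ω x y)
  E1 : ∀ (a : ℕ) (w : Ω → S → ℝ≥0∞) (f : Ω → ℝ≥0∞), A.Wt a w → (∀ ω, tot w ω ≤ 1) →
    Measurable[A.F a] f → (∫⁻ ω, f ω ∂P ≠ ∞) → (∀ᵐ ω ∂P, f ω ≠ 0 → tot w ω = 1) →
    ∫⁻ ω in {ω | Em C a w ω < 4 * η}, f ω * (Em C a w ω) ^ (-θ) ∂P ≤ κE * ∫⁻ ω, f ω ∂P
  L1 : ∀ (a b : ℕ) (w : Ω → S → ℝ≥0∞) (f : Ω → ℝ≥0∞), A.Wt a w → (∀ ω, tot w ω ≤ 1) →
    Measurable[A.F a] f → (∫⁻ ω, f ω ∂P ≠ ∞) → (∀ᵐ ω ∂P, f ω ≠ 0 → tot w ω = 1) →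
    a + s1 ≤ b → b ≤ a + N →
    ∫⁻ ω in {ω | 4 * η ≤ Em C a w ω ∧ ∃ l, a + s1 < l ∧ l ≤ b ∧
      tot (rp A (fun x y => |φ y - φ x| ≤ D) a l w) ω < η}, f ω ∂P ≤ κL * ∫⁻ ω, f ω ∂P
  U1 : ∀ a, ∀ᵐ ω ∂P, ∀ x ∈ A.L a, κ ≤ km A (fun x y => |φ y - φ x| ≤ 1) a (a + 1) ω x
  U0 : ∀ a d, 1 ≤ d → d ≤ s1 → ∀ᵐ ω ∂P, ∀ x ∈ A.L a,
    κ0 ≤ km A (fun x y => |φ y - φ x| ≤ D + 1) a (a + d) ω x

section static

variable {φ : S → ℝ} {D : ℝ} {s1 N : ℕ} {C : ℕ → Ω → S → S → ℝ≥0∞}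
  {η κ κ0 κE κL : ℝ≥0∞} {θ : ℝ}

/-- displacement at most `e` units -/
def RelS (φ : S → ℝ) (D : ℝ) (e : ℕ) (x y : S) : Prop := |φ y - φ x| ≤ e * (D + 1)

lemma Em_le (h : SU A φ D s1 N C η κ κ0 κE κL θ) (a : ℕ) (w : Ω → S → ℝ≥0∞) :
    ∀ᵐ ω ∂P, Em C a w ω ≤ tot (rp A (fun x y => |φ y - φ x| ≤ D) a (a + s1) w) ω := by
  filter_upwards [h.Cle a] with ω h1
  rw [tot_rp]
  unfold Em km
  refine ENNReal.tsum_le_tsum fun x => ?_
  gcongr with y
  by_cases hxy : |φ y - φ x| ≤ D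
  · rw [if_pos hxy]; exact h1 x y
  · have : C a ω x y = 0 := by
      by_contra hne
      exact hxy (h.CD a ω x y hne)
    rw [this]; exact zero_le

lemma meas_Em (h : SU A φ D s1 N C η κ κ0 κE κL θ) {a : ℕ} {w : Ω → S → ℝ≥0∞} (hw : A.Wt a w) :
    Measurable[A.F (a + s1)] (Em C a w) := by
  unfold Em
  refine Measurable.ennreal_tsum fun x => ?_
  refine ((hw.meas x).mono (A.F.mono (Nat.le_add_right _ _)) le_rfl).mul ?_
  exact Measurable.ennreal_tsum fun y => h.Cm a x y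

lemma tot_rp_mono {Q Q' : S → S → Prop} (hQ : ∀ x y, Q x y → Q' x y) (a b : ℕ)
    (w : Ω → S → ℝ≥0∞) (ω : Ω) : tot (rp A Q a b w) ω ≤ tot (rp A Q' a b w) ω := by
  classical
  refine tot_mono fun y => ?_
  unfold rp
  refine ENNReal.tsum_le_tsum fun x => ?_
  gcongr
  by_cases h : Q x y
  · rw [if_pos h, if_pos (hQ x y h)]
  · rw [if_neg h]; exact zero_le

/-- one forced step -/
lemma up_step (h : SU A φ D s1 N C η κ κ0 κE κL θ) {a l : ℕ} (hal : a ≤ l) {w : Ω → S → ℝ≥0∞}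
    (hw : A.Wt a w) :
    ∀ᵐ ω ∂P, κ * tot (rp A (fun x y => |φ y - φ x| ≤ D) a l w) ω
      ≤ tot (rp A (fun x y => |φ y - φ x| ≤ D + 1) a (l + 1) w) ω := by
  have hcomp := rp_comp (A := A) (P := P) (Q1 := fun x y => |φ y - φ x| ≤ D)
    (Q2 := fun x y => |φ y - φ x| ≤ 1) (Q3 := fun x y => |φ y - φ x| ≤ D + 1)
    (fun x y z h1 h2 => by
      have : φ z - φ x = (φ y - φ x) + (φ z - φ y) := by ring
      rw [this]
      exact (abs_add_le _ _).trans (add_le_add h1 h2)) hal (Nat.le_succ l) w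
  filter_upwards [hcomp, h.U1 l] with ω h1 h2
  exact (tot_rp_ge ((Wt_rp _ hal hw).supp ω) h2).trans (tot_mono h1)

lemma mlt {Ω' : Type*} {m' : MeasurableSpace Ω'} {g : Ω' → ℝ≥0∞} (hg : Measurable g) (c : ℝ≥0∞) :
    MeasurableSet {ω | g ω < c} := measurableSet_lt hg measurable_const

lemma mcount {Ω' : Type*} {m' : MeasurableSpace Ω'} {σ : Ω' → ℕ}
    (h : ∀ l, MeasurableSet {ω | σ ω = l}) : Measurable σ :=
  measurable_to_countable' fun l => h l

lemma int3 {F G f : Ω → ℝ≥0∞} (hF : Measurable F) (hG : Measurable G) (hf : Measurable f)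
    (x y z : ℝ≥0∞) : ∫⁻ ω, (x * F ω + y * G ω + z * f ω) ∂P
      = x * ∫⁻ ω, F ω ∂P + y * ∫⁻ ω, G ω ∂P + z * ∫⁻ ω, f ω ∂P := by
  have h1 : Measurable fun ω => x * F ω + y * G ω := (hF.const_mul x).add (hG.const_mul y)
  rw [lintegral_add_left h1, lintegral_add_left (hF.const_mul x), lintegral_const_mul _ hF,
    lintegral_const_mul _ hG, lintegral_const_mul _ hf]

lemma meas_find {q : ℕ → Ω → Prop} [∀ ω, DecidablePred fun l => q l ω]
    (hq : ∀ l, MeasurableSet[A.F l] {ω | q l ω}) (h : ∀ ω, ∃ l, q l ω) (l : ℕ) :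
    MeasurableSet[A.F l] {ω | Nat.find (h ω) = l} := by
  have e : {ω | Nat.find (h ω) = l} = {ω | q l ω} ∩ ⋂ l' ∈ Finset.range l, {ω | q l' ω}ᶜ := by
    ext ω
    simp only [mem_setOf_eq, Nat.find_eq_iff, mem_inter_iff, mem_iInter, Finset.mem_range,
      mem_compl_iff]
  rw [e]
  refine MeasurableSet.inter (hq l) ?_
  refine Finset.measurableSet_biInter _ fun l' hl' => ?_
  exact MeasurableSet.compl ((A.F.mono (Finset.mem_range.1 hl').le) _ (hq l'))

lemma int_sel {σ : Ω → ℕ} {lo hi : ℕ} (h1 : ∀ ω, lo ≤ σ ω) (h2 : ∀ ω, σ ω ≤ hi)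
    (hσ : ∀ l, MeasurableSet {ω | σ ω = l}) {Y : ℕ → Ω → ℝ≥0∞}
    (hY : ∀ l, lo ≤ l → Measurable (Y l)) :
    ∫⁻ ω, Y (σ ω) ω ∂P = ∑ l ∈ Finset.Icc lo hi, ∫⁻ ω in {ω | σ ω = l}, Y l ω ∂P := by
  have e : ∀ ω, Y (σ ω) ω = ∑ l ∈ Finset.Icc lo hi, {ω | σ ω = l}.indicator (Y l) ω := by
    intro ω
    rw [Finset.sum_eq_single (σ ω)]
    · simp
    · intro l _ hl
      exact indicator_of_notMem (fun h => hl h.symm) _
    · intro hn
      exact absurd (Finset.mem_Icc.2 ⟨h1 ω, h2 ω⟩) hn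
  simp_rw [e]
  rw [lintegral_finset_sum _ fun l hl => (hY l (Finset.mem_Icc.1 hl).1).indicator (hσ l)]
  exact Finset.sum_congr rfl fun l _ => lintegral_indicator (hσ l) _

/-- **one epoch of the static unit** -/
lemma static_step (h : SU A φ D s1 N C η κ κ0 κE κL θ) (hθ : 0 < θ) (hs1 : 1 ≤ s1)
    (hs1N : s1 < N)
    {ζ V Vb : ℝ≥0∞} (hζ : 1 ≤ ζ) {a d : ℕ} (hd : s1 < d)
    (hV : ∀ a' d', 1 ≤ d' → d' < d →
      Reach A (RelS φ D) (fun e : ℕ => ζ ^ e) θ univ a' (a' + d') V)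
    (hVb : N < d → ∀ a', Reach A (RelS φ D) (fun e : ℕ => ζ ^ e) θ univ a' (a' + (d - N)) Vb)
    (h1Vb : 1 ≤ Vb) (hVbV : Vb ≤ V) (hVt : V ≠ ∞)
    (hfinal : ζ * (V * κE + V * ((κ * η) ^ (-θ) * κL) + Vb * η ^ (-θ)) ≤ V) :
    Reach A (RelS φ D) (fun e : ℕ => ζ ^ e) θ univ a (a + d) V := by
  classical
  intro w f hw hw1 hf hfi hft
  set b := a + min N d with hb
  have hb1 : a + s1 < b := by rw [hb]; have := lt_min hs1N hd; omega
  have hb2 : b ≤ a + d := by rw [hb]; have := min_le_right N d; omega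
  have hbN : b ≤ a + N := by rw [hb]; have := min_le_left N d; omega
  set H : ℕ → Ω → ℝ≥0∞ := fun l => tot (rp A (fun x y => |φ y - φ x| ≤ D) a l w) with hH
  set mm : ℕ → Ω → ℝ≥0∞ := fun l => tot (rp A (fun x y => |φ y - φ x| ≤ D + 1) a l w) with hmm
  let q : ℕ → Ω → Prop := fun l ω => a + s1 ≤ l ∧
    ((if l = a + s1 then Em C a w ω < 4 * η else H l ω < η) ∨ b ≤ l)
  have hex : ∀ ω, ∃ l, q l ω := fun ω => ⟨b, hb1.le, Or.inr le_rfl⟩
  set σ : Ω → ℕ := fun ω => Nat.find (hex ω) with hσdef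
  have hσ1 : ∀ ω, a + s1 ≤ σ ω := fun ω => (Nat.find_spec (hex ω)).1
  have hσ2 : ∀ ω, σ ω ≤ b := fun ω => Nat.find_min' (hex ω) ⟨hb1.le, Or.inr le_rfl⟩
  have hqm : ∀ l, MeasurableSet[A.F l] {ω | q l ω} := by
    intro l
    by_cases hl : a + s1 ≤ l
    · have e : {ω | q l ω} = {ω | (if l = a + s1 then Em C a w ω < 4 * η else H l ω < η)} ∪
          {ω | b ≤ l} := by
        ext ω
        simp only [q, hl, true_and, mem_setOf_eq, mem_union]
      rw [e]
      refine MeasurableSet.union ?_ (@MeasurableSet.const _ (A.F l) _)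
      by_cases hl2 : l = a + s1
      · subst hl2
        simp only [if_true]
        exact mlt (meas_Em h hw) _
      · simp only [hl2, if_false]
        exact mlt (meas_tot_rp _ (by omega : a ≤ l) hw) _
    · have e : {ω | q l ω} = ∅ := by
        ext ω
        simp only [q, hl, false_and, mem_setOf_eq, mem_empty_iff_false]
      rw [e]
      exact @MeasurableSet.empty _ (A.F l)
  have hσl : ∀ l, MeasurableSet[A.F l] {ω | σ ω = l} := meas_find hqm hex
  have hσl0 : ∀ l, MeasurableSet {ω | σ ω = l} := fun l => A.F.le l _ (hσl l)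
  have hσm : Measurable[A.F (a + d)] σ := by
    refine mcount fun l => ?_
    by_cases hl : l ≤ a + d
    · exact A.F.mono hl _ (hσl l)
    · have e : {ω | σ ω = l} = ∅ := by
        ext ω
        simp only [mem_setOf_eq, mem_empty_iff_false, iff_false]
        have := hσ2 ω
        omega
      rw [e]
      exact @MeasurableSet.empty _ (A.F (a + d))
  have hmmm : ∀ l, a ≤ l → Measurable[A.F l] (mm l) := fun l hl => meas_tot_rp _ hl hw
  have hmm0 : ∀ l, a ≤ l → Measurable (mm l) := fun l hl => (hmmm l hl).mono (A.F.le l) le_rfl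
  have hf0 : Measurable f := hf.mono (A.F.le a) le_rfl
  set Vf : ℕ → ℝ≥0∞ := fun l => if l < b then V else Vb with hVf
  have hVf1 : ∀ l, 1 ≤ Vf l := by
    intro l
    simp only [hVf]
    split_ifs
    · exact h1Vb.trans hVbV
    · exact h1Vb
  have hVfV : ∀ l, Vf l ≤ V := by
    intro l
    simp only [hVf]
    split_ifs
    · exact le_rfl
    · exact hVbV
  -- pointwise bound at the restart level
  have key : ∀ᵐ ω ∂P, Vf (σ ω) * (mm (σ ω) ω) ^ (-θ) ≤
      V * ({ω | Em C a w ω < 4 * η}.indicator (fun ω => (Em C a w ω) ^ (-θ)) ω)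
      + V * (κ * η) ^ (-θ) * ({ω | 4 * η ≤ Em C a w ω ∧ ∃ l, a + s1 < l ∧ l ≤ b ∧
          H l ω < η}.indicator (fun _ => 1) ω) + Vb * η ^ (-θ) := by
    have hup : ∀ᵐ ω ∂P, ∀ l, a ≤ l → κ * H l ω ≤ mm (l + 1) ω := by
      rw [ae_all_iff]
      intro l
      by_cases hl : a ≤ l
      · filter_upwards [up_step h hl hw] with ω h1 _
        exact h1
      · exact Filter.Eventually.of_forall fun ω h1 => absurd h1 hl
    filter_upwards [Em_le h a w, hup] with ω hE hU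
    have hHm : ∀ l, H l ω ≤ mm l ω := fun l =>
      tot_rp_mono (fun x y hxy => hxy.trans (by linarith)) a l w ω
    by_cases hSE : Em C a w ω < 4 * η
    · have hs : σ ω = a + s1 := le_antisymm
        (Nat.find_min' (hex ω) ⟨le_rfl, Or.inl (by simpa using hSE)⟩) (hσ1 ω)
      rw [hs, indicator_of_mem (show ω ∈ {ω | Em C a w ω < 4 * η} from hSE)]
      refine le_trans ?_ (le_trans le_self_add le_self_add)
      refine mul_le_mul' (hVfV _) (rneg_anti hθ (hE.trans (hHm _)))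
    · by_cases hSL : ∃ l, a + s1 < l ∧ l ≤ b ∧ H l ω < η
      · have hmem : ω ∈ {ω | 4 * η ≤ Em C a w ω ∧ ∃ l, a + s1 < l ∧ l ≤ b ∧ H l ω < η} :=
          ⟨not_lt.1 hSE, hSL⟩
        rw [indicator_of_mem hmem, mul_one]
        refine le_trans ?_ (le_trans (le_add_self) le_self_add)
        refine mul_le_mul' (hVfV _) (rneg_anti hθ ?_)
        have hs : a + s1 < σ ω := by
          rcases (hσ1 ω).lt_or_eq with h1 | h1
          · exact h1
          · exfalso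
            have h2 := (Nat.find_spec (hex ω)).2
            change (if σ ω = a + s1 then Em C a w ω < 4 * η else H (σ ω) ω < η) ∨ b ≤ σ ω at h2
            rw [← h1] at h2
            simp only [if_true] at h2
            rcases h2 with h2 | h2
            · exact hSE h2
            · omega
        obtain ⟨n, hn⟩ : ∃ n, σ ω = n + 1 := ⟨σ ω - 1, by omega⟩
        have hHn : η ≤ H n ω := by
          by_cases hn1 : n = a + s1
          · rw [hn1]
            calc η ≤ 4 * η := le_mul_of_one_le_left zero_le (by norm_num)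
              _ ≤ Em C a w ω := not_lt.1 hSE
              _ ≤ _ := hE
          · have hnq : ¬ q n ω := Nat.find_min (hex ω) (by
              change n < σ ω
              omega)
            by_contra hlt
            rw [not_le] at hlt
            exact hnq ⟨by omega, Or.inl (by rw [if_neg hn1]; exact hlt)⟩
        rw [hn]
        calc κ * η ≤ κ * H n ω := by gcongr
          _ ≤ mm (n + 1) ω := hU n (by omega)
      · have hs : σ ω = b := by
          by_contra hne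
          have hlt : σ ω < b := lt_of_le_of_ne (hσ2 ω) hne
          have h2 := (Nat.find_spec (hex ω)).2
          change (if σ ω = a + s1 then Em C a w ω < 4 * η else H (σ ω) ω < η) ∨ b ≤ σ ω at h2
          rcases h2 with h2 | h2
          · by_cases h3 : σ ω = a + s1
            · rw [if_pos h3] at h2
              exact hSE h2
            · rw [if_neg h3] at h2
              exact hSL ⟨σ ω, lt_of_le_of_ne (hσ1 ω) (Ne.symm h3), hlt.le, h2⟩
          · omega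
        rw [hs]
        refine le_trans ?_ le_add_self
        have hVfb : Vf b = Vb := by simp [hVf]
        rw [hVfb]
        refine mul_le_mul' le_rfl (rneg_anti hθ ?_)
        have h4 : ¬ H b ω < η := fun h4 => hSL ⟨b, hb1, le_rfl, h4⟩
        exact (not_lt.1 h4).trans (hHm b)
  have hEm0 : Measurable (Em C a w) := (meas_Em h hw).mono (A.F.le _) le_rfl
  have hSEm : MeasurableSet {ω | Em C a w ω < 4 * η} := measurableSet_lt hEm0 measurable_const
  have hHmeas : ∀ l, a ≤ l → Measurable (H l) :=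
    fun l hl => (meas_tot_rp _ hl hw).mono (A.F.le l) le_rfl
  have hSLm : MeasurableSet {ω | 4 * η ≤ Em C a w ω ∧ ∃ l, a + s1 < l ∧ l ≤ b ∧ H l ω < η} := by
    refine (measurableSet_le measurable_const hEm0).inter ?_
    have e : {ω | ∃ l, a + s1 < l ∧ l ≤ b ∧ H l ω < η}
        = ⋃ l ∈ Finset.Ioc (a + s1) b, {ω | H l ω < η} := by
      ext ω
      simp only [mem_setOf_eq, mem_iUnion, Finset.mem_Ioc, exists_prop, and_assoc]
    change MeasurableSet {ω | ∃ l, a + s1 < l ∧ l ≤ b ∧ H l ω < η}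
    rw [e]
    refine Finset.measurableSet_biUnion _ fun l hl => ?_
    have := Finset.mem_Ioc.1 hl
    exact measurableSet_lt (hHmeas l (by omega)) measurable_const
  have hsum : ∫⁻ ω, f ω * (Vf (σ ω) * (mm (σ ω) ω) ^ (-θ)) ∂P
      ≤ (V * κE + V * ((κ * η) ^ (-θ) * κL) + Vb * η ^ (-θ)) * ∫⁻ ω, f ω ∂P := by
    have e1 := h.E1 a w f hw hw1 hf hfi hft
    have e2 := h.L1 a b w f hw hw1 hf hfi hft hb1.le hbN
    rw [← lintegral_indicator hSEm] at e1
    rw [← lintegral_indicator hSLm] at e2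
    calc ∫⁻ ω, f ω * (Vf (σ ω) * (mm (σ ω) ω) ^ (-θ)) ∂P
        ≤ ∫⁻ ω, (V * ({ω | Em C a w ω < 4 * η}.indicator
              (fun ω => f ω * (Em C a w ω) ^ (-θ)) ω)
            + V * (κ * η) ^ (-θ) * ({ω | 4 * η ≤ Em C a w ω ∧ ∃ l, a + s1 < l ∧ l ≤ b ∧
              H l ω < η}.indicator (fun ω => f ω) ω) + Vb * η ^ (-θ) * f ω) ∂P := by
          refine lintegral_mono_ae ?_
          filter_upwards [key] with ω hk
          refine (mul_le_mul_right hk (f ω)).trans (le_of_eq ?_)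
          by_cases h1 : ω ∈ {ω | Em C a w ω < 4 * η} <;>
          by_cases h2 : ω ∈ {ω | 4 * η ≤ Em C a w ω ∧ ∃ l, a + s1 < l ∧ l ≤ b ∧ H l ω < η} <;>
          simp only [indicator_of_mem, indicator_of_notMem, h1, h2, not_false_eq_true] <;> ring
      _ = V * ∫⁻ ω, ({ω | Em C a w ω < 4 * η}.indicator
              (fun ω => f ω * (Em C a w ω) ^ (-θ)) ω) ∂P
            + V * (κ * η) ^ (-θ) * ∫⁻ ω, ({ω | 4 * η ≤ Em C a w ω ∧ ∃ l, a + s1 < l ∧ l ≤ b ∧
              H l ω < η}.indicator (fun ω => f ω) ω) ∂P + Vb * η ^ (-θ) * ∫⁻ ω, f ω ∂P := by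
          exact int3 ((hf0.mul (hEm0.pow_const _)).indicator hSEm) (hf0.indicator hSLm) hf0 _ _ _
      _ ≤ V * (κE * ∫⁻ ω, f ω ∂P) + V * (κ * η) ^ (-θ) * (κL * ∫⁻ ω, f ω ∂P)
            + Vb * η ^ (-θ) * ∫⁻ ω, f ω ∂P := by
          gcongr
      _ = _ := by ring
  have hX : V * κE + V * ((κ * η) ^ (-θ) * κL) + Vb * η ^ (-θ) ≤ V :=
    (le_mul_of_one_le_left zero_le hζ).trans hfinal
  have hmmS : Measurable fun ω => mm (σ ω) ω := by
    have h1 : Measurable fun ω => (fun (l : ℕ) (ω : Ω) => if a ≤ l then mm l ω else 0) (σ ω) ω := by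
      refine meas_sel (Ω' := Ω) (β := ℝ≥0∞) (σ := σ) (mcount hσl0)
        (F := fun l ω => if a ≤ l then mm l ω else 0) fun n => ?_
      by_cases hn : a ≤ n
      · simp only [hn, if_true]; exact hmm0 n hn
      · simp only [hn, if_false]; exact measurable_const
    have h2 : (fun ω => mm (σ ω) ω)
        = fun ω => (fun (l : ℕ) (ω : Ω) => if a ≤ l then mm l ω else 0) (σ ω) ω := by
      funext ω
      have : a ≤ σ ω := by have := hσ1 ω; omega
      simp only [this, if_true]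
    rw [h2]
    exact h1
  have hfin1 : ∫⁻ ω, f ω * (mm (σ ω) ω) ^ (-θ) ∂P ≠ ∞ := by
    refine ne_top_of_le_ne_top (ENNReal.mul_ne_top hVt hfi) (le_trans ?_ (hsum.trans
      (mul_le_mul_left hX _)))
    refine lintegral_mono fun ω => ?_
    refine mul_le_mul_right ?_ _
    exact le_mul_of_one_le_left zero_le (hVf1 _)
  have hne1 : ∀ᵐ ω ∂P, f ω ≠ 0 → mm (σ ω) ω ≠ 0 := by
    have := ne_zero_of_fin (P := P) (f := f) (X := fun ω => mm (σ ω) ω) (c' := fun _ => 1) hθ hf0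
      hmmS measurable_const (fun _ => one_ne_zero) (by simpa using hfin1)
    exact this
  have hcl : ∀ l, a + s1 ≤ l → ∀ (Y : Ω → ℝ≥0∞),
      ∫⁻ ω, {ω | σ ω = l}.indicator f ω * Y ω ∂P = ∫⁻ ω in {ω | σ ω = l}, f ω * Y ω ∂P := by
    intro l _ Y
    rw [← lintegral_indicator (hσl0 l)]
    refine lintegral_congr fun ω => ?_
    by_cases hω : ω ∈ {ω | σ ω = l}
    · simp only [indicator_of_mem hω]
    · simp only [indicator_of_notMem hω, zero_mul]
  have hlev : ∀ l, ∃ (W : Ω → S → ℝ≥0∞) (t : Ω → ℕ), A.Wt (a + d) W ∧ Measurable[A.F (a + d)] t ∧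
      (∀ᵐ ω ∂P, ∀ y, W ω y ≤ A.push a (a + d) w ω y) ∧
      (∀ ω y, W ω y ≠ 0 → ∃ x, w ω x ≠ 0 ∧ RelS φ D (t ω) x y) ∧
      (a + s1 ≤ l → l ≤ b → ∫⁻ ω in {ω | σ ω = l}, f ω * (tot W ω) ^ (-θ) * ζ ^ (t ω) ∂P
        ≤ ζ * (Vf l * ∫⁻ ω in {ω | σ ω = l}, f ω * (mm l ω) ^ (-θ) ∂P)) := by
    intro l
    by_cases hl : a + s1 ≤ l ∧ l ≤ b
    swap
    · exact ⟨fun _ _ => 0, fun _ => 0,
        ⟨fun _ => @measurable_const _ _ _ (A.F (a + d)) _, fun _ _ _ => rfl⟩,
        @measurable_const _ _ _ (A.F (a + d)) _,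
        Filter.Eventually.of_forall fun ω y => zero_le, fun ω y hy => absurd rfl hy,
        fun h1 h2 => absurd ⟨h1, h2⟩ hl⟩
    obtain ⟨hl1, hl2⟩ := hl
    have hal : a ≤ l := by omega
    have hu : A.Wt l (rp A (fun x y => |φ y - φ x| ≤ D + 1) a l w) := Wt_rp _ hal hw
    have hu1 : ∀ᵐ ω ∂P, tot (rp A (fun x y => |φ y - φ x| ≤ D + 1) a l w) ω ≤ 1 :=
      Filter.Eventually.of_forall fun ω => (tot_rp_le _ hal w ω).trans (hw1 ω)
    by_cases hltop : l < a + d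
    · have hR : Reach A (RelS φ D) (fun e : ℕ => ζ ^ e) θ univ l (a + d) (Vf l) := by
        by_cases hlb : l < b
        · have h1 := hV l (a + d - l) (by omega) (by omega)
          rw [show l + (a + d - l) = a + d by omega] at h1
          simpa [hVf, hlb] using h1
        · have hlb2 : l = b := by omega
          have hNd : N < d := by
            by_contra hcon
            have : min N d = d := min_eq_right (by omega)
            omega
          have hbN' : b = a + N := by rw [hb, min_eq_left hNd.le]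
          have h1 := hVb hNd l
          rw [show l + (d - N) = a + d by omega] at h1
          simpa [hVf, hlb] using h1
      have hg : Measurable[A.F l] ({ω | σ ω = l}.indicator f) :=
        (hf.mono (A.F.mono hal) le_rfl).indicator (hσl l)
      obtain ⟨W, t, k1, ⟨k2, _⟩, k3, k4, k5⟩ := hR.cont hltop.le hu hu1 hg (by
        filter_upwards [hne1] with ω h1 h2
        have hω : ω ∈ {ω | σ ω = l} := by
          by_contra hcon
          exact h2 (indicator_of_notMem hcon _)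
        rw [indicator_of_mem hω] at h2
        have h3 := h1 h2
        rw [show σ ω = l from hω] at h3
        exact h3) (by
        rw [hcl l hl1]
        refine ne_top_of_le_ne_top hfin1 ?_
        rw [← lintegral_indicator (hσl0 l)]
        refine lintegral_mono fun ω => ?_
        by_cases hω : ω ∈ {ω | σ ω = l}
        · rw [indicator_of_mem hω, show σ ω = l from hω]
        · rw [indicator_of_notMem hω]
          exact zero_le)
      refine ⟨W, fun ω => 1 + t ω, k1, ?_, ?_, ?_, ?_⟩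
      · exact (measurable_of_countable (fun n : ℕ => 1 + n)).comp k2
      · filter_upwards [k3, push_rp (A := A) (P := P) (Q := fun x y => |φ y - φ x| ≤ D + 1) hal
          hltop.le w] with ω h1 h2 y
        exact (h1 y).trans (h2 y)
      · intro ω y hy
        obtain ⟨x', hx1, hx2⟩ := k4 ω y hy
        obtain ⟨x, hx3, hx4⟩ := rp_ne_zero hx1
        refine ⟨x, hx3, ?_⟩
        unfold RelS at hx2 ⊢
        have e : φ y - φ x = (φ x' - φ x) + (φ y - φ x') := by ring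
        rw [e]
        refine (abs_add_le _ _).trans ?_
        push_cast
        linarith
      · intro _ _
        rw [hcl l hl1 (fun ω => (tot (rp A (fun x y => |φ y - φ x| ≤ D + 1) a l w) ω) ^ (-θ))] at k5
        have e1 : ∀ ω, {ω | σ ω = l}.indicator f ω * (tot W ω) ^ (-θ) * ζ ^ (t ω)
            = {ω | σ ω = l}.indicator f ω * ((tot W ω) ^ (-θ) * ζ ^ (t ω)) := fun ω => by ring
        simp_rw [e1] at k5
        rw [hcl l hl1 (fun ω => (tot W ω) ^ (-θ) * ζ ^ (t ω))] at k5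
        have hmeasW : Measurable fun ω => f ω * ((tot W ω) ^ (-θ) * ζ ^ (t ω)) := by
          refine hf0.mul (((k1.meas_tot.mono (A.F.le _) le_rfl).pow_const _).mul ?_)
          exact (measurable_of_countable (fun n : ℕ => ζ ^ n)).comp (k2.mono (A.F.le _) le_rfl)
        calc ∫⁻ ω in {ω | σ ω = l}, f ω * (tot W ω) ^ (-θ) * ζ ^ (1 + t ω) ∂P
            = ∫⁻ ω in {ω | σ ω = l}, ζ * (f ω * ((tot W ω) ^ (-θ) * ζ ^ (t ω))) ∂P := by
              refine lintegral_congr fun ω => ?_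
              rw [pow_add, pow_one]
              ring
          _ = ζ * ∫⁻ ω in {ω | σ ω = l}, f ω * ((tot W ω) ^ (-θ) * ζ ^ (t ω)) ∂P :=
              lintegral_const_mul _ hmeasW
          _ ≤ _ := by gcongr
    · have hltop2 : l = a + d := by omega
      subst hltop2
      refine ⟨rp A (fun x y => |φ y - φ x| ≤ D + 1) a (a + d) w, fun _ => 1, hu,
        @measurable_const _ _ _ (A.F (a + d)) _,
        Filter.Eventually.of_forall fun ω y => rp_le_push _ _ _ _ _ _, ?_, ?_⟩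
      · intro ω y hy
        obtain ⟨x, hx3, hx4⟩ := rp_ne_zero hy
        refine ⟨x, hx3, ?_⟩
        unfold RelS
        push_cast
        linarith
      · intro _ _
        have hmeasW : Measurable fun ω => f ω * (mm (a + d) ω) ^ (-θ) :=
          hf0.mul ((hmm0 (a + d) hal).pow_const _)
        calc ∫⁻ ω in {ω | σ ω = a + d}, f ω * (tot (rp A (fun x y => |φ y - φ x| ≤ D + 1) a
              (a + d) w) ω) ^ (-θ) * ζ ^ 1 ∂P
            = ∫⁻ ω in {ω | σ ω = a + d}, ζ * (f ω * (mm (a + d) ω) ^ (-θ)) ∂P := by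
              refine lintegral_congr fun ω => ?_
              rw [pow_one]
              ring
          _ = ζ * ∫⁻ ω in {ω | σ ω = a + d}, f ω * (mm (a + d) ω) ^ (-θ) ∂P :=
              lintegral_const_mul _ hmeasW
          _ ≤ _ := by
              gcongr
              exact le_mul_of_one_le_left zero_le (hVf1 _)
  choose W t hW ht hle hsup hint using hlev
  refine ⟨fun ω => W (σ ω) ω, fun ω => t (σ ω) ω,
    ⟨fun y => meas_sel hσm (F := fun n ω => W n ω y) (fun n => (hW n).meas y),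
      fun ω y hy => (hW _).supp ω y hy⟩, ⟨meas_sel hσm ht, fun _ => mem_univ _⟩, ?_, ?_, ?_⟩
  · filter_upwards [ae_all_iff.2 hle] with ω h1 y
    exact h1 (σ ω) y
  · intro ω y hy
    exact hsup (σ ω) ω y hy
  · have hYm : ∀ l, Measurable fun ω => f ω * (tot (W l) ω) ^ (-θ) * ζ ^ (t l ω) := fun l =>
      (hf0.mul (((hW l).meas_tot.mono (A.F.le _) le_rfl).pow_const _)).mul
        ((measurable_of_countable (fun n : ℕ => ζ ^ n)).comp ((ht l).mono (A.F.le _) le_rfl))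
    calc ∫⁻ ω, f ω * (tot (fun ω => W (σ ω) ω) ω) ^ (-θ) * ζ ^ (t (σ ω) ω) ∂P
        = ∑ l ∈ Finset.Icc (a + s1) b, ∫⁻ ω in {ω | σ ω = l},
            f ω * (tot (W l) ω) ^ (-θ) * ζ ^ (t l ω) ∂P :=
          int_sel (P := P) (Y := fun l ω => f ω * (tot (W l) ω) ^ (-θ) * ζ ^ (t l ω)) hσ1 hσ2 hσl0
            (fun l _ => hYm l)
      _ ≤ ∑ l ∈ Finset.Icc (a + s1) b, ζ * ∫⁻ ω in {ω | σ ω = l},
            f ω * (Vf l * (mm l ω) ^ (-θ)) ∂P := by
          refine Finset.sum_le_sum fun l hl => ?_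
          have h1 := Finset.mem_Icc.1 hl
          refine (hint l h1.1 h1.2).trans (le_of_eq ?_)
          have hm1 : Measurable fun ω => f ω * (mm l ω) ^ (-θ) :=
            hf0.mul ((hmm0 l (by omega)).pow_const _)
          rw [← lintegral_const_mul _ hm1]
          congr 1
          refine lintegral_congr fun ω => ?_
          ring
      _ = ζ * ∫⁻ ω, f ω * (Vf (σ ω) * (mm (σ ω) ω) ^ (-θ)) ∂P := by
          rw [← Finset.mul_sum]
          congr 1
          exact (int_sel (P := P) (Y := fun l ω => f ω * (Vf l * (mm l ω) ^ (-θ))) hσ1 hσ2 hσl0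
            (fun l hl => hf0.mul (((hmm0 l (by omega)).pow_const _).const_mul _))).symm
      _ ≤ ζ * ((V * κE + V * ((κ * η) ^ (-θ) * κL) + Vb * η ^ (-θ)) * ∫⁻ ω, f ω ∂P) := by gcongr
      _ = ζ * (V * κE + V * ((κ * η) ^ (-θ) * κL) + Vb * η ^ (-θ)) * ∫⁻ ω, f ω ∂P := by ring
      _ ≤ V * ∫⁻ ω, f ω ∂P := by gcongr

/-- **static unit with displacement** -/
theorem static (h : SU A φ D s1 N C η κ κ0 κE κL θ) (hθ : 0 < θ) (hD : 0 ≤ D) (hs1 : 1 ≤ s1)
    (hs1N : s1 < N) {ζ K0 A0 : ℝ≥0∞} (hζ : 1 ≤ ζ) (hη : η ≤ 1)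
    (hA0 : 2 * ζ * η ^ (-θ) ≤ A0) (hA0t : A0 ≠ ∞) (hK0 : 1 ≤ K0) (hK0t : K0 ≠ ∞)
    (hK : κ0 ^ (-θ) ≤ K0) (hsm : 2 * ζ * (κE + (κ * η) ^ (-θ) * κL) ≤ 1) :
    ∀ d, 1 ≤ d → ∀ a, Reach A (RelS φ D) (fun e : ℕ => ζ ^ e) θ univ a (a + d)
      (K0 * A0 ^ (d / N + 1)) := by
  classical
  have hη1 : 1 ≤ η ^ (-θ) := by
    have := rneg_anti hθ hη
    rwa [ENNReal.one_rpow] at this
  have hA01 : 2 * ζ ≤ A0 := (le_mul_of_one_le_right zero_le hη1).trans hA0
  have hA1 : 1 ≤ A0 := by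
    refine le_trans ?_ hA01
    calc (1 : ℝ≥0∞) ≤ 2 * 1 := by norm_num
      _ ≤ 2 * ζ := by gcongr
  intro d
  induction d using Nat.strong_induction_on with
  | _ d ih =>
    intro hd1 a
    have hNpos : 0 < N := by omega
    by_cases hds : d ≤ s1
    · -- forced steps
      intro w f hw hw1 hf hfi hft
      refine ⟨rp A (fun x y => |φ y - φ x| ≤ D + 1) a (a + d) w, fun _ => 1,
        Wt_rp _ (Nat.le_add_right _ _) hw, ⟨@measurable_const _ _ _ (A.F (a + d)) _,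
          fun _ => mem_univ _⟩,
        Filter.Eventually.of_forall fun ω y => rp_le_push _ _ _ _ _ _, ?_, ?_⟩
      · intro ω y hy
        obtain ⟨x, hx3, hx4⟩ := rp_ne_zero hy
        refine ⟨x, hx3, ?_⟩
        unfold RelS
        push_cast
        linarith
      · have hf0 : Measurable f := hf.mono (A.F.le a) le_rfl
        rw [← lintegral_const_mul _ hf0]
        refine lintegral_mono_ae ?_
        filter_upwards [hft, h.U0 a d hd1 hds] with ω h1 h2
        by_cases h3 : f ω = 0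
        · simp [h3]
        · have h4 : κ0 ≤ tot (rp A (fun x y => |φ y - φ x| ≤ D + 1) a (a + d) w) ω := by
            have := tot_rp_ge (A := A) (hw.supp ω) h2
            rwa [h1 h3, mul_one] at this
          calc f ω * (tot (rp A (fun x y => |φ y - φ x| ≤ D + 1) a (a + d) w) ω) ^ (-θ) * ζ ^ 1
              ≤ f ω * κ0 ^ (-θ) * A0 := by
                refine mul_le_mul' (mul_le_mul' le_rfl (rneg_anti hθ h4)) ?_
                rw [pow_one]
                exact (le_mul_of_one_le_left zero_le (by norm_num)).trans hA01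
            _ ≤ f ω * K0 * A0 := mul_le_mul' (mul_le_mul' le_rfl hK) le_rfl
            _ = K0 * A0 * f ω := by ring
            _ ≤ K0 * A0 ^ (d / N + 1) * f ω := by
                gcongr
                calc A0 = A0 ^ 1 := (pow_one _).symm
                  _ ≤ _ := pow_le_pow_right₀ hA1 (Nat.le_add_left 1 _)
    · rw [not_le] at hds
      refine static_step h hθ hs1 hs1N (Vb := K0 * A0 ^ (d / N)) hζ hds ?_ ?_ ?_ ?_ ?_ ?_
      · intro a' d' h1 h2
        refine (ih d' h2 h1 a').mono ?_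
        gcongr
      · intro hNd a'
        have h1 := ih (d - N) (by omega) (by omega) a'
        have h2 : (d - N) / N + 1 = d / N := by
          have h3 : 0 < d / N := Nat.div_pos hNd.le hNpos
          have h4 : (d - N) / N = d / N - 1 := by
            have := Nat.sub_mul_div d N 1
            simpa using this
          omega
        rwa [h2] at h1
      · exact one_le_mul hK0 (one_le_pow₀ hA1)
      · gcongr
        exact Nat.le_succ _
      · exact ENNReal.mul_ne_top hK0t (ENNReal.pow_ne_top hA0t)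
      · have e : ζ * (K0 * A0 ^ (d / N + 1) * κE + K0 * A0 ^ (d / N + 1) * ((κ * η) ^ (-θ) * κL)
            + K0 * A0 ^ (d / N) * η ^ (-θ))
            = K0 * A0 ^ (d / N + 1) * (ζ * (κE + (κ * η) ^ (-θ) * κL))
              + K0 * A0 ^ (d / N) * (ζ * η ^ (-θ)) := by ring
        rw [e]
        have h1 : ζ * (κE + (κ * η) ^ (-θ) * κL) ≤ 1 / 2 := by
          rw [ENNReal.le_div_iff_mul_le (Or.inl two_ne_zero) (Or.inl ENNReal.ofNat_ne_top)]
          calc ζ * (κE + (κ * η) ^ (-θ) * κL) * 2 = 2 * ζ * (κE + (κ * η) ^ (-θ) * κL) := by ring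
            _ ≤ 1 := hsm
        have h2 : ζ * η ^ (-θ) ≤ A0 / 2 := by
          rw [ENNReal.le_div_iff_mul_le (Or.inl two_ne_zero) (Or.inl ENNReal.ofNat_ne_top)]
          calc ζ * η ^ (-θ) * 2 = 2 * ζ * η ^ (-θ) := by ring
            _ ≤ A0 := hA0
        calc K0 * A0 ^ (d / N + 1) * (ζ * (κE + (κ * η) ^ (-θ) * κL))
              + K0 * A0 ^ (d / N) * (ζ * η ^ (-θ))
            ≤ K0 * A0 ^ (d / N + 1) * (1 / 2) + K0 * A0 ^ (d / N) * (A0 / 2) := by gcongr
          _ = K0 * A0 ^ (d / N + 1) / 2 + K0 * A0 ^ (d / N + 1) / 2 := by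
              rw [pow_succ, one_div, ENNReal.div_eq_inv_mul, ENNReal.div_eq_inv_mul]
              ring
          _ = K0 * A0 ^ (d / N + 1) := ENNReal.add_halves _

end static

section travel

variable {φ : S → ℝ} {D : ℝ} {θ : ℝ}

/-- `j` jumps of size `bJ`, `e` units lost -/
def RelT (φ : S → ℝ) (D bJ : ℝ) (t : ℕ × ℕ) (x y : S) : Prop :=
  (t.1 : ℝ) * bJ - t.2 * (D + 1) ≤ φ y - φ x

/-- price of a tag -/
noncomputable def cT (ζ z : ℝ≥0∞) (t : ℕ × ℕ) : ℝ≥0∞ := ζ ^ t.2 * (z⁻¹) ^ t.1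

lemma RelT_add {bJ : ℝ} (s t : ℕ × ℕ) (x y z : S) (h1 : RelT φ D bJ s x y)
    (h2 : RelT φ D bJ t y z) : RelT φ D bJ (s + t) x z := by
  unfold RelT at *
  simp only [Prod.fst_add, Prod.snd_add, Nat.cast_add]
  have e : φ z - φ x = (φ y - φ x) + (φ z - φ y) := by ring
  rw [e]
  linarith

lemma cT_add (ζ z : ℝ≥0∞) (s t : ℕ × ℕ) : cT ζ z (s + t) ≤ cT ζ z s * cT ζ z t := by
  unfold cT
  simp only [Prod.fst_add, Prod.snd_add, pow_add]
  apply le_of_eq
  ring

lemma cT_ne_zero {ζ z : ℝ≥0∞} (hζ : ζ ≠ 0) (hz : z ≠ ∞) (t : ℕ × ℕ) : cT ζ z t ≠ 0 :=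
  mul_ne_zero (pow_ne_zero _ hζ) (pow_ne_zero _ (ENNReal.inv_ne_zero.2 hz))

lemma split_sq {X s : ℝ≥0∞} (hs0 : s ≠ 0) (hst : s ≠ ∞) : X ≤ s⁻¹ + s * X ^ 2 := by
  rcases le_total X s⁻¹ with h | h
  · exact h.trans le_self_add
  · refine le_trans ?_ le_add_self
    calc X = 1 * X := (one_mul _).symm
      _ ≤ (s * X) * X := by
          gcongr
          calc (1 : ℝ≥0∞) = s * s⁻¹ := (ENNReal.mul_inv_cancel hs0 hst).symm
            _ ≤ s * X := by gcongr
      _ = s * X ^ 2 := by ring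

/-- **one macro step of the traveller** -/
theorem travel_one {bJ : ℝ} {m : ℕ} {ηJ δ ζ z s V2 : ℝ≥0∞} (hθ : 0 < θ) (hs0 : s ≠ 0)
    (hst : s ≠ ∞)
    (J1 : ∀ (a : ℕ) (w : Ω → S → ℝ≥0∞) (f : Ω → ℝ≥0∞), A.Wt a w → (∀ ω, tot w ω ≤ 1) →
      Measurable[A.F a] f → (∫⁻ ω, f ω ∂P ≠ ∞) → (∀ᵐ ω ∂P, f ω ≠ 0 → tot w ω = 1) →
      ∫⁻ ω in {ω | tot (rp A (fun x y => bJ ≤ φ y - φ x) a (a + m) w) ω < ηJ}, f ω ∂P
        ≤ δ * ∫⁻ ω, f ω ∂P)
    (hS : ∀ a, Reach A (RelS φ D) (fun e : ℕ => (ζ ^ 2) ^ e) (2 * θ) univ a (a + m) V2) (a : ℕ) :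
    Reach A (RelT φ D bJ) (cT ζ z) θ {t | t.1 ≤ 1} a (a + m)
      (ηJ ^ (-θ) * z⁻¹ + s⁻¹ * δ + s * V2) := by
  classical
  intro w f hw hw1 hf hfi hft
  obtain ⟨W, t, k1, ⟨k2, _⟩, k3, k4, k5⟩ := hS a w f hw hw1 hf hfi hft
  set J : Ω → S → ℝ≥0∞ := rp A (fun x y => bJ ≤ φ y - φ x) a (a + m) w with hJ
  have hJW : A.Wt (a + m) J := Wt_rp _ (Nat.le_add_right _ _) hw
  set Bd : Set Ω := {ω | tot J ω < ηJ} with hBd
  have hBdm : MeasurableSet[A.F (a + m)] Bd := mlt hJW.meas_tot _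
  have hBd0 : MeasurableSet Bd := A.F.le _ _ hBdm
  have hf0 : Measurable f := hf.mono (A.F.le a) le_rfl
  refine ⟨fun ω y => if ω ∈ Bd then W ω y else J ω y,
    fun ω => if ω ∈ Bd then (0, t ω) else (1, 0), ?_, ?_, ?_, ?_, ?_⟩
  · exact
      { meas := fun x => Measurable.ite hBdm (k1.meas x) (hJW.meas x)
        supp := fun ω x hx => by
          by_cases h : ω ∈ Bd
          · simp only [h, if_true]; exact k1.supp ω x hx
          · simp only [h, if_false]; exact hJW.supp ω x hx }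
  · refine ⟨Measurable.ite hBdm ((measurable_of_countable (fun n : ℕ => ((0, n) : ℕ × ℕ))).comp k2)
      (@measurable_const _ _ _ (A.F (a + m)) _), fun ω => ?_⟩
    by_cases h : ω ∈ Bd
    · simp [h]
    · simp [h]
  · filter_upwards [k3] with ω h1 y
    by_cases h : ω ∈ Bd
    · simp only [h, if_true]; exact h1 y
    · simp only [h, if_false]; exact rp_le_push _ _ _ _ _ _
  · intro ω y hy
    by_cases h : ω ∈ Bd
    · simp only [h, if_true] at hy ⊢
      obtain ⟨x, hx1, hx2⟩ := k4 ω y hy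
      refine ⟨x, hx1, ?_⟩
      unfold RelS at hx2
      unfold RelT
      have := neg_abs_le (φ y - φ x)
      push_cast
      linarith
    · simp only [h, if_false] at hy ⊢
      obtain ⟨x, hx1, hx2⟩ := rp_ne_zero hy
      refine ⟨x, hx1, ?_⟩
      unfold RelT
      push_cast
      linarith
  · have htW : Measurable (tot W) := k1.meas_tot.mono (A.F.le _) le_rfl
    have htm : Measurable t := k2.mono (A.F.le _) le_rfl
    set X : Ω → ℝ≥0∞ := fun ω => (tot W ω) ^ (-θ) * ζ ^ (t ω) with hX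
    have hXm : Measurable X := (htW.pow_const _).mul
      ((measurable_of_countable (fun n : ℕ => ζ ^ n)).comp htm)
    have hX2 : ∀ ω, X ω ^ 2 = (tot W ω) ^ (-(2 * θ)) * (ζ ^ 2) ^ (t ω) := by
      intro ω
      simp only [hX]
      rw [mul_pow, ← pow_mul, ← pow_mul, mul_comm (t ω) 2]
      congr 1
      rw [← ENNReal.rpow_natCast, ← ENNReal.rpow_mul]
      congr 1
      push_cast
      ring
    have hJ1 := J1 a w f hw hw1 hf hfi hft
    have e0 : ∀ ω, f ω * (tot (fun ω y => if ω ∈ Bd then W ω y else J ω y) ω) ^ (-θ) *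
        cT ζ z (if ω ∈ Bd then (0, t ω) else (1, 0))
        ≤ f ω * (ηJ ^ (-θ) * z⁻¹) + (s⁻¹ * (Bd.indicator f ω) + s * (f ω * X ω ^ 2)) := by
      intro ω
      by_cases h : ω ∈ Bd
      · have e1 : tot (fun ω y => if ω ∈ Bd then W ω y else J ω y) ω = tot W ω := by
          simp only [tot, h, if_true]
        rw [e1, if_pos h, indicator_of_mem h]
        refine le_trans ?_ le_add_self
        have e2 : cT ζ z (0, t ω) = ζ ^ (t ω) := by simp [cT]
        rw [e2]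
        calc f ω * (tot W ω) ^ (-θ) * ζ ^ (t ω) = f ω * X ω := by simp only [hX]; ring
          _ ≤ f ω * (s⁻¹ + s * X ω ^ 2) := by gcongr; exact split_sq hs0 hst
          _ = _ := by ring
      · have e1 : tot (fun ω y => if ω ∈ Bd then W ω y else J ω y) ω = tot J ω := by
          simp only [tot, h, if_false]
        rw [e1, if_neg h]
        refine le_trans ?_ le_self_add
        have e2 : cT ζ z (1, 0) = z⁻¹ := by simp [cT]
        rw [e2, mul_assoc]
        refine mul_le_mul' le_rfl (mul_le_mul' (rneg_anti hθ ?_) le_rfl)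
        exact not_lt.1 h
    have m1 : Measurable fun ω => f ω * (ηJ ^ (-θ) * z⁻¹) := hf0.mul_const _
    have m2 : Measurable fun ω => s⁻¹ * (Bd.indicator f ω) := (hf0.indicator hBd0).const_mul _
    have m3 : Measurable fun ω => f ω * X ω ^ 2 := hf0.mul (hXm.pow_const 2)
    calc ∫⁻ ω, f ω * (tot (fun ω y => if ω ∈ Bd then W ω y else J ω y) ω) ^ (-θ) *
          cT ζ z (if ω ∈ Bd then (0, t ω) else (1, 0)) ∂P
        ≤ ∫⁻ ω, (f ω * (ηJ ^ (-θ) * z⁻¹) + (s⁻¹ * (Bd.indicator f ω) + s * (f ω * X ω ^ 2))) ∂P :=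
          lintegral_mono e0
      _ = (∫⁻ ω, f ω ∂P) * (ηJ ^ (-θ) * z⁻¹) + (s⁻¹ * ∫⁻ ω in Bd, f ω ∂P
            + s * ∫⁻ ω, f ω * X ω ^ 2 ∂P) := by
          rw [lintegral_add_left m1, lintegral_mul_const _ hf0, lintegral_add_left m2,
            lintegral_const_mul _ (hf0.indicator hBd0), lintegral_indicator hBd0,
            lintegral_const_mul _ m3]
      _ ≤ (∫⁻ ω, f ω ∂P) * (ηJ ^ (-θ) * z⁻¹) + (s⁻¹ * (δ * ∫⁻ ω, f ω ∂P)
            + s * (V2 * ∫⁻ ω, f ω ∂P)) := by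
          gcongr
          refine le_trans (le_of_eq ?_) k5
          refine lintegral_congr fun ω => ?_
          rw [hX2]
          ring
      _ = _ := by ring

/-- **the traveller** -/
theorem travel {bJ : ℝ} {m : ℕ} {ζ z l1 : ℝ≥0∞} (hθ : 0 < θ) (hζ : ζ ≠ 0) (hz : z ≠ ∞)
    (hl : l1 ≠ ∞)
    (h1 : ∀ a, Reach A (RelT φ D bJ) (cT ζ z) θ {t | t.1 ≤ 1} a (a + m) l1) :
    ∀ n, 1 ≤ n → ∀ a, Reach A (RelT φ D bJ) (cT ζ z) θ {t | t.1 ≤ n} a (a + n * m) (l1 ^ n) := by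
  intro n hn
  induction n, hn using Nat.le_induction with
  | base =>
    intro a
    simpa using h1 a
  | succ n hn ih =>
    intro a
    have h2 := Reach.comp (G1 := {t : ℕ × ℕ | t.1 ≤ n}) (G2 := {t : ℕ × ℕ | t.1 ≤ 1})
      (G3 := {t : ℕ × ℕ | t.1 ≤ n + 1}) (fun s hs t ht => by
        simp only [mem_setOf_eq, Prod.fst_add] at *
        omega) RelT_add (cT_add ζ z) (cT_ne_zero hζ hz) hθ
      (Nat.le_add_right a (n * m)) (Nat.le_add_right (a + n * m) m)
      (ENNReal.pow_ne_top hl) (ih a) (h1 (a + n * m))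
    have e : a + n * m + m = a + (n + 1) * m := by ring
    rw [e] at h2
    rw [pow_succ]
    exact h2

end travel

end Crest.Agent.R154.Trav971
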