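import Mathlib

/-! Row 154, ROAD 801 (helper870): prefix-free sums over words. -/

set_option autoImplicit false

open scoped ENNReal

namespace Crest.Agent.R154.Tree870

variable {α : Type*}

/-- prefix-free sets of words -/
def PF (S : Set (List α)) : Prop := ∀ l ∈ S, ∀ l' ∈ S, l <+: l' → l = l'

/-- first words with the property `P` -/
def Min (P : List α → Prop) : Set (List α) := {l | P l ∧ ∀ l', l' <+: l → l' ≠ l → ¬ P l'}

theorem pf_min (P : List α → Prop) : PF (Min P) := by
  intro l hl l' hl' h
  by_contra hne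
  exact hl'.2 l h hne hl.1

theorem PF.mono {S T : Set (List α)} (h : PF T) (hS : S ⊆ T) : PF S :=
  fun l hl l' hl' hp => h l (hS hl) l' (hS hl') hp

theorem fin_sum [Fintype α] [DecidableEq α] : ∀ (n : ℕ) (w : List α → ℝ≥0∞)
    (_ : ∀ l, ∑ a, w (l ++ [a]) ≤ w l) (F : Finset (List α)) (_ : PF (F : Set (List α)))
    (_ : ∀ l ∈ F, l.length ≤ n), ∑ l ∈ F, w l ≤ w [] := by
  intro n
  induction n with
  | zero =>
    intro w _ F _ hn
    have h0 : F ⊆ {[]} := fun l hl => by
      rw [Finset.mem_singleton]
      exact List.length_eq_zero_iff.1 (Nat.le_zero.1 (hn l hl))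
    exact (Finset.sum_le_sum_of_subset h0).trans (by rw [Finset.sum_singleton])
  | succ n ih =>
    intro w hw F hF hn
    by_cases h0 : [] ∈ F
    · have h1 : F ⊆ {[]} := fun l hl => by
        rw [Finset.mem_singleton]
        exact (hF [] h0 l hl (List.nil_prefix)).symm
      exact (Finset.sum_le_sum_of_subset h1).trans (by rw [Finset.sum_singleton])
    · have h1 : ∑ l ∈ F, w l ≤ ∑ a : α, ∑ l ∈ (F.image List.tail).filter (fun l => a :: l ∈ F),
          w (a :: l) := by
        rw [Finset.sum_sigma' (Finset.univ : Finset α)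
          (fun a => (F.image List.tail).filter (fun l => a :: l ∈ F)) (fun a l => w (a :: l))]
        have h2 : ∑ l ∈ F, w l = ∑ x ∈ (Finset.univ.sigma
            (fun a : α => (F.image List.tail).filter (fun l => a :: l ∈ F))),
            w (x.1 :: x.2) := by
          symm
          refine Finset.sum_bij (fun x _ => x.1 :: x.2) ?_ ?_ ?_ ?_
          · intro x hx
            rw [Finset.mem_sigma, Finset.mem_filter] at hx
            exact hx.2.2
          · rintro ⟨a, l⟩ _ ⟨b, l'⟩ _ h
            simp only [List.cons.injEq] at h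
            obtain ⟨h1, h2⟩ := h
            subst h1 h2
            rfl
          · intro l hl
            cases l with
            | nil => exact absurd hl h0
            | cons a l =>
              refine ⟨⟨a, l⟩, ?_, rfl⟩
              rw [Finset.mem_sigma, Finset.mem_filter]
              exact ⟨Finset.mem_univ _, Finset.mem_image.2 ⟨a :: l, hl, rfl⟩, hl⟩
          · intro x _
            rfl
        exact h2.le
      refine h1.trans ?_
      have h3 : ∀ a : α, ∑ l ∈ (F.image List.tail).filter (fun l => a :: l ∈ F), w (a :: l) ≤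
          w [a] := by
        intro a
        refine ih (fun l => w (a :: l)) (fun l => hw (a :: l)) _ ?_ ?_
        · intro l hl l' hl' hp
          have hl1 := (Finset.mem_filter.1 (Finset.mem_coe.1 hl)).2
          have hl2 := (Finset.mem_filter.1 (Finset.mem_coe.1 hl')).2
          have := hF _ hl1 _ hl2 (List.prefix_cons_inj a |>.2 hp)
          exact (List.cons.inj this).2
        · intro l hl
          have := hn _ (Finset.mem_filter.1 hl).2
          simpa using this
      refine (Finset.sum_le_sum fun a _ => h3 a).trans ?_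
      simpa using hw []

/-- **prefix-free sums** -/
theorem pf_sum [Fintype α] (w : List α → ℝ≥0∞) (hw : ∀ l, ∑ a, w (l ++ [a]) ≤ w l)
    {S : Set (List α)} (hS : PF S) [DecidablePred (· ∈ S)] :
    ∑' l, (if l ∈ S then w l else 0) ≤ w [] := by
  classical
  rw [ENNReal.tsum_eq_iSup_sum]
  refine iSup_le fun F => ?_
  rw [← Finset.sum_filter]
  refine fin_sum ((F.filter (· ∈ S)).sup List.length) w hw _ ?_ ?_
  · refine hS.mono ?_
    intro l hl
    exact (Finset.mem_filter.1 (Finset.mem_coe.1 hl)).2
  · intro l hl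
    exact Finset.le_sup (f := List.length) hl

/-- sums over the extensions of a word -/
theorem pf_sum_ext [Fintype α] (w : List α → ℝ≥0∞) (hw : ∀ l, ∑ a, w (l ++ [a]) ≤ w l)
    (l0 : List α) {S : Set (List α)} (hS : PF S) [DecidablePred (· ∈ S)] :
    ∑' l, (if l0 ++ l ∈ S then w (l0 ++ l) else 0) ≤ w l0 := by
  classical
  have h := pf_sum (fun l => w (l0 ++ l)) (fun l => by simpa [List.append_assoc] using hw (l0 ++ l))
    (S := {l | l0 ++ l ∈ S}) (by
      intro l hl l' hl' hp
      have := hS _ hl _ hl' ((List.prefix_append_right_inj l0).2 hp)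
      exact List.append_cancel_left this)
  simpa using h

/-- every word with a prefix in `P` starts with a first word of `P` -/
theorem exists_min (P : List α → Prop) {l : List α} (h : ∃ l', l' <+: l ∧ P l') :
    ∃ l1 ∈ Min P, ∃ l2, l = l1 ++ l2 := by
  classical
  have h' : ∃ n, ∃ l', l' <+: l ∧ P l' ∧ l'.length = n := by
    obtain ⟨l', h1, h2⟩ := h
    exact ⟨_, l', h1, h2, rfl⟩
  obtain ⟨l1, h1, h2, h3⟩ := Nat.find_spec h'
  refine ⟨l1, ⟨h2, ?_⟩, ?_⟩
  · intro l' hp hne hP
    have h4 : l'.length < l1.length := by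
      rcases Nat.lt_or_ge l'.length l1.length with h | h
      · exact h
      · exact absurd (hp.eq_of_length_le h) hne
    rw [h3] at h4
    exact Nat.find_min h' h4 ⟨l', hp.trans h1, hP, rfl⟩
  · obtain ⟨l2, h5⟩ := h1
    exact ⟨l2, h5.symm⟩

/-- **splitting at the first prefix** -/
theorem split_sum (P : List α → Prop) (f : List α → ℝ≥0∞) (g : List α → ℝ≥0∞)
    [DecidablePred (· ∈ Min P)]
    (hf : ∀ l, g l ≠ 0 → ∃ l', l' <+: l ∧ P l') (hg : ∀ l, g l ≤ f l) :
    ∑' l, g l ≤ ∑' l1, (if l1 ∈ Min P then ∑' l2, f (l1 ++ l2) else 0) := by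
  classical
  let s : Set (List α) := {l | g l ≠ 0}
  have h1 : ∑' l, g l = ∑' l : s, g l := by
    rw [tsum_subtype s g]
    refine tsum_congr fun l => ?_
    by_cases h : l ∈ s
    · rw [Set.indicator_of_mem h]
    · rw [Set.indicator_of_notMem h]
      exact not_not.1 h
  have h2 : ∑' l1, (if l1 ∈ Min P then ∑' l2, f (l1 ++ l2) else 0) =
      ∑' p : List α × List α, (if p.1 ∈ Min P then f (p.1 ++ p.2) else 0) := by
    rw [ENNReal.tsum_prod']
    refine tsum_congr fun l1 => ?_
    split_ifs with h
    · rfl
    · simp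
  rw [h1, h2]
  choose a ha b hb using fun l : s => exists_min P (hf l.1 l.2)
  have hi : Function.Injective (fun l : s => ((a l, b l) : List α × List α)) := by
    intro l l' h
    simp only [Prod.mk.injEq] at h
    apply Subtype.ext
    rw [hb l, hb l', h.1, h.2]
  refine le_trans ?_ (ENNReal.tsum_comp_le_tsum_of_injective hi _)
  refine ENNReal.tsum_le_tsum fun l => ?_
  simp only
  rw [if_pos (ha l), ← hb l]
  exact hg l.1

end Crest.Agent.R154.Tree870
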