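import Crest.Agent.R154.Ren_263

/-!
Row 154, block B1: opportunities which occur infinitely often are used infinitely often.
-/

set_option autoImplicit false
set_option linter.unusedSectionVars false
set_option linter.deprecated false
open MeasureTheory Filter Set
open scoped ENNReal Topology

namespace Crest.Agent.R154.Ren263

variable {S : Type*} [Countable S] [MeasurableSpace S] [MeasurableSingletonClass S]

/-- If at every opportunity (event `T n`, determined by the first `n` letters) the next letter is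
in `V` with conditional probability at least `δ > 0`, then almost surely: infinitely many
opportunities imply infinitely many used opportunities. -/
theorem io_of_opportunities (P : Measure (ℕ → S)) [IsProbabilityMeasure P] (T : ℕ → Set (ℕ → S))
    (hT : ∀ n, Det n (T n)) (V : Set S) {δ : ℝ≥0∞} (hδ : δ ≠ 0)
    (H : ∀ n A, Det n A → A ⊆ T n → δ * P A ≤ P (A ∩ {s | s n ∈ V})) :
    ∀ᵐ s ∂P, (∀ j, ∃ n, j ≤ n ∧ s ∈ T n) → ∀ j, ∃ n, j ≤ n ∧ s ∈ T n ∧ s n ∈ V := by
  classical
  have hVm : ∀ n, MeasurableSet {s : ℕ → S | s n ∈ V} := fun n =>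
    measurable_pi_apply n (Set.to_countable V).measurableSet
  -- enough: null sets O j
  set O : ℕ → Set (ℕ → S) := fun j =>
    {s | (∀ i, ∃ n, i ≤ n ∧ s ∈ T n) ∧ ∀ n, j ≤ n → s ∈ T n → s n ∉ V} with hO
  have hOm : ∀ j, MeasurableSet (O j) := by
    intro j
    have e1 : MeasurableSet {s : ℕ → S | ∀ i, ∃ n, i ≤ n ∧ s ∈ T n} := by
      have : {s : ℕ → S | ∀ i, ∃ n, i ≤ n ∧ s ∈ T n} =
          ⋂ i : ℕ, ⋃ n : ℕ, ⋃ _ : i ≤ n, T n := by ext s; simp
      rw [this]
      exact MeasurableSet.iInter fun i => MeasurableSet.iUnion fun n => MeasurableSet.iUnion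
        fun _ => (hT n).measurableSet
    have e2 : MeasurableSet {s : ℕ → S | ∀ n, j ≤ n → s ∈ T n → s n ∉ V} := by
      have : {s : ℕ → S | ∀ n, j ≤ n → s ∈ T n → s n ∉ V} =
          ⋂ n : ℕ, ⋂ _ : j ≤ n, ((T n)ᶜ ∪ {s | s n ∈ V}ᶜ) := by
        ext s
        simp only [mem_setOf_eq, mem_iInter, mem_union, mem_compl_iff]
        refine forall_congr' fun n => forall_congr' fun _ => ?_
        tauto
      rw [this]
      exact MeasurableSet.iInter fun n => MeasurableSet.iInter fun _ =>
        (hT n).measurableSet.compl.union (hVm n).compl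
    exact e1.inter e2
  have hr : 1 - δ < 1 := ENNReal.sub_lt_self ENNReal.one_ne_top one_ne_zero hδ
  have hO0 : ∀ j, P (O j) = 0 := by
    intro j
    refine trial P (hOm j) hr fun n0 A hA => ?_
    set N := max n0 j with hN
    set C : ℕ → Set (ℕ → S) := fun n =>
      {s | s ∈ A ∧ N ≤ n ∧ s ∈ T n ∧ ∀ m, N ≤ m → m < n → s ∉ T m} with hC
    have hCdet : ∀ n, Det n (C n) := by
      intro n
      have key : ∀ s s' : ℕ → S, (∀ i < n, s i = s' i) → s ∈ C n → s' ∈ C n := by
        rintro s s' Hs ⟨h1, h2, h3, h4⟩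
        refine ⟨(hA.mono ((le_max_left n0 j).trans h2) s s' Hs).1 h1, h2, (hT n s s' Hs).1 h3,
          fun m hm1 hm2 hm3 => h4 m hm1 hm2 ?_⟩
        exact (hT m s s' fun i hi => Hs i (hi.trans hm2)).2 hm3
      exact fun s s' Hs => ⟨key s s' Hs, key s' s fun i hi => (Hs i hi).symm⟩
    have hCdisj : Pairwise (Function.onFun Disjoint C) := by
      intro n m hnm
      rw [Function.onFun, Set.disjoint_left]
      rintro s ⟨_, h2, h3, h4⟩ ⟨_, h2', h3', h4'⟩
      rcases lt_or_gt_of_ne hnm with hlt | hlt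
      · exact h4' n h2 hlt h3
      · exact h4 m h2' hlt h3'
    have hsub : A ∩ O j ⊆ ⋃ n, (C n \ {s | s n ∈ V}) := by
      rintro s ⟨hsA, hs1, hs2⟩
      have hex := hs1 N
      refine mem_iUnion.2 ⟨Nat.find hex, ⟨hsA, (Nat.find_spec hex).1, (Nat.find_spec hex).2,
        fun m hm1 hm2 hm3 => Nat.find_min hex hm2 ⟨hm1, hm3⟩⟩, ?_⟩
      exact hs2 _ ((le_max_right n0 j).trans (Nat.find_spec hex).1) (Nat.find_spec hex).2
    have hfail : ∀ n, P (C n \ {s | s n ∈ V}) ≤ (1 - δ) * P (C n) := by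
      intro n
      have h1 := H n (C n) (hCdet n) (fun s hs => hs.2.2.1)
      have h2 : P (C n ∩ {s | s n ∈ V}) + P (C n \ {s | s n ∈ V}) = P (C n) :=
        measure_inter_add_diff _ (hVm n)
      rw [ENNReal.sub_mul (fun _ _ => measure_ne_top _ _), one_mul]
      refine ENNReal.le_sub_of_add_le_left
        (ne_top_of_le_ne_top (measure_ne_top _ _) (h1.trans (measure_mono inter_subset_left))) ?_
      calc δ * P (C n) + P (C n \ {s | s n ∈ V})
          ≤ P (C n ∩ {s | s n ∈ V}) + P (C n \ {s | s n ∈ V}) := by gcongr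
        _ = P (C n) := h2
    calc P (A ∩ O j) ≤ P (⋃ n, (C n \ {s | s n ∈ V})) := measure_mono hsub
      _ ≤ ∑' n, P (C n \ {s | s n ∈ V}) := measure_iUnion_le _
      _ ≤ ∑' n, (1 - δ) * P (C n) := ENNReal.tsum_le_tsum hfail
      _ = (1 - δ) * ∑' n, P (C n) := ENNReal.tsum_mul_left
      _ = (1 - δ) * P (⋃ n, C n) := by
          rw [measure_iUnion hCdisj fun n => (hCdet n).measurableSet]
      _ ≤ (1 - δ) * P A := by
          gcongr
          exact iUnion_subset fun n s hs => hs.1
  have hall : ∀ᵐ s ∂P, ∀ j, s ∉ O j := by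
    rw [ae_all_iff]
    exact fun j => measure_eq_zero_iff_ae_notMem.1 (hO0 j)
  filter_upwards [hall] with s hs hio j
  by_contra hcon
  push Not at hcon
  exact hs j ⟨hio, fun n hn hTn => hcon n hn hTn⟩

end Crest.Agent.R154.Ren263
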