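import Mathlib

/-!
Row 154, HOME MASS route (263 #36390), leaf HM5 (abstract): `n` sequential big tries in the buffer,
then the continuation from the first success level (helper868).

Levels `L 0 ≤ L 1 ≤ … ≤ L n ≤ b ≤ c`.  Try `j` lives on `[L j, L (j+1)]`; it is decided by
`F (L (j+1))` and fails with conditional probability `≤ q` given `F (L j)`.  From a success the
continuation up to `c` loses the factor `e` relative to `s (L j)` with conditional probability
`≤ r`.  Only `s b ≤ s (L j)` is used for the buffer: it is free.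
-/

set_option autoImplicit false
set_option linter.unusedVariables false

namespace Crest.Agent.R154.Tries868

open MeasureTheory ProbabilityTheory Set Filter
open scoped ENNReal

variable {Ω : Type*} {m0 : MeasurableSpace Ω} {P : Measure Ω}

/-- no success among the first `j` tries -/
def noS (Succ : ℕ → Set Ω) (B : Set Ω) : ℕ → Set Ω
  | 0 => B
  | j + 1 => noS Succ B j ∩ (Succ j)ᶜ

lemma noS_subset (Succ : ℕ → Set Ω) (B : Set Ω) (j : ℕ) : noS Succ B j ⊆ B := by
  induction j with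
  | zero => exact subset_rfl
  | succ j ih => exact inter_subset_left.trans ih

lemma meas_noS (F : Filtration ℕ m0) {L : ℕ → ℕ} (hL : Monotone L) {Succ : ℕ → Set Ω} {n : ℕ}
    (hS : ∀ j < n, MeasurableSet[F (L (j + 1))] (Succ j)) {B : Set Ω}
    (hB : MeasurableSet[F (L 0)] B) : ∀ j ≤ n, MeasurableSet[F (L j)] (noS Succ B j) := by
  intro j
  induction j with
  | zero => intro _; exact hB
  | succ j ih =>
    intro hj
    exact MeasurableSet.inter (F.mono (hL (Nat.le_succ j)) _ (ih (by omega)))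
      (hS j (by omega)).compl

lemma noS_le (F : Filtration ℕ m0) {L : ℕ → ℕ} (hL : Monotone L) {Succ : ℕ → Set Ω} {n : ℕ}
    (hS : ∀ j < n, MeasurableSet[F (L (j + 1))] (Succ j)) {q : ℝ≥0∞}
    (hfail : ∀ j < n, ∀ B, MeasurableSet[F (L j)] B → P (B ∩ (Succ j)ᶜ) ≤ q * P B)
    {B : Set Ω} (hB : MeasurableSet[F (L 0)] B) :
    ∀ j ≤ n, P (noS Succ B j) ≤ q ^ j * P B := by
  intro j
  induction j with
  | zero => intro _; simp [noS]
  | succ j ih =>
    intro hj
    calc P (noS Succ B (j + 1)) ≤ q * P (noS Succ B j) :=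
          hfail j (by omega) _ (meas_noS F hL hS hB j (by omega))
      _ ≤ q * (q ^ j * P B) := by gcongr; exact ih (by omega)
      _ = q ^ (j + 1) * P B := by rw [pow_succ, ← mul_assoc, mul_comm q]

/-- the pieces `first success = j` are disjoint and lie in `B` -/
lemma sum_first_le (F : Filtration ℕ m0) {L : ℕ → ℕ} (hL : Monotone L) {Succ : ℕ → Set Ω} {n : ℕ}
    (hS : ∀ j < n, MeasurableSet[F (L (j + 1))] (Succ j)) {B : Set Ω}
    (hB : MeasurableSet[F (L 0)] B) :
    ∀ j ≤ n, (∑ i ∈ Finset.range j, P (noS Succ B i ∩ Succ i)) + P (noS Succ B j) ≤ P B := by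
  intro j
  induction j with
  | zero => intro _; simp [noS]
  | succ j ih =>
    intro hj
    rw [Finset.sum_range_succ, add_assoc]
    have hm : MeasurableSet (Succ j) := F.le _ _ (hS j (by omega))
    have h1 : P (noS Succ B j ∩ Succ j) + P (noS Succ B (j + 1)) = P (noS Succ B j) := by
      have := measure_inter_add_sdiff (μ := P) (noS Succ B j) hm
      rw [sdiff_eq] at this
      exact this
    rw [h1]
    exact ih (by omega)

/-- **HM5, abstract.** `n` sequential tries in the buffer `[L 0, b]` and the continuation to `c`. -/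
theorem tries (F : Filtration ℕ m0) {L : ℕ → ℕ} (hL : Monotone L) {Succ : ℕ → Set Ω} {n b c : ℕ}
    {s : ℕ → Ω → ℝ≥0∞} (hs : ∀ j < n, ∀ ω, s b ω ≤ s (L j) ω)
    (hS : ∀ j < n, MeasurableSet[F (L (j + 1))] (Succ j)) {q r e : ℝ≥0∞}
    (hfail : ∀ j < n, ∀ B, MeasurableSet[F (L j)] B → P (B ∩ (Succ j)ᶜ) ≤ q * P B)
    (hcont : ∀ j < n, ∀ B, MeasurableSet[F (L (j + 1))] B → B ⊆ Succ j →
      P (B ∩ {ω | s (L j) ω ≠ 0 ∧ s c ω ≤ e * s (L j) ω}) ≤ r * P B)
    {B : Set Ω} (hB : MeasurableSet[F (L 0)] B) :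
    P (B ∩ {ω | s b ω ≠ 0 ∧ s c ω ≤ e * s b ω}) ≤ (q ^ n + r) * P B := by
  have hsub : B ∩ {ω | s b ω ≠ 0 ∧ s c ω ≤ e * s b ω} ⊆
      noS Succ B n ∪ ⋃ j ∈ Finset.range n, (noS Succ B j ∩ Succ j) ∩
        {ω | s (L j) ω ≠ 0 ∧ s c ω ≤ e * s (L j) ω} := by
    rintro ω ⟨hωB, h0, h1⟩
    have key : ∀ k ≤ n, ω ∈ noS Succ B k ∪ ⋃ j ∈ Finset.range k, (noS Succ B j ∩ Succ j) ∩
        {ω | s (L j) ω ≠ 0 ∧ s c ω ≤ e * s (L j) ω} := by
      intro k
      induction k with
      | zero => intro _; exact Or.inl hωB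
      | succ k ih =>
        intro hk
        rcases ih (by omega) with h | h
        · by_cases hω : ω ∈ Succ k
          · refine Or.inr (mem_iUnion₂.2 ⟨k, Finset.mem_range.2 (Nat.lt_succ_self k), ⟨h, hω⟩, ?_⟩)
            refine ⟨fun h2 => h0 ?_, h1.trans ?_⟩
            · exact nonpos_iff_eq_zero.1 ((hs k (by omega) ω).trans h2.le)
            · gcongr
              exact hs k (by omega) ω
          · exact Or.inl ⟨h, hω⟩
        · right
          obtain ⟨j, hj, h2⟩ := mem_iUnion₂.1 h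
          exact mem_iUnion₂.2 ⟨j, Finset.mem_range.2
            ((Finset.mem_range.1 hj).trans (Nat.lt_succ_self k)), h2⟩
    exact key n le_rfl
  calc P (B ∩ {ω | s b ω ≠ 0 ∧ s c ω ≤ e * s b ω})
      ≤ P (noS Succ B n) + ∑ j ∈ Finset.range n, P ((noS Succ B j ∩ Succ j) ∩
        {ω | s (L j) ω ≠ 0 ∧ s c ω ≤ e * s (L j) ω}) :=
        (measure_mono hsub).trans ((measure_union_le _ _).trans (by
          gcongr; exact measure_biUnion_finset_le _ _))
    _ ≤ q ^ n * P B + ∑ j ∈ Finset.range n, r * P (noS Succ B j ∩ Succ j) := by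
        refine add_le_add (noS_le F hL hS hfail hB n le_rfl) (Finset.sum_le_sum fun j hj => ?_)
        have hj' := Finset.mem_range.1 hj
        exact hcont j hj' _ (MeasurableSet.inter
          (F.mono (hL (Nat.le_succ j)) _ (meas_noS F hL hS hB j hj'.le)) (hS j hj'))
          inter_subset_right
    _ ≤ q ^ n * P B + r * P B := by
        rw [← Finset.mul_sum]
        gcongr
        exact le_self_add.trans (sum_first_le F hL hS hB n le_rfl)
    _ = (q ^ n + r) * P B := by rw [add_mul]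

/-- **HM5 with numbers**: tries fail with `e^{-a v}`, continuation with `e^{-2 lam v}`,
`n a ≥ 2 lam`, `log 2 ≤ lam v`. -/
theorem tries_exp (F : Filtration ℕ m0) {L : ℕ → ℕ} (hL : Monotone L) {Succ : ℕ → Set Ω}
    {n b c : ℕ} {s : ℕ → Ω → ℝ≥0∞} (hs : ∀ j < n, ∀ ω, s b ω ≤ s (L j) ω)
    (hS : ∀ j < n, MeasurableSet[F (L (j + 1))] (Succ j)) {a lam v : ℝ}
    (hna : 2 * lam ≤ n * a) (hv0 : 0 ≤ v) (hlv : Real.log 2 ≤ lam * v)
    (hfail : ∀ j < n, ∀ B, MeasurableSet[F (L j)] B →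
      P (B ∩ (Succ j)ᶜ) ≤ ENNReal.ofReal (Real.exp (-(a * v))) * P B)
    (hcont : ∀ j < n, ∀ B, MeasurableSet[F (L (j + 1))] B → B ⊆ Succ j →
      P (B ∩ {ω | s (L j) ω ≠ 0 ∧ s c ω ≤ ENNReal.ofReal (Real.exp (-v)) * s (L j) ω})
        ≤ ENNReal.ofReal (Real.exp (-(2 * lam * v))) * P B)
    {B : Set Ω} (hB : MeasurableSet[F (L 0)] B) :
    P (B ∩ {ω | s b ω ≠ 0 ∧ s c ω ≤ ENNReal.ofReal (Real.exp (-v)) * s b ω})
      ≤ ENNReal.ofReal (Real.exp (-(lam * v))) * P B := by
  refine (tries F hL hs hS hfail hcont hB).trans ?_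
  gcongr
  rw [← ENNReal.ofReal_pow (Real.exp_pos _).le, ← Real.exp_nat_mul,
    ← ENNReal.ofReal_add (Real.exp_pos _).le (Real.exp_pos _).le]
  refine ENNReal.ofReal_le_ofReal ?_
  have h1 : Real.exp (n * -(a * v)) ≤ Real.exp (-(2 * lam * v)) := by
    apply Real.exp_le_exp.2
    nlinarith
  have h2 : 2 * Real.exp (-(2 * lam * v)) ≤ Real.exp (-(lam * v)) := by
    have : Real.exp (-(2 * lam * v)) = Real.exp (-(lam * v)) * Real.exp (-(lam * v)) := by
      rw [← Real.exp_add]; congr 1; ring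
    rw [this]
    have h3 : 2 * Real.exp (-(lam * v)) ≤ 1 := by
      have h4 : Real.exp (-(lam * v)) ≤ Real.exp (-Real.log 2) :=
        Real.exp_le_exp.2 (by linarith)
      rw [Real.exp_neg (Real.log 2), Real.exp_log (by norm_num)] at h4
      linarith
    nlinarith [Real.exp_pos (-(lam * v))]
  linarith

end Crest.Agent.R154.Tries868
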