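import Crest.Agent.R154.TubeLin_4
import Crest.Agent.R154.B4Inst_797

/-!
Row 154, d = 2 (D2.5, helper4).  Binding of `TubeLin_4` to the natural law (797's `natLaw`):
tubes of width `A_ε * wd N` around ARBITRARY centres `v_N` at every scale give tubes of width
`A'_ε * wd N` around ONE line `θ * level`.
-/

set_option autoImplicit false
set_option linter.unusedSectionVars false
set_option linter.deprecated false

namespace Crest.Agent.R154.TubeLin4

open MeasureTheory ProbabilityTheory Filter Set Crest.ProbabilityR.RandomEnvironment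
open Crest.Agent.R154.Mk561 Crest.Agent.R154.Bind263 Crest.Agent.R154.B4Inst797
open scoped ENNReal Topology

/-! ## Regular growth -/

/-- growth at one factor `s` gives growth at all powers of `2` -/
theorem reg_of (G : ℕ → ℝ) (hG0 : ∀ m, 0 ≤ G m) (hGm : Monotone G) {s : ℕ} (hs : 2 ≤ s) {q : ℝ}
    (hqs : q < s) {N0 : ℕ} (h : ∀ N, N0 ≤ N → G (s * N) ≤ q * G N) :
    ∃ K ρ : ℝ, 0 ≤ K ∧ 0 ≤ ρ ∧ ρ < 2 ∧ ∀ N, N0 ≤ N → ∀ j : ℕ, G (2 ^ j * N) ≤ K * ρ ^ j * G N := by
  set q' : ℝ := max q 1 with hq'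
  have hs1 : (1 : ℝ) < s := by exact_mod_cast (by omega : 1 < s)
  have hq's : q' < s := max_lt hqs hs1
  have hq'1 : 1 ≤ q' := le_max_right _ _
  have hq'0 : 0 < q' := lt_of_lt_of_le one_pos hq'1
  have h' : ∀ N, N0 ≤ N → G (s * N) ≤ q' * G N := fun N hN =>
    (h N hN).trans (mul_le_mul_of_nonneg_right (le_max_left _ _) (hG0 N))
  have hpow : ∀ i N, N0 ≤ N → G (s ^ i * N) ≤ q' ^ i * G N := by
    intro i
    induction i with
    | zero => intro N _; simp
    | succ i ih =>
      intro N hN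
      have e : s ^ (i + 1) * N = s * (s ^ i * N) := by ring
      rw [e]
      have h1 : N0 ≤ s ^ i * N := hN.trans (Nat.le_mul_of_pos_left _ (by positivity))
      calc G (s * (s ^ i * N)) ≤ q' * G (s ^ i * N) := h' _ h1
        _ ≤ q' * (q' ^ i * G N) := by gcongr; exact ih N hN
        _ = _ := by ring
  set a : ℝ := Real.log q' / Real.log s with ha
  have hls : 0 < Real.log s := Real.log_pos hs1
  have ha0 : 0 ≤ a := div_nonneg (Real.log_nonneg hq'1) hls.le
  have ha1 : a < 1 := by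
    rw [ha, div_lt_one hls]
    exact Real.log_lt_log hq'0 hq's
  have hsa : (s : ℝ) ^ a = q' := by
    rw [ha, ← Real.exp_log (show (0:ℝ) < s by positivity), ← Real.exp_mul, Real.exp_log
      (show (0:ℝ) < s by positivity), mul_div_cancel₀ _ hls.ne', Real.exp_log hq'0]
  refine ⟨q', (2 : ℝ) ^ a, hq'0.le, by positivity, ?_, ?_⟩
  · calc (2 : ℝ) ^ a < 2 ^ (1 : ℝ) := Real.rpow_lt_rpow_of_exponent_lt (by norm_num) ha1
      _ = 2 := by simp
  · intro N hN j
    have h1 : 2 ^ j ≤ s ^ Nat.clog s (2 ^ j) := Nat.le_pow_clog (by omega) _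
    have h2 : G (2 ^ j * N) ≤ G (s ^ Nat.clog s (2 ^ j) * N) := hGm (Nat.mul_le_mul_right _ h1)
    refine h2.trans ((hpow _ N hN).trans ?_)
    gcongr
    · exact hG0 N
    · rcases Nat.eq_zero_or_pos j with hj | hj
      · subst hj
        simp [hq'1]
      · have h2j : 1 < 2 ^ j := Nat.one_lt_two_pow (by omega)
        have hc1 : 1 ≤ Nat.clog s (2 ^ j) := Nat.clog_pos (by omega) (by omega)
        have hc2 : s ^ (Nat.clog s (2 ^ j)).pred < 2 ^ j := Nat.pow_pred_clog_lt_self (by omega) h2j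
        obtain ⟨k, hk⟩ : ∃ k, Nat.clog s (2 ^ j) = k + 1 := ⟨_, (Nat.sub_add_cancel hc1).symm⟩
        rw [hk] at hc2 ⊢
        simp only [Nat.pred_succ] at hc2
        have hc3 : ((s : ℝ) ^ k) ≤ 2 ^ j := by exact_mod_cast hc2.le
        calc q' ^ (k + 1) = q' * ((s : ℝ) ^ a) ^ k := by rw [hsa]; ring
          _ = q' * ((s : ℝ) ^ k) ^ a := by
              rw [← Real.rpow_natCast, ← Real.rpow_mul (by positivity), mul_comm a,
                Real.rpow_mul (by positivity), Real.rpow_natCast]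
          _ ≤ q' * ((2 : ℝ) ^ j) ^ a := by gcongr
          _ = q' * ((2 : ℝ) ^ a) ^ j := by
              congr 1
              rw [← Real.rpow_natCast, ← Real.rpow_mul (by positivity), mul_comm,
                Real.rpow_mul (by positivity), Real.rpow_natCast]

/-! ## The natural law -/

variable {d : ℕ} {Q : Measure (Environment d)} [IsProbabilityMeasure Q] {κ : ℝ} {R : ℕ}

/-- restart at a cut level -/
theorem nat_ren (F : Frame Q κ R) (u : Step d) (hc : mkAnn κ Q 0 (Nat0 u R) ≠ 0) (m : ℕ)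
    {E : Set (MPath d)} (hE : MeasurableSet E) :
    mkAnn κ Q 0 (Nat0 u R) * natLaw κ Q u R E ≤ natLaw κ Q u R (th u m ⁻¹' E) := by
  have hk := key F u (l := m) (A := univ) (E := E) MeasurableSet.univ hE
  have hle := nat_inter_le F u (l := m) (A := univ) MeasurableSet.univ
  rw [inter_univ] at hle
  rw [univ_inter] at hk
  rw [natLaw_apply, natLaw_apply]
  have h1 : mkAnn κ Q 0 (Nat0 u R) * mkAnn κ Q 0 (Nat0 u R ∩ E)
      ≤ mkAnn κ Q 0 (Nat0 u R ∩ th u m ⁻¹' E) := by
    calc _ ≤ mX κ Q u R m univ * mkAnn κ Q 0 (Nat0 u R ∩ E) := by gcongr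
      _ = mkAnn κ Q 0 (Nat0 u R ∩ th u m ⁻¹' (Nat0 u R ∩ E)) := hk.symm
      _ ≤ _ := measure_mono (inter_subset_inter_right _ (preimage_mono inter_subset_right))
  calc mkAnn κ Q 0 (Nat0 u R) * ((mkAnn κ Q 0 (Nat0 u R))⁻¹ * mkAnn κ Q 0 (Nat0 u R ∩ E))
      = (mkAnn κ Q 0 (Nat0 u R))⁻¹ * (mkAnn κ Q 0 (Nat0 u R) * mkAnn κ Q 0 (Nat0 u R ∩ E)) := by
        ring
    _ ≤ _ := by gcongr

/-- the natural law hits every level -/
theorem nat_hit_ae (F : Frame Q κ R) (u : Step d) (m : ℕ) :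
    natLaw κ Q u R {s | ∀ n, ¬ Hit u m n s} = 0 := by
  rw [natLaw_apply, nat_hit F u m, mul_zero]

/-- lateral position at the first hit of the level `m` -/
noncomputable def xm (u : Step d) (i : Fin d) (m : ℕ) (s : MPath d) : ℝ := UU u i i m s 0

lemma xm_hit {u : Step d} (i : Fin d) {m n : ℕ} {s : MPath d} (h : Hit u m n s) :
    xm u i m s = (pos 0 s n i : ℝ) := by
  unfold xm
  rw [(hit_eq i i h).2]
  simp [lat]

lemma measurable_xm (u : Step d) (i : Fin d) (m : ℕ) : Measurable (xm u i m) :=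
  (measurable_pi_apply 0).comp (measurable_UU u i i m)

lemma xm_add (u : Step d) (i : Fin d) (m m' : ℕ) (s : MPath d) :
    xm u i (m + m') s = xm u i m s + xm u i m' (th u m s) := by
  unfold xm
  rw [UU_add]
  rfl

/-- all visits below the level `N` are within `r` of the centres `v level` -/
def TubeE (u : Step d) (i : Fin d) (N : ℕ) (r : ℝ) (v : ℕ → ℝ) : Set (MPath d) :=
  {s | ∀ t, zh u s t < N → |(pos 0 s t i : ℝ) - v (zh u s t).toNat| ≤ r}

/-- tightness of one real random variable -/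
lemma tight_one {Ω : Type*} [MeasurableSpace Ω] (P : Measure Ω) [IsProbabilityMeasure P]
    {f : Ω → ℝ} (hf : Measurable f) {ε : ℝ} (hε : 0 < ε) :
    ∃ g : ℕ, ∀ g' : ℝ, (g : ℝ) ≤ g' → 1 - ε ≤ P.real {ω | |f ω| ≤ g'} := by
  have h1 : Tendsto (fun n : ℕ => P.real {ω | |f ω| ≤ (n : ℝ)}) atTop
      (𝓝 (P.real (⋃ n : ℕ, {ω | |f ω| ≤ (n : ℝ)}))) := by
    refine (ENNReal.tendsto_toReal (measure_ne_top _ _)).comp
      (tendsto_measure_iUnion_atTop ?_)
    intro a b hab ω hω
    exact le_trans (show |f ω| ≤ (a : ℝ) from hω) (by exact_mod_cast hab)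
  have h2 : (⋃ n : ℕ, {ω | |f ω| ≤ (n : ℝ)}) = univ := by
    rw [eq_univ_iff_forall]
    intro ω
    obtain ⟨n, hn⟩ := exists_nat_ge |f ω|
    exact mem_iUnion.2 ⟨n, hn⟩
  rw [h2, probReal_univ] at h1
  obtain ⟨g, hg⟩ := (h1.eventually (lt_mem_nhds (by linarith : 1 - ε < 1))).exists
  refine ⟨g, fun g' hg' => hg.le.trans (measureReal_mono ?_)⟩
  intro ω hω
  exact le_trans (show |f ω| ≤ (g : ℝ) from hω) hg'

/-- the tube event controls the first hits -/
lemma tube_xm (F : Frame Q κ R) {u : Step d} (hc : mkAnn κ Q 0 (Nat0 u R) ≠ 0) (i : Fin d)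
    {N m : ℕ} (hm : m < N) (r : ℝ) (v : ℕ → ℝ) :
    (natLaw κ Q u R).real (TubeE u i N r v) ≤ (natLaw κ Q u R).real
      {s | |xm u i m s - v m| ≤ r} := by
  have := natLaw_isProb (Q := Q) (κ := κ) hc
  have h0 : (natLaw κ Q u R).real {s | ∀ n, ¬ Hit u m n s} = 0 := by
    rw [measureReal_def, nat_hit_ae F u m]; rfl
  calc (natLaw κ Q u R).real (TubeE u i N r v)
      ≤ (natLaw κ Q u R).real ({s | |xm u i m s - v m| ≤ r} ∪ {s | ∀ n, ¬ Hit u m n s}) := by
        refine measureReal_mono ?_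
        intro s hs
        by_cases hex : ∃ n, Hit u m n s
        · obtain ⟨n, hn⟩ := hex
          left
          have h1 := hs n (by rw [hn.1]; exact_mod_cast hm)
          rw [hn.1] at h1
          simp only [mem_setOf_eq]
          rw [xm_hit i hn]
          simpa using h1
        · exact Or.inr fun n hn => hex ⟨n, hn⟩
    _ ≤ _ := (measureReal_union_le _ _).trans (by rw [h0, add_zero])

/-- **ONE LINEAR SLANT.**  Tubes around arbitrary centres at every scale `⟹` tubes around one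
line. -/
theorem tube_lin (F : Frame Q κ R) {u : Step d} (hc : mkAnn κ Q 0 (Nat0 u R) ≠ 0) (i : Fin d)
    (wd : ℕ → ℕ) (hw1 : ∀ N, 1 ≤ wd N) (hwm : Monotone wd) {s : ℕ} (hs : 2 ≤ s) {q : ℝ}
    (hqs : q < s) {N0 : ℕ} (hreg : ∀ N, N0 ≤ N → (wd (s * N) : ℝ) ≤ q * wd N)
    (hT : ∀ ε : ℝ, 0 < ε → ∃ (A : ℝ) (N1 : ℕ), ∀ N, N1 ≤ N → ∃ v : ℕ → ℝ,
      1 - ε ≤ (natLaw κ Q u R).real (TubeE u i N (A * wd N) v)) :
    ∃ θ : ℝ, ∀ ε : ℝ, 0 < ε → ∃ (A : ℝ) (N1 : ℕ), ∀ N, N1 ≤ N →
      1 - ε ≤ (natLaw κ Q u R).real (TubeE u i N (A * wd N) fun l => θ * l) := by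
  have hprob : IsProbabilityMeasure (natLaw κ Q u R) := natLaw_isProb hc
  set P := natLaw κ Q u R with hP
  set p : ℝ := (mkAnn κ Q 0 (Nat0 u R)).toReal with hp
  have hp0 : 0 < p := ENNReal.toReal_pos hc (measure_ne_top _ _)
  have hp1 : p ≤ 1 := by
    have := ENNReal.toReal_mono ENNReal.one_ne_top (prob_le_one (μ := mkAnn κ Q 0) (s := Nat0 u R))
    simpa using this
  obtain ⟨A0, N1, hA0⟩ := hT (p / 4) (by positivity)
  choose! v0 hv0 using hA0
  -- small levels
  have hsm : ∃ g : ℝ, 0 ≤ g ∧ ∀ m < N1, 1 - p / 4 ≤ P.real {s | |xm u i m s| ≤ g} := by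
    have : ∀ m, ∃ g : ℕ, ∀ g' : ℝ, (g : ℝ) ≤ g' → 1 - p / 4 ≤ P.real {s | |xm u i m s| ≤ g'} :=
      fun m => tight_one P (measurable_xm u i m) (by positivity)
    choose g hg using this
    refine ⟨((Finset.range N1).sup g : ℕ), by positivity, fun m hm => hg m _ ?_⟩
    exact_mod_cast Finset.le_sup (f := g) (Finset.mem_range.2 hm)
  obtain ⟨g, hg0, hg⟩ := hsm
  set c : ℕ → ℝ := fun m => if m < N1 then 0 else v0 (m + 1) m with hcdef
  set A1 : ℝ := |A0| + g with hA1
  have hA10 : 0 ≤ A1 := by positivity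
  set G : ℕ → ℝ := fun m => A1 * wd (m + 1) with hGdef
  have hwR : ∀ N, (1 : ℝ) ≤ wd N := fun N => by exact_mod_cast hw1 N
  have hG0 : ∀ m, 0 ≤ G m := fun m => by positivity
  have hGm : Monotone G := by
    intro a b hab
    have : (wd (a + 1) : ℝ) ≤ wd (b + 1) := by exact_mod_cast hwm (Nat.add_le_add_right hab 1)
    simp only [hGdef]
    gcongr
  have hcen : ∀ m, 1 - p / 4 ≤ P.real {s | |xm u i m s - c m| ≤ G m} := by
    intro m
    by_cases hm : m < N1
    · refine (hg m hm).trans (measureReal_mono ?_)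
      intro s hs
      simp only [mem_setOf_eq, hcdef, if_pos hm, sub_zero] at hs ⊢
      refine hs.trans ?_
      simp only [hGdef, hA1]
      nlinarith [hwR (m + 1), abs_nonneg A0]
    · have h1 := hv0 (m + 1) (by omega)
      refine h1.trans ((tube_xm F hc i (Nat.lt_succ_self m) _ _).trans (measureReal_mono ?_))
      intro s hs
      simp only [mem_setOf_eq, hcdef, if_neg hm] at hs ⊢
      refine hs.trans ?_
      simp only [hGdef, hA1]
      have := le_abs_self A0
      have := hwR (m + 1)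
      gcongr
      linarith
  have hq := quasi P (xm u i) (measurable_xm u i) (th u) (xm_add u i) hp0 hp1
    (fun m E hE => by
      have := ENNReal.toReal_mono (measure_ne_top _ _) (nat_ren F u hc m hE)
      rwa [ENNReal.toReal_mul] at this) c G hcen
  have hGreg : ∀ N, N0 ≤ N → G (s * N) ≤ q * G N := by
    intro N hN
    have h1 : wd (s * N + 1) ≤ wd (s * (N + 1)) := hwm (by
      rw [Nat.mul_add]; omega)
    have h1' : (wd (s * N + 1) : ℝ) ≤ wd (s * (N + 1)) := by exact_mod_cast h1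
    have h2 := hreg (N + 1) (by omega)
    simp only [hGdef]
    calc A1 * (wd (s * N + 1) : ℝ) ≤ A1 * (q * wd (N + 1)) := by gcongr; linarith
      _ = _ := by ring
  obtain ⟨K, ρ, hK, hρ0, hρ2, hKρ⟩ := reg_of G hG0 hGm hs hqs hGreg
  obtain ⟨θ, hθ⟩ := lin c G hG0 hGm hq hK hρ0 hρ2 (N0 := max N0 1) (le_max_right _ _)
    (fun N hN j => hKρ N ((le_max_left _ _).trans hN) j)
  set C : ℝ := 9 + 6 * K / (2 - ρ) with hC
  have hC0 : 0 ≤ C := by
    have : 0 < 2 - ρ := by linarith
    positivity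
  refine ⟨θ, fun ε hε => ?_⟩
  obtain ⟨A2, N2, hA2⟩ := hT (min ε (1 / 4)) (lt_min hε (by norm_num))
  -- one step of growth
  have hw1s : ∀ N, N0 ≤ N → 1 ≤ N → (wd (N + 1) : ℝ) ≤ q * wd N := by
    intro N hN hN1
    have h1 : wd (N + 1) ≤ wd (s * N) := hwm (by nlinarith)
    have h1' : (wd (N + 1) : ℝ) ≤ wd (s * N) := by exact_mod_cast h1
    exact h1'.trans (hreg N hN)
  refine ⟨2 * |A2| + (1 + C) * (A1 * |q|), max (max N0 1) N2, fun N hN => ?_⟩
  have hNN0 : N0 ≤ N := (le_max_left _ _).trans ((le_max_left _ _).trans hN)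
  have hN1' : 1 ≤ N := (le_max_right _ _).trans ((le_max_left _ _).trans hN)
  obtain ⟨v, hv⟩ := hA2 N ((le_max_right _ _).trans hN)
  have hqw : (wd (N + 1) : ℝ) ≤ |q| * wd N :=
    (hw1s N hNN0 hN1').trans (mul_le_mul_of_nonneg_right (le_abs_self q) (by positivity))
  -- the centres of the tube are close to the line
  have hclose : ∀ m < N, |v m - θ * m| ≤ |A2| * wd N + (1 + C) * (A1 * |q|) * wd N := by
    intro m hm
    have h1 := hv.trans (tube_xm F hc i hm _ v)
    have h2 := hcen m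
    have h3 : 1 - min ε (1 / 4) + (1 - p / 4) > 1 := by
      have := min_le_right ε (1 / 4)
      linarith
    have hne : ({s | |xm u i m s - v m| ≤ A2 * wd N} ∩
        {s | |xm u i m s - c m| ≤ G m}).Nonempty := by
      by_contra hemp
      rw [Set.not_nonempty_iff_eq_empty, ← disjoint_iff_inter_eq_empty] at hemp
      have hmeas : MeasurableSet {s : MPath d | |xm u i m s - c m| ≤ G m} :=
        measurableSet_le ((measurable_xm u i m).sub_const _).abs measurable_const
      have := measureReal_union (μ := P) hemp hmeas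
      have h4 : P.real ({s | |xm u i m s - v m| ≤ A2 * wd N} ∪
        {s | |xm u i m s - c m| ≤ G m}) ≤ 1 := measureReal_le_one
      linarith
    obtain ⟨s', h5, h6⟩ := hne
    simp only [mem_setOf_eq] at h5 h6
    have h7 := hθ N (max_le hNN0 hN1') m hm.le
    have h8 : G m ≤ G N := hGm hm.le
    have h9 : G N ≤ A1 * (|q| * wd N) := by
      simp only [hGdef]
      gcongr
    have h10 : A2 * wd N ≤ |A2| * wd N := by
      gcongr
      exact le_abs_self _
    have h11 : C * G N ≤ C * (A1 * (|q| * wd N)) := by gcongr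
    have e : |v m - θ * m| ≤ |xm u i m s' - v m| + |xm u i m s' - c m| + |c m - θ * m| := by
      rw [abs_le]
      constructor
      · linarith [neg_abs_le (xm u i m s' - v m), le_abs_self (xm u i m s' - v m),
          neg_abs_le (xm u i m s' - c m), le_abs_self (xm u i m s' - c m),
          neg_abs_le (c m - θ * m), le_abs_self (c m - θ * m)]
      · linarith [neg_abs_le (xm u i m s' - v m), le_abs_self (xm u i m s' - v m),
          neg_abs_le (xm u i m s' - c m), le_abs_self (xm u i m s' - c m),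
          neg_abs_le (c m - θ * m), le_abs_self (c m - θ * m)]
    calc |v m - θ * m| ≤ A2 * wd N + G m + C * G N := by linarith
      _ ≤ |A2| * wd N + A1 * (|q| * wd N) + C * (A1 * (|q| * wd N)) := by linarith
      _ = _ := by ring
  refine le_trans ?_ (hv.trans (measureReal_mono ?_))
  · have := min_le_left ε (1 / 4)
    linarith
  · intro s' hs' t ht
    have hs'' := hs' t ht
    by_cases hz : 0 ≤ zh u s' t
    · have hlt : (zh u s' t).toNat < N := by omega
      have h1 := hclose _ hlt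
      have h10 : A2 * wd N ≤ |A2| * wd N := by
        gcongr
        exact le_abs_self _
      calc |(pos 0 s' t i : ℝ) - θ * ((zh u s' t).toNat : ℝ)|
          = |((pos 0 s' t i : ℝ) - v (zh u s' t).toNat) +
            (v (zh u s' t).toNat - θ * ((zh u s' t).toNat : ℝ))| := by congr 1; ring
        _ ≤ _ := abs_add_le _ _
        _ ≤ A2 * wd N + (|A2| * wd N + (1 + C) * (A1 * |q|) * wd N) := add_le_add hs'' h1
        _ ≤ _ := by linarith
    · have h0 : (zh u s' t).toNat = 0 := by omega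
      have h1 := hclose 0 (by omega)
      rw [h0] at hs'' ⊢
      have h10 : A2 * wd N ≤ |A2| * wd N := by
        gcongr
        exact le_abs_self _
      calc |(pos 0 s' t i : ℝ) - θ * ((0 : ℕ) : ℝ)|
          = |((pos 0 s' t i : ℝ) - v 0) + (v 0 - θ * ((0 : ℕ) : ℝ))| := by congr 1; ring
        _ ≤ _ := abs_add_le _ _
        _ ≤ A2 * wd N + (|A2| * wd N + (1 + C) * (A1 * |q|) * wd N) := add_le_add hs'' h1
        _ ≤ _ := by linarith

end Crest.Agent.R154.TubeLin4
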