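import Mathlib

/-!
Row 154, d = 2 (D2.4, helper4).  From tubes at every scale to ONE linear slant.

`quasi`: `x (m+m') = x m + x m' ∘ θ m`, `p P(E) ≤ P(θ m ⁻¹ E)` and own-scale centres `c m` with
`P(|x m - c m| ≤ G m) ≥ 1 - p/4` give quasi-additivity of `c`.
`hyers`: Hyers-Ulam on `{0..N}`.
`lin`: if moreover `G (2^j N) ≤ K ρ^j G N`, `ρ < 2`, then `|c m - t m| ≤ C G N` for one real `t`.
-/

set_option autoImplicit false

namespace Crest.Agent.R154.TubeLin4

open MeasureTheory ProbabilityTheory Filter Set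
open scoped ENNReal Topology

/-! ## Hyers-Ulam on `{0..N}` -/

/-- Hyers-Ulam on an interval -/
theorem hyers (c : ℕ → ℝ) (N : ℕ) (D : ℝ) (hN : 1 ≤ N)
    (h : ∀ m m', m + m' ≤ N → |c (m + m') - c m - c m'| ≤ D) :
    ∀ m ≤ N, |c m - (m : ℝ) / N * c N| ≤ 3 * D := by
  have hN0 : (N : ℝ) ≠ 0 := by positivity
  set g : ℕ → ℝ := fun m => c m - (m : ℝ) / N * c N with hg
  have hq : ∀ m m', m + m' ≤ N → |g (m + m') - g m - g m'| ≤ D := by
    intro m m' hm
    have e : g (m + m') - g m - g m' = c (m + m') - c m - c m' := by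
      simp only [hg]; push_cast; field_simp; ring
    rw [e]; exact h m m' hm
  have hgN : g N = 0 := by simp only [hg]; rw [div_self hN0]; ring
  have hD : 0 ≤ D := (abs_nonneg _).trans (h 0 0 (Nat.zero_le _))
  obtain ⟨ms, hms, hmax⟩ := Finset.exists_max_image (Finset.range (N + 1)) (fun m => |g m|)
    ⟨0, by simp⟩
  have hms' : ms ≤ N := by simpa [Nat.lt_succ_iff] using hms
  have hM : ∀ m ≤ N, |g m| ≤ |g ms| := fun m hm => hmax m (by simpa [Nat.lt_succ_iff] using hm)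
  have hdbl : ∀ n, n + n ≤ N → 2 * |g n| ≤ |g ms| + D := by
    intro n hn
    have h1 := hq n n hn
    have h2 := hM (n + n) hn
    have e : 2 * |g n| = |2 * g n| := by rw [abs_mul]; norm_num
    rw [e]
    calc |2 * g n| = |g (n + n) - (g (n + n) - g n - g n)| := by congr 1; ring
      _ ≤ |g (n + n)| + |g (n + n) - g n - g n| := abs_sub _ _
      _ ≤ _ := add_le_add h2 h1
  have hfin : |g ms| ≤ 3 * D := by
    by_cases h2 : ms + ms ≤ N
    · have := hdbl ms h2
      linarith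
    · have hn : (N - ms) + (N - ms) ≤ N := by omega
      have h3 := hdbl (N - ms) hn
      have h4 := hq ms (N - ms) (by omega)
      rw [Nat.add_sub_cancel' hms', hgN] at h4
      have h5 : |g ms| ≤ |g (N - ms)| + D := by
        calc |g ms| = |-(0 - g ms - g (N - ms)) - g (N - ms)| := by congr 1; ring
          _ ≤ |-(0 - g ms - g (N - ms))| + |g (N - ms)| := abs_sub _ _
          _ ≤ D + |g (N - ms)| := by rw [abs_neg]; gcongr
          _ = _ := by ring
      linarith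
  intro m hm
  exact (hM m hm).trans hfin

/-! ## Quasi-additivity of the centres -/

/-- **quasi-additivity of the centres** -/
theorem quasi {Ω : Type*} [MeasurableSpace Ω] (P : Measure Ω) [IsProbabilityMeasure P]
    (x : ℕ → Ω → ℝ) (hx : ∀ m, Measurable (x m)) (θ : ℕ → Ω → Ω)
    (hadd : ∀ m m' ω, x (m + m') ω = x m ω + x m' (θ m ω)) {p : ℝ} (hp : 0 < p) (hp1 : p ≤ 1)
    (hren : ∀ m (E : Set Ω), MeasurableSet E → p * P.real E ≤ P.real (θ m ⁻¹' E))
    (c G : ℕ → ℝ) (hc : ∀ m, 1 - p / 4 ≤ P.real {ω | |x m ω - c m| ≤ G m}) (m m' : ℕ) :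
    |c (m + m') - c m - c m'| ≤ G (m + m') + G m + G m' := by
  set E : ℕ → Set Ω := fun m => {ω | |x m ω - c m| ≤ G m} with hE
  have hEm : ∀ m, MeasurableSet (E m) := fun m =>
    measurableSet_le ((hx m).sub_const _).abs measurable_const
  have h1 := hren m (E m') (hEm m')
  have h2 := hc m'
  by_contra hcon
  have hemp : θ m ⁻¹' (E m') ⊆ (E m)ᶜ ∪ (E (m + m'))ᶜ := by
    intro ω hω
    by_contra hno
    simp only [mem_union, mem_compl_iff, not_or, not_not] at hno
    have a1 : |x m' (θ m ω) - c m'| ≤ G m' := hω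
    have a2 : |x m ω - c m| ≤ G m := hno.1
    have a3 : |x (m + m') ω - c (m + m')| ≤ G (m + m') := hno.2
    refine hcon ?_
    rw [hadd] at a3
    rw [abs_le] at a1 a2 a3 ⊢
    constructor <;> linarith [a1.1, a1.2, a2.1, a2.2, a3.1, a3.2]
  have h3 : P.real (θ m ⁻¹' (E m')) ≤ P.real (E m)ᶜ + P.real (E (m + m'))ᶜ :=
    (measureReal_mono hemp).trans (measureReal_union_le _ _)
  rw [probReal_compl_eq_one_sub (hEm m), probReal_compl_eq_one_sub (hEm (m + m'))] at h3
  have h4 := hc m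
  have h5 := hc (m + m')
  simp only [hE] at h1 h3
  nlinarith

/-! ## One linear slant -/

/-- **one linear slant for all scales** -/
theorem lin (c G : ℕ → ℝ) (hG0 : ∀ m, 0 ≤ G m) (hGm : Monotone G)
    (hq : ∀ m m', |c (m + m') - c m - c m'| ≤ G (m + m') + G m + G m')
    {K ρ : ℝ} (hK : 0 ≤ K) (hρ0 : 0 ≤ ρ) (hρ : ρ < 2) {N0 : ℕ} (hN0 : 1 ≤ N0)
    (hreg : ∀ N, N0 ≤ N → ∀ j : ℕ, G (2 ^ j * N) ≤ K * ρ ^ j * G N) :
    ∃ t : ℝ, ∀ N, N0 ≤ N → ∀ m ≤ N, |c m - t * m| ≤ (9 + 6 * K / (2 - ρ)) * G N := by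
  have h3 : ∀ m m', |c (m + m') - c m - c m'| ≤ 3 * G (m + m') := by
    intro m m'
    have h1 := hGm (Nat.le_add_right m m')
    have h2 := hGm (Nat.le_add_left m' m)
    linarith [hq m m']
  have hHU : ∀ N, 1 ≤ N → ∀ m ≤ N, |c m - (m : ℝ) / N * c N| ≤ 9 * G N := by
    intro N hN m hm
    have := hyers c N (3 * G N) hN (fun a b hab => (h3 a b).trans (by linarith [hGm hab])) m hm
    linarith
  -- the dyadic sequence
  set dd : ℕ → ℕ → ℝ := fun N j => c (2 ^ j * N) / (2 ^ j * N : ℝ) with hdd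
  have hstep : ∀ N, N0 ≤ N → ∀ j, |dd N (j + 1) - dd N j| ≤
      3 * K * G N / N * (ρ / 2) ^ (j + 1) := by
    intro N hN j
    have hNp : (0 : ℝ) < N := by exact_mod_cast lt_of_lt_of_le hN0 hN
    have h2j : (0 : ℝ) < 2 ^ (j + 1) * N := by positivity
    have e0 : 2 ^ (j + 1) * N = 2 ^ j * N + 2 ^ j * N := by ring
    have h4 := h3 (2 ^ j * N) (2 ^ j * N)
    rw [← e0] at h4
    have h5 := hreg N hN (j + 1)
    have e1 : dd N (j + 1) - dd N j =
        (c (2 ^ (j + 1) * N) - c (2 ^ j * N) - c (2 ^ j * N)) / (2 ^ (j + 1) * N) := by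
      simp only [hdd]
      field_simp
      ring
    rw [e1, abs_div, abs_of_pos h2j, div_le_iff₀ h2j]
    calc _ ≤ 3 * G (2 ^ (j + 1) * N) := h4
      _ ≤ 3 * (K * ρ ^ (j + 1) * G N) := by linarith
      _ = _ := by
        rw [div_pow]
        field_simp
  have hr0 : 0 ≤ ρ / 2 := by positivity
  have hr1 : ρ / 2 < 1 := by linarith
  have hlim : ∀ N, N0 ≤ N → ∃ t : ℝ, Tendsto (dd N) atTop (𝓝 t) ∧
      |dd N 0 - t| ≤ 3 * K * G N / N * (ρ / 2) / (1 - ρ / 2) := by
    intro N hN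
    have hd : ∀ n, dist (dd N n) (dd N (n + 1)) ≤ 3 * K * G N / N * (ρ / 2) * (ρ / 2) ^ n := by
      intro n
      rw [dist_comm, Real.dist_eq]
      refine (hstep N hN n).trans (le_of_eq ?_)
      rw [pow_succ]; ring
    have hcs := cauchySeq_of_le_geometric (ρ / 2) _ hr1 hd
    obtain ⟨t, ht⟩ := cauchySeq_tendsto_of_complete hcs
    refine ⟨t, ht, ?_⟩
    have := dist_le_of_le_geometric_of_tendsto₀ (ρ / 2) _ hr1 hd ht
    rwa [Real.dist_eq] at this
  obtain ⟨t, ht, -⟩ := hlim N0 le_rfl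
  -- all limits agree
  have hconn : ∀ N, N0 ≤ N → ∀ M, 1 ≤ M → ∀ s s' : ℝ, Tendsto (dd N) atTop (𝓝 s) →
      Tendsto (dd (N * M)) atTop (𝓝 s') → s = s' := by
    intro N hN M hM s s' hs hs'
    have hNp : (0 : ℝ) < N := by exact_mod_cast lt_of_lt_of_le hN0 hN
    have hMp : (0 : ℝ) < M := by exact_mod_cast hM
    have hNM : N0 ≤ N * M := hN.trans (Nat.le_mul_of_pos_right _ hM)
    have hb : ∀ j, |dd N j - dd (N * M) j| ≤ 9 * K * G (N * M) / N * (ρ / 2) ^ j := by
      intro j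
      have hL1 : 1 ≤ 2 ^ j * (N * M) := Nat.mul_pos (by positivity) (hN0.trans hNM)
      have hle : 2 ^ j * N ≤ 2 ^ j * (N * M) := by
        rw [← mul_assoc]; exact Nat.le_mul_of_pos_right _ hM
      have h4 := hHU (2 ^ j * (N * M)) hL1 (2 ^ j * N) hle
      have h5 := hreg (N * M) hNM j
      have hpos : (0 : ℝ) < 2 ^ j * N := by positivity
      have e1 : dd N j - dd (N * M) j =
          (c (2 ^ j * N) - ((2 ^ j * N : ℕ) : ℝ) / ((2 ^ j * (N * M) : ℕ) : ℝ) *
            c (2 ^ j * (N * M))) / (2 ^ j * N) := by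
        simp only [hdd]
        push_cast
        field_simp
      rw [e1, abs_div, abs_of_pos hpos, div_le_iff₀ hpos]
      calc _ ≤ 9 * G (2 ^ j * (N * M)) := h4
        _ ≤ 9 * (K * ρ ^ j * G (N * M)) := by linarith
        _ = _ := by
          rw [div_pow]
          field_simp
    have hz : Tendsto (fun j => 9 * K * G (N * M) / N * (ρ / 2) ^ j) atTop (𝓝 0) := by
      have := (tendsto_pow_atTop_nhds_zero_of_lt_one hr0 hr1).const_mul (9 * K * G (N * M) / N)
      simpa using this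
    have hdiff : Tendsto (fun j => dd N j - dd (N * M) j) atTop (𝓝 0) :=
      squeeze_zero_norm (fun j => by rw [Real.norm_eq_abs]; exact hb j) hz
    have := tendsto_nhds_unique (hs.sub hs') hdiff
    linarith
  refine ⟨t, fun N hN m hm => ?_⟩
  have hNp : (0 : ℝ) < N := by exact_mod_cast lt_of_lt_of_le hN0 hN
  obtain ⟨s, hs, hsb⟩ := hlim N hN
  have hst : s = t := by
    have hN1 : 1 ≤ N := hN0.trans hN
    obtain ⟨r, hr, -⟩ := hlim (N * N0) (hN.trans (Nat.le_mul_of_pos_right _ hN0))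
    have e1 := hconn N hN N0 hN0 s r hs hr
    have e2 := hconn N0 le_rfl N hN1 t r ht (by rwa [mul_comm N0 N])
    rw [e1, e2]
  rw [hst] at hsb
  have hd0 : dd N 0 = c N / N := by simp [hdd]
  rw [hd0] at hsb
  have hcN : |c N - t * N| ≤ 6 * K / (2 - ρ) * G N := by
    have e : c N - t * N = (c N / N - t) * N := by field_simp
    rw [e, abs_mul, abs_of_pos hNp]
    calc |c N / N - t| * N ≤ (3 * K * G N / N * (ρ / 2) / (1 - ρ / 2)) * N := by gcongr
      _ = 3 * K * G N * (ρ / 2) / (1 - ρ / 2) := by field_simp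
      _ ≤ 3 * K * G N * 1 / (1 - ρ / 2) := by
        have : 0 < 1 - ρ / 2 := by linarith
        have := hG0 N
        gcongr
      _ = 6 * K / (2 - ρ) * G N := by
        have h1 : 1 - ρ / 2 ≠ 0 := by linarith
        have h2 : 2 - ρ ≠ 0 := by linarith
        field_simp
        ring
  have h6 := hHU N (hN0.trans hN) m hm
  have hmN : (m : ℝ) / N ≤ 1 := by
    rw [div_le_one hNp]; exact_mod_cast hm
  have hmN0 : 0 ≤ (m : ℝ) / N := by positivity
  calc |c m - t * m| = |(c m - (m : ℝ) / N * c N) + (m : ℝ) / N * (c N - t * N)| := by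
        congr 1; field_simp; ring
    _ ≤ |c m - (m : ℝ) / N * c N| + |(m : ℝ) / N * (c N - t * N)| := abs_add_le _ _
    _ ≤ 9 * G N + 6 * K / (2 - ρ) * G N := by
        refine add_le_add h6 ?_
        rw [abs_mul, abs_of_nonneg hmN0]
        calc (m : ℝ) / N * |c N - t * N| ≤ 1 * |c N - t * N| := by gcongr
          _ ≤ _ := by rw [one_mul]; exact hcN
    _ = _ := by ring

end Crest.Agent.R154.TubeLin4
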