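import Crest.Agent.R154.WindowK_299

/-!
# Row 154, TILE_RUN: virtual height (helper855)

`TileSysD A N δ c1 c θ` = delayed tile system: as 299's `WindowK299.TileSys`, but the mass bound at
the layer `s` is only asked while the cluster is still alive `δ` layers later.
`windowKD`, `window_paramD` = (W) for delayed tile systems (same conclusions).
`twoPhase` : attempts made of a fine phase (`r` layers of height `N1`) followed by a coarse phase
(super layers of height `N2`) form a delayed tile system of virtual height `N`, `N1 ≤ N ≤ N2`.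
-/

set_option autoImplicit false
set_option linter.deprecated false
set_option linter.unusedVariables false
set_option linter.unusedSectionVars false

open MeasureTheory ENNReal Crest.Agent.R154.RatioR872 Crest.Agent.R154.Window299

namespace Crest.Agent.R154.TwoPhase855

open Crest.Agent.R154.WindowK299

variable {S : Type*} {Ω : Type*} {m0 : MeasurableSpace Ω} {P : Measure Ω}

/-- delayed tile system. -/
structure TileSysD (A : KerSys S P) (N δ : ℕ) (c1 c θ : ℝ≥0∞) : Prop where
  fam : ∀ (L : ℕ) (x : S), x ∈ A.L L → ∃ τ : Ω → ℕ∞,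
    (∀ t : ℕ, MeasurableSet[A.F (L + t * N)] {ω | τ ω = t}) ∧ (∀ ω, 1 ≤ τ ω) ∧
    (∀ t : ℕ, 1 ≤ t → ∀ B, MeasurableSet[A.F L] B → P (B ∩ {ω | τ ω = t}) ≤ θ ^ t * P B) ∧
    (∀ᵐ ω ∂P, ∀ s : ℕ, 1 ≤ s → ((s + δ : ℕ) : ℕ∞) < τ ω → c1 * c ^ s ≤ A.N L (L + s * N) ω x)

/-- a tile system is a delayed tile system. -/
theorem TileSysD.of_tileSys {A : KerSys S P} {N : ℕ} {c1 c θ : ℝ≥0∞} (h : TileSys A N c1 c θ)
    (δ : ℕ) : TileSysD A N δ c1 c θ where
  fam L x hx := by
    obtain ⟨τ, h1, h2, h3, h4⟩ := h.fam L x hx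
    refine ⟨τ, h1, h2, h3, ?_⟩
    filter_upwards [h4] with ω hω s hs hsδ
    refine hω s hs (lt_of_le_of_lt ?_ hsδ)
    exact_mod_cast Nat.le_add_right s δ

variable [Countable S] {A : KerSys S P}

/-- **(W) at fixed parameters** for a kernel system, delayed tile system. -/
theorem windowKD {N δ : ℕ} {c1 c θ : ℝ≥0∞} (hT : TileSysD A N δ c1 c θ) (hc10 : c1 ≠ 0)
    (hc11 : c1 ≠ ∞) (hc0 : c ≠ 0) (hc1 : c ≤ 1)
    (hθ4 : 4 * θ ≤ 1) {μ : S → ℝ≥0∞} (hμ : A.Start μ) (H0 K0 K : ℕ) (hK' : K0 < K)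
    {B : Set Ω} (hB : MeasurableSet[A.F H0] B) :
    P (B ∩ {ω | A.Sh μ (H0 + K0 * N) ω ≠ 0 ∧ A.Sh μ (H0 + K * N) ω ≤
      c1 * c ^ K * (2 * ((K0 : ℝ≥0∞) + 1))⁻¹ * A.Sh μ (H0 + K0 * N) ω}) ≤
      4 * (2 * θ) ^ (K0 + 1) * P B := by
  classical
  have hK : K0 ≤ K := hK'.le
  -- the data
  let F : Filtration ℕ m0 :=
    { seq := fun k => A.F (H0 + k * N)
      mono' := fun i j hij => A.F.mono (Nat.add_le_add_left (Nat.mul_le_mul_right N hij) H0)
      le' := fun k => A.F.le _ }
  let w : ℕ → S → Ω → ℝ≥0∞ := fun k z ω => A.exitW μ (H0 + k * N) ω z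
  let τ : ℕ → S → Ω → ℕ∞ := fun k z =>
    if h : z ∈ A.L (H0 + k * N) then Classical.choose (hT.fam (H0 + k * N) z h) else fun _ => ⊤
  have hτpos : ∀ k z (h : z ∈ A.L (H0 + k * N)),
      τ k z = Classical.choose (hT.fam (H0 + k * N) z h) := fun k z h => dif_pos h
  have hτneg : ∀ k z (h : z ∉ A.L (H0 + k * N)), τ k z = fun _ => ⊤ := fun k z h => dif_neg h
  have hwm : ∀ k z, Measurable[F k] (w k z) := fun k z => (KerSys.wt_exitW hμ _).meas z
  have hτm : ∀ k z (t : ℕ), MeasurableSet[F (k + t)] {ω | τ k z ω = t} := by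
    intro k z t
    by_cases h : z ∈ A.L (H0 + k * N)
    · rw [hτpos k z h]
      have := (Classical.choose_spec (hT.fam (H0 + k * N) z h)).1 t
      have e : H0 + k * N + t * N = H0 + (k + t) * N := by ring
      rw [e] at this
      exact this
    · rw [hτneg k z h]
      simp
  have hτ1 : ∀ k z ω, 1 ≤ τ k z ω := by
    intro k z ω
    by_cases h : z ∈ A.L (H0 + k * N)
    · rw [hτpos k z h]
      exact (Classical.choose_spec (hT.fam (H0 + k * N) z h)).2.1 ω
    · rw [hτneg k z h]; exact le_top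
  have hw1 : ∀ k ω, ∑' z, w k z ω ≤ 1 := fun k ω => KerSys.tot_exitW_le μ _ ω
  have hθ : ∀ k z (t : ℕ), 1 ≤ t → ∀ B, MeasurableSet[F k] B →
      P (B ∩ {ω | τ k z ω = t}) ≤ θ ^ t * P B := by
    intro k z t ht B hB
    by_cases h : z ∈ A.L (H0 + k * N)
    · rw [hτpos k z h]
      exact (Classical.choose_spec (hT.fam (H0 + k * N) z h)).2.2.1 t ht B hB
    · rw [hτneg k z h]
      simp
  have hatt := attempts P F w τ hwm hτm hτ1 hw1 θ hθ4 hθ K0 (K + δ) (hK.trans (Nat.le_add_right K δ))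
    (B := B) (by
      have e : H0 + 0 * N = H0 := by ring
      show MeasurableSet[A.F (H0 + 0 * N)] B
      rw [e]; exact hB)
  refine le_trans (measure_mono_ae ?_) hatt
  have hcomp : ∀ᵐ ω ∂P, ∀ k ∈ Finset.range (K0 + 1), A.Sh μ (H0 + k * N) ω *
      ∑' x, A.exitW μ (H0 + k * N) ω x * A.N (H0 + k * N) (H0 + K * N) ω x ≤
        A.Sh μ (H0 + K * N) ω := by
    rw [Filter.eventually_all_finset]
    intro k hk
    have hk' : k ≤ K0 := Nat.lt_succ_iff.1 (Finset.mem_range.1 hk)
    exact Sh_mul_le hμ (Nat.add_le_add_left (Nat.mul_le_mul_right N (hk'.trans hK)) H0)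
  have hcost : ∀ᵐ ω ∂P, ∀ k ∈ Finset.range (K0 + 1), ∀ z, z ∈ A.L (H0 + k * N) →
      ∀ s : ℕ, 1 ≤ s → ((s + δ : ℕ) : ℕ∞) < τ k z ω →
        c1 * c ^ s ≤ A.N (H0 + k * N) (H0 + k * N + s * N) ω z := by
    rw [Filter.eventually_all_finset]
    intro k _
    rw [ae_all_iff]
    intro z
    by_cases h : z ∈ A.L (H0 + k * N)
    · filter_upwards [(Classical.choose_spec (hT.fam (H0 + k * N) z h)).2.2.2] with ω hω _
      rw [hτpos k z h]
      exact hω
    · exact Filter.Eventually.of_forall fun ω h' => absurd h' h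
  filter_upwards [hcomp, hcost] with ω h1 h2
  rintro ⟨hωB, hω0, hω⟩
  refine ⟨hωB, fun k hk => ?_⟩
  have hkm : H0 + k * N ≤ H0 + K0 * N := Nat.add_le_add_left (Nat.mul_le_mul_right N hk) H0
  have hSk : A.Sh μ (H0 + K0 * N) ω ≤ A.Sh μ (H0 + k * N) ω := KerSys.Sh_anti hkm ω
  have hk0 : A.Sh μ (H0 + k * N) ω ≠ 0 := fun h => hω0 (le_antisymm (hSk.trans h.le) zero_le)
  refine ⟨KerSys.tot_exitW_eq hμ _ ω hk0, ?_⟩
  have hkr : k ∈ Finset.range (K0 + 1) := Finset.mem_range.2 (Nat.lt_succ_of_le hk)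
  -- surviving mass
  have h3 : c1 * c ^ K * tw w τ k (K + δ - k) ω ≤
      ∑' x, A.exitW μ (H0 + k * N) ω x * A.N (H0 + k * N) (H0 + K * N) ω x := by
    rw [tw, ← ENNReal.tsum_mul_left]
    refine ENNReal.tsum_le_tsum fun z => ?_
    by_cases hz : z ∈ A.L (H0 + k * N)
    · by_cases hs : ((K + δ - k : ℕ) : ℕ∞) < τ k z ω
      · have hse : K + δ - k = K - k + δ := by omega
        have h4 := h2 k hkr z hz (K - k) (by omega) (by rw [← hse]; exact hs)
        have e : H0 + k * N + (K - k) * N = H0 + K * N := by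
          rw [add_assoc, ← add_mul, Nat.add_sub_cancel' (hk.trans hK)]
        rw [e] at h4
        have hmem : ω ∈ {ω | ((K + δ - k : ℕ) : ℕ∞) < τ k z ω} := hs
        rw [Set.indicator_of_mem hmem, mul_one, mul_comm]
        refine mul_le_mul_right (le_trans ?_ h4) _
        exact mul_le_mul_right (pow_le_pow_right_of_le_one' hc1 (Nat.sub_le K k)) _
      · have hmem : ω ∉ {ω | ((K + δ - k : ℕ) : ℕ∞) < τ k z ω} := hs
        rw [Set.indicator_of_notMem hmem]
        simp
    · have : w k z ω = 0 := (KerSys.wt_exitW hμ _).supp ω z hz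
      rw [this]
      simp
  have h5 : A.Sh μ (H0 + K0 * N) ω * (c1 * c ^ K) * tw w τ k (K + δ - k) ω ≤
      A.Sh μ (H0 + K0 * N) ω * (c1 * c ^ K) * (2 * ((K0 : ℝ≥0∞) + 1))⁻¹ := by
    calc A.Sh μ (H0 + K0 * N) ω * (c1 * c ^ K) * tw w τ k (K + δ - k) ω
        = A.Sh μ (H0 + K0 * N) ω * (c1 * c ^ K * tw w τ k (K + δ - k) ω) := by rw [mul_assoc]
      _ ≤ A.Sh μ (H0 + k * N) ω *
          ∑' x, A.exitW μ (H0 + k * N) ω x * A.N (H0 + k * N) (H0 + K * N) ω x := by
          gcongr
      _ ≤ A.Sh μ (H0 + K * N) ω := h1 k hkr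
      _ ≤ c1 * c ^ K * (2 * ((K0 : ℝ≥0∞) + 1))⁻¹ * A.Sh μ (H0 + K0 * N) ω := hω
      _ = _ := by ring
  have hct : c1 * c ^ K ≠ ∞ := ENNReal.mul_ne_top hc11
    (ENNReal.pow_ne_top (ne_top_of_le_ne_top ENNReal.one_ne_top hc1))
  have hSt : A.Sh μ (H0 + K0 * N) ω ≠ ∞ :=
    ne_top_of_le_ne_top ENNReal.one_ne_top (KerSys.Sh_le_one hμ _ ω)
  exact (ENNReal.mul_le_mul_iff_right (mul_ne_zero hω0 (mul_ne_zero hc10 (pow_ne_zero _ hc0)))
    (ENNReal.mul_ne_top hSt hct)).1 h5

/-- **(W) for one window `i`, one strength `v`, one tile system** of height `N ≤ 10^i`, cost `m`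
per layer (`m1` once), rate `ρ`: only arithmetic is left. -/
theorem window_paramD {N δ : ℕ} (hNpos : 0 < N) {m m1 ρ : ℝ} (hm : 1 ≤ m) (hρ : 2 ≤ ρ)
    (hTS : TileSysD A N δ (ENNReal.ofReal (Real.exp (-m1))) (ENNReal.ofReal (Real.exp (-m)))
      (ENNReal.ofReal (Real.exp (-ρ))))
    {i : ℕ} (hNx : N ≤ 10 ^ i) {v E : ℝ} (hC : 400 * 10 ^ i * m ≤ v * N) (hm1 : m1 ≤ v / 2)
    (hE : (E + 2) * N ≤ 9 * 10 ^ i * (ρ - 1)) {μ : S → ℝ≥0∞} (hμ : A.Start μ)
    {B : Set Ω} (hB : MeasurableSet[A.F (10 ^ i)] B) :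
    P (B ∩ {ω | A.Sh μ (10 ^ (i + 1)) ω ≠ 0 ∧ A.Sh μ (10 ^ (i + 2)) ω ≤
        ENNReal.ofReal (Real.exp (-v)) * A.Sh μ (10 ^ (i + 1)) ω}) ≤
        ENNReal.ofReal (Real.exp (-E)) * P B := by
  classical
  have hNRpos : (0 : ℝ) < N := by exact_mod_cast hNpos
  have hNxR : (N : ℝ) ≤ 10 ^ i := by exact_mod_cast hNx
  set K0 : ℕ := 9 * 10 ^ i / N with hK0
  set K : ℕ := 99 * 10 ^ i / N + 1 with hK
  have hK0N : K0 * N ≤ 9 * 10 ^ i := Nat.div_mul_le_self _ _
  have hK0N' : 9 * 10 ^ i < (K0 + 1) * N := by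
    rw [hK0, mul_comm (9 * 10 ^ i / N + 1) N]; exact Nat.lt_mul_div_succ _ hNpos
  have hKN : 99 * 10 ^ i < K * N := by
    rw [hK, mul_comm (99 * 10 ^ i / N + 1) N]; exact Nat.lt_mul_div_succ _ hNpos
  have hKN' : (K - 1) * N ≤ 99 * 10 ^ i := by
    rw [hK, Nat.add_sub_cancel]; exact Nat.div_mul_le_self _ _
  have hK0K : K0 < K := by
    rw [hK0, hK]
    exact Nat.lt_succ_of_le (Nat.div_le_div_right (Nat.mul_le_mul_right _ (by norm_num)))
  set y : ℝ := 10 ^ i / N with hy
  have hy1 : 1 ≤ y := by rw [hy, one_le_div hNRpos]; exact hNxR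
  have hKR : (K : ℝ) ≤ 100 * y := by
    have h1 : ((K - 1 : ℕ) : ℝ) * N ≤ 99 * 10 ^ i := by exact_mod_cast hKN'
    have h2 : ((K - 1 : ℕ) : ℝ) = K - 1 := by
      rw [Nat.cast_sub (by rw [hK]; exact Nat.le_add_left 1 _)]; simp
    rw [h2] at h1
    have h3 : (K : ℝ) - 1 ≤ 99 * y := by
      rw [hy, ← mul_div_assoc, le_div_iff₀ hNRpos]; exact h1
    linarith
  have hK0R : 9 * y ≤ (K0 : ℝ) + 1 := by
    have h1 : (9 * 10 ^ i : ℝ) < ((K0 : ℝ) + 1) * N := by exact_mod_cast hK0N'
    rw [hy, ← mul_div_assoc, div_le_iff₀ hNRpos]; exact h1.le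
  have hK0R' : (K0 : ℝ) ≤ 9 * y := by
    have h1 : (K0 : ℝ) * N ≤ 9 * 10 ^ i := by exact_mod_cast hK0N
    rw [hy, ← mul_div_assoc, le_div_iff₀ hNRpos]; exact h1
  have hyC : 400 * y * m ≤ v := by
    have : 400 * y * m = (400 * 10 ^ i * m) / N := by rw [hy]; ring
    rw [this, div_le_iff₀ hNRpos]; exact hC
  have hyE : E + 2 ≤ 9 * y * (ρ - 1) := by
    have : 9 * y * (ρ - 1) = (9 * 10 ^ i * (ρ - 1)) / N := by rw [hy]; ring
    rw [this, le_div_iff₀ hNRpos]; exact hE
  -- the main estimate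
  have hmain := windowKD (A := A) hTS (by simp [Real.exp_pos]) ENNReal.ofReal_ne_top
    (by simp [Real.exp_pos]) (by
      rw [ENNReal.ofReal_le_one]; exact Real.exp_le_one_iff.2 (by linarith))
    (by
      have h1 : Real.exp (-ρ) ≤ 1 / 4 := by
        have h3 : Real.exp (-ρ) ≤ Real.exp (-2) := Real.exp_le_exp.2 (by linarith)
        have h4 : Real.exp (-2) ≤ 1 / 4 := by
          rw [Real.exp_neg, one_div]
          apply inv_anti₀ (by norm_num)
          have h5 : (2 : ℝ) ≤ Real.exp 1 := by have := Real.add_one_le_exp 1; linarith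
          calc (4 : ℝ) = 2 * 2 := by norm_num
            _ ≤ Real.exp 1 * Real.exp 1 := by gcongr
            _ = Real.exp 2 := by rw [← Real.exp_add]; norm_num
        exact h3.trans h4
      calc 4 * ENNReal.ofReal (Real.exp (-ρ))
          ≤ 4 * ENNReal.ofReal (1 / 4) := by gcongr
        _ = 1 := by
            rw [show (4 : ℝ≥0∞) = ENNReal.ofReal 4 by simp, ← ENNReal.ofReal_mul (by norm_num)]
            norm_num) hμ (10 ^ i) K0 K hK0K hB
  refine le_trans (measure_mono (Set.inter_subset_inter_right B ?_)) (hmain.trans ?_)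
  · -- inclusion of the events
    rintro ω ⟨h1, h2⟩
    have e1 : 10 ^ i + K0 * N ≤ 10 ^ (i + 1) := by
      calc 10 ^ i + K0 * N ≤ 10 ^ i + 9 * 10 ^ i := by gcongr
        _ = 10 ^ (i + 1) := by ring
    have e2 : 10 ^ (i + 2) ≤ 10 ^ i + K * N := by
      calc 10 ^ (i + 2) = 10 ^ i + 99 * 10 ^ i := by ring
        _ ≤ 10 ^ i + K * N := by gcongr
    have a1 := KerSys.Sh_anti (A := A) (μ := μ) e1 ω
    have a2 := KerSys.Sh_anti (A := A) (μ := μ) e2 ω
    refine ⟨fun h => h1 (le_antisymm (a1.trans h.le) zero_le), ?_⟩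
    refine a2.trans (h2.trans ?_)
    refine mul_le_mul' ?_ a1
    exact cost_le hm hy1 hm1 hyC K0 K hKR hK0R'
  · -- the rate
    gcongr
    exact rate_le hρ K0 hK0R hyE


/-! ### attempts in two phases -/

/-- ceiling of `n / N` -/
def cd (N n : ℕ) : ℕ := (n + (N - 1)) / N

lemma le_cd {N : ℕ} (hN : 0 < N) (n : ℕ) : n ≤ cd N n * N := by
  unfold cd
  have h := Nat.lt_mul_div_succ (n + (N - 1)) hN
  rw [mul_comm]
  have e : N * ((n + (N - 1)) / N + 1) = N * ((n + (N - 1)) / N) + N := by ring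
  omega

lemma cd_lt {N : ℕ} (hN : 0 < N) (n : ℕ) : cd N n * N < n + N := by
  unfold cd
  have h := Nat.div_mul_le_self (n + (N - 1)) N
  omega

lemma lt_of_lt_cd {N : ℕ} (hN : 0 < N) {n s : ℕ} (h : s < cd N n) : s * N < n := by
  have h1 := cd_lt hN n
  have h2 : (s + 1) * N ≤ cd N n * N := Nat.mul_le_mul_right N h
  have e : (s + 1) * N = s * N + N := by ring
  omega

/-- **an attempt in two phases** from every site of every level: fine phase of at most `r` layers of
height `N1` (lifetime `τA`), then a coarse phase with super layers of height `N2` (lifetime `τB`, its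
first super layer contains the failures `too few wet cells`). -/
structure RunAtt (A : KerSys S P) (N1 r N2 : ℕ) (b0 b1 θ1 θ2 : ℝ≥0∞) : Prop where
  fam : ∀ (L : ℕ) (x : S), x ∈ A.L L → ∃ τA τB : Ω → ℕ∞,
    (∀ j : ℕ, j ≤ r → MeasurableSet[A.F (L + j * N1)] {ω | τA ω = j}) ∧ (∀ ω, 1 ≤ τA ω) ∧
    (∀ j : ℕ, 1 ≤ j → j ≤ r → ∀ B, MeasurableSet[A.F L] B →
      P (B ∩ {ω | τA ω = j}) ≤ θ1 ^ j * P B) ∧
    (∀ t : ℕ, MeasurableSet[A.F (L + (r * N1 + t * N2))] {ω | (r : ℕ∞) < τA ω ∧ τB ω = t}) ∧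
    (∀ ω, 1 ≤ τB ω) ∧
    (∀ t : ℕ, 1 ≤ t → ∀ B, MeasurableSet[A.F L] B →
      P (B ∩ {ω | (r : ℕ∞) < τA ω ∧ τB ω = t}) ≤ θ2 ^ t * P B) ∧
    (∀ᵐ ω ∂P, ∀ j : ℕ, 1 ≤ j → j ≤ r → (j : ℕ∞) < τA ω → b0 ≤ A.N L (L + j * N1) ω x) ∧
    (∀ᵐ ω ∂P, (r : ℕ∞) < τA ω → ∀ s : ℕ, 1 ≤ s → (s : ℕ∞) < τB ω →
      b0 * b1 ^ s ≤ A.N L (L + (r * N1 + s * N2)) ω x)

open Classical in
/-- the lifetime of a two phase attempt in units of `N` -/
noncomputable def tau2 (N1 r N2 N : ℕ) (τA τB : Ω → ℕ∞) (ω : Ω) : ℕ∞ :=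
  if τA ω ≤ r then ((cd N ((τA ω).toNat * N1) : ℕ) : ℕ∞)
  else if τB ω = ⊤ then ⊤ else ((cd N (r * N1 + (τB ω).toNat * N2) : ℕ) : ℕ∞)

lemma tau2_eq (N1 r N2 N : ℕ) (τA τB : Ω → ℕ∞) (n : ℕ) :
    {ω | tau2 N1 r N2 N τA τB ω = n} =
      (⋃ j ∈ (Finset.range (r + 1)).filter (fun j => cd N (j * N1) = n), {ω | τA ω = j}) ∪
      ⋃ t : ℕ, ⋃ _ : cd N (r * N1 + t * N2) = n, {ω | (r : ℕ∞) < τA ω ∧ τB ω = t} := by
  classical
  ext ω
  simp only [Set.mem_ofPred_eq, Set.mem_union, Set.mem_iUnion, Finset.mem_filter,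
    Finset.mem_range, exists_prop]
  unfold tau2
  split_ifs with h1 h2
  · constructor
    · intro h
      left
      have hne : τA ω ≠ ⊤ := ne_top_of_le_ne_top (ENat.coe_ne_top r) h1
      have e : ((τA ω).toNat : ℕ∞) = τA ω := ENat.coe_toNat hne
      refine ⟨(τA ω).toNat, ⟨?_, by exact_mod_cast h⟩, e.symm⟩
      have : ((τA ω).toNat : ℕ∞) ≤ r := by rw [e]; exact h1
      have h3 : (τA ω).toNat ≤ r := by exact_mod_cast this
      omega
    · rintro (⟨j, ⟨hj, hjn⟩, hjω⟩ | ⟨t, _, h, _⟩)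
      · rw [hjω, ENat.toNat_coe, hjn]
      · exact absurd h (not_lt.2 h1)
  · constructor
    · intro h
      exact absurd h (by simp)
    · rintro (⟨j, ⟨hj, hjn⟩, hjω⟩ | ⟨t, _, _, ht⟩)
      · exact absurd (by rw [hjω]; exact_mod_cast Nat.lt_succ_iff.1 hj) h1
      · rw [h2] at ht
        exact absurd ht (by simp)
  · constructor
    · intro h
      right
      have e : ((τB ω).toNat : ℕ∞) = τB ω := ENat.coe_toNat h2
      exact ⟨(τB ω).toNat, by exact_mod_cast h, not_le.1 h1, e.symm⟩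
    · rintro (⟨j, ⟨hj, hjn⟩, hjω⟩ | ⟨t, htn, _, ht⟩)
      · exact absurd (by rw [hjω]; exact_mod_cast Nat.lt_succ_iff.1 hj) h1
      · rw [ht, ENat.toNat_coe, htn]

lemma geo_le {θ1 : ℝ≥0∞} (h : θ1 ≤ 1 / 2) (n : ℕ) (s : Finset ℕ) (hs : ∀ j ∈ s, n ≤ j) :
    ∑ j ∈ s, θ1 ^ j ≤ 2 * θ1 ^ n := by
  classical
  have h1 : ∑ j ∈ s, θ1 ^ j ≤ ∑' i : ℕ, θ1 ^ (n + i) := by
    have hinj : Set.InjOn (fun j => j - n) (s : Set ℕ) := by
      intro a ha b hb hab
      have := hs a ha
      have := hs b hb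
      simp only at hab
      omega
    calc ∑ j ∈ s, θ1 ^ j = ∑ i ∈ s.image (fun j => j - n), θ1 ^ (n + i) := by
          rw [Finset.sum_image hinj]
          refine Finset.sum_congr rfl fun j hj => ?_
          rw [Nat.add_sub_cancel' (hs j hj)]
      _ ≤ ∑' i : ℕ, θ1 ^ (n + i) := ENNReal.sum_le_tsum _
  refine h1.trans ?_
  simp_rw [pow_add]
  rw [ENNReal.tsum_mul_left, ENNReal.tsum_geometric, mul_comm]
  gcongr
  rw [ENNReal.inv_le_iff_inv_le]
  have h2 : (1 : ℝ≥0∞) - 1 / 2 ≤ 1 - θ1 := tsub_le_tsub_left h 1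
  refine le_trans ?_ h2
  rw [one_div, ENNReal.one_sub_inv_two]

/-- mass in the coarse phase -/
lemma coarse {N1 r N2 N m2 s L : ℕ} {x : S} {ω : Ω} {τA τB : Ω → ℕ∞} {b0 b1 c1 c : ℝ≥0∞}
    (hN : 0 < N) (hN2 : 0 < N2) (hm2 : m2 * N ≤ N2) (hb1 : b1 ≤ 1) (hc : c ≤ 1)
    (hcb : c ^ m2 ≤ b1) (hc1 : c1 ≤ b0 * b1) (hcs : c1 * c ^ s ≤ c1) (hc1b : c1 ≤ b0) (hs : 1 ≤ s)
    (hA : ∀ j : ℕ, 1 ≤ j → j ≤ r → (j : ℕ∞) < τA ω → b0 ≤ A.N L (L + j * N1) ω x)
    (hB : (r : ℕ∞) < τA ω → ∀ s : ℕ, 1 ≤ s → (s : ℕ∞) < τB ω →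
      b0 * b1 ^ s ≤ A.N L (L + (r * N1 + s * N2)) ω x)
    (hr : (r : ℕ∞) < τA ω)
    (hlt : ∀ s' : ℕ, r * N1 + s' * N2 < s * N + N2 → (s' : ℕ∞) < τB ω) :
    c1 * c ^ s ≤ A.N L (L + s * N) ω x := by
  have hsN : 0 < s * N := Nat.mul_pos hs hN
  rcases Nat.lt_or_ge (r * N1) (s * N) with h | h
  · -- beyond the fine phase
    set s' := cd N2 (s * N - r * N1) with hs'
    have a1 := le_cd hN2 (s * N - r * N1)
    have a2 := cd_lt hN2 (s * N - r * N1)
    rw [← hs'] at a1 a2
    have hs1 : 1 ≤ s' := by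
      by_contra hcon
      have : s' = 0 := by omega
      rw [this] at a1
      omega
    have h3 := hB hr s' hs1 (hlt s' (by omega))
    refine le_trans ?_ (h3.trans (A.anti L (L + s * N) (L + (r * N1 + s' * N2)) ω x
      (Nat.le_add_right _ _) (by omega)))
    obtain ⟨i, hi⟩ := Nat.exists_eq_add_of_le hs1
    have h4 : i * m2 ≤ s := by
      have e : s' * N2 = i * N2 + N2 := by rw [hi]; ring
      have h5 : i * m2 * N ≤ i * N2 := by
        rw [mul_assoc]; exact Nat.mul_le_mul_left i hm2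
      have h6 : i * m2 * N ≤ s * N := by omega
      exact Nat.le_of_mul_le_mul_right h6 hN
    calc c1 * c ^ s ≤ b0 * b1 * c ^ (i * m2) :=
          mul_le_mul' hc1 (pow_le_pow_right_of_le_one' hc h4)
      _ = b0 * b1 * (c ^ m2) ^ i := by rw [mul_comm i m2, pow_mul]
      _ ≤ b0 * b1 * b1 ^ i := by gcongr
      _ = b0 * b1 ^ s' := by rw [hi, pow_add, pow_one]; ring
  · -- inside the fine phase
    have hr1 : 1 ≤ r := by
      by_contra hcon
      have : r = 0 := by omega
      rw [this] at h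
      omega
    have h3 := hA r hr1 le_rfl hr
    refine hcs.trans (hc1b.trans (h3.trans ?_))
    exact A.anti L (L + s * N) (L + r * N1) ω x (Nat.le_add_right _ _) (by omega)

/-- **virtual height**: two phase attempts are a delayed tile system of height `N`,
`N1 ≤ N ≤ N2 ≤ δ N`. -/
theorem twoPhase [IsProbabilityMeasure P] {N1 r N2 N δ M m2 : ℕ} {b0 b1 θ1 θ2 c1 c θ : ℝ≥0∞}
    (hR : RunAtt A N1 r N2 b0 b1 θ1 θ2) (hN1 : 0 < N1) (h1N : N1 ≤ N) (hN2 : N ≤ N2)
    (hδ : N2 ≤ δ * N) (hM : r * N1 + N2 + N ≤ M * N) (hm2 : m2 * N ≤ N2)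
    (hθ1 : 4 * θ1 ≤ θ) (hθ : θ ≤ 1) (hθ2 : 2 * θ2 ≤ θ ^ M) (hb1 : b1 ≤ 1)
    (hc : c ≤ 1) (hcb : c ^ m2 ≤ b1) (hc1 : c1 ≤ b0 * b1) : TileSysD A N δ c1 c θ where
  fam L x hx := by
    classical
    have hN : 0 < N := lt_of_lt_of_le hN1 h1N
    have hN2' : 0 < N2 := lt_of_lt_of_le hN hN2
    have hδ1 : 1 ≤ δ := by
      by_contra hcon
      have : δ = 0 := by omega
      rw [this] at hδ
      omega
    obtain ⟨τA, τB, mA, oA, pA, mB, oB, pB, cA, cB⟩ := hR.fam L x hx
    refine ⟨tau2 N1 r N2 N τA τB, ?_, ?_, ?_, ?_⟩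
    · -- measurability
      intro n
      rw [tau2_eq]
      refine MeasurableSet.union ?_ ?_
      · refine Finset.measurableSet_biUnion _ fun j hj => ?_
        rw [Finset.mem_filter, Finset.mem_range] at hj
        refine A.F.mono ?_ _ (mA j (by omega))
        have := le_cd hN (j * N1)
        rw [hj.2] at this
        omega
      · refine MeasurableSet.iUnion fun t => MeasurableSet.iUnion fun ht => ?_
        refine A.F.mono ?_ _ (mB t)
        have := le_cd hN (r * N1 + t * N2)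
        rw [ht] at this
        omega
    · -- lifetime at least one
      intro ω
      unfold tau2
      split_ifs with h1 h2
      · have hne : τA ω ≠ ⊤ := ne_top_of_le_ne_top (ENat.coe_ne_top r) h1
        have e : ((τA ω).toNat : ℕ∞) = τA ω := ENat.coe_toNat hne
        have h3 : 1 ≤ (τA ω).toNat := by
          have := oA ω
          rw [← e] at this
          exact_mod_cast this
        have h4 := le_cd hN ((τA ω).toNat * N1)
        have h5 : 0 < (τA ω).toNat * N1 := Nat.mul_pos h3 hN1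
        have h6 : 1 ≤ cd N ((τA ω).toNat * N1) := by
          by_contra hcon
          have : cd N ((τA ω).toNat * N1) = 0 := by omega
          rw [this] at h4
          omega
        exact_mod_cast h6
      · exact le_top
      · have e : ((τB ω).toNat : ℕ∞) = τB ω := ENat.coe_toNat h2
        have h3 : 1 ≤ (τB ω).toNat := by
          have := oB ω
          rw [← e] at this
          exact_mod_cast this
        have h4 := le_cd hN (r * N1 + (τB ω).toNat * N2)
        have h5 : 0 < (τB ω).toNat * N2 := Nat.mul_pos h3 hN2'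
        have h6 : 1 ≤ cd N (r * N1 + (τB ω).toNat * N2) := by
          by_contra hcon
          have : cd N (r * N1 + (τB ω).toNat * N2) = 0 := by omega
          rw [this] at h4
          omega
        exact_mod_cast h6
    · -- tail
      intro n hn B hB
      have hθ14 : θ1 ≤ 1 / 2 := by
        have h1 : 4 * θ1 ≤ 1 := hθ1.trans hθ
        have h2 : 2 * θ1 ≤ 1 := le_trans (by gcongr; norm_num) h1
        rw [ENNReal.le_div_iff_mul_le (Or.inl (by norm_num)) (Or.inl (by norm_num)), mul_comm]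
        exact h2
      -- first part
      have hfirst : P (B ∩ ⋃ j ∈ (Finset.range (r + 1)).filter (fun j => cd N (j * N1) = n),
          {ω | τA ω = j}) ≤ 2 * θ1 ^ n * P B := by
        rw [Set.inter_iUnion₂]
        refine (measure_biUnion_finset_le _ _).trans ?_
        have hj1 : ∀ j ∈ (Finset.range (r + 1)).filter (fun j => cd N (j * N1) = n),
            n ≤ j := by
          intro j hj
          rw [Finset.mem_filter, Finset.mem_range] at hj
          have h1 := cd_lt hN (j * N1)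
          rw [hj.2] at h1
          have h2 : j * N1 ≤ j * N := Nat.mul_le_mul_left j h1N
          have h3 : n * N < (j + 1) * N := by
            have e : (j + 1) * N = j * N + N := by ring
            omega
          have := Nat.lt_of_mul_lt_mul_right h3
          omega
        calc ∑ j ∈ (Finset.range (r + 1)).filter (fun j => cd N (j * N1) = n),
              P (B ∩ {ω | τA ω = j})
            ≤ ∑ j ∈ (Finset.range (r + 1)).filter (fun j => cd N (j * N1) = n),
              θ1 ^ j * P B := by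
              refine Finset.sum_le_sum fun j hj => ?_
              have h0 := hj1 j hj
              rw [Finset.mem_filter, Finset.mem_range] at hj
              exact pA j (by omega) (by omega) B hB
          _ = (∑ j ∈ (Finset.range (r + 1)).filter (fun j => cd N (j * N1) = n),
              θ1 ^ j) * P B := by rw [Finset.sum_mul]
          _ ≤ 2 * θ1 ^ n * P B := by
              gcongr
              exact geo_le hθ14 n _ hj1
      have hf4 : 4 * θ1 ^ n ≤ θ ^ n := by
        calc 4 * θ1 ^ n ≤ 4 ^ n * θ1 ^ n := by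
              gcongr
              calc (4 : ℝ≥0∞) = 4 ^ 1 := (pow_one _).symm
                _ ≤ 4 ^ n := pow_le_pow_right₀ (by norm_num) hn
          _ = (4 * θ1) ^ n := (mul_pow _ _ _).symm
          _ ≤ θ ^ n := by gcongr
      -- second part
      have hsecond : ∃ y : ℝ≥0∞, 2 * y ≤ θ ^ n ∧
          P (B ∩ ⋃ t : ℕ, ⋃ _ : cd N (r * N1 + t * N2) = n,
            {ω | (r : ℕ∞) < τA ω ∧ τB ω = t}) ≤ y * P B := by
        by_cases hex : ∃ t : ℕ, 1 ≤ t ∧ cd N (r * N1 + t * N2) = n
        · obtain ⟨t, ht1, htn⟩ := hex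
          refine ⟨θ2 ^ t, ?_, ?_⟩
          · have hnM : n ≤ M * t := by
              have h1 := cd_lt hN (r * N1 + t * N2)
              rw [htn] at h1
              have h2 : r * N1 + t * N2 + N ≤ M * t * N := by
                obtain ⟨u, rfl⟩ := Nat.exists_eq_add_of_le ht1
                have e1 : (1 + u) * N2 = N2 + u * N2 := by ring
                have e2 : M * (1 + u) * N = M * N + u * (M * N) := by ring
                have h3 : u * (r * N1 + N2 + N) ≤ u * (M * N) := Nat.mul_le_mul_left u hM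
                have e3 : u * (r * N1 + N2 + N) = u * (r * N1) + u * N2 + u * N := by ring
                rw [e1, e2]
                have := Nat.zero_le (u * (r * N1))
                have := Nat.zero_le (u * N)
                omega
              have h3 : n * N < M * t * N := lt_of_lt_of_le h1 h2
              exact (Nat.lt_of_mul_lt_mul_right h3).le
            calc 2 * θ2 ^ t ≤ 2 ^ t * θ2 ^ t := by
                  gcongr
                  calc (2 : ℝ≥0∞) = 2 ^ 1 := (pow_one _).symm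
                    _ ≤ 2 ^ t := pow_le_pow_right₀ (by norm_num) ht1
              _ = (2 * θ2) ^ t := (mul_pow _ _ _).symm
              _ ≤ (θ ^ M) ^ t := by gcongr
              _ = θ ^ (M * t) := (pow_mul _ _ _).symm
              _ ≤ θ ^ n := pow_le_pow_right_of_le_one' hθ hnM
          · refine le_trans (measure_mono ?_) (pB t ht1 B hB)
            refine Set.inter_subset_inter_right B ?_
            intro ω hω
            simp only [Set.mem_iUnion, Set.mem_ofPred_eq, exists_prop] at hω ⊢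
            obtain ⟨t', ht'n, h1, h2⟩ := hω
            refine ⟨h1, ?_⟩
            have hte : t' = t := by
              by_contra hne
              rcases lt_or_gt_of_ne hne with hlt | hlt
              · have a1 := cd_lt hN (r * N1 + t' * N2)
                have a2 := le_cd hN (r * N1 + t * N2)
                have a3 := le_cd hN (r * N1 + t' * N2)
                have a4 : (t' + 1) * N2 ≤ t * N2 := Nat.mul_le_mul_right N2 hlt
                have e4 : (t' + 1) * N2 = t' * N2 + N2 := by ring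
                rw [ht'n] at a1
                rw [htn] at a2
                omega
              · have a1 := cd_lt hN (r * N1 + t * N2)
                have a2 := le_cd hN (r * N1 + t' * N2)
                have a4 : (t + 1) * N2 ≤ t' * N2 := Nat.mul_le_mul_right N2 hlt
                have e4 : (t + 1) * N2 = t * N2 + N2 := by ring
                rw [htn] at a1
                rw [ht'n] at a2
                omega
            rw [h2, hte]
        · refine ⟨0, by simp, ?_⟩
          have he : (⋃ t : ℕ, ⋃ _ : cd N (r * N1 + t * N2) = n,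
              {ω | (r : ℕ∞) < τA ω ∧ τB ω = t}) = ∅ := by
            ext ω
            simp only [Set.mem_iUnion, Set.mem_ofPred_eq, exists_prop,
              Set.mem_empty_iff_false, iff_false]
            rintro ⟨t, htn, h1, h2⟩
            refine hex ⟨t, ?_, htn⟩
            have := oB ω
            rw [h2] at this
            exact_mod_cast this
          rw [he]
          simp
      obtain ⟨y, hy, hsec⟩ := hsecond
      rw [tau2_eq, Set.inter_union_distrib_left]
      refine (measure_union_le _ _).trans ?_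
      calc _ ≤ 2 * θ1 ^ n * P B + y * P B := add_le_add hfirst hsec
        _ = (2 * θ1 ^ n + y) * P B := by ring
        _ ≤ θ ^ n * P B := by
            gcongr
            have h2 : 2 * (2 * θ1 ^ n + y) ≤ 2 * θ ^ n := by
              calc 2 * (2 * θ1 ^ n + y) = 4 * θ1 ^ n + 2 * y := by ring
                _ ≤ θ ^ n + θ ^ n := add_le_add hf4 hy
                _ = 2 * θ ^ n := by ring
            exact (ENNReal.mul_le_mul_iff_right (by norm_num) (by norm_num)).1 h2
    · -- mass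
      have hc1b : c1 ≤ b0 := hc1.trans (by
        calc b0 * b1 ≤ b0 * 1 := by gcongr
          _ = b0 := mul_one _)
      filter_upwards [cA, cB] with ω hA hB
      intro s hs hsτ
      have hcs : c1 * c ^ s ≤ c1 := by
        calc c1 * c ^ s ≤ c1 * 1 := by gcongr; exact pow_le_one' hc s
          _ = c1 := mul_one _
      have hsN : 0 < s * N := Nat.mul_pos hs hN
      unfold tau2 at hsτ
      split_ifs at hsτ with h1 h2
      · -- dies in the fine phase
        have hne : τA ω ≠ ⊤ := ne_top_of_le_ne_top (ENat.coe_ne_top r) h1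
        have e : ((τA ω).toNat : ℕ∞) = τA ω := ENat.coe_toNat hne
        set j := (τA ω).toNat with hj
        have hjr : j ≤ r := by
          have : (j : ℕ∞) ≤ r := by rw [e]; exact h1
          exact_mod_cast this
        have h3 : s + δ < cd N (j * N1) := by exact_mod_cast hsτ
        have h4 := lt_of_lt_cd hN h3
        have e5 : (s + δ) * N = s * N + δ * N := by ring
        have h6 : N ≤ δ * N := Nat.le_mul_of_pos_left N hδ1
        have hj0 : 1 ≤ j := by
          by_contra hcon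
          have : j = 0 := by omega
          rw [this] at h4
          omega
        obtain ⟨i, hi⟩ := Nat.exists_eq_add_of_le hj0
        have e7 : j * N1 = i * N1 + N1 := by rw [hi]; ring
        have h8 : s * N ≤ i * N1 := by omega
        have hi1 : 1 ≤ i := by
          by_contra hcon
          have : i = 0 := by omega
          rw [this] at h8
          omega
        have h9 := hA i hi1 (by omega) (by rw [← e]; exact_mod_cast (by omega : i < j))
        refine hcs.trans (hc1b.trans (h9.trans ?_))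
        exact A.anti L (L + s * N) (L + i * N1) ω x (Nat.le_add_right _ _) (by omega)
      · -- lives for ever
        have hr : (r : ℕ∞) < τA ω := not_le.1 h1
        exact coarse hN hN2' hm2 hb1 hc hcb hc1 hcs hc1b hs hA hB hr (by
          intro s' _; rw [h2]; exact ENat.coe_lt_top s')
      · have hr : (r : ℕ∞) < τA ω := not_le.1 h1
        have e : ((τB ω).toNat : ℕ∞) = τB ω := ENat.coe_toNat h2
        set t := (τB ω).toNat with ht
        have h3 : s + δ < cd N (r * N1 + t * N2) := by exact_mod_cast hsτ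
        have h4 := lt_of_lt_cd hN h3
        have e5 : (s + δ) * N = s * N + δ * N := by ring
        exact coarse hN hN2' hm2 hb1 hc hcb hc1 hcs hc1b hs hA hB hr (by
          intro s' hs'
          rw [← e]
          have h7 : s' * N2 < t * N2 := by omega
          have := Nat.lt_of_mul_lt_mul_right h7
          exact_mod_cast this)

end Crest.Agent.R154.TwoPhase855
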