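import Crest.Agent.R154.NBDefs_28
import Crest.Agent.R154.B5Abs_566
import Crest.Agent.R154.Loc_561

/-! Row 154, ROAD 801, window lemmas in words (helper185), part a: words. -/

set_option autoImplicit false

namespace Crest.Agent.R154.TwoW185

open MeasureTheory ProbabilityTheory Crest.ProbabilityR.RandomEnvironment Crest.Agent.R154
open Crest.Agent.R154.Flux566 (lw endp sitesL)
open Crest.Agent.R154.NB28 (aw)
open scoped ENNReal
open Classical

variable {d : ℕ}

/-- words from `x` reading `R`, ending in `T` -/
def WS (R T : Set (Site d)) (x : Site d) : Set (List (Step d)) :=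
  {l | (∀ y ∈ sitesL x l, y ∈ R) ∧ endp x l ∈ T}

/-- prefix-free -/
def PF (S : Set (List (Step d))) : Prop := ∀ l l', l ∈ S → l ++ l' ∈ S → l' = []

lemma lw_append (ω : Environment d) (l l' : List (Step d)) (x : Site d) :
    lw ω x (l ++ l') = lw ω x l * lw ω (endp x l) l' := by
  induction l generalizing x with
  | nil => simp [lw, endp]
  | cons e l ih => simp only [List.cons_append, lw, endp, ih, mul_assoc]

lemma sitesL_append (l l' : List (Step d)) (x : Site d) :
    sitesL x (l ++ l') = sitesL x l ++ sitesL (endp x l) l' := by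
  induction l generalizing x with
  | nil => simp [sitesL, endp]
  | cons e l ih => simp only [List.cons_append, sitesL, endp, ih]

lemma endp_append (l l' : List (Step d)) (x : Site d) :
    endp x (l ++ l') = endp (endp x l) l' := Flux566.endp_append l l' x

lemma sitesL_add (l : List (Step d)) (x z : Site d) :
    sitesL (x + z) l = (sitesL x l).map (· + z) := by
  induction l generalizing x with
  | nil => simp [sitesL]
  | cons e l ih =>
    simp only [sitesL, List.map_cons]
    rw [← ih]
    congr 2
    abel

lemma mem_sitesL_add {l : List (Step d)} {x y : Site d} :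
    y ∈ sitesL x l ↔ y - x ∈ sitesL 0 l := by
  have := sitesL_add l 0 x
  rw [zero_add] at this
  rw [this, List.mem_map]
  constructor
  · rintro ⟨a, ha, rfl⟩
    simpa using ha
  · intro h
    exact ⟨y - x, h, by abel⟩

lemma lw_shift (ω : Environment d) (z : Site d) (l : List (Step d)) (x : Site d) :
    lw (shiftEnv z ω) x l = lw ω (x + z) l := by
  induction l generalizing x with
  | nil => simp [lw]
  | cons e l ih =>
    simp only [lw]
    rw [ih]
    have : x + stepVec e + z = x + z + stepVec e := by abel
    rw [this]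
    rfl

lemma prefix_or {α : Type*} {a b a' b' : List α} (h : a ++ b = a' ++ b') :
    (∃ c, a' = a ++ c) ∨ (∃ c, a = a' ++ c) := by
  rcases List.append_eq_append_iff.1 h with ⟨c, h1, _⟩ | ⟨c, h1, _⟩
  · exact Or.inl ⟨c, h1⟩
  · exact Or.inr ⟨c, h1⟩

lemma PF.eq {S : Set (List (Step d))} (hS : PF S) {a b a' b' : List (Step d)}
    (h : a ++ b = a' ++ b') (ha : a ∈ S) (ha' : a' ∈ S) : a = a' := by
  rcases prefix_or h with ⟨c, hc⟩ | ⟨c, hc⟩
  · have := hS a c ha (hc ▸ ha'); rw [hc, this, List.append_nil]
  · have := hS a' c ha' (hc ▸ ha); rw [hc, this, List.append_nil]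

lemma pf_WS {R T : Set (Site d)} (h : Disjoint R T) (x : Site d) : PF (WS R T x) := by
  intro l l' h1 h2
  cases l' with
  | nil => rfl
  | cons e l' =>
    exfalso
    have : endp x l ∈ R := h2.1 _ (by
      rw [sitesL_append]; simp [sitesL])
    exact Set.disjoint_left.1 h this h1.2

lemma pf_mono {S T : Set (List (Step d))} (h : S ⊆ T) (hT : PF T) : PF S :=
  fun l l' h1 h2 => hT l l' (h h1) (h h2)

lemma sum_row (p : Row d) : ∑' e : Step d, ENNReal.ofReal (p.1 e) = 1 := by
  rw [tsum_fintype, ← ENNReal.ofReal_sum_of_nonneg (fun e _ => p.2.1 e)]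
  rw [show (∑ e, p.1 e) = 1 from p.2.2, ENNReal.ofReal_one]

lemma kraft_len (ω : Environment d) (n : ℕ) (S : Set (List (Step d))) (hS : PF S) (x : Site d) :
    ∑' l, (if l ∈ S ∧ l.length ≤ n then lw ω x l else 0) ≤ 1 := by
  induction n generalizing S x with
  | zero =>
    rw [tsum_eq_single ([] : List (Step d))]
    · split_ifs <;> simp [lw]
    · intro l hl
      rw [if_neg]
      rintro ⟨_, h⟩
      exact hl (List.length_eq_zero_iff.1 (Nat.le_zero.1 h))
  | succ n ih =>
    by_cases h0 : ([] : List (Step d)) ∈ S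
    · rw [tsum_eq_single ([] : List (Step d))]
      · split_ifs <;> simp [lw]
      · intro l hl
        rw [if_neg]
        rintro ⟨h, _⟩
        exact hl (hS [] l h0 (by simpa using h))
    · rw [B5A.tsum_list, if_neg (fun h => h0 h.1), zero_add]
      rw [← sum_row (ω x)]
      refine ENNReal.tsum_le_tsum fun e => ?_
      have : ∀ l : List (Step d), (if e :: l ∈ S ∧ (e :: l).length ≤ n + 1 then
          lw ω x (e :: l) else 0) = ENNReal.ofReal ((ω x).1 e) *
          (if l ∈ {l | e :: l ∈ S} ∧ l.length ≤ n then lw ω (x + stepVec e) l else 0) := by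
        intro l
        simp only [List.length_cons, Nat.add_le_add_iff_right, Set.mem_ofPred_eq, lw]
        split_ifs <;> simp
      simp_rw [this]
      rw [ENNReal.tsum_mul_left]
      calc _ ≤ ENNReal.ofReal ((ω x).1 e) * 1 := by
            gcongr
            exact ih _ (fun l l' h1 h2 => hS (e :: l) l' h1 h2) _
        _ = _ := mul_one _

lemma kraft (ω : Environment d) (S : Set (List (Step d))) (hS : PF S) (x : Site d) :
    ∑' l, (if l ∈ S then lw ω x l else 0) ≤ 1 := by
  rw [ENNReal.tsum_eq_iSup_sum]
  refine iSup_le fun s => ?_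
  refine le_trans ?_ (kraft_len ω (s.sup List.length) S hS x)
  refine le_trans (Finset.sum_le_sum (g := fun l => if l ∈ S ∧ l.length ≤ s.sup List.length
    then lw ω x l else 0) fun l hl => ?_) (ENNReal.sum_le_tsum s)
  have : l.length ≤ s.sup List.length := Finset.le_sup hl
  simp [this]

/-- sum over words bounded by the sum over a choice of splitting -/
lemma tsum_split_le {α : Type*} (F : List α → ℝ≥0∞) (P : List α → List α → Prop)
    (h : ∀ g, F g ≠ 0 → ∃ a b, g = a ++ b ∧ P a b) :
    ∑' g, F g ≤ ∑' a, ∑' b, (if P a b then F (a ++ b) else 0) := by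
  choose! fa fb h1 h2 using h
  rw [← ENNReal.tsum_prod (f := fun a b => if P a b then F (a ++ b) else 0)]
  have e1 : ∑' g, F g = ∑' g : {g // F g ≠ 0}, F g.1 := by
    refine (tsum_subtype_eq_of_support_subset ?_).symm
    intro g hg; exact hg
  rw [e1]
  have hinj : Function.Injective (fun g : {g // F g ≠ 0} => (fa g.1, fb g.1)) := by
    intro g g' hgg
    simp only [Prod.mk.injEq] at hgg
    apply Subtype.ext
    rw [h1 g.1 g.2, h1 g'.1 g'.2, hgg.1, hgg.2]
  refine le_trans (le_of_eq ?_) (ENNReal.tsum_comp_le_tsum_of_injective hinj _)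
  refine tsum_congr fun g => ?_
  simp only
  rw [if_pos (h2 g.1 g.2), ← h1 g.1 g.2]

/-- merging words with a prefix-free first part -/
lemma tsum_merge_le {S : Set (List (Step d))} (hS : PF S) (F : List (Step d) → ℝ≥0∞) :
    ∑' g, ∑' l, (if g ∈ S then F (g ++ l) else 0) ≤ ∑' ρ, F ρ := by
  rw [← ENNReal.tsum_prod (f := fun g l => if g ∈ S then F (g ++ l) else 0)]
  have e1 : ∑' p : List (Step d) × List (Step d), (if p.1 ∈ S then F (p.1 ++ p.2) else 0)
      = ∑' p : {p : List (Step d) × List (Step d) // p.1 ∈ S}, F (p.1.1 ++ p.1.2) := by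
    rw [← tsum_subtype_eq_of_support_subset
      (s := {p : List (Step d) × List (Step d) | p.1 ∈ S})]
    · exact tsum_congr fun p => if_pos p.2
    · intro p hp
      by_contra hn
      exact hp (if_neg hn)
  rw [e1]
  have hinj : Function.Injective
      (fun p : {p : List (Step d) × List (Step d) // p.1 ∈ S} => p.1.1 ++ p.1.2) := by
    rintro ⟨⟨a, b⟩, ha⟩ ⟨⟨a', b'⟩, ha'⟩ h
    simp only at h ha ha'
    have := hS.eq h ha ha'
    subst this
    rw [List.append_cancel_left h]
  exact ENNReal.tsum_comp_le_tsum_of_injective hinj F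

/-- prefix domination -/
lemma tsum_cover {S S' : Set (List (Step d))} (hS : PF S)
    (h : ∀ g ∈ S, ∃ a b, g = a ++ b ∧ a ∈ S') (ω : Environment d) (x : Site d) :
    ∑' g, (if g ∈ S then lw ω x g else 0) ≤ ∑' a, (if a ∈ S' then lw ω x a else 0) := by
  refine (tsum_split_le _ (fun a _ => a ∈ S') ?_).trans ?_
  · intro g hg
    exact h g (by by_contra hn; exact hg (if_neg hn))
  refine ENNReal.tsum_le_tsum fun a => ?_
  by_cases ha : a ∈ S'
  · simp only [ha, if_true]
    calc ∑' b, (if a ++ b ∈ S then lw ω x (a ++ b) else 0)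
        = lw ω x a * ∑' b, (if b ∈ {b | a ++ b ∈ S} then lw ω (endp x a) b else 0) := by
          rw [← ENNReal.tsum_mul_left]
          refine tsum_congr fun b => ?_
          simp only [Set.mem_ofPred_eq]
          split_ifs
          · rw [lw_append]
          · simp
      _ ≤ lw ω x a * 1 := by
          gcongr
          refine kraft ω _ ?_ _
          intro l l' h1 h2
          refine hS (a ++ l) l' h1 ?_
          simpa [List.append_assoc] using h2
      _ = _ := mul_one _
  · simp [ha]

lemma fh_exists {D : Set (Site d)} (l : List (Step d)) (x : Site d)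
    (h : ∃ y ∈ sitesL x l, y ∈ D) : ∃ a b, l = a ++ b ∧ a ∈ WS Dᶜ D x := by
  induction l generalizing x with
  | nil => obtain ⟨y, hy, _⟩ := h; simp [sitesL] at hy
  | cons e l ih =>
    by_cases hx : x ∈ D
    · exact ⟨[], e :: l, rfl, by simp [sitesL], hx⟩
    · obtain ⟨y, hy, hyD⟩ := h
      simp only [sitesL, List.mem_cons] at hy
      rcases hy with rfl | hy
      · exact absurd hyD hx
      · obtain ⟨a, b, rfl, h1, h2⟩ := ih _ ⟨y, hy, hyD⟩
        refine ⟨e :: a, b, rfl, ?_, h2⟩
        intro z hz
        simp only [sitesL, List.mem_cons] at hz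
        rcases hz with rfl | hz
        · exact hx
        · exact h1 z hz

lemma fh_end {D : Set (Site d)} (l : List (Step d)) (x : Site d)
    (h : endp x l ∈ D) : ∃ a b, l = a ++ b ∧ a ∈ WS Dᶜ D x := by
  induction l generalizing x with
  | nil => exact ⟨[], [], rfl, by simp [sitesL], h⟩
  | cons e l ih =>
    by_cases hx : x ∈ D
    · exact ⟨[], e :: l, rfl, by simp [sitesL], hx⟩
    · obtain ⟨a, b, rfl, h1, h2⟩ := ih _ h
      refine ⟨e :: a, b, rfl, ?_, h2⟩
      intro z hz
      simp only [sitesL, List.mem_cons] at hz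
      rcases hz with rfl | hz
      · exact hx
      · exact h1 z hz

/-- quenched mass of the words from `v` -/
noncomputable def qm (R T : Set (Site d)) (ω : Environment d) (v : Site d) : ℝ≥0∞ :=
  ∑' l, (if l ∈ WS R T v then lw ω v l else 0)

lemma measurable_qm (R T : Set (Site d)) (v : Site d) :
    Measurable fun ω : Environment d => qm R T ω v := by
  unfold qm
  refine Measurable.ennreal_tsum fun l => ?_
  split_ifs
  · exact Flux566.measurable_lw v l
  · exact measurable_const

/-- quenched strong Markov: visiting `D` where the landing mass is at most `c` -/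
lemma visit_le (ω : Environment d) (R T D : Set (Site d)) (c : ℝ≥0∞)
    (hD : ∀ v ∈ D, qm R T ω v ≤ c) (x : Site d) :
    ∑' l, (if l ∈ WS R T x ∧ ∃ y ∈ sitesL x l, y ∈ D then lw ω x l else 0) ≤ c := by
  refine (tsum_split_le _ (fun a b => a ∈ WS Dᶜ D x ∧ b ∈ WS R T (endp x a)) ?_).trans ?_
  · intro g hg
    have hg' : g ∈ WS R T x ∧ ∃ y ∈ sitesL x g, y ∈ D := by
      by_contra hn; exact hg (if_neg hn)
    obtain ⟨a, b, rfl, hab⟩ := fh_exists g x hg'.2
    refine ⟨a, b, rfl, hab, ?_, ?_⟩
    · intro y hy
      exact hg'.1.1 y (by rw [sitesL_append]; exact List.mem_append_right _ hy)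
    · rw [← endp_append]; exact hg'.1.2
  calc _ ≤ ∑' a, (if a ∈ WS Dᶜ D x then lw ω x a else 0) * c := by
        refine ENNReal.tsum_le_tsum fun a => ?_
        by_cases ha : a ∈ WS Dᶜ D x
        · rw [if_pos ha]
          calc _ ≤ ∑' b, lw ω x a * (if b ∈ WS R T (endp x a) then lw ω (endp x a) b else 0) := by
                refine ENNReal.tsum_le_tsum fun b => ?_
                by_cases hb : b ∈ WS R T (endp x a)
                · rw [if_pos ⟨ha, hb⟩, if_pos hb, ← lw_append]
                  split_ifs
                  · exact le_rfl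
                  · exact zero_le
                · rw [if_neg (fun h => hb h.2)]; exact zero_le
            _ = lw ω x a * qm R T ω (endp x a) := by rw [ENNReal.tsum_mul_left]; rfl
            _ ≤ _ := by gcongr; exact hD _ ha.2
        · simp [ha]
    _ = (∑' a, (if a ∈ WS Dᶜ D x then lw ω x a else 0)) * c := ENNReal.tsum_mul_right
    _ ≤ 1 * c := by
        gcongr
        exact kraft ω _ (pf_WS (disjoint_compl_left) x) x
    _ = c := one_mul c

end Crest.Agent.R154.TwoW185
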