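import Crest.Agent.R154.TwoWa_185

/-! Row 154, ROAD 801, window lemmas in words (helper185), part b: annealed weights, the weight
martingale, the window inequality for one start. -/

set_option autoImplicit false

namespace Crest.Agent.R154.TwoW185

open MeasureTheory ProbabilityTheory Crest.ProbabilityR.RandomEnvironment Crest.Agent.R154
open Crest.Agent.R154.Flux566 (lw endp sitesL)
open Crest.Agent.R154.NB28 (aw)
open scoped ENNReal
open Classical

variable {d : ℕ}

variable (ν : Measure (Row d)) [IsProbabilityMeasure ν]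

lemma aw_shift (x : Site d) (l : List (Step d)) :
    ∫⁻ ω, lw ω x l ∂(iidEnvironmentLaw ν) = aw ν l := by
  have h := (Q561.iid_shift ν x).lintegral_comp (Flux566.measurable_lw (0 : Site d) l)
  rw [aw, ← h]
  refine lintegral_congr fun ω => ?_
  rw [lw_shift, zero_add]

lemma aw_mul (x : Site d) (π g : List (Step d)) (h : ∀ y ∈ sitesL x π, y ∉ sitesL 0 g) :
    aw ν π * aw ν g = ∫⁻ ω, lw ω x π * lw ω 0 g ∂(iidEnvironmentLaw ν) := by
  rw [Q561.iid_lintegral_mul ν (S := {y | y ∈ sitesL x π}) (T := {y | y ∈ sitesL 0 g}) ?_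
    (Flux566.measurable_lw x π) (Flux566.measurable_lw 0 g) (Flux566.locOn_lw x π)
    (Flux566.locOn_lw 0 g), aw_shift, aw_shift]
  exact Set.disjoint_left.2 h

lemma tsum_aw (S : Set (List (Step d))) :
    ∑' l, (if l ∈ S then aw ν l else 0)
      = ∫⁻ ω, ∑' l, (if l ∈ S then lw ω 0 l else 0) ∂(iidEnvironmentLaw ν) := by
  rw [lintegral_tsum]
  · refine tsum_congr fun l => ?_
    split_ifs
    · rfl
    · simp
  · intro l
    split_ifs
    · exact (Flux566.measurable_lw 0 l).aemeasurable
    · exact aemeasurable_const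

lemma tsum_aw_le_one {S : Set (List (Step d))} (hS : PF S) :
    ∑' l, (if l ∈ S then aw ν l else 0) ≤ 1 := by
  rw [tsum_aw]
  calc _ ≤ ∫⁻ _, 1 ∂(iidEnvironmentLaw ν) := lintegral_mono fun ω => kraft ω S hS 0
    _ = 1 := by simp

lemma tsum_aw_cover {S S' : Set (List (Step d))} (hS : PF S)
    (h : ∀ g ∈ S, ∃ a b, g = a ++ b ∧ a ∈ S') :
    ∑' l, (if l ∈ S then aw ν l else 0) ≤ ∑' l, (if l ∈ S' then aw ν l else 0) := by
  rw [tsum_aw, tsum_aw]
  exact lintegral_mono fun ω => tsum_cover hS h ω 0

lemma aw_le_one (l : List (Step d)) : aw ν l ≤ 1 := by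
  have := tsum_aw_le_one ν (S := {l}) (by
    intro a b ha hb
    simp only [Set.mem_singleton_iff] at ha hb
    rw [ha] at hb
    simpa using hb)
  refine le_trans ?_ this
  refine le_trans ?_ (ENNReal.le_tsum l)
  simp

lemma ext_le (B : Set (List (Step d))) (hB : PF B) (g : List (Step d)) :
    ∑' l, (if g ++ l ∈ B then aw ν (g ++ l) else 0) ≤ aw ν g := by
  have hP : PF {l | g ++ l ∈ B} := by
    intro l l' h1 h2
    refine hB (g ++ l) l' h1 ?_
    simpa [List.append_assoc] using h2
  calc ∑' l, (if g ++ l ∈ B then aw ν (g ++ l) else 0)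
      = ∫⁻ ω, ∑' l, (if g ++ l ∈ B then lw ω 0 (g ++ l) else 0) ∂(iidEnvironmentLaw ν) := by
        rw [lintegral_tsum]
        · refine tsum_congr fun l => ?_
          split_ifs
          · rfl
          · simp
        · intro l
          split_ifs
          · exact (Flux566.measurable_lw 0 _).aemeasurable
          · exact aemeasurable_const
    _ ≤ ∫⁻ ω, lw ω 0 g ∂(iidEnvironmentLaw ν) := by
        refine lintegral_mono fun ω => ?_
        calc ∑' l, (if g ++ l ∈ B then lw ω 0 (g ++ l) else 0)
            = lw ω 0 g * ∑' l, (if l ∈ {l | g ++ l ∈ B} then lw ω (endp 0 g) l else 0) := by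
              rw [← ENNReal.tsum_mul_left]
              refine tsum_congr fun l => ?_
              simp only [Set.mem_ofPred_eq]
              split_ifs
              · rw [lw_append]
              · simp
          _ ≤ lw ω 0 g * 1 := by gcongr; exact kraft ω _ hP _
          _ = _ := mul_one _
    _ = aw ν g := rfl

/-- unnormalised weight of the continuations of `g` in `B` -/
noncomputable def NN (B : Set (List (Step d))) (wt : List (Step d) → ℝ≥0∞) (g : List (Step d)) :
    ℝ≥0∞ := ∑' l, (if g ++ l ∈ B then wt (g ++ l) * aw ν (g ++ l) else 0)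

/-- the weight martingale -/
noncomputable def mm (B : Set (List (Step d))) (wt : List (Step d) → ℝ≥0∞) (g : List (Step d)) :
    ℝ≥0∞ := NN ν B wt g / aw ν g

section

variable {ν} {B : Set (List (Step d))} (hB : PF B) {wt : List (Step d) → ℝ≥0∞} {M : ℝ≥0∞}
  (hM : ∀ g, wt g ≤ M) (hMt : M ≠ ⊤)

include hB hM in
lemma NN_le (g : List (Step d)) : NN ν B wt g ≤ M * aw ν g := by
  unfold NN
  calc _ ≤ ∑' l, M * (if g ++ l ∈ B then aw ν (g ++ l) else 0) := by
        refine ENNReal.tsum_le_tsum fun l => ?_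
        split_ifs
        · gcongr; exact hM _
        · simp
    _ = M * ∑' l, (if g ++ l ∈ B then aw ν (g ++ l) else 0) := ENNReal.tsum_mul_left
    _ ≤ _ := by gcongr; exact ext_le ν B hB g

include hB hM in
lemma mm_le (g : List (Step d)) : mm ν B wt g ≤ M :=
  ENNReal.div_le_of_le_mul (NN_le hB hM g)

include hB hM hMt in
lemma mm_mul (g : List (Step d)) : mm ν B wt g * aw ν g = NN ν B wt g := by
  unfold mm
  by_cases h0 : aw ν g = 0
  · have := NN_le (ν := ν) hB hM g
    rw [h0, mul_zero] at this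
    rw [h0, mul_zero, le_antisymm this zero_le]
  · exact ENNReal.div_mul_cancel h0 (ne_top_of_le_ne_top ENNReal.one_ne_top (aw_le_one ν g))

variable (ν B wt) in
/-- minimal prefixes at which the weight exceeds `c` -/
def MinS (c : ℝ≥0∞) : Set (List (Step d)) :=
  {g | c < mm ν B wt g ∧ ∀ p q, g = p ++ q → c < mm ν B wt p → q = []}

omit hB hM hMt in
lemma pf_MinS (c : ℝ≥0∞) : PF (MinS ν B wt c) := by
  intro l l' h1 h2
  exact h2.2 l l' rfl h1.1

lemma exists_MinS {c : ℝ≥0∞} {g : List (Step d)} (h : c < mm ν B wt g) :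
    ∃ a b, g = a ++ b ∧ a ∈ MinS ν B wt c := by
  have hex : ∃ n, c < mm ν B wt (g.take n) := ⟨g.length, by rwa [List.take_length]⟩
  refine ⟨g.take (Nat.find hex), g.drop (Nat.find hex), (List.take_append_drop _ _).symm,
    Nat.find_spec hex, ?_⟩
  intro p q hpq hp
  have hle : p.length ≤ g.length := by
    have := congrArg List.length hpq
    rw [List.length_append, List.length_take] at this
    omega
  have hp2 : p = g.take p.length := by
    have h1 : p <+: g := by
      refine List.IsPrefix.trans ⟨q, rfl⟩ ?_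
      rw [← hpq]; exact List.take_prefix _ _
    exact List.prefix_iff_eq_take.1 h1
  have h3 : Nat.find hex ≤ p.length := Nat.find_min' hex (hp2 ▸ hp)
  have h4 := congrArg List.length hpq
  rw [List.length_append, List.length_take] at h4
  have : q.length = 0 := by omega
  exact List.length_eq_zero_iff.1 this

include hB hM hMt in
lemma doob (c : ℝ≥0∞) : c * ∑' g, (if g ∈ MinS ν B wt c then aw ν g else 0) ≤ NN ν B wt [] := by
  rw [← ENNReal.tsum_mul_left]
  calc _ ≤ ∑' g, ∑' l, (if g ∈ MinS ν B wt c then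
        (fun ρ => if ρ ∈ B then wt ρ * aw ν ρ else 0) (g ++ l) else 0) := by
        refine ENNReal.tsum_le_tsum fun g => ?_
        by_cases hg : g ∈ MinS ν B wt c
        · simp only [hg, if_true]
          calc c * aw ν g ≤ mm ν B wt g * aw ν g := by gcongr; exact hg.1.le
            _ = NN ν B wt g := mm_mul hB hM hMt g
            _ = _ := rfl
        · simp [hg]
    _ ≤ ∑' ρ, (if ρ ∈ B then wt ρ * aw ν ρ else 0) :=
        tsum_merge_le (pf_MinS c) (fun ρ => if ρ ∈ B then wt ρ * aw ν ρ else 0)
    _ = _ := by unfold NN; simp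

end

lemma lint2 (f : List (Step d) → List (Step d) → Environment d → ℝ≥0∞)
    (hf : ∀ a b, Measurable (f a b)) :
    ∑' a, ∑' b, ∫⁻ ω, f a b ω ∂(iidEnvironmentLaw ν)
      = ∫⁻ ω, ∑' a, ∑' b, f a b ω ∂(iidEnvironmentLaw ν) := by
  rw [lintegral_tsum fun a => (Measurable.tsum fun b => hf a b).aemeasurable]
  refine tsum_congr fun a => ?_
  rw [lintegral_tsum fun b => (hf a b).aemeasurable]

end Crest.Agent.R154.TwoW185
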