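import Crest.Agent.R154.TwoWb_185

/-! Row 154, ROAD 801, window lemmas in words (helper185), part c: the turn, one start. -/

set_option autoImplicit false

namespace Crest.Agent.R154.TwoW185

open MeasureTheory ProbabilityTheory Crest.ProbabilityR.RandomEnvironment Crest.Agent.R154
open Crest.Agent.R154.Flux566 (lw endp sitesL)
open Crest.Agent.R154.NB28 (aw)
open scoped ENNReal
open Classical

variable {d : ℕ}

/-- translate of a set -/
def tra (x : Site d) (R : Set (Site d)) : Set (Site d) := {y | y - x ∈ R}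

lemma mem_WS_tra {R T : Set (Site d)} {x : Site d} {l : List (Step d)} :
    l ∈ WS (tra x R) (tra x T) x ↔ l ∈ WS R T 0 := by
  unfold WS tra
  simp only [Set.mem_ofPred_eq]
  rw [show endp x l - x = endp 0 l by rw [Flux566.endp_eq_add l x]; abel]
  refine and_congr_left fun _ => ⟨fun h y hy => ?_, fun h y hy => h _ (mem_sitesL_add.1 hy)⟩
  have := h (y + x) (mem_sitesL_add.2 (by simpa using hy))
  simpa using this

/-- words which (reading `R'` before) reach `Deep` and afterwards `Low` for the first time -/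
def DS (R' Deep Low : Set (Site d)) : Set (List (Step d)) :=
  {ρ | ∃ a b, ρ = a ++ b ∧ (∀ y ∈ sitesL 0 a, y ∈ R') ∧ a ∈ WS Deepᶜ Deep 0 ∧
    b ∈ WS Lowᶜ Low (endp 0 a)}

lemma pf_DS (R' Deep Low : Set (Site d)) : PF (DS R' Deep Low) := by
  rintro l l' ⟨a, b, rfl, _, ha, hb⟩ ⟨a', b', h, _, ha', hb'⟩
  have h' : a ++ (b ++ l') = a' ++ b' := by rw [← h, List.append_assoc]
  have := (pf_WS (disjoint_compl_left (a := Deep)) (0 : Site d)).eq h' ha ha'
  subst this
  have h2 := List.append_cancel_left h'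
  exact pf_WS (disjoint_compl_left (a := Low)) _ b l' hb (h2 ▸ hb')

/-- words of `DS` landing in `T` -/
def DT (R' Deep Low T : Set (Site d)) : Set (List (Step d)) :=
  {ρ | ρ ∈ DS R' Deep Low ∧ endp 0 ρ ∈ T}

/-- no prefix in `DS` -/
def NoRet (R' Deep Low : Set (Site d)) (g : List (Step d)) : Prop :=
  ∀ p q, g = p ++ q → p ∉ DS R' Deep Low

/-- the first-hit prefixes of the runner, for the explored word `π` from `x` -/
def GG (R' Deep Low : Set (Site d)) (x : Site d) (π : List (Step d)) : Set (List (Step d)) :=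
  {g | g ∈ WS {y | y ∈ sitesL x π}ᶜ {y | y ∈ sitesL x π} 0 ∧ (∀ y ∈ sitesL 0 g, y ∈ R') ∧
    endp 0 g ∈ Deep ∧ NoRet R' Deep Low g}

lemma pf_GG (R' Deep Low : Set (Site d)) (x : Site d) (π : List (Step d)) :
    PF (GG R' Deep Low x π) :=
  pf_mono (fun _ h => h.1) (pf_WS disjoint_compl_left 0)

lemma turn_mem {R' Deep Low R T : Set (Site d)} {g l : List (Step d)}
    (hg1 : ∀ y ∈ sitesL 0 g, y ∈ R') (hg2 : endp 0 g ∈ Deep) (hg3 : NoRet R' Deep Low g)
    (hR : ∀ y ∈ R, y ∉ Low) (hT : ∀ y ∈ T, y ∈ Low) (hl : l ∈ WS R T (endp 0 g)) :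
    g ++ l ∈ DS R' Deep Low := by
  obtain ⟨a, b, rfl, ha⟩ := fh_end g 0 hg2
  refine ⟨a, b ++ l, by rw [List.append_assoc], ?_, ha, ?_, ?_⟩
  · intro y hy
    exact hg1 y (by rw [sitesL_append]; exact List.mem_append_left _ hy)
  · intro y hy hyL
    rw [sitesL_append, List.mem_append] at hy
    rcases hy with hy | hy
    · obtain ⟨b1, b2, rfl, hb1⟩ := fh_exists b (endp 0 a) ⟨y, hy, hyL⟩
      refine hg3 (a ++ b1) b2 (by rw [List.append_assoc]) ⟨a, b1, rfl, ?_, ha, hb1⟩
      intro z hz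
      exact hg1 z (by rw [sitesL_append]; exact List.mem_append_left _ hz)
    · rw [← endp_append] at hy
      exact hR y (hl.1 y hy) hyL
  · rw [endp_append, ← endp_append a b]
    exact hT _ hl.2

/-- the turn: quenched -/
lemma turn_le (ω : Environment d) {R' Deep Low R T : Set (Site d)} {S : Set (List (Step d))}
    (hS : PF S) (hS2 : ∀ g ∈ S, (∀ y ∈ sitesL 0 g, y ∈ R') ∧ endp 0 g ∈ Deep ∧
      NoRet R' Deep Low g) (hR : ∀ y ∈ R, y ∉ Low) (hT : ∀ y ∈ T, y ∈ Low) :
    ∑' g, (if g ∈ S then lw ω 0 g * qm R T ω (endp 0 g) else 0)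
      ≤ ∑' ρ, (if ρ ∈ DT R' Deep Low T then lw ω 0 ρ else 0) := by
  refine le_trans ?_ (tsum_merge_le hS _)
  refine ENNReal.tsum_le_tsum fun g => ?_
  by_cases hg : g ∈ S
  · simp only [hg, if_true]
    unfold qm
    rw [← ENNReal.tsum_mul_left]
    refine ENNReal.tsum_le_tsum fun l => ?_
    by_cases hl : l ∈ WS R T (endp 0 g)
    · have h2 := hS2 g hg
      have h3 : g ++ l ∈ DT R' Deep Low T :=
        ⟨turn_mem h2.1 h2.2.1 h2.2.2 hR hT hl, by rw [endp_append]; exact hl.2⟩
      rw [if_pos hl, if_pos h3, lw_append]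
    · rw [if_neg hl, mul_zero]; exact zero_le
  · simp [hg]

variable (ν : Measure (Row d)) [IsProbabilityMeasure ν]

/-- landing weight of the turned words -/
noncomputable def ZZ (R' Deep Low T : Set (Site d)) : ℝ≥0∞ :=
  ∑' ρ, (if ρ ∈ DT R' Deep Low T then aw ν ρ else 0)

/-- the turn, summed over the explored words and integrated -/
lemma turn_int {R' Deep Low R T : Set (Site d)} (x : Site d) (hRT : Disjoint R T)
    (hR : ∀ y ∈ R, y ∉ Low) (hT : ∀ y ∈ T, y ∈ Low) :
    ∫⁻ ω, ∑' π, ∑' g, (if π ∈ WS R T x ∧ g ∈ GG R' Deep Low x π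
        then qm R T ω (endp 0 g) * (lw ω x π * lw ω 0 g) else 0) ∂(iidEnvironmentLaw ν)
      ≤ ZZ ν R' Deep Low T := by
  have hZ : ZZ ν R' Deep Low T = ∫⁻ ω, ∑' ρ, (if ρ ∈ DT R' Deep Low T
      then lw ω 0 ρ else 0) ∂(iidEnvironmentLaw ν) :=
    tsum_aw ν (DT R' Deep Low T)
  rw [hZ]
  refine lintegral_mono fun ω => ?_
  calc _ ≤ ∑' π, (if π ∈ WS R T x then lw ω x π else 0) *
        ∑' ρ, (if ρ ∈ DT R' Deep Low T then lw ω 0 ρ else 0) := by
        refine ENNReal.tsum_le_tsum fun π => ?_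
        by_cases hπ : π ∈ WS R T x
        · simp only [hπ, true_and, if_true]
          refine le_trans (le_of_eq ?_) (mul_le_mul_right (turn_le ω (pf_GG R' Deep Low x π)
            (fun g hg => hg.2) hR hT) (lw ω x π))
          rw [← ENNReal.tsum_mul_left]
          refine tsum_congr fun g => ?_
          split_ifs
          · ring
          · simp
        · simp [hπ]
    _ = (∑' π, (if π ∈ WS R T x then lw ω x π else 0)) * _ := ENNReal.tsum_mul_right
    _ ≤ 1 * _ := by gcongr; exact kraft ω _ (pf_WS hRT x) x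
    _ = _ := one_mul _

end Crest.Agent.R154.TwoW185
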