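import Crest.Agent.R154.TwoWc_185

/-! Row 154, ROAD 801, window lemmas in words (helper185), part d: weight-dependent threshold. -/

set_option autoImplicit false

namespace Crest.Agent.R154.TwoW185

open MeasureTheory ProbabilityTheory Crest.ProbabilityR.RandomEnvironment Crest.Agent.R154
open Crest.Agent.R154.Flux566 (lw endp sitesL)
open Crest.Agent.R154.NB28 (aw)
open scoped ENNReal
open Classical

variable {d : ℕ}

lemma exists_class {m M : ℝ≥0∞} (hm : m ≠ 0) (hmM : m ≤ M) (hM : M ≠ ⊤) :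
    ∃ j : ℕ, M * 2⁻¹ ^ (j + 1) < m ∧ m ≤ M * 2⁻¹ ^ j := by
  have hex : ∃ n : ℕ, M * 2⁻¹ ^ n < m := by
    obtain ⟨n, hn⟩ := ENNReal.exists_inv_two_pow_lt (a := m / M)
      (ENNReal.div_ne_zero.2 ⟨hm, hM⟩)
    exact ⟨n, ENNReal.mul_lt_of_lt_div' hn⟩
  have h0 : Nat.find hex ≠ 0 := by
    intro h
    have := Nat.find_spec hex
    rw [h, pow_zero, mul_one] at this
    exact absurd hmM (not_le.2 this)
  obtain ⟨j, hj⟩ := Nat.exists_eq_succ_of_ne_zero h0
  refine ⟨j, ?_, ?_⟩
  · have := Nat.find_spec hex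
    rwa [hj] at this
  · exact not_lt.1 (Nat.find_min hex (by omega))

lemma half_two (M : ℝ≥0∞) (j : ℕ) : M * 2⁻¹ ^ j = 2 * (M * 2⁻¹ ^ (j + 1)) := by
  rw [pow_succ]
  have : (2 : ℝ≥0∞) * 2⁻¹ = 1 := ENNReal.mul_inv_cancel (by norm_num) (by norm_num)
  calc M * 2⁻¹ ^ j = M * 2⁻¹ ^ j * (2 * 2⁻¹) := by rw [this, mul_one]
    _ = _ := by ring

variable (ν : Measure (Row d)) [IsProbabilityMeasure ν]

/-- bad hits of one class -/
lemma bad_class {R' Deep Low R T : Set (Site d)} (x : Site d)
    {B : Set (List (Step d))} (hB : PF B) {wt : List (Step d) → ℝ≥0∞} {M : ℝ≥0∞}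
    (hM : ∀ g, wt g ≤ M) (hMt : M ≠ ⊤) (lam : ℝ≥0∞) (j : ℕ) :
    ∫⁻ ω, ∑' π, ∑' g, (if (π ∈ WS R T x ∧ g ∈ GG R' Deep Low x π) ∧
        M * 2⁻¹ ^ (j + 1) < mm ν B wt g ∧ qm R T ω (endp 0 g) ≤ lam * 2⁻¹ ^ j
        then M * 2⁻¹ ^ j * (lw ω x π * lw ω 0 g) else 0) ∂(iidEnvironmentLaw ν)
      ≤ lam * 2⁻¹ ^ j * (2 * NN ν B wt []) := by
  set c := M * 2⁻¹ ^ (j + 1) with hc
  set l := lam * 2⁻¹ ^ j with hl
  calc _ ≤ ∫⁻ ω, l * (M * 2⁻¹ ^ j * ∑' g, (if g ∈ MinS ν B wt c then lw ω 0 g else 0))
        ∂(iidEnvironmentLaw ν) := by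
        refine lintegral_mono fun ω => ?_
        obtain ⟨D, hD⟩ : ∃ D : Set (Site d), D = {v | qm R T ω v ≤ l} := ⟨_, rfl⟩
        have key : ∀ π : List (Step d),
            ∑' g, (if (π ∈ WS R T x ∧ g ∈ GG R' Deep Low x π) ∧
              c < mm ν B wt g ∧ qm R T ω (endp 0 g) ≤ l
              then M * 2⁻¹ ^ j * (lw ω x π * lw ω 0 g) else 0)
            ≤ (if π ∈ WS R T x ∧ ∃ y ∈ sitesL x π, y ∈ D then lw ω x π else 0)
              * (M * 2⁻¹ ^ j * ∑' g, (if g ∈ MinS ν B wt c then lw ω 0 g else 0)) := by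
          intro π
          by_cases hπ : π ∈ WS R T x ∧ ∃ y ∈ sitesL x π, y ∈ D
          · rw [if_pos hπ]
            obtain ⟨S2, hS2⟩ : ∃ S2 : Set (List (Step d)),
              S2 = {g | g ∈ GG R' Deep Low x π ∧ c < mm ν B wt g} := ⟨_, rfl⟩
            have hcov := tsum_cover (S := S2)
              (S' := MinS ν B wt c) (pf_mono (fun _ h => by rw [hS2] at h; exact h.1)
                (pf_GG R' Deep Low x π))
              (fun g hg => by rw [hS2] at hg; exact exists_MinS hg.2) ω 0
            calc _ ≤ ∑' g, lw ω x π * (M * 2⁻¹ ^ j *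
                  (if g ∈ S2 then lw ω 0 g else 0)) := by
                  refine ENNReal.tsum_le_tsum fun g => ?_
                  by_cases hg : (π ∈ WS R T x ∧ g ∈ GG R' Deep Low x π) ∧
                    c < mm ν B wt g ∧ qm R T ω (endp 0 g) ≤ l
                  · have hg' : g ∈ S2 := by rw [hS2]; exact ⟨hg.1.2, hg.2.1⟩
                    rw [if_pos hg, if_pos hg']
                    exact le_of_eq (by ring)
                  · rw [if_neg hg]; exact zero_le
              _ = lw ω x π * (M * 2⁻¹ ^ j * ∑' g, (if g ∈ S2 then lw ω 0 g else 0)) := by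
                  rw [ENNReal.tsum_mul_left, ENNReal.tsum_mul_left]
              _ ≤ _ := mul_le_mul_right (mul_le_mul_right hcov _) _
          · rw [if_neg hπ, zero_mul]
            refine le_of_eq (ENNReal.tsum_eq_zero.2 fun g => if_neg ?_)
            rintro ⟨⟨h1, h2⟩, _, h4⟩
            exact hπ ⟨h1, endp 0 g, h2.1.2, by rw [hD]; exact h4⟩
        calc _ ≤ ∑' π, (if π ∈ WS R T x ∧ ∃ y ∈ sitesL x π, y ∈ D
              then lw ω x π else 0)
              * (M * 2⁻¹ ^ j * ∑' g, (if g ∈ MinS ν B wt c then lw ω 0 g else 0)) :=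
              ENNReal.tsum_le_tsum key
          _ = (∑' π, (if π ∈ WS R T x ∧ ∃ y ∈ sitesL x π, y ∈ D
              then lw ω x π else 0))
              * (M * 2⁻¹ ^ j * ∑' g, (if g ∈ MinS ν B wt c then lw ω 0 g else 0)) :=
              ENNReal.tsum_mul_right
          _ ≤ _ := by
              gcongr
              exact visit_le ω R T D l (fun v hv => by rw [hD] at hv; exact hv) x
    _ = l * (M * 2⁻¹ ^ j * ∑' g, (if g ∈ MinS ν B wt c then aw ν g else 0)) := by
        have hmeas : Measurable fun ω : Environment d =>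
            ∑' g, (if g ∈ MinS ν B wt c then lw ω 0 g else 0) := by
          refine Measurable.tsum fun g => ?_
          split_ifs
          · exact Flux566.measurable_lw 0 g
          · exact measurable_const
        rw [lintegral_const_mul _ (hmeas.const_mul _), lintegral_const_mul _ hmeas, ← tsum_aw]
    _ = l * (2 * (c * ∑' g, (if g ∈ MinS ν B wt c then aw ν g else 0))) := by
        rw [half_two M j, hc]; ring
    _ ≤ l * (2 * NN ν B wt []) := by
        gcongr
        exact doob hB hM hMt c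

/-- **window inequality for one start**, weight on the runner -/
lemma three {R' Deep Low R T : Set (Site d)} (x : Site d) (hRT : Disjoint R T)
    (hR : ∀ y ∈ R, y ∉ Low) (hT : ∀ y ∈ T, y ∈ Low)
    {B : Set (List (Step d))} (hB : PF B) {wt : List (Step d) → ℝ≥0∞} {M : ℝ≥0∞}
    (hM : ∀ g, wt g ≤ M) (hMt : M ≠ ⊤) {lam : ℝ≥0∞} (hl0 : lam ≠ 0) (hlt : lam ≠ ⊤) :
    ∑' π, ∑' g, (if π ∈ WS R T x ∧ g ∈ GG R' Deep Low x π then aw ν π * NN ν B wt g else 0)
      ≤ M / lam * ZZ ν R' Deep Low T + 4 * lam * NN ν B wt [] := by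
  set f1 : List (Step d) → List (Step d) → Environment d → ℝ≥0∞ := fun π g ω =>
    if π ∈ WS R T x ∧ g ∈ GG R' Deep Low x π
      then M / lam * (qm R T ω (endp 0 g) * (lw ω x π * lw ω 0 g)) else 0 with hf1
  set f2 : ℕ → List (Step d) → List (Step d) → Environment d → ℝ≥0∞ := fun j π g ω =>
    if (π ∈ WS R T x ∧ g ∈ GG R' Deep Low x π) ∧
        M * 2⁻¹ ^ (j + 1) < mm ν B wt g ∧ qm R T ω (endp 0 g) ≤ lam * 2⁻¹ ^ j
        then M * 2⁻¹ ^ j * (lw ω x π * lw ω 0 g) else 0 with hf2
  have m1 : ∀ π g, Measurable (f1 π g) := by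
    intro π g
    simp only [hf1]
    split_ifs
    · exact ((measurable_qm R T _).mul ((Flux566.measurable_lw x π).mul
        (Flux566.measurable_lw 0 g))).const_mul _
    · exact measurable_const
  have m2 : ∀ j π g, Measurable (f2 j π g) := by
    intro j π g
    simp only [hf2]
    by_cases h : (π ∈ WS R T x ∧ g ∈ GG R' Deep Low x π) ∧ M * 2⁻¹ ^ (j + 1) < mm ν B wt g
    · have : ∀ ω : Environment d, (if (π ∈ WS R T x ∧ g ∈ GG R' Deep Low x π) ∧
          M * 2⁻¹ ^ (j + 1) < mm ν B wt g ∧ qm R T ω (endp 0 g) ≤ lam * 2⁻¹ ^ j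
          then M * 2⁻¹ ^ j * (lw ω x π * lw ω 0 g) else 0)
          = if qm R T ω (endp 0 g) ≤ lam * 2⁻¹ ^ j
            then M * 2⁻¹ ^ j * (lw ω x π * lw ω 0 g) else 0 := by
        intro ω
        by_cases h2 : qm R T ω (endp 0 g) ≤ lam * 2⁻¹ ^ j
        · rw [if_pos ⟨h.1, h.2, h2⟩, if_pos h2]
        · rw [if_neg (fun h3 => h2 h3.2.2), if_neg h2]
      simp_rw [this]
      exact Measurable.ite (measurableSet_le (measurable_qm R T _) measurable_const)
        (((Flux566.measurable_lw x π).mul (Flux566.measurable_lw 0 g)).const_mul _)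
        measurable_const
    · have : ∀ ω : Environment d, (if (π ∈ WS R T x ∧ g ∈ GG R' Deep Low x π) ∧
          M * 2⁻¹ ^ (j + 1) < mm ν B wt g ∧ qm R T ω (endp 0 g) ≤ lam * 2⁻¹ ^ j
          then M * 2⁻¹ ^ j * (lw ω x π * lw ω 0 g) else 0) = 0 := by
        intro ω
        exact if_neg (fun h3 => h ⟨h3.1, h3.2.1⟩)
      simp_rw [this]
      exact measurable_const
  have key : ∀ π g, (if π ∈ WS R T x ∧ g ∈ GG R' Deep Low x π then aw ν π * NN ν B wt g else 0)
      ≤ ∫⁻ ω, f1 π g ω ∂(iidEnvironmentLaw ν)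
        + ∑' j, ∫⁻ ω, f2 j π g ω ∂(iidEnvironmentLaw ν) := by
    intro π g
    by_cases h : π ∈ WS R T x ∧ g ∈ GG R' Deep Low x π
    · rw [if_pos h, ← mm_mul hB hM hMt g]
      have hdis : ∀ y ∈ sitesL x π, y ∉ sitesL 0 g := fun y hy hy' => h.2.1.1 y hy' hy
      calc aw ν π * (mm ν B wt g * aw ν g) = mm ν B wt g * (aw ν π * aw ν g) := by ring
        _ = mm ν B wt g * ∫⁻ ω, lw ω x π * lw ω 0 g ∂(iidEnvironmentLaw ν) := by
            rw [aw_mul ν x π g hdis]
        _ = ∫⁻ ω, mm ν B wt g * (lw ω x π * lw ω 0 g) ∂(iidEnvironmentLaw ν) := by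
            rw [lintegral_const_mul _ (show Measurable fun ω : Environment d =>
              lw ω x π * lw ω 0 g from (Flux566.measurable_lw x π).mul
              (Flux566.measurable_lw 0 g))]
        _ ≤ ∫⁻ ω, (f1 π g ω + ∑' j, f2 j π g ω) ∂(iidEnvironmentLaw ν) := by
            refine lintegral_mono fun ω => ?_
            by_cases hm0 : mm ν B wt g = 0
            · simp only [hm0, zero_mul]; exact zero_le
            obtain ⟨j, hj1, hj2⟩ := exists_class hm0 (mm_le (ν := ν) hB hM g) hMt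
            by_cases he : qm R T ω (endp 0 g) ≤ lam * 2⁻¹ ^ j
            · refine le_trans ?_ le_add_self
              refine le_trans ?_ (ENNReal.le_tsum j)
              simp only [hf2]
              rw [if_pos ⟨h, hj1, he⟩]
              gcongr
            · refine le_trans ?_ le_self_add
              simp only [hf1]
              rw [if_pos h]
              have h5 : mm ν B wt g ≤ M / lam * qm R T ω (endp 0 g) := by
                calc mm ν B wt g ≤ M * 2⁻¹ ^ j := hj2
                  _ = M / lam * (lam * 2⁻¹ ^ j) := by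
                      rw [← mul_assoc, ENNReal.div_mul_cancel hl0 hlt]
                  _ ≤ _ := mul_le_mul_right (not_le.1 he).le _
              calc _ ≤ M / lam * qm R T ω (endp 0 g) * (lw ω x π * lw ω 0 g) :=
                    mul_le_mul_left h5 _
                _ = _ := by ring
        _ = _ := by
            rw [lintegral_add_left (m1 π g), lintegral_tsum fun j => (m2 j π g).aemeasurable]
    · rw [if_neg h]; exact zero_le
  calc _ ≤ ∑' π, ∑' g, (∫⁻ ω, f1 π g ω ∂(iidEnvironmentLaw ν)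
        + ∑' j, ∫⁻ ω, f2 j π g ω ∂(iidEnvironmentLaw ν)) :=
        ENNReal.tsum_le_tsum fun π => ENNReal.tsum_le_tsum fun g => key π g
    _ = ∑' π, ∑' g, ∫⁻ ω, f1 π g ω ∂(iidEnvironmentLaw ν)
        + ∑' j, ∑' π, ∑' g, ∫⁻ ω, f2 j π g ω ∂(iidEnvironmentLaw ν) := by
        simp_rw [ENNReal.tsum_add]
        congr 1
        rw [ENNReal.tsum_comm]
        conv_rhs => rw [ENNReal.tsum_comm]
        conv_lhs => rw [ENNReal.tsum_comm]
        refine tsum_congr fun π => ?_
        exact ENNReal.tsum_comm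
    _ ≤ M / lam * ZZ ν R' Deep Low T + ∑' j : ℕ, lam * 2⁻¹ ^ j * (2 * NN ν B wt []) := by
        refine add_le_add ?_ (ENNReal.tsum_le_tsum fun j => ?_)
        · rw [lint2 ν f1 m1]
          calc _ = M / lam * ∫⁻ ω, ∑' π, ∑' g, (if π ∈ WS R T x ∧ g ∈ GG R' Deep Low x π
              then qm R T ω (endp 0 g) * (lw ω x π * lw ω 0 g) else 0)
              ∂(iidEnvironmentLaw ν) := by
                rw [← lintegral_const_mul]
                · refine lintegral_congr fun ω => ?_
                  rw [← ENNReal.tsum_mul_left]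
                  refine tsum_congr fun π => ?_
                  rw [← ENNReal.tsum_mul_left]
                  refine tsum_congr fun g => ?_
                  simp only [hf1]
                  split_ifs
                  · rfl
                  · simp
                · refine Measurable.tsum fun π => Measurable.tsum fun g => ?_
                  split_ifs
                  · exact (measurable_qm R T _).mul ((Flux566.measurable_lw x π).mul
                      (Flux566.measurable_lw 0 g))
                  · exact measurable_const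
            _ ≤ _ := by gcongr; exact turn_int ν x hRT hR hT
        · rw [lint2 ν (f2 j) (m2 j)]
          exact bad_class ν x hB hM hMt lam j
    _ = _ := by
        congr 1
        rw [ENNReal.tsum_mul_right, ENNReal.tsum_mul_left, ENNReal.tsum_geometric,
          ENNReal.one_sub_inv_two, inv_inv]
        ring

end Crest.Agent.R154.TwoW185
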