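import Crest.Agent.R154.TwoWd_185

/-! Row 154, ROAD 801, window lemmas in words (helper185), part e: sum over the starts. -/

set_option autoImplicit false

namespace Crest.Agent.R154.TwoW185

open MeasureTheory ProbabilityTheory Crest.ProbabilityR.RandomEnvironment Crest.Agent.R154
open Crest.Agent.R154.Flux566 (lw endp sitesL)
open Crest.Agent.R154.NB28 (aw)
open scoped ENNReal
open Classical

variable {d : ℕ}

lemma fh_exists2 {D : Set (Site d)} (l : List (Step d)) (x : Site d)
    (h : ∃ y ∈ sitesL x l, y ∈ D) :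
    ∃ a b, l = a ++ b ∧ a ∈ WS Dᶜ D x ∧ endp x a ∈ sitesL x l := by
  induction l generalizing x with
  | nil => obtain ⟨y, hy, _⟩ := h; simp [sitesL] at hy
  | cons e l ih =>
    by_cases hx : x ∈ D
    · exact ⟨[], e :: l, rfl, ⟨by simp [sitesL], hx⟩, by simp [endp, sitesL]⟩
    · obtain ⟨y, hy, hyD⟩ := h
      simp only [sitesL, List.mem_cons] at hy
      rcases hy with rfl | hy
      · exact absurd hyD hx
      · obtain ⟨a, b, rfl, ⟨h1, h2⟩, h3⟩ := ih _ ⟨y, hy, hyD⟩
        refine ⟨e :: a, b, rfl, ⟨?_, h2⟩, ?_⟩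
        · intro z hz
          simp only [sitesL, List.mem_cons] at hz
          rcases hz with rfl | hz
          · exact hx
          · exact h1 z hz
        · simp only [sitesL, List.mem_cons, endp]
          exact Or.inr h3

variable (ν : Measure (Row d)) [IsProbabilityMeasure ν]

/-- the pair hits, all common sites in `Deep` -/
def Hit (Deep : Set (Site d)) (x : Site d) (γ π : List (Step d)) : Prop :=
  (∃ y, y ∈ sitesL x γ ∧ y ∈ sitesL 0 π) ∧ ∀ y, y ∈ sitesL x γ → y ∈ sitesL 0 π → y ∈ Deep

/-- `π` has a prefix in `DS` -/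
def Rt (R' Deep Low : Set (Site d)) (π : List (Step d)) : Prop :=
  ∃ p q, π = p ++ q ∧ p ∈ DS R' Deep Low

lemma first_le {R' Deep Low : Set (Site d)} {B : Set (List (Step d))}
    (hBR : ∀ π ∈ B, ∀ y ∈ sitesL 0 π, y ∈ R') (wt : List (Step d) → ℝ≥0∞) (x : Site d)
    (γ : List (Step d)) :
    ∑' π, (if π ∈ B ∧ Hit Deep x γ π ∧ ¬ Rt R' Deep Low π then wt π * aw ν π else 0)
      ≤ ∑' g, (if g ∈ GG R' Deep Low x γ then NN ν B wt g else 0) := by
  refine (tsum_split_le _ (fun g _ => g ∈ GG R' Deep Low x γ) ?_).trans ?_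
  · intro π hπ
    have h : π ∈ B ∧ Hit Deep x γ π ∧ ¬ Rt R' Deep Low π := by
      by_contra hn; exact hπ (if_neg hn)
    obtain ⟨hB, ⟨⟨y, hy1, hy2⟩, hD⟩, hret⟩ := h
    obtain ⟨g, l, rfl, hg, hend⟩ :=
      fh_exists2 (D := {y | y ∈ sitesL x γ}) π 0 ⟨y, hy2, hy1⟩
    refine ⟨g, l, rfl, hg, ?_, hD _ hg.2 hend, ?_⟩
    · intro z hz
      exact hBR _ hB z (by rw [sitesL_append]; exact List.mem_append_left _ hz)
    · intro p q hpq hp
      exact hret ⟨p, q ++ l, by rw [hpq, List.append_assoc], hp⟩
  · refine ENNReal.tsum_le_tsum fun g => ?_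
    by_cases hg : g ∈ GG R' Deep Low x γ
    · simp only [hg, if_true]
      unfold NN
      refine ENNReal.tsum_le_tsum fun l => ?_
      by_cases h : g ++ l ∈ B ∧ Hit Deep x γ (g ++ l) ∧ ¬ Rt R' Deep Low (g ++ l)
      · rw [if_pos h, if_pos h.1]
      · rw [if_neg h]; exact zero_le
    · simp [hg]

lemma tsum_sub (μ : Site d → ℝ≥0∞) (z : Site d) : ∑' x, μ (x - z) = ∑' x, μ x :=
  (Equiv.subRight z).tsum_eq μ

/-- **window lemma, weight on the runner**, summed over the starts of the explored word -/
theorem H3g {R' Deep Low R : Set (Site d)} {E : Finset (Site d)} {X0 : Set (Site d)}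
    (hRE : ∀ z ∈ E, z ∉ R)
    (hlow : ∀ x ∈ X0, ∀ z ∈ E, x + z ∈ Low) (hhigh : ∀ x ∈ X0, ∀ z ∈ R, x + z ∉ Low)
    {B : Set (List (Step d))} (hB : PF B) (hBR : ∀ π ∈ B, ∀ y ∈ sitesL 0 π, y ∈ R')
    {μ : Site d → ℝ≥0∞} (hμ : ∑' x, μ x ≤ 1) {M : ℝ≥0∞} (hM : ∀ x, μ x ≤ M) (hMt : M ≠ ⊤)
    (hX0 : ∀ x, ∀ π ∈ B, μ (x - endp 0 π) ≠ 0 → x ∈ X0)
    {lam : ℝ≥0∞} (hl0 : lam ≠ 0) (hlt : lam ≠ ⊤) {us : ℝ≥0∞}
    (hus : ∑' ρ, (if ρ ∈ DS R' Deep Low then aw ν ρ else 0) ≤ us) :
    ∑' x, ∑' γ, ∑' π, (if γ ∈ WS R E 0 ∧ π ∈ B ∧ Hit Deep x γ π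
        then μ (x - endp 0 π) * (aw ν γ * aw ν π) else 0)
      ≤ M / lam * (E.card * us) + 4 * lam + us := by
  set wt : Site d → List (Step d) → ℝ≥0∞ := fun x π => μ (x - endp 0 π) with hwt
  have hWS : PF (WS R (E : Set (Site d)) 0) :=
    pf_WS (Set.disjoint_left.2 fun z hz hz' => hRE z hz' hz) 0
  have main : ∀ x, ∑' γ, ∑' π, (if γ ∈ WS R E 0 ∧ π ∈ B ∧ Hit Deep x γ π
        then μ (x - endp 0 π) * (aw ν γ * aw ν π) else 0)
      ≤ (M / lam * ZZ ν R' Deep Low (tra x E) + 4 * lam * NN ν B (wt x) [])
        + ∑' γ, (if γ ∈ WS R (E : Set (Site d)) 0 then aw ν γ else 0) *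
          ∑' π, (if π ∈ B ∧ Rt R' Deep Low π then aw ν π else 0) * μ (x - endp 0 π) := by
    intro x
    by_cases hx : x ∈ X0
    · have h3 := three (R' := R') (Deep := Deep) (Low := Low) (R := tra x R)
        (T := tra x (E : Set (Site d))) ν x
        (Set.disjoint_left.2 fun z hz hz' => hRE _ hz' hz)
        (fun y hy hyL => hhigh x hx _ hy (by rwa [add_sub_cancel]))
        (fun y hy => by have := hlow x hx _ hy; rwa [add_sub_cancel] at this)
        hB (wt := wt x) (M := M) (fun g => hM _) hMt hl0 hlt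
      calc _ ≤ ∑' γ, ∑' g, (if γ ∈ WS (tra x R) (tra x (E : Set (Site d))) x ∧
              g ∈ GG R' Deep Low x γ then aw ν γ * NN ν B (wt x) g else 0)
            + ∑' γ, (if γ ∈ WS R (E : Set (Site d)) 0 then aw ν γ else 0) *
              ∑' π, (if π ∈ B ∧ Rt R' Deep Low π then aw ν π else 0) * μ (x - endp 0 π) := by
            rw [← ENNReal.tsum_add]
            refine ENNReal.tsum_le_tsum fun γ => ?_
            by_cases hγ : γ ∈ WS R (E : Set (Site d)) 0
            · have hγ' := mem_WS_tra (x := x).2 hγ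
              simp only [hγ, hγ', true_and, if_true]
              have hf := first_le ν (R' := R') (Deep := Deep) (Low := Low) hBR (wt x) x γ
              calc _ ≤ ∑' π, (aw ν γ * (if π ∈ B ∧ Hit Deep x γ π ∧ ¬ Rt R' Deep Low π
                      then wt x π * aw ν π else 0)
                    + aw ν γ * ((if π ∈ B ∧ Rt R' Deep Low π then aw ν π else 0)
                      * μ (x - endp 0 π))) := by
                    refine ENNReal.tsum_le_tsum fun π => ?_
                    by_cases h1 : π ∈ B ∧ Hit Deep x γ π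
                    · rw [if_pos h1]
                      by_cases h2 : Rt R' Deep Low π
                      · rw [if_pos (⟨h1.1, h2⟩ : π ∈ B ∧ Rt R' Deep Low π)]
                        refine le_trans (le_of_eq ?_) le_add_self
                        ring
                      · rw [if_pos (⟨h1.1, h1.2, h2⟩ :
                          π ∈ B ∧ Hit Deep x γ π ∧ ¬ Rt R' Deep Low π)]
                        refine le_trans (le_of_eq ?_) le_self_add
                        simp only [hwt]; ring
                    · rw [if_neg h1]; exact zero_le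
                _ = aw ν γ * ∑' π, (if π ∈ B ∧ Hit Deep x γ π ∧ ¬ Rt R' Deep Low π
                      then wt x π * aw ν π else 0)
                    + aw ν γ * ∑' π, (if π ∈ B ∧ Rt R' Deep Low π then aw ν π else 0)
                      * μ (x - endp 0 π) := by
                    rw [ENNReal.tsum_add, ENNReal.tsum_mul_left, ENNReal.tsum_mul_left]
                _ ≤ aw ν γ * ∑' g, (if g ∈ GG R' Deep Low x γ then NN ν B (wt x) g else 0)
                    + aw ν γ * ∑' π, (if π ∈ B ∧ Rt R' Deep Low π then aw ν π else 0)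
                      * μ (x - endp 0 π) := by gcongr
                _ = _ := by
                    congr 1
                    rw [← ENNReal.tsum_mul_left]
                    refine tsum_congr fun g => ?_
                    split_ifs <;> simp
            · simp [hγ]
        _ ≤ _ := by gcongr
    · have h0 : ∀ γ π, (if γ ∈ WS R (E : Set (Site d)) 0 ∧ π ∈ B ∧ Hit Deep x γ π
          then μ (x - endp 0 π) * (aw ν γ * aw ν π) else 0) = 0 := by
        intro γ π
        by_cases h : γ ∈ WS R (E : Set (Site d)) 0 ∧ π ∈ B ∧ Hit Deep x γ π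
        · rw [if_pos h]
          have : μ (x - endp 0 π) = 0 := by
            by_contra hne; exact hx (hX0 x π h.2.1 hne)
          rw [this, zero_mul]
        · exact if_neg h
      simp only [h0, tsum_zero]
      exact zero_le
  refine (ENNReal.tsum_le_tsum main).trans ?_
  rw [ENNReal.tsum_add, ENNReal.tsum_add, ENNReal.tsum_mul_left, ENNReal.tsum_mul_left]
  refine add_le_add (add_le_add ?_ ?_) ?_
  · refine mul_le_mul_right ?_ _
    calc ∑' x, ZZ ν R' Deep Low (tra x E)
        = ∑' ρ, ∑' x, (if ρ ∈ DT R' Deep Low (tra x E) then aw ν ρ else 0) := by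
          unfold ZZ; exact ENNReal.tsum_comm
      _ ≤ ∑' ρ, (if ρ ∈ DS R' Deep Low then aw ν ρ else 0) * E.card := by
          refine ENNReal.tsum_le_tsum fun ρ => ?_
          by_cases hρ : ρ ∈ DS R' Deep Low
          · rw [if_pos hρ]
            calc ∑' x, (if ρ ∈ DT R' Deep Low (tra x E) then aw ν ρ else 0)
                ≤ ∑' x, (aw ν ρ * (if endp 0 ρ - x ∈ E then 1 else 0)) := by
                  refine ENNReal.tsum_le_tsum fun x => ?_
                  by_cases h : ρ ∈ DT R' Deep Low (tra x E)
                  · rw [if_pos h, if_pos (show endp 0 ρ - x ∈ E from h.2), mul_one]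
                  · rw [if_neg h]; exact zero_le
              _ = aw ν ρ * ∑' x, (if endp 0 ρ - x ∈ E then 1 else 0) := ENNReal.tsum_mul_left
              _ = aw ν ρ * ∑' y, (if y ∈ E then 1 else 0) := by
                  congr 1
                  exact (Equiv.subLeft (endp 0 ρ)).tsum_eq
                    (fun y => if y ∈ E then (1 : ℝ≥0∞) else 0)
              _ = aw ν ρ * E.card := by
                  congr 1
                  rw [tsum_eq_sum (s := E) (fun y hy => if_neg hy)]
                  rw [Finset.sum_ite_mem, Finset.inter_self, Finset.sum_const, nsmul_eq_mul,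
                    mul_one]
          · rw [if_neg hρ, zero_mul]
            refine le_of_eq (ENNReal.tsum_eq_zero.2 fun x => if_neg fun h => hρ h.1)
      _ = (∑' ρ, (if ρ ∈ DS R' Deep Low then aw ν ρ else 0)) * E.card := ENNReal.tsum_mul_right
      _ ≤ us * E.card := by gcongr
      _ = _ := mul_comm _ _
  · refine le_trans (mul_le_mul_right ?_ _) (le_of_eq (mul_one _))
    calc ∑' x, NN ν B (wt x) [] = ∑' ρ, ∑' x, (if ρ ∈ B then wt x ρ * aw ν ρ else 0) := by
          unfold NN; simp only [List.nil_append]; exact ENNReal.tsum_comm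
      _ ≤ ∑' ρ, (if ρ ∈ B then aw ν ρ else 0) := by
          refine ENNReal.tsum_le_tsum fun ρ => ?_
          by_cases hρ : ρ ∈ B
          · simp only [hρ, if_true, hwt]
            rw [ENNReal.tsum_mul_right, tsum_sub]
            calc _ ≤ 1 * aw ν ρ := by gcongr
              _ = _ := one_mul _
          · simp [hρ]
      _ ≤ 1 := tsum_aw_le_one ν hB
  · rw [ENNReal.tsum_comm]
    calc ∑' γ, ∑' x, (if γ ∈ WS R (E : Set (Site d)) 0 then aw ν γ else 0) *
          ∑' π, (if π ∈ B ∧ Rt R' Deep Low π then aw ν π else 0) * μ (x - endp 0 π)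
        = ∑' γ, (if γ ∈ WS R (E : Set (Site d)) 0 then aw ν γ else 0) *
          ∑' π, (if π ∈ B ∧ Rt R' Deep Low π then aw ν π else 0) * ∑' x, μ x := by
          refine tsum_congr fun γ => ?_
          rw [ENNReal.tsum_mul_left, ENNReal.tsum_comm]
          congr 1
          refine tsum_congr fun π => ?_
          rw [ENNReal.tsum_mul_left, tsum_sub]
      _ ≤ ∑' γ, (if γ ∈ WS R (E : Set (Site d)) 0 then aw ν γ else 0) * us := by
          refine ENNReal.tsum_le_tsum fun γ => mul_le_mul_right ?_ _
          rw [ENNReal.tsum_mul_right]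
          calc _ ≤ us * 1 := by
                refine mul_le_mul' ?_ hμ
                obtain ⟨S, hS⟩ : ∃ S : Set (List (Step d)),
                  S = {π | π ∈ B ∧ Rt R' Deep Low π} := ⟨_, rfl⟩
                have e : ∀ π : List (Step d), (if π ∈ B ∧ Rt R' Deep Low π then aw ν π else 0)
                    = if π ∈ S then aw ν π else 0 := by
                  intro π
                  by_cases h : π ∈ B ∧ Rt R' Deep Low π
                  · rw [if_pos h, if_pos (by rw [hS]; exact h)]
                  · rw [if_neg h, if_neg (by rw [hS]; exact h)]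
                rw [tsum_congr e]
                refine le_trans (tsum_aw_cover ν (S' := DS R' Deep Low)
                  (pf_mono (fun _ h => by rw [hS] at h; exact h.1) hB)
                  (fun g hg => ?_)) hus
                rw [hS] at hg
                obtain ⟨p, q, h1, h2⟩ := hg.2
                exact ⟨p, q, h1, h2⟩
            _ = us := mul_one _
      _ = (∑' γ, (if γ ∈ WS R (E : Set (Site d)) 0 then aw ν γ else 0)) * us :=
          ENNReal.tsum_mul_right
      _ ≤ 1 * us := by gcongr; exact tsum_aw_le_one ν hWS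
      _ = us := one_mul _

end Crest.Agent.R154.TwoW185
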