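import Crest.Agent.R154.TwoWe_185
import Crest.Agent.R154.Us_109
import Crest.Agent.R154.WLit_763

/-! Row 154, ROAD 801, window lemmas in words (helper185), part f: 763's `H3P` (Y local, X anything),
in the non-strict form (`h ≤ h' + δ`). -/

set_option autoImplicit false

namespace Crest.Agent.R154.TwoW185

open MeasureTheory ProbabilityTheory Crest.ProbabilityR.RandomEnvironment Crest.Agent.R154
open Crest.Agent.R154.Flux132 (lev opp)
open Crest.Agent.R154.Flux566 (lw endp sitesL)
open Crest.Agent.R154.NB28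
open scoped ENNReal
open Classical

variable {d : ℕ}

lemma lev_sub' (u : Step d) (x y : Site d) : lev u (x - y) = lev u x - lev u y := by
  unfold lev; split_ifs <;> simp; ring

lemma lev_add' (u : Step d) (x y : Site d) : lev u (x + y) = lev u x + lev u y := by
  unfold lev; split_ifs <;> simp; ring

lemma pf_isUp (u : Step d) (h : ℕ) : PF {π : List (Step d) | IsUp u h π} := by
  refine pf_mono (T := WS {y | lev u y < h} {y | lev u y = h} 0) ?_ (pf_WS ?_ 0)
  · intro π hπ
    exact ⟨fun y hy => (hπ.1 y hy).2, hπ.2⟩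
  · rw [Set.disjoint_left]
    intro y hy hy'
    simp only [Set.mem_ofPred_eq] at hy hy'
    omega

/-- **763's `H3P`** -/
theorem h3P (ν : Measure (Row d)) [IsProbabilityMeasure ν]
    (hν : ∀ᵐ p ∂ν, ∀ e : Step d, 0 < p.1 e) (u : Step d)
    (hesc : annealed (iidEnvironmentLaw ν) 0 (escapeEvent (B2d.dirVec u)) ≠ 0) :
    WL763.H3P ν u := by
  refine ⟨4, by norm_num, fun r0 η hη => ?_⟩
  obtain ⟨s0, hs0⟩ := Us109.us_zero ν hν u hesc 0 η hη
  refine ⟨s0, fun s hs h h' δ E μ M lam hδ1 hδ2 hh1 hh2 hμ hM hMt hsupp hl0 hl1 => ?_⟩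
  set R' : Set (Site d) := {y | 0 ≤ lev u y} with hR'
  set Deep : Set (Site d) := {y | (s : ℤ) ≤ lev u y} with hDeep
  set Low : Set (Site d) := {y | lev u y ≤ (h : ℤ) - δ - h'} with hLow
  set R : Set (Site d) := {y | -(h' : ℤ) < lev u y} with hR
  set X0 : Set (Site d) := {x | lev u x = (h : ℤ) - δ} with hX0
  set E' : Finset (Site d) := E.filter fun z => lev u z = -(h' : ℤ) with hE'
  set B : Set (List (Step d)) := {π | IsUp u h π} with hB
  have hus : ∑' ρ, (if ρ ∈ DS R' Deep Low then aw ν ρ else 0) ≤ η := by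
    refine hs0 s hs (DS R' Deep Low) ?_ ?_
    · intro l hl l' hl' hpre
      obtain ⟨c, rfl⟩ := hpre
      rw [pf_DS R' Deep Low l c hl hl', List.append_nil]
    · rintro ρ ⟨a, b, rfl, h1, h2, h3⟩
      refine ⟨⟨a, b, rfl, fun y hy => h1 y hy, h2.2⟩, ?_⟩
      rw [endp_append]
      have h4 : lev u (endp (endp 0 a) b) ≤ (h : ℤ) - δ - h' := h3.2
      have : (h : ℤ) ≤ h' + δ := by exact_mod_cast hh1
      show lev u (endp (endp 0 a) b) ≤ 0
      omega
  have key := H3g ν (R' := R') (Deep := Deep) (Low := Low) (R := R) (E := E') (X0 := X0)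
    (fun z hz hzR => by
      have h1 := (Finset.mem_filter.1 hz).2
      have h2 : -(h' : ℤ) < lev u z := hzR
      omega)
    (fun x hx z hz => by
      have h1 := (Finset.mem_filter.1 hz).2
      have h2 : lev u x = (h : ℤ) - δ := hx
      show lev u (x + z) ≤ (h : ℤ) - δ - h'
      rw [lev_add']; omega)
    (fun x hx z hz hL => by
      have h1 : -(h' : ℤ) < lev u z := hz
      have h2 : lev u x = (h : ℤ) - δ := hx
      have h3 : lev u (x + z) ≤ (h : ℤ) - δ - h' := hL
      rw [lev_add'] at h3; omega)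
    (pf_isUp u h) (B := B) (fun π hπ y hy => (hπ.1 y hy).1) hμ hM hMt
    (fun x π hπ hne => by
      have h1 := hsupp _ hne
      rw [lev_sub'] at h1
      have h2 : lev u (endp 0 π) = h := hπ.2
      show lev u x = (h : ℤ) - δ
      omega)
    hl0 hl1 hus
  have hcard : (E'.card : ℝ≥0∞) ≤ E.card := by exact_mod_cast Finset.card_filter_le _ _
  have hr : M / lam * (E'.card * η) + 4 * lam + η ≤ 4 * (lam + M * E.card * η / lam + η) := by
    have e1 : M / lam * (E'.card * η) ≤ M * E.card * η / lam := by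
      calc M / lam * (E'.card * η) ≤ M / lam * (E.card * η) := by gcongr
        _ = _ := by rw [div_eq_mul_inv, div_eq_mul_inv]; ring
    have e2 : ∀ a : ℝ≥0∞, a ≤ 4 * a := fun a => by
      calc a = 1 * a := (one_mul a).symm
        _ ≤ 4 * a := by gcongr; norm_num
    calc _ ≤ 4 * (M * E.card * η / lam) + 4 * lam + 4 * η := by
          refine add_le_add (add_le_add (e1.trans (e2 _)) le_rfl) (e2 _)
      _ = _ := by ring
  refine le_trans (le_trans ?_ key) hr
  calc ∑' x, μ x * ∑' π : List (Step d), ∑' γ : List (Step d),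
        (if IsUp u h π ∧ endp 0 γ ∈ E ∧ IsDn u h' γ ∧
            (∃ y, y ∈ sitesL (-endp 0 π) π ∧ y ∈ sitesL x γ) ∧
            (∀ y, y ∈ sitesL (-endp 0 π) π → y ∈ sitesL x γ → -(h : ℤ) + s ≤ lev u y)
          then aw ν π * aw ν γ else 0)
      = ∑' π : List (Step d), ∑' x, μ x * ∑' γ : List (Step d),
        (if IsUp u h π ∧ endp 0 γ ∈ E ∧ IsDn u h' γ ∧
            (∃ y, y ∈ sitesL (-endp 0 π) π ∧ y ∈ sitesL x γ) ∧
            (∀ y, y ∈ sitesL (-endp 0 π) π → y ∈ sitesL x γ → -(h : ℤ) + s ≤ lev u y)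
          then aw ν π * aw ν γ else 0) := by
        rw [ENNReal.tsum_comm]
        exact tsum_congr fun x => ENNReal.tsum_mul_left.symm
    _ = ∑' π : List (Step d), ∑' x, μ (x - endp 0 π) * ∑' γ : List (Step d),
        (if IsUp u h π ∧ endp 0 γ ∈ E ∧ IsDn u h' γ ∧
            (∃ y, y ∈ sitesL (-endp 0 π) π ∧ y ∈ sitesL (x - endp 0 π) γ) ∧
            (∀ y, y ∈ sitesL (-endp 0 π) π → y ∈ sitesL (x - endp 0 π) γ →
              -(h : ℤ) + s ≤ lev u y)
          then aw ν π * aw ν γ else 0) := by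
        refine tsum_congr fun π => ?_
        exact ((Equiv.subRight (endp 0 π)).tsum_eq (fun x => μ x * ∑' γ : List (Step d),
          (if IsUp u h π ∧ endp 0 γ ∈ E ∧ IsDn u h' γ ∧
            (∃ y, y ∈ sitesL (-endp 0 π) π ∧ y ∈ sitesL x γ) ∧
            (∀ y, y ∈ sitesL (-endp 0 π) π → y ∈ sitesL x γ → -(h : ℤ) + s ≤ lev u y)
          then aw ν π * aw ν γ else 0))).symm
    _ = ∑' x, ∑' π : List (Step d), ∑' γ : List (Step d), μ (x - endp 0 π) *
        (if IsUp u h π ∧ endp 0 γ ∈ E ∧ IsDn u h' γ ∧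
            (∃ y, y ∈ sitesL (-endp 0 π) π ∧ y ∈ sitesL (x - endp 0 π) γ) ∧
            (∀ y, y ∈ sitesL (-endp 0 π) π → y ∈ sitesL (x - endp 0 π) γ →
              -(h : ℤ) + s ≤ lev u y)
          then aw ν π * aw ν γ else 0) := by
        rw [ENNReal.tsum_comm]
        exact tsum_congr fun x => tsum_congr fun π => ENNReal.tsum_mul_left.symm
    _ ≤ ∑' x, ∑' π : List (Step d), ∑' γ : List (Step d),
        (if γ ∈ WS R E' 0 ∧ π ∈ B ∧ Hit Deep x γ π
        then μ (x - endp 0 π) * (aw ν γ * aw ν π) else 0) := by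
        refine ENNReal.tsum_le_tsum fun x => ENNReal.tsum_le_tsum fun π =>
          ENNReal.tsum_le_tsum fun γ => ?_
        by_cases hc : IsUp u h π ∧ endp 0 γ ∈ E ∧ IsDn u h' γ ∧
            (∃ y, y ∈ sitesL (-endp 0 π) π ∧ y ∈ sitesL (x - endp 0 π) γ) ∧
            (∀ y, y ∈ sitesL (-endp 0 π) π → y ∈ sitesL (x - endp 0 π) γ →
              -(h : ℤ) + s ≤ lev u y)
        · rw [if_pos hc]
          obtain ⟨hup, hE, hdn, ⟨y, hy1, hy2⟩, hall⟩ := hc
          have t1 : ∀ y : Site d, y ∈ sitesL (-endp 0 π) π ↔ y + endp 0 π ∈ sitesL 0 π := by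
            intro y
            rw [mem_sitesL_add, sub_neg_eq_add]
          have t2 : ∀ y : Site d, y ∈ sitesL (x - endp 0 π) γ ↔ y + endp 0 π ∈ sitesL x γ := by
            intro y
            rw [mem_sitesL_add, mem_sitesL_add (x := x),
              show y - (x - endp 0 π) = y + endp 0 π - x by abel]
          have hcond : γ ∈ WS R E' 0 ∧ π ∈ B ∧ Hit Deep x γ π := by
            refine ⟨⟨fun z hz => (hdn.1 z hz).1, ?_⟩, hup, ⟨y + endp 0 π, (t2 y).1 hy2,
              (t1 y).1 hy1⟩, ?_⟩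
            · exact Finset.mem_coe.2 (Finset.mem_filter.2 ⟨hE, hdn.2⟩)
            · intro z hz1 hz2
              have h1 := hall (z - endp 0 π) ((t1 _).2 (by rwa [sub_add_cancel]))
                ((t2 _).2 (by rwa [sub_add_cancel]))
              rw [lev_sub'] at h1
              have h2 : lev u (endp 0 π) = h := hup.2
              show (s : ℤ) ≤ lev u z
              omega
          rw [if_pos hcond]
          exact le_of_eq (by ring)
        · rw [if_neg hc, mul_zero]; exact zero_le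
    _ = _ := tsum_congr fun x => ENNReal.tsum_comm

end Crest.Agent.R154.TwoW185
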