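import Crest.Agent.R154.ConvDens_225

/-! Row 154 (helper225), ROAD 801: one window. Two independent piece sequences, `j` pieces above the
window; weight of the contact of the two pieces of index `j`. -/

set_option autoImplicit false

namespace Crest.Agent.R154.Cd225

open scoped ENNReal
open Crest.Agent.R154.B5A

variable {G : Type*} [AddCommGroup G]

open Classical in
/-- only the `X`-density is used -/
theorem one_side (PX PY A Bb : ℕ × G → ℝ≥0∞) (R : Finset ℕ)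
    (hPX : ∑' v, PX v ≤ 1) (hPY : ∑' v, PY v ≤ 1)
    (hRX : ∀ v, v.1 ∉ R → PX v = 0) (hRY : ∀ v, v.1 ∉ R → PY v = 0)
    (hsp : ∀ v, PX v ≤ A v + Bb v) (hA : ∀ v, A v ≤ PX v) (M β : ℝ≥0∞)
    (hM : ∀ v, A v ≤ M) (hB : ∑' v, Bb v ≤ β)
    (Φ : ℕ → ℕ → G → ℝ≥0∞) (hΦ : ∀ a a' x, Φ a a' x ≤ 1) (D : ℝ≥0∞)
    (hD : ∀ a ∈ R, ∀ a' ∈ R, ∀ μ : G → ℝ≥0∞, ∑' x, μ x ≤ 1 → (∀ x, μ x ≤ M) →
      ∑' x, μ x * Φ a a' x ≤ D) (w : G) :
    ∑' v, ∑' v', PX v * (PY v' * Φ v.1 v'.1 (w + v'.2 - v.2)) ≤ β + R.card * (R.card * D) := by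
  have h0 : ∀ v v' : ℕ × G, PX v * (PY v' * Φ v.1 v'.1 (w + v'.2 - v.2))
      ≤ Bb v * PY v' + A v * (PY v' * Φ v.1 v'.1 (w + v'.2 - v.2)) := by
    intro v v'
    calc PX v * (PY v' * Φ v.1 v'.1 (w + v'.2 - v.2))
        ≤ (A v + Bb v) * (PY v' * Φ v.1 v'.1 (w + v'.2 - v.2)) := mul_le_mul_left (hsp v) _
      _ = Bb v * (PY v' * Φ v.1 v'.1 (w + v'.2 - v.2))
          + A v * (PY v' * Φ v.1 v'.1 (w + v'.2 - v.2)) := by rw [add_mul, add_comm]
      _ ≤ _ := by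
          refine add_le_add (mul_le_mul_right ?_ _) le_rfl
          calc PY v' * Φ v.1 v'.1 (w + v'.2 - v.2) ≤ PY v' * 1 := mul_le_mul_right (hΦ _ _ _) _
            _ = PY v' := mul_one _
  refine (ENNReal.tsum_le_tsum fun v => ENNReal.tsum_le_tsum fun v' => h0 v v').trans ?_
  simp_rw [ENNReal.tsum_add]
  refine add_le_add ?_ ?_
  · simp_rw [ENNReal.tsum_mul_left, ENNReal.tsum_mul_right]
    calc (∑' v, Bb v) * ∑' v, PY v ≤ β * 1 := mul_le_mul' hB hPY
      _ = β := mul_one _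
  · have hAR : ∀ v : ℕ × G, v.1 ∉ R → A v = 0 := fun v hv =>
      le_antisymm ((hA v).trans (hRX v hv).le) zero_le
    have e1 : ∑' v : ℕ × G, ∑' v' : ℕ × G, A v * (PY v' * Φ v.1 v'.1 (w + v'.2 - v.2))
        = ∑ a ∈ R, ∑ a' ∈ R, ∑' z : G, ∑' z' : G,
          A (a, z) * (PY (a', z') * Φ a a' (w + z' - z)) := by
      rw [ENNReal.tsum_prod' (f := fun v : ℕ × G => ∑' v' : ℕ × G,
        A v * (PY v' * Φ v.1 v'.1 (w + v'.2 - v.2)))]
      rw [tsum_eq_sum (s := R)]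
      · refine Finset.sum_congr rfl fun a _ => ?_
        have e2 : ∀ z : G, ∑' v' : ℕ × G, A (a, z) * (PY v' * Φ a v'.1 (w + v'.2 - z))
            = ∑ a' ∈ R, ∑' z' : G, A (a, z) * (PY (a', z') * Φ a a' (w + z' - z)) := by
          intro z
          rw [ENNReal.tsum_prod' (f := fun v' : ℕ × G => A (a, z) *
            (PY v' * Φ a v'.1 (w + v'.2 - z)))]
          rw [tsum_eq_sum (s := R)]
          intro a' ha'
          simp [hRY (a', _) ha']
        simp_rw [e2]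
        exact Summable.tsum_finsetSum (fun _ _ => ENNReal.summable)
      · intro a ha
        simp [hAR (a, _) ha]
    rw [e1]
    have key : ∀ a ∈ R, ∀ a' ∈ R, ∑' z : G, ∑' z' : G,
        A (a, z) * (PY (a', z') * Φ a a' (w + z' - z)) ≤ D := by
      intro a ha a' ha'
      have e3 : ∑' z : G, ∑' z' : G, A (a, z) * (PY (a', z') * Φ a a' (w + z' - z))
          = ∑' x : G, (∑' z' : G, PY (a', z') * A (a, w + z' - x)) * Φ a a' x := by
        rw [ENNReal.tsum_comm]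
        simp_rw [← ENNReal.tsum_mul_right]
        rw [ENNReal.tsum_comm (f := fun x z' => PY (a', z') * A (a, w + z' - x) * Φ a a' x)]
        refine tsum_congr fun z' => ?_
        rw [← (Equiv.subLeft (w + z')).tsum_eq]
        refine tsum_congr fun x => ?_
        simp only [Equiv.subLeft_apply]
        rw [sub_sub_cancel]
        ring
      rw [e3]
      have s1 : ∀ (P : ℕ × G → ℝ≥0∞) (a : ℕ), ∑' v, P v ≤ 1 → ∑' z, P (a, z) ≤ 1 := by
        intro P a h
        refine le_trans ?_ h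
        rw [ENNReal.tsum_prod' (f := P)]
        exact ENNReal.le_tsum a
      refine hD a ha a' ha' _ ?_ ?_
      · rw [ENNReal.tsum_comm]
        simp_rw [ENNReal.tsum_mul_left]
        have : ∀ z' : G, ∑' x, A (a, w + z' - x) = ∑' z, A (a, z) := fun z' =>
          (Equiv.subLeft (w + z')).tsum_eq (fun z => A (a, z))
        simp_rw [this]
        rw [ENNReal.tsum_mul_right]
        exact mul_le_one' (s1 PY a' hPY) (s1 A a ((ENNReal.tsum_le_tsum hA).trans hPX))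
      · intro x
        calc ∑' z', PY (a', z') * A (a, w + z' - x) ≤ ∑' z', PY (a', z') * M :=
              ENNReal.tsum_le_tsum fun z' => mul_le_mul_right (hM _) _
          _ = (∑' z', PY (a', z')) * M := ENNReal.tsum_mul_right
          _ ≤ 1 * M := mul_le_mul_left (s1 PY a' hPY) _
          _ = M := one_mul _
    calc ∑ a ∈ R, ∑ a' ∈ R, ∑' z : G, ∑' z' : G,
          A (a, z) * (PY (a', z') * Φ a a' (w + z' - z))
        ≤ ∑ a ∈ R, ∑ a' ∈ R, D :=
          Finset.sum_le_sum fun a ha => Finset.sum_le_sum fun a' ha' => key a ha a' ha'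
      _ = R.card * (R.card * D) := by simp [Finset.sum_const, nsmul_eq_mul]

open Classical in
/-- only the `Y`-density is used -/
theorem one_side' (PX PY A Bb : ℕ × G → ℝ≥0∞) (R : Finset ℕ)
    (hPX : ∑' v, PX v ≤ 1) (hPY : ∑' v, PY v ≤ 1)
    (hRX : ∀ v, v.1 ∉ R → PX v = 0) (hRY : ∀ v, v.1 ∉ R → PY v = 0)
    (hsp : ∀ v, PY v ≤ A v + Bb v) (hA : ∀ v, A v ≤ PY v) (M β : ℝ≥0∞)
    (hM : ∀ v, A v ≤ M) (hB : ∑' v, Bb v ≤ β)
    (Φ : ℕ → ℕ → G → ℝ≥0∞) (hΦ : ∀ a a' x, Φ a a' x ≤ 1) (D : ℝ≥0∞)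
    (hD : ∀ a ∈ R, ∀ a' ∈ R, ∀ μ : G → ℝ≥0∞, ∑' x, μ x ≤ 1 → (∀ x, μ x ≤ M) →
      ∑' x, μ x * Φ a a' x ≤ D) (w : G) :
    ∑' v, ∑' v', PX v * (PY v' * Φ v.1 v'.1 (w + v'.2 - v.2)) ≤ β + R.card * (R.card * D) := by
  have h := one_side PY PX A Bb R hPY hPX hRY hRX hsp hA M β hM hB
    (fun a' a x => Φ a a' (-x)) (fun _ _ _ => hΦ _ _ _) D
    (by
      intro a' ha' a ha μ h1 h2
      have e := (Equiv.neg G).tsum_eq (fun x => μ (-x) * Φ a a' x)
      simp only [Equiv.neg_apply, neg_neg] at e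
      rw [e]
      refine hD a ha a' ha' (fun x => μ (-x)) ?_ (fun x => h2 _)
      have e2 := (Equiv.neg G).tsum_eq μ
      simp only [Equiv.neg_apply] at e2
      rw [e2]; exact h1) (-w)
  refine le_trans (le_of_eq ?_) h
  rw [ENNReal.tsum_comm]
  refine tsum_congr fun v' => tsum_congr fun v => ?_
  have : -(-w + v.2 - v'.2) = w + v'.2 - v.2 := by abel
  rw [this, mul_left_comm]

variable {CX CY : Type*}

open Classical in
/-- **ONE WINDOW**: `j` pieces above, one piece of each walker in the window. -/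
theorem window (lX : CX → ℝ≥0∞) (lY : CY → ℝ≥0∞) (fX : CX → ℕ × G) (fY : CY → ℕ × G)
    (hX : ∑' b, lX b ≤ 1) (hY : ∑' b, lY b ≤ 1) (j : ℕ) (u q thX thY : ℝ≥0∞)
    (locX : CX → Prop) (locY : CY → Prop) [DecidablePred locX] [DecidablePred locY]
    (cc : ℕ → ℕ → G → CX → CY → ℝ≥0∞) (hcc : ∀ a a' x A A', cc a a' x A A' ≤ 1)
    (R : Finset ℕ) (hRX : ∀ v : ℕ × G, v.1 ∉ R → Pj lX fX j v = 0)
    (hRY : ∀ v : ℕ × G, v.1 ∉ R → Pj lY fY j v = 0)
    (hnX : ∑' A, (if locX A then 0 else lX A) ≤ u) (hnY : ∑' A, (if locY A then 0 else lY A) ≤ u)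
    (hqX : ∑' b, (if thX < pl lX fX (fX b) then lX b else 0) ≤ q)
    (hqY : ∑' b, (if thY < pl lY fY (fY b) then lY b else 0) ≤ q) (D : ℝ≥0∞)
    (hDX : ∀ a ∈ R, ∀ a' ∈ R, ∀ μ : G → ℝ≥0∞, ∑' x, μ x ≤ 1 →
      (∀ x, μ x ≤ thX * ∑ l ∈ Finset.range j, q ^ l) →
      ∑' x, μ x * (∑' A, ∑' A', (if locX A then lX A * (lY A' * cc a a' x A A') else 0)) ≤ D)
    (hDY : ∀ a ∈ R, ∀ a' ∈ R, ∀ μ : G → ℝ≥0∞, ∑' x, μ x ≤ 1 →
      (∀ x, μ x ≤ thY * ∑ l ∈ Finset.range j, q ^ l) →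
      ∑' x, μ x * (∑' A, ∑' A', (if locY A' then lX A * (lY A' * cc a a' x A A') else 0)) ≤ D)
    (w : G) :
    SL lX j (fun P => SL lY j (fun P' => ∑' A, ∑' A', lX A * (lY A' *
      cc (P.map fX).sum.1 (P'.map fY).sum.1 (w + (P'.map fY).sum.2 - (P.map fX).sum.2) A A')))
    ≤ u * u + 2 * (q ^ j + R.card * (R.card * D)) := by
  set ΦX : ℕ → ℕ → G → ℝ≥0∞ := fun a a' x =>
    ∑' A, ∑' A', (if locX A then lX A * (lY A' * cc a a' x A A') else 0) with hΦX
  set ΦY : ℕ → ℕ → G → ℝ≥0∞ := fun a a' x =>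
    ∑' A, ∑' A', (if locY A' then lX A * (lY A' * cc a a' x A A') else 0) with hΦY
  have hprod : ∑' A, ∑' A', lX A * lY A' ≤ 1 := by
    simp_rw [ENNReal.tsum_mul_left, ENNReal.tsum_mul_right]
    exact mul_le_one' hX hY
  have b1 : ∀ a a' x A A', lX A * (lY A' * cc a a' x A A') ≤ lX A * lY A' := fun a a' x A A' =>
    mul_le_mul_right ((mul_le_mul_right (hcc _ _ _ _ _) _).trans (mul_one _).le) _
  have hΦX1 : ∀ a a' x, ΦX a a' x ≤ 1 := fun a a' x => by
    refine le_trans (ENNReal.tsum_le_tsum fun A => ENNReal.tsum_le_tsum fun A' => ?_) hprod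
    split_ifs
    · exact b1 _ _ _ _ _
    · exact zero_le
  have hΦY1 : ∀ a a' x, ΦY a a' x ≤ 1 := fun a a' x => by
    refine le_trans (ENNReal.tsum_le_tsum fun A => ENNReal.tsum_le_tsum fun A' => ?_) hprod
    split_ifs
    · exact b1 _ _ _ _ _
    · exact zero_le
  have hΦ : ∀ a a' x, ∑' A, ∑' A', lX A * (lY A' * cc a a' x A A')
      ≤ u * u + (ΦX a a' x + ΦY a a' x) := by
    intro a a' x
    have : ∀ A A', lX A * (lY A' * cc a a' x A A')
        ≤ (if locX A then 0 else lX A) * (if locY A' then 0 else lY A')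
          + ((if locX A then lX A * (lY A' * cc a a' x A A') else 0)
          + (if locY A' then lX A * (lY A' * cc a a' x A A') else 0)) := by
      intro A A'
      by_cases h1 : locX A
      · simp [h1]
      · by_cases h2 : locY A'
        · simp [h1, h2]
        · simp only [h1, h2, if_false, add_zero]
          exact b1 _ _ _ _ _
    refine (ENNReal.tsum_le_tsum fun A => ENNReal.tsum_le_tsum fun A' => this A A').trans ?_
    simp_rw [ENNReal.tsum_add]
    refine add_le_add ?_ le_rfl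
    simp_rw [ENNReal.tsum_mul_left, ENNReal.tsum_mul_right]
    exact mul_le_mul' hnX hnY
  have hPX : ∑' v, Pj lX fX j v ≤ 1 := by rw [tsum_Pj]; exact pow_le_one₀ zero_le hX
  have hPY : ∑' v, Pj lY fY j v ≤ 1 := by rw [tsum_Pj]; exact pow_le_one₀ zero_le hY
  have conv : ∀ Φ : ℕ → ℕ → G → ℝ≥0∞, SL lX j (fun P => SL lY j (fun P' =>
      Φ (P.map fX).sum.1 (P'.map fY).sum.1 (w + (P'.map fY).sum.2 - (P.map fX).sum.2)))
      = ∑' v, ∑' v', Pj lX fX j v * (Pj lY fY j v' * Φ v.1 v'.1 (w + v'.2 - v.2)) := by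
    intro Φ
    have e : ∀ P : List CX, SL lY j (fun P' =>
        Φ (P.map fX).sum.1 (P'.map fY).sum.1 (w + (P'.map fY).sum.2 - (P.map fX).sum.2))
        = (fun v : ℕ × G => ∑' v', Pj lY fY j v' * Φ v.1 v'.1 (w + v'.2 - v.2))
          (P.map fX).sum := by
      intro P
      exact tsum_Pj_mul lY fY j (fun v' => Φ (P.map fX).sum.1 v'.1 (w + v'.2 - (P.map fX).sum.2))
    simp_rw [e]
    rw [tsum_Pj_mul lX fX j (fun v : ℕ × G => ∑' v', Pj lY fY j v' * Φ v.1 v'.1 (w + v'.2 - v.2))]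
    refine tsum_congr fun v => ?_
    rw [← ENNReal.tsum_mul_left]
  have step : SL lX j (fun P => SL lY j (fun P' => ∑' A, ∑' A', lX A * (lY A' *
      cc (P.map fX).sum.1 (P'.map fY).sum.1 (w + (P'.map fY).sum.2 - (P.map fX).sum.2) A A')))
      ≤ SL lX j (fun P => SL lY j (fun P' => u * u))
        + (SL lX j (fun P => SL lY j (fun P' =>
          ΦX (P.map fX).sum.1 (P'.map fY).sum.1 (w + (P'.map fY).sum.2 - (P.map fX).sum.2)))
        + SL lX j (fun P => SL lY j (fun P' =>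
          ΦY (P.map fX).sum.1 (P'.map fY).sum.1 (w + (P'.map fY).sum.2 - (P.map fX).sum.2)))) := by
    rw [← SL_add_fun, ← SL_add_fun]
    refine SL_mono lX j fun P _ => ?_
    rw [← SL_add_fun, ← SL_add_fun]
    exact SL_mono lY j fun P' _ => hΦ _ _ _
  refine step.trans ?_
  refine add_le_add ?_ ?_
  · have h1 : SL lY j (fun _ => u * u) ≤ u * u := by
      have := SL_const_mul lY j (u * u) (fun _ => 1)
      simp only [mul_one] at this
      rw [this, SL_pow]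
      calc u * u * (∑' b, lY b) ^ j ≤ u * u * 1 := mul_le_mul_right (pow_le_one₀ zero_le hY) _
        _ = _ := mul_one _
    calc SL lX j (fun P => SL lY j (fun P' => u * u)) ≤ SL lX j (fun _ => u * u) :=
          SL_mono lX j fun _ _ => h1
      _ ≤ u * u := by
          have := SL_const_mul lX j (u * u) (fun _ => 1)
          simp only [mul_one] at this
          rw [this, SL_pow]
          calc u * u * (∑' b, lX b) ^ j ≤ u * u * 1 := mul_le_mul_right (pow_le_one₀ zero_le hX) _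
            _ = _ := mul_one _
  · rw [two_mul]
    refine add_le_add ?_ ?_
    · rw [conv ΦX]
      obtain ⟨A, Bb, g1, g2, g3, g4⟩ := conv_dens lX fX hX thX q hqX j
      exact one_side (Pj lX fX j) (Pj lY fY j) A Bb R hPX hPY hRX hRY g1 g2 _ _ g3 g4
        ΦX hΦX1 D hDX w
    · rw [conv ΦY]
      obtain ⟨A, Bb, g1, g2, g3, g4⟩ := conv_dens lY fY hY thY q hqY j
      exact one_side' (Pj lX fX j) (Pj lY fY j) A Bb R hPX hPY hRX hRY g1 g2 _ _ g3 g4
        ΦY hΦY1 D hDY w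

end Crest.Agent.R154.Cd225
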