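import Crest.Agent.R154.RatioS_775

/-!
Row 154 (helper916), route 32 (#34250), leaf (2) `Typ`: literal interface.

`FS A`: for a start law `μ` and increasing levels `l 0 ≤ l 1 ≤ ..` there are random weights `W i`
at the levels `l i` (mass of the paths which climb naturally from level `0` to `l i` and for which
none of the climbs `l i' → l (i' + 1)`, `i' < i`, started at the first hitting time of `l i'`, is
natural), such that the mass which reaches `b` and not `e` is a sum of long failures and of `W n`.
-/

set_option autoImplicit false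
set_option linter.unusedSectionVars false
set_option linter.deprecated false

namespace Crest.Agent.R154.Typ916

open MeasureTheory ProbabilityTheory Set Filter Finset
open Crest.Agent.R154.RatioR872 Crest.Agent.R154.RatioR872.KerSys
open scoped ENNReal

variable {S : Type*} {Ω : Type*} {m0 : MeasurableSpace Ω} {P : Measure Ω}

/-- failure sequences of a kernel system -/
def FS (A : KerSys S P) : Prop :=
  ∀ μ, A.Start μ → ∀ l : ℕ → ℕ, Monotone l → ∃ W : ℕ → Ω → S → ℝ≥0∞,
    (∀ i, A.Wt (l i) (W i)) ∧ (∀ ω, tot (W 0) ω = A.Sh μ (l 0) ω) ∧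
    (∀ i ω, tot (W (i + 1)) ω + tot (A.push (l i) (l (i + 1)) (W i)) ω ≤ tot (W i) ω) ∧
    (∀ n b e ω, l n ≤ b → b ≤ e → A.Sh μ b ω ≤ A.Sh μ e ω +
      ∑ i ∈ Finset.range n, (tot (A.push (l i) (l (i + 1)) (W i)) ω
        - tot (A.push (l i) e (W i)) ω) + tot (W n) ω)

end Crest.Agent.R154.Typ916
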