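import Crest.Agent.R154.TypDefs_916

/-!
Row 154 (helper916), route 32 (#34250), leaf (2) `Typ`, abstract half: from the failure sequences
`FS A` and a bound `f` for the loss of the annealed natural climbs in the window of heights
`g .. e - a0`, any past of the rows below `a0`:
`P (B ∩ {ε Sh b ≤ Sh b - Sh e}) ≤ ((1 - p/2)^J + J 4 f / p + J 4 (J f + (1-p)^J) / (ε p)) P B`,
`a0 + 2 J g ≤ b ≤ e`.
-/

set_option autoImplicit false
set_option linter.unusedSectionVars false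
set_option linter.deprecated false

namespace Crest.Agent.R154.Typ916

open MeasureTheory ProbabilityTheory Set Filter Finset
open Crest.Agent.R154.RatioR872 Crest.Agent.R154.RatioR872.KerSys Crest.Agent.R154.RatioS775
open scoped ENNReal

variable {S : Type*} [Countable S] {Ω : Type*} {m0 : MeasurableSpace Ω} {P : Measure Ω}

/-- the long failures and the all short failures after level `l0` -/
theorem long_short [IsProbabilityMeasure P] (A : KerSys S P) (hFS : FS A) {p : ℝ≥0∞}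
    (hp : ∀ n, p ≤ A.h n) (hh : ∀ n, A.h n ≤ 1)
    (hpos : ∀ μ, A.Start μ → ∀ h, ∀ᵐ ω ∂P, A.Sh μ h ω ≠ 0)
    {f : ℝ≥0∞} {g J l0 b e : ℕ} (hg : 0 < g) (hb : l0 + J * g ≤ b) (hbe : b ≤ e)
    (hf : ∀ m, g ≤ m → m ≤ e - l0 → A.h g ≤ A.h m + f)
    {μ : S → ℝ≥0∞} (hμ : A.Start μ) {B : Set Ω} (hB : MeasurableSet[A.F l0] B)
    {c : ℝ≥0∞} (hc0 : c ≠ 0) (hct : c ≠ ∞) :
    P (B ∩ {ω | c * A.Sh μ l0 ω ≤ A.Sh μ b ω - A.Sh μ e ω})
      ≤ c⁻¹ * ((J * f + (1 - p) ^ J) * P B) := by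
  classical
  have hB0 : MeasurableSet B := A.F.le l0 _ hB
  set l : ℕ → ℕ := fun i => l0 + i * g with hl
  have hlm : Monotone l := fun i j hij => by
    simp only [hl]
    exact Nat.add_le_add_left (Nat.mul_le_mul_right _ hij) _
  have hl00 : l 0 = l0 := by simp [hl]
  have hls : ∀ j, l (j + 1) - l j = g := fun j => by
    have : l (j + 1) = l j + g := by simp only [hl]; ring
    omega
  obtain ⟨W, hW, hW0, hW1, hW2⟩ := hFS μ hμ l hlm
  -- the weight
  set φ : Ω → ℝ≥0∞ := fun ω => B.indicator (1 : Ω → ℝ≥0∞) ω * (A.Sh μ l0 ω)⁻¹ with hφdef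
  have hφ0 : Measurable[A.F l0] φ :=
    ((@measurable_one _ _ _ (A.F l0) _).indicator hB).mul (meas_Sh hμ l0).inv
  have hφi : ∀ i, Measurable[A.F (l i)] φ := fun i => hφ0.mono (A.F.mono (by
    simp only [hl]; exact Nat.le_add_right _ _)) le_rfl
  have hφm : Measurable φ := hφ0.mono (A.F.le l0) le_rfl
  have htm : ∀ i, Measurable (tot (W i)) := fun i =>
    ((hW i).meas_tot).mono (A.F.le _) le_rfl
  set E : ℕ → ℝ≥0∞ := fun i => ∫⁻ ω, φ ω * tot (W i) ω ∂P with hE
  have hE0 : E 0 ≤ P B := by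
    calc E 0 ≤ ∫⁻ ω, B.indicator (1 : Ω → ℝ≥0∞) ω ∂P := by
          refine lintegral_mono fun ω => ?_
          show φ ω * tot (W 0) ω ≤ _
          rw [hW0 ω, hl00, hφdef]
          show B.indicator (1 : Ω → ℝ≥0∞) ω * (A.Sh μ l0 ω)⁻¹ * A.Sh μ l0 ω ≤ _
          rw [mul_assoc]
          calc B.indicator (1 : Ω → ℝ≥0∞) ω * ((A.Sh μ l0 ω)⁻¹ * A.Sh μ l0 ω)
              ≤ B.indicator (1 : Ω → ℝ≥0∞) ω * 1 := by
                gcongr
                exact ENNReal.inv_mul_le_one _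
            _ = _ := mul_one _
      _ = P B := lintegral_indicator_one hB0
  have hstep : ∀ i, E (i + 1) + A.h g * E i ≤ E i := by
    intro i
    have h1 := first_moment (hlm (Nat.le_succ i)) (hW i) (hφi i)
    rw [hls] at h1
    have hm1 : Measurable fun ω => φ ω * tot (W (i + 1)) ω := hφm.mul (htm (i + 1))
    show ∫⁻ ω, φ ω * tot (W (i + 1)) ω ∂P + A.h g * ∫⁻ ω, φ ω * tot (W i) ω ∂P ≤ _
    rw [← h1, ← lintegral_add_left hm1]
    refine lintegral_mono fun ω => ?_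
    show φ ω * tot (W (i + 1)) ω + φ ω * tot (A.push (l i) (l (i + 1)) (W i)) ω ≤ φ ω * tot (W i) ω
    rw [← mul_add]
    gcongr
    exact hW1 i ω
  have hEB : ∀ i, E i ≤ P B := by
    intro i
    induction i with
    | zero => exact hE0
    | succ i ih => exact (le_self_add.trans (hstep i)).trans ih
  have hEt : ∀ i, E i ≠ ∞ := fun i => ne_top_of_le_ne_top (measure_ne_top _ _) (hEB i)
  have hEp : ∀ i, E i ≤ (1 - p) ^ i * P B := by
    intro i
    induction i with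
    | zero => simpa using hE0
    | succ i ih =>
      have h1 : E (i + 1) + p * E i ≤ E i := by
        refine le_trans ?_ (hstep i)
        gcongr
        exact hp g
      have hpt : p ≠ ∞ := ne_top_of_le_ne_top ENNReal.one_ne_top ((hp 0).trans (hh 0))
      have h2 : E (i + 1) ≤ E i - p * E i :=
        ENNReal.le_sub_of_add_le_right (ENNReal.mul_ne_top hpt (hEt i)) h1
      calc E (i + 1) ≤ E i - p * E i := h2
        _ = (1 - p) * E i := by
            rw [ENNReal.sub_mul (fun _ _ => hEt i), one_mul]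
        _ ≤ (1 - p) * ((1 - p) ^ i * P B) := by gcongr
        _ = (1 - p) ^ (i + 1) * P B := by ring
  -- one long failure
  have hlong : ∀ i, i < J → ∫⁻ ω, φ ω * (tot (A.push (l i) (l (i + 1)) (W i)) ω
      - tot (A.push (l i) e (W i)) ω) ∂P ≤ f * P B := by
    intro i hi
    have hlie : l (i + 1) ≤ e := by
      have : l (i + 1) ≤ l J := hlm (by omega)
      have h2 : l J = l0 + J * g := rfl
      omega
    have hlii : l i ≤ l (i + 1) := hlm (Nat.le_succ i)
    have h1 := first_moment hlii (hW i) (hφi i)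
    have h2 := first_moment (hlii.trans hlie) (hW i) (hφi i)
    rw [hls] at h1
    have hm2 : Measurable (tot (A.push (l i) e (W i))) :=
      (((hW i).push (hlii.trans hlie)).meas_tot).mono (A.F.le e) le_rfl
    have hfin : ∫⁻ ω, φ ω * tot (A.push (l i) e (W i)) ω ∂P ≠ ∞ := by
      rw [h2]
      exact ENNReal.mul_ne_top (ne_top_of_le_ne_top ENNReal.one_ne_top (hh _)) (hEt i)
    have h3 : ∫⁻ ω, φ ω * tot (A.push (l i) e (W i)) ω ∂P +
        ∫⁻ ω, φ ω * (tot (A.push (l i) (l (i + 1)) (W i)) ω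
          - tot (A.push (l i) e (W i)) ω) ∂P
        ≤ ∫⁻ ω, φ ω * tot (A.push (l i) e (W i)) ω ∂P + f * P B := by
      have hm3 : Measurable fun ω => φ ω * tot (A.push (l i) e (W i)) ω := hφm.mul hm2
      rw [← lintegral_add_left hm3]
      calc ∫⁻ ω, (φ ω * tot (A.push (l i) e (W i)) ω +
            φ ω * (tot (A.push (l i) (l (i + 1)) (W i)) ω
              - tot (A.push (l i) e (W i)) ω)) ∂P
          = ∫⁻ ω, φ ω * tot (A.push (l i) (l (i + 1)) (W i)) ω ∂P := by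
            refine lintegral_congr fun ω => ?_
            rw [← mul_add, add_tsub_cancel_of_le (tot_push_anti A hlii hlie (W i) ω)]
        _ = A.h g * E i := h1
        _ ≤ (A.h (e - l i) + f) * E i := by
            gcongr
            refine hf _ ?_ ?_
            · have := hls i; omega
            · have h5 : l0 ≤ l i := by simp only [hl]; exact Nat.le_add_right _ _
              omega
        _ = A.h (e - l i) * E i + f * E i := by ring
        _ ≤ ∫⁻ ω, φ ω * tot (A.push (l i) e (W i)) ω ∂P + f * P B := by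
            rw [h2]
            gcongr
            exact hEB i
    exact (ENNReal.add_le_add_iff_left hfin).1 h3
  -- the total
  set Qf : Ω → ℝ≥0∞ := fun ω => ∑ i ∈ Finset.range J, (tot (A.push (l i) (l (i + 1)) (W i)) ω
        - tot (A.push (l i) e (W i)) ω) + tot (W J) ω with hQ
  have hQe : ∀ ω, A.Sh μ b ω - A.Sh μ e ω ≤ Qf ω := by
    intro ω
    rw [tsub_le_iff_left, hQ]
    have h1 := hW2 J b e ω (by simpa [hl] using hb) hbe
    rw [← add_assoc]
    exact h1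
  have hQi : ∫⁻ ω, φ ω * Qf ω ∂P ≤ (J * f + (1 - p) ^ J) * P B := by
    have hmi : ∀ i ∈ Finset.range J, Measurable fun ω => φ ω *
        (tot (A.push (l i) (l (i + 1)) (W i)) ω - tot (A.push (l i) e (W i)) ω) := by
      intro i hi
      have hi' := Finset.mem_range.1 hi
      have hlii : l i ≤ l (i + 1) := hlm (Nat.le_succ i)
      have hlie : l (i + 1) ≤ e := by
        have : l (i + 1) ≤ l J := hlm (by omega)
        have h2 : l J = l0 + J * g := rfl
        omega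
      exact hφm.mul ((((hW i).push hlii).meas_tot.mono (A.F.le _) le_rfl).sub
        (((hW i).push (hlii.trans hlie)).meas_tot.mono (A.F.le _) le_rfl))
    calc ∫⁻ ω, φ ω * Qf ω ∂P
        = ∫⁻ ω, (∑ i ∈ Finset.range J, φ ω * (tot (A.push (l i) (l (i + 1)) (W i)) ω
            - tot (A.push (l i) e (W i)) ω) + φ ω * tot (W J) ω) ∂P := by
          refine lintegral_congr fun ω => ?_
          rw [hQ, mul_add, Finset.mul_sum]
      _ = ∑ i ∈ Finset.range J, ∫⁻ ω, φ ω * (tot (A.push (l i) (l (i + 1)) (W i)) ω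
            - tot (A.push (l i) e (W i)) ω) ∂P + E J := by
          have hmJ : Measurable fun ω => φ ω * tot (W J) ω := hφm.mul (htm J)
          rw [lintegral_add_right _ hmJ, lintegral_finset_sum _ hmi]
      _ ≤ ∑ i ∈ Finset.range J, f * P B + (1 - p) ^ J * P B := by
          gcongr with i hi
          · exact hlong i (Finset.mem_range.1 hi)
          · exact hEp J
      _ = _ := by
          rw [Finset.sum_const, Finset.card_range, nsmul_eq_mul]
          ring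
  -- Markov
  have hmarkov : c * P (B ∩ {ω | c * A.Sh μ l0 ω ≤ A.Sh μ b ω - A.Sh μ e ω})
      ≤ (J * f + (1 - p) ^ J) * P B := by
    refine le_trans ?_ hQi
    have hSm : ∀ h, Measurable (A.Sh μ h) := fun h => (meas_Sh hμ h).mono (A.F.le h) le_rfl
    have hms : MeasurableSet (B ∩ {ω | c * A.Sh μ l0 ω ≤ A.Sh μ b ω - A.Sh μ e ω}) :=
      hB0.inter (measurableSet_le ((hSm l0).const_mul c) ((hSm b).sub (hSm e)))
    calc c * P (B ∩ {ω | c * A.Sh μ l0 ω ≤ A.Sh μ b ω - A.Sh μ e ω})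
        = ∫⁻ ω, c * (B ∩ {ω | c * A.Sh μ l0 ω ≤ A.Sh μ b ω - A.Sh μ e ω}).indicator 1 ω ∂P := by
          rw [lintegral_const_mul _ (measurable_one.indicator hms),
            lintegral_indicator_one hms]
      _ ≤ ∫⁻ ω, φ ω * Qf ω ∂P := by
          refine lintegral_mono_ae ?_
          filter_upwards [hpos μ hμ l0] with ω hω
          by_cases h : ω ∈ B ∩ {ω | c * A.Sh μ l0 ω ≤ A.Sh μ b ω - A.Sh μ e ω}
          · rw [indicator_of_mem h, Pi.one_apply, mul_one, hφdef]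
            show c ≤ B.indicator (1 : Ω → ℝ≥0∞) ω * (A.Sh μ l0 ω)⁻¹ * Qf ω
            rw [indicator_of_mem h.1, Pi.one_apply, one_mul]
            have hSt : A.Sh μ l0 ω ≠ ∞ :=
              ne_top_of_le_ne_top ENNReal.one_ne_top (Sh_le_one hμ l0 ω)
            have h1 : c * A.Sh μ l0 ω ≤ Qf ω := le_trans h.2 (hQe ω)
            calc c = (A.Sh μ l0 ω)⁻¹ * (c * A.Sh μ l0 ω) := by
                  rw [mul_comm c, ← mul_assoc, ENNReal.inv_mul_cancel hω hSt, one_mul]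
              _ ≤ (A.Sh μ l0 ω)⁻¹ * Qf ω := by gcongr
          · rw [indicator_of_notMem h, mul_zero]
            exact zero_le
  calc P (B ∩ {ω | c * A.Sh μ l0 ω ≤ A.Sh μ b ω - A.Sh μ e ω})
      = c⁻¹ * (c * P (B ∩ {ω | c * A.Sh μ l0 ω ≤ A.Sh μ b ω - A.Sh μ e ω})) := by
        rw [← mul_assoc, ENNReal.inv_mul_cancel hc0 hct, one_mul]
    _ ≤ _ := by gcongr

/-- **(t), abstract, any past of the rows below `a0`.** -/
theorem typ_core [IsProbabilityMeasure P] (A : KerSys S P) (hFS : FS A) {p : ℝ≥0∞} (hp0 : p ≠ 0)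
    (hp : ∀ n, p ≤ A.h n) (hh : ∀ n, A.h n ≤ 1)
    (hpos : ∀ μ, A.Start μ → ∀ h, ∀ᵐ ω ∂P, A.Sh μ h ω ≠ 0)
    {f : ℝ≥0∞} {g J a0 b e : ℕ} (hg : 0 < g) (hb : a0 + 2 * J * g ≤ b) (hbe : b ≤ e)
    (hf : ∀ m, g ≤ m → m ≤ e - a0 → A.h g ≤ A.h m + f)
    {μ : S → ℝ≥0∞} (hμ : A.Start μ) {B : Set Ω} (hB : MeasurableSet[A.F a0] B)
    {ε : ℝ≥0∞} (hε0 : ε ≠ 0) (hεt : ε ≠ ∞) :
    P (B ∩ {ω | ε * A.Sh μ b ω ≤ A.Sh μ b ω - A.Sh μ e ω})
      ≤ ((1 - p / 2) ^ J + J * (4 * f / p) +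
          J * ((ε * (p / 4))⁻¹ * (J * f + (1 - p) ^ J))) * P B := by
  classical
  have hpt : p ≠ ∞ := ne_top_of_le_ne_top ENNReal.one_ne_top ((hp 0).trans (hh 0))
  have hp4 : p / 4 ≠ 0 := (ENNReal.div_pos hp0 (by norm_num)).ne'
  have hp4t : p / 4 ≠ ∞ := ENNReal.div_ne_top hpt (by norm_num)
  have hc0 : ε * (p / 4) ≠ 0 := mul_ne_zero hε0 hp4
  have hct : ε * (p / 4) ≠ ∞ := ENNReal.mul_ne_top hεt hp4t
  set lv : ℕ → ℕ := fun j => a0 + j * g with hlv
  have hlvm : Monotone lv := fun i j hij => by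
    simp only [hlv]
    exact Nat.add_le_add_left (Nat.mul_le_mul_right _ hij) _
  have hlv0 : lv 0 = a0 := by simp [hlv]
  have hlvs : ∀ j, lv (j + 1) = lv j + g := fun j => by simp only [hlv]; ring
  have hlvb : ∀ j, j ≤ J → lv j + J * g ≤ b := by
    intro j hj
    simp only [hlv]
    have : j * g ≤ J * g := Nat.mul_le_mul_right _ hj
    have h2 : 2 * J * g = J * g + J * g := by ring
    omega
  have hlvb' : ∀ j, j < J → lv (j + 1) ≤ b := by
    intro j hj
    have h1 : lv (j + 1) ≤ lv J := hlvm (by omega)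
    have h2 := hlvb J le_rfl
    omega
  set w : ℕ → Ω → S → ℝ≥0∞ := fun j => A.exitW μ (lv j) with hw
  set Ev : ℕ → Set Ω := fun j => {ω | p / 2 ≤ tot (A.push (lv j) (lv (j + 1)) (w j)) ω} with hEv
  set Bd : ℕ → Set Ω := fun j => {ω | p / 2 ≤ tot (A.push (lv j) (lv (j + 1)) (w j)) ω ∧
    tot (A.push (lv j) b (w j)) ω < p / 4} with hBd
  set Lf : ℕ → Set Ω := fun j => {ω | ε * (p / 4) * A.Sh μ (lv j) ω ≤
    A.Sh μ b ω - A.Sh μ e ω} with hLf
  have hw1 : ∀ j, ∀ᵐ ω ∂P, tot (w j) ω = 1 := by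
    intro j
    filter_upwards [hpos μ hμ (lv j)] with ω hω
    exact tot_exitW_eq hμ _ ω hω
  have hwW : ∀ j, A.Wt (lv j) (w j) := fun j => wt_exitW hμ _
  have hwl : ∀ j ω, tot (w j) ω ≤ 1 := fun j ω => tot_exitW_le μ _ ω
  have hEm : ∀ j, MeasurableSet[A.F (lv (j + 1))] (Ev j) := by
    intro j
    have hm := ((hwW j).push (hlvm (Nat.le_succ j))).meas_tot
    exact @measurableSet_le _ _ _ _ _ (A.F (lv (j + 1))) _ _ _ _ _
      (@measurable_const _ _ _ (A.F (lv (j + 1))) _) hm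
  have h1 := (all_fail (P := P) A.F lv hlvm Ev hEm (q := p / 2) J (fun j _ B hB =>
    good_prob (hlvm (Nat.le_succ j)) (hwW j) (hw1 j) (hp _) (hwl j) hB)
    (B := B) (by rw [hlv0]; exact hB) J le_rfl).2
  have hBj : ∀ j, MeasurableSet[A.F (lv j)] B := fun j =>
    A.F.mono (by simp only [hlv]; exact Nat.le_add_right _ _) _ hB
  have h2 : ∀ j, j < J → P (B ∩ Bd j) ≤ 4 * f / p * P B := by
    intro j hj
    refine bad_first A (hlvm (Nat.le_succ j)) (hlvb' j hj) (hwW j) (hwl j) hh hp0 hpt ?_ (hBj j)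
    have e1 : lv (j + 1) - lv j = g := by have := hlvs j; omega
    rw [e1]
    have h5 := hlvb' j hj
    have h6 := hlvs j
    have h7 : a0 ≤ lv j := by simp only [hlv]; exact Nat.le_add_right _ _
    exact hf _ (by omega) (by omega)
  have h3 : ∀ j, j < J → P (B ∩ Lf j) ≤ (ε * (p / 4))⁻¹ * ((J * f + (1 - p) ^ J) * P B) := by
    intro j hj
    refine long_short A hFS hp hh hpos hg (hlvb j hj.le) hbe (fun m hm1 hm2 => hf m hm1 ?_) hμ
      (hBj j) hc0 hct
    have h7 : a0 ≤ lv j := by simp only [hlv]; exact Nat.le_add_right _ _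
    omega
  have hsub : (B ∩ {ω | ε * A.Sh μ b ω ≤ A.Sh μ b ω - A.Sh μ e ω} : Set Ω)
      ≤ᵐ[P] ((B ∩ ⋂ l ∈ Finset.range J, (Ev l)ᶜ) ∪ ((⋃ j ∈ Finset.range J, (B ∩ Bd j)) ∪
        ⋃ j ∈ Finset.range J, (B ∩ Lf j)) : Set Ω) := by
    have hall : ∀ᵐ ω ∂P, ∀ j ∈ Finset.range J, A.Sh μ (lv j) ω *
        tot (A.push (lv j) b (A.exitW μ (lv j))) ω ≤ A.Sh μ b ω := by
      rw [Finset.eventually_all]
      intro j hj
      have h5 := hlvb' j (Finset.mem_range.1 hj)
      have h6 := hlvs j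
      exact Sh_ge1 A hμ (by omega)
    filter_upwards [hall] with ω hω
    rintro ⟨hωB, hωS⟩
    by_contra hcon
    have hcon' : ¬ ((ω ∈ B ∩ ⋂ l ∈ Finset.range J, (Ev l)ᶜ) ∨
        ((ω ∈ ⋃ j ∈ Finset.range J, (B ∩ Bd j)) ∨ (ω ∈ ⋃ j ∈ Finset.range J, (B ∩ Lf j)))) := hcon
    rw [not_or, not_or] at hcon'
    obtain ⟨hc1, hc2, hc3⟩ := hcon'
    have hc4 : ∃ l ∈ Finset.range J, ω ∈ Ev l := by
      by_contra h
      refine hc1 ⟨hωB, ?_⟩
      simp only [mem_iInter, mem_compl_iff]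
      intro l hl hE'
      exact h ⟨l, hl, hE'⟩
    obtain ⟨l, hl, hEl⟩ := hc4
    have hBl : ω ∉ Bd l := fun h => hc2 (mem_biUnion (by exact_mod_cast hl) ⟨hωB, h⟩)
    have hLl : ω ∉ Lf l := fun h => hc3 (mem_biUnion (by exact_mod_cast hl) ⟨hωB, h⟩)
    have hm : p / 4 ≤ tot (A.push (lv l) b (w l)) ω := by
      by_contra h
      exact hBl ⟨hEl, not_le.1 h⟩
    have h5 := hω l hl
    refine hLl ?_
    show ε * (p / 4) * A.Sh μ (lv l) ω ≤ A.Sh μ b ω - A.Sh μ e ω
    calc ε * (p / 4) * A.Sh μ (lv l) ω = ε * (A.Sh μ (lv l) ω * (p / 4)) := by ring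
      _ ≤ ε * (A.Sh μ (lv l) ω * tot (A.push (lv l) b (w l)) ω) := by gcongr
      _ ≤ ε * A.Sh μ b ω := by gcongr
      _ ≤ _ := hωS
  calc P (B ∩ {ω | ε * A.Sh μ b ω ≤ A.Sh μ b ω - A.Sh μ e ω})
      ≤ P ((B ∩ ⋂ l ∈ Finset.range J, (Ev l)ᶜ) ∪ ((⋃ j ∈ Finset.range J, (B ∩ Bd j)) ∪
        ⋃ j ∈ Finset.range J, (B ∩ Lf j))) := measure_mono_ae hsub
    _ ≤ P (B ∩ ⋂ l ∈ Finset.range J, (Ev l)ᶜ) + (P (⋃ j ∈ Finset.range J, (B ∩ Bd j)) +
        P (⋃ j ∈ Finset.range J, (B ∩ Lf j))) :=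
        (measure_union_le _ _).trans (by gcongr; exact measure_union_le _ _)
    _ ≤ (1 - p / 2) ^ J * P B + (∑ j ∈ Finset.range J, P (B ∩ Bd j) +
        ∑ j ∈ Finset.range J, P (B ∩ Lf j)) := by
        gcongr
        · exact measure_biUnion_finset_le _ _
        · exact measure_biUnion_finset_le _ _
    _ ≤ (1 - p / 2) ^ J * P B + (∑ j ∈ Finset.range J, (4 * f / p * P B) +
        ∑ j ∈ Finset.range J, ((ε * (p / 4))⁻¹ * ((J * f + (1 - p) ^ J) * P B))) := by
        gcongr with j hj j hj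
        · exact h2 j (Finset.mem_range.1 hj)
        · exact h3 j (Finset.mem_range.1 hj)
    _ = _ := by
        rw [Finset.sum_const, Finset.sum_const, Finset.card_range, nsmul_eq_mul, nsmul_eq_mul]
        ring

end Crest.Agent.R154.Typ916
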