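import Crest.Agent.R154.Units_12

/-!
# Row 154 (helper12), HOME MASS (263): the iteration over epochs, second form

Bad ends at every level `t ∈ [1, N']`, one good end at `N'`, any horizon `N' ≤ N`; the conclusion is
at a deterministic level `g` for the mass inside the final columns `Col a`.
-/

set_option autoImplicit false
set_option linter.unusedSectionVars false
set_option linter.deprecated false
set_option linter.unusedVariables false

namespace Crest.Agent.R154.Units12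

open MeasureTheory ProbabilityTheory Set Filter
open Crest.Agent.R154.RatioR872 Crest.Agent.R154.RatioR872.KerSys
open scoped ENNReal

variable {S : Type*} [Countable S] {Ω : Type*} {m0 : MeasurableSpace Ω} {P : Measure Ω}
variable {ι : Type*} [Fintype ι]

/-- one epoch of the units, target level `g`: bad ends `Eb t` (`1 ≤ t ≤ N'`), good end `Eg` at the
horizon `N'`. -/
structure Ep2 (A : KerSys S P) (St : ℕ → ℕ → Set Ω → (ι → Ω → S → ℝ≥0∞) → Prop) (g N : ℕ)
    (θ : ℝ) (η Ks : ℝ≥0∞) : Prop where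
  meas : ∀ L s B w, St L s B w → MeasurableSet[A.F L] B ∧ (∀ a, A.Wt L (w a)) ∧
    ∀ ω ∈ B, ∀ a, tot (w a) ω = 1
  step : ∀ L s B w N', 1 ≤ N' → N' ≤ N → L + N' ≤ g → St L (s + 1) B w →
    ∃ (Eb : ℕ → Set Ω) (Eg : Set Ω) (w' : ℕ → ι → Ω → S → ℝ≥0∞) (wg : ι → Ω → S → ℝ≥0∞)
      (m : ℕ → ι → Ω → ℝ≥0∞) (mg : ι → Ω → ℝ≥0∞),
      (∀ t, 1 ≤ t → t ≤ N' → ∀ a, Measurable[A.F (L + t)] (m t a)) ∧
      (∀ a, Measurable[A.F (L + N')] (mg a)) ∧
      (∀ t, 1 ≤ t → t ≤ N' → St (L + t) s (B ∩ Eb t) (w' t)) ∧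
      St (L + N') s (B ∩ Eg) wg ∧
      (∀ t, 1 ≤ t → t ≤ N' → ∀ a ω, ω ∈ B ∩ Eb t → m t a ω ≠ 0) ∧
      (∀ a ω, ω ∈ B ∩ Eg → mg a ω ≠ 0) ∧
      (∀ᵐ ω ∂P, ω ∈ B → ω ∈ Eg ∨ ∃ t ∈ Finset.Icc 1 N', ω ∈ Eb t) ∧
      (∀ t, 1 ≤ t → t ≤ N' → ∀ a, ∀ᵐ ω ∂P, ω ∈ B ∩ Eb t →
        ∀ y, m t a ω * w' t a ω y ≤ A.push L (L + t) (w a) ω y) ∧
      (∀ a, ∀ᵐ ω ∂P, ω ∈ B ∩ Eg → ∀ y, mg a ω * wg a ω y ≤ A.push L (L + N') (w a) ω y) ∧
      (∀ Z : Ω → ℝ≥0∞, Measurable[A.F L] Z →
        ∑ t ∈ Finset.Icc 1 N', ∫⁻ ω in B ∩ Eb t, Z ω * (∏ a, m t a ω) ^ (-θ) ∂P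
          ≤ η * ∫⁻ ω in B, Z ω ∂P) ∧
      (∀ Z : Ω → ℝ≥0∞, Measurable[A.F L] Z →
        ∫⁻ ω in B ∩ Eg, Z ω * (∏ a, mg a ω) ^ (-θ) ∂P ≤ Ks * ∫⁻ ω in B, Z ω ∂P) ∧
      ∑ t ∈ Finset.Icc 1 N', P (B ∩ Eb t) ≤ η * P B

open Classical in
/-- mass of a unit inside its final column at level `g` (`1` for `L = g`) -/
noncomputable def MC (A : KerSys S P) (g : ℕ) (Col : Set S) (L : ℕ) (w : Ω → S → ℝ≥0∞) (ω : Ω) :
    ℝ≥0∞ :=
  if L = g then 1 else ∑' y, if y ∈ Col then A.push L g w ω y else 0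

variable {A : KerSys S P}

open Classical in
/-- restart at level `L + t ≤ g` -/
lemma MC_ge {g L t : ℕ} (ht : 1 ≤ t) (htg : L + t ≤ g) (Col : Set S) {w w' : Ω → S → ℝ≥0∞}
    {m : Ω → ℝ≥0∞} :
    ∀ᵐ ω ∂P, tot w ω = 1 → tot w' ω = 1 →
      (∀ y, m ω * w' ω y ≤ A.push L (L + t) w ω y) →
      (L + t = g → ∀ y, w' ω y ≠ 0 → y ∈ Col) →
      m ω * MC A g Col (L + t) w' ω ≤ MC A g Col L w ω ∧ m ω ≤ 1 := by
  filter_upwards [A.comp L (L + t) g (Nat.le_add_right _ _) htg] with ω hcomp h1 h2 h3 h4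
  have hm : m ω ≤ tot (A.push L (L + t) w) ω := by
    calc m ω = m ω * tot w' ω := by rw [h2, mul_one]
      _ = ∑' y, m ω * w' ω y := by rw [tot, ENNReal.tsum_mul_left]
      _ ≤ ∑' y, A.push L (L + t) w ω y := ENNReal.tsum_le_tsum h3
      _ = tot (A.push L (L + t) w) ω := rfl
  have hm1 : m ω ≤ 1 := hm.trans ((tot_push_le A (Nat.le_add_right _ _) w ω).trans h1.le)
  refine ⟨?_, hm1⟩
  have hLg : L ≠ g := by omega
  by_cases hg : L + t = g
  · simp only [MC, if_pos hg, if_neg hLg, mul_one]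
    calc m ω = m ω * tot w' ω := by rw [h2, mul_one]
      _ = ∑' y, m ω * w' ω y := by rw [tot, ENNReal.tsum_mul_left]
      _ ≤ ∑' y, if y ∈ Col then A.push L g w ω y else 0 := by
        refine ENNReal.tsum_le_tsum fun y => ?_
        by_cases hy : w' ω y = 0
        · rw [hy, mul_zero]; exact bot_le
        · rw [if_pos (h4 hg y hy), ← hg]
          exact h3 y
  · simp only [MC, if_neg hg, if_neg hLg]
    rw [← ENNReal.tsum_mul_left]
    refine ENNReal.tsum_le_tsum fun z => ?_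
    by_cases hz : z ∈ Col
    · simp only [if_pos hz]
      calc m ω * A.push (L + t) g w' ω z
          = ∑' y, (m ω * w' ω y) * A.G (L + t) g ω y z := by
            unfold KerSys.push
            rw [← ENNReal.tsum_mul_left]
            exact tsum_congr fun y => by ring
        _ ≤ ∑' y, A.push L (L + t) w ω y * A.G (L + t) g ω y z :=
            ENNReal.tsum_le_tsum fun y => mul_le_mul_left (h3 y) _
        _ = ∑' y, ∑' x, w ω x * (A.G L (L + t) ω x y * A.G (L + t) g ω y z) := by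
            refine tsum_congr fun y => ?_
            unfold KerSys.push
            rw [← ENNReal.tsum_mul_right]
            exact tsum_congr fun x => by ring
        _ = ∑' x, w ω x * ∑' y, A.G L (L + t) ω x y * A.G (L + t) g ω y z := by
            rw [ENNReal.tsum_comm]
            exact tsum_congr fun x => ENNReal.tsum_mul_left
        _ ≤ ∑' x, w ω x * A.G L g ω x z := by
            refine ENNReal.tsum_le_tsum fun x => mul_le_mul_right ?_ _
            exact hcomp x z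
        _ = A.push L g w ω z := rfl
    · simp only [if_neg hz, mul_zero, le_refl]

/-- **the iteration, second form** -/
theorem units2 {St : ℕ → ℕ → Set Ω → (ι → Ω → S → ℝ≥0∞) → Prop} {g N : ℕ} {θ : ℝ}
    {η Ks : ℝ≥0∞} (h : Ep2 A St g N θ η Ks) (hθ : 0 < θ) (hη0 : η ≠ 0) (hη : η ≤ 1 / 2)
    (hN : 1 ≤ N) (hKs : 1 ≤ Ks) (Col : ι → Set S)
    (hCol : ∀ s B w, St g s B w → ∀ ω ∈ B, ∀ a y, w a ω y ≠ 0 → y ∈ Col a) :
    ∀ s r L : ℕ, L ≤ g → g ≤ L + r * N → ∀ B w, St L s B w →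
      ∀ Z : Ω → ℝ≥0∞, Measurable[A.F L] Z →
      P (B ∩ {ω | ∏ a, MC A g (Col a) L (w a) ω ≤ Z ω}) ≤
        (2 * Ks) ^ r * ∫⁻ ω in B, Z ω ^ θ ∂P + (2 * η) ^ s * (1 / η) ^ r * P B := by
  have hηt : η ≠ ∞ := ne_top_of_le_ne_top (by simp) hη
  have hη1 : η ≤ 1 := hη.trans (by simp)
  have hinv : 1 ≤ 1 / η := by
    rw [one_div]
    exact ENNReal.one_le_inv.2 hη1
  intro s
  induction s with
  | zero =>
    intro r L hLg hn B w hS Z hZ
    calc P (B ∩ {ω | ∏ a, MC A g (Col a) L (w a) ω ≤ Z ω}) ≤ P B := measure_mono inter_subset_left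
      _ = 1 * 1 * P B := by ring
      _ ≤ (2 * η) ^ 0 * (1 / η) ^ r * P B := by
          gcongr
          · simp
          · exact one_le_pow₀ hinv
      _ ≤ _ := le_add_self
  | succ s ih =>
    intro r L hLg hn B w hS Z hZ
    obtain ⟨hB, hW, htot⟩ := h.meas L (s + 1) B w hS
    by_cases hn0 : L = g
    · -- nothing to climb
      have hZ0 : Measurable Z := hZ.mono (A.F.le L) le_rfl
      have hB0 : MeasurableSet B := A.F.le L _ hB
      have e1 : P (B ∩ {ω | ∏ a, MC A g (Col a) L (w a) ω ≤ Z ω}) ≤ ∫⁻ ω in B, Z ω ^ θ ∂P := by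
        have hset : MeasurableSet {ω | 1 ≤ Z ω} := measurableSet_le measurable_const hZ0
        calc P (B ∩ {ω | ∏ a, MC A g (Col a) L (w a) ω ≤ Z ω}) ≤ P ({ω | 1 ≤ Z ω} ∩ B) := by
              refine measure_mono fun ω hω => ⟨?_, hω.1⟩
              have := hω.2
              simpa [MC, hn0] using this
          _ = ∫⁻ ω in {ω | 1 ≤ Z ω} ∩ B, 1 ∂P := by simp
          _ = ∫⁻ ω in B, {ω | 1 ≤ Z ω}.indicator (fun _ => 1) ω ∂P := by
              rw [lintegral_indicator hset, Measure.restrict_restrict hset]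
          _ ≤ ∫⁻ ω in B, Z ω ^ θ ∂P := by
              refine lintegral_mono fun ω => ?_
              by_cases h1 : 1 ≤ Z ω
              · rw [indicator_of_mem (show ω ∈ {ω | 1 ≤ Z ω} from h1)]
                exact ENNReal.one_le_rpow h1 hθ
              · rw [indicator_of_notMem (show ω ∉ {ω | 1 ≤ Z ω} from h1)]
                exact bot_le
      refine (e1.trans ?_).trans le_self_add
      have h2 : (1 : ℝ≥0∞) ≤ (2 * Ks) ^ r := by
        refine one_le_pow₀ (hKs.trans ?_)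
        exact le_mul_of_one_le_left' one_le_two
      calc ∫⁻ ω in B, Z ω ^ θ ∂P = 1 * ∫⁻ ω in B, Z ω ^ θ ∂P := (one_mul _).symm
        _ ≤ _ := by gcongr
    · -- one epoch
      rcases r with _ | r
      · omega
      set N' := min N (g - L) with hN'
      have hN'1 : 1 ≤ N' := by omega
      have hN'N : N' ≤ N := min_le_left _ _
      have hN'g : L + N' ≤ g := by omega
      obtain ⟨Eb, Eg, w', wg, m, mg, hm, hmg, hSt, hStg, hm0, hmg0, hcov, hpush, hpushg, hA1,
        hA2, hA3⟩ := h.step L s B w N' hN'1 hN'N hN'g hS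
      have hZθ : Measurable[A.F L] fun ω => Z ω ^ θ := hZ.pow_const θ
      -- the new thresholds
      set Z' : ℕ → Ω → ℝ≥0∞ := fun t ω => Z ω * (∏ a, m t a ω)⁻¹ with hZ'
      set Zg : Ω → ℝ≥0∞ := fun ω => Z ω * (∏ a, mg a ω)⁻¹ with hZg
      have hZ'm : ∀ t, 1 ≤ t → t ≤ N' → Measurable[A.F (L + t)] (Z' t) := by
        intro t h1 h2
        refine (hZ.mono (A.F.mono (Nat.le_add_right _ _)) le_rfl).mul ?_
        exact (Finset.measurable_prod _ fun a _ => hm t h1 h2 a).inv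
      have hZgm : Measurable[A.F (L + N')] Zg := by
        refine (hZ.mono (A.F.mono (Nat.le_add_right _ _)) le_rfl).mul ?_
        exact (Finset.measurable_prod _ fun a _ => hmg a).inv
      have hZ'p : ∀ t ω, Z' t ω ^ θ = Z ω ^ θ * (∏ a, m t a ω) ^ (-θ) := by
        intro t ω
        rw [hZ', ENNReal.mul_rpow_of_nonneg _ _ hθ.le, ENNReal.inv_rpow, ENNReal.rpow_neg]
      have hZgp : ∀ ω, Zg ω ^ θ = Z ω ^ θ * (∏ a, mg a ω) ^ (-θ) := by
        intro ω
        rw [hZg, ENNReal.mul_rpow_of_nonneg _ _ hθ.le, ENNReal.inv_rpow, ENNReal.rpow_neg]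
      -- splitting
      have hsplit : P (B ∩ {ω | ∏ a, MC A g (Col a) L (w a) ω ≤ Z ω}) ≤
          P ((B ∩ Eg) ∩ {ω | ∏ a, MC A g (Col a) (L + N') (wg a) ω ≤ Zg ω}) +
          ∑ t ∈ Finset.Icc 1 N',
            P ((B ∩ Eb t) ∩ {ω | ∏ a, MC A g (Col a) (L + t) (w' t a) ω ≤ Z' t ω}) := by
        refine le_trans (measure_mono_ae ?_) ((measure_union_le _ _).trans
          (add_le_add le_rfl (measure_biUnion_finset_le _ _)))
        have hall : ∀ᵐ ω ∂P, ∀ t ∈ Finset.Icc 1 N', ∀ a, tot (w a) ω = 1 → tot (w' t a) ω = 1 →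
            (∀ y, m t a ω * w' t a ω y ≤ A.push L (L + t) (w a) ω y) →
            (L + t = g → ∀ y, w' t a ω y ≠ 0 → y ∈ Col a) →
            m t a ω * MC A g (Col a) (L + t) (w' t a) ω ≤ MC A g (Col a) L (w a) ω ∧
              m t a ω ≤ 1 := by
          rw [ae_all_iff]
          intro t
          by_cases ht : t ∈ Finset.Icc 1 N'
          · have ht1 := Finset.mem_Icc.1 ht
            have : ∀ᵐ ω ∂P, ∀ a, tot (w a) ω = 1 → tot (w' t a) ω = 1 →
              (∀ y, m t a ω * w' t a ω y ≤ A.push L (L + t) (w a) ω y) →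
              (L + t = g → ∀ y, w' t a ω y ≠ 0 → y ∈ Col a) →
              m t a ω * MC A g (Col a) (L + t) (w' t a) ω ≤ MC A g (Col a) L (w a) ω ∧
                m t a ω ≤ 1 := by
              rw [ae_all_iff]
              exact fun a => MC_ge ht1.1 (by omega) (Col a)
            filter_upwards [this] with ω hω _ using hω
          · exact Eventually.of_forall fun ω hh => absurd hh ht
        have hpa : ∀ᵐ ω ∂P, ∀ t, 1 ≤ t → t ≤ N' → ∀ a, ω ∈ B ∩ Eb t →
            ∀ y, m t a ω * w' t a ω y ≤ A.push L (L + t) (w a) ω y := by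
          rw [ae_all_iff]
          intro t
          by_cases ht : 1 ≤ t ∧ t ≤ N'
          · have := hpush t ht.1 ht.2
            rw [← ae_all_iff] at this
            filter_upwards [this] with ω hω _ _ using hω
          · exact Eventually.of_forall fun ω h1 h2 => absurd ⟨h1, h2⟩ ht
        have hgall : ∀ᵐ ω ∂P, ∀ a, tot (w a) ω = 1 → tot (wg a) ω = 1 →
            (∀ y, mg a ω * wg a ω y ≤ A.push L (L + N') (w a) ω y) →
            (L + N' = g → ∀ y, wg a ω y ≠ 0 → y ∈ Col a) →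
            mg a ω * MC A g (Col a) (L + N') (wg a) ω ≤ MC A g (Col a) L (w a) ω ∧
              mg a ω ≤ 1 := by
          rw [ae_all_iff]
          exact fun a => MC_ge hN'1 hN'g (Col a)
        have hgpa : ∀ᵐ ω ∂P, ∀ a, ω ∈ B ∩ Eg →
            ∀ y, mg a ω * wg a ω y ≤ A.push L (L + N') (w a) ω y := by
          rw [ae_all_iff]
          exact hpushg
        filter_upwards [hcov, hall, hpa, hgall, hgpa] with ω h1 h2 h3 h2g h3g
        rintro ⟨hωB, hω⟩
        rcases h1 hωB with hEg | ⟨t, ht, htE⟩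
        · left
          obtain ⟨_, _, htot'⟩ := h.meas _ _ _ _ hStg
          refine ⟨⟨hωB, hEg⟩, ?_⟩
          have h4 : ∀ a, mg a ω * MC A g (Col a) (L + N') (wg a) ω ≤ MC A g (Col a) L (w a) ω ∧
              mg a ω ≤ 1 := fun a =>
            h2g a (htot ω hωB a) (htot' ω ⟨hωB, hEg⟩ a) (h3g a ⟨hωB, hEg⟩) (fun hg' y hy => by
              rw [hg'] at hStg
              exact hCol _ _ _ hStg ω ⟨hωB, hEg⟩ a y hy)
          have h5 : (∏ a, mg a ω) * ∏ a, MC A g (Col a) (L + N') (wg a) ω ≤ Z ω := by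
            rw [← Finset.prod_mul_distrib]
            exact (Finset.prod_le_prod' fun a _ => (h4 a).1).trans hω
          have h6 : (∏ a, mg a ω) ≠ 0 := Finset.prod_ne_zero_iff.2 fun a _ => hmg0 a ω ⟨hωB, hEg⟩
          have h7 : (∏ a, mg a ω) ≠ ∞ :=
            ne_top_of_le_ne_top ENNReal.one_ne_top (Finset.prod_le_one' fun a _ => (h4 a).2)
          change ∏ a, MC A g (Col a) (L + N') (wg a) ω ≤ Z ω * (∏ a, mg a ω)⁻¹
          rw [← div_eq_mul_inv, ENNReal.le_div_iff_mul_le (Or.inl h6) (Or.inl h7), mul_comm]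
          exact h5
        · right
          have ht' := Finset.mem_Icc.1 ht
          have hStt := hSt t ht'.1 ht'.2
          obtain ⟨_, _, htot'⟩ := h.meas _ _ _ _ hStt
          refine mem_iUnion₂.2 ⟨t, ht, ⟨hωB, htE⟩, ?_⟩
          have h4 : ∀ a, m t a ω * MC A g (Col a) (L + t) (w' t a) ω ≤ MC A g (Col a) L (w a) ω ∧
              m t a ω ≤ 1 := fun a =>
            h2 t ht a (htot ω hωB a) (htot' ω ⟨hωB, htE⟩ a)
              (h3 t ht'.1 ht'.2 a ⟨hωB, htE⟩) (fun hg' y hy => by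
              rw [hg'] at hStt
              exact hCol _ _ _ hStt ω ⟨hωB, htE⟩ a y hy)
          have h5 : (∏ a, m t a ω) * ∏ a, MC A g (Col a) (L + t) (w' t a) ω ≤ Z ω := by
            rw [← Finset.prod_mul_distrib]
            exact (Finset.prod_le_prod' fun a _ => (h4 a).1).trans hω
          have h6 : (∏ a, m t a ω) ≠ 0 :=
            Finset.prod_ne_zero_iff.2 fun a _ => hm0 t ht'.1 ht'.2 a ω ⟨hωB, htE⟩
          have h7 : (∏ a, m t a ω) ≠ ∞ :=
            ne_top_of_le_ne_top ENNReal.one_ne_top (Finset.prod_le_one' fun a _ => (h4 a).2)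
          change ∏ a, MC A g (Col a) (L + t) (w' t a) ω ≤ Z ω * (∏ a, m t a ω)⁻¹
          rw [← div_eq_mul_inv, ENNReal.le_div_iff_mul_le (Or.inl h6) (Or.inl h7), mul_comm]
          exact h5
      have hN1 : P ((B ∩ Eg) ∩ {ω | ∏ a, MC A g (Col a) (L + N') (wg a) ω ≤ Zg ω}) ≤
          (2 * Ks) ^ r * (Ks * ∫⁻ ω in B, Z ω ^ θ ∂P) + (2 * η) ^ s * (1 / η) ^ r * P B := by
        have hgr : g ≤ L + N' + r * N := by
          have : (r + 1) * N = r * N + N := by ring
          rcases le_total N (g - L) with h1 | h1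
          · have : N' = N := min_eq_left h1
            omega
          · have : N' = g - L := min_eq_right h1
            omega
        have := ih r (L + N') hN'g hgr (B ∩ Eg) wg hStg Zg hZgm
        simp only [hZgp] at this
        refine this.trans ?_
        gcongr
        · exact hA2 _ hZθ
        · exact inter_subset_left
      have hN2 : ∑ t ∈ Finset.Icc 1 N',
          P ((B ∩ Eb t) ∩ {ω | ∏ a, MC A g (Col a) (L + t) (w' t a) ω ≤ Z' t ω}) ≤
          (2 * Ks) ^ (r + 1) * (η * ∫⁻ ω in B, Z ω ^ θ ∂P) +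
            (2 * η) ^ s * (1 / η) ^ (r + 1) * (η * P B) := by
        calc _ ≤ ∑ t ∈ Finset.Icc 1 N', ((2 * Ks) ^ (r + 1) *
              ∫⁻ ω in B ∩ Eb t, Z ω ^ θ * (∏ a, m t a ω) ^ (-θ) ∂P +
              (2 * η) ^ s * (1 / η) ^ (r + 1) * P (B ∩ Eb t)) := by
              refine Finset.sum_le_sum fun t ht => ?_
              have ht' := Finset.mem_Icc.1 ht
              have := ih (r + 1) (L + t) (by omega) (by omega) (B ∩ Eb t) (w' t)
                (hSt t ht'.1 ht'.2) (Z' t) (hZ'm t ht'.1 ht'.2)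
              simpa only [hZ'p] using this
          _ ≤ _ := by
              rw [Finset.sum_add_distrib, ← Finset.mul_sum, ← Finset.mul_sum]
              gcongr
              exact hA1 _ hZθ
      refine hsplit.trans ((add_le_add hN1 hN2).trans ?_)
      set I := ∫⁻ ω in B, Z ω ^ θ ∂P
      have hηinv : 1 / η * η = 1 := by
        rw [one_div]
        exact ENNReal.inv_mul_cancel hη0 hηt
      have e3 : (2 * η) ^ s * (1 / η) ^ (r + 1) * (η * P B) = (2 * η) ^ s * (1 / η) ^ r * P B := by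
        calc _ = (2 * η) ^ s * (1 / η) ^ r * (1 / η * η) * P B := by ring
          _ = _ := by rw [hηinv, mul_one]
      have e4 : (2 * η) ^ (s + 1) * (1 / η) ^ (r + 1) * P B
          = 2 * ((2 * η) ^ s * (1 / η) ^ r * P B) := by
        calc _ = 2 * ((2 * η) ^ s * (1 / η) ^ r * (1 / η * η) * P B) := by ring
          _ = _ := by rw [hηinv, mul_one]
      rw [e3, e4]
      have e5 : (2 * Ks) ^ r * (Ks * I) + (2 * Ks) ^ (r + 1) * (η * I)
          ≤ (2 * Ks) ^ (r + 1) * I := by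
        calc _ ≤ (2 * Ks) ^ r * (Ks * I) + (2 * Ks) ^ (r + 1) * (1 / 2 * I) := by gcongr
          _ = (2 * Ks) ^ r * (Ks * I) + (2 * Ks) ^ r * Ks * I * (2 * (1 / 2)) := by ring
          _ = (2 * Ks) ^ r * (Ks * I) + (2 * Ks) ^ r * Ks * I := by
              rw [one_div, ENNReal.mul_inv_cancel (by norm_num) (by norm_num), mul_one]
          _ = (2 * Ks) ^ (r + 1) * I := by ring
      calc _ = ((2 * Ks) ^ r * (Ks * I) + (2 * Ks) ^ (r + 1) * (η * I)) +
            2 * ((2 * η) ^ s * (1 / η) ^ r * P B) := by ring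
        _ ≤ _ := by gcongr

end Crest.Agent.R154.Units12
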