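import Crest.Agent.R154.Home_903

/-!
# Row 154 (helper12), HOME MASS (263), leaf HM3a: the iteration over epochs, LOCATED form

`R s x y` = "the exit `y` is reachable from the start `x` with `s` epochs" (e.g.
`|φ y - φ x| ≤ s * D`). One epoch (`EpL.step`) exists for every horizon `1 ≤ N' ≤ N`: it ends early
(`t < N'`, total weight `η`) or at the horizon (`t = N'`, weight `Ks`). Conclusion (`unitsL`) for the
located masses `tot (rpush A (R s) L (L + n) (w a))`.
-/

set_option autoImplicit false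
set_option linter.unusedSectionVars false
set_option linter.deprecated false
set_option linter.unusedVariables false

namespace Crest.Agent.R154.Units12

open MeasureTheory ProbabilityTheory Set Filter
open Crest.Agent.R154.RatioR872 Crest.Agent.R154.RatioR872.KerSys
open Crest.Agent.R154.Home903 (rpush tot_rpush tot_rpush_le)
open scoped ENNReal

variable {S : Type*} [Countable S] {Ω : Type*} {m0 : MeasurableSpace Ω} {P : Measure Ω}
variable {ι : Type*} [Fintype ι]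

/-- one epoch of the units, located masses, every horizon `1 ≤ N' ≤ N` -/
structure EpL (A : KerSys S P) (St : ℕ → ℕ → Set Ω → (ι → Ω → S → ℝ≥0∞) → Prop)
    (R : ℕ → S → S → Prop) (N : ℕ) (θ : ℝ) (η Ks : ℝ≥0∞) : Prop where
  meas : ∀ L s B w, St L s B w → MeasurableSet[A.F L] B ∧ (∀ a, A.Wt L (w a)) ∧
    ∀ ω ∈ B, ∀ a, tot (w a) ω = 1
  step : ∀ L s B w N', 1 ≤ N' → N' ≤ N → St L (s + 1) B w →
    ∃ (E : ℕ → Set Ω) (w' : ℕ → ι → Ω → S → ℝ≥0∞) (m : ℕ → ι → Ω → ℝ≥0∞),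
      (∀ t, 1 ≤ t → t ≤ N' → ∀ a, Measurable[A.F (L + t)] (m t a)) ∧
      (∀ t, 1 ≤ t → t ≤ N' → St (L + t) s (B ∩ E t) (w' t)) ∧
      (∀ t, 1 ≤ t → t ≤ N' → ∀ a ω, ω ∈ B ∩ E t → m t a ω ≠ 0) ∧
      (∀ᵐ ω ∂P, ω ∈ B → ∃ t ∈ Finset.Icc 1 N', ω ∈ E t) ∧
      (∀ t, 1 ≤ t → t ≤ N' → ∀ a, ∀ᵐ ω ∂P, ω ∈ B ∩ E t →
        ∀ y, m t a ω * w' t a ω y ≤ rpush A (R 1) L (L + t) (w a) ω y) ∧
      (∀ Z : Ω → ℝ≥0∞, Measurable[A.F L] Z →
        ∑ t ∈ Finset.Ico 1 N', ∫⁻ ω in B ∩ E t, Z ω * (∏ a, m t a ω) ^ (-θ) ∂P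
          ≤ η * ∫⁻ ω in B, Z ω ∂P) ∧
      (∀ Z : Ω → ℝ≥0∞, Measurable[A.F L] Z →
        ∫⁻ ω in B ∩ E N', Z ω * (∏ a, m N' a ω) ^ (-θ) ∂P ≤ Ks * ∫⁻ ω in B, Z ω ∂P) ∧
      ∑ t ∈ Finset.Ico 1 N', P (B ∩ E t) ≤ η * P B

/-- located mass of a unit after `n` levels (`1` for `n = 0`) -/
noncomputable def ML (A : KerSys S P) (D : S → S → Prop) (L n : ℕ) (w : Ω → S → ℝ≥0∞) (ω : Ω) :
    ℝ≥0∞ :=
  if n = 0 then 1 else tot (rpush A D L (L + n) w) ω

variable {A : KerSys S P}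

/-- **composition of restricted pushes** -/
theorem rpush_comp {a b c : ℕ} (hab : a ≤ b) (hbc : b ≤ c) {D1 D2 D : S → S → Prop}
    (hD : ∀ x y z, D1 x y → D2 y z → D x z) {w w' : Ω → S → ℝ≥0∞} {m : Ω → ℝ≥0∞} :
    ∀ᵐ ω ∂P, (∀ y, m ω * w' ω y ≤ rpush A D1 a b w ω y) →
      ∀ z, m ω * rpush A D2 b c w' ω z ≤ rpush A D a c w ω z := by
  classical
  filter_upwards [A.comp a b c hab hbc] with ω hcomp h3 z
  calc m ω * rpush A D2 b c w' ω z
      = ∑' y, (m ω * w' ω y) * (if D2 y z then A.G b c ω y z else 0) := by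
        unfold Home903.rpush
        rw [← ENNReal.tsum_mul_left]
        exact tsum_congr fun y => by ring
    _ ≤ ∑' y, rpush A D1 a b w ω y * (if D2 y z then A.G b c ω y z else 0) :=
        ENNReal.tsum_le_tsum fun y => mul_le_mul_left (h3 y) _
    _ = ∑' y, ∑' x, w ω x * ((if D1 x y then A.G a b ω x y else 0) *
          (if D2 y z then A.G b c ω y z else 0)) := by
        refine tsum_congr fun y => ?_
        unfold Home903.rpush
        rw [← ENNReal.tsum_mul_right]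
        exact tsum_congr fun x => by ring
    _ = ∑' x, w ω x * ∑' y, ((if D1 x y then A.G a b ω x y else 0) *
          (if D2 y z then A.G b c ω y z else 0)) := by
        rw [ENNReal.tsum_comm]
        exact tsum_congr fun x => ENNReal.tsum_mul_left
    _ ≤ ∑' x, w ω x * (if D x z then A.G a c ω x z else 0) := by
        refine ENNReal.tsum_le_tsum fun x => mul_le_mul_right ?_ _
        by_cases hxz : D x z
        · rw [if_pos hxz]
          refine le_trans (ENNReal.tsum_le_tsum fun y => ?_) (hcomp x z)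
          by_cases h1 : D1 x y
          · by_cases h2 : D2 y z
            · rw [if_pos h1, if_pos h2]
            · rw [if_neg h2, mul_zero]; exact bot_le
          · rw [if_neg h1, zero_mul]; exact bot_le
        · rw [if_neg hxz, nonpos_iff_eq_zero, ENNReal.tsum_eq_zero]
          intro y
          by_cases h1 : D1 x y
          · have h2 : ¬ D2 y z := fun h2 => hxz (hD x y z h1 h2)
            rw [if_neg h2, mul_zero]
          · rw [if_neg h1, zero_mul]
    _ = rpush A D a c w ω z := rfl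

lemma tot_le_one_of_push {a b : ℕ} (hab : a ≤ b) {D : S → S → Prop} {w w' : Ω → S → ℝ≥0∞}
    {m : Ω → ℝ≥0∞} {ω : Ω} (h1 : tot w ω = 1) (h2 : tot w' ω = 1)
    (h3 : ∀ y, m ω * w' ω y ≤ rpush A D a b w ω y) :
    m ω ≤ tot (rpush A D a b w) ω ∧ m ω ≤ 1 := by
  have hm : m ω ≤ tot (rpush A D a b w) ω := by
    calc m ω = m ω * tot w' ω := by rw [h2, mul_one]
      _ = ∑' y, m ω * w' ω y := by rw [tot, ENNReal.tsum_mul_left]
      _ ≤ ∑' y, rpush A D a b w ω y := ENNReal.tsum_le_tsum h3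
      _ = tot (rpush A D a b w) ω := rfl
  exact ⟨hm, (hm.trans (tot_rpush_le D a b w ω)).trans ((tot_push_le A hab w ω).trans h1.le)⟩

/-- monotonicity in the relation -/
lemma tot_rpush_mono {D D' : S → S → Prop} (h : ∀ x y, D x y → D' x y) (a b : ℕ)
    (w : Ω → S → ℝ≥0∞) (ω : Ω) : tot (rpush A D a b w) ω ≤ tot (rpush A D' a b w) ω := by
  classical
  rw [tot_rpush, tot_rpush]
  refine ENNReal.tsum_le_tsum fun x => mul_le_mul_right (ENNReal.tsum_le_tsum fun y => ?_) _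
  by_cases h1 : D x y
  · rw [if_pos h1, if_pos (h x y h1)]
  · rw [if_neg h1]; exact bot_le

/-- restart at level `L + t`, `t ≤ n` -/
lemma ML_ge {L t n : ℕ} (ht : 1 ≤ t) (htn : t ≤ n) {D1 D2 D : S → S → Prop}
    (hD : ∀ x y z, D1 x y → D2 y z → D x z) (hD1 : ∀ x y, D1 x y → D x y)
    {w w' : Ω → S → ℝ≥0∞} {m : Ω → ℝ≥0∞} :
    ∀ᵐ ω ∂P, tot w ω = 1 → tot w' ω = 1 →
      (∀ y, m ω * w' ω y ≤ rpush A D1 L (L + t) w ω y) →
      m ω * ML A D2 (L + t) (n - t) w' ω ≤ ML A D L n w ω ∧ m ω ≤ 1 := by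
  have e1 : L + t + (n - t) = L + n := by omega
  filter_upwards [rpush_comp (A := A) (Nat.le_add_right L t) (show L + t ≤ L + n by omega) hD
    (w := w) (w' := w') (m := m)] with ω hcomp h1 h2 h3
  obtain ⟨hm, hm1⟩ := tot_le_one_of_push (Nat.le_add_right L t) h1 h2 h3
  refine ⟨?_, hm1⟩
  have hn : n ≠ 0 := by omega
  by_cases hnt : n - t = 0
  · have : n = t := by omega
    subst this
    simp only [ML, hnt, if_true, mul_one, if_neg hn]
    exact hm.trans (tot_rpush_mono hD1 _ _ _ _)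
  · simp only [ML, if_neg hnt, if_neg hn, e1]
    unfold tot
    rw [← ENNReal.tsum_mul_left]
    exact ENNReal.tsum_le_tsum fun z => hcomp h3 z

/-- **HM3a: the iteration, located form** -/
theorem unitsL {St : ℕ → ℕ → Set Ω → (ι → Ω → S → ℝ≥0∞) → Prop} {R : ℕ → S → S → Prop} {N : ℕ}
    {θ : ℝ} {η Ks : ℝ≥0∞} (h : EpL A St R N θ η Ks) (hθ : 0 < θ) (hη0 : η ≠ 0) (hη : η ≤ 1 / 2)
    (hN : 1 ≤ N) (hKs : 1 ≤ Ks) (hR : ∀ s x y z, R 1 x y → R s y z → R (s + 1) x z)
    (hR1 : ∀ s x y, R 1 x y → R (s + 1) x y) :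
    ∀ s r L n : ℕ, n ≤ r * N → ∀ B w, St L s B w → ∀ Z : Ω → ℝ≥0∞, Measurable[A.F L] Z →
      P (B ∩ {ω | ∏ a, ML A (R s) L n (w a) ω ≤ Z ω}) ≤
        (2 * Ks) ^ r * ∫⁻ ω in B, Z ω ^ θ ∂P + (2 * η) ^ s * (1 / η) ^ r * P B := by
  have hηt : η ≠ ∞ := ne_top_of_le_ne_top (by simp) hη
  have hη1 : η ≤ 1 := hη.trans (by simp)
  have hinv : 1 ≤ 1 / η := by
    rw [one_div]
    exact ENNReal.one_le_inv.2 hη1
  intro s
  induction s with
  | zero =>
    intro r L n hn B w hS Z hZ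
    calc P (B ∩ {ω | ∏ a, ML A (R 0) L n (w a) ω ≤ Z ω}) ≤ P B := measure_mono inter_subset_left
      _ = 1 * 1 * P B := by ring
      _ ≤ (2 * η) ^ 0 * (1 / η) ^ r * P B := by
          gcongr
          · simp
          · exact one_le_pow₀ hinv
      _ ≤ _ := le_add_self
  | succ s ih =>
    intro r L n hn B w hS Z hZ
    obtain ⟨hB, hW, htot⟩ := h.meas L (s + 1) B w hS
    by_cases hn0 : n = 0
    · subst hn0
      have hZ0 : Measurable Z := hZ.mono (A.F.le L) le_rfl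
      have hB0 : MeasurableSet B := A.F.le L _ hB
      have e1 : P (B ∩ {ω | ∏ a, ML A (R (s + 1)) L 0 (w a) ω ≤ Z ω}) ≤ ∫⁻ ω in B, Z ω ^ θ ∂P := by
        have hset : MeasurableSet {ω | 1 ≤ Z ω} := measurableSet_le measurable_const hZ0
        calc P (B ∩ {ω | ∏ a, ML A (R (s + 1)) L 0 (w a) ω ≤ Z ω}) ≤ P ({ω | 1 ≤ Z ω} ∩ B) := by
              refine measure_mono fun ω hω => ⟨?_, hω.1⟩
              have := hω.2
              simpa [ML] using this
          _ = ∫⁻ ω in {ω | 1 ≤ Z ω} ∩ B, 1 ∂P := by simp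
          _ = ∫⁻ ω in B, {ω | 1 ≤ Z ω}.indicator (fun _ => 1) ω ∂P := by
              rw [lintegral_indicator hset, Measure.restrict_restrict hset]
          _ ≤ ∫⁻ ω in B, Z ω ^ θ ∂P := by
              refine lintegral_mono fun ω => ?_
              by_cases h1 : 1 ≤ Z ω
              · rw [indicator_of_mem (show ω ∈ {ω | 1 ≤ Z ω} from h1)]
                exact ENNReal.one_le_rpow h1 hθ
              · rw [indicator_of_notMem (show ω ∉ {ω | 1 ≤ Z ω} from h1)]
                exact bot_le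
      refine (e1.trans ?_).trans le_self_add
      have h2 : (1 : ℝ≥0∞) ≤ (2 * Ks) ^ r := by
        refine one_le_pow₀ (hKs.trans ?_)
        exact le_mul_of_one_le_left' one_le_two
      calc ∫⁻ ω in B, Z ω ^ θ ∂P = 1 * ∫⁻ ω in B, Z ω ^ θ ∂P := (one_mul _).symm
        _ ≤ _ := by gcongr
    · rcases r with _ | r
      · omega
      set N' := min N n with hN'
      have hN'1 : 1 ≤ N' := by omega
      have hN'N : N' ≤ N := min_le_left _ _
      have hN'n : N' ≤ n := min_le_right _ _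
      obtain ⟨E, w', m, hm, hSt, hm0, hcov, hpush, hA1, hA2, hA3⟩ :=
        h.step L s B w N' hN'1 hN'N hS
      have hZθ : Measurable[A.F L] fun ω => Z ω ^ θ := hZ.pow_const θ
      set Z' : ℕ → Ω → ℝ≥0∞ := fun t ω => Z ω * (∏ a, m t a ω)⁻¹ with hZ'
      have hZ'm : ∀ t, 1 ≤ t → t ≤ N' → Measurable[A.F (L + t)] (Z' t) := by
        intro t h1 h2
        refine (hZ.mono (A.F.mono (Nat.le_add_right _ _)) le_rfl).mul ?_
        exact (Finset.measurable_prod _ fun a _ => hm t h1 h2 a).inv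
      have hZ'p : ∀ t ω, Z' t ω ^ θ = Z ω ^ θ * (∏ a, m t a ω) ^ (-θ) := by
        intro t ω
        rw [hZ', ENNReal.mul_rpow_of_nonneg _ _ hθ.le, ENNReal.inv_rpow, ENNReal.rpow_neg]
      have hsplit : P (B ∩ {ω | ∏ a, ML A (R (s + 1)) L n (w a) ω ≤ Z ω}) ≤
          ∑ t ∈ Finset.Icc 1 N',
            P ((B ∩ E t) ∩ {ω | ∏ a, ML A (R s) (L + t) (n - t) (w' t a) ω ≤ Z' t ω}) := by
        refine le_trans (measure_mono_ae ?_) (measure_biUnion_finset_le _ _)
        have hall : ∀ᵐ ω ∂P, ∀ t ∈ Finset.Icc 1 N', ∀ a, tot (w a) ω = 1 → tot (w' t a) ω = 1 →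
            (∀ y, m t a ω * w' t a ω y ≤ rpush A (R 1) L (L + t) (w a) ω y) →
            m t a ω * ML A (R s) (L + t) (n - t) (w' t a) ω ≤ ML A (R (s + 1)) L n (w a) ω ∧
              m t a ω ≤ 1 := by
          rw [ae_all_iff]
          intro t
          by_cases ht : t ∈ Finset.Icc 1 N'
          · have ht1 := Finset.mem_Icc.1 ht
            have : ∀ᵐ ω ∂P, ∀ a, tot (w a) ω = 1 → tot (w' t a) ω = 1 →
              (∀ y, m t a ω * w' t a ω y ≤ rpush A (R 1) L (L + t) (w a) ω y) →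
              m t a ω * ML A (R s) (L + t) (n - t) (w' t a) ω ≤ ML A (R (s + 1)) L n (w a) ω ∧
                m t a ω ≤ 1 := by
              rw [ae_all_iff]
              exact fun a => ML_ge ht1.1 (ht1.2.trans hN'n) (hR s) (hR1 s)
            filter_upwards [this] with ω hω _ using hω
          · exact Eventually.of_forall fun ω hh => absurd hh ht
        have hpa : ∀ᵐ ω ∂P, ∀ t, 1 ≤ t → t ≤ N' → ∀ a, ω ∈ B ∩ E t →
            ∀ y, m t a ω * w' t a ω y ≤ rpush A (R 1) L (L + t) (w a) ω y := by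
          rw [ae_all_iff]
          intro t
          by_cases ht : 1 ≤ t ∧ t ≤ N'
          · have := hpush t ht.1 ht.2
            rw [← ae_all_iff] at this
            filter_upwards [this] with ω hω _ _ using hω
          · exact Eventually.of_forall fun ω h1 h2 => absurd ⟨h1, h2⟩ ht
        filter_upwards [hcov, hall, hpa] with ω h1 h2 h3
        rintro ⟨hωB, hω⟩
        obtain ⟨t, ht, htE⟩ := h1 hωB
        have ht' := Finset.mem_Icc.1 ht
        obtain ⟨_, _, htot'⟩ := h.meas _ _ _ _ (hSt t ht'.1 ht'.2)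
        refine mem_iUnion₂.2 ⟨t, ht, ⟨hωB, htE⟩, ?_⟩
        have h4 : ∀ a, m t a ω * ML A (R s) (L + t) (n - t) (w' t a) ω ≤
            ML A (R (s + 1)) L n (w a) ω ∧ m t a ω ≤ 1 := fun a =>
          h2 t ht a (htot ω hωB a) (htot' ω ⟨hωB, htE⟩ a) (h3 t ht'.1 ht'.2 a ⟨hωB, htE⟩)
        have h5 : (∏ a, m t a ω) * ∏ a, ML A (R s) (L + t) (n - t) (w' t a) ω ≤ Z ω := by
          rw [← Finset.prod_mul_distrib]
          exact (Finset.prod_le_prod' fun a _ => (h4 a).1).trans hω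
        have h6 : (∏ a, m t a ω) ≠ 0 :=
          Finset.prod_ne_zero_iff.2 fun a _ => hm0 t ht'.1 ht'.2 a ω ⟨hωB, htE⟩
        have h7 : (∏ a, m t a ω) ≠ ∞ :=
          ne_top_of_le_ne_top ENNReal.one_ne_top (Finset.prod_le_one' fun a _ => (h4 a).2)
        change ∏ a, ML A (R s) (L + t) (n - t) (w' t a) ω ≤ Z ω * (∏ a, m t a ω)⁻¹
        rw [← div_eq_mul_inv, ENNReal.le_div_iff_mul_le (Or.inl h6) (Or.inl h7), mul_comm]
        exact h5
      have hIcc : Finset.Icc 1 N' = insert N' (Finset.Ico 1 N') := by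
        ext x
        simp only [Finset.mem_Icc, Finset.mem_insert, Finset.mem_Ico]
        omega
      have hterm : ∀ t r', 1 ≤ t → t ≤ N' → n - t ≤ r' * N →
          P ((B ∩ E t) ∩ {ω | ∏ a, ML A (R s) (L + t) (n - t) (w' t a) ω ≤ Z' t ω}) ≤
          (2 * Ks) ^ r' * ∫⁻ ω in B ∩ E t, Z ω ^ θ * (∏ a, m t a ω) ^ (-θ) ∂P +
            (2 * η) ^ s * (1 / η) ^ r' * P (B ∩ E t) := by
        intro t r' ht1 htN hr
        have := ih r' (L + t) (n - t) hr (B ∩ E t) (w' t) (hSt t ht1 htN) (Z' t) (hZ'm t ht1 htN)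
        simpa only [hZ'p] using this
      rw [hIcc, Finset.sum_insert (by simp)] at hsplit
      have hN1 := hterm N' r hN'1 le_rfl (by
        have : (r + 1) * N = r * N + N := by ring
        rcases le_total N n with h1 | h1
        · have : N' = N := min_eq_left h1
          omega
        · have : N' = n := min_eq_right h1
          omega)
      have hN2 : ∑ t ∈ Finset.Ico 1 N',
          P ((B ∩ E t) ∩ {ω | ∏ a, ML A (R s) (L + t) (n - t) (w' t a) ω ≤ Z' t ω}) ≤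
          (2 * Ks) ^ (r + 1) * (η * ∫⁻ ω in B, Z ω ^ θ ∂P) +
            (2 * η) ^ s * (1 / η) ^ (r + 1) * (η * P B) := by
        calc _ ≤ ∑ t ∈ Finset.Ico 1 N', ((2 * Ks) ^ (r + 1) *
              ∫⁻ ω in B ∩ E t, Z ω ^ θ * (∏ a, m t a ω) ^ (-θ) ∂P +
              (2 * η) ^ s * (1 / η) ^ (r + 1) * P (B ∩ E t)) := by
              refine Finset.sum_le_sum fun t ht => ?_
              have ht' := Finset.mem_Ico.1 ht
              exact hterm t (r + 1) ht'.1 ht'.2.le (by omega)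
          _ ≤ _ := by
              rw [Finset.sum_add_distrib, ← Finset.mul_sum, ← Finset.mul_sum]
              gcongr
              exact hA1 _ hZθ
      have hN3 : (2 * Ks) ^ r * ∫⁻ ω in B ∩ E N', Z ω ^ θ * (∏ a, m N' a ω) ^ (-θ) ∂P +
          (2 * η) ^ s * (1 / η) ^ r * P (B ∩ E N') ≤
          (2 * Ks) ^ r * (Ks * ∫⁻ ω in B, Z ω ^ θ ∂P) + (2 * η) ^ s * (1 / η) ^ r * P B := by
        gcongr
        · exact hA2 _ hZθ
        · exact inter_subset_left
      refine hsplit.trans ((add_le_add (hN1.trans hN3) hN2).trans ?_)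
      set I := ∫⁻ ω in B, Z ω ^ θ ∂P
      have hηinv : 1 / η * η = 1 := by
        rw [one_div]
        exact ENNReal.inv_mul_cancel hη0 hηt
      have e3 : (2 * η) ^ s * (1 / η) ^ (r + 1) * (η * P B) = (2 * η) ^ s * (1 / η) ^ r * P B := by
        calc _ = (2 * η) ^ s * (1 / η) ^ r * (1 / η * η) * P B := by ring
          _ = _ := by rw [hηinv, mul_one]
      have e4 : (2 * η) ^ (s + 1) * (1 / η) ^ (r + 1) * P B
          = 2 * ((2 * η) ^ s * (1 / η) ^ r * P B) := by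
        calc _ = 2 * ((2 * η) ^ s * (1 / η) ^ r * (1 / η * η) * P B) := by ring
          _ = _ := by rw [hηinv, mul_one]
      rw [e3, e4]
      have e5 : (2 * Ks) ^ r * (Ks * I) + (2 * Ks) ^ (r + 1) * (η * I)
          ≤ (2 * Ks) ^ (r + 1) * I := by
        calc _ ≤ (2 * Ks) ^ r * (Ks * I) + (2 * Ks) ^ (r + 1) * (1 / 2 * I) := by gcongr
          _ = (2 * Ks) ^ r * (Ks * I) + (2 * Ks) ^ r * Ks * I * (2 * (1 / 2)) := by ring
          _ = (2 * Ks) ^ r * (Ks * I) + (2 * Ks) ^ r * Ks * I := by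
              rw [one_div, ENNReal.mul_inv_cancel (by norm_num) (by norm_num), mul_one]
          _ = (2 * Ks) ^ (r + 1) * I := by ring
      calc _ = ((2 * Ks) ^ r * (Ks * I) + (2 * Ks) ^ (r + 1) * (η * I)) +
            2 * ((2 * η) ^ s * (1 / η) ^ r * P B) := by ring
        _ ≤ _ := by gcongr

/-- the conclusion for `tot (rpush ..)` at `1 ≤ n`, constant threshold -/
theorem unitsL_const {St : ℕ → ℕ → Set Ω → (ι → Ω → S → ℝ≥0∞) → Prop} {R : ℕ → S → S → Prop}
    {N : ℕ} {θ : ℝ} {η Ks : ℝ≥0∞} (h : EpL A St R N θ η Ks) (hθ : 0 < θ) (hη0 : η ≠ 0)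
    (hη : η ≤ 1 / 2) (hN : 1 ≤ N) (hKs : 1 ≤ Ks)
    (hR : ∀ s x y z, R 1 x y → R s y z → R (s + 1) x z)
    (hR1 : ∀ s x y, R 1 x y → R (s + 1) x y) (s r L n : ℕ) (hn1 : 1 ≤ n) (hn : n ≤ r * N)
    (B : Set Ω) (w : ι → Ω → S → ℝ≥0∞) (hS : St L s B w) (z : ℝ≥0∞) :
    P (B ∩ {ω | ∏ a, tot (rpush A (R s) L (L + n) (w a)) ω ≤ z}) ≤
      ((2 * Ks) ^ r * z ^ θ + (2 * η) ^ s * (1 / η) ^ r) * P B := by
  have := unitsL h hθ hη0 hη hN hKs hR hR1 s r L n hn B w hS (fun _ => z) measurable_const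
  have hn0 : n ≠ 0 := by omega
  simp only [ML, if_neg hn0, lintegral_const, Measure.restrict_apply MeasurableSet.univ,
    univ_inter] at this
  rw [add_mul, mul_assoc]
  exact this

end Crest.Agent.R154.Units12
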