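import Crest.Agent.R154.RatioB_872

/-!
# Row 154 (helper12), HOME MASS (263): the iteration over epochs

`k` units (random weights) restart together; an epoch ends early (`t < N`, weight `η`) or at its
scheduled level (`t = N`, weight `Ks`). Conclusion: the product of the masses of the units has a
small-ball probability `(2 Ks) ^ r ∫ Z ^ θ + (2 η) ^ s (1/η) ^ r`, `r` scheduled epochs, slack `s`.
Pure kernel-system letters.
-/

set_option autoImplicit false
set_option linter.unusedSectionVars false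
set_option linter.deprecated false
set_option linter.unusedVariables false

namespace Crest.Agent.R154.Units12

open MeasureTheory ProbabilityTheory Set Filter
open Crest.Agent.R154.RatioR872 Crest.Agent.R154.RatioR872.KerSys
open scoped ENNReal

variable {S : Type*} [Countable S] {Ω : Type*} {m0 : MeasurableSpace Ω} {P : Measure Ω}
variable {ι : Type*} [Fintype ι]

/-- one epoch of the units -/
structure Ep (A : KerSys S P) (St : ℕ → ℕ → Set Ω → (ι → Ω → S → ℝ≥0∞) → Prop) (N : ℕ) (θ : ℝ)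
    (η Ks : ℝ≥0∞) : Prop where
  meas : ∀ L s B w, St L s B w → MeasurableSet[A.F L] B ∧ (∀ a, A.Wt L (w a)) ∧
    ∀ ω ∈ B, ∀ a, tot (w a) ω = 1
  step : ∀ L s B w, St L (s + 1) B w →
    ∃ (E : ℕ → Set Ω) (w' : ℕ → ι → Ω → S → ℝ≥0∞) (m : ℕ → ι → Ω → ℝ≥0∞),
      (∀ t, MeasurableSet[A.F (L + t)] (E t)) ∧
      (∀ t a, Measurable[A.F (L + t)] (m t a)) ∧
      (∀ t, 1 ≤ t → t ≤ N → St (L + t) s (B ∩ E t) (w' t)) ∧
      (∀ t a ω, ω ∈ E t → m t a ω ≠ 0) ∧
      (∀ᵐ ω ∂P, ω ∈ B → ∃ t ∈ Finset.Icc 1 N, ω ∈ E t) ∧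
      (∀ t a, ∀ᵐ ω ∂P, ω ∈ B ∩ E t → ∀ y, m t a ω * w' t a ω y ≤ A.push L (L + t) (w a) ω y) ∧
      (∀ Z : Ω → ℝ≥0∞, Measurable[A.F L] Z →
        ∑ t ∈ Finset.Ico 1 N, ∫⁻ ω in B ∩ E t, Z ω * (∏ a, m t a ω) ^ (-θ) ∂P
          ≤ η * ∫⁻ ω in B, Z ω ∂P) ∧
      (∀ Z : Ω → ℝ≥0∞, Measurable[A.F L] Z →
        ∫⁻ ω in B ∩ E N, Z ω * (∏ a, m N a ω) ^ (-θ) ∂P ≤ Ks * ∫⁻ ω in B, Z ω ∂P) ∧
      ∑ t ∈ Finset.Ico 1 N, P (B ∩ E t) ≤ η * P B

/-- mass of a unit after `n` levels (`1` for `n = 0`) -/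
noncomputable def MU (A : KerSys S P) (L n : ℕ) (w : Ω → S → ℝ≥0∞) (ω : Ω) : ℝ≥0∞ :=
  if n = 0 then 1 else tot (A.push L (L + n) w) ω

variable {A : KerSys S P}

/-- restart at level `L + t` -/
lemma MU_ge {L t n : ℕ} (ht : 1 ≤ t) {w w' : Ω → S → ℝ≥0∞} {m : Ω → ℝ≥0∞} :
    ∀ᵐ ω ∂P, tot w ω = 1 → tot w' ω = 1 →
      (∀ y, m ω * w' ω y ≤ A.push L (L + t) w ω y) →
      m ω * MU A (L + t) (n - t) w' ω ≤ MU A L n w ω ∧ m ω ≤ 1 := by
  filter_upwards [A.comp L (L + t) ((L + n) ⊔ (L + t)) (Nat.le_add_right _ _) (le_max_right _ _)]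
    with ω hcomp h1 h2 h3
  have hm : m ω ≤ tot (A.push L (L + t) w) ω := by
    calc m ω = m ω * tot w' ω := by rw [h2, mul_one]
      _ = ∑' y, m ω * w' ω y := by rw [tot, ENNReal.tsum_mul_left]
      _ ≤ ∑' y, A.push L (L + t) w ω y := ENNReal.tsum_le_tsum h3
      _ = tot (A.push L (L + t) w) ω := rfl
  have hm1 : m ω ≤ 1 := hm.trans ((tot_push_le A (Nat.le_add_right _ _) w ω).trans h1.le)
  refine ⟨?_, hm1⟩
  by_cases hn : n = 0
  · subst hn
    simp [MU, hm1]
  by_cases hnt : n ≤ t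
  · have h0 : n - t = 0 := by omega
    rw [h0]
    simp only [MU, if_true, mul_one, if_neg hn]
    refine hm.trans ?_
    rw [tot_push, tot_push]
    refine ENNReal.tsum_le_tsum fun x => mul_le_mul_right ?_ _
    exact A.anti L (L + n) (L + t) ω x (Nat.le_add_right _ _) (by omega)
  · have h0 : n - t ≠ 0 := by omega
    have e1 : L + t + (n - t) = L + n := by omega
    have e2 : (L + n) ⊔ (L + t) = L + n := by omega
    rw [e2] at hcomp
    simp only [MU, if_neg h0, if_neg hn, e1]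
    calc m ω * tot (A.push (L + t) (L + n) w') ω
        = ∑' y, (m ω * w' ω y) * A.N (L + t) (L + n) ω y := by
          rw [tot_push, ← ENNReal.tsum_mul_left]
          exact tsum_congr fun y => by ring
      _ ≤ ∑' y, A.push L (L + t) w ω y * A.N (L + t) (L + n) ω y :=
          ENNReal.tsum_le_tsum fun y => mul_le_mul_left (h3 y) _
      _ = ∑' y, ∑' x, w ω x * (A.G L (L + t) ω x y * A.N (L + t) (L + n) ω y) := by
          refine tsum_congr fun y => ?_
          unfold KerSys.push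
          rw [← ENNReal.tsum_mul_right]
          exact tsum_congr fun x => by ring
      _ = ∑' x, w ω x * ∑' y, A.G L (L + t) ω x y * A.N (L + t) (L + n) ω y := by
          rw [ENNReal.tsum_comm]
          exact tsum_congr fun x => ENNReal.tsum_mul_left
      _ ≤ ∑' x, w ω x * A.N L (L + n) ω x := by
          refine ENNReal.tsum_le_tsum fun x => mul_le_mul_right ?_ _
          unfold KerSys.N
          calc ∑' y, A.G L (L + t) ω x y * ∑' z, A.G (L + t) (L + n) ω y z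
              = ∑' z, ∑' y, A.G L (L + t) ω x y * A.G (L + t) (L + n) ω y z := by
                rw [ENNReal.tsum_comm]
                exact tsum_congr fun y => ENNReal.tsum_mul_left.symm
            _ ≤ ∑' z, A.G L (L + n) ω x z := ENNReal.tsum_le_tsum fun z => hcomp x z
      _ = tot (A.push L (L + n) w) ω := (tot_push A _ _ _ _).symm

/-- **the iteration** -/
theorem units {St : ℕ → ℕ → Set Ω → (ι → Ω → S → ℝ≥0∞) → Prop} {N : ℕ} {θ : ℝ} {η Ks : ℝ≥0∞}
    (h : Ep A St N θ η Ks) (hθ : 0 < θ) (hη0 : η ≠ 0) (hη : η ≤ 1 / 2) (hN : 1 ≤ N)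
    (hKs : 1 ≤ Ks) :
    ∀ s r L n : ℕ, n ≤ r * N → ∀ B w, St L s B w → ∀ Z : Ω → ℝ≥0∞, Measurable[A.F L] Z →
      P (B ∩ {ω | ∏ a, MU A L n (w a) ω ≤ Z ω}) ≤
        (2 * Ks) ^ r * ∫⁻ ω in B, Z ω ^ θ ∂P + (2 * η) ^ s * (1 / η) ^ r * P B := by
  have hηt : η ≠ ∞ := ne_top_of_le_ne_top (by simp) hη
  have hη1 : η ≤ 1 := hη.trans (by simp)
  have hinv : 1 ≤ 1 / η := by
    rw [one_div]
    exact ENNReal.one_le_inv.2 hη1
  intro s
  induction s with
  | zero =>
    intro r L n hn B w hS Z hZ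
    calc P (B ∩ {ω | ∏ a, MU A L n (w a) ω ≤ Z ω}) ≤ P B := measure_mono inter_subset_left
      _ = 1 * 1 * P B := by ring
      _ ≤ (2 * η) ^ 0 * (1 / η) ^ r * P B := by
          gcongr
          · simp
          · exact one_le_pow₀ hinv
      _ ≤ _ := le_add_self
  | succ s ih =>
    intro r L n hn B w hS Z hZ
    obtain ⟨hB, hW, htot⟩ := h.meas L (s + 1) B w hS
    by_cases hn0 : n = 0
    · -- nothing to climb
      subst hn0
      have hZ0 : Measurable Z := hZ.mono (A.F.le L) le_rfl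
      have hB0 : MeasurableSet B := A.F.le L _ hB
      have e1 : P (B ∩ {ω | ∏ a, MU A L 0 (w a) ω ≤ Z ω}) ≤ ∫⁻ ω in B, Z ω ^ θ ∂P := by
        have hset : MeasurableSet {ω | 1 ≤ Z ω} := measurableSet_le measurable_const hZ0
        calc P (B ∩ {ω | ∏ a, MU A L 0 (w a) ω ≤ Z ω}) ≤ P ({ω | 1 ≤ Z ω} ∩ B) := by
              refine measure_mono fun ω hω => ⟨?_, hω.1⟩
              have := hω.2
              simpa [MU] using this
          _ = ∫⁻ ω in {ω | 1 ≤ Z ω} ∩ B, 1 ∂P := by simp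
          _ = ∫⁻ ω in B, {ω | 1 ≤ Z ω}.indicator (fun _ => 1) ω ∂P := by
              rw [lintegral_indicator hset, Measure.restrict_restrict hset]
          _ ≤ ∫⁻ ω in B, Z ω ^ θ ∂P := by
              refine lintegral_mono fun ω => ?_
              by_cases h1 : 1 ≤ Z ω
              · rw [indicator_of_mem (show ω ∈ {ω | 1 ≤ Z ω} from h1)]
                exact ENNReal.one_le_rpow h1 hθ
              · rw [indicator_of_notMem (show ω ∉ {ω | 1 ≤ Z ω} from h1)]
                exact bot_le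
      refine (e1.trans ?_).trans le_self_add
      have h2 : (1 : ℝ≥0∞) ≤ (2 * Ks) ^ r := by
        refine one_le_pow₀ (hKs.trans ?_)
        exact le_mul_of_one_le_left' one_le_two
      calc ∫⁻ ω in B, Z ω ^ θ ∂P = 1 * ∫⁻ ω in B, Z ω ^ θ ∂P := (one_mul _).symm
        _ ≤ _ := by gcongr
    · -- one epoch
      rcases r with _ | r
      · omega
      obtain ⟨E, w', m, hE, hm, hSt, hm0, hcov, hpush, hA1, hA2, hA3⟩ := h.step L s B w hS
      have hZθ : Measurable[A.F L] fun ω => Z ω ^ θ := hZ.pow_const θ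
      -- the new thresholds
      set Z' : ℕ → Ω → ℝ≥0∞ := fun t ω => Z ω * (∏ a, m t a ω)⁻¹ with hZ'
      have hZ'm : ∀ t, Measurable[A.F (L + t)] (Z' t) := by
        intro t
        refine (hZ.mono (A.F.mono (Nat.le_add_right _ _)) le_rfl).mul ?_
        exact (Finset.measurable_prod _ fun a _ => hm t a).inv
      have hZ'p : ∀ t ω, Z' t ω ^ θ = Z ω ^ θ * (∏ a, m t a ω) ^ (-θ) := by
        intro t ω
        rw [hZ', ENNReal.mul_rpow_of_nonneg _ _ hθ.le, ENNReal.inv_rpow, ENNReal.rpow_neg]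
      -- splitting
      have hsplit : P (B ∩ {ω | ∏ a, MU A L n (w a) ω ≤ Z ω}) ≤
          ∑ t ∈ Finset.Icc 1 N,
            P ((B ∩ E t) ∩ {ω | ∏ a, MU A (L + t) (n - t) (w' t a) ω ≤ Z' t ω}) := by
        refine le_trans (measure_mono_ae ?_) (measure_biUnion_finset_le _ _)
        have hall : ∀ᵐ ω ∂P, ∀ t ∈ Finset.Icc 1 N, ∀ a, tot (w a) ω = 1 → tot (w' t a) ω = 1 →
            (∀ y, m t a ω * w' t a ω y ≤ A.push L (L + t) (w a) ω y) →
            m t a ω * MU A (L + t) (n - t) (w' t a) ω ≤ MU A L n (w a) ω ∧ m t a ω ≤ 1 := by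
          rw [ae_all_iff]
          intro t
          by_cases ht : t ∈ Finset.Icc 1 N
          · have ht1 : 1 ≤ t := (Finset.mem_Icc.1 ht).1
            have : ∀ᵐ ω ∂P, ∀ a, tot (w a) ω = 1 → tot (w' t a) ω = 1 →
              (∀ y, m t a ω * w' t a ω y ≤ A.push L (L + t) (w a) ω y) →
              m t a ω * MU A (L + t) (n - t) (w' t a) ω ≤ MU A L n (w a) ω ∧ m t a ω ≤ 1 := by
              rw [ae_all_iff]
              exact fun a => MU_ge ht1
            filter_upwards [this] with ω hω _ using hω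
          · exact Eventually.of_forall fun ω hh => absurd hh ht
        have hpa : ∀ᵐ ω ∂P, ∀ t a, ω ∈ B ∩ E t →
            ∀ y, m t a ω * w' t a ω y ≤ A.push L (L + t) (w a) ω y := by
          rw [ae_all_iff]
          intro t
          rw [ae_all_iff]
          exact fun a => hpush t a
        filter_upwards [hcov, hall, hpa] with ω h1 h2 h3
        rintro ⟨hωB, hω⟩
        obtain ⟨t, ht, htE⟩ := h1 hωB
        have ht' := Finset.mem_Icc.1 ht
        obtain ⟨_, _, htot'⟩ := h.meas _ _ _ _ (hSt t ht'.1 ht'.2)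
        refine mem_iUnion₂.2 ⟨t, ht, ⟨hωB, htE⟩, ?_⟩
        have h4 : ∀ a, m t a ω * MU A (L + t) (n - t) (w' t a) ω ≤ MU A L n (w a) ω ∧
            m t a ω ≤ 1 := fun a =>
          h2 t ht a (htot ω hωB a) (htot' ω ⟨hωB, htE⟩ a) (h3 t a ⟨hωB, htE⟩)
        have h5 : (∏ a, m t a ω) * ∏ a, MU A (L + t) (n - t) (w' t a) ω ≤ Z ω := by
          rw [← Finset.prod_mul_distrib]
          exact (Finset.prod_le_prod' fun a _ => (h4 a).1).trans hω
        have h6 : (∏ a, m t a ω) ≠ 0 := Finset.prod_ne_zero_iff.2 fun a _ => hm0 t a ω htE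
        have h7 : (∏ a, m t a ω) ≠ ∞ :=
          ne_top_of_le_ne_top ENNReal.one_ne_top (Finset.prod_le_one' fun a _ => (h4 a).2)
        change ∏ a, MU A (L + t) (n - t) (w' t a) ω ≤ Z ω * (∏ a, m t a ω)⁻¹
        rw [← div_eq_mul_inv, ENNReal.le_div_iff_mul_le (Or.inl h6) (Or.inl h7), mul_comm]
        exact h5
      -- the scheduled epoch
      have hIcc : Finset.Icc 1 N = insert N (Finset.Ico 1 N) := by
        ext x
        simp only [Finset.mem_Icc, Finset.mem_insert, Finset.mem_Ico]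
        omega
      have hterm : ∀ t r', 1 ≤ t → t ≤ N → n - t ≤ r' * N →
          P ((B ∩ E t) ∩ {ω | ∏ a, MU A (L + t) (n - t) (w' t a) ω ≤ Z' t ω}) ≤
          (2 * Ks) ^ r' * ∫⁻ ω in B ∩ E t, Z ω ^ θ * (∏ a, m t a ω) ^ (-θ) ∂P +
            (2 * η) ^ s * (1 / η) ^ r' * P (B ∩ E t) := by
        intro t r' ht1 htN hr
        have := ih r' (L + t) (n - t) hr (B ∩ E t) (w' t) (hSt t ht1 htN) (Z' t) (hZ'm t)
        simpa only [hZ'p] using this
      rw [hIcc, Finset.sum_insert (by simp)] at hsplit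
      have hN1 := hterm N r hN le_rfl (by
        have : (r + 1) * N = r * N + N := by ring
        omega)
      have hN2 : ∑ t ∈ Finset.Ico 1 N,
          P ((B ∩ E t) ∩ {ω | ∏ a, MU A (L + t) (n - t) (w' t a) ω ≤ Z' t ω}) ≤
          (2 * Ks) ^ (r + 1) * (η * ∫⁻ ω in B, Z ω ^ θ ∂P) +
            (2 * η) ^ s * (1 / η) ^ (r + 1) * (η * P B) := by
        calc _ ≤ ∑ t ∈ Finset.Ico 1 N, ((2 * Ks) ^ (r + 1) *
              ∫⁻ ω in B ∩ E t, Z ω ^ θ * (∏ a, m t a ω) ^ (-θ) ∂P +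
              (2 * η) ^ s * (1 / η) ^ (r + 1) * P (B ∩ E t)) := by
              refine Finset.sum_le_sum fun t ht => ?_
              have ht' := Finset.mem_Ico.1 ht
              exact hterm t (r + 1) ht'.1 ht'.2.le (by omega)
          _ ≤ _ := by
              rw [Finset.sum_add_distrib, ← Finset.mul_sum, ← Finset.mul_sum]
              gcongr
              exact hA1 _ hZθ
      have hN3 : (2 * Ks) ^ r * ∫⁻ ω in B ∩ E N, Z ω ^ θ * (∏ a, m N a ω) ^ (-θ) ∂P +
          (2 * η) ^ s * (1 / η) ^ r * P (B ∩ E N) ≤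
          (2 * Ks) ^ r * (Ks * ∫⁻ ω in B, Z ω ^ θ ∂P) + (2 * η) ^ s * (1 / η) ^ r * P B := by
        gcongr
        · exact hA2 _ hZθ
        · exact inter_subset_left
      refine hsplit.trans ((add_le_add (hN1.trans hN3) hN2).trans ?_)
      set I := ∫⁻ ω in B, Z ω ^ θ ∂P
      have hηinv : 1 / η * η = 1 := by
        rw [one_div]
        exact ENNReal.inv_mul_cancel hη0 hηt
      have e3 : (2 * η) ^ s * (1 / η) ^ (r + 1) * (η * P B) = (2 * η) ^ s * (1 / η) ^ r * P B := by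
        calc _ = (2 * η) ^ s * (1 / η) ^ r * (1 / η * η) * P B := by ring
          _ = _ := by rw [hηinv, mul_one]
      have e4 : (2 * η) ^ (s + 1) * (1 / η) ^ (r + 1) * P B
          = 2 * ((2 * η) ^ s * (1 / η) ^ r * P B) := by
        calc _ = 2 * ((2 * η) ^ s * (1 / η) ^ r * (1 / η * η) * P B) := by ring
          _ = _ := by rw [hηinv, mul_one]
      rw [e3, e4]
      have e5 : (2 * Ks) ^ r * (Ks * I) + (2 * Ks) ^ (r + 1) * (η * I)
          ≤ (2 * Ks) ^ (r + 1) * I := by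
        calc _ ≤ (2 * Ks) ^ r * (Ks * I) + (2 * Ks) ^ (r + 1) * (1 / 2 * I) := by gcongr
          _ = (2 * Ks) ^ r * (Ks * I) + (2 * Ks) ^ r * Ks * I * (2 * (1 / 2)) := by ring
          _ = (2 * Ks) ^ r * (Ks * I) + (2 * Ks) ^ r * Ks * I := by
              rw [one_div, ENNReal.mul_inv_cancel (by norm_num) (by norm_num), mul_one]
          _ = (2 * Ks) ^ (r + 1) * I := by ring
      calc _ = ((2 * Ks) ^ r * (Ks * I) + (2 * Ks) ^ (r + 1) * (η * I)) +
            2 * ((2 * η) ^ s * (1 / η) ^ r * P B) := by ring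
        _ ≤ _ := by gcongr

end Crest.Agent.R154.Units12
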