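import Crest.Agent.R154.RatioA_872

/-! Row 154, d >= 3, HOME MASS (helper263 #36390, form of helper587 #37206): the epoch machine for
`k` separated static units, in KerSys letters, with a random threshold (helper195). -/

set_option autoImplicit false
set_option linter.unusedSectionVars false
set_option linter.deprecated false

namespace Crest.Agent.R154.Units195

open MeasureTheory ProbabilityTheory Set Filter
open Crest.Agent.R154.RatioR872 Crest.Agent.R154.RatioR872.KerSys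
open scoped ENNReal

variable {S : Type*} [Countable S] {Ω : Type*} {m0 : MeasurableSpace Ω} {P : Measure Ω}

/-- lateral data of one epoch: lateral coordinate, forced step, confined early climb, home window -/
structure Lat (A : KerSys S P) where
  lat : S → ℤ
  up : S → S
  inj : Function.Injective up
  upL : ∀ a, ∀ x ∈ A.L a, up x ∈ A.L (a + 1)
  lat_up : ∀ x, lat (up x) = lat x
  κ0 : ℝ≥0∞
  κ0_ne : κ0 ≠ 0
  κ0_le : κ0 ≤ 1
  hup : ∀ a ω, ∀ x ∈ A.L a, κ0 ≤ A.G a (a + 1) ω x (up x)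
  s1 : ℕ
  N : ℕ
  s1N : s1 < N
  D : ℤ
  D0 : 0 ≤ D
  cen : ℕ → ℤ
  C : ℕ → Ω → S → S → ℝ≥0∞
  C_meas : ∀ a x y, Measurable[A.F (a + s1)] (fun ω => C a ω x y)
  C_le : ∀ a ω x y, C a ω x y ≤ A.G a (a + s1) ω x y
  C_lat : ∀ a ω x y, C a ω x y ≠ 0 → |lat y - lat x - cen s1| ≤ D
  e0 : ℝ≥0∞
  e0_ne : e0 ≠ 0
  C_ge : ∀ a ω, ∀ x ∈ A.L a, e0 ≤ ∑' y, C a ω x y

variable {A : KerSys S P} (Λ : Lat A)

namespace Lat

/-- home kernel at age `m` -/
noncomputable def hk (a m : ℕ) (ω : Ω) (x y : S) : ℝ≥0∞ :=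
  if m ≤ Λ.s1 then Λ.C a ω x y
  else if |Λ.lat y - Λ.lat x - Λ.cen m| ≤ Λ.D then A.G a (a + m) ω x y else 0

/-- home weight at age `m` -/
noncomputable def hw (a m : ℕ) (w : Ω → S → ℝ≥0∞) (ω : Ω) (y : S) : ℝ≥0∞ :=
  ∑' x, w ω x * Λ.hk a m ω x y

/-- early (confined) mass -/
noncomputable def E (a : ℕ) (w : Ω → S → ℝ≥0∞) (ω : Ω) : ℝ≥0∞ := tot (Λ.hw a Λ.s1 w) ω

/-- one forced step -/
noncomputable def st (w : Ω → S → ℝ≥0∞) (ω : Ω) (z : S) : ℝ≥0∞ := by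
  classical exact ∑' y, if Λ.up y = z then Λ.κ0 * w ω y else 0

/-- the restart weight at age `m + 1` -/
noncomputable def nw (a m : ℕ) (w : Ω → S → ℝ≥0∞) : Ω → S → ℝ≥0∞ := Λ.st (Λ.hw a m w)

variable {Λ}

lemma hk_le {a m : ℕ} (hm : Λ.s1 ≤ m) (ω : Ω) (x y : S) : Λ.hk a m ω x y ≤ A.G a (a + m) ω x y := by
  unfold hk
  split_ifs with h1 h2
  · have : m = Λ.s1 := le_antisymm h1 hm
    subst this
    exact Λ.C_le a ω x y
  · exact le_rfl
  · exact zero_le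

lemma hk_lat {a m : ℕ} (hm : Λ.s1 ≤ m) {ω : Ω} {x y : S} (h : Λ.hk a m ω x y ≠ 0) :
    |Λ.lat y - Λ.lat x - Λ.cen m| ≤ Λ.D := by
  unfold hk at h
  split_ifs at h with h1 h2
  · have : m = Λ.s1 := le_antisymm h1 hm
    subst this
    exact Λ.C_lat a ω x y h
  · exact h2
  · exact absurd rfl h

lemma hk_meas {a m : ℕ} (hm : Λ.s1 ≤ m) (x y : S) :
    Measurable[A.F (a + m)] (fun ω => Λ.hk a m ω x y) := by
  unfold hk
  split_ifs with h1 h2
  · have : m = Λ.s1 := le_antisymm h1 hm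
    subst this
    exact Λ.C_meas a x y
  · exact A.measF a (a + m) x y (Nat.le_add_right _ _)
  · exact measurable_const

lemma hw_le {a m : ℕ} (hm : Λ.s1 ≤ m) (w : Ω → S → ℝ≥0∞) (ω : Ω) (y : S) :
    Λ.hw a m w ω y ≤ A.push a (a + m) w ω y := by
  unfold hw KerSys.push
  refine ENNReal.tsum_le_tsum fun x => ?_
  gcongr
  exact hk_le hm ω x y

lemma hw_wt {a m : ℕ} (hm : Λ.s1 ≤ m) {w : Ω → S → ℝ≥0∞} (hw : A.Wt a w) :
    A.Wt (a + m) (Λ.hw a m w) where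
  meas y := by
    unfold Lat.hw
    refine Measurable.ennreal_tsum fun x => ?_
    exact ((hw.meas x).mono (A.F.mono (Nat.le_add_right _ _)) le_rfl).mul (hk_meas hm x y)
  supp ω y hy := by
    refine le_antisymm ((hw_le hm w ω y).trans ?_) zero_le
    exact (Wt.push (Nat.le_add_right _ _) hw).supp ω y hy |>.le

lemma st_up (w : Ω → S → ℝ≥0∞) (ω : Ω) (y : S) : Λ.st w ω (Λ.up y) = Λ.κ0 * w ω y := by
  classical
  unfold st
  rw [tsum_eq_single y]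
  · simp
  · intro y' hy'
    rw [if_neg fun h => hy' (Λ.inj h)]

lemma st_ne {w : Ω → S → ℝ≥0∞} {ω : Ω} {z : S} (h : Λ.st w ω z ≠ 0) :
    ∃ y, Λ.up y = z ∧ w ω y ≠ 0 := by
  classical
  by_contra hne
  push Not at hne
  refine h ?_
  unfold st
  rw [ENNReal.tsum_eq_zero]
  intro y
  split_ifs with h1
  · rw [hne y h1, mul_zero]
  · rfl

lemma tot_st (w : Ω → S → ℝ≥0∞) (ω : Ω) : tot (Λ.st w) ω = Λ.κ0 * tot w ω := by
  classical
  unfold tot st
  rw [ENNReal.tsum_comm, ← ENNReal.tsum_mul_left]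
  refine tsum_congr fun y => ?_
  rw [tsum_eq_single (Λ.up y)]
  · simp
  · intro z hz
    rw [if_neg (Ne.symm hz)]

lemma st_wt {b : ℕ} {w : Ω → S → ℝ≥0∞} (hw : A.Wt b w) : A.Wt (b + 1) (Λ.st w) where
  meas z := by
    classical
    unfold st
    refine Measurable.ennreal_tsum fun y => ?_
    split_ifs
    · exact ((hw.meas y).mono (A.F.mono (Nat.le_add_right _ _)) le_rfl).const_mul _
    · exact measurable_const
  supp ω z hz := by
    by_contra hne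
    obtain ⟨y, rfl, hy⟩ := st_ne hne
    refine hy (hw.supp ω y fun hyL => hz ?_)
    exact Λ.upL b y hyL

lemma st_le {b : ℕ} {w : Ω → S → ℝ≥0∞} (hw : A.Wt b w) (ω : Ω) (z : S) :
    Λ.st w ω z ≤ A.push b (b + 1) w ω z := by
  classical
  unfold st KerSys.push
  refine ENNReal.tsum_le_tsum fun y => ?_
  split_ifs with h
  · subst h
    by_cases hy : y ∈ A.L b
    · rw [mul_comm]
      gcongr
      exact Λ.hup b ω y hy
    · rw [hw.supp ω y hy]; simp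
  · exact zero_le

lemma nw_wt {a m : ℕ} (hm : Λ.s1 ≤ m) {w : Ω → S → ℝ≥0∞} (hw : A.Wt a w) :
    A.Wt (a + m + 1) (Λ.nw a m w) := st_wt (hw_wt hm hw)

lemma tot_nw (a m : ℕ) (w : Ω → S → ℝ≥0∞) (ω : Ω) :
    tot (Λ.nw a m w) ω = Λ.κ0 * tot (Λ.hw a m w) ω := tot_st _ _

lemma nw_lat {a m : ℕ} (hm : Λ.s1 ≤ m) {w : Ω → S → ℝ≥0∞} {ω : Ω} {z : S}
    (h : Λ.nw a m w ω z ≠ 0) : ∃ x, w ω x ≠ 0 ∧ |Λ.lat z - Λ.lat x - Λ.cen m| ≤ Λ.D := by
  obtain ⟨y, rfl, hy⟩ := st_ne h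
  unfold hw at hy
  rw [ne_eq, ENNReal.tsum_eq_zero] at hy
  push Not at hy
  obtain ⟨x, hx⟩ := hy
  have h1 : w ω x ≠ 0 := left_ne_zero_of_mul hx
  have h2 : Λ.hk a m ω x y ≠ 0 := right_ne_zero_of_mul hx
  refine ⟨x, h1, ?_⟩
  rw [Λ.lat_up]
  exact hk_lat hm h2

lemma nw_le {a m : ℕ} (hm : Λ.s1 ≤ m) {w : Ω → S → ℝ≥0∞} (hw : A.Wt a w) :
    ∀ᵐ ω ∂P, ∀ z, Λ.nw a m w ω z ≤ A.push a (a + m + 1) w ω z := by
  filter_upwards [A.comp a (a + m) (a + m + 1) (Nat.le_add_right _ _) (Nat.le_succ _)] with ω hω z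
  refine (st_le (hw_wt hm hw) ω z).trans ?_
  unfold KerSys.push
  calc ∑' y, Λ.hw a m w ω y * A.G (a + m) (a + m + 1) ω y z
      ≤ ∑' y, (∑' x, w ω x * A.G a (a + m) ω x y) * A.G (a + m) (a + m + 1) ω y z := by
        refine ENNReal.tsum_le_tsum fun y => ?_
        gcongr
        exact hw_le hm w ω y
    _ = ∑' x, w ω x * ∑' y, A.G a (a + m) ω x y * A.G (a + m) (a + m + 1) ω y z := by
        simp_rw [← ENNReal.tsum_mul_right, ← ENNReal.tsum_mul_left]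
        rw [ENNReal.tsum_comm]
        refine tsum_congr fun x => tsum_congr fun y => ?_
        ring
    _ ≤ ∑' x, w ω x * A.G a (a + m + 1) ω x z := by
        refine ENNReal.tsum_le_tsum fun x => ?_
        gcongr
        exact hω x z

lemma E_ge {a : ℕ} {w : Ω → S → ℝ≥0∞} (hw : A.Wt a w) (ω : Ω) : Λ.e0 * tot w ω ≤ Λ.E a w ω := by
  unfold E tot Lat.hw
  rw [ENNReal.tsum_comm, ← ENNReal.tsum_mul_left]
  refine ENNReal.tsum_le_tsum fun x => ?_
  rw [ENNReal.tsum_mul_left, mul_comm]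
  by_cases hx : x ∈ A.L a
  · gcongr
    have : ∀ y, Λ.hk a Λ.s1 ω x y = Λ.C a ω x y := fun y => by unfold hk; rw [if_pos le_rfl]
    simp_rw [this]
    exact Λ.C_ge a ω x hx
  · rw [hw.supp ω x hx]; simp

lemma tot_hw_le {a m : ℕ} (hm : Λ.s1 ≤ m) (w : Ω → S → ℝ≥0∞) (ω : Ω) :
    tot (Λ.hw a m w) ω ≤ tot w ω :=
  (ENNReal.tsum_le_tsum fun y => hw_le hm w ω y).trans
    (A.tot_push_le (Nat.le_add_right _ _) w ω)

lemma E_le (a : ℕ) (w : Ω → S → ℝ≥0∞) (ω : Ω) : Λ.E a w ω ≤ tot w ω := tot_hw_le le_rfl w ω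

end Lat

/-- mass at the top level `c` -/
noncomputable def Mt (A : KerSys S P) (a c : ℕ) (w : Ω → S → ℝ≥0∞) (ω : Ω) : ℝ≥0∞ :=
  if c ≤ a then tot w ω else tot (A.push a c w) ω

lemma tot_mono {w w' : Ω → S → ℝ≥0∞} {ω : Ω} (h : ∀ x, w ω x ≤ w' ω x) : tot w ω ≤ tot w' ω :=
  ENNReal.tsum_le_tsum h

/-- composition and monotonicity of the push -/
lemma Mt_mono (A : KerSys S P) {a l c : ℕ} (hal : a ≤ l) {w w' : Ω → S → ℝ≥0∞} :
    ∀ᵐ ω ∂P, (∀ z, w' ω z ≤ A.push a l w ω z) → Mt A l c w' ω ≤ Mt A a c w ω := by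
  by_cases hlc : l ≤ c
  · filter_upwards [A.comp a l c hal hlc] with ω hω h
    unfold Mt
    by_cases hcl : c ≤ l
    · rw [if_pos hcl]
      have hcl' : c = l := le_antisymm hcl hlc
      subst hcl'
      split_ifs with hca
      · exact (tot_mono h).trans (A.tot_push_le hal w ω)
      · exact tot_mono h
    · rw [if_neg hcl, if_neg (fun hca => hcl (hca.trans hal))]
      unfold tot
      refine ENNReal.tsum_le_tsum fun z => ?_
      unfold KerSys.push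
      calc ∑' y, w' ω y * A.G l c ω y z
          ≤ ∑' y, (∑' x, w ω x * A.G a l ω x y) * A.G l c ω y z := by
            refine ENNReal.tsum_le_tsum fun y => ?_
            gcongr
            exact h y
        _ = ∑' x, w ω x * ∑' y, A.G a l ω x y * A.G l c ω y z := by
            simp_rw [← ENNReal.tsum_mul_right, ← ENNReal.tsum_mul_left]
            rw [ENNReal.tsum_comm]
            refine tsum_congr fun x => tsum_congr fun y => ?_
            ring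
        _ ≤ ∑' x, w ω x * A.G a c ω x z := by
            refine ENNReal.tsum_le_tsum fun x => ?_
            gcongr
            exact hω x z
  · push Not at hlc
    refine Eventually.of_forall fun ω h => ?_
    unfold Mt
    rw [if_pos hlc.le]
    split_ifs with hca
    · exact (tot_mono h).trans (A.tot_push_le hal w ω)
    · refine (tot_mono h).trans ?_
      rw [tot_push, tot_push]
      refine ENNReal.tsum_le_tsum fun x => ?_
      gcongr
      exact A.anti a c l ω x (le_of_not_ge hca) hlc.le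

/-! ### states -/

/-- a state: `k` weights at level `a`, supported in deterministic lateral intervals with gaps
`≥ g`, seen on `φ ≠ 0` -/
structure Stt (Λ : Lat A) {k : ℕ} (g : ℤ) (a : ℕ) (φ : Ω → ℝ≥0∞) (W : Fin k → Ω → S → ℝ≥0∞) :
    Prop where
  φm : Measurable[A.F a] φ
  wt : ∀ j, A.Wt a (W j)
  ne : ∀ᵐ ω ∂P, φ ω ≠ 0 → ∀ j, tot (W j) ω ≠ 0 ∧ tot (W j) ω ≠ ∞
  sep : ∃ lo hi : Fin k → ℤ, (∀ i j, i ≠ j → hi i + g ≤ lo j ∨ hi j + g ≤ lo i) ∧
    ∀ᵐ ω ∂P, φ ω ≠ 0 → ∀ j x, W j ω x ≠ 0 → lo j ≤ Λ.lat x ∧ Λ.lat x ≤ hi j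

lemma Stt.mono {Λ : Lat A} {k : ℕ} {g g' : ℤ} {a : ℕ} {φ φ' : Ω → ℝ≥0∞} {W : Fin k → Ω → S → ℝ≥0∞}
    (h : Stt Λ g a φ W) (hg : g' ≤ g) (hφ' : Measurable[A.F a] φ')
    (hφ : ∀ ω, φ' ω ≠ 0 → φ ω ≠ 0) : Stt Λ g' a φ' W where
  φm := hφ'
  wt := h.wt
  ne := by filter_upwards [h.ne] with ω hω h' using hω (hφ ω h')
  sep := by
    obtain ⟨lo, hi, h1, h2⟩ := h.sep
    refine ⟨lo, hi, fun i j hij => ?_, ?_⟩
    · rcases h1 i j hij with h3 | h3
      · left; omega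
      · right; omega
    · filter_upwards [h2] with ω hω h' using hω (hφ ω h')

/-- age `m` is bad: some unit has home mass below a quarter of its early mass -/
def bad (Λ : Lat A) {k : ℕ} (a : ℕ) (W : Fin k → Ω → S → ℝ≥0∞) (m : ℕ) : Set Ω :=
  {ω | ∃ j, tot (Λ.hw a m (W j)) ω * 4 < Λ.E a (W j) ω}

/-- piece: the epoch ends at age `m` -/
def pc (Λ : Lat A) {k : ℕ} (a : ℕ) (W : Fin k → Ω → S → ℝ≥0∞) (m : ℕ) : Set Ω :=
  {ω | (∀ m', Λ.s1 < m' → m' < m → ω ∉ bad Λ a W m') ∧ (m < Λ.N → ω ∈ bad Λ a W m)}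

/-- late event -/
def late (Λ : Lat A) {k : ℕ} (a : ℕ) (W : Fin k → Ω → S → ℝ≥0∞) : Set Ω :=
  {ω | ∃ m, Λ.s1 < m ∧ m < Λ.N ∧ ω ∈ bad Λ a W m}

variable {Λ}

lemma meas_bad {k : ℕ} {a m : ℕ} (hm : Λ.s1 ≤ m) {W : Fin k → Ω → S → ℝ≥0∞}
    (hW : ∀ j, A.Wt a (W j)) : MeasurableSet[A.F (a + m)] (bad Λ a W m) := by
  unfold bad
  rw [setOf_exists]
  refine MeasurableSet.iUnion fun j => ?_
  refine measurableSet_lt ?_ ?_
  · exact (Lat.hw_wt hm (hW j)).meas_tot.mul_const _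
  · exact (Lat.hw_wt le_rfl (hW j)).meas_tot.mono (A.F.mono (by omega)) le_rfl

lemma meas_pc {k : ℕ} {a m : ℕ} (hm : Λ.s1 < m) {W : Fin k → Ω → S → ℝ≥0∞}
    (hW : ∀ j, A.Wt a (W j)) : MeasurableSet[A.F (a + m)] (pc Λ a W m) := by
  unfold pc
  refine MeasurableSet.inter ?_ ?_
  · change MeasurableSet[A.F (a + m)] {ω | ∀ m', Λ.s1 < m' → m' < m → ω ∉ bad Λ a W m'}
    have : {ω | ∀ m', Λ.s1 < m' → m' < m → ω ∉ bad Λ a W m'}
        = ⋂ m', ⋂ (_ : Λ.s1 < m'), ⋂ (_ : m' < m), (bad Λ a W m')ᶜ := by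
      ext ω; simp
    rw [this]
    refine MeasurableSet.iInter fun m' => MeasurableSet.iInter fun h1 =>
      MeasurableSet.iInter fun h2 => MeasurableSet.compl ?_
    exact A.F.mono (by omega) _ (meas_bad h1.le hW)
  · change MeasurableSet[A.F (a + m)] {ω | m < Λ.N → ω ∈ bad Λ a W m}
    by_cases h : m < Λ.N
    · simpa [h] using meas_bad hm.le hW
    · simp [h]

lemma exists_pc {k : ℕ} (a : ℕ) (W : Fin k → Ω → S → ℝ≥0∞) (ω : Ω) :
    ∃ m ∈ Finset.Ioc Λ.s1 Λ.N, ω ∈ pc Λ a W m := by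
  classical
  by_cases h : ∃ m, Λ.s1 < m ∧ m < Λ.N ∧ ω ∈ bad Λ a W m
  · refine ⟨Nat.find h, ?_, ?_, ?_⟩
    · have := Nat.find_spec h
      rw [Finset.mem_Ioc]; omega
    · intro m' h1 h2 h3
      have := Nat.find_spec h
      exact Nat.find_min h h2 ⟨h1, by omega, h3⟩
    · intro _; exact (Nat.find_spec h).2.2
  · push Not at h
    refine ⟨Λ.N, ?_, fun m' h1 h2 => h m' h1 h2, fun h' => absurd h' (lt_irrefl _)⟩
    rw [Finset.mem_Ioc]
    exact ⟨Λ.s1N, le_rfl⟩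

lemma pc_unique {k : ℕ} {a : ℕ} {W : Fin k → Ω → S → ℝ≥0∞} {ω : Ω} {m m' : ℕ}
    (h1 : Λ.s1 < m) (h2 : m ≤ Λ.N) (h1' : Λ.s1 < m') (h2' : m' ≤ Λ.N)
    (h : ω ∈ pc Λ a W m) (h' : ω ∈ pc Λ a W m') : m = m' := by
  rcases lt_trichotomy m m' with hlt | heq | hgt
  · exact absurd (h.2 (by omega)) (h'.1 m h1 hlt)
  · exact heq
  · exact absurd (h'.2 (by omega)) (h.1 m' h1' hgt)

/-- the pieces split a function -/
lemma sum_pc_le {k : ℕ} (a : ℕ) (W : Fin k → Ω → S → ℝ≥0∞) (f : Ω → ℝ≥0∞) (ω : Ω) :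
    ∑ m ∈ Finset.Ioo Λ.s1 Λ.N, (pc Λ a W m).indicator f ω ≤ (late Λ a W).indicator f ω := by
  classical
  by_cases h : ∃ m ∈ Finset.Ioo Λ.s1 Λ.N, ω ∈ pc Λ a W m
  · obtain ⟨m, hm, hω⟩ := h
    rw [Finset.mem_Ioo] at hm
    rw [Finset.sum_eq_single m]
    · have : ω ∈ late Λ a W := ⟨m, hm.1, hm.2, hω.2 hm.2⟩
      rw [indicator_of_mem this, indicator_of_mem hω]
    · intro m' hm' hne
      rw [Finset.mem_Ioo] at hm'
      refine indicator_of_notMem (fun hω' => hne ?_) _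
      exact (pc_unique hm.1 hm.2.le hm'.1 hm'.2.le hω hω').symm
    · intro hm'
      exact absurd (Finset.mem_Ioo.2 hm) hm'
  · push Not at h
    rw [Finset.sum_eq_zero fun m hm => indicator_of_notMem (h m hm) _]
    exact zero_le

/-- on a piece every restart weight is at least `κ0 / 4` of the early mass -/
lemma nw_ge {k : ℕ} {a m : ℕ} (hm : Λ.s1 < m) {W : Fin k → Ω → S → ℝ≥0∞} {ω : Ω}
    (h : ω ∈ pc Λ a W m) (j : Fin k) :
    Λ.κ0 * Λ.E a (W j) ω ≤ 4 * tot (Λ.nw a (m - 1) (W j)) ω := by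
  rw [Lat.tot_nw]
  have h1 : Λ.E a (W j) ω ≤ tot (Λ.hw a (m - 1) (W j)) ω * 4 := by
    rcases eq_or_lt_of_le (Nat.le_sub_one_of_lt hm) with h2 | h2
    · rw [← h2]
      change Λ.E a (W j) ω ≤ Λ.E a (W j) ω * 4
      exact le_mul_of_one_le_right zero_le (by norm_num)
    · have := h.1 (m - 1) h2 (by omega)
      unfold bad at this
      simp only [mem_setOf_eq, not_exists, not_lt] at this
      exact this j
  calc Λ.κ0 * Λ.E a (W j) ω ≤ Λ.κ0 * (tot (Λ.hw a (m - 1) (W j)) ω * 4) := by gcongr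
    _ = _ := by ring

/-- the restart state -/
lemma Stt.next {k : ℕ} {g : ℤ} {a m : ℕ} (hm : Λ.s1 < m) {φ : Ω → ℝ≥0∞}
    {W : Fin k → Ω → S → ℝ≥0∞} (h : Stt Λ (g + 2 * Λ.D) a φ W) :
    Stt Λ g (a + m) ((pc Λ a W m).indicator φ) (fun j => Λ.nw a (m - 1) (W j)) := by
  have hm1 : Λ.s1 ≤ m - 1 := Nat.le_sub_one_of_lt hm
  have hlev : a + (m - 1) + 1 = a + m := by omega
  refine ⟨?_, ?_, ?_, ?_⟩
  · exact (h.φm.mono (A.F.mono (Nat.le_add_right _ _)) le_rfl).indicator (meas_pc hm h.wt)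
  · intro j
    rw [← hlev]
    exact Lat.nw_wt hm1 (h.wt j)
  · filter_upwards [h.ne] with ω hω h' j
    have hpc : ω ∈ pc Λ a W m := by
      by_contra hne
      exact h' (indicator_of_notMem hne _)
    have hφ : φ ω ≠ 0 := by rwa [indicator_of_mem hpc] at h'
    obtain ⟨h0, ht⟩ := hω hφ j
    constructor
    · intro h0'
      have h2 := nw_ge hm hpc j
      rw [h0', mul_zero] at h2
      have h3 : Λ.κ0 * Λ.E a (W j) ω ≠ 0 := by
        refine mul_ne_zero Λ.κ0_ne ?_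
        intro hE
        have := Lat.E_ge (Λ := Λ) (h.wt j) ω
        rw [hE] at this
        exact mul_ne_zero Λ.e0_ne h0 (le_antisymm this zero_le)
      exact h3 (le_antisymm h2 zero_le)
    · rw [Lat.tot_nw]
      refine ne_top_of_le_ne_top ht ?_
      calc Λ.κ0 * tot (Λ.hw a (m - 1) (W j)) ω ≤ 1 * tot (W j) ω := by
            gcongr
            · exact Λ.κ0_le
            · exact Lat.tot_hw_le hm1 _ _
        _ = _ := one_mul _
  · obtain ⟨lo, hi, h1, h2⟩ := h.sep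
    refine ⟨fun j => lo j + Λ.cen (m - 1) - Λ.D, fun j => hi j + Λ.cen (m - 1) + Λ.D,
      fun i j hij => ?_, ?_⟩
    · rcases h1 i j hij with h3 | h3
      · left; simp only; omega
      · right; simp only; omega
    · filter_upwards [h2] with ω hω h' j z hz
      have hpc : ω ∈ pc Λ a W m := by
        by_contra hne
        exact h' (indicator_of_notMem hne _)
      have hφ : φ ω ≠ 0 := by rwa [indicator_of_mem hpc] at h'
      obtain ⟨x, hx, hxz⟩ := Lat.nw_lat hm1 hz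
      obtain ⟨h3, h4⟩ := hω hφ j x hx
      rw [abs_le] at hxz
      constructor <;> omega

/-- the loss factor of an epoch -/
noncomputable def Y (Λ : Lat A) {k : ℕ} (a : ℕ) (W : Fin k → Ω → S → ℝ≥0∞) (ω : Ω) : ℝ≥0∞ :=
  ∏ j, (4 * Λ.κ0⁻¹ * (tot (W j) ω / Λ.E a (W j) ω))

lemma meas_Y {k : ℕ} {a : ℕ} {W : Fin k → Ω → S → ℝ≥0∞} (hW : ∀ j, A.Wt a (W j)) :
    Measurable[A.F (a + Λ.s1)] (Y Λ a W) := by
  unfold Y
  refine Finset.measurable_prod _ fun j _ => ?_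
  refine Measurable.const_mul ?_ _
  exact ((hW j).meas_tot.mono (A.F.mono (Nat.le_add_right _ _)) le_rfl).div
    (Lat.hw_wt le_rfl (hW j)).meas_tot

/-- the inputs of one epoch -/
structure Inp (Λ : Lat A) (k : ℕ) (g0 : ℤ) (θ : ℝ) (K2 κ2 : ℝ≥0∞) : Prop where
  mom : ∀ (a : ℕ) (φ : Ω → ℝ≥0∞) (W : Fin k → Ω → S → ℝ≥0∞), Stt Λ g0 a φ W →
    ∫⁻ ω, φ ω * Y Λ a W ω ^ (2 * θ) ∂P ≤ K2 * ∫⁻ ω, φ ω ∂P
  late : ∀ (a : ℕ) (φ : Ω → ℝ≥0∞) (W : Fin k → Ω → S → ℝ≥0∞), Stt Λ g0 a φ W →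
    ∫⁻ ω, (late Λ a W).indicator φ ω ∂P ≤ κ2 * ∫⁻ ω, φ ω ∂P

/-- the event that the product of the top masses is small -/
def TT (A : KerSys S P) {k : ℕ} (a c : ℕ) (Z : Ω → ℝ≥0∞) (W : Fin k → Ω → S → ℝ≥0∞) : Set Ω :=
  {ω | ∏ j, Mt A a c (W j) ω ≤ Z ω * ∏ j, tot (W j) ω}

lemma meas_Mt {a c : ℕ} {w : Ω → S → ℝ≥0∞} (hw : A.Wt a w) : Measurable (Mt A a c w) := by
  by_cases h : c ≤ a
  · have : Mt A a c w = fun ω => tot w ω := by funext ω; unfold Mt; rw [if_pos h]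
    rw [this]
    exact hw.meas_tot.mono (A.F.le a) le_rfl
  · have : Mt A a c w = fun ω => tot (A.push a c w) ω := by funext ω; unfold Mt; rw [if_neg h]
    rw [this]
    exact (Wt.push (le_of_not_ge h) hw).meas_tot.mono (A.F.le c) le_rfl

lemma meas_TT {k : ℕ} {a c : ℕ} {Z : Ω → ℝ≥0∞} (hZ : Measurable Z)
    {W : Fin k → Ω → S → ℝ≥0∞} (hW : ∀ j, A.Wt a (W j)) : MeasurableSet (TT A a c Z W) := by
  refine measurableSet_le (Finset.measurable_prod _ fun j _ => meas_Mt (hW j)) ?_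
  exact hZ.mul (Finset.measurable_prod _ fun j _ => (hW j).meas_tot.mono (A.F.le a) le_rfl)

/-- one epoch, pointwise -/
lemma TT_sub {k : ℕ} {g : ℤ} {a c : ℕ} {φ Z : Ω → ℝ≥0∞} {W : Fin k → Ω → S → ℝ≥0∞}
    (h : Stt Λ g a φ W) :
    ∀ᵐ ω ∂P, (TT A a c Z W).indicator φ ω ≤ ∑ m ∈ Finset.Ioc Λ.s1 Λ.N,
      (TT A (a + m) c (fun ω => Z ω * Y Λ a W ω) (fun j => Λ.nw a (m - 1) (W j))).indicator
        ((pc Λ a W m).indicator φ) ω := by
  have hMt : ∀ᵐ ω ∂P, ∀ m : ℕ, Λ.s1 < m → ∀ j, Mt A (a + m) c (Λ.nw a (m - 1) (W j)) ω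
      ≤ Mt A a c (W j) ω := by
    rw [ae_all_iff]
    intro m
    by_cases hm : Λ.s1 < m
    · have hm1 : Λ.s1 ≤ m - 1 := Nat.le_sub_one_of_lt hm
      have hlev : a + (m - 1) + 1 = a + m := by omega
      have h1 : ∀ᵐ ω ∂P, ∀ j, ∀ z, Λ.nw a (m - 1) (W j) ω z ≤ A.push a (a + m) (W j) ω z := by
        rw [ae_all_iff]
        intro j
        have := Lat.nw_le (Λ := Λ) hm1 (h.wt j)
        rwa [hlev] at this
      have h2 : ∀ᵐ ω ∂P, ∀ j, (∀ z, Λ.nw a (m - 1) (W j) ω z ≤ A.push a (a + m) (W j) ω z) →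
          Mt A (a + m) c (Λ.nw a (m - 1) (W j)) ω ≤ Mt A a c (W j) ω := by
        rw [ae_all_iff]
        intro j
        exact Mt_mono A (Nat.le_add_right _ _)
      filter_upwards [h1, h2] with ω h1 h2 _ j using h2 j (h1 j)
    · exact Eventually.of_forall fun ω hm' => absurd hm' hm
  filter_upwards [hMt, h.ne] with ω hω hne
  by_cases hT : ω ∈ TT A a c Z W
  swap
  · rw [indicator_of_notMem hT]; exact zero_le
  rw [indicator_of_mem hT]
  by_cases hφ : φ ω = 0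
  · rw [hφ]; exact zero_le
  obtain ⟨m, hm, hpc⟩ := exists_pc (Λ := Λ) a W ω
  have hm' := Finset.mem_Ioc.1 hm
  have key : ω ∈ TT A (a + m) c (fun ω => Z ω * Y Λ a W ω) (fun j => Λ.nw a (m - 1) (W j)) := by
    have h1 : ∏ j, Mt A (a + m) c (Λ.nw a (m - 1) (W j)) ω ≤ ∏ j, Mt A a c (W j) ω :=
      Finset.prod_le_prod' fun j _ => hω m hm'.1 j
    have h2 : ∏ j, tot (W j) ω ≤ Y Λ a W ω * ∏ j, tot (Λ.nw a (m - 1) (W j)) ω := by
      unfold Y
      rw [← Finset.prod_mul_distrib]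
      refine Finset.prod_le_prod' fun j _ => ?_
      obtain ⟨h0, ht⟩ := hne hφ j
      have hE0 : Λ.E a (W j) ω ≠ 0 := by
        intro hE
        have := Lat.E_ge (Λ := Λ) (h.wt j) ω
        rw [hE] at this
        exact mul_ne_zero Λ.e0_ne h0 (le_antisymm this zero_le)
      have hEt : Λ.E a (W j) ω ≠ ∞ := ne_top_of_le_ne_top ht (Lat.E_le a (W j) ω)
      have hκt : Λ.κ0 ≠ ∞ := ne_top_of_le_ne_top ENNReal.one_ne_top Λ.κ0_le
      calc tot (W j) ω = Λ.κ0⁻¹ * (tot (W j) ω / Λ.E a (W j) ω) * (Λ.κ0 * Λ.E a (W j) ω) := by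
            rw [show Λ.κ0⁻¹ * (tot (W j) ω / Λ.E a (W j) ω) * (Λ.κ0 * Λ.E a (W j) ω)
              = (Λ.κ0⁻¹ * Λ.κ0) * (tot (W j) ω / Λ.E a (W j) ω * Λ.E a (W j) ω) by ring,
              ENNReal.inv_mul_cancel Λ.κ0_ne hκt, one_mul, ENNReal.div_mul_cancel hE0 hEt]
        _ ≤ Λ.κ0⁻¹ * (tot (W j) ω / Λ.E a (W j) ω) * (4 * tot (Λ.nw a (m - 1) (W j)) ω) :=
            mul_le_mul_right (nw_ge hm'.1 hpc j) _
        _ = _ := by ring
    have hT' : ∏ j, Mt A a c (W j) ω ≤ Z ω * ∏ j, tot (W j) ω := hT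
    change ∏ j, Mt A (a + m) c (Λ.nw a (m - 1) (W j)) ω
      ≤ Z ω * Y Λ a W ω * ∏ j, tot (Λ.nw a (m - 1) (W j)) ω
    calc _ ≤ ∏ j, Mt A a c (W j) ω := h1
      _ ≤ Z ω * ∏ j, tot (W j) ω := hT'
      _ ≤ Z ω * (Y Λ a W ω * ∏ j, tot (Λ.nw a (m - 1) (W j)) ω) := by gcongr
      _ = _ := by ring
  refine le_trans ?_ (Finset.single_le_sum (f := fun m => (TT A (a + m) c
      (fun ω => Z ω * Y Λ a W ω) (fun j => Λ.nw a (m - 1) (W j))).indicator
        ((pc Λ a W m).indicator φ) ω) (fun _ _ => zero_le) hm)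
  rw [indicator_of_mem key, indicator_of_mem hpc]

lemma le_quad (t y : ℝ≥0∞) (ht0 : t ≠ 0) (htt : t ≠ ∞) : y ≤ t * y ^ 2 + t⁻¹ := by
  rcases le_total y t⁻¹ with h | h
  · exact h.trans le_add_self
  · refine le_trans ?_ le_self_add
    calc y = t * t⁻¹ * y := by rw [ENNReal.mul_inv_cancel ht0 htt, one_mul]
      _ ≤ t * y * y := by gcongr
      _ = _ := by ring

/-- error term -/
noncomputable def err (κ2 : ℝ≥0∞) (e s : ℕ) : ℝ≥0∞ := (2 * κ2) ^ e * (κ2⁻¹) ^ s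

/-- **the epoch machine** -/
theorem units {k : ℕ} {g0 : ℤ} {θ : ℝ} {K2 κ2 : ℝ≥0∞} (hI : Inp Λ k g0 θ K2 κ2) (hθ : 0 ≤ θ)
    (hK0 : K2 ≠ 0) (hKt : K2 ≠ ∞) (hκ0 : κ2 ≠ 0) (hκ1 : κ2 ≤ 1) (hsm : 16 * K2 * κ2 ≤ 1) :
    ∀ (e s a c : ℕ), c ≤ a + s * Λ.N → ∀ (φ Z : Ω → ℝ≥0∞) (W : Fin k → Ω → S → ℝ≥0∞),
      Stt Λ (g0 + 2 * Λ.D * e) a φ W → Measurable[A.F a] Z →
      ∫⁻ ω, (TT A a c Z W).indicator φ ω ∂P
        ≤ (2 * (1 + K2)) ^ s * ∫⁻ ω, φ ω * Z ω ^ θ ∂P + err κ2 e s * ∫⁻ ω, φ ω ∂P := by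
  intro e
  induction e with
  | zero =>
    intro s a c hc φ Z W hS hZ
    refine le_trans ?_ le_add_self
    have h1 : (1 : ℝ≥0∞) ≤ err κ2 0 s := by
      unfold err
      rw [pow_zero, one_mul]
      exact one_le_pow₀ (ENNReal.one_le_inv.2 hκ1)
    calc ∫⁻ ω, (TT A a c Z W).indicator φ ω ∂P ≤ ∫⁻ ω, φ ω ∂P :=
          lintegral_mono fun ω => indicator_le_self _ _ ω
      _ = 1 * ∫⁻ ω, φ ω ∂P := (one_mul _).symm
      _ ≤ _ := by gcongr
  | succ e ih =>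
    intro s
    cases s with
    | zero =>
      intro a c hc φ Z W hS hZ
      refine le_trans ?_ le_self_add
      rw [pow_zero, one_mul]
      refine lintegral_mono_ae ?_
      filter_upwards [hS.ne] with ω hω
      by_cases hT : ω ∈ TT A a c Z W
      swap
      · rw [indicator_of_notMem hT]; exact zero_le
      rw [indicator_of_mem hT]
      by_cases hφ : φ ω = 0
      · rw [hφ]; exact zero_le
      have hca : c ≤ a := by omega
      have h1 : ∏ j, Mt A a c (W j) ω ≤ Z ω * ∏ j, tot (W j) ω := hT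
      have h2 : ∀ j, Mt A a c (W j) ω = tot (W j) ω := fun j => by unfold Mt; rw [if_pos hca]
      simp_rw [h2] at h1
      have h3 : ∏ j, tot (W j) ω ≠ 0 := Finset.prod_ne_zero_iff.2 fun j _ => (hω hφ j).1
      have h4 : ∏ j, tot (W j) ω ≠ ∞ := ENNReal.prod_ne_top fun j _ => (hω hφ j).2
      have h5 : 1 ≤ Z ω := by
        by_contra hlt
        push Not at hlt
        have h6 : Z ω * ∏ j, tot (W j) ω < 1 * ∏ j, tot (W j) ω :=
          (ENNReal.mul_lt_mul_iff_left h3 h4).2 hlt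
        rw [one_mul] at h6
        exact absurd h1 (not_le.2 h6)
      have h7 : (1 : ℝ≥0∞) ≤ Z ω ^ θ := by
        rw [← ENNReal.one_rpow θ]
        exact ENNReal.rpow_le_rpow h5 hθ
      calc φ ω = φ ω * 1 := (mul_one _).symm
        _ ≤ φ ω * Z ω ^ θ := by gcongr
    | succ s =>
      intro a c hc φ Z W hS hZ
      have hφ0 : Measurable φ := hS.φm.mono (A.F.le a) le_rfl
      have hZ0 : Measurable Z := hZ.mono (A.F.le a) le_rfl
      have hY0 : Measurable (Y Λ a W) := (meas_Y hS.wt).mono (A.F.le _) le_rfl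
      have hpm : ∀ m ∈ Finset.Ioc Λ.s1 Λ.N, MeasurableSet (pc Λ a W m) := fun m hm =>
        A.F.le _ _ (meas_pc (Finset.mem_Ioc.1 hm).1 hS.wt)
      have hS' : Stt Λ ((g0 + 2 * Λ.D * e) + 2 * Λ.D) a φ W := by
        have : g0 + 2 * Λ.D * ((e + 1 : ℕ) : ℤ) = (g0 + 2 * Λ.D * e) + 2 * Λ.D := by
          push_cast; ring
        rwa [this] at hS
      have hS0 : Stt Λ g0 a φ W := by
        refine hS.mono ?_ hS.φm fun _ h => h
        have := Λ.D0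
        have : 0 ≤ 2 * Λ.D * ((e + 1 : ℕ) : ℤ) := by positivity
        omega
      -- the restart states
      have hnext : ∀ m ∈ Finset.Ioc Λ.s1 Λ.N, Stt Λ (g0 + 2 * Λ.D * e) (a + m)
          ((pc Λ a W m).indicator φ) (fun j => Λ.nw a (m - 1) (W j)) := fun m hm =>
        Stt.next (Finset.mem_Ioc.1 hm).1 hS'
      have hZY : ∀ m ∈ Finset.Ioc Λ.s1 Λ.N,
          Measurable[A.F (a + m)] (fun ω => Z ω * Y Λ a W ω) := fun m hm => by
        have hm' := Finset.mem_Ioc.1 hm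
        exact (hZ.mono (A.F.mono (by omega)) le_rfl).mul
          ((meas_Y hS.wt).mono (A.F.mono (by omega)) le_rfl)
      set q : ℕ → Ω → ℝ≥0∞ := fun m ω => (TT A (a + m) c (fun ω => Z ω * Y Λ a W ω)
        (fun j => Λ.nw a (m - 1) (W j))).indicator ((pc Λ a W m).indicator φ) ω with hq
      have hqm : ∀ m ∈ Finset.Ioc Λ.s1 Λ.N, Measurable (q m) := fun m hm =>
        (hφ0.indicator (hpm m hm)).indicator
          (meas_TT ((hZY m hm).mono (A.F.le _) le_rfl) (hnext m hm).wt)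
      have h1 : ∫⁻ ω, (TT A a c Z W).indicator φ ω ∂P
          ≤ ∑ m ∈ Finset.Ioc Λ.s1 Λ.N, ∫⁻ ω, q m ω ∂P := by
        rw [← lintegral_finset_sum _ hqm]
        exact lintegral_mono_ae (TT_sub hS)
      have hIoc : Finset.Ioc Λ.s1 Λ.N = insert Λ.N (Finset.Ioo Λ.s1 Λ.N) :=
        (Finset.Ioo_insert_right Λ.s1N).symm
      have hNmem : Λ.N ∈ Finset.Ioc Λ.s1 Λ.N := Finset.mem_Ioc.2 ⟨Λ.s1N, le_rfl⟩
      have hNn : Λ.N ∉ Finset.Ioo Λ.s1 Λ.N := fun h => absurd (Finset.mem_Ioo.1 h).2 (lt_irrefl _)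
      have hsub : ∀ m ∈ Finset.Ioo Λ.s1 Λ.N, m ∈ Finset.Ioc Λ.s1 Λ.N := fun m hm => by
        rw [Finset.mem_Ioo] at hm
        rw [Finset.mem_Ioc]
        exact ⟨hm.1, hm.2.le⟩
      -- the induction hypothesis
      have hlate : ∀ m ∈ Finset.Ioo Λ.s1 Λ.N, ∫⁻ ω, q m ω ∂P
          ≤ (2 * (1 + K2)) ^ (s + 1) * ∫⁻ ω, (pc Λ a W m).indicator φ ω * (Z ω * Y Λ a W ω) ^ θ ∂P
            + err κ2 e (s + 1) * ∫⁻ ω, (pc Λ a W m).indicator φ ω ∂P := fun m hm =>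
        ih (s + 1) (a + m) c (by omega) _ _ _ (hnext m (hsub m hm)) (hZY m (hsub m hm))
      have hsch : ∫⁻ ω, q Λ.N ω ∂P
          ≤ (2 * (1 + K2)) ^ s * ∫⁻ ω, (pc Λ a W Λ.N).indicator φ ω * (Z ω * Y Λ a W ω) ^ θ ∂P
            + err κ2 e s * ∫⁻ ω, (pc Λ a W Λ.N).indicator φ ω ∂P := by
        refine ih s (a + Λ.N) c ?_ _ _ _ (hnext _ hNmem) (hZY _ hNmem)
        rw [add_mul, one_mul] at hc
        omega
      -- the weight ψ
      set ψ : Ω → ℝ≥0∞ := fun ω => φ ω * Z ω ^ θ with hψ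
      have hψF : Measurable[A.F a] ψ := hS.φm.mul (hZ.pow_const θ)
      have hψ0 : Measurable ψ := hψF.mono (A.F.le a) le_rfl
      have hSψ : Stt Λ g0 a ψ W := hS0.mono le_rfl hψF fun ω h => left_ne_zero_of_mul h
      have hmom := hI.mom a ψ W hSψ
      have hlat := hI.late a ψ W hSψ
      have hlatφ := hI.late a φ W hS0
      have hYθ : ∀ ω, Y Λ a W ω ^ (2 * θ) = (Y Λ a W ω ^ θ) ^ 2 := fun ω => by
        rw [← ENNReal.rpow_natCast, ← ENNReal.rpow_mul]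
        congr 1
        push_cast
        ring
      have hlm : MeasurableSet (late Λ a W) := by
        have : late Λ a W = ⋃ m, ⋃ (_ : Λ.s1 < m), ⋃ (_ : m < Λ.N), bad Λ a W m := by
          ext ω
          simp only [late, mem_setOf_eq, mem_iUnion, exists_prop]
        rw [this]
        exact MeasurableSet.iUnion fun m => MeasurableSet.iUnion fun h1 =>
          MeasurableSet.iUnion fun h2 => A.F.le _ _ (meas_bad h1.le hS.wt)
      have hsplit : ∀ ω, φ ω * (Z ω * Y Λ a W ω) ^ θ = ψ ω * Y Λ a W ω ^ θ := fun ω => by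
        rw [ENNReal.mul_rpow_of_nonneg _ _ hθ, hψ]
        ring
      -- (A1)
      have hA1 : ∫⁻ ω, (pc Λ a W Λ.N).indicator φ ω * (Z ω * Y Λ a W ω) ^ θ ∂P
          ≤ (1 + K2) * ∫⁻ ω, ψ ω ∂P := by
        calc ∫⁻ ω, (pc Λ a W Λ.N).indicator φ ω * (Z ω * Y Λ a W ω) ^ θ ∂P
            ≤ ∫⁻ ω, ψ ω + ψ ω * Y Λ a W ω ^ (2 * θ) ∂P := by
              refine lintegral_mono fun ω => ?_
              calc (pc Λ a W Λ.N).indicator φ ω * (Z ω * Y Λ a W ω) ^ θ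
                  ≤ φ ω * (Z ω * Y Λ a W ω) ^ θ := by
                    gcongr
                    exact indicator_le_self _ _ ω
                _ = ψ ω * Y Λ a W ω ^ θ := hsplit ω
                _ ≤ ψ ω * (1 * (Y Λ a W ω ^ θ) ^ 2 + 1⁻¹) := by
                    gcongr
                    exact le_quad 1 _ one_ne_zero ENNReal.one_ne_top
                _ = ψ ω + ψ ω * Y Λ a W ω ^ (2 * θ) := by
                    rw [hYθ, inv_one]; ring
          _ = ∫⁻ ω, ψ ω ∂P + ∫⁻ ω, ψ ω * Y Λ a W ω ^ (2 * θ) ∂P := lintegral_add_left hψ0 _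
          _ ≤ ∫⁻ ω, ψ ω ∂P + K2 * ∫⁻ ω, ψ ω ∂P := by gcongr
          _ = _ := by ring
      -- (A2)
      have hA2 : ∑ m ∈ Finset.Ioo Λ.s1 Λ.N,
          ∫⁻ ω, (pc Λ a W m).indicator φ ω * (Z ω * Y Λ a W ω) ^ θ ∂P
          ≤ 2⁻¹ * ∫⁻ ω, ψ ω ∂P := by
        have hsum : ∑ m ∈ Finset.Ioo Λ.s1 Λ.N,
            ∫⁻ ω, (pc Λ a W m).indicator φ ω * (Z ω * Y Λ a W ω) ^ θ ∂P
            = ∫⁻ ω, ∑ m ∈ Finset.Ioo Λ.s1 Λ.N,
              (pc Λ a W m).indicator φ ω * (Z ω * Y Λ a W ω) ^ θ ∂P :=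
          (lintegral_finset_sum (f := fun m ω =>
            (pc Λ a W m).indicator φ ω * (Z ω * Y Λ a W ω) ^ θ) _ fun m hm =>
            (hφ0.indicator (hpm m (hsub m hm))).mul ((hZ0.mul hY0).pow_const θ)).symm
        rw [hsum]
        set t : ℝ≥0∞ := (4 * K2)⁻¹ with ht
        have ht0 : t ≠ 0 := ENNReal.inv_ne_zero.2 (ENNReal.mul_ne_top (by norm_num) hKt)
        have htt : t ≠ ∞ := ENNReal.inv_ne_top.2 (mul_ne_zero (by norm_num) hK0)
        calc ∫⁻ ω, ∑ m ∈ Finset.Ioo Λ.s1 Λ.N,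
              (pc Λ a W m).indicator φ ω * (Z ω * Y Λ a W ω) ^ θ ∂P
            ≤ ∫⁻ ω, t * (ψ ω * Y Λ a W ω ^ (2 * θ)) + t⁻¹ * (late Λ a W).indicator ψ ω ∂P := by
              refine lintegral_mono fun ω => ?_
              rw [← Finset.sum_mul]
              have h2 : (∑ m ∈ Finset.Ioo Λ.s1 Λ.N, (pc Λ a W m).indicator φ ω)
                  ≤ (late Λ a W).indicator φ ω := sum_pc_le a W φ ω
              refine (mul_le_mul_left h2 _).trans ?_
              by_cases hl : ω ∈ late Λ a W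
              · rw [indicator_of_mem hl, indicator_of_mem hl, hsplit, hYθ]
                calc ψ ω * Y Λ a W ω ^ θ ≤ ψ ω * (t * (Y Λ a W ω ^ θ) ^ 2 + t⁻¹) := by
                      gcongr
                      exact le_quad t _ ht0 htt
                  _ = _ := by ring
              · rw [indicator_of_notMem hl, zero_mul]
                exact zero_le
          _ = t * ∫⁻ ω, ψ ω * Y Λ a W ω ^ (2 * θ) ∂P
              + t⁻¹ * ∫⁻ ω, (late Λ a W).indicator ψ ω ∂P := by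
              have hm1 : Measurable fun ω => ψ ω * Y Λ a W ω ^ (2 * θ) :=
                hψ0.mul (hY0.pow_const _)
              rw [lintegral_add_left (hm1.const_mul t), lintegral_const_mul _ hm1,
                lintegral_const_mul _ (hψ0.indicator hlm)]
          _ ≤ t * (K2 * ∫⁻ ω, ψ ω ∂P) + t⁻¹ * (κ2 * ∫⁻ ω, ψ ω ∂P) := by gcongr
          _ = (t * K2 + t⁻¹ * κ2) * ∫⁻ ω, ψ ω ∂P := by ring
          _ ≤ 2⁻¹ * ∫⁻ ω, ψ ω ∂P := by
              gcongr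
              have e1 : t * K2 = 4⁻¹ := by
                rw [ht, ENNReal.mul_inv (Or.inl (by norm_num)) (Or.inl (by norm_num)), mul_assoc,
                  ENNReal.inv_mul_cancel hK0 hKt, mul_one]
              have e2 : t⁻¹ * κ2 ≤ 4⁻¹ := by
                rw [ht, inv_inv]
                have h4 : (4 : ℝ≥0∞) * (4 * K2 * κ2) ≤ 1 := by
                  calc (4 : ℝ≥0∞) * (4 * K2 * κ2) = 16 * K2 * κ2 := by ring
                    _ ≤ 1 := hsm
                calc 4 * K2 * κ2 = 4⁻¹ * (4 * (4 * K2 * κ2)) := by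
                      rw [← mul_assoc (4⁻¹ : ℝ≥0∞) 4, ENNReal.inv_mul_cancel (by norm_num)
                        (by norm_num), one_mul]
                  _ ≤ 4⁻¹ * 1 := by gcongr
                  _ = 4⁻¹ := mul_one _
              calc t * K2 + t⁻¹ * κ2 ≤ 4⁻¹ + 4⁻¹ := by rw [e1]; gcongr
                _ = 2⁻¹ := by
                  rw [← two_mul, show (4 : ℝ≥0∞) = 2 * 2 by norm_num,
                    ENNReal.mul_inv (Or.inl (by norm_num)) (Or.inl (by norm_num)), ← mul_assoc,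
                    ENNReal.mul_inv_cancel (by norm_num) (by norm_num), one_mul]
      -- (A3)
      have hA3 : ∑ m ∈ Finset.Ioo Λ.s1 Λ.N, ∫⁻ ω, (pc Λ a W m).indicator φ ω ∂P
          ≤ κ2 * ∫⁻ ω, φ ω ∂P := by
        rw [← lintegral_finset_sum _ fun m hm => hφ0.indicator (hpm m (hsub m hm))]
        exact (lintegral_mono fun ω => sum_pc_le a W φ ω).trans hlatφ
      have hA4 : ∫⁻ ω, (pc Λ a W Λ.N).indicator φ ω ∂P ≤ ∫⁻ ω, φ ω ∂P :=
        lintegral_mono fun ω => indicator_le_self _ _ ω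
      have hK1 : (2 * (1 + K2)) ^ s * (1 + K2) = 2⁻¹ * (2 * (1 + K2)) ^ (s + 1) := by
        rw [pow_succ, show (2⁻¹ : ℝ≥0∞) * ((2 * (1 + K2)) ^ s * (2 * (1 + K2)))
          = (2⁻¹ * 2) * ((2 * (1 + K2)) ^ s * (1 + K2)) by ring,
          ENNReal.inv_mul_cancel (by norm_num) (by norm_num), one_mul]
      have hκt : κ2 ≠ ∞ := ne_top_of_le_ne_top ENNReal.one_ne_top hκ1
      have herr : err κ2 e s + err κ2 e (s + 1) * κ2 = err κ2 (e + 1) (s + 1) := by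
        unfold err
        have h3 : (κ2⁻¹) ^ s = (κ2⁻¹) ^ (s + 1) * κ2 := by
          rw [pow_succ, mul_assoc, ENNReal.inv_mul_cancel hκ0 hκt, mul_one]
        rw [h3]
        ring
      calc ∫⁻ ω, (TT A a c Z W).indicator φ ω ∂P
          ≤ ∑ m ∈ Finset.Ioc Λ.s1 Λ.N, ∫⁻ ω, q m ω ∂P := h1
        _ = ∫⁻ ω, q Λ.N ω ∂P + ∑ m ∈ Finset.Ioo Λ.s1 Λ.N, ∫⁻ ω, q m ω ∂P := by
            rw [hIoc, Finset.sum_insert hNn]
        _ ≤ ((2 * (1 + K2)) ^ s * ((1 + K2) * ∫⁻ ω, ψ ω ∂P) + err κ2 e s * ∫⁻ ω, φ ω ∂P)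
            + ((2 * (1 + K2)) ^ (s + 1) * (2⁻¹ * ∫⁻ ω, ψ ω ∂P)
              + err κ2 e (s + 1) * (κ2 * ∫⁻ ω, φ ω ∂P)) := by
            refine add_le_add (hsch.trans ?_) ((Finset.sum_le_sum hlate).trans ?_)
            · gcongr
            · rw [Finset.sum_add_distrib, ← Finset.mul_sum, ← Finset.mul_sum]
              gcongr
        _ = (2⁻¹ + 2⁻¹) * ((2 * (1 + K2)) ^ (s + 1) * ∫⁻ ω, ψ ω ∂P)
            + (err κ2 e s + err κ2 e (s + 1) * κ2) * ∫⁻ ω, φ ω ∂P := by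
            have h5 : (2 * (1 + K2)) ^ s * ((1 + K2) * ∫⁻ ω, ψ ω ∂P)
                = 2⁻¹ * (2 * (1 + K2)) ^ (s + 1) * ∫⁻ ω, ψ ω ∂P := by
              rw [← hK1]; ring
            rw [h5]
            ring
        _ = _ := by rw [ENNReal.inv_two_add_inv_two, one_mul, herr]

/-- **`k` static units**: all of them lose more than `x` only with probability
`K1^s e^{-θ k x} + error` -/
theorem units_min {k : ℕ} {g0 : ℤ} {θ : ℝ} {K2 κ2 : ℝ≥0∞} (hI : Inp Λ k g0 θ K2 κ2) (hθ : 0 ≤ θ)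
    (hK0 : K2 ≠ 0) (hKt : K2 ≠ ∞) (hκ0 : κ2 ≠ 0) (hκ1 : κ2 ≤ 1) (hsm : 16 * K2 * κ2 ≤ 1)
    {e s a c : ℕ} (hc : c ≤ a + s * Λ.N) {B : Set Ω} (hB : MeasurableSet[A.F a] B)
    {W : Fin k → Ω → S → ℝ≥0∞} (hS : Stt Λ (g0 + 2 * Λ.D * e) a (B.indicator 1) W) (x : ℝ) :
    P (B ∩ {ω | ∀ j, Mt A a c (W j) ω ≤ ENNReal.ofReal (Real.exp (-x)) * tot (W j) ω})
      ≤ ((2 * (1 + K2)) ^ s * ENNReal.ofReal (Real.exp (-(θ * k * x))) + err κ2 e s) * P B := by
  have hB0 : MeasurableSet B := A.F.le a _ hB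
  set z : ℝ≥0∞ := ENNReal.ofReal (Real.exp (-x)) with hz
  have h1 := units hI hθ hK0 hKt hκ0 hκ1 hsm e s a c hc (B.indicator 1) (fun _ => z ^ k) W hS
    measurable_const
  have hz1 : (z ^ k) ^ θ = ENNReal.ofReal (Real.exp (-(θ * k * x))) := by
    rw [hz, ← ENNReal.rpow_natCast, ← ENNReal.rpow_mul, ENNReal.ofReal_rpow_of_pos (Real.exp_pos _),
      ← Real.exp_mul]
    congr 2
    ring
  have h2 : ∫⁻ ω, B.indicator 1 ω ∂P = P B := by
    rw [lintegral_indicator_one hB0]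
  have hmT : MeasurableSet (TT A a c (fun _ => z ^ k) W) := meas_TT measurable_const hS.wt
  have h3 : ∫⁻ ω, (TT A a c (fun _ => z ^ k) W).indicator (B.indicator 1) ω ∂P
      = P (B ∩ TT A a c (fun _ => z ^ k) W) := by
    have : (TT A a c (fun _ => z ^ k) W).indicator (B.indicator (1 : Ω → ℝ≥0∞))
        = (B ∩ TT A a c (fun _ => z ^ k) W).indicator 1 := by
      rw [indicator_indicator, inter_comm]
    rw [this, lintegral_indicator_one (hB0.inter hmT)]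
  have h4 : ∫⁻ ω, B.indicator 1 ω * (z ^ k) ^ θ ∂P = (z ^ k) ^ θ * P B := by
    rw [lintegral_mul_const _ (measurable_one.indicator hB0), h2, mul_comm]
  rw [h3, h4, h2, hz1] at h1
  calc P (B ∩ {ω | ∀ j, Mt A a c (W j) ω ≤ z * tot (W j) ω})
      ≤ P (B ∩ TT A a c (fun _ => z ^ k) W) := by
        refine measure_mono (inter_subset_inter_right _ fun ω hω => ?_)
        change ∏ j, Mt A a c (W j) ω ≤ z ^ k * ∏ j, tot (W j) ω
        calc ∏ j, Mt A a c (W j) ω ≤ ∏ j, (z * tot (W j) ω) :=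
              Finset.prod_le_prod' fun j _ => hω j
          _ = z ^ k * ∏ j, tot (W j) ω := by
              rw [Finset.prod_mul_distrib, Finset.prod_const, Finset.card_univ, Fintype.card_fin]
    _ ≤ _ := h1
    _ = _ := by ring

end Crest.Agent.R154.Units195

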