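import Crest.Agent.R154.NBDefs_28
import Crest.Agent.R154.NBSurg_28
import Crest.Agent.R154.WordB_956

/-! Row 154, ROAD 801 (helper935): the two window lemmas on `IsUp h × IsDn h` (28's letters):
`win2` (X local) and `win3` (Y local, dyadic classes of the conditional tie weight). -/

set_option autoImplicit false

namespace Crest.Agent.R154.W23

open MeasureTheory ProbabilityTheory Crest.ProbabilityR.RandomEnvironment Crest.Agent.R154
open Crest.Agent.R154.Flux132 (lev opp)
open Crest.Agent.R154.Flux566 (lw endp sitesL)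
open Crest.Agent.R154.NB28
open scoped ENNReal

variable {d : ℕ}

/-! ### prefix-free sets -/

/-- prefix free -/
abbrev PF (S : Set (List (Step d))) : Prop := WordB956.PF S

lemma pf_eq {P : Set (List (Step d))} (hP : PF P) {l1 l2 m1 m2 : List (Step d)}
    (h : l1 ++ l2 = m1 ++ m2) (h1 : l1 ∈ P) (h2 : m1 ∈ P) : l1 = m1 ∧ l2 = m2 := by
  have hh : l1 = m1 := by
    rcases List.append_eq_append_iff.1 h with ⟨a, ha, _⟩ | ⟨a, ha, _⟩
    · have : a = [] := hP l1 h1 a (ha ▸ h2)
      rw [ha, this, List.append_nil]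
    · have : a = [] := hP m1 h2 a (ha ▸ h1)
      rw [ha, this, List.append_nil]
  subst hh
  exact ⟨rfl, List.append_cancel_left h⟩

open Classical in
/-- concatenations of a prefix-free set with anything are counted once -/
lemma conc_le (P : Set (List (Step d))) (hP : PF P) (R : Set (List (Step d)))
    (F : List (Step d) → ℝ≥0∞) (Q : List (Step d) → Set (List (Step d)))
    (h : ∀ l1 ∈ P, ∀ l2 ∈ Q l1, l1 ++ l2 ∈ R) :
    ∑' l1 : List (Step d), (if l1 ∈ P then ∑' l2 : List (Step d),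
        (if l2 ∈ Q l1 then F (l1 ++ l2) else 0) else 0)
      ≤ ∑' l : List (Step d), (if l ∈ R then F l else 0) := by
  set G : List (Step d) → ℝ≥0∞ := fun l => if l ∈ R then F l else 0 with hG
  have e1 : ∑' l1 : List (Step d), (if l1 ∈ P then ∑' l2 : List (Step d),
        (if l2 ∈ Q l1 then F (l1 ++ l2) else 0) else 0)
      = ∑' p : List (Step d) × List (Step d),
        (if p.1 ∈ P ∧ p.2 ∈ Q p.1 then G (p.1 ++ p.2) else 0) := by
    rw [ENNReal.tsum_prod (f := fun a b : List (Step d) =>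
      if a ∈ P ∧ b ∈ Q a then G (a ++ b) else 0)]
    refine tsum_congr fun l1 => ?_
    by_cases h1 : l1 ∈ P
    · simp only [h1, if_true, true_and]
      refine tsum_congr fun l2 => ?_
      by_cases h2 : l2 ∈ Q l1
      · simp only [h2, if_true, hG, h l1 h1 l2 h2]
      · simp [h2]
    · simp [h1]
  rw [e1]
  have e2 : ∑' p : List (Step d) × List (Step d),
        (if p.1 ∈ P ∧ p.2 ∈ Q p.1 then G (p.1 ++ p.2) else 0)
      = ∑' q : {p : List (Step d) × List (Step d) // p.1 ∈ P ∧ p.2 ∈ Q p.1},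
        G (q.1.1 ++ q.1.2) := by
    rw [← tsum_subtype_eq_of_support_subset (s := {p : List (Step d) × List (Step d) |
      p.1 ∈ P ∧ p.2 ∈ Q p.1})]
    · refine tsum_congr fun q => ?_
      exact if_pos q.2
    · intro p hp
      by_contra h
      exact hp (if_neg h)
  rw [e2]
  refine ENNReal.tsum_comp_le_tsum_of_injective
    (f := fun q : {p : List (Step d) × List (Step d) // p.1 ∈ P ∧ p.2 ∈ Q p.1} =>
      q.1.1 ++ q.1.2) ?_ G
  rintro ⟨⟨a, b⟩, ha, hb⟩ ⟨⟨a', b'⟩, ha', hb'⟩ hab
  obtain ⟨h1, h2⟩ := pf_eq hP hab ha ha'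
  simp only at h1 h2
  subst h1 h2
  rfl

open Classical in
/-- a sum over words with a prefix in `P` -/
lemma ext_le (S P : Set (List (Step d))) (h : ∀ l ∈ S, ∃ l1 ∈ P, ∃ l2, l = l1 ++ l2)
    (F G : List (Step d) → ℝ≥0∞)
    (hG : ∀ l1 ∈ P, ∑' l2 : List (Step d), (if l1 ++ l2 ∈ S then F (l1 ++ l2) else 0) ≤ G l1) :
    ∑' l : List (Step d), (if l ∈ S then F l else 0)
      ≤ ∑' l1 : List (Step d), (if l1 ∈ P then G l1 else 0) := by
  choose! a ha b hab using h
  set H : List (Step d) × List (Step d) → ℝ≥0∞ := fun p =>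
    if p.1 ∈ P then (if p.1 ++ p.2 ∈ S then F (p.1 ++ p.2) else 0) else 0 with hH
  have e1 : ∑' l : List (Step d), (if l ∈ S then F l else 0)
      = ∑' l : S, H (a l.1, b l.1) := by
    rw [← tsum_subtype_eq_of_support_subset (s := S)]
    · refine tsum_congr fun l => ?_
      simp only [hH, ha l.1 l.2, if_true, ← hab l.1 l.2, l.2]
    · intro l hl
      by_contra h
      exact hl (if_neg h)
  rw [e1]
  calc ∑' l : S, H (a l.1, b l.1) ≤ ∑' p, H p := by
        refine ENNReal.tsum_comp_le_tsum_of_injective (f := fun l : S => (a l.1, b l.1)) ?_ H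
        rintro ⟨l, hl⟩ ⟨l', hl'⟩ he
        simp only [Prod.mk.injEq] at he
        refine Subtype.ext ?_
        show l = l'
        rw [hab l hl, hab l' hl', he.1, he.2]
    _ = ∑' l1, ∑' l2, H (l1, l2) := ENNReal.tsum_prod'
    _ ≤ _ := by
        refine ENNReal.tsum_le_tsum fun l1 => ?_
        by_cases h1 : l1 ∈ P
        · simp only [hH, h1, if_true]
          exact hG l1 h1
        · simp [hH, h1]

lemma pf_ext {S : Set (List (Step d))} (hS : PF S) (l1 : List (Step d)) :
    PF {l2 : List (Step d) | l1 ++ l2 ∈ S} := by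
  intro l hl l' hl'
  refine hS (l1 ++ l) hl l' ?_
  rw [List.append_assoc]
  exact hl'

open Classical in
lemma ext_lw (ω : Environment d) (x : Site d) (S P : Set (List (Step d))) (hS : PF S)
    (h : ∀ l ∈ S, ∃ l1 ∈ P, ∃ l2, l = l1 ++ l2) :
    ∑' l : List (Step d), (if l ∈ S then lw ω x l else 0)
      ≤ ∑' l1 : List (Step d), (if l1 ∈ P then lw ω x l1 else 0) := by
  refine ext_le S P h _ _ fun l1 _ => ?_
  calc ∑' l2 : List (Step d), (if l1 ++ l2 ∈ S then lw ω x (l1 ++ l2) else 0)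
      = lw ω x l1 * ∑' l2 : List (Step d),
          (if l2 ∈ {l2 : List (Step d) | l1 ++ l2 ∈ S} then lw ω (endp x l1) l2 else 0) := by
        rw [← ENNReal.tsum_mul_left]
        refine tsum_congr fun l2 => ?_
        rw [WordB956.lw_append, mul_ite, mul_zero]
        rfl
    _ ≤ lw ω x l1 * 1 := mul_le_mul_right (WordB956.pf_sum_le ω _ (pf_ext hS l1)) _
    _ = lw ω x l1 := mul_one _

open Classical in
/-- quenched weight of the words of `T v` from `v` -/
noncomputable def ee (T : Site d → Set (List (Step d))) (ω : Environment d) (v : Site d) : ℝ≥0∞ :=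
  ∑' l : List (Step d), (if l ∈ T v then lw ω v l else 0)

open Classical in
/-- turning lemma -/
lemma turn_le (ω : Environment d) (r : Site d) (P : Set (List (Step d))) (hP : PF P)
    (T : Site d → Set (List (Step d))) (R : Set (List (Step d)))
    (hR : ∀ l1 ∈ P, ∀ l2 ∈ T (endp r l1), l1 ++ l2 ∈ R) (lam : ℝ≥0∞)
    (hl : ∀ l1 ∈ P, lam ≤ ee T ω (endp r l1)) :
    lam * ∑' l : List (Step d), (if l ∈ P then lw ω r l else 0)
      ≤ ∑' l : List (Step d), (if l ∈ R then lw ω r l else 0) := by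
  refine le_trans ?_ (conc_le P hP R (fun l => lw ω r l) (fun l1 => T (endp r l1)) hR)
  rw [← ENNReal.tsum_mul_left]
  refine ENNReal.tsum_le_tsum fun l1 => ?_
  by_cases h1 : l1 ∈ P
  · rw [if_pos h1, if_pos h1, mul_comm]
    calc lw ω r l1 * lam ≤ lw ω r l1 * ee T ω (endp r l1) := mul_le_mul_right (hl l1 h1) _
      _ = _ := by
          unfold ee
          rw [← ENNReal.tsum_mul_left]
          refine tsum_congr fun l2 => ?_
          rw [WordB956.lw_append, mul_ite, mul_zero]
  · rw [if_neg h1, if_neg h1, mul_zero]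

open Classical in
/-- the first hit of a set of points with `lam ≤ e` by words in a region -/
lemma hit_reg (ω : Environment d) (r : Site d) (S : Set (List (Step d))) (hS : PF S)
    (Reg Dp : Set (Site d)) (T : Site d → Set (List (Step d))) (R : Set (List (Step d)))
    (lam : ℝ≥0∞)
    (h1 : ∀ l ∈ S, (∀ p ∈ sitesL r l, p ∈ Reg) ∧ endp r l ∈ Dp ∧ lam < ee T ω (endp r l))
    (h2 : ∀ l1, (∀ p ∈ sitesL r l1, p ∈ Reg) → endp r l1 ∈ Dp → ∀ l2 ∈ T (endp r l1),
      l1 ++ l2 ∈ R) :
    lam * ∑' l : List (Step d), (if l ∈ S then lw ω r l else 0)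
      ≤ ∑' l : List (Step d), (if l ∈ R then lw ω r l else 0) := by
  set D : Set (Site d) := {v | v ∈ Dp ∧ lam < ee T ω v} with hD
  set P : Set (List (Step d)) := {l | l ∈ WordB956.FH D r ∧ ∀ p ∈ sitesL r l, p ∈ Reg} with hP
  have hPF : PF P := (WordB956.pf_FH D r).mono fun l hl => hl.1
  refine le_trans (mul_le_mul_right (ext_lw ω r S P hS ?_) lam)
    (turn_le ω r P hPF T R ?_ lam ?_)
  · intro l hl
    obtain ⟨ha, hb, hc⟩ := h1 l hl
    obtain ⟨l1, l2, h3, h4⟩ := WordB956.exists_FH (D := D) (x := r) (l := l)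
      ⟨l, [], by simp, hb, hc⟩
    refine ⟨l1, ⟨h4, fun p hp => ha p ?_⟩, l2, h3⟩
    rw [h3, WordB956.sitesL_append]
    exact List.mem_append_left _ hp
  · intro l1 hl1 l2 hl2
    exact h2 l1 hl1.2 hl1.1.1.1 l2 hl2
  · intro l1 hl1
    exact hl1.1.1.2.le

end Crest.Agent.R154.W23
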