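import Crest.Agent.R154.NBDefs_28
import Crest.Agent.R154.B5Surg_802
import Crest.Agent.R154.Us_778

/-! Row 154, T0219, ROAD 801 (helper742): basic inequalities on sums over words. -/

set_option autoImplicit false
set_option linter.unusedSectionVars false

open MeasureTheory ProbabilityTheory Crest.ProbabilityR.RandomEnvironment
open scoped ENNReal

namespace Crest.Agent.R154.W2742

open Crest.Agent.R154.Flux566 (lw endp sitesL Fol measurableSet_Fol measurable_lw locOn_lw
  endp_append endp_eq_add fol_ge)
open Crest.Agent.R154.Surg802 (lw_append sitesL_append mem_sitesL_zero mem_sitesL_shift lw_shift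
  tsum_fol_le fol_spec endp_mem_of_lt)
open Crest.Agent.R154.NB28 (IsUp IsDn aw)
open Crest.Agent.R154.Flux132 (lev)

variable {d : ℕ}

/-- prefix free -/
def PF (P : List (Step d) → Prop) : Prop := ∀ l l', P l → P l' → l <+: l' → l = l'

lemma PF.mono {P Q : List (Step d) → Prop} (hP : PF P) (h : ∀ l, Q l → P l) : PF Q :=
  fun l l' h1 h2 h3 => hP l l' (h l h1) (h l' h2) h3

lemma tsum_if_eq (P : List (Step d) → Prop) [DecidablePred P] (f : List (Step d) → ℝ≥0∞) :
    ∑' l, (if P l then f l else 0) = ∑' l : {l // P l}, f l.1 := by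
  classical
  have := tsum_subtype {l | P l} f
  rw [show (∑' l : {l // P l}, f l.1) = ∑' l : {l | P l}, f l.1 from rfl, this]
  refine tsum_congr fun l => ?_
  simp [Set.indicator]

lemma pf_le (ω : Environment d) (x : Site d) {P : List (Step d) → Prop} [DecidablePred P] (hP : PF P)
    (T : Set (Path d)) (hT : ∀ l, P l → ∀ X : Path d, X 0 = x → X ∈ Fol l Set.univ → X ∈ T) :
    ∑' l, (if P l then lw ω x l else 0) ≤ quenchedLaw ω x T := by
  rw [tsum_if_eq]
  have h := tsum_fol_le ω x P hP (B := Set.univ) MeasurableSet.univ T hT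
  simpa using h

lemma pf_le_one (ω : Environment d) (x : Site d) {P : List (Step d) → Prop} [DecidablePred P] (hP : PF P) :
    ∑' l, (if P l then lw ω x l else 0) ≤ 1 := by
  refine (pf_le ω x hP Set.univ fun _ _ _ _ _ => Set.mem_univ _).trans ?_
  exact prob_le_one

/-- each word of `C` splits into a pair of `R` -/
lemma split_le {C : List (Step d) → Prop} {R : List (Step d) → List (Step d) → Prop}
    [DecidablePred C] [∀ a b, Decidable (R a b)]
    (f : List (Step d) → ℝ≥0∞)
    (h : ∀ γ, C γ → ∃ γ1 γ2, γ = γ1 ++ γ2 ∧ R γ1 γ2) :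
    ∑' γ, (if C γ then f γ else 0) ≤ ∑' γ1, ∑' γ2, (if R γ1 γ2 then f (γ1 ++ γ2) else 0) := by
  rw [tsum_if_eq, ← ENNReal.tsum_prod]
  choose! a b hab hR using h
  have hinj : Function.Injective fun l : {l // C l} => (a l.1, b l.1) := by
    intro l l' he
    have h1 := hab l.1 l.2
    have h2 := hab l'.1 l'.2
    simp only [Prod.mk.injEq] at he
    rw [he.1, he.2, ← h2] at h1
    exact Subtype.ext h1
  refine le_trans (ENNReal.tsum_le_tsum fun l => ?_)
    (ENNReal.tsum_comp_le_tsum_of_injective hinj
      (fun p : List (Step d) × List (Step d) => if R p.1 p.2 then f (p.1 ++ p.2) else 0))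
  simp only
  rw [if_pos (hR l.1 l.2), ← hab l.1 l.2]

/-- pairs of `R` glue injectively into words of `T` -/
lemma merge_le {T : List (Step d) → Prop} {R : List (Step d) → List (Step d) → Prop}
    [DecidablePred T] [∀ a b, Decidable (R a b)]
    (f : List (Step d) → ℝ≥0∞)
    (hinj : ∀ a b a' b', R a b → R a' b' → a ++ b = a' ++ b' → a = a' ∧ b = b')
    (hT : ∀ a b, R a b → T (a ++ b)) :
    ∑' a, ∑' b, (if R a b then f (a ++ b) else 0) ≤ ∑' γ, (if T γ then f γ else 0) := by
  rw [← ENNReal.tsum_prod]
  have e1 : ∑' p : List (Step d) × List (Step d), (if R p.1 p.2 then f (p.1 ++ p.2) else 0)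
      = ∑' p : {p : List (Step d) × List (Step d) // R p.1 p.2}, f (p.1.1 ++ p.1.2) := by
    have := tsum_subtype {p : List (Step d) × List (Step d) | R p.1 p.2}
      (fun p => f (p.1 ++ p.2))
    rw [show (∑' p : {p : List (Step d) × List (Step d) // R p.1 p.2}, f (p.1.1 ++ p.1.2))
      = ∑' p : {p : List (Step d) × List (Step d) | R p.1 p.2}, f (p.1.1 ++ p.1.2) from rfl, this]
    refine tsum_congr fun l => ?_
    simp [Set.indicator]
  rw [e1]
  have hi : Function.Injective
      fun p : {p : List (Step d) × List (Step d) // R p.1 p.2} => p.1.1 ++ p.1.2 := by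
    intro p q he
    have := hinj _ _ _ _ p.2 q.2 he
    exact Subtype.ext (Prod.ext this.1 this.2)
  refine le_trans (ENNReal.tsum_le_tsum fun p => ?_)
    (ENNReal.tsum_comp_le_tsum_of_injective hi (fun γ => if T γ then f γ else 0))
  rw [if_pos (hT _ _ p.2)]

lemma glue_inj {P : List (Step d) → Prop} (hP : PF P) {a b a' b' : List (Step d)}
    (h : P a) (h' : P a') (he : a ++ b = a' ++ b') : a = a' ∧ b = b' := by
  have h1 : a <+: a' ++ b' := he ▸ List.prefix_append a b
  have h2 : a' <+: a' ++ b' := List.prefix_append a' b'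
  have e : a = a' := by
    rcases List.prefix_or_prefix_of_prefix h1 h2 with h3 | h3
    · exact hP _ _ h h' h3
    · exact (hP _ _ h' h h3).symm
  subst e
  exact ⟨rfl, List.append_cancel_left he⟩

/-- split a word at the first site satisfying `B` -/
lemma exists_first (x : Site d) (l : List (Step d)) (B : Site d → Prop)
    (h : ∃ y ∈ sitesL x l, B y) :
    ∃ a b, l = a ++ b ∧ (∀ y ∈ sitesL x a, ¬ B y) ∧ B (endp x a) ∧ b ≠ [] := by
  induction l generalizing x with
  | nil => simp [sitesL] at h
  | cons e l ih =>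
    by_cases hx : B x
    · exact ⟨[], e :: l, rfl, by simp [sitesL], hx, by simp⟩
    · have h' : ∃ y ∈ sitesL (x + stepVec e) l, B y := by
        obtain ⟨y, hy, hB⟩ := h
        simp only [sitesL, List.mem_cons] at hy
        rcases hy with rfl | hy
        · exact absurd hB hx
        · exact ⟨y, hy, hB⟩
      obtain ⟨a, b, h1, h2, h3, h4⟩ := ih (x + stepVec e) h'
      refine ⟨e :: a, b, by rw [h1]; rfl, ?_, h3, h4⟩
      intro y hy
      simp only [sitesL, List.mem_cons] at hy
      rcases hy with rfl | hy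
      · exact hx
      · exact h2 y hy

/-- the words up to the first site of `B` -/
lemma pf_first (x : Site d) (B : Site d → Prop) :
    PF fun l : List (Step d) => (∀ y ∈ sitesL x l, ¬ B y) ∧ B (endp x l) := by
  rintro l l' ⟨_, h1⟩ ⟨h2, _⟩ hp
  by_contra hne
  exact h2 _ (endp_mem_of_lt x hp hne) h1

/-- each site of a word followed by a path is visited by the path -/
lemma fol_sites (l : List (Step d)) (B : Set (Path d)) (X : Path d) (h : X ∈ Fol l B) :
    ∀ y ∈ sitesL (X 0) l, ∃ i < l.length, X i = y := by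
  induction l generalizing X with
  | nil => intro y hy; simp [sitesL] at hy
  | cons e l ih =>
    obtain ⟨h1, h2⟩ := h
    intro y hy
    simp only [sitesL, List.mem_cons] at hy
    rcases hy with rfl | hy
    · exact ⟨0, by simp, rfl⟩
    · have h0 : shift 1 X 0 = X 0 + stepVec e := by rw [← h1]; rfl
      rw [← h0] at hy
      obtain ⟨i, hi, hX⟩ := ih (shift 1 X) h2 y hy
      refine ⟨i + 1, by simpa using hi, ?_⟩
      rw [← hX]
      simp only [shift]
      congr 1
      omega

lemma lev_add (u : Step d) (x y : Site d) : lev u (x + y) = lev u x + lev u y :=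
  Flux566.lev_add u x y

end Crest.Agent.R154.W2742
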