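import Crest.Agent.R154.W2a_742

/-! Row 154, T0219, ROAD 801 (helper742): the window lemma with the up walker local (W2), in words. -/

set_option autoImplicit false
set_option linter.unusedSectionVars false
set_option maxHeartbeats 1000000

open MeasureTheory ProbabilityTheory Crest.ProbabilityR.RandomEnvironment
open scoped ENNReal

namespace Crest.Agent.R154.W2742

open Crest.Agent.R154.Flux566 (lw endp sitesL Fol measurableSet_Fol measurable_lw locOn_lw
  endp_append endp_eq_add fol_ge)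
open Crest.Agent.R154.Surg802 (lw_append sitesL_append mem_sitesL_zero mem_sitesL_shift lw_shift
  tsum_fol_le fol_spec endp_mem_of_lt)
open Crest.Agent.R154.NB28 (IsUp IsDn aw)
open Crest.Agent.R154.Flux132 (lev)

variable {d : ℕ}

/-- from `v` to level `h`, staying in `[0, h)` -/
def UpC (u : Step d) (h : ℕ) (v : Site d) (σ : List (Step d)) : Prop :=
  (∀ y ∈ sitesL v σ, 0 ≤ lev u y ∧ lev u y < h) ∧ lev u (endp v σ) = h

open Classical in
/-- quenched probability from `v` to complete the crossing and land in `E` -/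
noncomputable def ev (u : Step d) (h : ℕ) (E : Finset (Site d)) (ω : Environment d)
    (v : Site d) : ℝ≥0∞ :=
  ∑' σ : List (Step d), (if UpC u h v σ ∧ endp v σ ∈ E then lw ω v σ else 0)

open Classical in
lemma part_a (u : Step d) (h : ℕ) (E : Finset (Site d)) (ω : Environment d) (lam : ℝ≥0∞) :
    ∑' π : List (Step d), (if (IsUp u h π ∧ endp 0 π ∈ E) ∧
      (∃ y ∈ sitesL 0 π, ev u h E ω y ≤ lam) then lw ω 0 π else 0) ≤ lam := by
  set P : List (Step d) → Prop := fun l => (∀ y ∈ sitesL 0 l, ¬ ev u h E ω y ≤ lam) ∧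
    ev u h E ω (endp 0 l) ≤ lam with hPdef
  have hPF : PF P := pf_first 0 fun y => ev u h E ω y ≤ lam
  calc _ ≤ ∑' a, ∑' b, (if P a ∧ (UpC u h (endp 0 a) b ∧ endp (endp 0 a) b ∈ E)
        then lw ω 0 (a ++ b) else 0) := by
        refine split_le (C := fun π => (IsUp u h π ∧ endp 0 π ∈ E) ∧
          (∃ y ∈ sitesL 0 π, ev u h E ω y ≤ lam))
          (R := fun a b => P a ∧ (UpC u h (endp 0 a) b ∧ endp (endp 0 a) b ∈ E)) _ ?_
        rintro π ⟨⟨h1, h2⟩, h3⟩
        obtain ⟨a, b, rfl, h4, h5, -⟩ := exists_first 0 π _ h3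
        refine ⟨a, b, rfl, ⟨h4, h5⟩, ⟨fun y hy => h1.1 y ?_, ?_⟩, ?_⟩
        · rw [sitesL_append]; exact List.mem_append_right _ hy
        · have := h1.2; rwa [endp_append] at this
        · rwa [endp_append] at h2
    _ ≤ ∑' a, (if P a then lw ω 0 a else 0) * lam := by
        refine ENNReal.tsum_le_tsum fun a => ?_
        by_cases hP : P a
        · have e : ∀ b, (if P a ∧ (UpC u h (endp 0 a) b ∧ endp (endp 0 a) b ∈ E)
              then lw ω 0 (a ++ b) else 0)
              = lw ω 0 a * (if UpC u h (endp 0 a) b ∧ endp (endp 0 a) b ∈ E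
                then lw ω (endp 0 a) b else 0) := by
            intro b
            by_cases hb : UpC u h (endp 0 a) b ∧ endp (endp 0 a) b ∈ E
            · rw [if_pos ⟨hP, hb⟩, if_pos hb, lw_append]
            · rw [if_neg (fun h => hb h.2), if_neg hb, mul_zero]
          simp_rw [e]
          rw [ENNReal.tsum_mul_left, if_pos hP]
          exact mul_le_mul_right hP.2 _
        · have e : ∀ b, (if P a ∧ (UpC u h (endp 0 a) b ∧ endp (endp 0 a) b ∈ E)
              then lw ω 0 (a ++ b) else 0) = 0 := fun b => if_neg (fun h => hP h.1)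
          simp_rw [e]
          simp
    _ = (∑' a, if P a then lw ω 0 a else 0) * lam := ENNReal.tsum_mul_right
    _ ≤ 1 * lam := mul_le_mul_left (pf_le_one ω 0 hPF) _
    _ = lam := one_mul _

/-- first hit of the sites of `π` -/
def FH (u : Step d) (h s : ℕ) (l0 : ℤ) (x : Site d) (π γ : List (Step d)) : Prop :=
  ((∀ y ∈ sitesL x γ, ¬ y ∈ sitesL 0 π) ∧ endp x γ ∈ sitesL 0 π) ∧
    lev u (endp x γ) ≤ h + l0 - s ∧ (∀ y ∈ sitesL x γ, lev u y ≤ h + l0)

/-- words which go deep and then first hit the level `h` -/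
def TT (u : Step d) (h s : ℕ) (l0 : ℤ) (x : Site d) (τ : List (Step d)) : Prop :=
  (∀ y ∈ sitesL x τ, lev u y < h) ∧ lev u (endp x τ) = h ∧
    ∃ y ∈ sitesL x τ, lev u y ≤ h + l0 - s

lemma pf_FH (u : Step d) (h s : ℕ) (l0 : ℤ) (x : Site d) (π : List (Step d)) :
    PF (FH u h s l0 x π) :=
  (pf_first x fun y => y ∈ sitesL 0 π).mono fun _ hl => hl.1

open Classical in
lemma part_b (u : Step d) (h s : ℕ) (l0 : ℤ) (hl0 : l0 ≤ -1) (E : Finset (Site d))
    (ω : Environment d) (lam : ℝ≥0∞) (hlam : lam ≠ 0) (hlam' : lam ≠ ⊤) (x : Site d)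
    (π : List (Step d)) :
    ∑' γ, (if FH u h s l0 x π γ ∧ ¬ ev u h E ω (endp x γ) ≤ lam then lw ω x γ else 0)
      ≤ lam⁻¹ * ∑' τ, (if TT u h s l0 x τ ∧ endp x τ ∈ E then lw ω x τ else 0) := by
  have h1 : ∀ γ, (if FH u h s l0 x π γ ∧ ¬ ev u h E ω (endp x γ) ≤ lam then lw ω x γ else 0)
      ≤ lam⁻¹ * ∑' σ, (if FH u h s l0 x π γ ∧ (UpC u h (endp x γ) σ ∧ endp (endp x γ) σ ∈ E)
        then lw ω x (γ ++ σ) else 0) := by
    intro γ
    by_cases hF : FH u h s l0 x π γ ∧ ¬ ev u h E ω (endp x γ) ≤ lam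
    · rw [if_pos hF]
      have e : ∀ σ, (if FH u h s l0 x π γ ∧ (UpC u h (endp x γ) σ ∧ endp (endp x γ) σ ∈ E)
          then lw ω x (γ ++ σ) else 0) = lw ω x γ *
            (if UpC u h (endp x γ) σ ∧ endp (endp x γ) σ ∈ E then lw ω (endp x γ) σ else 0) := by
        intro σ
        by_cases hb : UpC u h (endp x γ) σ ∧ endp (endp x γ) σ ∈ E
        · rw [if_pos ⟨hF.1, hb⟩, if_pos hb, lw_append]
        · rw [if_neg (fun h => hb h.2), if_neg hb, mul_zero]
      simp_rw [e]
      rw [ENNReal.tsum_mul_left]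
      have h2 : lam ≤ ev u h E ω (endp x γ) := (not_le.1 hF.2).le
      calc lw ω x γ = lam⁻¹ * (lw ω x γ * lam) := by
            rw [mul_comm (lw ω x γ), ← mul_assoc, ENNReal.inv_mul_cancel hlam hlam', one_mul]
        _ ≤ lam⁻¹ * (lw ω x γ * ev u h E ω (endp x γ)) :=
            mul_le_mul_right (mul_le_mul_right h2 _) _
    · rw [if_neg hF]; exact zero_le
  refine (ENNReal.tsum_le_tsum h1).trans ?_
  rw [ENNReal.tsum_mul_left]
  refine mul_le_mul_right ?_ _
  refine merge_le (R := fun γ σ => FH u h s l0 x π γ ∧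
    (UpC u h (endp x γ) σ ∧ endp (endp x γ) σ ∈ E))
    (T := fun τ => TT u h s l0 x τ ∧ endp x τ ∈ E) _ ?_ ?_
  · intro a b a' b' hR hR' he
    exact glue_inj (pf_FH u h s l0 x π) hR.1 hR'.1 he
  · rintro a b ⟨⟨⟨h2, h3⟩, h4, h5⟩, ⟨h6, h7⟩, h8⟩
    refine ⟨⟨?_, ?_, ?_⟩, ?_⟩
    · intro y hy
      rw [sitesL_append, List.mem_append] at hy
      rcases hy with hy | hy
      · have := h5 y hy; omega
      · exact (h6 y hy).2
    · rw [endp_append]; exact h7
    · refine ⟨endp x a, ?_, h4⟩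
      rw [sitesL_append, List.mem_append]
      right
      cases b with
      | nil =>
        simp only [endp] at h7
        omega
      | cons e b => simp [sitesL]
    · rw [endp_append]; exact h8

end Crest.Agent.R154.W2742
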