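import Crest.Agent.R154.W2b_742

/-! Row 154, T0219, ROAD 801 (helper742): W2 = the window lemma with the up walker local, in words. -/

set_option autoImplicit false
set_option linter.unusedSectionVars false
set_option maxHeartbeats 1000000

open MeasureTheory ProbabilityTheory Crest.ProbabilityR.RandomEnvironment
open scoped ENNReal

namespace Crest.Agent.R154.W2742

open Crest.Agent.R154.Flux566 (lw endp sitesL Fol measurableSet_Fol measurable_lw locOn_lw
  endp_append endp_eq_add fol_ge)
open Crest.Agent.R154.Surg802 (lw_append sitesL_append mem_sitesL_zero mem_sitesL_shift lw_shift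
  tsum_fol_le fol_spec endp_mem_of_lt)
open Crest.Agent.R154.NB28 (IsUp IsDn aw)
open Crest.Agent.R154.Flux132 (lev)

variable {d : ℕ}

lemma aw_start (ν : Measure (Row d)) [IsProbabilityMeasure ν] (l : List (Step d)) (y : Site d) :
    ∫⁻ ω, lw ω y l ∂(iidEnvironmentLaw ν) = aw ν l := Surg802.aw_start ν l y

open Classical in
/-- the quenched part of the first-hit decomposition of `Y` -/
lemma q_first (u : Step d) (h h' s : ℕ) (l0 : ℤ) (z : Site d) (hz : lev u z = l0)
    (π : List (Step d)) (hπ : IsUp u h π) (ω : Environment d) :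
    ∑' γ, (if IsDn u h' γ ∧ (∃ y ∈ sitesL (-endp 0 π) π, y ∈ sitesL z γ) ∧
        (∀ y ∈ sitesL (-endp 0 π) π, y ∈ sitesL z γ → lev u y ≤ l0 - s)
        then lw ω (z + endp 0 π) γ else 0)
      ≤ ∑' γ, (if FH u h s l0 (z + endp 0 π) π γ then lw ω (z + endp 0 π) γ else 0) := by
  set x := z + endp 0 π with hx
  have hs : ∀ y, y ∈ sitesL (-endp 0 π) π ↔ y + endp 0 π ∈ sitesL 0 π := by
    intro y
    have := mem_sitesL_shift π (-endp 0 π) (endp 0 π) (y + endp 0 π)
    rw [neg_add_cancel, add_sub_cancel_right] at this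
    exact this.symm
  have hs' : ∀ γ : List (Step d), ∀ y, y ∈ sitesL z γ ↔ y + endp 0 π ∈ sitesL x γ := by
    intro γ y
    have := mem_sitesL_shift γ z (endp 0 π) (y + endp 0 π)
    rw [add_sub_cancel_right] at this
    exact this.symm
  calc _ ≤ ∑' a, ∑' b, (if FH u h s l0 x π a ∧ IsDn u h' (a ++ b) then lw ω x (a ++ b) else 0) := by
        refine split_le (C := fun γ => IsDn u h' γ ∧
          (∃ y ∈ sitesL (-endp 0 π) π, y ∈ sitesL z γ) ∧
          (∀ y ∈ sitesL (-endp 0 π) π, y ∈ sitesL z γ → lev u y ≤ l0 - s))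
          (R := fun a b => FH u h s l0 x π a ∧ IsDn u h' (a ++ b)) _ ?_
        rintro γ ⟨h1, ⟨y, hy1, hy2⟩, h3⟩
        obtain ⟨a, b, rfl, h4, h5, h6⟩ := exists_first x γ (fun y => y ∈ sitesL 0 π)
          ⟨y + endp 0 π, (hs' γ y).1 hy2, (hs y).1 hy1⟩
        refine ⟨a, b, rfl, ⟨⟨h4, h5⟩, ?_, ?_⟩, h1⟩
        · have h7 : endp x a ∈ sitesL x (a ++ b) :=
            endp_mem_of_lt x (List.prefix_append a b) (by
              intro e
              apply h6
              have := congrArg List.length e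
              rw [List.length_append] at this
              exact List.eq_nil_of_length_eq_zero (by omega))
          have h8 := h3 (endp x a - endp 0 π) ((hs _).2 (by rwa [sub_add_cancel]))
            ((hs' _ _).2 (by rwa [sub_add_cancel]))
          have h9 : lev u (endp x a) = lev u (endp x a - endp 0 π) + lev u (endp 0 π) := by
            rw [← lev_add, sub_add_cancel]
          rw [h9, hπ.2]
          linarith
        · intro y hy
          have h7 : y ∈ sitesL x (a ++ b) := by
            rw [sitesL_append]; exact List.mem_append_left _ hy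
          have h8 := (h1.1 (y - x) ((mem_sitesL_zero _ x y).1 h7)).2
          have h9 : lev u y = lev u (y - x) + lev u x := by rw [← lev_add, sub_add_cancel]
          have h10 : lev u x = l0 + h := by rw [hx, lev_add, hz, hπ.2]
          rw [h9, h10]
          linarith
    _ ≤ ∑' a, (if FH u h s l0 x π a then lw ω x a else 0) := by
        refine ENNReal.tsum_le_tsum fun a => ?_
        by_cases hP : FH u h s l0 x π a
        · have e : ∀ b, (if FH u h s l0 x π a ∧ IsDn u h' (a ++ b) then lw ω x (a ++ b) else 0)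
              = lw ω x a * (if IsDn u h' (a ++ b) then lw ω (endp x a) b else 0) := by
            intro b
            by_cases hb : IsDn u h' (a ++ b)
            · rw [if_pos ⟨hP, hb⟩, if_pos hb, lw_append]
            · rw [if_neg (fun h => hb h.2), if_neg hb, mul_zero]
          simp_rw [e]
          rw [ENNReal.tsum_mul_left, if_pos hP]
          have hpf : PF fun b : List (Step d) => IsDn u h' (a ++ b) := by
            intro b b' hb hb' hp
            have h1 : a ++ b <+: a ++ b' := (List.prefix_append_right_inj a).2 hp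
            exact List.append_cancel_left (Surg802.IsDn.prefix_eq (e0 := u) (n := h') hb hb' h1)
          calc _ ≤ lw ω x a * 1 := mul_le_mul_right (pf_le_one ω _ hpf) _
            _ = _ := mul_one _
        · have e : ∀ b, (if FH u h s l0 x π a ∧ IsDn u h' (a ++ b) then lw ω x (a ++ b) else 0)
              = 0 := fun b => if_neg (fun h => hP h.1)
          simp_rw [e]
          simp

open Classical in
/-- one pair: the annealed weights in one environment -/
lemma a_first (ν : Measure (Row d)) [IsProbabilityMeasure ν] (u : Step d) (h h' s : ℕ) (l0 : ℤ)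
    (z : Site d) (hz : lev u z = l0) (π : List (Step d)) (hπ : IsUp u h π) :
    ∑' γ, (if IsDn u h' γ ∧ (∃ y ∈ sitesL (-endp 0 π) π, y ∈ sitesL z γ) ∧
        (∀ y ∈ sitesL (-endp 0 π) π, y ∈ sitesL z γ → lev u y ≤ l0 - s)
        then aw ν π * aw ν γ else 0)
      ≤ ∑' γ, ∫⁻ ω, (if FH u h s l0 (z + endp 0 π) π γ
          then lw ω 0 π * lw ω (z + endp 0 π) γ else 0) ∂(iidEnvironmentLaw ν) := by
  set x := z + endp 0 π with hx
  have e1 : ∀ γ, (if IsDn u h' γ ∧ (∃ y ∈ sitesL (-endp 0 π) π, y ∈ sitesL z γ) ∧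
        (∀ y ∈ sitesL (-endp 0 π) π, y ∈ sitesL z γ → lev u y ≤ l0 - s)
        then aw ν π * aw ν γ else 0) = aw ν π * ∫⁻ ω, (if IsDn u h' γ ∧
        (∃ y ∈ sitesL (-endp 0 π) π, y ∈ sitesL z γ) ∧
        (∀ y ∈ sitesL (-endp 0 π) π, y ∈ sitesL z γ → lev u y ≤ l0 - s)
        then lw ω x γ else 0) ∂(iidEnvironmentLaw ν) := by
    intro γ
    split_ifs with hc
    · rw [aw_start]
    · simp
  simp_rw [e1]
  rw [ENNReal.tsum_mul_left, ← lintegral_tsum (fun γ => by
    split_ifs
    · exact (measurable_lw x γ).aemeasurable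
    · exact aemeasurable_const)]
  calc _ ≤ aw ν π * ∫⁻ ω, ∑' γ, (if FH u h s l0 x π γ then lw ω x γ else 0)
        ∂(iidEnvironmentLaw ν) :=
        mul_le_mul_right (lintegral_mono fun ω => q_first u h h' s l0 z hz π hπ ω) _
    _ = ∑' γ, aw ν π * ∫⁻ ω, (if FH u h s l0 x π γ then lw ω x γ else 0)
        ∂(iidEnvironmentLaw ν) := by
        rw [lintegral_tsum (fun γ => by
          split_ifs
          · exact (measurable_lw x γ).aemeasurable
          · exact aemeasurable_const), ENNReal.tsum_mul_left]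
    _ ≤ _ := by
        refine ENNReal.tsum_le_tsum fun γ => ?_
        by_cases hF : FH u h s l0 x π γ
        · simp only [if_pos hF]
          rw [← aw_start ν π 0]
          refine le_of_eq (Q561.iid_lintegral_mul ν (S := {y | y ∈ sitesL 0 π})
            (T := {y | y ∈ sitesL x γ}) ?_ (measurable_lw _ _) (measurable_lw _ _)
            (locOn_lw _ _) (locOn_lw _ _)).symm
          rw [Set.disjoint_left]
          intro y hy hy'
          exact hF.1.1 y hy' hy
        · simp [if_neg hF]

open Classical in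
/-- returning words -/
lemma ret_le (ν : Measure (Row d)) [IsProbabilityMeasure ν] (u : Step d) (h s : ℕ) (l0 : ℤ)
    (hl0 : l0 ≤ -1) (E : Finset (Site d)) :
    ∑' x : Site d, (if lev u x = h + l0 then ∫⁻ ω, ∑' τ, (if TT u h s l0 x τ ∧ endp x τ ∈ E
        then lw ω x τ else 0) ∂(iidEnvironmentLaw ν) else 0)
      ≤ E.card * annealedProb (iidEnvironmentLaw ν) 0 (Us778.Dip u s) := by
  set T0 : List (Step d) → Prop := fun τ => (∀ y ∈ sitesL 0 τ, lev u y < -l0) ∧
    lev u (endp 0 τ) = -l0 ∧ ∃ y ∈ sitesL 0 τ, lev u y ≤ -s with hT0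
  have hT : ∀ x, lev u x = h + l0 → ∀ τ, TT u h s l0 x τ → T0 τ := by
    rintro x hx τ ⟨h1, h2, y, h3, h4⟩
    have hlx : ∀ y, lev u (y + x) = lev u y + (h + l0) := fun y => by rw [lev_add, hx]
    refine ⟨?_, ?_, ?_⟩
    · intro y hy
      have h5 := h1 (y + x) ((mem_sitesL_zero τ x (y + x)).2 (by rwa [add_sub_cancel_right]))
      rw [hlx] at h5
      linarith
    · rw [endp_eq_add, add_comm, hlx] at h2
      linarith
    · refine ⟨y - x, (mem_sitesL_zero τ x y).1 h3, ?_⟩
      have h5 := hlx (y - x)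
      rw [sub_add_cancel] at h5
      linarith
  have hpf0 : PF T0 := by
    rintro l l' ⟨_, h1, _⟩ ⟨h2, _, _⟩ hp
    by_contra hne
    have := h2 _ (endp_mem_of_lt 0 hp hne)
    rw [h1] at this
    exact lt_irrefl _ this
  have hmass : ∑' τ, (if T0 τ then aw ν τ else 0)
      ≤ annealedProb (iidEnvironmentLaw ν) 0 (Us778.Dip u s) := by
    have e : ∀ τ, (if T0 τ then aw ν τ else 0)
        = ∫⁻ ω, (if T0 τ then lw ω 0 τ else 0) ∂(iidEnvironmentLaw ν) := by
      intro τ
      split_ifs
      · rfl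
      · simp
    simp_rw [e]
    rw [← lintegral_tsum (fun τ => by
      split_ifs
      · exact (measurable_lw 0 τ).aemeasurable
      · exact aemeasurable_const)]
    refine lintegral_mono fun ω => ?_
    refine pf_le ω 0 hpf0 _ ?_
    rintro τ ⟨h1, h2, y, h3, h4⟩ X hX0 hX
    obtain ⟨-, h5, -⟩ := fol_spec τ _ X hX
    rw [hX0] at h5
    rw [← hX0] at h3
    obtain ⟨i, hi, hXi⟩ := fol_sites τ _ X hX y h3
    refine ⟨i, τ.length, hi.le, ?_, ?_⟩
    · rw [hXi]; exact h4
    · rw [h5]
      change 0 ≤ lev u (endp 0 τ)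
      rw [h2]; linarith
  have hcard : ∀ c : Site d, ∑' x : Site d, (if x + c ∈ E then (1 : ℝ≥0∞) else 0) = E.card := by
    intro c
    have h1 := (Equiv.addRight c).tsum_eq (fun y => if y ∈ E then (1 : ℝ≥0∞) else 0)
    simp only [Equiv.coe_addRight] at h1
    refine Eq.trans ?_ (h1.trans ?_)
    · exact tsum_congr fun x => by congr
    · rw [tsum_eq_sum (s := E) (fun y hy => by rw [if_neg hy])]
      simp
  have hpt : ∀ x : Site d, (if lev u x = h + l0 then ∫⁻ ω, ∑' τ, (if TT u h s l0 x τ ∧
        endp x τ ∈ E then lw ω x τ else 0) ∂(iidEnvironmentLaw ν) else 0)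
      ≤ ∑' τ, (if T0 τ then aw ν τ else 0) * (if x + endp 0 τ ∈ E then (1 : ℝ≥0∞) else 0) := by
    intro x
    by_cases hx : lev u x = h + l0
    · rw [if_pos hx, lintegral_tsum (fun τ => by
        split_ifs
        · exact (measurable_lw x τ).aemeasurable
        · exact aemeasurable_const)]
      refine ENNReal.tsum_le_tsum fun τ => ?_
      by_cases hc : TT u h s l0 x τ ∧ endp x τ ∈ E
      · simp only [if_pos hc]
        rw [if_pos (hT x hx τ hc.1), if_pos (by rw [← endp_eq_add]; exact hc.2), mul_one,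
          aw_start]
      · simp only [if_neg hc]
        simp
    · rw [if_neg hx]; exact zero_le
  calc _ ≤ ∑' x : Site d, ∑' τ, (if T0 τ then aw ν τ else 0) *
        (if x + endp 0 τ ∈ E then (1 : ℝ≥0∞) else 0) := ENNReal.tsum_le_tsum hpt
    _ = ∑' τ, (if T0 τ then aw ν τ else 0) * E.card := by
        rw [ENNReal.tsum_comm]
        refine tsum_congr fun τ => ?_
        rw [ENNReal.tsum_mul_left, hcard]
    _ = (∑' τ, (if T0 τ then aw ν τ else 0)) * E.card := ENNReal.tsum_mul_right
    _ ≤ annealedProb (iidEnvironmentLaw ν) 0 (Us778.Dip u s) * E.card :=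
        mul_le_mul_left hmass _
    _ = _ := mul_comm _ _

open Classical in
/-- **W2** (X local, Y arbitrary). -/
theorem W2 (ν : Measure (Row d)) [IsProbabilityMeasure ν] (u : Step d) (h h' s : ℕ) (l0 : ℤ)
    (E : Finset (Site d)) (D : Site d → ℝ≥0∞) (M lam : ℝ≥0∞) (hM : ∀ z, D z ≤ M)
    (hD : ∑' z, D z ≤ 1) (hl : ∀ z, D z ≠ 0 → lev u z = l0) (hl0 : l0 ≤ -1) (hlam : lam ≠ 0)
    (hlam' : lam ≠ ⊤) :
    ∑' z, D z * ∑' π, ∑' γ, (if IsUp u h π ∧ endp 0 π ∈ E ∧ IsDn u h' γ ∧
        (∃ y ∈ sitesL (-endp 0 π) π, y ∈ sitesL z γ) ∧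
        (∀ y ∈ sitesL (-endp 0 π) π, y ∈ sitesL z γ → lev u y ≤ l0 - s)
        then aw ν π * aw ν γ else 0)
      ≤ lam + M * E.card * annealedProb (iidEnvironmentLaw ν) 0 (Us778.Dip u s) / lam := by
  set Q := iidEnvironmentLaw ν with hQ
  set g : Site d → List (Step d) → List (Step d) → Environment d → ℝ≥0∞ := fun z π γ ω =>
    D z * (if IsUp u h π ∧ endp 0 π ∈ E then
      (if FH u h s l0 (z + endp 0 π) π γ then lw ω 0 π * lw ω (z + endp 0 π) γ else 0) else 0)
    with hg
  have hgm : ∀ z π γ, Measurable (g z π γ) := by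
    intro z π γ
    simp only [hg]
    refine Measurable.const_mul ?_ _
    split_ifs
    · exact (measurable_lw _ _).mul (measurable_lw _ _)
    · exact measurable_const
    · exact measurable_const
  have hstep1 : ∑' z, D z * ∑' π, ∑' γ, (if IsUp u h π ∧ endp 0 π ∈ E ∧ IsDn u h' γ ∧
        (∃ y ∈ sitesL (-endp 0 π) π, y ∈ sitesL z γ) ∧
        (∀ y ∈ sitesL (-endp 0 π) π, y ∈ sitesL z γ → lev u y ≤ l0 - s)
        then aw ν π * aw ν γ else 0) ≤ ∑' z, ∑' π, ∑' γ, ∫⁻ ω, g z π γ ω ∂Q := by
    refine ENNReal.tsum_le_tsum fun z => ?_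
    rw [← ENNReal.tsum_mul_left]
    refine ENNReal.tsum_le_tsum fun π => ?_
    by_cases hz : D z = 0
    · rw [hz, zero_mul]; exact zero_le
    by_cases hπ : IsUp u h π ∧ endp 0 π ∈ E
    · have h1 := a_first ν u h h' s l0 z (hl z hz) π hπ.1
      have e1 : ∀ γ, (if IsUp u h π ∧ endp 0 π ∈ E ∧ IsDn u h' γ ∧
          (∃ y ∈ sitesL (-endp 0 π) π, y ∈ sitesL z γ) ∧
          (∀ y ∈ sitesL (-endp 0 π) π, y ∈ sitesL z γ → lev u y ≤ l0 - s)
          then aw ν π * aw ν γ else 0) = (if IsDn u h' γ ∧
          (∃ y ∈ sitesL (-endp 0 π) π, y ∈ sitesL z γ) ∧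
          (∀ y ∈ sitesL (-endp 0 π) π, y ∈ sitesL z γ → lev u y ≤ l0 - s)
          then aw ν π * aw ν γ else 0) := by
        intro γ
        refine if_congr ?_ rfl rfl
        exact ⟨fun h => h.2.2, fun h => ⟨hπ.1, hπ.2, h⟩⟩
      simp_rw [e1]
      refine (mul_le_mul_right h1 _).trans ?_
      rw [← ENNReal.tsum_mul_left]
      refine ENNReal.tsum_le_tsum fun γ => le_of_eq ?_
      simp only [hg, if_pos hπ]
      rw [lintegral_const_mul _ (by
        split_ifs
        · exact (measurable_lw _ _).mul (measurable_lw _ _)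
        · exact measurable_const)]
    · have e1 : ∀ γ, (if IsUp u h π ∧ endp 0 π ∈ E ∧ IsDn u h' γ ∧
          (∃ y ∈ sitesL (-endp 0 π) π, y ∈ sitesL z γ) ∧
          (∀ y ∈ sitesL (-endp 0 π) π, y ∈ sitesL z γ → lev u y ≤ l0 - s)
          then aw ν π * aw ν γ else 0) = 0 := fun γ => if_neg fun h => hπ ⟨h.1, h.2.1⟩
      simp_rw [e1]
      simp
  have hstep2 : ∑' z, ∑' π, ∑' γ, ∫⁻ ω, g z π γ ω ∂Q
      = ∫⁻ ω, ∑' z, ∑' π, ∑' γ, g z π γ ω ∂Q := by
    rw [lintegral_tsum (fun z => (Measurable.ennreal_tsum fun π =>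
      Measurable.ennreal_tsum fun γ => hgm z π γ).aemeasurable)]
    refine tsum_congr fun z => ?_
    rw [lintegral_tsum (fun π => (Measurable.ennreal_tsum fun γ => hgm z π γ).aemeasurable)]
    refine tsum_congr fun π => ?_
    rw [lintegral_tsum (fun γ => (hgm z π γ).aemeasurable)]
  set G : Environment d → Site d → ℝ≥0∞ := fun ω x => ∑' τ, (if TT u h s l0 x τ ∧ endp x τ ∈ E
      then lw ω x τ else 0) with hG
  have hGm : ∀ x, Measurable fun ω => G ω x := by
    intro x
    refine Measurable.ennreal_tsum fun τ => ?_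
    split_ifs
    · exact measurable_lw _ _
    · exact measurable_const
  set Kf : Environment d → ℝ≥0∞ := fun ω =>
    M * lam⁻¹ * ∑' x : Site d, (if lev u x = h + l0 then G ω x else 0) with hKf
  have hpt : ∀ ω, ∑' z, ∑' π, ∑' γ, g z π γ ω ≤ lam + Kf ω := by
    intro ω
    rw [ENNReal.tsum_comm]
    have hπb : ∀ π, ∑' z, ∑' γ, g z π γ ω ≤
        (if (IsUp u h π ∧ endp 0 π ∈ E) ∧ (∃ y ∈ sitesL 0 π, ev u h E ω y ≤ lam)
          then lw ω 0 π else 0) + (if IsUp u h π then lw ω 0 π else 0) * Kf ω := by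
      intro π
      by_cases hπ : IsUp u h π ∧ endp 0 π ∈ E
      swap
      · have : ∀ z γ, g z π γ ω = 0 := fun z γ => by simp only [hg, if_neg hπ, mul_zero]
        simp_rw [this]
        simp
      have hz1 : ∀ z, ∑' γ, g z π γ ω ≤
          D z * (lw ω 0 π * (if ∃ y ∈ sitesL 0 π, ev u h E ω y ≤ lam then 1 else 0)) +
          lw ω 0 π * (M * lam⁻¹ * (if lev u (z + endp 0 π) = h + l0
            then G ω (z + endp 0 π) else 0)) := by
        intro z
        by_cases hz : D z = 0
        · have : ∀ γ, g z π γ ω = 0 := fun γ => by simp only [hg, hz, zero_mul]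
          simp_rw [this]
          simp
        have hlz : lev u (z + endp 0 π) = h + l0 := by
          rw [lev_add, hl z hz, hπ.1.2]; ring
        have e2 : ∀ γ, g z π γ ω = D z * (lw ω 0 π *
            ((if FH u h s l0 (z + endp 0 π) π γ ∧ ev u h E ω (endp (z + endp 0 π) γ) ≤ lam
              then lw ω (z + endp 0 π) γ else 0) +
            (if FH u h s l0 (z + endp 0 π) π γ ∧ ¬ ev u h E ω (endp (z + endp 0 π) γ) ≤ lam
              then lw ω (z + endp 0 π) γ else 0))) := by
          intro γ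
          simp only [hg, if_pos hπ]
          congr 1
          by_cases hF : FH u h s l0 (z + endp 0 π) π γ
          · by_cases hE : ev u h E ω (endp (z + endp 0 π) γ) ≤ lam
            · simp [hF, hE]
            · simp [hF, hE]
          · simp [hF]
        simp_rw [e2]
        rw [ENNReal.tsum_mul_left, ENNReal.tsum_mul_left, ENNReal.tsum_add, mul_add, mul_add]
        refine add_le_add ?_ ?_
        · refine mul_le_mul_right (mul_le_mul_right ?_ _) _
          by_cases hex : ∃ y ∈ sitesL 0 π, ev u h E ω y ≤ lam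
          · rw [if_pos hex]
            exact pf_le_one ω _ ((pf_FH u h s l0 (z + endp 0 π) π).mono fun _ hl => hl.1)
          · have : ∀ γ, (if FH u h s l0 (z + endp 0 π) π γ ∧
                ev u h E ω (endp (z + endp 0 π) γ) ≤ lam
                then lw ω (z + endp 0 π) γ else 0) = 0 :=
              fun γ => if_neg fun hc => hex ⟨_, hc.1.1.2, hc.2⟩
            simp_rw [this]
            simp
        · rw [if_pos hlz]
          have hb := part_b u h s l0 hl0 E ω lam hlam hlam' (z + endp 0 π) π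
          calc _ ≤ M * (lw ω 0 π * (lam⁻¹ * G ω (z + endp 0 π))) :=
                mul_le_mul' (hM z) (mul_le_mul_right hb _)
            _ = _ := by ring
      refine (ENNReal.tsum_le_tsum hz1).trans ?_
      have hsh := (Equiv.addRight (endp 0 π)).tsum_eq
        (fun x => if lev u x = h + l0 then G ω x else 0)
      simp only [Equiv.coe_addRight] at hsh
      rw [ENNReal.tsum_add, ENNReal.tsum_mul_right, ENNReal.tsum_mul_left,
        ENNReal.tsum_mul_left, hsh]
      refine add_le_add ?_ ?_
      · by_cases hex : ∃ y ∈ sitesL 0 π, ev u h E ω y ≤ lam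
        · rw [if_pos hex, if_pos ⟨hπ, hex⟩, mul_one]
          calc _ ≤ 1 * lw ω 0 π := mul_le_mul_left hD _
            _ = _ := one_mul _
        · rw [if_neg hex]; simp
      · rw [if_pos hπ.1]
    refine (ENNReal.tsum_le_tsum hπb).trans ?_
    rw [ENNReal.tsum_add, ENNReal.tsum_mul_right]
    refine add_le_add (part_a u h E ω lam) ?_
    have hpfU : PF fun π : List (Step d) => IsUp u h π :=
      fun l l' h1 h2 h3 => Surg802.IsUp.prefix_eq (e0 := u) (n := h) h1 h2 h3
    calc _ ≤ 1 * Kf ω := mul_le_mul_left (pf_le_one ω 0 hpfU) _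
      _ = _ := one_mul _
  calc _ ≤ ∫⁻ ω, ∑' z, ∑' π, ∑' γ, g z π γ ω ∂Q := hstep1.trans hstep2.le
    _ ≤ ∫⁻ ω, (lam + Kf ω) ∂Q := lintegral_mono hpt
    _ = lam + ∫⁻ ω, Kf ω ∂Q := by
        rw [lintegral_add_left measurable_const, lintegral_const, measure_univ, mul_one]
    _ ≤ lam + M * lam⁻¹ * (E.card * annealedProb Q 0 (Us778.Dip u s)) := by
        refine add_le_add_right ?_ _
        simp only [hKf]
        have hm : ∀ x : Site d, Measurable fun ω => (if lev u x = h + l0 then G ω x else 0) := by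
          intro x
          split_ifs
          · exact hGm x
          · exact measurable_const
        rw [lintegral_const_mul _ (Measurable.ennreal_tsum hm),
          lintegral_tsum fun x => (hm x).aemeasurable]
        refine mul_le_mul_right ?_ _
        refine le_trans (ENNReal.tsum_le_tsum fun x => ?_) (ret_le ν u h s l0 hl0 E)
        split_ifs
        · exact le_rfl
        · simp
    _ = _ := by
        rw [ENNReal.div_eq_inv_mul]; ring

end Crest.Agent.R154.W2742
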