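import Crest.Agent.R154.Ren_396
import Crest.Agent.R154.AsmA_789
import Crest.Agent.R154.NumK_658

/-! Row 154, ROAD 801, one window in list letters on Ren_396 (helper613). -/

set_option autoImplicit false

namespace Crest.Agent.R154.WA613

open Crest.Agent.R154.B5A Crest.Agent.R154.Ren396
open scoped ENNReal

section one

variable {B : Type*} (Λ : B → ℝ≥0∞) (ht : B → ℕ)

open Classical in
/-- sum over the lists of height `n` -/
noncomputable def N (n : ℕ) (F : List B → ℝ≥0∞) : ℝ≥0∞ :=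
  ∑' L : List B, (if HT ht L = n then LW Λ L * F L else 0)

open Classical in
/-- sum over the first renewals `≥ A` with overshoot `≤ i0` -/
noncomputable def E (A i0 : ℕ) (F : List B → ℝ≥0∞) : ℝ≥0∞ :=
  ∑' P : List B, (if FR ht P A ∧ HT ht P ≤ A + i0 then LW Λ P * F P else 0)

lemma N_mono {n : ℕ} {F F' : List B → ℝ≥0∞} (h : ∀ L, HT ht L = n → F L ≤ F' L) :
    N Λ ht n F ≤ N Λ ht n F' := by
  refine ENNReal.tsum_le_tsum fun L => ?_
  split_ifs with h1
  · exact mul_le_mul_right (h L h1) _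
  · exact le_rfl

lemma E_mono {A i0 : ℕ} {F F' : List B → ℝ≥0∞}
    (h : ∀ L, FR ht L A → HT ht L ≤ A + i0 → F L ≤ F' L) :
    E Λ ht A i0 F ≤ E Λ ht A i0 F' := by
  refine ENNReal.tsum_le_tsum fun L => ?_
  split_ifs with h1
  · exact mul_le_mul_right (h L h1.1 h1.2) _
  · exact le_rfl

lemma N_const (hU1 : ∀ n, U Λ ht n ≤ 1) {n : ℕ} {F : List B → ℝ≥0∞} {c : ℝ≥0∞}
    (h : ∀ L, HT ht L = n → F L ≤ c) : N Λ ht n F ≤ c := by
  calc N Λ ht n F ≤ ∑' L : List B, (if HT ht L = n then LW Λ L else 0) * c := by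
        refine ENNReal.tsum_le_tsum fun L => ?_
        split_ifs with h1
        · exact mul_le_mul_right (h L h1) _
        · exact zero_le
    _ = U Λ ht n * c := by rw [ENNReal.tsum_mul_right]; rfl
    _ ≤ 1 * c := mul_le_mul_left (hU1 n) _
    _ = c := one_mul c

lemma E_const (hΛ : ∑' b, Λ b ≤ 1) (h1 : ∀ b, 1 ≤ ht b) {A i0 : ℕ} {F : List B → ℝ≥0∞} {c : ℝ≥0∞}
    (h : ∀ L, FR ht L A → HT ht L ≤ A + i0 → F L ≤ c) : E Λ ht A i0 F ≤ c := by
  classical
  calc E Λ ht A i0 F ≤ ∑' L : List B, (if FR ht L A then LW Λ L else 0) * c := by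
        refine ENNReal.tsum_le_tsum fun L => ?_
        by_cases h2 : FR ht L A ∧ HT ht L ≤ A + i0
        · rw [if_pos h2, if_pos h2.1]
          exact mul_le_mul_right (h L h2.1 h2.2) _
        · rw [if_neg h2]
          exact zero_le
    _ = (∑' L : List B, (if FR ht L A then LW Λ L else 0)) * c := ENNReal.tsum_mul_right
    _ ≤ 1 * c := mul_le_mul_left (by
        have := mass_FR Λ ht hΛ h1 A
        convert this) _
    _ = c := one_mul c

lemma E_add (A i0 : ℕ) (F F' : List B → ℝ≥0∞) :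
    E Λ ht A i0 (fun P => F P + F' P) = E Λ ht A i0 F + E Λ ht A i0 F' := by
  unfold E
  rw [← ENNReal.tsum_add]
  refine tsum_congr fun L => ?_
  split_ifs
  · rw [mul_add]
  · simp

lemma E_addc (hΛ : ∑' b, Λ b ≤ 1) (h1 : ∀ b, 1 ≤ ht b) (A i0 : ℕ) (F : List B → ℝ≥0∞) (c : ℝ≥0∞) :
    E Λ ht A i0 (fun P => F P + c) ≤ E Λ ht A i0 F + c := by
  rw [E_add]
  exact add_le_add_right (E_const Λ ht hΛ h1 fun _ _ _ => le_rfl) _

lemma N_addc (hU1 : ∀ n, U Λ ht n ≤ 1) (n : ℕ) (F : List B → ℝ≥0∞) (c : ℝ≥0∞) :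
    N Λ ht n (fun P => F P + c) ≤ N Λ ht n F + c := by
  have : N Λ ht n (fun P => F P + c) = N Λ ht n F + N Λ ht n (fun _ => c) := by
    unfold N
    rw [← ENNReal.tsum_add]
    refine tsum_congr fun L => ?_
    split_ifs
    · rw [mul_add]
    · simp
  rw [this]
  exact add_le_add_right (N_const Λ ht hU1 fun _ _ => le_rfl) _

/-- one cut -/
lemma N_step (hU1 : ∀ n, U Λ ht n ≤ 1) (T i0 n : ℕ) (hn : T + i0 ≤ n) (F : List B → ℝ≥0∞)
    (hF : ∀ L, F L ≤ 1) :
    N Λ ht n F ≤ E Λ ht T i0 (fun Q => N Λ ht (n - HT ht Q) (fun R => F (Q ++ R)))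
      + TS Λ ht (i0 + 1) := by
  classical
  have h := split_FR ht T (fun L => if HT ht L = n then LW Λ L * F L else 0)
  have e1 : N Λ ht n F = ∑' L : List B, (if T ≤ HT ht L then
      (if HT ht L = n then LW Λ L * F L else 0) else 0) := by
    refine tsum_congr fun L => ?_
    by_cases h1 : HT ht L = n
    · rw [if_pos h1, if_pos (by omega)]
    · simp [h1]
  rw [e1]
  refine le_trans (le_of_eq (by convert h)) ?_
  refine le_trans ?_ (add_le_add_right (over_le Λ ht hU1 T i0) _)
  unfold E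
  rw [← ENNReal.tsum_add]
  refine ENNReal.tsum_le_tsum fun P => ?_
  by_cases h2 : FR ht P T
  · rw [if_pos h2]
    by_cases h3 : HT ht P ≤ T + i0
    · rw [if_pos ⟨h2, h3⟩]
      refine le_add_right ?_
      unfold N
      rw [← ENNReal.tsum_mul_left]
      refine ENNReal.tsum_le_tsum fun R => ?_
      rw [HT_append]
      by_cases h4 : HT ht P + HT ht R = n
      · rw [if_pos h4, if_pos (by omega), LW_append, mul_assoc]
      · rw [if_neg h4]; exact zero_le
    · rw [if_neg (fun hh => h3 hh.2), if_pos ⟨h2, by omega⟩, zero_add]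
      calc ∑' R, (if HT ht (P ++ R) = n then LW Λ (P ++ R) * F (P ++ R) else 0)
          ≤ ∑' R, LW Λ P * (if HT ht R = n - HT ht P then LW Λ R else 0) := by
            refine ENNReal.tsum_le_tsum fun R => ?_
            rw [HT_append]
            by_cases h4 : HT ht P + HT ht R = n
            · rw [if_pos h4, if_pos (by omega), LW_append]
              calc _ ≤ LW Λ P * LW Λ R * 1 := mul_le_mul_right (hF _) _
                _ = _ := mul_one _
            · rw [if_neg h4]; exact zero_le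
        _ = LW Λ P * U Λ ht (n - HT ht P) := by rw [ENNReal.tsum_mul_left]; rfl
        _ ≤ LW Λ P * 1 := mul_le_mul_right (hU1 _) _
        _ = _ := mul_one _
  · rw [if_neg h2]; exact zero_le

/-- two cuts -/
lemma N_step2 (hU1 : ∀ n, U Λ ht n ≤ 1) (hΛ : ∑' b, Λ b ≤ 1) (h1 : ∀ b, 1 ≤ ht b)
    (A T i0 n : ℕ) (hn : A + i0 + (T + i0) ≤ n)
    (F : List B → ℝ≥0∞) (hF : ∀ L, F L ≤ 1) :
    N Λ ht n F ≤ E Λ ht A i0 (fun P => E Λ ht T i0 (fun Q =>
      N Λ ht (n - HT ht P - HT ht Q) (fun R => F (P ++ (Q ++ R))))) + 2 * TS Λ ht (i0 + 1) := by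
  refine (N_step Λ ht hU1 A i0 n (by omega) F hF).trans ?_
  rw [two_mul, ← add_assoc]
  refine add_le_add_left ?_ _
  refine le_trans (E_mono Λ ht fun P _ hP => ?_) (E_addc Λ ht hΛ h1 _ _ _ _)
  exact N_step Λ ht hU1 T i0 (n - HT ht P) (by omega) (fun R => F (P ++ R)) (fun _ => hF _)

/-- total mass of the first renewal is one -/
lemma mass_FR_eq (hΛ : ∑' b, Λ b = 1) (h1 : ∀ b, 1 ≤ ht b) (A : ℕ) :
    (open Classical in ∑' L : List B, (if FR ht L A then LW Λ L else 0)) = 1 := by
  classical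
  induction A using Nat.strong_induction_on with
  | _ A ih =>
    rw [tsum_list]
    rcases Nat.eq_zero_or_pos A with h0 | h0
    · subst h0
      simp [FR, LW_nil]
    · have e0 : (if FR ht ([] : List B) A then LW Λ [] else 0) = 0 := by
        rw [if_neg]; simp only [FR]; omega
      rw [e0, zero_add]
      calc _ = ∑' b, Λ b * ∑' L : List B, (if FR ht L (A - ht b) then LW Λ L else 0) := by
            refine tsum_congr fun b => ?_
            rw [← ENNReal.tsum_mul_left]
            refine tsum_congr fun L => ?_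
            simp only [FR, LW_cons]
            by_cases h2 : FR ht L (A - ht b)
            · rw [if_pos ⟨by omega, h2⟩, if_pos h2]
            · rw [if_neg (fun h => h2 h.2), if_neg h2, mul_zero]
        _ = ∑' b, Λ b * 1 := by
            refine tsum_congr fun b => ?_
            rw [ih (A - ht b) (by have := h1 b; omega)]
        _ = 1 := by simpa using hΛ

end one

end Crest.Agent.R154.WA613
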