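import Crest.Agent.R154.WA1_613

/-! Row 154, ROAD 801: pairs of lists, one window (helper613). -/

set_option autoImplicit false

namespace Crest.Agent.R154.WA613

open Crest.Agent.R154.B5A Crest.Agent.R154.Ren396
open scoped ENNReal

section pair

variable {BX BY G : Type*} [AddCommGroup G] (ΛX : BX → ℝ≥0∞) (hX : BX → ℕ) (zX : BX → G)
  (ΛY : BY → ℝ≥0∞) (hY : BY → ℕ) (zY : BY → G)

open Classical in
/-- indicator -/
noncomputable def ind (p : Prop) : ℝ≥0∞ := if p then 1 else 0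

lemma ind_le_one (p : Prop) : ind p ≤ 1 := by
  unfold ind; split_ifs <;> simp

lemma ind_mono {p q : Prop} (h : p → q) : ind p ≤ ind q := by
  unfold ind
  by_cases hp : p
  · rw [if_pos hp, if_pos (h hp)]
  · rw [if_neg hp]; exact zero_le

lemma E_swap (A i0 A' i0' : ℕ) (F : List BX → List BY → ℝ≥0∞) :
    E ΛX hX A i0 (fun P => E ΛY hY A' i0' (fun P' => F P P'))
      = E ΛY hY A' i0' (fun P' => E ΛX hX A i0 (fun P => F P P')) := by
  classical
  unfold E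
  have e1 : ∀ P : List BX, (if FR hX P A ∧ HT hX P ≤ A + i0 then LW ΛX P *
      ∑' P' : List BY, (if FR hY P' A' ∧ HT hY P' ≤ A' + i0' then LW ΛY P' * F P P' else 0) else 0)
      = ∑' P' : List BY, (if (FR hX P A ∧ HT hX P ≤ A + i0) ∧ (FR hY P' A' ∧ HT hY P' ≤ A' + i0')
        then LW ΛX P * (LW ΛY P' * F P P') else 0) := by
    intro P
    by_cases h : FR hX P A ∧ HT hX P ≤ A + i0
    · rw [if_pos h, ← ENNReal.tsum_mul_left]
      refine tsum_congr fun P' => ?_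
      by_cases h2 : FR hY P' A' ∧ HT hY P' ≤ A' + i0'
      · rw [if_pos h2, if_pos ⟨h, h2⟩]
      · rw [if_neg h2, if_neg (fun hh => h2 hh.2), mul_zero]
    · rw [if_neg h]
      symm
      rw [ENNReal.tsum_eq_zero]
      intro P'
      rw [if_neg (fun hh => h hh.1)]
  have e2 : ∀ P' : List BY, (if FR hY P' A' ∧ HT hY P' ≤ A' + i0' then LW ΛY P' *
      ∑' P : List BX, (if FR hX P A ∧ HT hX P ≤ A + i0 then LW ΛX P * F P P' else 0) else 0)
      = ∑' P : List BX, (if (FR hX P A ∧ HT hX P ≤ A + i0) ∧ (FR hY P' A' ∧ HT hY P' ≤ A' + i0')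
        then LW ΛX P * (LW ΛY P' * F P P') else 0) := by
    intro P'
    by_cases h : FR hY P' A' ∧ HT hY P' ≤ A' + i0'
    · rw [if_pos h, ← ENNReal.tsum_mul_left]
      refine tsum_congr fun P => ?_
      by_cases h2 : FR hX P A ∧ HT hX P ≤ A + i0
      · rw [if_pos h2, if_pos ⟨h2, h⟩]; ring
      · rw [if_neg h2, if_neg (fun hh => h2 hh.1), mul_zero]
    · rw [if_neg h]
      symm
      rw [ENNReal.tsum_eq_zero]
      intro P
      rw [if_neg (fun hh => h hh.2)]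
  rw [tsum_congr e1, tsum_congr e2, ENNReal.tsum_comm]

/-- **cutting both lists around the window** -/
theorem pair_cut (hUX : ∀ n, U ΛX hX n ≤ 1) (hΛX : ∑' b, ΛX b ≤ 1) (h1X : ∀ b, 1 ≤ hX b)
    (hUY : ∀ n, U ΛY hY n ≤ 1) (hΛY : ∑' b, ΛY b ≤ 1) (h1Y : ∀ b, 1 ≤ hY b)
    (A T A' T' i0 n : ℕ) (hn : A + i0 + (T + i0) ≤ n) (hn' : A' + i0 + (T' + i0) ≤ n)
    (w : G) (cond : List BX → List BY → Prop) (κ : ℕ → ℕ → G → List BX → List BY → Prop)
    (hκ : ∀ P Q R P' Q' R', FR hX P A → HT hX P ≤ A + i0 → FR hX Q T → HT hX Q ≤ T + i0 →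
      FR hY P' A' → HT hY P' ≤ A' + i0 → FR hY Q' T' → HT hY Q' ≤ T' + i0 →
      HT hX (P ++ (Q ++ R)) = n → HT hY (P' ++ (Q' ++ R')) = n →
      cond (P ++ (Q ++ R)) (P' ++ (Q' ++ R')) →
      κ (HT hX P) (HT hY P') (w + dp zY P' - dp zX P) Q Q') :
    N ΛX hX n (fun L => N ΛY hY n (fun L' => ind (cond L L')))
      ≤ E ΛX hX A i0 (fun P => E ΛY hY A' i0 (fun P' => E ΛX hX T i0 (fun Q =>
          E ΛY hY T' i0 (fun Q' => ind (κ (HT hX P) (HT hY P') (w + dp zY P' - dp zX P) Q Q')))))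
        + (2 * TS ΛX hX (i0 + 1) + 2 * TS ΛY hY (i0 + 1)) := by
  refine (N_step2 ΛX hX hUX hΛX h1X A T i0 n hn _
    (fun L => N_const ΛY hY hUY fun _ _ => ind_le_one _)).trans ?_
  rw [add_comm (2 * TS ΛX hX (i0 + 1)) (2 * TS ΛY hY (i0 + 1)), ← add_assoc]
  refine add_le_add_left ?_ _
  refine le_trans (E_mono ΛX hX fun P hP1 hP2 => ?_) (E_addc ΛX hX hΛX h1X _ _ _ _)
  rw [E_swap ΛY hY ΛX hX A' i0 T i0]
  refine le_trans (E_mono ΛX hX fun Q hQ1 hQ2 => ?_) (E_addc ΛX hX hΛX h1X _ _ _ _)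
  refine N_const ΛX hX hUX fun R hR => ?_
  refine (N_step2 ΛY hY hUY hΛY h1Y A' T' i0 n hn' _ (fun L => ind_le_one _)).trans ?_
  refine add_le_add_left ?_ _
  refine E_mono ΛY hY fun P' hP1' hP2' => E_mono ΛY hY fun Q' hQ1' hQ2' => ?_
  refine N_const ΛY hY hUY fun R' hR' => ?_
  refine ind_mono fun hc => ?_
  refine hκ P Q R P' Q' R' hP1 hP2 hQ1 hQ2 hP1' hP2' hQ1' hQ2' ?_ ?_ hc
  · rw [HT_append, HT_append]; omega
  · rw [HT_append, HT_append]; omega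

end pair

end Crest.Agent.R154.WA613
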