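import Crest.Agent.R154.WA2_613

/-! Row 154, ROAD 801: averaging over the relative position of the cuts (helper613). -/

set_option autoImplicit false

namespace Crest.Agent.R154.WA613

open Crest.Agent.R154.B5A Crest.Agent.R154.Ren396
open scoped ENNReal

section mix

variable {BX BY G : Type*} [AddCommGroup G] (ΛX : BX → ℝ≥0∞) (hX : BX → ℕ) (zX : BX → G)
  (ΛY : BY → ℝ≥0∞) (hY : BY → ℕ) (zY : BY → G)

lemma E_le_W (A i0 : ℕ) (f : ℕ → G → ℝ≥0∞) :
    E ΛX hX A i0 (fun P => f (HT hX P) (dp zX P))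
      ≤ ∑ a ∈ Finset.range (i0 + 1), ∑' δ, W ΛX hX zX A (A + a) δ * f (A + a) δ := by
  classical
  calc E ΛX hX A i0 (fun P => f (HT hX P) (dp zX P))
      ≤ ∑' P : List BX, ∑ a ∈ Finset.range (i0 + 1), ∑' δ,
          (if FR hX P A then (if HT hX P = A + a ∧ dp zX P = δ then LW ΛX P else 0) else 0)
            * f (A + a) δ := by
        refine ENNReal.tsum_le_tsum fun P => ?_
        by_cases h : FR hX P A ∧ HT hX P ≤ A + i0
        · rw [if_pos h]
          have h5 := FR_le hX h.1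
          have e : A + (HT hX P - A) = HT hX P := by omega
          refine le_trans ?_ (Finset.single_le_sum (f := fun a => ∑' δ,
            (if FR hX P A then (if HT hX P = A + a ∧ dp zX P = δ then LW ΛX P else 0) else 0)
              * f (A + a) δ) (fun _ _ => zero_le)
            (Finset.mem_range.2 (show HT hX P - A < i0 + 1 by omega)))
          simp only [e]
          refine le_trans ?_ (ENNReal.le_tsum (dp zX P))
          simp [h.1]
        · rw [if_neg h]; exact zero_le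
    _ = ∑ a ∈ Finset.range (i0 + 1), ∑' δ, W ΛX hX zX A (A + a) δ * f (A + a) δ := by
        rw [Summable.tsum_finsetSum (fun _ _ => ENNReal.summable)]
        refine Finset.sum_congr rfl fun a _ => ?_
        rw [ENNReal.tsum_comm]
        refine tsum_congr fun δ => ?_
        rw [ENNReal.tsum_mul_right]
        rfl

lemma sum_shift_le (f : ℕ → ℝ≥0∞) (A i0 : ℕ) :
    ∑ a ∈ Finset.range (i0 + 1), f (A + a) ≤ ∑' c, f c := by
  calc ∑ a ∈ Finset.range (i0 + 1), f (A + a) ≤ ∑' a, f (A + a) := ENNReal.sum_le_tsum _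
    _ ≤ ∑' c, f c := ENNReal.tsum_comp_le_tsum_of_injective (add_right_injective A) f

/-- **averaging, smooth side X** -/
theorem mixX (hΛY : ∑' b, ΛY b ≤ 1) (h1Y : ∀ b, 1 ≤ hY b)
    (hΛX : ∑' b, ΛX b ≤ 1) (h1X : ∀ b, 1 ≤ hX b)
    (A A' i0 : ℕ) (w : G) (ψ : ℕ → ℕ → G → ℝ≥0∞) (hψ1 : ∀ a a' x, ψ a a' x ≤ 1)
    (M β H : ℝ≥0∞) (Wg Wb : ℕ → G → ℝ≥0∞)
    (hW : ∀ c δ, W ΛX hX zX A c δ ≤ Wg c δ + Wb c δ) (hg : ∀ c δ, Wg c δ ≤ M)
    (hb : ∑' c, ∑' δ, Wb c δ ≤ β)
    (hH : ∀ a a' : ℕ, a ≤ i0 → a' ≤ i0 → ∀ μ : G → ℝ≥0∞, ∑' x, μ x ≤ 1 → (∀ x, μ x ≤ M) →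
      ∑' x, μ x * ψ (A + a) (A' + a') x ≤ H) :
    E ΛX hX A i0 (fun P => E ΛY hY A' i0 (fun P' =>
      ψ (HT hX P) (HT hY P') (w + dp zY P' - dp zX P))) ≤ ((i0 : ℝ≥0∞) + 1) ^ 2 * H + β := by
  have s1 : E ΛX hX A i0 (fun P => E ΛY hY A' i0 (fun P' =>
      ψ (HT hX P) (HT hY P') (w + dp zY P' - dp zX P)))
      ≤ ∑ a ∈ Finset.range (i0 + 1), ∑ a' ∈ Finset.range (i0 + 1), ∑' δ, ∑' δ',
        W ΛX hX zX A (A + a) δ * (W ΛY hY zY A' (A' + a') δ' * ψ (A + a) (A' + a') (w + δ' - δ)) := by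
    refine (E_mono ΛX hX (F' := fun P => ∑ a' ∈ Finset.range (i0 + 1), ∑' δ',
      W ΛY hY zY A' (A' + a') δ' * ψ (HT hX P) (A' + a') (w + δ' - dp zX P))
      fun P _ _ => E_le_W ΛY hY zY A' i0 (fun c δ' => ψ (HT hX P) c (w + δ' - dp zX P))).trans ?_
    refine (E_le_W ΛX hX zX A i0 (fun c δ => ∑ a' ∈ Finset.range (i0 + 1), ∑' δ',
      W ΛY hY zY A' (A' + a') δ' * ψ c (A' + a') (w + δ' - δ))).trans ?_
    refine Finset.sum_le_sum fun a _ => ?_
    rw [← Summable.tsum_finsetSum (fun _ _ => ENNReal.summable)]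
    refine ENNReal.tsum_le_tsum fun δ => ?_
    rw [Finset.mul_sum]
    refine Finset.sum_le_sum fun a' _ => ?_
    rw [ENNReal.tsum_mul_left]
  refine s1.trans ?_
  have s2 : ∀ a ∈ Finset.range (i0 + 1), ∀ a' ∈ Finset.range (i0 + 1), ∑' δ, ∑' δ',
        W ΛX hX zX A (A + a) δ * (W ΛY hY zY A' (A' + a') δ' * ψ (A + a) (A' + a') (w + δ' - δ))
      ≤ H + (∑' δ, Wb (A + a) δ) * (∑' δ', W ΛY hY zY A' (A' + a') δ') := by
    intro a ha a' ha'
    have ha1 : a ≤ i0 := by have := Finset.mem_range.1 ha; omega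
    have ha2 : a' ≤ i0 := by have := Finset.mem_range.1 ha'; omega
    have hle : ∀ δ, W ΛX hX zX A (A + a) δ ≤ min (W ΛX hX zX A (A + a) δ) M + Wb (A + a) δ := by
      intro δ
      rcases le_total (W ΛX hX zX A (A + a) δ) M with h | h
      · rw [min_eq_left h]; exact le_self_add
      · rw [min_eq_right h]
        exact (hW _ _).trans (add_le_add_left (hg _ _) _)
    calc ∑' δ, ∑' δ', W ΛX hX zX A (A + a) δ *
          (W ΛY hY zY A' (A' + a') δ' * ψ (A + a) (A' + a') (w + δ' - δ))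
        ≤ ∑' δ, ∑' δ', (min (W ΛX hX zX A (A + a) δ) M *
          (W ΛY hY zY A' (A' + a') δ' * ψ (A + a) (A' + a') (w + δ' - δ))
            + Wb (A + a) δ * W ΛY hY zY A' (A' + a') δ') := by
          refine ENNReal.tsum_le_tsum fun δ => ENNReal.tsum_le_tsum fun δ' => ?_
          refine (mul_le_mul_left (hle δ) _).trans ?_
          rw [add_mul]
          refine add_le_add_right (mul_le_mul_right ?_ _) _
          calc _ ≤ W ΛY hY zY A' (A' + a') δ' * 1 := mul_le_mul_right (hψ1 _ _ _) _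
            _ = _ := mul_one _
      _ = (∑' δ, ∑' δ', min (W ΛX hX zX A (A + a) δ) M *
          (W ΛY hY zY A' (A' + a') δ' * ψ (A + a) (A' + a') (w + δ' - δ)))
          + (∑' δ, Wb (A + a) δ) * (∑' δ', W ΛY hY zY A' (A' + a') δ') := by
          rw [← ENNReal.tsum_mul_right, ← ENNReal.tsum_add]
          refine tsum_congr fun δ => ?_
          rw [ENNReal.tsum_add, ENNReal.tsum_mul_left (a := Wb (A + a) δ)]
      _ ≤ _ := by
          refine add_le_add_left ?_ _
          set μ : G → ℝ≥0∞ := fun x => ∑' δ', min (W ΛX hX zX A (A + a) (w + δ' - x)) M *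
            W ΛY hY zY A' (A' + a') δ' with hμ
          have hYs : ∑' δ', W ΛY hY zY A' (A' + a') δ' ≤ 1 := tsum_W_le ΛY hY zY hΛY h1Y _ _
          have hXs : ∑' δ, W ΛX hX zX A (A + a) δ ≤ 1 := tsum_W_le ΛX hX zX hΛX h1X _ _
          have hμM : ∀ x, μ x ≤ M := by
            intro x
            calc μ x ≤ ∑' δ', M * W ΛY hY zY A' (A' + a') δ' :=
                  ENNReal.tsum_le_tsum fun δ' => mul_le_mul_left (min_le_right _ _) _
              _ = M * ∑' δ', W ΛY hY zY A' (A' + a') δ' := ENNReal.tsum_mul_left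
              _ ≤ M * 1 := mul_le_mul_right hYs _
              _ = M := mul_one _
          have hμ1 : ∑' x, μ x ≤ 1 := by
            rw [hμ, ENNReal.tsum_comm]
            calc ∑' δ', ∑' x, min (W ΛX hX zX A (A + a) (w + δ' - x)) M *
                  W ΛY hY zY A' (A' + a') δ'
                ≤ ∑' δ', 1 * W ΛY hY zY A' (A' + a') δ' := by
                  refine ENNReal.tsum_le_tsum fun δ' => ?_
                  rw [ENNReal.tsum_mul_right]
                  refine mul_le_mul_left ?_ _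
                  calc ∑' x, min (W ΛX hX zX A (A + a) (w + δ' - x)) M
                      ≤ ∑' x, W ΛX hX zX A (A + a) (w + δ' - x) :=
                        ENNReal.tsum_le_tsum fun x => min_le_left _ _
                    _ = ∑' x, W ΛX hX zX A (A + a) x :=
                        (Equiv.subLeft (w + δ')).tsum_eq (fun x => W ΛX hX zX A (A + a) x)
                    _ ≤ 1 := hXs
              _ ≤ 1 := by simpa using hYs
          refine le_trans (le_of_eq ?_) (hH a a' ha1 ha2 μ hμ1 hμM)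
          calc ∑' δ, ∑' δ', min (W ΛX hX zX A (A + a) δ) M *
                (W ΛY hY zY A' (A' + a') δ' * ψ (A + a) (A' + a') (w + δ' - δ))
              = ∑' δ', ∑' δ, min (W ΛX hX zX A (A + a) δ) M *
                (W ΛY hY zY A' (A' + a') δ' * ψ (A + a) (A' + a') (w + δ' - δ)) :=
                ENNReal.tsum_comm
            _ = ∑' δ', ∑' x, min (W ΛX hX zX A (A + a) (w + δ' - x)) M *
                (W ΛY hY zY A' (A' + a') δ' * ψ (A + a) (A' + a') x) := by
                refine tsum_congr fun δ' => ?_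
                rw [← (Equiv.subLeft (w + δ')).tsum_eq]
                refine tsum_congr fun x => ?_
                simp only [Equiv.subLeft_apply, sub_sub_cancel]
            _ = ∑' x, ∑' δ', min (W ΛX hX zX A (A + a) (w + δ' - x)) M *
                (W ΛY hY zY A' (A' + a') δ' * ψ (A + a) (A' + a') x) := ENNReal.tsum_comm
            _ = ∑' x, μ x * ψ (A + a) (A' + a') x := by
                refine tsum_congr fun x => ?_
                rw [hμ, ← ENNReal.tsum_mul_right]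
                exact tsum_congr fun δ' => by ring
  calc _ ≤ ∑ a ∈ Finset.range (i0 + 1), ∑ a' ∈ Finset.range (i0 + 1),
        (H + (∑' δ, Wb (A + a) δ) * (∑' δ', W ΛY hY zY A' (A' + a') δ')) :=
        Finset.sum_le_sum fun a ha => Finset.sum_le_sum fun a' ha' => s2 a ha a' ha'
    _ = ((i0 : ℝ≥0∞) + 1) ^ 2 * H + (∑ a ∈ Finset.range (i0 + 1), ∑' δ, Wb (A + a) δ) *
        (∑ a' ∈ Finset.range (i0 + 1), ∑' δ', W ΛY hY zY A' (A' + a') δ') := by
        simp only [Finset.sum_add_distrib]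
        congr 1
        · simp only [Finset.sum_const, Finset.card_range, nsmul_eq_mul]
          push_cast
          ring
        · rw [Finset.sum_mul]
          exact Finset.sum_congr rfl fun a _ => (Finset.mul_sum _ _ _).symm
    _ ≤ ((i0 : ℝ≥0∞) + 1) ^ 2 * H + β * 1 := by
        refine add_le_add_right (mul_le_mul' ?_ ?_) _
        · exact (sum_shift_le (fun c => ∑' δ, Wb c δ) A i0).trans hb
        · refine (sum_shift_le (fun c => ∑' δ, W ΛY hY zY A' c δ) A' i0).trans ?_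
          rw [tsum_tsum_W]
          exact mass_FR ΛY hY hΛY h1Y A'
    _ = _ := by rw [mul_one]

/-- **averaging, smooth side Y** -/
theorem mixY (hΛY : ∑' b, ΛY b ≤ 1) (h1Y : ∀ b, 1 ≤ hY b)
    (hΛX : ∑' b, ΛX b ≤ 1) (h1X : ∀ b, 1 ≤ hX b)
    (A A' i0 : ℕ) (w : G) (ψ : ℕ → ℕ → G → ℝ≥0∞) (hψ1 : ∀ a a' x, ψ a a' x ≤ 1)
    (M β H : ℝ≥0∞) (Wg Wb : ℕ → G → ℝ≥0∞)
    (hW : ∀ c δ, W ΛY hY zY A' c δ ≤ Wg c δ + Wb c δ) (hg : ∀ c δ, Wg c δ ≤ M)
    (hb : ∑' c, ∑' δ, Wb c δ ≤ β)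
    (hH : ∀ a a' : ℕ, a ≤ i0 → a' ≤ i0 → ∀ μ : G → ℝ≥0∞, ∑' x, μ x ≤ 1 → (∀ x, μ x ≤ M) →
      ∑' x, μ x * ψ (A + a) (A' + a') x ≤ H) :
    E ΛX hX A i0 (fun P => E ΛY hY A' i0 (fun P' =>
      ψ (HT hX P) (HT hY P') (w + dp zY P' - dp zX P))) ≤ ((i0 : ℝ≥0∞) + 1) ^ 2 * H + β := by
  rw [E_swap]
  have h := mixX ΛY hY zY ΛX hX zX hΛX h1X hΛY h1Y A' A i0 (-w) (fun a' a x => ψ a a' (-x))
    (fun _ _ _ => hψ1 _ _ _) M β H Wg Wb hW hg hb (fun a' a ha' ha μ h1 h2 => by
      have := hH a a' ha ha' (fun x => μ (-x))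
        (le_of_eq_of_le ((Equiv.neg G).tsum_eq (fun x => μ x)) h1) (fun x => h2 _)
      refine le_of_eq_of_le ?_ this
      rw [← (Equiv.neg G).tsum_eq (fun x => μ x * ψ (A + a) (A' + a') (-x))]
      simp)
  refine le_of_eq_of_le ?_ h
  congr 1
  funext P'
  congr 1
  funext P
  congr 1
  abel

end mix

end Crest.Agent.R154.WA613
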