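import Crest.Agent.R154.WA3_613

/-! Row 154, ROAD 801: one window (helper613). -/

set_option autoImplicit false

namespace Crest.Agent.R154.WA613

open Crest.Agent.R154.B5A Crest.Agent.R154.Ren396
open scoped ENNReal

section one

variable {B G : Type*} [AddCommGroup G] (Λ : B → ℝ≥0∞) (ht : B → ℕ) (z : B → G)

lemma E_mul_left (A i0 : ℕ) (F : List B → ℝ≥0∞) (c : ℝ≥0∞) :
    E Λ ht A i0 (fun P => c * F P) = c * E Λ ht A i0 F := by
  unfold E
  rw [← ENNReal.tsum_mul_left]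
  refine tsum_congr fun L => ?_
  split_ifs
  · ring
  · simp

lemma E_mul_right (A i0 : ℕ) (F : List B → ℝ≥0∞) (c : ℝ≥0∞) :
    E Λ ht A i0 (fun P => F P * c) = E Λ ht A i0 F * c := by
  rw [mul_comm, ← E_mul_left]
  congr 1
  funext P
  ring

lemma N_mul_left (n : ℕ) (F : List B → ℝ≥0∞) (c : ℝ≥0∞) :
    N Λ ht n (fun P => c * F P) = c * N Λ ht n F := by
  unfold N
  rw [← ENNReal.tsum_mul_left]
  refine tsum_congr fun L => ?_
  split_ifs
  · ring
  · simp

lemma N_sum (n : ℕ) (s : Finset ℕ) (F : ℕ → List B → ℝ≥0∞) :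
    N Λ ht n (fun P => ∑ i ∈ s, F i P) = ∑ i ∈ s, N Λ ht n (F i) := by
  unfold N
  rw [← Summable.tsum_finsetSum (fun _ _ => ENNReal.summable)]
  refine tsum_congr fun L => ?_
  split_ifs
  · rw [Finset.mul_sum]
  · simp

lemma E_le_N (T i0 : ℕ) (F : List B → ℝ≥0∞) :
    E Λ ht T i0 F ≤ ∑ i ∈ Finset.range (i0 + 1), N Λ ht (T + i) F := by
  classical
  unfold N
  rw [← Summable.tsum_finsetSum (fun _ _ => ENNReal.summable)]
  refine ENNReal.tsum_le_tsum fun P => ?_
  by_cases h : FR ht P T ∧ HT ht P ≤ T + i0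
  · have h5 := FR_le ht h.1
    refine le_trans ?_ (Finset.single_le_sum (f := fun i =>
      (if HT ht P = T + i then LW Λ P * F P else 0)) (fun _ _ => zero_le)
      (Finset.mem_range.2 (show HT ht P - T < i0 + 1 by omega)))
    rw [if_pos h]
    rw [if_pos (by omega)]
  · rw [if_neg h]; exact zero_le

open Classical in
/-- mass of the non local attempts -/
lemma nonloc_le (T i0 : ℕ) (θ u : ℝ≥0∞)
    (h : ∑' i : ℕ × G, (if W Λ ht z T i.1 i.2 < θ then W Λ ht z T i.1 i.2 else 0) ≤ u) :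
    E Λ ht T i0 (fun Q => ind (¬ θ ≤ W Λ ht z T (HT ht Q) (dp z Q))) ≤ u := by
  refine (E_le_W Λ ht z T i0 (fun c δ => ind (¬ θ ≤ W Λ ht z T c δ))).trans ?_
  refine (sum_shift_le (fun c => ∑' δ, W Λ ht z T c δ * ind (¬ θ ≤ W Λ ht z T c δ)) T i0).trans ?_
  refine le_trans (le_of_eq ?_) h
  rw [ENNReal.tsum_prod']
  refine tsum_congr fun c => tsum_congr fun δ => ?_
  unfold ind
  by_cases h2 : W Λ ht z T c δ < θ
  · rw [if_pos (not_le.2 h2), if_pos h2, mul_one]
  · rw [if_neg (fun hh => h2 (not_le.1 hh)), if_neg h2, mul_zero]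

open Classical in
lemma low_ge (T : ℕ) (θ u : ℝ≥0∞)
    (h : u ≤ ∑' i : ℕ × G, (if W Λ ht z T i.1 i.2 < θ then W Λ ht z T i.1 i.2 else 0)) :
    u ≤ ∑' P : List B, (if FR ht P T ∧ W Λ ht z T (HT ht P) (dp z P) ≤ θ then LW Λ P else 0) := by
  refine h.trans ?_
  calc ∑' i : ℕ × G, (if W Λ ht z T i.1 i.2 < θ then W Λ ht z T i.1 i.2 else 0)
      = ∑' i : ℕ × G, ∑' P : List B, (if W Λ ht z T i.1 i.2 < θ then
          (if FR ht P T then (if HT ht P = i.1 ∧ dp z P = i.2 then LW Λ P else 0) else 0) else 0) := by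
        refine tsum_congr fun i => ?_
        by_cases h2 : W Λ ht z T i.1 i.2 < θ
        · simp only [if_pos h2]; rfl
        · simp only [if_neg h2, tsum_zero]
    _ = ∑' P : List B, ∑' i : ℕ × G, (if W Λ ht z T i.1 i.2 < θ then
          (if FR ht P T then (if HT ht P = i.1 ∧ dp z P = i.2 then LW Λ P else 0) else 0) else 0) :=
        ENNReal.tsum_comm
    _ ≤ _ := by
        refine ENNReal.tsum_le_tsum fun P => ?_
        rw [tsum_eq_single (HT ht P, dp z P)]
        · by_cases h2 : W Λ ht z T (HT ht P) (dp z P) < θ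
          · by_cases h3 : FR ht P T
            · rw [if_pos (c := FR ht P T ∧ _) ⟨h3, h2.le⟩]
              simp [h2, h3]
            · simp [h3]
          · rw [if_neg h2]; exact zero_le
        · rintro ⟨c, δ⟩ hne
          by_cases h2 : HT ht P = c ∧ dp z P = δ
          · exact absurd (Prod.ext h2.1.symm h2.2.symm) hne
          · simp [h2]

open Classical in
/-- hypothesis `hlow` of `Ren396.dens` -/
lemma low_half (hU1 : ∀ n, U Λ ht n ≤ 1) (T i0 : ℕ) (θ u : ℝ≥0∞) (hut : u ≠ ⊤)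
    (he : TS Λ ht (i0 + 1) ≤ u / 2)
    (h : u ≤ ∑' i : ℕ × G, (if W Λ ht z T i.1 i.2 < θ then W Λ ht z T i.1 i.2 else 0)) :
    u / 2 ≤ ∑' P : List B, (if FR ht P T ∧ HT ht P ≤ T + i0 ∧
      W Λ ht z T (HT ht P) (dp z P) ≤ θ then LW Λ P else 0) := by
  have h1 := low_ge Λ ht z T θ u h
  have h2 : ∑' P : List B, (if FR ht P T ∧ W Λ ht z T (HT ht P) (dp z P) ≤ θ then LW Λ P else 0)
      ≤ ∑' P : List B, (if FR ht P T ∧ HT ht P ≤ T + i0 ∧
      W Λ ht z T (HT ht P) (dp z P) ≤ θ then LW Λ P else 0) + u / 2 := by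
    refine le_trans ?_ (add_le_add_right ((over_le Λ ht hU1 T i0).trans he) _)
    rw [← ENNReal.tsum_add]
    refine ENNReal.tsum_le_tsum fun P => ?_
    by_cases h3 : FR ht P T
    · by_cases h4 : HT ht P ≤ T + i0
      · by_cases h5 : W Λ ht z T (HT ht P) (dp z P) ≤ θ <;> simp [h3, h4, h5]
      · have h6 : T + i0 < HT ht P := by omega
        by_cases h5 : W Λ ht z T (HT ht P) (dp z P) ≤ θ <;> simp [h3, h6, h5]
    · simp [h3]
  have h3 := h1.trans h2
  have h4 : u = u / 2 + u / 2 := (ENNReal.add_halves u).symm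
  rw [h4] at h3
  have h5 : u / 2 ≠ ⊤ := by
    refine ne_top_of_le_ne_top hut ENNReal.half_le_self
  exact (ENNReal.add_le_add_iff_right h5).1 (by rwa [← h4] at h3 ⊢)

end one

end Crest.Agent.R154.WA613
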