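import Crest.Agent.R154.WA4_613

/-! Row 154, ROAD 801: one window, final estimate (helper613). -/

set_option autoImplicit false

namespace Crest.Agent.R154.WA613

open Crest.Agent.R154.B5A Crest.Agent.R154.Ren396
open scoped ENNReal

section win

variable {BX BY G : Type*} [AddCommGroup G] (ΛX : BX → ℝ≥0∞) (hX : BX → ℕ) (zX : BX → G)
  (ΛY : BY → ℝ≥0∞) (hY : BY → ℕ) (zY : BY → G) (lv : G → ℤ)
  (Cn : List BX → List BY → G → ℕ → Prop)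

/-- contact condition of the pieces of one window -/
def κ (s a a' : ℕ) (x : G) (Q : List BX) (Q' : List BY) : Prop :=
  lv x = (a : ℤ) - a' ∧ (∃ k, Cn Q Q' x k) ∧ ∀ k, Cn Q Q' x k → (a' - a) + s ≤ k ∧ k + s ≤ HT hX Q

/-- window lemma, X local -/
def H2L (Φ : ℝ≥0∞ → ℝ≥0∞) (s r0 : ℕ) : Prop :=
  ∀ (r h h' : ℕ) (S : Finset G) (μ : G → ℝ≥0∞) (M : ℝ≥0∞), 1 ≤ r → r ≤ r0 → h ≤ h' + r →
    h' + r ≤ h + r0 → ∑' x, μ x ≤ 1 → (∀ x, μ x ≤ M) → M ≠ ⊤ →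
    ∑' x, μ x * N ΛX hX h (fun L => N ΛY hY h' (fun L' => ind (lv x = -(r : ℤ) ∧ dp zX L ∈ S ∧
      (∃ k, Cn L L' x k) ∧ ∀ k, Cn L L' x k → r + s ≤ k)))
    ≤ Φ (M * S.card)

/-- window lemma, Y local -/
def H3L (Φ : ℝ≥0∞ → ℝ≥0∞) (s r0 : ℕ) : Prop :=
  ∀ (r h h' : ℕ) (S : Finset G) (μ : G → ℝ≥0∞) (M : ℝ≥0∞), 1 ≤ r → r ≤ r0 → h < h' + r →
    h' + r ≤ h + r0 → ∑' x, μ x ≤ 1 → (∀ x, μ x ≤ M) → M ≠ ⊤ →
    ∑' x, μ x * N ΛX hX h (fun L => N ΛY hY h' (fun L' => ind (lv x = -(r : ℤ) ∧ dp zY L' ∈ S ∧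
      (∃ k, Cn L L' x k) ∧ ∀ k, Cn L L' x k → k + s ≤ h)))
    ≤ Φ (M * S.card)

/-- threshold set -/
lemma exists_set {B : Type*} (Λ : B → ℝ≥0∞) (ht : B → ℕ) (z : B → G) (hΛ : ∑' b, Λ b ≤ 1)
    (h1 : ∀ b, 1 ≤ ht b) (T c : ℕ) (θ : ℝ≥0∞) (hθ : θ ≠ 0) :
    ∃ S : Finset G, (∀ δ, θ ≤ W Λ ht z T c δ → δ ∈ S) ∧ (S.card : ℝ≥0∞) * θ ≤ 1 := by
  obtain ⟨hf, hc⟩ := AsmA789.card_le (fun δ => W Λ ht z T c δ) (tsum_W_le Λ ht z hΛ h1 T c) hθ
  refine ⟨hf.toFinset, fun δ hδ => hf.mem_toFinset.2 hδ, ?_⟩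
  rwa [Set.ncard_eq_toFinset_card _ hf] at hc

variable (hUX : ∀ n, U ΛX hX n ≤ 1) (hΛX : ∑' b, ΛX b = 1) (h1X : ∀ b, 1 ≤ hX b)
    (hUY : ∀ n, U ΛY hY n ≤ 1) (hΛY : ∑' b, ΛY b = 1) (h1Y : ∀ b, 1 ≤ hY b)

include hUX hΛX h1X hUY hΛY h1Y in
/-- **one window** -/
theorem window (Φ : ℝ≥0∞ → ℝ≥0∞) (hΦ : Monotone Φ) (A T s i0 J : ℕ) (w : G)
    (hH2 : H2L ΛX hX zX ΛY hY lv Cn Φ s (4 * i0 + 2))
    (hH3 : H3L ΛX hX ΛY hY zY lv Cn Φ s (4 * i0 + 2))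
    (u : ℝ≥0∞) (hu0 : u ≠ 0) (hu1 : u < 1)
    (heX : TS ΛX hX (i0 + 1) ≤ u / 2) (heY : TS ΛY hY (i0 + 1) ≤ u / 2)
    (hJ : J * (T + i0 + i0) ≤ A) :
    E ΛX hX A i0 (fun P => E ΛY hY (A + i0 + 1) i0 (fun P' => E ΛX hX T i0 (fun Q =>
          E ΛY hY (T + i0) i0 (fun Q' => ind (κ hX lv Cn s (HT hX P) (HT hY P')
            (w + dp zY P' - dp zX P) Q Q')))))
      ≤ u ^ 2 + 2 * ((i0 : ℝ≥0∞) + 1) ^ 4 * Φ (4 * (i0 + 1) / u)
        + 2 * (1 - u / 2) ^ J + J * TS ΛX hX (i0 + 1) + J * TS ΛY hY (i0 + 1) := by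
  classical
  have hut : u ≠ ⊤ := hu1.ne_top
  have hu20 : u / 2 ≠ 0 := by simp [hu0]
  -- quantiles
  have hq : ∀ {B : Type _} (Λ : B → ℝ≥0∞) (ht : B → ℕ) (z : B → G) (hΛ : ∑' b, Λ b = 1)
      (h1 : ∀ b, 1 ≤ ht b) (T : ℕ), ∑' i : ℕ × G, W Λ ht z T i.1 i.2 = 1 := by
    intro B Λ ht z hΛ h1 T
    rw [ENNReal.tsum_prod' (f := fun i : ℕ × G => W Λ ht z T i.1 i.2)]
    rw [tsum_tsum_W]
    exact mass_FR_eq Λ ht hΛ h1 T
  obtain ⟨θ, hθ0, hθ1, hθa, hθb⟩ := AsmA789.quant (fun i : ℕ × G => W ΛX hX zX T i.1 i.2)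
    (hq ΛX hX zX hΛX h1X T) hu0 hu1
  have hq' : ∑' i : ℕ × G, W ΛY hY zY (T + i0) i.1 i.2 = 1 := by
    rw [ENNReal.tsum_prod' (f := fun i : ℕ × G => W ΛY hY zY (T + i0) i.1 i.2)]
    rw [tsum_tsum_W]
    exact mass_FR_eq ΛY hY hΛY h1Y (T + i0)
  obtain ⟨θ', hθ0', hθ1', hθa', hθb'⟩ := AsmA789.quant
    (fun i : ℕ × G => W ΛY hY zY (T + i0) i.1 i.2) hq' hu0 hu1
  have hlow := low_half ΛX hX zX hUX T i0 (2 * θ) u hut heX hθb
  have hlow' := low_half ΛY hY zY hUY (T + i0) i0 (2 * θ') u hut heY hθb'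
  have hover := over_le ΛX hX hUX T i0
  have hover' := over_le ΛY hY hUY (T + i0) i0
  have hJ1 : J * (T + i0) ≤ A := le_trans (Nat.mul_le_mul_left _ (by omega)) hJ
  have hJ2 : J * (T + i0 + i0) ≤ A + i0 + 1 := by omega
  obtain ⟨Wg, Wb, hW, hg, hb⟩ := dens ΛX hX zX hΛX.le h1X T i0 (2 * θ) (u / 2) _ hu20
    (by convert hlow) (by convert hover) J A hJ1
  obtain ⟨Wg', Wb', hW', hg', hb'⟩ := dens ΛY hY zY hΛY.le h1Y (T + i0) i0 (2 * θ') (u / 2) _ hu20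
    (by convert hlow') (by convert hover') J (A + i0 + 1) hJ2
  -- the three parts
  set nlX : List BX → Prop := fun Q => ¬ θ ≤ W ΛX hX zX T (HT hX Q) (dp zX Q) with hnlX
  set nlY : List BY → Prop := fun Q => ¬ θ' ≤ W ΛY hY zY (T + i0) (HT hY Q) (dp zY Q) with hnlY
  set ψX : ℕ → ℕ → G → ℝ≥0∞ := fun a a' x => E ΛX hX T i0 (fun Q => E ΛY hY (T + i0) i0
    (fun Q' => ind (κ hX lv Cn s a a' x Q Q' ∧ ¬ nlX Q))) with hψX
  set ψY : ℕ → ℕ → G → ℝ≥0∞ := fun a a' x => E ΛX hX T i0 (fun Q => E ΛY hY (T + i0) i0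
    (fun Q' => ind (κ hX lv Cn s a a' x Q Q' ∧ ¬ nlY Q'))) with hψY
  have hsplit : ∀ a a' x, E ΛX hX T i0 (fun Q => E ΛY hY (T + i0) i0
      (fun Q' => ind (κ hX lv Cn s a a' x Q Q'))) ≤ (ψX a a' x + ψY a a' x) + u ^ 2 := by
    intro a a' x
    have e0 : ∀ Q Q', ind (κ hX lv Cn s a a' x Q Q') ≤
        (ind (κ hX lv Cn s a a' x Q Q' ∧ ¬ nlX Q) + ind (κ hX lv Cn s a a' x Q Q' ∧ ¬ nlY Q'))
          + ind (nlX Q) * ind (nlY Q') := by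
      intro Q Q'
      unfold ind
      by_cases h1 : κ hX lv Cn s a a' x Q Q'
      · by_cases h2 : nlX Q
        · by_cases h3 : nlY Q' <;> simp [h1, h2, h3]
        · simp [h1, h2]
      · simp [h1]
    refine (E_mono ΛX hX fun Q _ _ => E_mono ΛY hY fun Q' _ _ => e0 Q Q').trans ?_
    simp only [E_add]
    refine add_le_add le_rfl ?_
    simp only [E_mul_left, E_mul_right]
    rw [pow_two]
    exact mul_le_mul' (nonloc_le ΛX hX zX T i0 θ u hθa) (nonloc_le ΛY hY zY (T + i0) i0 θ' u hθa')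
  have hψX1 : ∀ a a' x, ψX a a' x ≤ 1 := fun a a' x =>
    E_const ΛX hX hΛX.le h1X fun _ _ _ => E_const ΛY hY hΛY.le h1Y fun _ _ _ => ind_le_one _
  have hψY1 : ∀ a a' x, ψY a a' x ≤ 1 := fun a a' x =>
    E_const ΛX hX hΛX.le h1X fun _ _ _ => E_const ΛY hY hΛY.le h1Y fun _ _ _ => ind_le_one _
  -- the smooth bound
  set Hc : ℝ≥0∞ := Φ (4 * (i0 + 1) / u) with hHc
  have hcard : ∀ (t : ℝ≥0∞) (S : Finset G), (S.card : ℝ≥0∞) * t ≤ 1 →
      ((i0 : ℝ≥0∞) + 1) * (2 * t) / (u / 2) * S.card ≤ 4 * (i0 + 1) / u := by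
    intro t S hS
    have e1 : ((i0 : ℝ≥0∞) + 1) * (2 * t) / (u / 2) = 4 * ((i0 : ℝ≥0∞) + 1) / u * t := by
      rw [div_eq_mul_inv, div_eq_mul_inv u 2, ENNReal.mul_inv (Or.inl hu0) (Or.inl hut), inv_inv,
        div_eq_mul_inv]
      ring
    rw [e1, mul_assoc]
    calc 4 * ((i0 : ℝ≥0∞) + 1) / u * (t * S.card) ≤ 4 * ((i0 : ℝ≥0∞) + 1) / u * 1 :=
          mul_le_mul_right (by rwa [mul_comm]) _
      _ = _ := mul_one _
  have hMt : ∀ t : ℝ≥0∞, t ≤ 1 → ((i0 : ℝ≥0∞) + 1) * (2 * t) / (u / 2) ≠ ⊤ := by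
    intro t ht
    have h1 : t ≠ ⊤ := ne_top_of_le_ne_top ENNReal.one_ne_top ht
    refine ENNReal.div_ne_top ?_ hu20
    finiteness
  have hHX : ∀ a a' : ℕ, a ≤ i0 → a' ≤ i0 → ∀ μ : G → ℝ≥0∞, ∑' x, μ x ≤ 1 →
      (∀ x, μ x ≤ ((i0 : ℝ≥0∞) + 1) * (2 * θ) / (u / 2)) →
      ∑' x, μ x * ψX (A + a) (A + i0 + 1 + a') x ≤ ((i0 : ℝ≥0∞) + 1) ^ 2 * Hc := by
    intro a a' ha ha' μ hμ1 hμM
    have st : ∀ x, ψX (A + a) (A + i0 + 1 + a') x ≤ ∑ i ∈ Finset.range (i0 + 1),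
        ∑ i' ∈ Finset.range (i0 + 1), N ΛX hX (T + i) (fun Q => N ΛY hY (T + i0 + i') (fun Q' =>
          ind (κ hX lv Cn s (A + a) (A + i0 + 1 + a') x Q Q' ∧ ¬ nlX Q))) := by
      intro x
      refine (E_le_N ΛX hX T i0 _).trans (Finset.sum_le_sum fun i _ => ?_)
      rw [← N_sum]
      exact N_mono ΛX hX fun Q _ => E_le_N ΛY hY (T + i0) i0 _
    calc ∑' x, μ x * ψX (A + a) (A + i0 + 1 + a') x
        ≤ ∑' x, ∑ i ∈ Finset.range (i0 + 1), ∑ i' ∈ Finset.range (i0 + 1),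
          μ x * N ΛX hX (T + i) (fun Q => N ΛY hY (T + i0 + i') (fun Q' =>
          ind (κ hX lv Cn s (A + a) (A + i0 + 1 + a') x Q Q' ∧ ¬ nlX Q))) := by
          refine ENNReal.tsum_le_tsum fun x => ?_
          refine (mul_le_mul_right (st x) _).trans (le_of_eq ?_)
          rw [Finset.mul_sum]
          exact Finset.sum_congr rfl fun i _ => Finset.mul_sum _ _ _
      _ = ∑ i ∈ Finset.range (i0 + 1), ∑ i' ∈ Finset.range (i0 + 1), ∑' x,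
          μ x * N ΛX hX (T + i) (fun Q => N ΛY hY (T + i0 + i') (fun Q' =>
          ind (κ hX lv Cn s (A + a) (A + i0 + 1 + a') x Q Q' ∧ ¬ nlX Q))) := by
          rw [Summable.tsum_finsetSum (fun _ _ => ENNReal.summable)]
          exact Finset.sum_congr rfl fun i _ =>
            Summable.tsum_finsetSum (fun _ _ => ENNReal.summable)
      _ ≤ ∑ i ∈ Finset.range (i0 + 1), ∑ i' ∈ Finset.range (i0 + 1), Hc := by
          refine Finset.sum_le_sum fun i hi => Finset.sum_le_sum fun i' hi' => ?_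
          obtain ⟨S, hS1, hS2⟩ := exists_set ΛX hX zX hΛX.le h1X T (T + i) θ hθ0
          have hi1 := Finset.mem_range.1 hi
          have hi2 := Finset.mem_range.1 hi'
          have h2 := hH2 (i0 + 1 + a' - a) (T + i) (T + i0 + i') S μ _ (by omega) (by omega)
            (by omega) (by omega) hμ1 hμM (hMt θ hθ1)
          refine le_trans (ENNReal.tsum_le_tsum fun x => mul_le_mul_right
            (N_mono ΛX hX fun Q hQ => N_mono ΛY hY fun Q' hQ' => ind_mono ?_) _) (h2.trans ?_)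
          · rintro ⟨⟨hk1, hk2, hk3⟩, hk4⟩
            refine ⟨?_, ?_, hk2, fun k hk => ?_⟩
            · rw [hk1]; push_cast; omega
            · refine hS1 _ ?_
              rw [← hQ]
              exact not_not.1 hk4
            · have := (hk3 k hk).1
              omega
          · rw [hHc]
            exact hΦ (hcard θ S hS2)
      _ = ((i0 : ℝ≥0∞) + 1) ^ 2 * Hc := by
          simp only [Finset.sum_const, Finset.card_range, nsmul_eq_mul]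
          push_cast
          ring
  have hHY : ∀ a a' : ℕ, a ≤ i0 → a' ≤ i0 → ∀ μ : G → ℝ≥0∞, ∑' x, μ x ≤ 1 →
      (∀ x, μ x ≤ ((i0 : ℝ≥0∞) + 1) * (2 * θ') / (u / 2)) →
      ∑' x, μ x * ψY (A + a) (A + i0 + 1 + a') x ≤ ((i0 : ℝ≥0∞) + 1) ^ 2 * Hc := by
    intro a a' ha ha' μ hμ1 hμM
    have st : ∀ x, ψY (A + a) (A + i0 + 1 + a') x ≤ ∑ i ∈ Finset.range (i0 + 1),
        ∑ i' ∈ Finset.range (i0 + 1), N ΛX hX (T + i) (fun Q => N ΛY hY (T + i0 + i') (fun Q' =>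
          ind (κ hX lv Cn s (A + a) (A + i0 + 1 + a') x Q Q' ∧ ¬ nlY Q'))) := by
      intro x
      refine (E_le_N ΛX hX T i0 _).trans (Finset.sum_le_sum fun i _ => ?_)
      rw [← N_sum]
      exact N_mono ΛX hX fun Q _ => E_le_N ΛY hY (T + i0) i0 _
    calc ∑' x, μ x * ψY (A + a) (A + i0 + 1 + a') x
        ≤ ∑' x, ∑ i ∈ Finset.range (i0 + 1), ∑ i' ∈ Finset.range (i0 + 1),
          μ x * N ΛX hX (T + i) (fun Q => N ΛY hY (T + i0 + i') (fun Q' =>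
          ind (κ hX lv Cn s (A + a) (A + i0 + 1 + a') x Q Q' ∧ ¬ nlY Q'))) := by
          refine ENNReal.tsum_le_tsum fun x => ?_
          refine (mul_le_mul_right (st x) _).trans (le_of_eq ?_)
          rw [Finset.mul_sum]
          exact Finset.sum_congr rfl fun i _ => Finset.mul_sum _ _ _
      _ = ∑ i ∈ Finset.range (i0 + 1), ∑ i' ∈ Finset.range (i0 + 1), ∑' x,
          μ x * N ΛX hX (T + i) (fun Q => N ΛY hY (T + i0 + i') (fun Q' =>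
          ind (κ hX lv Cn s (A + a) (A + i0 + 1 + a') x Q Q' ∧ ¬ nlY Q'))) := by
          rw [Summable.tsum_finsetSum (fun _ _ => ENNReal.summable)]
          exact Finset.sum_congr rfl fun i _ =>
            Summable.tsum_finsetSum (fun _ _ => ENNReal.summable)
      _ ≤ ∑ i ∈ Finset.range (i0 + 1), ∑ i' ∈ Finset.range (i0 + 1), Hc := by
          refine Finset.sum_le_sum fun i hi => Finset.sum_le_sum fun i' hi' => ?_
          obtain ⟨S, hS1, hS2⟩ := exists_set ΛY hY zY hΛY.le h1Y (T + i0) (T + i0 + i') θ' hθ0'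
          have hi1 := Finset.mem_range.1 hi
          have hi2 := Finset.mem_range.1 hi'
          have h2 := hH3 (i0 + 1 + a' - a) (T + i) (T + i0 + i') S μ _ (by omega) (by omega)
            (by omega) (by omega) hμ1 hμM (hMt θ' hθ1')
          refine le_trans (ENNReal.tsum_le_tsum fun x => mul_le_mul_right
            (N_mono ΛX hX fun Q hQ => N_mono ΛY hY fun Q' hQ' => ind_mono ?_) _) (h2.trans ?_)
          · rintro ⟨⟨hk1, hk2, hk3⟩, hk4⟩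
            refine ⟨?_, ?_, hk2, fun k hk => ?_⟩
            · rw [hk1]; push_cast; omega
            · refine hS1 _ ?_
              rw [← hQ']
              exact not_not.1 hk4
            · have := (hk3 k hk).2
              omega
          · rw [hHc]
            exact hΦ (hcard θ' S hS2)
      _ = ((i0 : ℝ≥0∞) + 1) ^ 2 * Hc := by
          simp only [Finset.sum_const, Finset.card_range, nsmul_eq_mul]
          push_cast
          ring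
  have hmX := mixX ΛX hX zX ΛY hY zY hΛY.le h1Y hΛX.le h1X A (A + i0 + 1) i0 w ψX hψX1
    _ _ _ Wg Wb hW hg hb hHX
  have hmY := mixY ΛX hX zX ΛY hY zY hΛY.le h1Y hΛX.le h1X A (A + i0 + 1) i0 w ψY hψY1
    _ _ _ Wg' Wb' hW' hg' hb' hHY
  calc _ ≤ E ΛX hX A i0 (fun P => E ΛY hY (A + i0 + 1) i0 (fun P' =>
        ((ψX (HT hX P) (HT hY P') (w + dp zY P' - dp zX P)
          + ψY (HT hX P) (HT hY P') (w + dp zY P' - dp zX P)) + u ^ 2))) :=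
        E_mono ΛX hX fun P _ _ => E_mono ΛY hY fun P' _ _ => hsplit _ _ _
    _ ≤ E ΛX hX A i0 (fun P => E ΛY hY (A + i0 + 1) i0 (fun P' =>
        ((ψX (HT hX P) (HT hY P') (w + dp zY P' - dp zX P)
          + ψY (HT hX P) (HT hY P') (w + dp zY P' - dp zX P)))) + u ^ 2) :=
        E_mono ΛX hX fun P _ _ => E_addc ΛY hY hΛY.le h1Y _ _ _ _
    _ ≤ E ΛX hX A i0 (fun P => E ΛY hY (A + i0 + 1) i0 (fun P' =>
        ((ψX (HT hX P) (HT hY P') (w + dp zY P' - dp zX P)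
          + ψY (HT hX P) (HT hY P') (w + dp zY P' - dp zX P))))) + u ^ 2 :=
        E_addc ΛX hX hΛX.le h1X _ _ _ _
    _ ≤ ((((i0 : ℝ≥0∞) + 1) ^ 2 * (((i0 : ℝ≥0∞) + 1) ^ 2 * Hc) +
          ((1 - u / 2) ^ J + J * TS ΛX hX (i0 + 1))) +
        (((i0 : ℝ≥0∞) + 1) ^ 2 * (((i0 : ℝ≥0∞) + 1) ^ 2 * Hc) +
          ((1 - u / 2) ^ J + J * TS ΛY hY (i0 + 1)))) + u ^ 2 := by
        simp only [E_add]
        exact add_le_add_left (add_le_add hmX hmY) _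
    _ = _ := by ring

end win

end Crest.Agent.R154.WA613
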