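import Crest.Agent.R154.WA5_613
import Crest.Agent.R154.WLit2_763

/-! Row 154, ROAD 801: words (helper613). -/

set_option autoImplicit false

namespace Crest.Agent.R154.WA613

open MeasureTheory ProbabilityTheory Crest.ProbabilityR.RandomEnvironment Crest.Agent.R154
open Crest.Agent.R154.B5A Crest.Agent.R154.Ren396
open Crest.Agent.R154.Flux132 (lev opp)
open Crest.Agent.R154.Flux566 (lw endp sitesL endp_append endp_eq_add)
open Crest.Agent.R154.NB28
open Crest.Agent.R154.Fact346 (Irr fl flr ht hang hang_append flr_append fl_append P_flr P_fl fac_up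
  fac_dn tsum_upr tsum_dn)
open Crest.Agent.R154.KWin327 (lev_add lev_neg lev_zero mem_sitesL_add mem_sitesL WinW)
open scoped ENNReal

variable {d : ℕ} (ν : Measure (Row d)) [IsProbabilityMeasure ν] (u : Step d)

/-- displacement of the cut of `X` (going down) -/
def zX (b : Irr (IsUp u)) : Site d := -endp 0 b.1

/-- displacement of the cut of `Y` -/
def zY (b : Irr (IsDn u)) : Site d := endp 0 b.1

/-- weights -/
noncomputable def lX (b : Irr (IsUp u)) : ℝ≥0∞ := aw ν b.1

/-- weights -/
noncomputable def lY (b : Irr (IsDn u)) : ℝ≥0∞ := aw ν b.1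

/-- contacts of two lists -/
def Cn (L : List (Irr (IsUp u))) (L' : List (Irr (IsDn u))) (x : Site d) (k : ℕ) : Prop :=
  k ∈ Cm u x (flr L) (fl L')

lemma endp0_app (l l' : List (Step d)) : endp (0 : Site d) (l ++ l') = endp 0 l + endp 0 l' := by
  rw [endp_append, endp_eq_add l']

lemma dp_X (L : List (Irr (IsUp u))) : dp (zX u) L = -endp 0 (flr L) := by
  induction L with
  | nil => simp [dp, endp]
  | cons b L ih =>
    rw [Fact346.flr_cons, endp0_app]
    have : dp (zX u) (b :: L) = zX u b + dp (zX u) L := by simp [dp]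
    rw [this, ih, zX]
    abel

lemma dp_Y (L : List (Irr (IsDn u))) : dp (zY u) L = endp 0 (fl L) := by
  induction L with
  | nil => simp [dp, fl, endp]
  | cons b L ih =>
    have e : fl (b :: L) = b.1 ++ fl L := rfl
    rw [e, endp0_app]
    have : dp (zY u) (b :: L) = zY u b + dp (zY u) L := by simp [dp]
    rw [this, ih, zY]

lemma isUp_flr (L : List (Irr (IsUp u))) : IsUp u (HT ht L) (flr L) := P_flr (fac_up u) L

lemma isDn_fl (L : List (Irr (IsDn u))) : IsDn u (HT ht L) (fl L) := P_fl (fac_dn u) L

lemma lev_dpX (L : List (Irr (IsUp u))) : lev u (dp (zX u) L) = -(HT ht L : ℤ) := by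
  rw [dp_X, lev_neg, (isUp_flr u L).2]

lemma lev_dpY (L : List (Irr (IsDn u))) : lev u (dp (zY u) L) = -(HT ht L : ℤ) := by
  rw [dp_Y, (isDn_fl u L).2]

lemma hang_lev {n : ℕ} {l : List (Step d)} (h : IsUp u n l) {x y : Site d} (hy : y ∈ hang x l) :
    lev u x - n ≤ lev u y ∧ lev u y < lev u x := by
  unfold hang at hy
  rw [mem_sitesL] at hy
  have h3 := h.1 _ hy
  have h4 : lev u y = lev u (y - (x - endp 0 l)) + lev u x - lev u (endp 0 l) := by
    have e : y = (y - (x - endp 0 l)) + (x + -endp 0 l) := by abel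
    conv_lhs => rw [e]
    rw [lev_add, lev_add, lev_neg]
    ring
  rw [h.2] at h4
  omega

lemma dn_lev {n : ℕ} {l : List (Step d)} (h : IsDn u n l) {x y : Site d} (hy : y ∈ sitesL x l) :
    lev u x - n < lev u y ∧ lev u y ≤ lev u x := by
  rw [mem_sitesL] at hy
  have h3 := h.1 _ hy
  have h4 : lev u y = lev u (y - x) + lev u x := by
    have e : y = (y - x) + x := by abel
    conv_lhs => rw [e]
    rw [lev_add]
  omega

/-- contact of the pieces ⟹ contact of the lists -/
lemma cn_up (P Q R : List (Irr (IsUp u))) (P' Q' R' : List (Irr (IsDn u))) (w : Site d) (k : ℕ)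
    (h : Cn u Q Q' (w + dp (zY u) P' - dp (zX u) P) k) :
    Cn u (P ++ (Q ++ R)) (P' ++ (Q' ++ R')) w (HT ht P + k) := by
  obtain ⟨y, h1, h2, h3⟩ := h
  refine ⟨y + dp (zX u) P, ?_, ?_, ?_⟩
  · rw [flr_append, flr_append]
    have e : sitesL (-endp 0 (flr R ++ flr Q ++ flr P)) (flr R ++ flr Q ++ flr P)
        = hang 0 (flr R ++ flr Q ++ flr P) := by unfold hang; rw [zero_sub]
    rw [e, hang_append, List.mem_append]
    left
    rw [hang_append, List.mem_append]
    right
    unfold hang
    rw [dp_X]
    have e2 : (0 : Site d) - endp 0 (flr P) - endp 0 (flr Q) = -endp 0 (flr P) + -endp 0 (flr Q) := by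
      abel
    rw [e2, mem_sitesL_add]
    simpa using h1
  · rw [fl_append, fl_append, Fact346.sitesL_append, List.mem_append]
    right
    rw [Fact346.sitesL_append, List.mem_append]
    left
    have e2 : endp (w + stepVec (opp u)) (fl P')
        = dp (zX u) P + (w + dp (zY u) P' - dp (zX u) P + stepVec (opp u)) := by
      rw [endp_eq_add, dp_Y]; abel
    rw [e2, mem_sitesL_add]
    simpa using h2
  · rw [lev_add, lev_dpX, h3]
    push_cast
    ring

/-- contact of the lists at a depth inside both pieces ⟹ contact of the pieces -/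
lemma cn_dn (P Q R : List (Irr (IsUp u))) (P' Q' R' : List (Irr (IsDn u))) (w : Site d)
    (hw : lev u w = 0) (k : ℕ)
    (h : Cn u (P ++ (Q ++ R)) (P' ++ (Q' ++ R')) w (HT ht P + k)) (h1 : 1 ≤ k) (h2 : k ≤ HT ht Q)
    (h3 : HT ht P' < HT ht P + k) (h4 : HT ht P + k ≤ HT ht P' + HT ht Q') :
    Cn u Q Q' (w + dp (zY u) P' - dp (zX u) P) k := by
  obtain ⟨y, g1, g2, g3⟩ := h
  refine ⟨y - dp (zX u) P, ?_, ?_, ?_⟩
  · rw [flr_append, flr_append] at g1
    have e : sitesL (-endp 0 (flr R ++ flr Q ++ flr P)) (flr R ++ flr Q ++ flr P)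
        = hang 0 (flr R ++ flr Q ++ flr P) := by unfold hang; rw [zero_sub]
    rw [e, hang_append, List.mem_append] at g1
    rcases g1 with g1 | g1
    · rw [hang_append, List.mem_append] at g1
      rcases g1 with g1 | g1
      · exfalso
        have := (hang_lev u (isUp_flr u R) g1).2
        have e5 : lev u ((0 : Site d) - endp 0 (flr P) - endp 0 (flr Q))
            = -(HT ht P : ℤ) - HT ht Q := by
          have e6 : (0 : Site d) - endp 0 (flr P) - endp 0 (flr Q)
            = -endp 0 (flr P) + -endp 0 (flr Q) := by abel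
          rw [e6, lev_add, lev_neg, lev_neg, (isUp_flr u P).2, (isUp_flr u Q).2]
          ring
        rw [e5] at this
        push_cast at g3
        omega
      · unfold hang at g1
        have e2 : (0 : Site d) - endp 0 (flr P) - endp 0 (flr Q)
            = -endp 0 (flr P) + -endp 0 (flr Q) := by abel
        rw [e2, mem_sitesL_add] at g1
        rw [dp_X]
        exact g1
    · exfalso
      have := (hang_lev u (isUp_flr u P) g1).1
      rw [lev_zero] at this
      push_cast at g3
      omega
  · rw [fl_append, fl_append, Fact346.sitesL_append, List.mem_append] at g2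
    have e5 : lev u (w + stepVec (opp u)) = -1 := by
      rw [lev_add, hw, KWin327.lev_opp]; ring
    have e6 : lev u (endp (w + stepVec (opp u)) (fl P')) = -1 - (HT ht P' : ℤ) := by
      rw [endp_eq_add, lev_add, e5, (isDn_fl u P').2]; ring
    rcases g2 with g2 | g2
    · exfalso
      have := (dn_lev u (isDn_fl u P') g2).1
      push_cast at g3
      omega
    · rw [Fact346.sitesL_append, List.mem_append] at g2
      rcases g2 with g2 | g2
      · have e2 : endp (w + stepVec (opp u)) (fl P')
            = dp (zX u) P + (w + dp (zY u) P' - dp (zX u) P + stepVec (opp u)) := by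
          rw [endp_eq_add, dp_Y]; abel
        rw [e2, mem_sitesL_add] at g2
        exact g2
      · exfalso
        have := (dn_lev u (isDn_fl u R') g2).2
        rw [endp_eq_add (fl Q'), lev_add, e6, (isDn_fl u Q').2] at this
        push_cast at g3
        omega
  · have : lev u (y - dp (zX u) P) = lev u y + (HT ht P : ℤ) := by
      rw [sub_eq_add_neg, lev_add, lev_neg, lev_dpX]; ring
    rw [this, g3]
    push_cast
    ring

/-- range -/
lemma cn_le (Q : List (Irr (IsUp u))) (Q' : List (Irr (IsDn u))) (x : Site d) (k : ℕ)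
    (h : Cn u Q Q' x k) : 1 ≤ k ∧ k ≤ HT ht Q := by
  obtain ⟨y, h1, h2, h3⟩ := h
  have := KWin327.lev_hung (isUp_flr u Q) h1
  omega

open Classical in
/-- words ↔ lists -/
lemma words_eq (h h' : ℕ) (p : List (Step d) → List (Step d) → Prop) :
    ∑' π : List (Step d), ∑' γ : List (Step d),
      (if IsUp u h π ∧ IsDn u h' γ ∧ p π γ then aw ν π * aw ν γ else 0)
      = N (lX ν u) ht h (fun L => N (lY ν u) ht h' (fun L' => ind (p (flr L) (fl L')))) := by
  have e1 : ∀ π : List (Step d), ∑' γ : List (Step d),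
      (if IsUp u h π ∧ IsDn u h' γ ∧ p π γ then aw ν π * aw ν γ else 0)
      = if IsUp u h π then aw ν π * N (lY ν u) ht h' (fun L' => ind (p π (fl L'))) else 0 := by
    intro π
    by_cases hπ : IsUp u h π
    · rw [if_pos hπ]
      have e2 := tsum_dn ν u h' (fun γ => ind (p π γ))
      have e3 : N (lY ν u) ht h' (fun L' => ind (p π (fl L')))
          = ∑' l, (if IsDn u h' l then aw ν l * ind (p π l) else 0) := by
        rw [e2]; rfl
      rw [e3, ← ENNReal.tsum_mul_left]
      refine tsum_congr fun γ => ?_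
      unfold ind
      by_cases h1 : IsDn u h' γ <;> by_cases h2 : p π γ <;> simp [hπ, h1, h2]
    · rw [if_neg hπ]
      simp [hπ]
  rw [tsum_congr e1]
  have e4 := tsum_upr ν u h (fun π => N (lY ν u) ht h' (fun L' => ind (p π (fl L'))))
  rw [e4]
  rfl

end Crest.Agent.R154.WA613
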