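import Crest.Agent.R154.WA6_613

/-! Row 154, ROAD 801: window lemmas and one window in words (helper613). -/

set_option autoImplicit false

namespace Crest.Agent.R154.WA613

open MeasureTheory ProbabilityTheory Crest.ProbabilityR.RandomEnvironment Crest.Agent.R154
open Crest.Agent.R154.B5A Crest.Agent.R154.Ren396
open Crest.Agent.R154.Flux132 (lev opp)
open Crest.Agent.R154.Flux566 (lw endp sitesL endp_append endp_eq_add)
open Crest.Agent.R154.NB28
open Crest.Agent.R154.Fact346 (Irr fl flr ht hang hang_append flr_append fl_append P_flr P_fl fac_up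
  fac_dn tsum_upr tsum_dn)
open Crest.Agent.R154.KWin327 (lev_add lev_neg lev_zero mem_sitesL_add mem_sitesL WinW)
open Crest.Agent.R154.WL763 (H2at H3at SlabW)
open scoped ENNReal

variable {d : ℕ} (ν : Measure (Row d)) [IsProbabilityMeasure ν] (u : Step d)

/-- shifting the weight by one step down -/
lemma shift_sum (r : ℕ) (μ : Site d → ℝ≥0∞) (G G' : Site d → ℝ≥0∞)
    (h0 : ∀ x, lev u x ≠ -(r : ℤ) → G x = 0)
    (h1 : ∀ x, lev u x = -(r : ℤ) → G x ≤ G' (x + stepVec (opp u))) :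
    ∑' x, μ x * G x ≤ ∑' x, (open Classical in
      if lev u x = -((r + 1 : ℕ) : ℤ) then μ (x - stepVec (opp u)) else 0) * G' x := by
  classical
  rw [← (Equiv.addRight (stepVec (opp u) : Site d)).tsum_eq (fun x =>
      (if lev u x = -((r + 1 : ℕ) : ℤ) then μ (x - stepVec (opp u)) else 0) * G' x)]
  refine ENNReal.tsum_le_tsum fun x => ?_
  simp only [Equiv.coe_addRight, add_sub_cancel_right]
  by_cases h : lev u x = -(r : ℤ)
  · have e : lev u (x + stepVec (opp u)) = -((r + 1 : ℕ) : ℤ) := by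
      rw [lev_add, h, KWin327.lev_opp]; push_cast; ring
    rw [if_pos e]
    exact mul_le_mul_right (h1 x h) _
  · rw [h0 x h, mul_zero]
    exact zero_le

lemma shift_mass (r : ℕ) (μ : Site d → ℝ≥0∞) (h : ∑' x, μ x ≤ 1) :
    ∑' x, (open Classical in
      if lev u x = -((r + 1 : ℕ) : ℤ) then μ (x - stepVec (opp u)) else 0) ≤ 1 := by
  classical
  refine le_trans (ENNReal.tsum_le_tsum (g := fun x => μ (x - stepVec (opp u))) fun x => ?_) ?_
  · split_ifs
    · exact le_rfl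
    · exact zero_le
  · exact le_of_eq_of_le ((Equiv.subRight (stepVec (opp u) : Site d)).tsum_eq μ) h

/-- the bound -/
noncomputable def Ph (C lam η : ℝ≥0∞) (y : ℝ≥0∞) : ℝ≥0∞ := C * (lam + y * η / lam + η)

lemma Ph_mono (C lam η : ℝ≥0∞) : Monotone (Ph C lam η) := by
  intro a b h
  unfold Ph
  gcongr

theorem h2L (C η lam : ℝ≥0∞) (s r0 : ℕ) (hl0 : lam ≠ 0) (hlt : lam ≠ ⊤)
    (hat : H2at ν u C (r0 + 1) η s) :
    H2L (lX ν u) ht (zX u) (lY ν u) ht (lev u) (Cn u) (Ph C lam η) (s + 1) r0 := by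
  classical
  intro r h h' S μ M hr1 hr0 hh1 hh2 hμ1 hμM hMt
  have key := hat h h' (r + 1) (S.map (Equiv.neg (Site d)).toEmbedding)
    (fun x => if lev u x = -((r + 1 : ℕ) : ℤ) then μ (x - stepVec (opp u)) else 0) M lam
    (by omega) (by omega) (by omega) (by omega) (shift_mass u r μ hμ1)
    (fun x => by split_ifs <;> [exact hμM _; exact zero_le]) hMt
    (fun x hx => by
      by_contra hne
      exact hx (if_neg hne)) hl0 hlt
  rw [Finset.card_map] at key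
  refine le_trans (shift_sum u r μ _ _ ?_ ?_) key
  · intro x hx
    refine le_antisymm ?_ zero_le
    refine le_trans (N_mono _ _ fun L _ => N_mono _ _ fun L' _ => ?_) (le_of_eq (a := N (lX ν u) ht h
      (fun _ => N (lY ν u) ht h' (fun _ => 0))) ?_)
    · unfold ind
      rw [if_neg (fun hh => hx hh.1)]
    · unfold N; simp
  · intro x hx
    have e1 : N (lX ν u) ht h (fun L => N (lY ν u) ht h' (fun L' =>
        ind (lev u x = -(r : ℤ) ∧ dp (zX u) L ∈ S ∧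
        (∃ k, Cn u L L' x k) ∧ ∀ k, Cn u L L' x k → r + (s + 1) ≤ k)))
        = N (lX ν u) ht h (fun L => N (lY ν u) ht h' (fun L' =>
          ind ((fun π γ => lev u x = -(r : ℤ) ∧ -endp 0 π ∈ S ∧
        (∃ k, k ∈ Cm u x π γ) ∧ ∀ k, k ∈ Cm u x π γ → r + (s + 1) ≤ k) (flr L) (fl L')))) := by
      simp only [dp_X, Cn]
    refine le_of_eq_of_le (e1.trans (words_eq ν u h h' (fun π γ => lev u x = -(r : ℤ) ∧
      -endp 0 π ∈ S ∧ (∃ k, k ∈ Cm u x π γ) ∧ ∀ k, k ∈ Cm u x π γ → r + (s + 1) ≤ k)).symm) ?_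
    refine ENNReal.tsum_le_tsum fun π => ENNReal.tsum_le_tsum fun γ => ?_
    split_ifs with g1 g2 g2
    · exact le_rfl
    · exfalso
      apply g2
      obtain ⟨a1, a2, a3, a4, ⟨k, a5⟩, a6⟩ := g1
      refine ⟨a1, ?_, a2, ?_, ?_⟩
      · rw [Finset.mem_map_equiv]; simpa using a4
      · obtain ⟨y, hy1, hy2, _⟩ := a5
        exact ⟨y, hy1, hy2⟩
      · intro y hy1 hy2
        have h5 := KWin327.lev_hung a1 hy1
        have h6 := a6 (-lev u y).toNat ⟨y, hy1, hy2, by omega⟩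
        push_cast
        omega
    · exact zero_le
    · exact le_rfl

theorem h3L (C η lam : ℝ≥0∞) (s r0 : ℕ) (hl0 : lam ≠ 0) (hlt : lam ≠ ⊤)
    (hat : H3at ν u C (r0 + 1) η s) :
    H3L (lX ν u) ht (lY ν u) ht (zY u) (lev u) (Cn u) (Ph C lam η) (s + 1) r0 := by
  classical
  intro r h h' S μ M hr1 hr0 hh1 hh2 hμ1 hμM hMt
  have key := hat h h' (r + 1) S
    (fun x => if lev u x = -((r + 1 : ℕ) : ℤ) then μ (x - stepVec (opp u)) else 0) M lam
    (by omega) (by omega) (by omega) (by omega) (shift_mass u r μ hμ1)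
    (fun x => by split_ifs <;> [exact hμM _; exact zero_le]) hMt
    (fun x hx => by
      by_contra hne
      exact hx (if_neg hne)) hl0 hlt
  refine le_trans (shift_sum u r μ _ _ ?_ ?_) key
  · intro x hx
    refine le_antisymm ?_ zero_le
    refine le_trans (N_mono _ _ fun L _ => N_mono _ _ fun L' _ => ?_) (le_of_eq (a := N (lX ν u) ht h
      (fun _ => N (lY ν u) ht h' (fun _ => 0))) ?_)
    · unfold ind
      rw [if_neg (fun hh => hx hh.1)]
    · unfold N; simp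
  · intro x hx
    have e1 : N (lX ν u) ht h (fun L => N (lY ν u) ht h' (fun L' =>
        ind (lev u x = -(r : ℤ) ∧ dp (zY u) L' ∈ S ∧
        (∃ k, Cn u L L' x k) ∧ ∀ k, Cn u L L' x k → k + (s + 1) ≤ h)))
        = N (lX ν u) ht h (fun L => N (lY ν u) ht h' (fun L' =>
          ind ((fun π γ => lev u x = -(r : ℤ) ∧ endp 0 γ ∈ S ∧
        (∃ k, k ∈ Cm u x π γ) ∧ ∀ k, k ∈ Cm u x π γ → k + (s + 1) ≤ h) (flr L) (fl L')))) := by
      simp only [dp_Y, Cn]
    refine le_of_eq_of_le (e1.trans (words_eq ν u h h' (fun π γ => lev u x = -(r : ℤ) ∧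
      endp 0 γ ∈ S ∧ (∃ k, k ∈ Cm u x π γ) ∧ ∀ k, k ∈ Cm u x π γ → k + (s + 1) ≤ h)).symm) ?_
    refine ENNReal.tsum_le_tsum fun π => ENNReal.tsum_le_tsum fun γ => ?_
    split_ifs with g1 g2 g2
    · exact le_rfl
    · exfalso
      apply g2
      obtain ⟨a1, a2, a3, a4, ⟨k, a5⟩, a6⟩ := g1
      refine ⟨a1, a4, a2, ?_, ?_⟩
      · obtain ⟨y, hy1, hy2, _⟩ := a5
        exact ⟨y, hy1, hy2⟩
      · intro y hy1 hy2
        have h5 := KWin327.lev_hung a1 hy1
        have h6 := a6 (-lev u y).toNat ⟨y, hy1, hy2, by omega⟩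
        omega
    · exact zero_le
    · exact le_rfl

/-- **one window in words** -/
theorem winW_le (hUX : ∀ n, U (lX ν u) ht n ≤ 1) (hΛX : ∑' b, lX ν u b = 1)
    (hUY : ∀ n, U (lY ν u) ht n ≤ 1) (hΛY : ∑' b, lY ν u b = 1)
    (Φ : ℝ≥0∞ → ℝ≥0∞) (hΦ : Monotone Φ) (A t s i0 J n : ℕ) (w : Site d) (hw : lev u w = 0)
    (hH2 : H2L (lX ν u) ht (zX u) (lY ν u) ht (lev u) (Cn u) Φ s (4 * i0 + 2))
    (hH3 : H3L (lX ν u) ht (lY ν u) ht (zY u) (lev u) (Cn u) Φ s (4 * i0 + 2))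
    (q : ℝ≥0∞) (hq0 : q ≠ 0) (hq1 : q < 1)
    (heX : TS (lX ν u) ht (i0 + 1) ≤ q / 2) (heY : TS (lY ν u) ht (i0 + 1) ≤ q / 2)
    (hJ : J * (3 * t + i0 + i0) ≤ A) (hn : A + 5 * t ≤ n) (ht1 : s + 4 * i0 + 4 ≤ t) :
    WinW ν u n (A + t) (A + 2 * t) w ≤
      (q ^ 2 + 2 * ((i0 : ℝ≥0∞) + 1) ^ 4 * Φ (4 * (i0 + 1) / q)
        + 2 * (1 - q / 2) ^ J + J * TS (lX ν u) ht (i0 + 1) + J * TS (lY ν u) ht (i0 + 1))
      + (2 * TS (lX ν u) ht (i0 + 1) + 2 * TS (lY ν u) ht (i0 + 1))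
      + SlabW ν u n (A + 3 * t - s) (s + 2 * i0) w := by
  classical
  set p : List (Step d) → List (Step d) → Prop := fun π γ =>
    ((∀ k ∈ Cm u w π γ, A + t ≤ k) ∧ (∃ k ∈ Cm u w π γ, k < A + 2 * t)) ∧
      ∀ k ∈ Cm u w π γ, ¬ (A + 3 * t - s ≤ k ∧ k ≤ A + 3 * t - s + (s + 2 * i0)) with hp
  have s1 : WinW ν u n (A + t) (A + 2 * t) w ≤
      (∑' π : List (Step d), ∑' γ : List (Step d),
        (if IsUp u n π ∧ IsDn u n γ ∧ p π γ then aw ν π * aw ν γ else 0))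
      + SlabW ν u n (A + 3 * t - s) (s + 2 * i0) w := by
    unfold WinW SlabW
    rw [← ENNReal.tsum_add]
    refine ENNReal.tsum_le_tsum fun π => ?_
    rw [← ENNReal.tsum_add]
    refine ENNReal.tsum_le_tsum fun γ => ?_
    by_cases h1 : IsUp u n π ∧ IsDn u n γ ∧ (∀ k ∈ Cm u w π γ, A + t ≤ k) ∧
      (∃ k ∈ Cm u w π γ, k < A + 2 * t)
    · rw [if_pos h1]
      by_cases h2 : ∃ k ∈ Cm u w π γ, A + 3 * t - s ≤ k ∧ k ≤ A + 3 * t - s + (s + 2 * i0)
      · rw [if_pos (c := IsUp u n π ∧ IsDn u n γ ∧ ∃ k ∈ Cm u w π γ, _) ⟨h1.1, h1.2.1, h2⟩]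
        exact le_add_self
      · rw [if_pos (c := IsUp u n π ∧ IsDn u n γ ∧ p π γ)]
        · exact le_self_add
        · exact ⟨h1.1, h1.2.1, h1.2.2, fun k hk hh => h2 ⟨k, hk, hh⟩⟩
    · rw [if_neg h1]
      exact zero_le
  refine s1.trans (add_le_add_left ?_ _)
  have e2 := words_eq ν u n n p
  refine le_of_eq_of_le (b := N (lX ν u) ht n (fun L => N (lY ν u) ht n
    (fun L' => ind (p (flr L) (fl L'))))) (by convert e2) ?_
  refine (pair_cut (lX ν u) ht (zX u) (lY ν u) ht (zY u) hUX hΛX.le Fact346.ht_pos hUY hΛY.le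
    Fact346.ht_pos A (3 * t) (A + i0 + 1) (3 * t + i0) i0 n (by omega) (by omega) w
    (fun L L' => p (flr L) (fl L')) (κ ht (lev u) (Cn u) s) ?_).trans ?_
  · intro P Q R P' Q' R' hP1 hP2 hQ1 hQ2 hP1' hP2' hQ1' hQ2' _ _ hc
    have fP := FR_le ht hP1
    have fQ := FR_le ht hQ1
    have fP' := FR_le ht hP1'
    have fQ' := FR_le ht hQ1'
    obtain ⟨⟨c1, j, c2, c3⟩, c4⟩ := hc
    have c5 := c1 j c2
    have ej : HT ht P + (j - HT ht P) = j := by omega
    refine ⟨?_, ⟨j - HT ht P, cn_dn u P Q R P' Q' R' w hw _ ?_ (by omega) (by omega) (by omega)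
      (by omega)⟩, fun k hk => ?_⟩
    · have e : w + dp (zY u) P' - dp (zX u) P = w + dp (zY u) P' + -dp (zX u) P := by abel
      rw [e, lev_add, lev_add, lev_neg, lev_dpX, lev_dpY, hw]
      ring
    · rw [ej]; exact c2
    · have k1 := cn_up u P Q R P' Q' R' w k hk
      have k2 := cn_le u Q Q' _ k hk
      have k3 := c1 _ k1
      have k4 := c4 _ k1
      constructor
      · omega
      · by_contra hcon
        apply k4
        constructor
        · omega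
        · omega
  · exact add_le_add_left (window (lX ν u) ht (zX u) (lY ν u) ht (zY u) (lev u) (Cn u) hUX hΛX
      Fact346.ht_pos hUY hΛY Fact346.ht_pos Φ hΦ A (3 * t) s i0 J w hH2 hH3 q hq0 hq1 heX heY hJ) _

end Crest.Agent.R154.WA613
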