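import Crest.Agent.R154.Fac_350
import Crest.Agent.R154.NBDefs_28

/-! Row 154 (helper350): words of helper28 (`IsUp`, `IsDn`, `Cm`) as lists of single walker blocks, in
the letters of helper540 (`G = Site d`, position = lateral site, depth = number of levels below the
tie). -/

set_option autoImplicit false

namespace Crest.Agent.R154.WB350

open MeasureTheory ProbabilityTheory Crest.ProbabilityR.RandomEnvironment Crest.Agent.R154
open Crest.Agent.R154.Flux132 (lev opp)
open Crest.Agent.R154.Flux566 (lw endp sitesL)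
open Crest.Agent.R154.B5A Crest.Agent.R154.B5W Crest.Agent.R154.Fac350 Crest.Agent.R154.NB28
open scoped ENNReal

variable {d : ℕ}

lemma lev_eq (u : Step d) (x : Site d) : lev u x = Flux566.lev u x := rfl

lemma lev_add (u : Step d) (x y : Site d) : lev u (x + y) = lev u x + lev u y :=
  Flux566.lev_add u x y

lemma lev_neg (u : Step d) (x : Site d) : lev u (-x) = - lev u x := Flux566.lev_neg u x

lemma lev_zero (u : Step d) : lev u (0 : Site d) = 0 := Flux566.lev_zero u

lemma lev_self (u : Step d) : lev u (stepVec u) = 1 := Flux566.lev_self u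

lemma lev_sub (u : Step d) (x y : Site d) : lev u (x - y) = lev u x - lev u y := by
  rw [sub_eq_add_neg, lev_add, lev_neg]; ring

lemma lev_nsmul (u : Step d) (k : ℕ) (x : Site d) : lev u (k • x) = k * lev u x := by
  induction k with
  | zero => simp [lev_zero]
  | succ k ih => rw [succ_nsmul, lev_add, ih]; push_cast; ring

lemma stepVec_opp (u : Step d) : stepVec (opp u) = - stepVec u := Flux566.stepVec_opp u

lemma endp_add (l : List (Step d)) (x : Site d) : endp x l = x + endp 0 l :=
  Flux566.endp_eq_add l x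

lemma endp_app (l l' : List (Step d)) (x : Site d) : endp x (l ++ l') = endp (endp x l) l' :=
  Flux566.endp_append l l' x

lemma endp0_app (l l' : List (Step d)) : endp (0 : Site d) (l ++ l') = endp 0 l + endp 0 l' := by
  rw [endp_app, endp_add]

lemma sitesL_app (l l' : List (Step d)) (x : Site d) :
    sitesL x (l ++ l') = sitesL x l ++ sitesL (endp x l) l' := by
  induction l generalizing x with
  | nil => rfl
  | cons e l ih => simp only [List.cons_append, sitesL, endp]; rw [ih]

lemma sitesL_shift (l : List (Step d)) (x c : Site d) :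
    sitesL (x + c) l = (sitesL x l).map (· + c) := by
  induction l generalizing x with
  | nil => rfl
  | cons e l ih =>
    simp only [sitesL, List.map_cons]
    rw [show x + c + stepVec e = x + stepVec e + c by abel, ih]

lemma mem_sitesL (l : List (Step d)) (x y : Site d) :
    y ∈ sitesL x l ↔ y - x ∈ sitesL 0 l := by
  have := sitesL_shift l 0 x
  rw [zero_add] at this
  rw [this, List.mem_map]
  constructor
  · rintro ⟨z, hz, rfl⟩
    simpa using hz
  · intro h
    exact ⟨y - x, h, by simp⟩

/-- the sites read by a word are the ends of its strict prefixes -/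
lemma mem_sitesL_iff (l : List (Step d)) (x y : Site d) :
    y ∈ sitesL x l ↔ ∃ p, p <+: l ∧ p ≠ l ∧ y = endp x p := by
  induction l generalizing x with
  | nil =>
    simp only [sitesL, List.not_mem_nil, false_iff, not_exists, not_and]
    intro p hp hne
    exact absurd (List.prefix_nil.1 hp) hne
  | cons e l ih =>
    simp only [sitesL, List.mem_cons]
    rw [ih]
    constructor
    · rintro (rfl | ⟨p, hp, hne, rfl⟩)
      · exact ⟨[], List.nil_prefix, by simp, rfl⟩
      · exact ⟨e :: p, (List.cons_prefix_cons).2 ⟨rfl, hp⟩, by simpa using hne, rfl⟩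
    · rintro ⟨p, hp, hne, rfl⟩
      cases p with
      | nil => exact Or.inl rfl
      | cons e' p =>
        obtain ⟨rfl, h2⟩ := (List.cons_prefix_cons).1 hp
        exact Or.inr ⟨p, h2, by simpa using hne, rfl⟩

/-- levels of the letters -/
def hU (u : Step d) (e : Step d) : ℤ := lev u (stepVec e)
def hD (u : Step d) (e : Step d) : ℤ := - lev u (stepVec e)

lemma lv_hU (u : Step d) (l : List (Step d)) : lv (hU u) l = lev u (endp 0 l) := by
  induction l with
  | nil => simp [endp, lev_zero]
  | cons e l ih =>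
    have h : lv (hU u) (e :: l) = hU u e + lv (hU u) l := by simp [lv]
    rw [h, ih]
    simp only [endp, hU]
    rw [zero_add, endp_add l (stepVec e), lev_add]

lemma lv_hD (u : Step d) (l : List (Step d)) : lv (hD u) l = - lev u (endp 0 l) := by
  induction l with
  | nil => simp [endp, lev_zero]
  | cons e l ih =>
    have h : lv (hD u) (e :: l) = hD u e + lv (hD u) l := by simp [lv]
    rw [h, ih]
    simp only [endp, hD]
    rw [zero_add, endp_add l (stepVec e), lev_add]
    ring

lemma isUp_iff (u : Step d) (n : ℕ) (l : List (Step d)) : IsUp u n l ↔ l ∈ UpW (hU u) n := by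
  unfold IsUp UpW
  simp only [Set.mem_ofPred_eq, mem_sitesL_iff, lv_hU]
  constructor
  · rintro ⟨h1, h2⟩
    exact ⟨h2, fun p hp hne => h1 _ ⟨p, hp, hne, rfl⟩⟩
  · rintro ⟨h1, h2⟩
    refine ⟨?_, h1⟩
    rintro y ⟨p, hp, hne, rfl⟩
    exact h2 p hp hne

lemma isDn_iff (u : Step d) (n : ℕ) (l : List (Step d)) : IsDn u n l ↔ l ∈ UpW (hD u) n := by
  unfold IsDn UpW
  simp only [Set.mem_ofPred_eq, mem_sitesL_iff, lv_hD]
  constructor
  · rintro ⟨h1, h2⟩
    refine ⟨by rw [h2]; ring, fun p hp hne => ?_⟩
    have := h1 _ ⟨p, hp, hne, rfl⟩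
    exact ⟨by linarith [this.2], by linarith [this.1]⟩
  · rintro ⟨h1, h2⟩
    refine ⟨?_, by linarith⟩
    rintro y ⟨p, hp, hne, rfl⟩
    have := h2 p hp hne
    exact ⟨by linarith [this.2], by linarith [this.1]⟩

/-- the blocks of the up walker (hung at the top) and of the down walker -/
abbrev BX (u : Step d) : Type := Blk (gX (hU u))
abbrev BY (u : Step d) : Type := Blk (gY (hD u))

/-! ### positions: trace of a list, `helper540` -/

section TT

variable {B G : Type*} [AddCommGroup G]

/-- sites read by a list of blocks whose top is at `(x, a)` -/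
def TT (s : B → Set (G × ℕ)) (z : B → G) (h : B → ℕ) : List B → G → ℕ → Set (G × ℕ)
  | [], _, _ => ∅
  | b :: L, x, a => {p | ∃ q ∈ s b, p = (x + q.1, a + q.2)} ∪ TT s z h L (x + z b) (a + h b)

end TT

/-- the site of lateral position `z` at depth `k` -/
def st (u : Step d) (z : Site d) (k : ℕ) : Site d := z - k • stepVec u

lemma lev_st (u : Step d) (z : Site d) (k : ℕ) : lev u (st u z k) = lev u z - k := by
  rw [st, lev_sub, lev_nsmul, lev_self]; ring

/-- displacement of a block of the up walker, read downwards -/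
noncomputable def zX (u : Step d) (b : BX u) : Site d := hb _ b • stepVec u - endp 0 b.1
noncomputable def zY (u : Step d) (b : BY u) : Site d := endp 0 b.1 + hb _ b • stepVec u

noncomputable def sX (u : Step d) (b : BX u) : Set (Site d × ℕ) :=
  {q | lev u q.1 = 0 ∧ st u q.1 q.2 ∈ sitesL (-endp 0 b.1) b.1}
noncomputable def sY (u : Step d) (b : BY u) : Set (Site d × ℕ) :=
  {q | lev u q.1 = 0 ∧ st u q.1 q.2 ∈ sitesL (-stepVec u) b.1}

noncomputable def TX (u : Step d) : List (BX u) → Site d → ℕ → Set (Site d × ℕ) :=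
  TT (sX u) (zX u) (hb _)
noncomputable def TY (u : Step d) : List (BY u) → Site d → ℕ → Set (Site d × ℕ) :=
  TT (sY u) (zY u) (hb _)

lemma blkX_lev (u : Step d) (b : BX u) : lev u (endp 0 b.1) = hb _ b := by
  have h : b.1 ∈ UpW (hU u) (hb _ b) := blk_mem b
  rw [← lv_hU, h.1]

lemma blkY_lev (u : Step d) (b : BY u) : lev u (endp 0 b.1) = - (hb _ b : ℤ) := by
  have h : b.1 ∈ UpW (hD u) (hb _ b) := blk_mem b
  have := h.1
  rw [lv_hD] at this
  linarith

lemma lev_zX (u : Step d) (b : BX u) : lev u (zX u b) = 0 := by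
  rw [zX, lev_sub, lev_nsmul, lev_self, blkX_lev]; ring

lemma lev_zY (u : Step d) (b : BY u) : lev u (zY u b) = 0 := by
  rw [zY, lev_add, lev_nsmul, lev_self, blkY_lev]; ring

lemma mem_TX (u : Step d) (L : List (BX u)) (x : Site d) (a : ℕ) (hx : lev u x = 0)
    (z : Site d) (k : ℕ) :
    (z, k) ∈ TX u L x a ↔
      lev u z = 0 ∧ st u z k ∈ sitesL (st u x a - endp 0 (cat L)) (cat L) := by
  induction L generalizing x a with
  | nil =>
    simp only [TX, TT, Fac350.cat, gX, sitesL, Set.mem_empty_iff_false, List.not_mem_nil, and_false]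
  | cons b L ih =>
    have hx' : lev u (x + zX u b) = 0 := by rw [lev_add, hx, lev_zX, add_zero]
    have e1 : (z, k) ∈ TX u (b :: L) x a ↔
        (∃ q ∈ sX u b, (z, k) = (x + q.1, a + q.2)) ∨ (z, k) ∈ TX u L (x + zX u b) (a + hb _ b) :=
      Iff.rfl
    rw [e1, ih _ _ hx']
    have e2 : cat (b :: L) = cat L ++ b.1 := rfl
    rw [e2, sitesL_app, List.mem_append, endp0_app]
    have e3 : st u (x + zX u b) (a + hb _ b) = st u x a - endp 0 b.1 := by
      simp only [st, zX, add_nsmul]; abel
    have e4 : endp (st u x a - (endp 0 (cat L) + endp 0 b.1)) (cat L)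
        = st u x a - endp 0 b.1 := by rw [endp_add]; abel
    rw [e3, e4, show st u x a - endp 0 b.1 - endp 0 (cat L)
      = st u x a - (endp 0 (cat L) + endp 0 b.1) by abel]
    have key : (∃ q ∈ sX u b, (z, k) = (x + q.1, a + q.2)) ↔
        lev u z = 0 ∧ st u z k ∈ sitesL (st u x a - endp 0 b.1) b.1 := by
      constructor
      · rintro ⟨⟨q1, q2⟩, ⟨h1, h2⟩, h3⟩
        simp only [Prod.mk.injEq] at h3
        obtain ⟨rfl, rfl⟩ := h3
        refine ⟨by rw [lev_add, hx, h1, add_zero], ?_⟩
        rw [mem_sitesL] at h2 ⊢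
        convert h2 using 1
        simp only [st, add_nsmul]; abel
      · rintro ⟨h1, h2⟩
        rw [mem_sitesL] at h2
        have h3 : (hb _ b : ℤ) ≥ 0 := Int.natCast_nonneg _
        have hb' : IsUp u (hb _ b) b.1 := (isUp_iff u _ _).2 (blk_mem b)
        have h4 := hb'.1 _ h2
        have h5 : lev u (st u z k - (st u x a - endp 0 b.1)) = (a : ℤ) - k + hb _ b := by
          rw [lev_sub, lev_sub, lev_st, lev_st, h1, hx, blkX_lev]; ring
        rw [h5] at h4
        have hak : a ≤ k := by
          have := h4.2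
          omega
        refine ⟨(z - x, k - a), ⟨by rw [lev_sub, h1, hx, sub_zero], ?_⟩, ?_⟩
        · rw [mem_sitesL]
          convert h2 using 1
          simp only [st]
          obtain ⟨c, rfl⟩ := Nat.exists_eq_add_of_le hak
          rw [Nat.add_sub_cancel_left, add_nsmul]; abel
        · simp only [Prod.mk.injEq]
          exact ⟨by abel, by omega⟩
    rw [key, ← and_or_left]
    exact and_congr_right fun _ => or_comm

lemma mem_TY (u : Step d) (L : List (BY u)) (x : Site d) (a : ℕ) (hx : lev u x = 0)
    (z : Site d) (k : ℕ) :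
    (z, k) ∈ TY u L x a ↔
      lev u z = 0 ∧ st u z k ∈ sitesL (st u x a - stepVec u) (cat L) := by
  induction L generalizing x a with
  | nil =>
    simp only [TY, TT, Fac350.cat, gY, sitesL, Set.mem_empty_iff_false, List.not_mem_nil, and_false]
  | cons b L ih =>
    have hx' : lev u (x + zY u b) = 0 := by rw [lev_add, hx, lev_zY, add_zero]
    have e1 : (z, k) ∈ TY u (b :: L) x a ↔
        (∃ q ∈ sY u b, (z, k) = (x + q.1, a + q.2)) ∨ (z, k) ∈ TY u L (x + zY u b) (a + hb _ b) :=
      Iff.rfl
    rw [e1, ih _ _ hx']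
    have e2 : cat (b :: L) = b.1 ++ cat L := rfl
    rw [e2, sitesL_app, List.mem_append]
    have e3 : st u (x + zY u b) (a + hb _ b) = st u x a + endp 0 b.1 := by
      simp only [st, zY, add_nsmul]; abel
    have e4 : endp (st u x a - stepVec u) b.1
        = st u x a + endp 0 b.1 - stepVec u := by rw [endp_add]; abel
    rw [e3, e4]
    have key : (∃ q ∈ sY u b, (z, k) = (x + q.1, a + q.2)) ↔
        lev u z = 0 ∧ st u z k ∈ sitesL (st u x a - stepVec u) b.1 := by
      constructor
      · rintro ⟨⟨q1, q2⟩, ⟨h1, h2⟩, h3⟩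
        simp only [Prod.mk.injEq] at h3
        obtain ⟨rfl, rfl⟩ := h3
        refine ⟨by rw [lev_add, hx, h1, add_zero], ?_⟩
        rw [mem_sitesL] at h2 ⊢
        convert h2 using 1
        simp only [st, add_nsmul]; abel
      · rintro ⟨h1, h2⟩
        rw [mem_sitesL] at h2
        have hb' : IsDn u (hb _ b) b.1 := (isDn_iff u _ _).2 (blk_mem b)
        have h4 := hb'.1 _ h2
        have h5 : lev u (st u z k - (st u x a - stepVec u)) = (a : ℤ) - k + 1 := by
          rw [lev_sub, lev_sub, lev_st, lev_st, h1, hx, lev_self]; ring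
        rw [h5] at h4
        have hak : a ≤ k := by
          have := h4.2
          omega
        refine ⟨(z - x, k - a), ⟨by rw [lev_sub, h1, hx, sub_zero], ?_⟩, ?_⟩
        · rw [mem_sitesL]
          convert h2 using 1
          simp only [st]
          obtain ⟨c, rfl⟩ := Nat.exists_eq_add_of_le hak
          rw [Nat.add_sub_cancel_left, add_nsmul]; abel
        · simp only [Prod.mk.injEq]
          exact ⟨by abel, by omega⟩
    rw [key, ← and_or_left]

/-- common sites = contact depths of 28 -/
lemma contact_iff (u : Step d) (w : Site d) (hw : lev u w = 0) (LX : List (BX u))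
    (LY : List (BY u)) (k : ℕ) :
    (∃ z, (z, k) ∈ TX u LX 0 0 ∧ (z, k) ∈ TY u LY w 0) ↔ k ∈ Cm u w (cat LX) (cat LY) := by
  have h0 : st u (0 : Site d) 0 = 0 := by simp [st]
  have hw0 : st u w 0 = w := by simp [st]
  simp only [mem_TX u LX 0 0 (lev_zero u), mem_TY u LY w 0 hw, h0, hw0, zero_sub]
  unfold Cm
  rw [Set.mem_ofPred_eq]
  constructor
  · rintro ⟨z, ⟨h1, h2⟩, _, h3⟩
    refine ⟨st u z k, h2, ?_, by rw [lev_st, h1]; ring⟩
    rwa [stepVec_opp, ← sub_eq_add_neg]
  · rintro ⟨y, h1, h2, h3⟩
    have e : st u (y + k • stepVec u) k = y := by simp [st]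
    have h4 : lev u (y + k • stepVec u) = 0 := by
      rw [lev_add, lev_nsmul, lev_self, h3]; ring
    refine ⟨y + k • stepVec u, ⟨h4, by rw [e]; exact h1⟩, h4, ?_⟩
    rw [e]
    rwa [stepVec_opp, ← sub_eq_add_neg] at h2

end Crest.Agent.R154.WB350
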