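import Crest.Agent.R154.NBDefs_28
import Crest.Agent.R154.B5Abs_566

/-! Row 154, ROAD 801: words, prefix-free families, splitting (helper22). -/

set_option autoImplicit false

namespace Crest.Agent.R154.W22

open MeasureTheory ProbabilityTheory Crest.ProbabilityR.RandomEnvironment Crest.Agent.R154
open Crest.Agent.R154.Flux132 (lev opp)
open Crest.Agent.R154.Flux566 (lw endp sitesL)
open Crest.Agent.R154.NB28 (IsUp IsDn aw)
open scoped ENNReal

variable {d : ℕ}

lemma sitesL_append (l l' : List (Step d)) (x : Site d) :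
    sitesL x (l ++ l') = sitesL x l ++ sitesL (endp x l) l' := by
  induction l generalizing x with
  | nil => rfl
  | cons e l ih => simp only [List.cons_append, sitesL, endp, ih]

lemma lw_append (ω : Environment d) (l l' : List (Step d)) (x : Site d) :
    lw ω x (l ++ l') = lw ω x l * lw ω (endp x l) l' := by
  induction l generalizing x with
  | nil => simp [lw, endp]
  | cons e l ih => simp only [List.cons_append, lw, endp, ih, mul_assoc]

/-- prefix-free family of words -/
def PF (S : List (Step d) → Prop) : Prop := ∀ l l', S l → S (l ++ l') → l' = []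

lemma PF.mono {S T : List (Step d) → Prop} (hT : PF T) (h : ∀ l, S l → T l) : PF S :=
  fun l l' h1 h2 => hT l l' (h _ h1) (h _ h2)

open Classical in
lemma sum_le_one_aux (ω : Environment d) (N : ℕ) : ∀ (S : List (Step d) → Prop) (_ : PF S)
    (x : Site d), ∑' l, (if S l ∧ l.length ≤ N then lw ω x l else 0) ≤ 1 := by
  induction N with
  | zero =>
    intro S _ x
    rw [tsum_eq_single []]
    · split_ifs <;> simp [lw]
    · intro l hl
      rw [if_neg]
      rintro ⟨_, h⟩
      exact hl (List.length_eq_zero_iff.1 (by omega))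
  | succ N ih =>
    intro S hS x
    by_cases h0 : S []
    · rw [tsum_eq_single []]
      · split_ifs <;> simp [lw]
      · intro l hl
        rw [if_neg]
        rintro ⟨h, _⟩
        exact hl (hS [] l h0 (by simpa using h))
    · rw [B5A.tsum_list]
      rw [if_neg (fun h => h0 h.1), zero_add]
      calc ∑' b, ∑' L : List (Step d), (if S (b :: L) ∧ (b :: L).length ≤ N + 1
            then lw ω x (b :: L) else 0)
          ≤ ∑' b : Step d, ENNReal.ofReal ((ω x).1 b) * 1 := by
            refine ENNReal.tsum_le_tsum fun b => ?_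
            calc ∑' L : List (Step d), (if S (b :: L) ∧ (b :: L).length ≤ N + 1
                  then lw ω x (b :: L) else 0)
                = ∑' L : List (Step d), ENNReal.ofReal ((ω x).1 b) *
                    (if S (b :: L) ∧ L.length ≤ N then lw ω (x + stepVec b) L else 0) := by
                  refine tsum_congr fun L => ?_
                  simp only [List.length_cons, lw, Nat.add_le_add_iff_right]
                  split_ifs <;> simp
              _ = ENNReal.ofReal ((ω x).1 b) * ∑' L : List (Step d),
                    (if S (b :: L) ∧ L.length ≤ N then lw ω (x + stepVec b) L else 0) :=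
                  ENNReal.tsum_mul_left
              _ ≤ _ := by
                  refine mul_le_mul_right ?_ _
                  exact ih (fun L => S (b :: L)) (fun l l' h1 h2 => hS (b :: l) l' h1 h2) _
        _ ≤ 1 := by
            simp only [mul_one]
            rw [tsum_fintype]
            exact Doob804.sum_row_le_one ω x

open Classical in
/-- the quenched weight of a prefix-free family is at most one -/
lemma sum_le_one (ω : Environment d) (S : List (Step d) → Prop) (hS : PF S) (x : Site d) :
    ∑' l, (if S l then lw ω x l else 0) ≤ 1 := by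
  rw [ENNReal.tsum_eq_iSup_sum]
  refine iSup_le fun s => ?_
  obtain ⟨N, hN⟩ : ∃ N, ∀ l ∈ s, l.length ≤ N := by
    refine ⟨s.sup List.length, fun l hl => Finset.le_sup (f := List.length) hl⟩
  refine le_trans ?_ (sum_le_one_aux ω N S hS x)
  refine le_trans (Finset.sum_le_sum (g := fun l => if S l ∧ l.length ≤ N then lw ω x l else 0)
    fun l hl => ?_) (ENNReal.sum_le_tsum s)
  by_cases h : S l
  · rw [if_pos h, if_pos ⟨h, hN l hl⟩]
  · rw [if_neg h]; exact zero_le

open Classical in
lemma tsum_sub {α : Type*} (A : α → Prop) (g : α → ℝ≥0∞) :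
    ∑' l, (if A l then g l else 0) = ∑' l : {l // A l}, g l.1 := by
  have h := tsum_subtype {l | A l} g
  refine Eq.trans ?_ h.symm
  refine tsum_congr fun l => ?_
  simp [Set.indicator]

open Classical in
lemma tsum_pair {α β : Type*} (P1 : α → Prop) (P2 : α → β → Prop) (g : α → β → ℝ≥0∞) :
    ∑' p : α × β, (if P1 p.1 ∧ P2 p.1 p.2 then g p.1 p.2 else 0)
      = ∑' a, (if P1 a then ∑' b, (if P2 a b then g a b else 0) else 0) := by
  rw [ENNReal.tsum_prod (f := fun a b => if P1 a ∧ P2 a b then g a b else 0)]
  refine tsum_congr fun a => ?_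
  by_cases h1 : P1 a <;> simp [h1]

open Classical in
/-- splitting a sum over words -/
lemma split_le (A P1 : List (Step d) → Prop) (P2 : List (Step d) → List (Step d) → Prop)
    (h : ∀ l, A l → ∃ l1 l2, l = l1 ++ l2 ∧ P1 l1 ∧ P2 l1 l2) (g : List (Step d) → ℝ≥0∞) :
    ∑' l, (if A l then g l else 0)
      ≤ ∑' l1, (if P1 l1 then ∑' l2, (if P2 l1 l2 then g (l1 ++ l2) else 0) else 0) := by
  choose! c1 c2 hc using h
  have hinj : Function.Injective (fun l : {l // A l} => ((c1 l.1, c2 l.1) : List (Step d) × List (Step d))) := by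
    rintro ⟨l, hl⟩ ⟨l', hl'⟩ hh
    simp only [Prod.mk.injEq] at hh
    apply Subtype.ext
    change l = l'
    rw [(hc l hl).1, (hc l' hl').1, hh.1, hh.2]
  calc ∑' l, (if A l then g l else 0) = ∑' l : {l // A l}, g l.1 := tsum_sub A g
    _ ≤ ∑' l : {l // A l}, (fun p : List (Step d) × List (Step d) =>
          if P1 p.1 ∧ P2 p.1 p.2 then g (p.1 ++ p.2) else 0) (c1 l.1, c2 l.1) := by
        refine ENNReal.tsum_le_tsum fun l => ?_
        have := hc l.1 l.2
        simp only [if_pos this.2]
        rw [← this.1]
    _ ≤ ∑' p : List (Step d) × List (Step d),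
          (if P1 p.1 ∧ P2 p.1 p.2 then g (p.1 ++ p.2) else 0) :=
        ENNReal.tsum_comp_le_tsum_of_injective hinj _
    _ = _ := tsum_pair P1 P2 (fun a b => g (a ++ b))

open Classical in
/-- gluing a prefix-free family of first parts -/
lemma merge_le (A P1 : List (Step d) → Prop) (P2 : List (Step d) → List (Step d) → Prop)
    (hPF : PF P1) (h : ∀ l1 l2, P1 l1 → P2 l1 l2 → A (l1 ++ l2)) (g : List (Step d) → ℝ≥0∞) :
    ∑' l1, (if P1 l1 then ∑' l2, (if P2 l1 l2 then g (l1 ++ l2) else 0) else 0)
      ≤ ∑' l, (if A l then g l else 0) := by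
  have e1 : ∑' l1, (if P1 l1 then ∑' l2, (if P2 l1 l2 then g (l1 ++ l2) else 0) else 0)
      = ∑' p : {p : List (Step d) × List (Step d) // P1 p.1 ∧ P2 p.1 p.2},
        g (p.1.1 ++ p.1.2) := by
    rw [← tsum_pair P1 P2 (fun a b => g (a ++ b))]
    refine Eq.trans ?_ (tsum_sub (fun p : List (Step d) × List (Step d) => P1 p.1 ∧ P2 p.1 p.2)
      (fun p => g (p.1 ++ p.2)))
    refine tsum_congr fun p => ?_
    congr
  have hinj : Function.Injective (fun p : {p : List (Step d) × List (Step d) //
      P1 p.1 ∧ P2 p.1 p.2} => p.1.1 ++ p.1.2) := by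
    rintro ⟨⟨a, b⟩, ha, hb⟩ ⟨⟨a', b'⟩, ha', hb'⟩ hh
    simp only at hh ha ha'
    rcases List.append_eq_append_iff.1 hh with ⟨t, h1, h2⟩ | ⟨t, h1, h2⟩
    · have : t = [] := hPF a t ha (by rw [← h1]; exact ha')
      subst this
      simp at h1 h2
      subst h1; subst h2; rfl
    · have : t = [] := hPF a' t ha' (by rw [← h1]; exact ha)
      subst this
      simp at h1 h2
      subst h1; subst h2; rfl
  rw [e1]
  calc ∑' p : {p : List (Step d) × List (Step d) // P1 p.1 ∧ P2 p.1 p.2}, g (p.1.1 ++ p.1.2)
      ≤ ∑' p : {p : List (Step d) × List (Step d) // P1 p.1 ∧ P2 p.1 p.2},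
        (fun l => if A l then g l else 0) (p.1.1 ++ p.1.2) := by
        refine ENNReal.tsum_le_tsum fun p => ?_
        simp only [if_pos (h p.1.1 p.1.2 p.2.1 p.2.2)]
        exact le_rfl
    _ ≤ _ := ENNReal.tsum_comp_le_tsum_of_injective hinj (fun l => if A l then g l else 0)

/-- first element of the trace with a property -/
lemma first_split (p : Site d → Prop) (l : List (Step d)) (x : Site d)
    (h : ∃ v ∈ sitesL x l, p v) :
    ∃ l1 l2, l = l1 ++ l2 ∧ l2 ≠ [] ∧ p (endp x l1) ∧ ∀ y ∈ sitesL x l1, ¬ p y := by
  induction l generalizing x with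
  | nil => obtain ⟨v, hv, _⟩ := h; simp [sitesL] at hv
  | cons e l ih =>
    by_cases hx : p x
    · exact ⟨[], e :: l, rfl, by simp, hx, by simp [sitesL]⟩
    · obtain ⟨v, hv, hpv⟩ := h
      simp only [sitesL, List.mem_cons] at hv
      rcases hv with rfl | hv
      · exact absurd hpv hx
      · obtain ⟨l1, l2, h1, h2, h3, h4⟩ := ih (x + stepVec e) ⟨v, hv, hpv⟩
        refine ⟨e :: l1, l2, by rw [h1]; rfl, h2, h3, ?_⟩
        intro y hy
        simp only [sitesL, List.mem_cons] at hy
        rcases hy with rfl | hy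
        · exact hx
        · exact h4 y hy

/-- the endpoint of a proper prefix is read -/
lemma endp_mem (l1 l2 : List (Step d)) (x : Site d) (h : l2 ≠ []) :
    endp x l1 ∈ sitesL x (l1 ++ l2) := by
  rw [sitesL_append]
  refine List.mem_append_right _ ?_
  cases l2 with
  | nil => exact absurd rfl h
  | cons e l => simp [sitesL]

end Crest.Agent.R154.W22
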