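import Crest.Agent.R154.Face2_504
import Crest.Agent.R154.Pc3_21

/-! Row 154, ROAD 801 (helper21): the window lemma (2) (local up walker, arbitrary down walker) in
words, from `Face504.face2_one` and `Face504.bad_sum`; then at one common height (`piece2`). -/

set_option autoImplicit false
set_option maxHeartbeats 1000000

namespace Crest.Agent.R154.Win21

open MeasureTheory ProbabilityTheory Crest.ProbabilityR.RandomEnvironment Crest.Agent.R154
open Crest.Agent.R154.Flux132 (lev opp)
open Crest.Agent.R154.Flux566 (lw endp sitesL Fol endp_append endp_eq_add measurable_lw)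
open Crest.Agent.R154.NB28 (IsUp IsDn aw Cm)
open Crest.Agent.R154.Face504
open scoped ENNReal
open Classical

variable {d : ℕ}

lemma lev_opp_eq (u : Step d) (x : Site d) : lev (opp u) x = - lev u x := by
  unfold lev opp
  cases u.2 <;> simp

lemma pf_upE (u : Step d) (h : ℕ) (E : Set (Site d)) :
    PF {π : Wd d | IsUp u h π ∧ endp 0 π ∈ E} := by
  rintro l ⟨hl, _⟩ l' ⟨hl', _⟩ hp
  exact pf_up u h l hl l' hl' hp

lemma pf_dn' (u : Step d) (h : ℕ) : PF {γ : Wd d | IsDn u h γ} := by
  rintro l hl l' hl' ⟨t, rfl⟩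
  by_cases ht : t = []
  · rw [ht, List.append_nil]
  · have h1 := (hl'.1 _ (end_mem_sites 0 l t ht)).1
    have h2 := hl.2
    omega

/-- continuations of the local up walker started at `x` -/
def TU (u : Step d) (h : ℕ) (E : Finset (Site d)) (x v : Site d) : Set (Wd d) :=
  {τ | (∀ y ∈ sitesL v τ, lev u y < lev u x + h) ∧ lev u (endp v τ) = lev u x + h ∧
    endp v τ - x ∈ E}

/-- **window lemma (2)**: down walker from `0`, local up walker from `x` at level `g - h`, landing
level `g ≥ 1`, weight on the landing; every common site is at level `≤ -s` -/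
theorem win2 (ν : Measure (Row d)) [IsProbabilityMeasure ν] (u : Step d) (h h' : ℕ) (g : ℤ)
    (hg : 1 ≤ g) (s : ℤ) (E : Finset (Site d)) {wt : Site d → ℝ≥0∞} {M : ℝ≥0∞}
    (hM : ∀ z, wt z ≤ M) (hs : ∑' z, wt z ≤ 1)
    {lam : ℝ≥0∞} (hl0 : lam ≠ 0) (hlt : lam ≠ ∞) {us : ℝ≥0∞}
    (hus : ∀ W : Set (Wd d), Us109.PF W → W ⊆ Us109.RetW (opp u) (-1) s →
      ∑' l, (if l ∈ W then aw ν l else 0) ≤ us) :
    (∑' x : Site d, if lev u x = g - h then (∑' π : Wd d, ∑' γ : Wd d,
      if (IsUp u h π ∧ endp 0 π ∈ E) ∧ IsDn u h' γ ∧ (∃ z ∈ sitesL 0 γ, z ∈ sitesL x π) ∧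
        (∀ z ∈ sitesL 0 γ, z ∈ sitesL x π → lev u z ≤ -s)
      then aw ν π * aw ν γ * wt (endp x π) else 0) else 0)
      ≤ M / lam * (E.card * us) + lam := by
  set A : Set (Wd d) := {γ | IsDn u h' γ} with hA
  set B : Set (Wd d) := {π | IsUp u h π ∧ endp 0 π ∈ (E : Set (Site d))} with hB
  set Dp : Set (Site d) := {z | lev u z ≤ -s} with hDp
  obtain ⟨R, hR⟩ : ∃ R : Site d → Set (Wd d),
      ∀ x l, l ∈ R x ↔ l ∈ RS (opp u) (-g) s ∧ endp 0 l - x ∈ E :=
    ⟨fun x => {l | l ∈ RS (opp u) (-g) s ∧ endp 0 l - x ∈ E}, fun _ _ => Iff.rfl⟩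
  have key : ∀ x : Site d, lev u x = g - h →
      (∑' π : Wd d, ∑' γ : Wd d,
        if (IsUp u h π ∧ endp 0 π ∈ E) ∧ IsDn u h' γ ∧ (∃ z ∈ sitesL 0 γ, z ∈ sitesL x π) ∧
          (∀ z ∈ sitesL 0 γ, z ∈ sitesL x π → lev u z ≤ -s)
        then aw ν π * aw ν γ * wt (endp x π) else 0)
      ≤ M / lam * ∫⁻ ω, tw ω 0 (R x) ∂(iidEnvironmentLaw ν)
        + ∫⁻ ω, bad B (TU u h E) lam wt x ω ∂(iidEnvironmentLaw ν) := by
    intro x hx
    refine le_trans ?_ (face2_one ν x (A := A) (B := B) (pf_dn' u h') (pf_upE u h E)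
      (TU u h E) hM Dp (R x) ?_ hl0 hlt)
    · refine ENNReal.tsum_le_tsum fun π => ENNReal.tsum_le_tsum fun γ => ?_
      by_cases h1 : (IsUp u h π ∧ endp 0 π ∈ E) ∧ IsDn u h' γ ∧
          (∃ z ∈ sitesL 0 γ, z ∈ sitesL x π) ∧ (∀ z ∈ sitesL 0 γ, z ∈ sitesL x π → lev u z ≤ -s)
      · have h2 : π ∈ B ∧ γ ∈ A ∧ FHD 0 x Dp γ π :=
          ⟨h1.1, h1.2.1, fhd_of_contact h1.2.2.1 h1.2.2.2⟩
        rw [if_pos h1, if_pos h2, an_eq, an_eq]
      · rw [if_neg h1]; exact zero_le
    · rintro σ τ ⟨γ, hγ, t, rfl⟩ hσ ⟨h1, h2, h3⟩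
      have h4 : ∀ y ∈ sitesL 0 σ, lev u y ≤ 0 := fun y hy =>
        (hγ.1 y (by rw [Face504.sitesL_append]; exact List.mem_append.mpr (Or.inl hy))).2
      rw [hR]
      have hσ' : lev u (endp 0 σ) ≤ -s := hσ
      refine ⟨⟨⟨σ, τ, rfl, fun y hy => ?_, ?_⟩, fun y hy => ?_, ?_⟩, ?_⟩
      · rw [lev_opp_eq]; have := h4 y hy; omega
      · rw [lev_opp_eq]; omega
      · rw [lev_opp_eq]
        rw [Face504.sitesL_append] at hy
        rcases List.mem_append.mp hy with hy | hy
        · have := h4 y hy; omega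
        · have := h1 y hy; rw [hx] at this; omega
      · rw [endp_append, lev_opp_eq, h2, hx]; ring
      · rw [endp_append]; exact h3
  calc _ ≤ ∑' x : Site d, (M / lam * ∫⁻ ω, tw ω 0 (R x) ∂(iidEnvironmentLaw ν)
        + ∫⁻ ω, bad B (TU u h E) lam wt x ω ∂(iidEnvironmentLaw ν)) := by
        refine ENNReal.tsum_le_tsum fun x => ?_
        split_ifs with hx
        · exact key x hx
        · exact zero_le
    _ = M / lam * (∑' x, ∫⁻ ω, tw ω 0 (R x) ∂(iidEnvironmentLaw ν))
        + ∑' x : Site d, ∫⁻ ω, bad B (TU u h E) lam wt x ω ∂(iidEnvironmentLaw ν) := by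
        rw [ENNReal.tsum_add, ENNReal.tsum_mul_left]
    _ ≤ M / lam * (E.card * us) + lam := by
        refine add_le_add (mul_le_mul_right ?_ _) ?_
        · calc (∑' x, ∫⁻ ω, tw ω 0 (R x) ∂(iidEnvironmentLaw ν))
              = ∑' x : Site d, ∑' l : Wd d, (if l ∈ R x then aw ν l else 0) :=
                tsum_congr fun x => lint_tw ν (R x)
            _ = ∑' l : Wd d, ∑' x : Site d, (if l ∈ R x then aw ν l else 0) :=
                ENNReal.tsum_comm
            _ = ∑' l : Wd d, (E.card : ℝ≥0∞) * (if l ∈ RS (opp u) (-g) s then aw ν l else 0) := by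
                refine tsum_congr fun l => ?_
                by_cases hl : l ∈ RS (opp u) (-g) s
                · rw [if_pos hl, ← sum_start E (endp 0 l) (aw ν l)]
                  refine tsum_congr fun x => ?_
                  simp only [hR, hl, true_and]
                · rw [if_neg hl, mul_zero]
                  refine (tsum_congr fun x => if_neg ?_).trans tsum_zero
                  rw [hR]
                  rintro ⟨h1, _⟩
                  exact hl h1
            _ = E.card * ∑' l : Wd d, (if l ∈ RS (opp u) (-g) s then aw ν l else 0) :=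
                ENNReal.tsum_mul_left
            _ ≤ E.card * us := mul_le_mul_right (hus _ (pf_RS (opp u) (-g) s)
                (RS_sub (opp u) (by omega))) _
        · refine bad_sum ν (TU u h E) ?_ ?_ hs lam
          · rintro γ₁ γ₂ ⟨h1, h2⟩ _
            refine ⟨fun y hy => ?_, ?_, ?_⟩
            · have h3 : y ∈ sitesL 0 (γ₁ ++ γ₂) := by
                rw [Face504.sitesL_append]; exact List.mem_append.mpr (Or.inr hy)
              have h4 := (h1.1 _ h3).2
              rw [Flux132.lev_zero]
              omega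
            · rw [← endp_append, h1.2, Flux132.lev_zero]; ring
            · rw [← endp_append, sub_zero]
              exact h2
          · intro x v
            ext τ
            simp only [TU, Set.mem_ofPred_eq, Flux132.lev_zero, sub_zero]
            have e1 : endp (v + x) τ = endp v τ + x := by
              rw [endp_eq_add, endp_eq_add τ v]; abel
            have e2 : ∀ y, y ∈ sitesL (v + x) τ ↔ y - x ∈ sitesL v τ := by
              intro y
              rw [add_comm v x]
              exact mem_sitesL_add τ x v y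
            rw [e1, Flux132.lev_add, add_sub_cancel_right]
            constructor
            · rintro ⟨h1, h2, h3⟩
              refine ⟨fun y hy => ?_, by omega, h3⟩
              have := h1 (y + x) (by rw [e2, add_sub_cancel_right]; exact hy)
              rw [Flux132.lev_add] at this
              omega
            · rintro ⟨h1, h2, h3⟩
              refine ⟨fun y hy => ?_, by omega, h3⟩
              have := h1 (y - x) ((e2 y).1 hy)
              rw [lev_sub] at this
              omega

end Crest.Agent.R154.Win21
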