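import Crest.Agent.R154.WLib_22
import Crest.Agent.R154.NBSurg_28
import Crest.Agent.R154.RetW_458

/-! Row 154, ROAD 801: the one-window lemma with `X` local (H2), in words (helper22). -/

set_option autoImplicit false

namespace Crest.Agent.R154.W22

open MeasureTheory ProbabilityTheory Crest.ProbabilityR.RandomEnvironment Crest.Agent.R154
open Crest.Agent.R154.Flux132 (lev opp)
open Crest.Agent.R154.Flux566 (lw endp sitesL measurable_lw endp_append)
open Crest.Agent.R154.NB28 (IsUp IsDn aw mem_sitesL_iff endp_add aw_shift lint_mul isDn_prefix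
  isUp_prefix)
open scoped ENNReal

variable {d : ℕ}

lemma first_split' (p : Site d → Prop) (l : List (Step d)) (x : Site d)
    (h : p (endp x l)) :
    ∃ l1 l2, l = l1 ++ l2 ∧ p (endp x l1) ∧ ∀ y ∈ sitesL x l1, ¬ p y := by
  induction l generalizing x with
  | nil => exact ⟨[], [], rfl, h, by simp [sitesL]⟩
  | cons e l ih =>
    by_cases hx : p x
    · exact ⟨[], e :: l, rfl, hx, by simp [sitesL]⟩
    · obtain ⟨l1, l2, h1, h3, h4⟩ := ih (x + stepVec e) h
      refine ⟨e :: l1, l2, by rw [h1]; rfl, h3, ?_⟩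
      intro y hy
      simp only [sitesL, List.mem_cons] at hy
      rcases hy with rfl | hy
      · exact hx
      · exact h4 y hy

lemma pf_first (Q : Site d → Prop) (x : Site d) :
    PF (fun l => Q (endp x l) ∧ ∀ y ∈ sitesL x l, ¬ Q y) := by
  intro l l' h1 h2
  by_contra h
  exact h2.2 _ (endp_mem l l' x h) h1.1

lemma lev_le (u : Step d) (k : ℤ) (l : List (Step d)) (x : Site d)
    (h : ∀ y ∈ sitesL x l, lev u y < k) (hx : lev u x ≤ k) : lev u (endp x l) ≤ k := by
  induction l generalizing x with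
  | nil => exact hx
  | cons e l ih =>
    simp only [sitesL, List.mem_cons, forall_eq_or_imp] at h
    refine ih (x + stepVec e) h.2 ?_
    have h1 : lev u (x + stepVec e) = lev u x + lev u (stepVec e) := Flux132.lev_add u _ _
    have h2 : |lev u (stepVec e)| ≤ 1 := Flux566.abs_lev_stepVec u e
    have h3 := (abs_le.1 h2).2
    have h4 := h.1
    omega

lemma split_le' (A P1 : List (Step d) → Prop) (P2 : List (Step d) → List (Step d) → Prop)
    [DecidablePred A] [DecidablePred P1] [∀ l, DecidablePred (P2 l)]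
    (h : ∀ l, A l → ∃ l1 l2, l = l1 ++ l2 ∧ P1 l1 ∧ P2 l1 l2) (g : List (Step d) → ℝ≥0∞) :
    ∑' l, (if A l then g l else 0)
      ≤ ∑' l1, (if P1 l1 then ∑' l2, (if P2 l1 l2 then g (l1 ++ l2) else 0) else 0) := by
  have := split_le A P1 P2 h g
  convert this

lemma merge_le' (A P1 : List (Step d) → Prop) (P2 : List (Step d) → List (Step d) → Prop)
    [DecidablePred A] [DecidablePred P1] [∀ l, DecidablePred (P2 l)]
    (hPF : PF P1) (h : ∀ l1 l2, P1 l1 → P2 l1 l2 → A (l1 ++ l2)) (g : List (Step d) → ℝ≥0∞) :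
    ∑' l1, (if P1 l1 then ∑' l2, (if P2 l1 l2 then g (l1 ++ l2) else 0) else 0)
      ≤ ∑' l, (if A l then g l else 0) := by
  have := merge_le A P1 P2 hPF h g
  convert this

lemma sum_le_one' (ω : Environment d) (S : List (Step d) → Prop) [DecidablePred S] (hS : PF S)
    (x : Site d) : ∑' l, (if S l then lw ω x l else 0) ≤ 1 := by
  have := sum_le_one ω S hS x
  convert this

lemma lint_sum (ν : Measure (Row d)) [IsProbabilityMeasure ν] {α : Type*} [Countable α]
    (S : α → Prop) [DecidablePred S] (g : α → Environment d → ℝ≥0∞) (hg : ∀ a, Measurable (g a)) :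
    ∑' a, (if S a then ∫⁻ ω, g a ω ∂(iidEnvironmentLaw ν) else 0)
      = ∫⁻ ω, ∑' a, (if S a then g a ω else 0) ∂(iidEnvironmentLaw ν) := by
  rw [lintegral_tsum]
  · refine tsum_congr fun a => ?_
    split_ifs <;> simp
  · intro a
    by_cases h : S a
    · simpa [h] using (hg a).aemeasurable
    · simp [h]

lemma aw_ext (ν : Measure (Row d)) [IsProbabilityMeasure ν] (l1 : List (Step d))
    (S : List (Step d) → Prop) [DecidablePred S] (hS : PF S) :
    ∑' l2, (if S l2 then aw ν (l1 ++ l2) else 0) ≤ aw ν l1 := by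
  unfold aw
  rw [lint_sum ν S (fun l2 ω => lw ω 0 (l1 ++ l2)) (fun l => measurable_lw _ _)]
  refine lintegral_mono fun ω => ?_
  calc ∑' l2, (if S l2 then lw ω 0 (l1 ++ l2) else 0)
      = ∑' l2, lw ω 0 l1 * (if S l2 then lw ω (endp 0 l1) l2 else 0) := by
        refine tsum_congr fun l2 => ?_
        rw [lw_append]; split_ifs <;> simp
    _ = lw ω 0 l1 * ∑' l2, (if S l2 then lw ω (endp 0 l1) l2 else 0) := ENNReal.tsum_mul_left
    _ ≤ lw ω 0 l1 * 1 := mul_le_mul_right (sum_le_one' ω S hS _) _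
    _ = lw ω 0 l1 := mul_one _

open Classical in
/-- `u_s`: return to the level above after a dip of depth `s` -/
noncomputable def us (ν : Measure (Row d)) [IsProbabilityMeasure ν] (u : Step d) (s : ℕ) : ℝ≥0∞ :=
  ∑' l : List (Step d), (if (∀ y ∈ sitesL 0 l, lev u y < 1) ∧ lev u (endp 0 l) = 1 ∧
        (∃ y ∈ sitesL 0 l, lev u y ≤ -(s : ℤ)) then aw ν l else 0)

theorem us_small (ν : Measure (Row d)) [IsProbabilityMeasure ν] (u : Step d)
    (ε : ℝ≥0∞) (hε : ε ≠ 0) : ∃ s0 : ℕ, ∀ s, s0 ≤ s → us ν u s ≤ ε := by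
  obtain ⟨s0, h⟩ := RetW458.ret_small ν u 1 ε hε
  refine ⟨s0, fun s hs => le_trans (le_of_eq ?_) (h s hs)⟩
  unfold us aw
  refine tsum_congr fun l => ?_
  congr

/-- the event of the window -/
def Cond (u : Step d) (h N s : ℕ) (E : Finset (Site d)) (z : Site d)
    (π γ : List (Step d)) : Prop :=
  IsUp u h π ∧ IsDn u N γ ∧ -endp 0 π ∈ E ∧ (∃ v, v ∈ sitesL 0 π ∧ v ∈ sitesL z γ) ∧
    ∀ v, v ∈ sitesL 0 π → v ∈ sitesL z γ → lev u v ≤ lev u z - s

/-- first hit of the trace of `π`, deep -/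
def FHit (u : Step d) (s : ℕ) (z : Site d) (π γ : List (Step d)) : Prop :=
  (endp z γ ∈ sitesL 0 π ∧ ∀ y ∈ sitesL z γ, y ∉ sitesL 0 π) ∧
    (∀ y ∈ sitesL z γ, lev u y ≤ lev u z) ∧ lev u (endp z γ) ≤ lev u z - s

lemma FHit_pf (u : Step d) (s : ℕ) (z : Site d) (π : List (Step d)) : PF (FHit u s z π) :=
  (pf_first (fun y => y ∈ sitesL 0 π) z).mono fun _ h => h.1

open Classical in
lemma stepA (ν : Measure (Row d)) [IsProbabilityMeasure ν] (u : Step d) (h N s : ℕ)
    (E : Finset (Site d)) (z : Site d) (π : List (Step d)) :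
    ∑' γ, (if Cond u h N s E z π γ then aw ν π * aw ν γ else 0)
      ≤ ∑' γ, (if (IsUp u h π ∧ -endp 0 π ∈ E) ∧ FHit u s z π γ then
          ∫⁻ ω, lw ω 0 π * lw ω z γ ∂(iidEnvironmentLaw ν) else 0) := by
  refine le_trans (split_le (Cond u h N s E z π)
    (fun l1 => (IsUp u h π ∧ -endp 0 π ∈ E) ∧ FHit u s z π l1) (fun l1 l2 => IsDn u N (l1 ++ l2))
    ?_ (fun l => aw ν π * aw ν l)) ?_
  · rintro γ ⟨h1, h2, h3, ⟨v, hv1, hv2⟩, h5⟩
    obtain ⟨l1, l2, e1, e2, e3, e4⟩ := first_split (fun y => y ∈ sitesL 0 π) γ z ⟨v, hv2, hv1⟩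
    refine ⟨l1, l2, e1, ⟨⟨h1, h3⟩, ⟨e3, e4⟩, ?_, ?_⟩, by rw [← e1]; exact h2⟩
    · intro y hy
      have hy' : y ∈ sitesL z γ := by
        rw [e1, sitesL_append]; exact List.mem_append_left _ hy
      rw [mem_sitesL_iff] at hy'
      have h6 := (h2.1 _ hy').2
      have h7 : lev u y = lev u (y - z) + lev u z := by
        rw [← Flux132.lev_add]; congr 1; abel
      omega
    · refine h5 _ e3 ?_
      rw [e1]; exact endp_mem _ _ _ e2
  · refine ENNReal.tsum_le_tsum fun l1 => ?_
    by_cases hh : (IsUp u h π ∧ -endp 0 π ∈ E) ∧ FHit u s z π l1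
    · rw [if_pos hh, if_pos hh]
      rw [lint_mul ν 0 z π l1 (fun y hy hy' => hh.2.1.2 y hy' hy)]
      calc ∑' l2, (if IsDn u N (l1 ++ l2) then aw ν π * aw ν (l1 ++ l2) else 0)
          = ∑' l2, aw ν π * (if IsDn u N (l1 ++ l2) then aw ν (l1 ++ l2) else 0) := by
            refine tsum_congr fun l2 => ?_
            split_ifs <;> simp
        _ = aw ν π * ∑' l2, (if IsDn u N (l1 ++ l2) then aw ν (l1 ++ l2) else 0) :=
            ENNReal.tsum_mul_left
        _ ≤ aw ν π * aw ν l1 := by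
            refine mul_le_mul_right (aw_ext ν l1 _ ?_) _
            intro l l' h1 h2
            have := isDn_prefix h1 h2 ⟨l', by simp⟩
            simpa using this
    · rw [if_neg hh, if_neg hh]

/-- first hit of level `h` -/
def FH (u : Step d) (h : ℤ) (E : Finset (Site d)) (v : Site d) (l : List (Step d)) : Prop :=
  ((∀ y ∈ sitesL v l, lev u y < h) ∧ lev u (endp v l) = h) ∧ -endp v l ∈ E

open Classical in
/-- quenched probability of landing in `-E` -/
noncomputable def eh (u : Step d) (h : ℤ) (E : Finset (Site d)) (ω : Environment d) (v : Site d) :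
    ℝ≥0∞ := ∑' l, (if FH u h E v l then lw ω v l else 0)

open Classical in
/-- strong Markov at the first bad site -/
lemma bad_le (u : Step d) (h : ℕ) (E : Finset (Site d)) (ω : Environment d) (lam : ℝ≥0∞) :
    ∑' π, (if (IsUp u h π ∧ -endp 0 π ∈ E) ∧ (∃ v ∈ sitesL 0 π, eh u h E ω v ≤ lam)
      then lw ω 0 π else 0) ≤ lam := by
  refine le_trans (split_le' (fun π => (IsUp u h π ∧ -endp 0 π ∈ E) ∧
    (∃ v ∈ sitesL 0 π, eh u h E ω v ≤ lam)) (fun l1 => eh u h E ω (endp 0 l1) ≤ lam ∧
    ∀ y ∈ sitesL 0 l1, ¬ (eh u h E ω y ≤ lam)) (fun l1 l2 => FH u h E (endp 0 l1) l2)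
    ?_ (fun l => lw ω 0 l)) ?_
  · rintro π ⟨⟨h1, h2⟩, h3⟩
    obtain ⟨l1, l2, e1, e2, e3, e4⟩ := first_split (fun y => eh u h E ω y ≤ lam) π 0 h3
    refine ⟨l1, l2, e1, ⟨e3, e4⟩, ⟨?_, ?_⟩, ?_⟩
    · intro y hy
      refine (h1.1 y ?_).2
      rw [e1, sitesL_append]; exact List.mem_append_right _ hy
    · rw [← endp_append, ← e1]; exact h1.2
    · rw [← endp_append, ← e1]; exact h2
  · have hpf : PF (fun l1 => eh u h E ω (endp 0 l1) ≤ lam ∧
        ∀ y ∈ sitesL 0 l1, ¬ (eh u h E ω y ≤ lam)) :=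
      pf_first (fun y => eh u h E ω y ≤ lam) 0
    calc _ ≤ ∑' l1, (if (eh u h E ω (endp 0 l1) ≤ lam ∧
              ∀ y ∈ sitesL 0 l1, ¬ (eh u h E ω y ≤ lam)) then lw ω 0 l1 else 0) * lam := by
          refine ENNReal.tsum_le_tsum fun l1 => ?_
          by_cases hh : (eh u h E ω (endp 0 l1) ≤ lam ∧
              ∀ y ∈ sitesL 0 l1, ¬ (eh u h E ω y ≤ lam))
          · rw [if_pos hh, if_pos hh]
            calc ∑' l2, (if FH u h E (endp 0 l1) l2 then lw ω 0 (l1 ++ l2) else 0)
                = ∑' l2, lw ω 0 l1 * (if FH u h E (endp 0 l1) l2 then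
                    lw ω (endp 0 l1) l2 else 0) := by
                  refine tsum_congr fun l2 => ?_
                  rw [lw_append]; split_ifs <;> simp
              _ = lw ω 0 l1 * eh u h E ω (endp 0 l1) := ENNReal.tsum_mul_left
              _ ≤ lw ω 0 l1 * lam := mul_le_mul_right hh.1 _
          · rw [if_neg hh]; exact zero_le
      _ = (∑' l1, (if (eh u h E ω (endp 0 l1) ≤ lam ∧
              ∀ y ∈ sitesL 0 l1, ¬ (eh u h E ω y ≤ lam)) then lw ω 0 l1 else 0)) * lam :=
          ENNReal.tsum_mul_right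
      _ ≤ 1 * lam := mul_le_mul_left (sum_le_one' ω _ hpf 0) _
      _ = lam := one_mul _

/-- words of the merged walker -/
def AT (u : Step d) (h : ℤ) (s : ℕ) (z : Site d) (τ : List (Step d)) : Prop :=
  (∀ y ∈ sitesL z τ, lev u y < h) ∧ lev u (endp z τ) = h ∧
    ∃ a b, τ = a ++ b ∧ (∀ y ∈ sitesL z a, lev u y ≤ lev u z) ∧ lev u (endp z a) ≤ lev u z - s

open Classical in
noncomputable def RR (u : Step d) (h : ℤ) (s : ℕ) (E : Finset (Site d)) (ω : Environment d)
    (z : Site d) : ℝ≥0∞ :=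
  ∑' τ, (if AT u h s z τ ∧ -endp z τ ∈ E then lw ω z τ else 0)

open Classical in
/-- good first hits -/
lemma good_le (u : Step d) (h : ℕ) (s : ℕ) (E : Finset (Site d)) (ω : Environment d)
    (lam : ℝ≥0∞) (h0 : lam ≠ 0) (z : Site d) (hz : lev u z < h) (π : List (Step d)) :
    ∑' γ, (if FHit u s z π γ ∧ ¬ (eh u h E ω (endp z γ) ≤ lam) then lw ω z γ else 0)
      ≤ lam⁻¹ * RR u h s E ω z := by
  have h1 : ∑' γ, (if FHit u s z π γ ∧ ¬ (eh u h E ω (endp z γ) ≤ lam) then lw ω z γ else 0)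
      ≤ ∑' γ, lam⁻¹ * (if FHit u s z π γ then
        ∑' l, (if FH u h E (endp z γ) l then lw ω z (γ ++ l) else 0) else 0) := by
    refine ENNReal.tsum_le_tsum fun γ => ?_
    by_cases hh : FHit u s z π γ ∧ ¬ (eh u h E ω (endp z γ) ≤ lam)
    · rw [if_pos hh, if_pos hh.1]
      have e1 : ∑' l, (if FH u h E (endp z γ) l then lw ω z (γ ++ l) else 0)
          = lw ω z γ * eh u h E ω (endp z γ) := by
        unfold eh
        rw [← ENNReal.tsum_mul_left]
        refine tsum_congr fun l => ?_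
        rw [lw_append]; split_ifs <;> simp
      rw [e1]
      have hlt : lam < eh u h E ω (endp z γ) := not_le.1 hh.2
      have h2 : 1 ≤ lam⁻¹ * eh u h E ω (endp z γ) := by
        calc (1 : ℝ≥0∞) = lam⁻¹ * lam := (ENNReal.inv_mul_cancel h0 hlt.ne_top).symm
          _ ≤ _ := mul_le_mul_right hlt.le _
      calc lw ω z γ = lw ω z γ * 1 := (mul_one _).symm
        _ ≤ lw ω z γ * (lam⁻¹ * eh u h E ω (endp z γ)) := mul_le_mul_right h2 _
        _ = _ := by ring
    · rw [if_neg hh]; exact zero_le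
  refine le_trans h1 ?_
  rw [ENNReal.tsum_mul_left]
  refine mul_le_mul_right ?_ _
  unfold RR
  refine merge_le' (fun τ => AT u h s z τ ∧ -endp z τ ∈ E) (FHit u s z π)
    (fun γ l => FH u h E (endp z γ) l) (FHit_pf u s z π) ?_ (fun τ => lw ω z τ)
  rintro γ l ⟨_, g2, g3⟩ ⟨⟨f1, f2⟩, f3⟩
  refine ⟨⟨?_, ?_, γ, l, rfl, g2, g3⟩, ?_⟩
  · intro y hy
    rw [sitesL_append] at hy
    rcases List.mem_append.1 hy with hy | hy
    · exact lt_of_le_of_lt (g2 y hy) hz
    · exact f1 y hy
  · rw [endp_append]; exact f2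
  · rw [endp_append]; exact f3

open Classical in
lemma stepC (u : Step d) (h : ℕ) (s : ℕ) (E : Finset (Site d)) (ω : Environment d)
    (lam : ℝ≥0∞) (h0 : lam ≠ 0) (z : Site d) (hz : lev u z < h) (π : List (Step d)) :
    ∑' γ, (if (IsUp u h π ∧ -endp 0 π ∈ E) ∧ FHit u s z π γ then lw ω 0 π * lw ω z γ else 0)
      ≤ (if (IsUp u h π ∧ -endp 0 π ∈ E) ∧ (∃ v ∈ sitesL 0 π, eh u h E ω v ≤ lam)
          then lw ω 0 π else 0)
        + (if IsUp u h π ∧ -endp 0 π ∈ E then lw ω 0 π * (lam⁻¹ * RR u h s E ω z) else 0) := by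
  by_cases hπ : IsUp u h π ∧ -endp 0 π ∈ E
  · have e1 : ∀ γ, (if (IsUp u h π ∧ -endp 0 π ∈ E) ∧ FHit u s z π γ then
        lw ω 0 π * lw ω z γ else 0)
        = lw ω 0 π * (if FHit u s z π γ ∧ (eh u h E ω (endp z γ) ≤ lam) then lw ω z γ else 0)
          + lw ω 0 π * (if FHit u s z π γ ∧ ¬ (eh u h E ω (endp z γ) ≤ lam) then
            lw ω z γ else 0) := by
      intro γ
      by_cases g1 : FHit u s z π γ <;> by_cases g2 : eh u h E ω (endp z γ) ≤ lam <;>
        simp [g1, g2, hπ]
    simp only [e1]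
    rw [ENNReal.tsum_add, ENNReal.tsum_mul_left, ENNReal.tsum_mul_left]
    refine add_le_add ?_ ?_
    · by_cases hb : ∃ v ∈ sitesL 0 π, eh u h E ω v ≤ lam
      · rw [if_pos ⟨hπ, hb⟩]
        have : PF (fun γ => FHit u s z π γ ∧ (eh u h E ω (endp z γ) ≤ lam)) :=
          (FHit_pf u s z π).mono fun _ h => h.1
        calc _ ≤ lw ω 0 π * 1 := mul_le_mul_right (sum_le_one' ω _ this z) _
          _ = _ := mul_one _
      · have : ∀ γ, (if FHit u s z π γ ∧ (eh u h E ω (endp z γ) ≤ lam) then lw ω z γ else 0)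
            = 0 := by
          intro γ
          rw [if_neg]
          rintro ⟨g1, g2⟩
          exact hb ⟨_, g1.1.1, g2⟩
        simp [this]
    · rw [if_pos hπ]
      exact mul_le_mul_right (good_le u h s E ω lam h0 z hz π) _
  · have e1 : ∀ γ, (if (IsUp u h π ∧ -endp 0 π ∈ E) ∧ FHit u s z π γ then
        lw ω 0 π * lw ω z γ else 0) = 0 := by
      intro γ
      rw [if_neg]; exact fun hh => hπ hh.1
    simp [e1]

open Classical in
lemma sum_E (E : Finset (Site d)) (a : Site d) (c : ℝ≥0∞) :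
    ∑' z : Site d, (if -(z + a) ∈ E then c else 0) = E.card * c := by
  have h1 := ((Equiv.addRight a).trans (Equiv.neg (Site d))).tsum_eq
    (fun y => if y ∈ E then c else 0)
  refine Eq.trans (tsum_congr fun z => ?_) (h1.trans ?_)
  · rfl
  · rw [tsum_eq_sum (s := E) (fun y hy => if_neg hy)]
    rw [Finset.sum_congr rfl (fun y hy => if_pos hy), Finset.sum_const, nsmul_eq_mul]

/-- dip words from `0` -/
def A0 (u : Step d) (j : ℕ) (s : ℕ) (τ : List (Step d)) : Prop :=
  (∀ y ∈ sitesL 0 τ, lev u y < (j : ℤ) + 1) ∧ lev u (endp 0 τ) = (j : ℤ) + 1 ∧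
    ∃ a b, τ = a ++ b ∧ (∀ y ∈ sitesL 0 a, lev u y ≤ 0) ∧ lev u (endp 0 a) ≤ -(s : ℤ)

open Classical in
lemma A0_le (ν : Measure (Row d)) [IsProbabilityMeasure ν] (u : Step d) (j s : ℕ) :
    ∑' τ, (if A0 u j s τ then aw ν τ else 0) ≤ us ν u s := by
  refine le_trans (split_le' (A0 u j s) (fun l => (∀ y ∈ sitesL 0 l, lev u y < 1) ∧
    lev u (endp 0 l) = 1 ∧ (∃ y ∈ sitesL 0 l, lev u y ≤ -(s : ℤ)))
    (fun l1 l2 => lev u (endp (endp 0 l1) l2) = (j : ℤ) + 1 ∧
      ∀ y ∈ sitesL (endp 0 l1) l2, ¬ (lev u y = (j : ℤ) + 1)) ?_ (fun l => aw ν l)) ?_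
  · rintro τ ⟨h1, h2, a, b, h3, h4, h5⟩
    obtain ⟨l1, l2, e1, e2, e3⟩ := first_split' (fun y => 1 ≤ lev u y) τ 0 (by
      show 1 ≤ lev u (endp 0 τ); omega)
    have e3' : ∀ y ∈ sitesL 0 l1, lev u y < 1 := fun y hy => not_le.1 (e3 y hy)
    have e4 : lev u (endp 0 l1) = 1 :=
      le_antisymm (lev_le u 1 l1 0 e3' (by rw [Flux132.lev_zero]; omega)) e2
    refine ⟨l1, l2, e1, ⟨e3', e4, ?_⟩, ?_, ?_⟩
    · rcases List.append_eq_append_iff.1 (h3.symm.trans e1) with ⟨t, g1, g2⟩ | ⟨t, g1, g2⟩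
      · have ht : t ≠ [] := by
          rintro rfl
          rw [List.append_nil] at g1
          rw [g1] at e4
          omega
        refine ⟨endp 0 a, ?_, h5⟩
        rw [g1]; exact endp_mem _ _ _ ht
      · by_cases ht : t = []
        · subst ht
          rw [List.append_nil] at g1
          rw [g1] at h5
          omega
        · have := h4 (endp 0 l1) (by rw [g1]; exact endp_mem _ _ _ ht)
          omega
    · rw [← endp_append, ← e1]; exact h2
    · intro y hy hy2
      have := h1 y (by rw [e1, sitesL_append]; exact List.mem_append_right _ hy)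
      omega
  · unfold us
    refine ENNReal.tsum_le_tsum fun l1 => ?_
    by_cases hh : (∀ y ∈ sitesL 0 l1, lev u y < 1) ∧
      lev u (endp 0 l1) = 1 ∧ (∃ y ∈ sitesL 0 l1, lev u y ≤ -(s : ℤ))
    · rw [if_pos hh, if_pos hh]
      exact aw_ext ν l1 _ (pf_first (fun y => lev u y = (j : ℤ) + 1) (endp 0 l1))
    · rw [if_neg hh, if_neg hh]

lemma sites_shift (z y : Site d) (l : List (Step d)) (h : y ∈ sitesL 0 l) :
    y + z ∈ sitesL z l := by
  rw [mem_sitesL_iff]; simpa using h

lemma endp_shift (z : Site d) (l : List (Step d)) : endp z l = z + endp 0 l := by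
  have := endp_add l 0 z
  rw [zero_add] at this
  rw [this, add_comm]

lemma AT_shift (u : Step d) (h : ℕ) (j s : ℕ) (z : Site d) (hz : lev u z = (h : ℤ) - (j + 1))
    (τ : List (Step d)) (hA : AT u h s z τ) : A0 u j s τ := by
  obtain ⟨h1, h2, a, b, h3, h4, h5⟩ := hA
  refine ⟨?_, ?_, a, b, h3, ?_, ?_⟩
  · intro y hy
    have := h1 _ (sites_shift z y τ hy)
    rw [Flux132.lev_add] at this
    omega
  · rw [endp_shift, Flux132.lev_add] at h2
    omega
  · intro y hy
    have := h4 _ (sites_shift z y a hy)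
    rw [Flux132.lev_add] at this
    omega
  · rw [endp_shift, Flux132.lev_add] at h5
    omega

open Classical in
lemma RR_meas (u : Step d) (h : ℤ) (s : ℕ) (E : Finset (Site d)) (z : Site d) :
    Measurable fun ω : Environment d => RR u h s E ω z := by
  unfold RR
  refine Measurable.tsum fun τ => ?_
  by_cases hh : AT u h s z τ ∧ -endp z τ ∈ E
  · simpa [hh] using measurable_lw z τ
  · simp [hh]

open Classical in
lemma stepD (ν : Measure (Row d)) [IsProbabilityMeasure ν] (u : Step d) (h j s : ℕ)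
    (E : Finset (Site d)) :
    ∫⁻ ω, ∑' z, (if lev u z = (h : ℤ) - (j + 1) then RR u h s E ω z else 0)
      ∂(iidEnvironmentLaw ν) ≤ E.card * us ν u s := by
  rw [← lint_sum ν (fun z => lev u z = (h : ℤ) - (j + 1)) (fun z ω => RR u h s E ω z)
    (fun z => RR_meas u h s E z)]
  calc ∑' z, (if lev u z = (h : ℤ) - (j + 1) then
          ∫⁻ ω, RR u h s E ω z ∂(iidEnvironmentLaw ν) else 0)
      ≤ ∑' z, ∑' τ, (if -(z + endp 0 τ) ∈ E then (if A0 u j s τ then aw ν τ else 0) else 0) := by
        refine ENNReal.tsum_le_tsum fun z => ?_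
        by_cases hz : lev u z = (h : ℤ) - (j + 1)
        · rw [if_pos hz]
          unfold RR
          rw [← lint_sum ν (fun τ => AT u h s z τ ∧ -endp z τ ∈ E) (fun τ ω => lw ω z τ)
            (fun τ => measurable_lw z τ)]
          refine ENNReal.tsum_le_tsum fun τ => ?_
          by_cases hh : AT u h s z τ ∧ -endp z τ ∈ E
          · rw [if_pos hh, if_pos (by rw [← endp_shift]; exact hh.2),
              if_pos (AT_shift u h j s z hz τ hh.1), aw_shift]
          · rw [if_neg hh]; exact zero_le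
        · rw [if_neg hz]; exact zero_le
    _ = ∑' τ, ∑' z : Site d, (if -(z + endp 0 τ) ∈ E then
          (if A0 u j s τ then aw ν τ else 0) else 0) := ENNReal.tsum_comm
    _ = ∑' τ, E.card * (if A0 u j s τ then aw ν τ else 0) := by
        refine tsum_congr fun τ => sum_E E _ _
    _ = E.card * ∑' τ, (if A0 u j s τ then aw ν τ else 0) := ENNReal.tsum_mul_left
    _ ≤ E.card * us ν u s := mul_le_mul_right (A0_le ν u j s) _

open Classical in
/-- the quenched bound of the window -/
lemma quench (u : Step d) (h j s : ℕ) (E : Finset (Site d)) (μ : Site d → ℝ≥0∞)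
    (hμ : ∑' x, μ x ≤ 1) (M : ℝ≥0∞) (hM : ∀ x, μ x ≤ M)
    (hμl : ∀ x, μ x ≠ 0 → lev u x = -(j : ℤ) - 1) (lam : ℝ≥0∞) (h0 : lam ≠ 0)
    (ω : Environment d) :
    ∑' x, μ x * ∑' π, ∑' γ, (if (IsUp u h π ∧ -endp 0 π ∈ E) ∧ FHit u s (endp 0 π + x) π γ then
        lw ω 0 π * lw ω (endp 0 π + x) γ else 0)
      ≤ lam + lam⁻¹ * (M * ∑' z, (if lev u z = (h : ℤ) - (j + 1) then RR u h s E ω z else 0)) := by
  set R' : ℝ≥0∞ := ∑' z, (if lev u z = (h : ℤ) - (j + 1) then RR u h s E ω z else 0) with hR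
  have hlev : ∀ x, μ x ≠ 0 → ∀ π, IsUp u h π → lev u (endp 0 π + x) = (h : ℤ) - (j + 1) := by
    intro x hx π hπ
    rw [Flux132.lev_add, hπ.2, hμl x hx]; ring
  calc _ ≤ ∑' x, (μ x * lam + μ x * ∑' π, (if IsUp u h π ∧ -endp 0 π ∈ E then
            lw ω 0 π * (lam⁻¹ * RR u h s E ω (endp 0 π + x)) else 0)) := by
        refine ENNReal.tsum_le_tsum fun x => ?_
        by_cases hx : μ x = 0
        · simp [hx]
        rw [← mul_add]
        refine mul_le_mul_right ?_ _
        refine le_trans (ENNReal.tsum_le_tsum (g := fun π =>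
          (if (IsUp u h π ∧ -endp 0 π ∈ E) ∧ (∃ v ∈ sitesL 0 π, eh u h E ω v ≤ lam)
            then lw ω 0 π else 0)
          + (if IsUp u h π ∧ -endp 0 π ∈ E then
            lw ω 0 π * (lam⁻¹ * RR u h s E ω (endp 0 π + x)) else 0)) fun π => ?_) ?_
        · by_cases hπ : IsUp u h π ∧ -endp 0 π ∈ E
          · refine stepC u h s E ω lam h0 (endp 0 π + x) ?_ π
            rw [hlev x hx π hπ.1]; omega
          · have e1 : ∀ γ, (if (IsUp u h π ∧ -endp 0 π ∈ E) ∧
                FHit u s (endp 0 π + x) π γ then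
                lw ω 0 π * lw ω (endp 0 π + x) γ else 0) = 0 := by
              intro γ
              rw [if_neg]; exact fun hh => hπ hh.1
            simp [e1]
        · rw [ENNReal.tsum_add]
          exact add_le_add (bad_le u h E ω lam) le_rfl
    _ = (∑' x, μ x) * lam + ∑' x, μ x * ∑' π, (if IsUp u h π ∧ -endp 0 π ∈ E then
            lw ω 0 π * (lam⁻¹ * RR u h s E ω (endp 0 π + x)) else 0) := by
        rw [ENNReal.tsum_add, ENNReal.tsum_mul_right]
    _ ≤ 1 * lam + lam⁻¹ * (M * R') := by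
        refine add_le_add (mul_le_mul_left hμ _) ?_
        calc ∑' x, μ x * ∑' π, (if IsUp u h π ∧ -endp 0 π ∈ E then
                lw ω 0 π * (lam⁻¹ * RR u h s E ω (endp 0 π + x)) else 0)
            = ∑' x, ∑' π, μ x * (if IsUp u h π ∧ -endp 0 π ∈ E then
                lw ω 0 π * (lam⁻¹ * RR u h s E ω (endp 0 π + x)) else 0) := by
              refine tsum_congr fun x => ENNReal.tsum_mul_left.symm
          _ = ∑' π, ∑' x, μ x * (if IsUp u h π ∧ -endp 0 π ∈ E then
                lw ω 0 π * (lam⁻¹ * RR u h s E ω (endp 0 π + x)) else 0) := ENNReal.tsum_comm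
          _ ≤ ∑' π, (if IsUp u h π then lw ω 0 π else 0) * (lam⁻¹ * (M * R')) := by
              refine ENNReal.tsum_le_tsum fun π => ?_
              by_cases hπ : IsUp u h π ∧ -endp 0 π ∈ E
              · simp only [if_pos hπ, if_pos hπ.1]
                calc ∑' x, μ x * (lw ω 0 π * (lam⁻¹ * RR u h s E ω (endp 0 π + x)))
                    ≤ ∑' x, (lw ω 0 π * (lam⁻¹ * M)) *
                        (if lev u (endp 0 π + x) = (h : ℤ) - (j + 1) then
                          RR u h s E ω (endp 0 π + x) else 0) := by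
                      refine ENNReal.tsum_le_tsum fun x => ?_
                      by_cases hx : μ x = 0
                      · simp [hx]
                      · rw [if_pos (hlev x hx π hπ.1)]
                        calc μ x * (lw ω 0 π * (lam⁻¹ * RR u h s E ω (endp 0 π + x)))
                            ≤ M * (lw ω 0 π * (lam⁻¹ * RR u h s E ω (endp 0 π + x))) :=
                              mul_le_mul_left (hM x) _
                          _ = _ := by ring
                  _ = (lw ω 0 π * (lam⁻¹ * M)) * ∑' x,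
                        (if lev u (endp 0 π + x) = (h : ℤ) - (j + 1) then
                          RR u h s E ω (endp 0 π + x) else 0) := ENNReal.tsum_mul_left
                  _ = (lw ω 0 π * (lam⁻¹ * M)) * R' := by
                      congr 1
                      exact (Equiv.addLeft (endp 0 π)).tsum_eq
                        (fun z => if lev u z = (h : ℤ) - (j + 1) then RR u h s E ω z else 0)
                  _ = _ := by ring
              · simp [if_neg hπ]
          _ = (∑' π, (if IsUp u h π then lw ω 0 π else 0)) * (lam⁻¹ * (M * R')) :=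
              ENNReal.tsum_mul_right
          _ ≤ 1 * (lam⁻¹ * (M * R')) := by
              refine mul_le_mul_left (sum_le_one' ω _ ?_ 0) _
              intro l l' h1 h2
              have := isUp_prefix h1 h2 ⟨l', rfl⟩
              simpa using this
          _ = _ := one_mul _
    _ = _ := by rw [one_mul]

open Classical in
/-- **H2 in words** : `X` from `0` up to level `h` (landing `-E`), the start of `Y` at
`endp 0 π + x` with `x` of law `μ ≤ M` at level `-(j+1)`; all contacts at least `s` below. -/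
theorem win2 (ν : Measure (Row d)) [IsProbabilityMeasure ν] (u : Step d) (h N j s : ℕ)
    (E : Finset (Site d)) (μ : Site d → ℝ≥0∞)
    (hμ : ∑' x, μ x ≤ 1) (M : ℝ≥0∞) (hM : ∀ x, μ x ≤ M)
    (hμl : ∀ x, μ x ≠ 0 → lev u x = -(j : ℤ) - 1) (lam : ℝ≥0∞) (h0 : lam ≠ 0) :
    ∑' x, μ x * ∑' π, ∑' γ, (if Cond u h N s E (endp 0 π + x) π γ then aw ν π * aw ν γ else 0)
      ≤ lam + lam⁻¹ * (M * (E.card * us ν u s)) := by
  have hmeas : ∀ (x : Site d) (π γ : List (Step d)), Measurable fun ω : Environment d =>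
      (if (IsUp u h π ∧ -endp 0 π ∈ E) ∧ FHit u s (endp 0 π + x) π γ then
        lw ω 0 π * lw ω (endp 0 π + x) γ else 0) := by
    intro x π γ
    by_cases hh : (IsUp u h π ∧ -endp 0 π ∈ E) ∧ FHit u s (endp 0 π + x) π γ
    · simp only [if_pos hh]
      exact (measurable_lw _ _).mul (measurable_lw _ _)
    · simp only [if_neg hh]
      exact measurable_const
  calc _ ≤ ∑' x, μ x * ∑' π, ∑' γ, (if (IsUp u h π ∧ -endp 0 π ∈ E) ∧
            FHit u s (endp 0 π + x) π γ then
            ∫⁻ ω, lw ω 0 π * lw ω (endp 0 π + x) γ ∂(iidEnvironmentLaw ν) else 0) := by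
        refine ENNReal.tsum_le_tsum fun x => mul_le_mul_right
          (ENNReal.tsum_le_tsum fun π => ?_) _
        exact stepA ν u h N s E (endp 0 π + x) π
    _ = ∫⁻ ω, ∑' x, μ x * ∑' π, ∑' γ, (if (IsUp u h π ∧ -endp 0 π ∈ E) ∧
            FHit u s (endp 0 π + x) π γ then
            lw ω 0 π * lw ω (endp 0 π + x) γ else 0) ∂(iidEnvironmentLaw ν) := by
        rw [lintegral_tsum (fun x => ((Measurable.tsum fun π => Measurable.tsum fun γ =>
          hmeas x π γ).const_mul _).aemeasurable)]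
        refine tsum_congr fun x => ?_
        rw [lintegral_const_mul _ (Measurable.tsum fun π => Measurable.tsum fun γ =>
          hmeas x π γ)]
        rw [lintegral_tsum (fun π => (Measurable.tsum fun γ => hmeas x π γ).aemeasurable)]
        congr 1
        refine tsum_congr fun π => ?_
        rw [lintegral_tsum (fun γ => (hmeas x π γ).aemeasurable)]
        refine tsum_congr fun γ => ?_
        split_ifs <;> simp
    _ ≤ ∫⁻ ω, (lam + lam⁻¹ * (M * ∑' z, (if lev u z = (h : ℤ) - (j + 1) then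
          RR u h s E ω z else 0))) ∂(iidEnvironmentLaw ν) :=
        lintegral_mono fun ω => quench u h j s E μ hμ M hM hμl lam h0 ω
    _ = lam + lam⁻¹ * (M * ∫⁻ ω, ∑' z, (if lev u z = (h : ℤ) - (j + 1) then
          RR u h s E ω z else 0) ∂(iidEnvironmentLaw ν)) := by
        have hm : Measurable fun ω : Environment d =>
            ∑' z, (if lev u z = (h : ℤ) - (j + 1) then RR u h s E ω z else 0) := by
          refine Measurable.tsum fun z => ?_
          by_cases hz : lev u z = (h : ℤ) - (j + 1)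
          · simpa only [if_pos hz] using RR_meas u h s E z
          · simpa only [if_neg hz] using measurable_const
        rw [lintegral_add_left measurable_const, lintegral_const, measure_univ, mul_one,
          lintegral_const_mul _ (hm.const_mul _), lintegral_const_mul _ hm]
    _ ≤ _ := by
        refine add_le_add le_rfl (mul_le_mul_right (mul_le_mul_right (stepD ν u h j s E) _) _)

end Crest.Agent.R154.W22
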