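import Crest.Agent.R154.WordB_956
import Crest.Agent.R154.NBSurg_28

/-! Row 154 (helper736), ROAD 801: window lemma (2), the event walker `X` is local, the other
walker `Y` is free; one environment, words. -/

set_option autoImplicit false

namespace Crest.Agent.R154.Win736

open MeasureTheory ProbabilityTheory Crest.ProbabilityR.RandomEnvironment Crest.Agent.R154
open Crest.Agent.R154.Flux132 (lev opp)
open Crest.Agent.R154.Flux566 (lw endp sitesL measurable_lw endp_append)
open Crest.Agent.R154.NB28 (aw lint_mul mem_sitesL_iff lw_shiftEnv IsUp IsDn)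
open Crest.Agent.R154.WordB956 (PF FH Vis pf_FH pf_sum_le exists_FH FH_unique tsum_vis lw_append
  sitesL_append vis_le)
open scoped ENNReal

variable {d : ℕ}

open Classical in
/-- splitting a sum over words by a prefix -/
lemma split_le (ω : Environment d) (x : Site d) (S Rr : Set (List (Step d)))
    (C : List (Step d) → Set (List (Step d))) (K : ℝ≥0∞)
    (h : ∀ l ∈ S, ∃ a b, l = a ++ b ∧ a ∈ Rr ∧ b ∈ C a)
    (hC : ∀ a ∈ Rr, ∑' b, (if b ∈ C a then lw ω (endp x a) b else 0) ≤ K) :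
    ∑' l, (if l ∈ S then lw ω x l else 0) ≤ (∑' a, if a ∈ Rr then lw ω x a else 0) * K := by
  calc ∑' l, (if l ∈ S then lw ω x l else 0)
      ≤ ∑' l, ∑' p : List (Step d) × List (Step d),
        (if p.1 ++ p.2 = l ∧ p.1 ∈ Rr ∧ p.2 ∈ C p.1 then lw ω x l else 0) := by
        refine ENNReal.tsum_le_tsum fun l => ?_
        by_cases hl : l ∈ S
        · obtain ⟨a, b, e, ha, hb⟩ := h l hl
          rw [if_pos hl]
          refine le_trans ?_ (ENNReal.le_tsum (a, b))
          rw [if_pos ⟨e.symm, ha, hb⟩]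
        · rw [if_neg hl]; exact zero_le
    _ = ∑' p : List (Step d) × List (Step d), ∑' l,
        (if p.1 ++ p.2 = l ∧ p.1 ∈ Rr ∧ p.2 ∈ C p.1 then lw ω x l else 0) := ENNReal.tsum_comm
    _ = ∑' p : List (Step d) × List (Step d),
        (if p.1 ∈ Rr ∧ p.2 ∈ C p.1 then lw ω x (p.1 ++ p.2) else 0) := by
        refine tsum_congr fun p => ?_
        rw [tsum_eq_single (p.1 ++ p.2)]
        · simp
        · intro l hl
          rw [if_neg fun hh => hl hh.1.symm]
    _ = ∑' a, ∑' b, (if a ∈ Rr ∧ b ∈ C a then lw ω x (a ++ b) else 0) :=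
        ENNReal.tsum_prod (f := fun a b => if a ∈ Rr ∧ b ∈ C a then lw ω x (a ++ b) else 0)
    _ ≤ ∑' a, (if a ∈ Rr then lw ω x a else 0) * K := by
        refine ENNReal.tsum_le_tsum fun a => ?_
        by_cases ha : a ∈ Rr
        · rw [if_pos ha]
          refine le_trans (le_of_eq ?_) (mul_le_mul_right (hC a ha) _)
          rw [← ENNReal.tsum_mul_left]
          refine tsum_congr fun b => ?_
          by_cases hb : b ∈ C a
          · rw [if_pos ⟨ha, hb⟩, if_pos hb, lw_append]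
          · rw [if_neg fun hh => hb hh.2, if_neg hb, mul_zero]
        · rw [if_neg ha, zero_mul]
          simp [ha]
    _ = _ := ENNReal.tsum_mul_right

open Classical in
lemma tsum_aw (ν : Measure (Row d)) [IsProbabilityMeasure ν] (S : Set (List (Step d))) :
    ∑' l, (if l ∈ S then aw ν l else 0)
      = ∫⁻ ω, ∑' l, (if l ∈ S then lw ω 0 l else 0) ∂(iidEnvironmentLaw ν) := by
  rw [lintegral_tsum]
  · refine tsum_congr fun l => ?_
    by_cases hl : l ∈ S
    · simp only [if_pos hl]; rfl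
    · simp [hl]
  · intro l
    by_cases hl : l ∈ S
    · simp only [if_pos hl]; exact (measurable_lw 0 l).aemeasurable
    · simp only [if_neg hl]; exact aemeasurable_const

open Classical in
lemma aw_le_of (ν : Measure (Row d)) [IsProbabilityMeasure ν] (S Rr : Set (List (Step d)))
    (h : ∀ ω : Environment d, ∑' l, (if l ∈ S then lw ω 0 l else 0)
      ≤ ∑' l, (if l ∈ Rr then lw ω 0 l else 0)) :
    ∑' l, (if l ∈ S then aw ν l else 0) ≤ ∑' l, (if l ∈ Rr then aw ν l else 0) := by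
  rw [tsum_aw, tsum_aw]
  exact lintegral_mono h

lemma prefix_site {x : Site d} {l1 l2 : List (Step d)} (h : l2 ≠ []) :
    endp x l1 ∈ sitesL x (l1 ++ l2) := by
  rw [sitesL_append, List.mem_append]
  cases l2 with
  | nil => exact absurd rfl h
  | cons e l => exact Or.inr (by simp [sitesL])

lemma site_prefix {x z : Site d} {l : List (Step d)} (h : z ∈ sitesL x l) :
    ∃ l1 l2, l = l1 ++ l2 ∧ l2 ≠ [] ∧ endp x l1 = z := by
  induction l generalizing x with
  | nil => simp [sitesL] at h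
  | cons e l ih =>
    simp only [sitesL, List.mem_cons] at h
    rcases h with rfl | h
    · exact ⟨[], e :: l, rfl, by simp, rfl⟩
    · obtain ⟨a, b, h1, h2, h3⟩ := ih h
      exact ⟨e :: a, b, by rw [h1]; rfl, h2, h3⟩

lemma FH_suffix {V : Set (Site d)} {x : Site d} {a b : List (Step d)} (h : a ++ b ∈ FH V x) :
    b ∈ FH V (endp x a) := by
  refine ⟨by rw [← endp_append]; exact h.1, fun l1 l2 e hne => ?_⟩
  rw [← endp_append]
  exact h.2 (a ++ l1) l2 (by rw [e, List.append_assoc]) hne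

lemma FH_site {V : Set (Site d)} {x z : Site d} {l : List (Step d)} (h : l ∈ FH V x)
    (hz : z ∈ sitesL x l) : z ∉ V := by
  obtain ⟨a, b, e, hb, rfl⟩ := site_prefix hz
  exact h.2 a b e hb

lemma FH_of {V : Set (Site d)} {x : Site d} {l : List (Step d)} (h : ∀ z ∈ sitesL x l, z ∉ V)
    (h2 : endp x l ∈ V) : l ∈ FH V x :=
  ⟨h2, fun a b e hb => h _ (e ▸ prefix_site hb)⟩

/-- the free walker dips to level `-s` and comes back to level `A` -/
def Ret (u : Step d) (s : ℕ) (A : ℤ) : Set (List (Step d)) :=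
  {l | ∃ a b, l = a ++ b ∧ a ∈ FH {z | lev u z ≤ -(s : ℤ)} 0 ∧
    b ∈ FH {z | A ≤ lev u z} (endp 0 a)}

open Classical in
noncomputable def ret (ν : Measure (Row d)) [IsProbabilityMeasure ν] (u : Step d) (s : ℕ)
    (A : ℤ) : ℝ≥0∞ := ∑' l, if l ∈ Ret u s A then aw ν l else 0

open Classical in
/-- turning weight -/
noncomputable def ee (u : Step d) (A : ℤ) (E : Finset (Site d)) (ω : Environment d)
    (y v : Site d) : ℝ≥0∞ :=
  ∑' ξ, if ξ ∈ FH {z | A ≤ lev u z} v ∧ endp v ξ - y ∈ E then lw ω v ξ else 0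

lemma meas_ee (u : Step d) (A : ℤ) (E : Finset (Site d)) (y v : Site d) :
    Measurable fun ω => ee u A E ω y v := by
  classical
  unfold ee
  refine Measurable.tsum fun ξ => ?_
  by_cases h : ξ ∈ FH {z | A ≤ lev u z} v ∧ endp v ξ - y ∈ E
  · simp only [if_pos h]; exact measurable_lw v ξ
  · simp only [if_neg h]; exact measurable_const

lemma lev_a (u : Step d) (x y : Site d) : lev u (x + y) = lev u x + lev u y :=
  Flux132.lev_add u x y

lemma FH_shift {u : Step d} {A : ℤ} {v y : Site d} {ξ : List (Step d)} :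
    ξ ∈ FH {z | A ≤ lev u z} (v + y) ↔ ξ ∈ FH {z | A - lev u y ≤ lev u z} v := by
  have h : ∀ l : List (Step d), endp (v + y) l ∈ {z | A ≤ lev u z}
      ↔ endp v l ∈ {z | A - lev u y ≤ lev u z} := by
    intro l
    rw [NB28.endp_add]
    simp only [Set.mem_ofPred_eq, lev_a]
    constructor <;> intro h <;> omega
  simp only [FH, Set.mem_ofPred_eq] at h ⊢
  constructor
  · rintro ⟨h1, h2⟩
    exact ⟨(h ξ).1 h1, fun a b e hb hh => h2 a b e hb ((h a).2 hh)⟩
  · rintro ⟨h1, h2⟩
    exact ⟨(h ξ).2 h1, fun a b e hb hh => h2 a b e hb ((h a).1 hh)⟩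

lemma ee_shift (u : Step d) (A : ℤ) (E : Finset (Site d)) (ω : Environment d) (y v : Site d) :
    ee u A E ω y (v + y) = ee u (A - lev u y) E (shiftEnv y ω) 0 v := by
  classical
  unfold ee
  refine tsum_congr fun ξ => ?_
  rw [lw_shiftEnv, NB28.endp_add, add_sub_cancel_right, sub_zero]
  by_cases h : ξ ∈ FH {z | A ≤ lev u z} (v + y) ∧ endp v ξ ∈ E
  · rw [if_pos h, if_pos ⟨FH_shift.1 h.1, h.2⟩]
  · rw [if_neg h, if_neg fun hh => h ⟨FH_shift.2 hh.1, hh.2⟩]


open Classical in
/-- local words -/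
def PX (u : Step d) (h : ℕ) (E : Finset (Site d)) : Set (List (Step d)) :=
  {π | IsUp u h π ∧ endp 0 π ∈ E}

lemma pf_up (u : Step d) (h : ℕ) : PF {π : List (Step d) | IsUp u h π} := by
  intro l hl l' hl'
  have := NB28.isUp_prefix hl hl' (List.prefix_append l l')
  have h2 : l ++ [] = l ++ l' := by rw [List.append_nil]; exact this
  exact (List.append_cancel_left h2).symm

/-- level of the sites of an up word started at `y` -/
lemma up_suffix {u : Step d} {h : ℕ} {a b : List (Step d)} (hU : IsUp u h (a ++ b)) :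
    b ∈ FH {z | (h : ℤ) ≤ lev u z} (endp 0 a) := by
  refine FH_suffix (FH_of (fun z hz => ?_) ?_)
  · have := (hU.1 z hz).2
    simp only [Set.mem_ofPred_eq, not_le]; exact this
  · simp only [Set.mem_ofPred_eq]; exact hU.2.ge

open Classical in
/-- part (a), quenched -/
lemma part_a (u : Step d) (h : ℕ) (E : Finset (Site d)) (lam : ℝ≥0∞) (ω : Environment d) :
    ∑' π, (if π ∈ PX u h E ∧ ∃ v ∈ sitesL 0 π, ee u h E ω 0 v ≤ lam then lw ω 0 π else 0)
      ≤ lam := by
  refine le_trans (ENNReal.tsum_le_tsum fun π => ?_)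
    (vis_le ω 0 (PX u h E) {v | ee u h E ω 0 v ≤ lam} lam ?_)
  · by_cases hπ : π ∈ PX u h E ∧ ∃ v ∈ sitesL 0 π, ee u h E ω 0 v ≤ lam
    · rw [if_pos hπ, if_pos]
      refine ⟨hπ.1, ?_⟩
      obtain ⟨v, hv, hv2⟩ := hπ.2
      obtain ⟨a, b, e, _, hab⟩ := site_prefix hv
      exact ⟨a, b, e, by rw [hab]; exact hv2⟩
    · rw [if_neg hπ]; exact zero_le
  · intro l1 hl1
    refine le_trans ?_ hl1.1
    unfold ee
    refine ENNReal.tsum_le_tsum fun l2 => ?_
    by_cases h2 : l1 ++ l2 ∈ PX u h E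
    · rw [if_pos h2, if_pos]
      refine ⟨up_suffix h2.1, ?_⟩
      rw [sub_zero, ← endp_append]; exact h2.2
    · rw [if_neg h2]; exact zero_le

open Classical in
/-- return words landing in `y + E` -/
noncomputable def rr (u : Step d) (s : ℕ) (A : ℤ) (E : Finset (Site d)) (ω : Environment d)
    (y : Site d) : ℝ≥0∞ :=
  ∑' η, if η ∈ Ret u s A ∧ endp 0 η - y ∈ E then lw ω 0 η else 0

lemma meas_rr (u : Step d) (s : ℕ) (A : ℤ) (E : Finset (Site d)) (y : Site d) :
    Measurable fun ω => rr u s A E ω y := by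
  classical
  unfold rr
  refine Measurable.tsum fun ξ => ?_
  by_cases h : ξ ∈ Ret u s A ∧ endp 0 ξ - y ∈ E
  · simp only [if_pos h]; exact measurable_lw 0 ξ
  · simp only [if_neg h]; exact measurable_const

open Classical in
lemma sum_rr (ν : Measure (Row d)) [IsProbabilityMeasure ν] (u : Step d) (s : ℕ) (A : ℤ)
    (E : Finset (Site d)) :
    ∑' y, ∫⁻ ω, rr u s A E ω y ∂(iidEnvironmentLaw ν) = E.card * ret ν u s A := by
  rw [← lintegral_tsum fun y => (meas_rr u s A E y).aemeasurable]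
  have h1 : ∀ ω : Environment d, ∑' y, rr u s A E ω y
      = ∑' η, (if η ∈ Ret u s A then lw ω 0 η else 0) * E.card := by
    intro ω
    unfold rr
    rw [ENNReal.tsum_comm]
    refine tsum_congr fun η => ?_
    by_cases h : η ∈ Ret u s A
    · simp only [h, true_and, if_true]
      rw [← (Equiv.subLeft (endp 0 η)).tsum_eq]
      simp only [Equiv.subLeft_apply, sub_sub_cancel]
      rw [tsum_eq_sum (s := E)]
      · rw [Finset.sum_congr rfl fun y hy => if_pos hy, Finset.sum_const, nsmul_eq_mul, mul_comm]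
      · intro y hy
        rw [if_neg hy]
    · simp [h]
  simp_rw [h1]
  simp_rw [ENNReal.tsum_mul_right]
  rw [lintegral_mul_const' _ _ (ENNReal.natCast_ne_top _), ← tsum_aw, mul_comm]
  rfl

/-- the free words after the first hit of `V`, deep, not returned -/
def R2 (u : Step d) (s : ℕ) (A : ℤ) (V : Set (Site d)) : Set (List (Step d)) :=
  {γ | γ ∈ FH V 0 ∧ lev u (endp 0 γ) ≤ -(s : ℤ) ∧ ¬ ∃ a b, γ = a ++ b ∧ a ∈ Ret u s A}

lemma ret_of_R2 {u : Step d} {s : ℕ} {A : ℤ} (hA : -(s : ℤ) < A) {V : Set (Site d)}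
    {γ ξ : List (Step d)} (hγ : γ ∈ R2 u s A V)
    (hξ : ξ ∈ FH {z | A ≤ lev u z} (endp 0 γ)) : γ ++ ξ ∈ Ret u s A := by
  obtain ⟨h1, h2, h3⟩ := hγ
  obtain ⟨a, b, hab, ha⟩ := exists_FH (D := {z | lev u z ≤ -(s : ℤ)}) (x := 0) (l := γ)
    ⟨γ, [], by simp, h2⟩
  refine ⟨a, b ++ ξ, by rw [hab, List.append_assoc], ha, ?_⟩
  refine ⟨by rw [endp_append, ← endp_append a b, ← hab]; exact hξ.1, fun l1 l2 e hne hl => ?_⟩
  -- an early return
  rcases List.append_eq_append_iff.1 e with ⟨c, hc1, hc2⟩ | ⟨c, hc1, hc2⟩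
  · -- l1 = b ++ c
    refine hξ.2 c l2 hc2 hne ?_
    have e2 : endp (endp 0 γ) c = endp (endp 0 a) l1 := by
      rw [hab, hc1, endp_append a b 0, endp_append b c (endp 0 a)]
    rw [e2]; exact hl
  · -- b = l1 ++ c
    obtain ⟨m1, m2, hm, hm1⟩ := exists_FH (D := {z | A ≤ lev u z}) (x := endp 0 a) (l := b)
      ⟨l1, c, hc1, hl⟩
    exact h3 ⟨a ++ m1, m2, by rw [hab, hm, List.append_assoc], a, m1, rfl, ha, hm1⟩

open Classical in
/-- part (b), quenched -/
lemma part_b (u : Step d) (s : ℕ) (A : ℤ) (hA : -(s : ℤ) < A) (E : Finset (Site d))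
    (V : Set (Site d)) (ω : Environment d) (y : Site d) :
    ∑' γ, (if γ ∈ R2 u s A V then lw ω 0 γ * ee u A E ω y (endp 0 γ) else 0)
      ≤ rr u s A E ω y := by
  unfold rr
  have hle := tsum_vis V 0 (fun η => if η ∈ Ret u s A ∧ endp 0 η - y ∈ E then lw ω 0 η else 0)
  calc ∑' γ, (if γ ∈ R2 u s A V then lw ω 0 γ * ee u A E ω y (endp 0 γ) else 0)
      ≤ ∑' γ, (if γ ∈ FH V 0 then ∑' ξ, (if γ ++ ξ ∈ Ret u s A ∧ endp 0 (γ ++ ξ) - y ∈ E
          then lw ω 0 (γ ++ ξ) else 0) else 0) := by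
        refine ENNReal.tsum_le_tsum fun γ => ?_
        by_cases hγ : γ ∈ R2 u s A V
        · rw [if_pos hγ, if_pos hγ.1]
          unfold ee
          rw [← ENNReal.tsum_mul_left]
          refine ENNReal.tsum_le_tsum fun ξ => ?_
          by_cases hξ : ξ ∈ FH {z | A ≤ lev u z} (endp 0 γ) ∧ endp (endp 0 γ) ξ - y ∈ E
          · rw [if_pos hξ, if_pos ⟨ret_of_R2 hA hγ hξ.1, by rw [endp_append]; exact hξ.2⟩,
              lw_append]
          · rw [if_neg hξ, mul_zero]; exact zero_le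
        · rw [if_neg hγ]; exact zero_le
    _ = _ := hle.symm
    _ ≤ _ := by
        refine ENNReal.tsum_le_tsum fun η => ?_
        by_cases hη : η ∈ Vis V 0
        · rw [if_pos hη]
        · rw [if_neg hη]; exact zero_le


open Classical in
/-- one pair `(y, π)` -/
lemma one_pair (ν : Measure (Row d)) [IsProbabilityMeasure ν] (u : Step d) (s h h' : ℕ) (A : ℤ)
    (hA : -(s : ℤ) < A) (E : Finset (Site d)) (lam : ℝ≥0∞) (h0 : lam ≠ 0) (ht : lam ≠ ⊤)
    (y : Site d) (π : List (Step d)) :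
    aw ν π * (∑' γ, if IsDn u h' γ ∧ (∃ z ∈ sitesL y π, z ∈ sitesL 0 γ) ∧
      (∀ z ∈ sitesL y π, z ∈ sitesL 0 γ → lev u z ≤ -(s : ℤ)) then aw ν γ else 0)
      ≤ aw ν π * ret ν u s A
        + (∫⁻ ω, (if ∃ v ∈ sitesL y π, ee u A E ω y v ≤ lam then lw ω y π else 0)
            ∂(iidEnvironmentLaw ν)
          + ∫⁻ ω, lw ω y π * (rr u s A E ω y / lam) ∂(iidEnvironmentLaw ν)) := by
  set V : Set (Site d) := {z | z ∈ sitesL y π} with hV
  set SG : Set (List (Step d)) := {γ | IsDn u h' γ ∧ (∃ z ∈ sitesL y π, z ∈ sitesL 0 γ) ∧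
      (∀ z ∈ sitesL y π, z ∈ sitesL 0 γ → lev u z ≤ -(s : ℤ))} with hSG
  set R1 : Set (List (Step d)) := {γ | γ ∈ FH V 0 ∧ lev u (endp 0 γ) ≤ -(s : ℤ)} with hR1
  have step1 : ∑' γ, (if γ ∈ SG then aw ν γ else 0) ≤ ∑' γ, (if γ ∈ R1 then aw ν γ else 0) := by
    have key := aw_le_of ν SG R1 ?_
    · convert key
    intro ω
    refine le_trans (split_le ω 0 SG R1 (fun a => FH {z | lev u z ≤ -(h' : ℤ)} (endp 0 a)) 1
      ?_ fun a _ => pf_sum_le ω _ (pf_FH _ _)) (le_of_eq (mul_one _))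
    rintro γ ⟨hD, ⟨z, hz1, hz2⟩, hall⟩
    obtain ⟨c1, c2, hc, hcne, hcz⟩ := site_prefix hz2
    obtain ⟨a, b, hab, ha⟩ := exists_FH (D := V) (x := 0) (l := γ) ⟨c1, c2, hc, by
      rw [hcz]; exact hz1⟩
    have hbne : b ≠ [] := by
      rintro rfl
      rw [List.append_nil] at hab
      subst hab
      exact ha.2 c1 c2 hc hcne (by rw [hcz]; exact hz1)
    have hsite : endp 0 a ∈ sitesL 0 γ := by rw [hab]; exact prefix_site hbne
    refine ⟨a, b, hab, ⟨ha, hall _ ha.1 hsite⟩, ?_⟩
    refine FH_suffix (x := 0) (a := a) ?_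
    rw [← hab]
    refine FH_of (fun z hz => ?_) ?_
    · have := (hD.1 z hz).1
      simp only [Set.mem_ofPred_eq, not_le]; exact this
    · simp only [Set.mem_ofPred_eq]; exact hD.2.le
  have step2 : ∑' γ, (if γ ∈ R1 then aw ν γ else 0)
      ≤ ret ν u s A + ∑' γ, (if γ ∈ R2 u s A V then aw ν γ else 0) := by
    have e1 : ∑' γ, (if γ ∈ R1 then aw ν γ else 0)
        ≤ ∑' γ, (if γ ∈ {γ | γ ∈ FH V 0 ∧ ∃ a b, γ = a ++ b ∧ a ∈ Ret u s A} then aw ν γ else 0)
          + ∑' γ, (if γ ∈ R2 u s A V then aw ν γ else 0) := by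
      rw [← ENNReal.tsum_add]
      refine ENNReal.tsum_le_tsum fun γ => ?_
      by_cases hγ : γ ∈ R1
      · by_cases hr : ∃ a b, γ = a ++ b ∧ a ∈ Ret u s A
        · rw [if_pos hγ, if_pos (show γ ∈ {γ | γ ∈ FH V 0 ∧ ∃ a b, γ = a ++ b ∧ a ∈ Ret u s A}
            from ⟨hγ.1, hr⟩)]
          exact le_self_add
        · rw [if_pos hγ, if_pos (show γ ∈ R2 u s A V from ⟨hγ.1, hγ.2, hr⟩)]
          exact le_add_self
      · rw [if_neg hγ]; exact zero_le
    refine e1.trans (add_le_add ?_ le_rfl)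
    have key := aw_le_of ν {γ | γ ∈ FH V 0 ∧ ∃ a b, γ = a ++ b ∧ a ∈ Ret u s A} (Ret u s A) ?_
    · change _ ≤ ∑' l, (if l ∈ Ret u s A then aw ν l else 0)
      convert key
    intro ω
    refine le_trans (split_le ω 0 _ (Ret u s A) (fun a => FH V (endp 0 a)) 1
      ?_ fun a _ => pf_sum_le ω _ (pf_FH _ _)) (le_of_eq (mul_one _))
    rintro γ ⟨hF, a, b, hab, ha⟩
    exact ⟨a, b, hab, ha, FH_suffix (hab ▸ hF)⟩
  have step3 : aw ν π * ∑' γ, (if γ ∈ R2 u s A V then aw ν γ else 0)
      = ∫⁻ ω, ∑' γ, (if γ ∈ R2 u s A V then lw ω y π * lw ω 0 γ else 0)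
        ∂(iidEnvironmentLaw ν) := by
    rw [lintegral_tsum, ← ENNReal.tsum_mul_left]
    · refine tsum_congr fun γ => ?_
      by_cases hγ : γ ∈ R2 u s A V
      · simp only [if_pos hγ]
        rw [lint_mul ν y 0 π γ]
        intro z hz hz2
        exact FH_site hγ.1 hz2 hz
      · simp [hγ]
    · intro γ
      by_cases hγ : γ ∈ R2 u s A V
      · simp only [if_pos hγ]
        exact ((measurable_lw y π).mul (measurable_lw 0 γ)).aemeasurable
      · simp only [if_neg hγ]; exact aemeasurable_const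
  calc aw ν π * (∑' γ, if IsDn u h' γ ∧ (∃ z ∈ sitesL y π, z ∈ sitesL 0 γ) ∧
      (∀ z ∈ sitesL y π, z ∈ sitesL 0 γ → lev u z ≤ -(s : ℤ)) then aw ν γ else 0)
      ≤ aw ν π * (ret ν u s A + ∑' γ, (if γ ∈ R2 u s A V then aw ν γ else 0)) :=
        mul_le_mul_right (step1.trans step2) _
    _ = aw ν π * ret ν u s A + ∫⁻ ω, ∑' γ, (if γ ∈ R2 u s A V then lw ω y π * lw ω 0 γ else 0)
        ∂(iidEnvironmentLaw ν) := by rw [mul_add, step3]
    _ ≤ aw ν π * ret ν u s A + ∫⁻ ω,
          ((if ∃ v ∈ sitesL y π, ee u A E ω y v ≤ lam then lw ω y π else 0)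
            + lw ω y π * (rr u s A E ω y / lam)) ∂(iidEnvironmentLaw ν) := by
        refine add_le_add le_rfl (lintegral_mono fun ω => ?_)
        have hpt : ∀ γ, (if γ ∈ R2 u s A V then lw ω y π * lw ω 0 γ else 0)
            ≤ lw ω y π * (if γ ∈ FH V 0 ∧ ee u A E ω y (endp 0 γ) ≤ lam then lw ω 0 γ else 0)
              + lw ω y π * ((if γ ∈ R2 u s A V then lw ω 0 γ * ee u A E ω y (endp 0 γ) else 0)
                / lam) := by
          intro γ
          by_cases hγ : γ ∈ R2 u s A V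
          · rw [if_pos hγ]
            by_cases he : ee u A E ω y (endp 0 γ) ≤ lam
            · rw [if_pos ⟨hγ.1, he⟩]; exact le_self_add
            · refine le_add_left ?_
              rw [if_pos hγ]
              refine mul_le_mul_right ?_ _
              rw [mul_div_assoc]
              refine le_trans (le_of_eq (mul_one _).symm) (mul_le_mul_right ?_ _)
              rw [ENNReal.le_div_iff_mul_le (Or.inl h0) (Or.inl ht), one_mul]
              exact (not_le.1 he).le
          · rw [if_neg hγ]; exact zero_le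
        refine (ENNReal.tsum_le_tsum hpt).trans ?_
        rw [ENNReal.tsum_add, ENNReal.tsum_mul_left, ENNReal.tsum_mul_left]
        refine add_le_add ?_ ?_
        · by_cases hex : ∃ v ∈ sitesL y π, ee u A E ω y v ≤ lam
          · rw [if_pos hex]
            refine le_trans (mul_le_mul_right ?_ _) (le_of_eq (mul_one _))
            refine le_trans (ENNReal.tsum_le_tsum fun γ => ?_) (pf_sum_le ω 0 (pf_FH V 0))
            by_cases hγ : γ ∈ FH V 0
            · rw [if_pos hγ]; split_ifs <;> simp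
            · rw [if_neg hγ, if_neg fun hh => hγ hh.1]
          · rw [if_neg hex]
            have : ∀ γ : List (Step d), (if γ ∈ FH V 0 ∧ ee u A E ω y (endp 0 γ) ≤ lam
                then lw ω 0 γ else 0) = 0 := fun γ =>
              if_neg fun hh => hex ⟨_, hh.1.1, hh.2⟩
            simp [this]
        · refine mul_le_mul_right ?_ _
          simp only [div_eq_mul_inv]
          rw [ENNReal.tsum_mul_right]
          exact mul_le_mul_left (part_b u s A hA E V ω y) _
    _ = _ := by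
        rw [lintegral_add_right]
        exact (measurable_lw y π).mul ((meas_rr u s A E y).div_const lam)


open Classical in
/-- **window lemma (2), words, `Y` anchored at `0`, top of `X` at level `A`.** -/
theorem win2 (ν : Measure (Row d)) [IsProbabilityMeasure ν] (u : Step d) (s h h' : ℕ) (A : ℤ)
    (hA : -(s : ℤ) < A) (E : Finset (Site d)) (μ : Site d → ℝ≥0∞) (M lam : ℝ≥0∞)
    (hμ : ∑' t, μ t ≤ 1) (hM : ∀ t, μ t ≤ M) (h0 : lam ≠ 0) (ht : lam ≠ ⊤) :
    ∑' y, ∑' π, ∑' γ, (if lev u y = A - h ∧ IsUp u h π ∧ endp 0 π ∈ E ∧ IsDn u h' γ ∧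
        (∃ z ∈ sitesL y π, z ∈ sitesL 0 γ) ∧
        (∀ z ∈ sitesL y π, z ∈ sitesL 0 γ → lev u z ≤ -(s : ℤ))
      then μ (y + endp 0 π) * (aw ν π * aw ν γ) else 0)
      ≤ lam + M * E.card * ret ν u s A / lam + ret ν u s A := by
  have hshift : ∀ z : Site d, ∑' y, μ (y + z) ≤ 1 := fun z =>
    ((Equiv.addRight z).tsum_eq μ).trans_le hμ
  have hup : ∀ (ω : Environment d) (y : Site d), ∑' π, (if π ∈ PX u h E then lw ω y π else 0) ≤ 1 :=
    fun ω y => pf_sum_le ω y ((pf_up u h).mono fun π hπ => hπ.1)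
  have hawup : ∑' π, (if π ∈ PX u h E then aw ν π else 0) ≤ 1 := by
    rw [tsum_aw]
    refine (lintegral_mono fun ω => hup ω 0).trans ?_
    simp
  -- reduce to pairs
  have h1 : ∀ y π, ∑' γ, (if lev u y = A - h ∧ IsUp u h π ∧ endp 0 π ∈ E ∧ IsDn u h' γ ∧
        (∃ z ∈ sitesL y π, z ∈ sitesL 0 γ) ∧
        (∀ z ∈ sitesL y π, z ∈ sitesL 0 γ → lev u z ≤ -(s : ℤ))
      then μ (y + endp 0 π) * (aw ν π * aw ν γ) else 0)
      ≤ (if π ∈ PX u h E then μ (y + endp 0 π) * aw ν π else 0) * ret ν u s A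
        + ((if lev u y = A - h ∧ π ∈ PX u h E then μ (y + endp 0 π) *
            ∫⁻ ω, (if ∃ v ∈ sitesL y π, ee u A E ω y v ≤ lam then lw ω y π else 0)
              ∂(iidEnvironmentLaw ν) else 0)
          + (if π ∈ PX u h E then M *
            ∫⁻ ω, lw ω y π * (rr u s A E ω y / lam) ∂(iidEnvironmentLaw ν) else 0)) := by
    intro y π
    by_cases hy : lev u y = A - h ∧ π ∈ PX u h E
    · rw [if_pos hy, if_pos hy.2, if_pos hy.2]
      have e : ∀ γ, (if lev u y = A - h ∧ IsUp u h π ∧ endp 0 π ∈ E ∧ IsDn u h' γ ∧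
          (∃ z ∈ sitesL y π, z ∈ sitesL 0 γ) ∧
          (∀ z ∈ sitesL y π, z ∈ sitesL 0 γ → lev u z ≤ -(s : ℤ))
          then μ (y + endp 0 π) * (aw ν π * aw ν γ) else 0)
          = μ (y + endp 0 π) * (aw ν π * (if IsDn u h' γ ∧
            (∃ z ∈ sitesL y π, z ∈ sitesL 0 γ) ∧
            (∀ z ∈ sitesL y π, z ∈ sitesL 0 γ → lev u z ≤ -(s : ℤ)) then aw ν γ else 0)) := by
        intro γ
        by_cases hγ : IsDn u h' γ ∧ (∃ z ∈ sitesL y π, z ∈ sitesL 0 γ) ∧
            (∀ z ∈ sitesL y π, z ∈ sitesL 0 γ → lev u z ≤ -(s : ℤ))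
        · rw [if_pos hγ, if_pos ⟨hy.1, hy.2.1, hy.2.2, hγ⟩]
        · rw [if_neg hγ, if_neg fun hh => hγ hh.2.2.2, mul_zero, mul_zero]
      rw [tsum_congr e, ENNReal.tsum_mul_left, ENNReal.tsum_mul_left]
      refine (mul_le_mul_right (one_pair ν u s h h' A hA E lam h0 ht y π) _).trans ?_
      rw [mul_add, mul_add, ← mul_assoc]
      refine add_le_add le_rfl (add_le_add le_rfl ?_)
      exact mul_le_mul_left (hM _) _
    · have e : ∀ γ, (if lev u y = A - h ∧ IsUp u h π ∧ endp 0 π ∈ E ∧ IsDn u h' γ ∧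
          (∃ z ∈ sitesL y π, z ∈ sitesL 0 γ) ∧
          (∀ z ∈ sitesL y π, z ∈ sitesL 0 γ → lev u z ≤ -(s : ℤ))
          then μ (y + endp 0 π) * (aw ν π * aw ν γ) else 0) = 0 := fun γ =>
        if_neg fun hh => hy ⟨hh.1, hh.2.1, hh.2.2.1⟩
      simp only [e, tsum_zero]
      exact zero_le
  refine (ENNReal.tsum_le_tsum fun y => ENNReal.tsum_le_tsum fun π => h1 y π).trans ?_
  simp_rw [ENNReal.tsum_add, ENNReal.tsum_mul_right]
  -- the returned part
  have p1 : (∑' y, ∑' π, (if π ∈ PX u h E then μ (y + endp 0 π) * aw ν π else 0)) ≤ 1 := by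
    rw [ENNReal.tsum_comm]
    refine le_trans (ENNReal.tsum_le_tsum fun π => ?_) hawup
    by_cases hπ : π ∈ PX u h E
    · simp only [if_pos hπ]
      rw [ENNReal.tsum_mul_right]
      exact (mul_le_mul_left (hshift _) _).trans (one_mul _).le
    · simp [hπ]
  -- part (a)
  have p2 : (∑' y, ∑' π, (if lev u y = A - h ∧ π ∈ PX u h E then μ (y + endp 0 π) *
            ∫⁻ ω, (if ∃ v ∈ sitesL y π, ee u A E ω y v ≤ lam then lw ω y π else 0)
              ∂(iidEnvironmentLaw ν) else 0)) ≤ lam := by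
    have hsh : ∀ (y : Site d) (π : List (Step d)), lev u y = A - h →
        ∫⁻ ω, (if ∃ v ∈ sitesL y π, ee u A E ω y v ≤ lam then lw ω y π else 0)
              ∂(iidEnvironmentLaw ν)
        = ∫⁻ ω, (if ∃ v ∈ sitesL 0 π, ee u h E ω 0 v ≤ lam then lw ω 0 π else 0)
              ∂(iidEnvironmentLaw ν) := by
      intro y π hy
      have hms : MeasurableSet {ω : Environment d | ∃ v ∈ sitesL 0 π, ee u h E ω 0 v ≤ lam} := by
        have : {ω : Environment d | ∃ v ∈ sitesL 0 π, ee u h E ω 0 v ≤ lam}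
            = ⋃ v ∈ {v | v ∈ sitesL 0 π}, {ω | ee u h E ω 0 v ≤ lam} := by
          ext ω; simp
        rw [this]
        exact MeasurableSet.biUnion (Set.to_countable _) fun v _ =>
          measurableSet_le (meas_ee u h E 0 v) measurable_const
      have hmf : Measurable fun ω : Environment d =>
          (if ∃ v ∈ sitesL 0 π, ee u h E ω 0 v ≤ lam then lw ω 0 π else 0) :=
        Measurable.ite hms (measurable_lw 0 π) measurable_const
      rw [← (Q561.iid_shift ν y).lintegral_comp hmf]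
      refine lintegral_congr fun ω => ?_
      have e1 : (∃ v ∈ sitesL y π, ee u A E ω y v ≤ lam)
          ↔ ∃ v ∈ sitesL 0 π, ee u h E (shiftEnv y ω) 0 v ≤ lam := by
        have e2 : A - lev u y = h := by rw [hy]; ring
        constructor
        · rintro ⟨v, hv, hv2⟩
          refine ⟨v - y, (mem_sitesL_iff π y v).1 hv, ?_⟩
          rw [← e2, ← ee_shift, sub_add_cancel]; exact hv2
        · rintro ⟨v, hv, hv2⟩
          refine ⟨v + y, (mem_sitesL_iff π y _).2 (by rwa [add_sub_cancel_right]), ?_⟩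
          rw [ee_shift, e2]; exact hv2
      rw [lw_shiftEnv, zero_add]
      by_cases hh : ∃ v ∈ sitesL y π, ee u A E ω y v ≤ lam
      · rw [if_pos hh, if_pos (e1.1 hh)]
      · rw [if_neg hh, if_neg fun h2 => hh (e1.2 h2)]
    rw [ENNReal.tsum_comm]
    calc ∑' π, ∑' y, (if lev u y = A - h ∧ π ∈ PX u h E then μ (y + endp 0 π) *
            ∫⁻ ω, (if ∃ v ∈ sitesL y π, ee u A E ω y v ≤ lam then lw ω y π else 0)
              ∂(iidEnvironmentLaw ν) else 0)
        ≤ ∑' π, (if π ∈ PX u h E then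
            ∫⁻ ω, (if ∃ v ∈ sitesL 0 π, ee u h E ω 0 v ≤ lam then lw ω 0 π else 0)
              ∂(iidEnvironmentLaw ν) else 0) := by
          refine ENNReal.tsum_le_tsum fun π => ?_
          by_cases hπ : π ∈ PX u h E
          · rw [if_pos hπ]
            refine le_trans (ENNReal.tsum_le_tsum fun y => ?_)
              (le_trans (le_of_eq ENNReal.tsum_mul_right)
                (le_trans (mul_le_mul_left (hshift (endp 0 π)) _) (one_mul _).le))
            by_cases hy : lev u y = A - h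
            · rw [if_pos ⟨hy, hπ⟩, hsh y π hy]
            · rw [if_neg fun hh => hy hh.1]; exact zero_le
          · simp [hπ]
      _ = ∫⁻ ω, ∑' π, (if π ∈ PX u h E then
            (if ∃ v ∈ sitesL 0 π, ee u h E ω 0 v ≤ lam then lw ω 0 π else 0) else 0)
              ∂(iidEnvironmentLaw ν) := by
          rw [lintegral_tsum]
          · refine tsum_congr fun π => ?_
            by_cases hπ : π ∈ PX u h E <;> simp [hπ]
          · intro π
            by_cases hπ : π ∈ PX u h E
            · simp only [if_pos hπ]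
              have hms : MeasurableSet {ω : Environment d |
                  ∃ v ∈ sitesL 0 π, ee u h E ω 0 v ≤ lam} := by
                have : {ω : Environment d | ∃ v ∈ sitesL 0 π, ee u h E ω 0 v ≤ lam}
                    = ⋃ v ∈ {v | v ∈ sitesL 0 π}, {ω | ee u h E ω 0 v ≤ lam} := by
                  ext ω; simp
                rw [this]
                exact MeasurableSet.biUnion (Set.to_countable _) fun v _ =>
                  measurableSet_le (meas_ee u h E 0 v) measurable_const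
              exact (Measurable.ite hms (measurable_lw 0 π) measurable_const).aemeasurable
            · simp only [if_neg hπ]; exact aemeasurable_const
      _ ≤ ∫⁻ _, lam ∂(iidEnvironmentLaw ν) := by
          refine lintegral_mono fun ω => ?_
          refine le_trans (le_of_eq (tsum_congr fun π => ?_)) (part_a u h E lam ω)
          by_cases hπ : π ∈ PX u h E
          · by_cases hv : ∃ v ∈ sitesL 0 π, ee u h E ω 0 v ≤ lam
            · rw [if_pos hπ, if_pos hv, if_pos ⟨hπ, hv⟩]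
            · rw [if_pos hπ, if_neg hv, if_neg fun hh => hv hh.2]
          · rw [if_neg hπ, if_neg fun hh => hπ hh.1]
      _ = lam := by simp
  -- part (b)
  have p3 : (∑' y, ∑' π, (if π ∈ PX u h E then M *
            ∫⁻ ω, lw ω y π * (rr u s A E ω y / lam) ∂(iidEnvironmentLaw ν) else 0))
      ≤ M * E.card * ret ν u s A / lam := by
    have e1 : ∀ y, ∑' π, (if π ∈ PX u h E then M *
            ∫⁻ ω, lw ω y π * (rr u s A E ω y / lam) ∂(iidEnvironmentLaw ν) else 0)
        ≤ M * ((∫⁻ ω, rr u s A E ω y ∂(iidEnvironmentLaw ν)) / lam) := by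
      intro y
      have e2 : ∀ π, (if π ∈ PX u h E then M *
            ∫⁻ ω, lw ω y π * (rr u s A E ω y / lam) ∂(iidEnvironmentLaw ν) else 0)
          = M * ∫⁻ ω, (if π ∈ PX u h E then lw ω y π else 0) * (rr u s A E ω y / lam)
            ∂(iidEnvironmentLaw ν) := by
        intro π
        by_cases hπ : π ∈ PX u h E <;> simp [hπ]
      rw [tsum_congr e2, ENNReal.tsum_mul_left]
      refine mul_le_mul_right ?_ _
      rw [← lintegral_tsum]
      · simp_rw [ENNReal.tsum_mul_right]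
        rw [div_eq_mul_inv, ← lintegral_mul_const' _ _ (ENNReal.inv_ne_top.2 h0)]
        refine lintegral_mono fun ω => ?_
        refine (mul_le_mul_left (hup ω y) _).trans ?_
        rw [one_mul, div_eq_mul_inv]
      · intro π
        by_cases hπ : π ∈ PX u h E
        · simp only [if_pos hπ]
          exact ((measurable_lw y π).mul ((meas_rr u s A E y).div_const lam)).aemeasurable
        · simp only [if_neg hπ, zero_mul]; exact aemeasurable_const
    refine (ENNReal.tsum_le_tsum e1).trans (le_of_eq ?_)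
    rw [ENNReal.tsum_mul_left]
    simp only [div_eq_mul_inv]
    rw [ENNReal.tsum_mul_right, sum_rr]
    ring
  calc (∑' y, ∑' π, (if π ∈ PX u h E then μ (y + endp 0 π) * aw ν π else 0)) * ret ν u s A
        + ((∑' y, ∑' π, (if lev u y = A - h ∧ π ∈ PX u h E then μ (y + endp 0 π) *
            ∫⁻ ω, (if ∃ v ∈ sitesL y π, ee u A E ω y v ≤ lam then lw ω y π else 0)
              ∂(iidEnvironmentLaw ν) else 0))
          + ∑' y, ∑' π, (if π ∈ PX u h E then M *
            ∫⁻ ω, lw ω y π * (rr u s A E ω y / lam) ∂(iidEnvironmentLaw ν) else 0))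
      ≤ 1 * ret ν u s A + (lam + M * E.card * ret ν u s A / lam) :=
        add_le_add (mul_le_mul_left p1 _) (add_le_add p2 p3)
    _ = _ := by rw [one_mul]; ring

end Crest.Agent.R154.Win736
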