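import Crest.Agent.R154.Win3_767

/-! Row 154, T0219, ROAD 801 (order (2)): the window lemma when the explored (local) walker carries
the tie (helper767). -/

set_option autoImplicit false

open MeasureTheory ProbabilityTheory Crest.ProbabilityR.RandomEnvironment
open scoped ENNReal

namespace Crest.Agent.R154.Win2767

open Flux566 Win3767
open NB28 (aw aw_shift lint_mul lw_shiftEnv mem_sitesL_iff)

variable {d : ℕ}

/-- relative completions: `C0 (v - a) s` -/
def Cr (C0 : Site d → List (Step d) → Prop) (a : Site d) : Site d → List (Step d) → Prop :=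
  fun v s => C0 (v - a) s

lemma measurable_ea (C : Site d → List (Step d) → Prop) (E : Set (Site d)) (a v : Site d) :
    Measurable fun ω : Environment d => ea C E ω a v :=
  Measurable.ennreal_tsum fun s => measurable_ind _ (measurable_lw v s)

lemma endp_shift (a x : Site d) (l : List (Step d)) : endp x l - a = endp (x - a) l := by
  rw [endp_eq_add l x, endp_eq_add l (x - a)]
  abel

lemma ea_shift (C0 : Site d → List (Step d) → Prop) (E : Set (Site d)) (ω : Environment d)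
    (a v : Site d) :
    ea (Cr C0 a) E ω a v = ea (Cr C0 0) E (shiftEnv a ω) 0 (v - a) := by
  unfold ea Cr
  refine tsum_congr fun s => ?_
  rw [lw_shiftEnv, sub_add_cancel, sub_zero, sub_zero, endp_shift]

/-- bad local words -/
def bad (L : List (Step d) → Prop) (C0 : Site d → List (Step d) → Prop) (E : Set (Site d))
    (lam : ℝ≥0∞) (a : Site d) (ω : Environment d) (r : List (Step d)) : Prop :=
  L r ∧ endp 0 r ∈ E ∧ ∃ v ∈ sitesL a r, ea (Cr C0 a) E ω a v ≤ lam

lemma bad_shift (L : List (Step d) → Prop) (C0 : Site d → List (Step d) → Prop)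
    (E : Set (Site d)) (lam : ℝ≥0∞) (a : Site d) (ω : Environment d) (r : List (Step d)) :
    bad L C0 E lam a ω r ↔ bad L C0 E lam 0 (shiftEnv a ω) r := by
  unfold bad
  refine and_congr_right fun _ => and_congr_right fun _ => ⟨?_, ?_⟩
  · rintro ⟨v, hv, h⟩
    exact ⟨v - a, (mem_sitesL_iff r a v).1 hv, by rw [← ea_shift]; exact h⟩
  · rintro ⟨v, hv, h⟩
    refine ⟨v + a, (mem_sitesL_iff r a (v + a)).2 (by simpa using hv), ?_⟩
    rw [ea_shift, add_sub_cancel_right]
    exact h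

lemma measurableSet_bad (L : List (Step d) → Prop) (C0 : Site d → List (Step d) → Prop)
    (E : Set (Site d)) (lam : ℝ≥0∞) (a : Site d) (r : List (Step d)) :
    MeasurableSet {ω | bad L C0 E lam a ω r} := by
  unfold bad
  by_cases h : L r ∧ endp 0 r ∈ E
  · have : {ω : Environment d | L r ∧ endp 0 r ∈ E ∧ ∃ v ∈ sitesL a r,
        ea (Cr C0 a) E ω a v ≤ lam}
        = ⋃ v ∈ {v | v ∈ sitesL a r}, {ω | ea (Cr C0 a) E ω a v ≤ lam} := by
      ext ω
      simp [h.1, h.2]
    rw [this]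
    refine MeasurableSet.biUnion (Set.to_countable _) fun v _ => ?_
    exact measurableSet_le (measurable_ea _ E a v) measurable_const
  · have : {ω : Environment d | L r ∧ endp 0 r ∈ E ∧ ∃ v ∈ sitesL a r,
        ea (Cr C0 a) E ω a v ≤ lam} = ∅ := by
      ext ω
      simp only [Set.mem_setOf_eq, Set.mem_empty_iff_false, iff_false]
      exact fun h2 => h ⟨h2.1, h2.2.1⟩
    rw [this]
    exact MeasurableSet.empty

lemma measurable_indbad (L : List (Step d) → Prop) (C0 : Site d → List (Step d) → Prop)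
    (E : Set (Site d)) (lam : ℝ≥0∞) (a : Site d) (r : List (Step d)) :
    Measurable fun ω : Environment d => ind (bad L C0 E lam a ω r) (lw ω a r) := by
  have : (fun ω : Environment d => ind (bad L C0 E lam a ω r) (lw ω a r))
      = {ω | bad L C0 E lam a ω r}.indicator (fun ω => lw ω a r) := by
    funext ω
    by_cases h : bad L C0 E lam a ω r
    · rw [ind_pos h, Set.indicator_of_mem (show ω ∈ {ω | bad L C0 E lam a ω r} from h)]
    · rw [ind_neg h, Set.indicator_of_notMem (show ω ∉ {ω | bad L C0 E lam a ω r} from h)]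
  rw [this]
  exact (measurable_lw a r).indicator (measurableSet_bad L C0 E lam a r)

section ann

variable (ν : Measure (Row d)) [IsProbabilityMeasure ν]
variable (G L : List (Step d) → Prop) (C0 : Site d → List (Step d) → Prop) (E : Set (Site d))
variable (Dp : Site d → Prop) (Pre : List (Step d) → Prop)

/-- annealed bad mass of one word: translation invariant -/
lemma bad_inv (lam : ℝ≥0∞) (a : Site d) (r : List (Step d)) :
    ∫⁻ ω, ind (bad L C0 E lam a ω r) (lw ω a r) ∂(iidEnvironmentLaw ν)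
      = ∫⁻ ω, ind (bad L C0 E lam 0 ω r) (lw ω 0 r) ∂(iidEnvironmentLaw ν) := by
  rw [← (Q561.iid_shift ν a).lintegral_comp (measurable_indbad L C0 E lam 0 r)]
  refine lintegral_congr fun ω => ?_
  rw [lw_shiftEnv, zero_add]
  by_cases h : bad L C0 E lam a ω r
  · rw [ind_pos h, ind_pos ((bad_shift L C0 E lam a ω r).1 h)]
  · rw [ind_neg h, ind_neg fun h2 => h ((bad_shift L C0 E lam a ω r).2 h2)]

/-- total bad mass -/
lemma bad_sum (lam : ℝ≥0∞) (hC : ∀ r1 r2, L (r1 ++ r2) → Cr C0 0 (endp 0 r1) r2) :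
    ∑' r, ∫⁻ ω, ind (bad L C0 E lam 0 ω r) (lw ω 0 r) ∂(iidEnvironmentLaw ν) ≤ lam := by
  rw [← lintegral_tsum fun r => (measurable_indbad L C0 E lam 0 r).aemeasurable]
  calc _ ≤ ∫⁻ _, lam ∂(iidEnvironmentLaw ν) := lintegral_mono fun ω =>
        qL L (Cr C0 0) E ω 0 hC {v | ea (Cr C0 0) E ω 0 v ≤ lam} lam fun v hv => hv
    _ = lam := by simp

/-- one start `a` -/
lemma one (a : Site d) (hL : PF L) (lam : ℝ≥0∞) (h0 : lam ≠ 0) (ht : lam ≠ ⊤)
    (g : List (Step d) → ℝ≥0∞) (M : ℝ≥0∞) (hg : ∀ r, g r ≤ M) :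
    ∑' r, ∑' p, ind (L r ∧ endp 0 r ∈ E ∧ Win3767.hit {y | y ∈ sitesL a r} p ∧ Dp (endp 0 p) ∧ Pre p)
        (aw ν r * aw ν p * g r)
      ≤ (∑' r, (∫⁻ ω, ind (bad L C0 E lam a ω r) (lw ω a r) ∂(iidEnvironmentLaw ν)) * g r)
        + M * lam⁻¹ * ∑' t, ind (Ta (Cr C0 a) E Dp Pre a t) (aw ν t) := by
  have e : ∀ r p, ind (L r ∧ endp 0 r ∈ E ∧ Win3767.hit {y | y ∈ sitesL a r} p ∧ Dp (endp 0 p) ∧ Pre p)
        (aw ν r * aw ν p * g r)
      = ∫⁻ ω, ind (L r ∧ endp 0 r ∈ E ∧ Win3767.hit {y | y ∈ sitesL a r} p ∧ Dp (endp 0 p) ∧ Pre p)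
        (lw ω a r * lw ω 0 p * g r) ∂(iidEnvironmentLaw ν) := by
    intro r p
    rw [lint_ind]
    by_cases h : L r ∧ endp 0 r ∈ E ∧ Win3767.hit {y | y ∈ sitesL a r} p ∧ Dp (endp 0 p) ∧ Pre p
    · have e4 : ∫⁻ ω, lw ω a r * lw ω 0 p * g r ∂(iidEnvironmentLaw ν)
          = (∫⁻ ω, lw ω a r * lw ω 0 p ∂(iidEnvironmentLaw ν)) * g r :=
        lintegral_mul_const (g r) (show Measurable fun ω : Environment d =>
          lw ω a r * lw ω 0 p from (measurable_lw a r).mul (measurable_lw 0 p))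
      rw [ind_pos h, ind_pos h, e4, lint_mul ν a 0 r p fun y hy hy' => h.2.2.1.1 y hy' hy]
    · rw [ind_neg h, ind_neg h]
  simp_rw [e]
  have hm : ∀ r p, Measurable fun ω => ind (L r ∧ endp 0 r ∈ E ∧ Win3767.hit {y | y ∈ sitesL a r} p ∧
      Dp (endp 0 p) ∧ Pre p) (lw ω a r * lw ω 0 p * g r) := fun r p =>
    measurable_ind _ (((measurable_lw a r).mul (measurable_lw 0 p)).mul_const _)
  have key : ∀ ω : Environment d, ∑' r, ∑' p, ind (L r ∧ endp 0 r ∈ E ∧
      Win3767.hit {y | y ∈ sitesL a r} p ∧ Dp (endp 0 p) ∧ Pre p) (lw ω a r * lw ω 0 p * g r)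
      ≤ (∑' r, ind (bad L C0 E lam a ω r) (lw ω a r) * g r)
        + M * (lam⁻¹ * ∑' t, ind (Ta (Cr C0 a) E Dp Pre a t) (lw ω 0 t)) := by
    intro ω
    set B2 := ∑' p, ind (Fst (fun p => Pre p ∧ Dp (endp 0 p) ∧
      lam < ea (Cr C0 a) E ω a (endp 0 p)) p) (lw ω 0 p) with hB2
    set S : Set (Site d) := {v | ea (Cr C0 a) E ω a v ≤ lam} with hS
    have k2 : ∀ r, ∑' p, ind (L r ∧ endp 0 r ∈ E ∧ Win3767.hit {y | y ∈ sitesL a r} p ∧
        Dp (endp 0 p) ∧ Pre p) (lw ω a r * lw ω 0 p * g r)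
        ≤ ind (bad L C0 E lam a ω r) (lw ω a r) * g r + ind (L r) (lw ω a r) * (M * B2) := by
      intro r
      by_cases hr : L r ∧ endp 0 r ∈ E
      swap
      · rw [ENNReal.tsum_eq_zero.2 fun p => ind_neg fun h => hr ⟨h.1, h.2.1⟩]
        exact zero_le
      have h1 : ∑' p, ind (Win3767.hit {y | y ∈ sitesL a r} p ∧ endp 0 p ∈ S) (lw ω 0 p)
          ≤ ind (∃ v ∈ sitesL a r, v ∈ S) 1 := by
        by_cases hv : ∃ v ∈ sitesL a r, v ∈ S
        · rw [ind_pos hv]
          exact pf_le_one ω 0 fun l l' h h' => pf_hit _ l l' h.1 h'.1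
        · rw [ENNReal.tsum_eq_zero.2 fun p => ind_neg fun h => hv ⟨_, h.1.2, h.2⟩]
          exact zero_le
      have h2 : ∑' p, ind (Win3767.hit {y | y ∈ sitesL a r} p ∧ Dp (endp 0 p) ∧ Pre p ∧ endp 0 p ∉ S)
          (lw ω 0 p) ≤ B2 := by
        refine dom ω 0 (fun l l' h h' => pf_hit _ l l' h.1 h'.1) fun l hl => ?_
        exact exists_fst l ⟨hl.2.2.1, hl.2.1, not_le.1 hl.2.2.2⟩
      calc _ ≤ ∑' p, (lw ω a r * g r * ind (Win3767.hit {y | y ∈ sitesL a r} p ∧ endp 0 p ∈ S) (lw ω 0 p)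
              + lw ω a r * g r * ind (Win3767.hit {y | y ∈ sitesL a r} p ∧ Dp (endp 0 p) ∧
                Pre p ∧ endp 0 p ∉ S) (lw ω 0 p)) := by
            refine ENNReal.tsum_le_tsum fun p => ?_
            by_cases h : L r ∧ endp 0 r ∈ E ∧ Win3767.hit {y | y ∈ sitesL a r} p ∧ Dp (endp 0 p) ∧ Pre p
            · rw [ind_pos h, show lw ω a r * lw ω 0 p * g r = lw ω a r * g r * lw ω 0 p by ring]
              by_cases hp : endp 0 p ∈ S
              · rw [ind_pos ⟨h.2.2.1, hp⟩]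
                exact le_self_add
              · rw [ind_pos (⟨h.2.2.1, h.2.2.2.1, h.2.2.2.2, hp⟩ : Win3767.hit {y | y ∈ sitesL a r} p ∧
                  Dp (endp 0 p) ∧ Pre p ∧ endp 0 p ∉ S)]
                exact le_add_self
            · rw [ind_neg h]; exact zero_le
        _ = lw ω a r * g r * (∑' p, ind (Win3767.hit {y | y ∈ sitesL a r} p ∧ endp 0 p ∈ S) (lw ω 0 p))
              + lw ω a r * g r * (∑' p, ind (Win3767.hit {y | y ∈ sitesL a r} p ∧ Dp (endp 0 p) ∧
                Pre p ∧ endp 0 p ∉ S) (lw ω 0 p)) := by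
            rw [ENNReal.tsum_add, ENNReal.tsum_mul_left, ENNReal.tsum_mul_left]
        _ ≤ lw ω a r * g r * ind (∃ v ∈ sitesL a r, v ∈ S) 1 + lw ω a r * M * B2 :=
            add_le_add (mul_le_mul_right h1 _)
              (mul_le_mul' (mul_le_mul_right (hg r) _) h2)
        _ = _ := by
            rw [ind_pos hr.1, mul_assoc _ M]
            congr 1
            by_cases hv : ∃ v ∈ sitesL a r, v ∈ S
            · have hb : bad L C0 E lam a ω r := ⟨hr.1, hr.2, hv⟩
              rw [ind_pos hv, ind_pos hb, mul_one]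
            · have hb : ¬ bad L C0 E lam a ω r := fun h => hv h.2.2
              rw [ind_neg hv, ind_neg hb, zero_mul, mul_zero]
    calc _ ≤ ∑' r, (ind (bad L C0 E lam a ω r) (lw ω a r) * g r
          + ind (L r) (lw ω a r) * (M * B2)) := ENNReal.tsum_le_tsum k2
      _ = (∑' r, ind (bad L C0 E lam a ω r) (lw ω a r) * g r)
          + (∑' r, ind (L r) (lw ω a r)) * (M * B2) := by
          rw [ENNReal.tsum_add, ENNReal.tsum_mul_right]
      _ ≤ (∑' r, ind (bad L C0 E lam a ω r) (lw ω a r) * g r) + 1 * (M * B2) :=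
          add_le_add le_rfl (mul_le_mul_left (pf_le_one ω a hL) _)
      _ ≤ _ := by
          rw [one_mul]
          exact add_le_add le_rfl (mul_le_mul_right (qG (Cr C0 a) E Dp Pre ω a lam h0 ht) _)
  calc _ = ∫⁻ ω, ∑' r, ∑' p, ind (L r ∧ endp 0 r ∈ E ∧ Win3767.hit {y | y ∈ sitesL a r} p ∧
        Dp (endp 0 p) ∧ Pre p) (lw ω a r * lw ω 0 p * g r) ∂(iidEnvironmentLaw ν) := by
        rw [lintegral_tsum fun r => (Measurable.ennreal_tsum fun p => hm r p).aemeasurable]
        refine tsum_congr fun r => ?_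
        rw [lintegral_tsum fun p => (hm r p).aemeasurable]
    _ ≤ ∫⁻ ω, ((∑' r, ind (bad L C0 E lam a ω r) (lw ω a r) * g r)
        + M * (lam⁻¹ * ∑' t, ind (Ta (Cr C0 a) E Dp Pre a t) (lw ω 0 t)))
          ∂(iidEnvironmentLaw ν) := lintegral_mono key
    _ = _ := by
        rw [lintegral_add_left, lintegral_const_mul, lintegral_const_mul, lintegral_tsum,
          lintegral_tsum]
        · simp_rw [lint_ind]
          rw [mul_assoc M]
          congr 1
          refine tsum_congr fun r => ?_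
          rw [lintegral_mul_const _ (measurable_indbad L C0 E lam a r)]
        · exact fun p => (measurable_ind _ (measurable_lw 0 p)).aemeasurable
        · exact fun r => ((measurable_indbad L C0 E lam a r).mul_const _).aemeasurable
        · exact Measurable.ennreal_tsum fun p => measurable_ind _ (measurable_lw 0 p)
        · exact (Measurable.ennreal_tsum fun p => measurable_ind _
            (measurable_lw 0 p)).const_mul _
        · exact Measurable.ennreal_tsum fun r => (measurable_indbad L C0 E lam a r).mul_const _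

/-- **window lemma, order (2)** (the explored local walker carries the tie) -/
theorem win2 (A : Set (Site d)) (hL : PF L)
    (hC : ∀ r1 r2, L (r1 ++ r2) → C0 (endp 0 r1) r2)
    (μ : Site d → ℝ≥0∞) (M : ℝ≥0∞) (hμ : ∀ z, μ z ≤ M)
    (hμ1 : ∑' z, μ z ≤ 1) (lam : ℝ≥0∞) (h0 : lam ≠ 0) (ht : lam ≠ ⊤) :
    ∑' a, ∑' r, ∑' p, ind (a ∈ A ∧ L r ∧ endp 0 r ∈ E ∧ Win3767.hit {y | y ∈ sitesL a r} p ∧
        Dp (endp 0 p) ∧ Pre p) (aw ν r * aw ν p * μ (-endp a r))
      ≤ lam + M * lam⁻¹ * ∑' a, ∑' t, ind (a ∈ A ∧ Ta (Cr C0 a) E Dp Pre a t) (aw ν t) := by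
  have hb : ∑' a, ∑' r, (∫⁻ ω, ind (bad L C0 E lam a ω r) (lw ω a r)
      ∂(iidEnvironmentLaw ν)) * μ (-endp a r) ≤ lam := by
    rw [ENNReal.tsum_comm]
    refine le_trans (ENNReal.tsum_le_tsum fun r => ?_)
      (bad_sum ν L C0 E lam (by simpa [Cr] using hC))
    simp_rw [bad_inv ν L C0 E lam]
    rw [ENNReal.tsum_mul_left]
    have e2 : ∑' a, μ (-endp a r) ≤ 1 := by
      refine le_trans (le_of_eq ?_) hμ1
      have e3 : ∀ a, μ (-endp a r) = μ ((Equiv.subLeft (-endp 0 r)) a) := fun a => by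
        rw [Equiv.subLeft_apply, endp_eq_add r a]
        congr 1
        abel
      simp_rw [e3]
      exact (Equiv.subLeft (-endp 0 r)).tsum_eq μ
    calc _ ≤ (∫⁻ ω, ind (bad L C0 E lam 0 ω r) (lw ω 0 r) ∂(iidEnvironmentLaw ν)) * 1 :=
          mul_le_mul_right e2 _
      _ = _ := mul_one _
  calc _ ≤ ∑' a, ((∑' r, (∫⁻ ω, ind (bad L C0 E lam a ω r) (lw ω a r)
        ∂(iidEnvironmentLaw ν)) * μ (-endp a r)) + M * lam⁻¹ *
        ∑' t, ind (a ∈ A ∧ Ta (Cr C0 a) E Dp Pre a t) (aw ν t)) := by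
        refine ENNReal.tsum_le_tsum fun a => ?_
        by_cases ha : a ∈ A
        · have := one ν L C0 E Dp Pre a hL lam h0 ht (fun r => μ (-endp a r)) M
            (fun r => hμ _)
          refine le_trans (le_of_eq ?_) (this.trans (le_of_eq ?_))
          · simp only [ha, true_and]
          · simp only [ha, true_and]
        · rw [ENNReal.tsum_eq_zero.2 fun r => ENNReal.tsum_eq_zero.2 fun p =>
            ind_neg fun h => ha h.1]
          exact zero_le
    _ = (∑' a, ∑' r, (∫⁻ ω, ind (bad L C0 E lam a ω r) (lw ω a r)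
        ∂(iidEnvironmentLaw ν)) * μ (-endp a r)) + M * lam⁻¹ *
        ∑' a, ∑' t, ind (a ∈ A ∧ Ta (Cr C0 a) E Dp Pre a t) (aw ν t) := by
        rw [ENNReal.tsum_add, ENNReal.tsum_mul_left]
    _ ≤ _ := add_le_add hb le_rfl

end ann

end Crest.Agent.R154.Win2767
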