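import Crest.Agent.R154.Win3d_935

/-! Row 154, ROAD 801 (helper935): window lemma, X local, on `IsUp h × IsDn h` (28's letters). -/

set_option autoImplicit false

namespace Crest.Agent.R154.W23

open MeasureTheory ProbabilityTheory Crest.ProbabilityR.RandomEnvironment Crest.Agent.R154
open Crest.Agent.R154.Flux132 (lev opp)
open Crest.Agent.R154.Flux566 (lw endp sitesL)
open Crest.Agent.R154.NB28
open scoped ENNReal

variable {d : ℕ}

/-- local up crossings -/
def XE (u : Step d) (h : ℕ) (E : Finset (Site d)) : Set (List (Step d)) :=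
  {l | IsUp u h l ∧ endp 0 l ∈ E}

/-- down crossings -/
def YD (u : Step d) (h : ℕ) : Set (List (Step d)) := {l | IsDn u h l}

lemma pf_XE (u : Step d) (h : ℕ) (E : Finset (Site d)) : PF (XE u h E) :=
  (pf_XX u h).mono fun _ hl => hl.1

lemma pf_YD (u : Step d) (h : ℕ) : PF (YD u h) := by
  intro l hl l' hl'
  have := isDn_prefix hl hl' (List.prefix_append l l')
  simpa using this

/-- completions of the X word from `v` -/
def TX (u : Step d) (h : ℕ) (E : Finset (Site d)) (v : Site d) : Set (List (Step d)) :=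
  {l | (∀ p ∈ sitesL v l, p ∈ Reg u h) ∧ lev u (endp v l) = h ∧ endp v l ∈ E}

/-- words which turn -/
def RX (u : Step d) (h s : ℕ) (E : Finset (Site d)) (y : Site d) : Set (List (Step d)) :=
  {l | (∀ p ∈ sitesL y l, lev u p < h) ∧ lev u (endp y l) = h ∧
    (∃ p ∈ sitesL y l, lev u p + s < h) ∧ endp y l ∈ E}

open Classical in
/-- annealed weight of the words which go below `-s` and come back above `0` -/
noncomputable def usX (ν : Measure (Row d)) [IsProbabilityMeasure ν] (u : Step d) (s : ℕ) : ℝ≥0∞ :=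
  ∑' l : List (Step d), (if (∀ p ∈ sitesL 0 l, lev u p ≤ 0) ∧ lev u (endp 0 l) = 1 ∧
    (∃ p ∈ sitesL 0 l, lev u p ≤ -(s : ℤ)) then aw ν l else 0)

/-- first contacts of the runner with `π` from `0` -/
def GX (u : Step d) (h s : ℕ) (y : Site d) (π : List (Step d)) : Set (List (Step d)) :=
  {l | l ∈ WordB956.FH {p | p ∈ sitesL 0 π} y ∧ (∀ p ∈ sitesL y l, p ∈ Reg u h) ∧
    endp y l ∈ Reg u h ∧ lev u (endp y l) + s < h}

lemma pf_GX (u : Step d) (h s : ℕ) (y : Site d) (π : List (Step d)) : PF (GX u h s y π) :=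
  (WordB956.pf_FH _ y).mono fun _ hl => hl.1

/-- the good runner words -/
def SX (u : Step d) (h s : ℕ) (y : Site d) (π : List (Step d)) : Set (List (Step d)) :=
  {γ | IsDn u h γ ∧ (∃ p, p ∈ sitesL 0 π ∧ p ∈ sitesL y γ) ∧
    ∀ p, p ∈ sitesL 0 π → p ∈ sitesL y γ → lev u p + s < h}

lemma SX_pre (u : Step d) (h s : ℕ) (y : Site d) (hy : lev u y = h - 1) (γ π : List (Step d))
    (hγ : γ ∈ SX u h s y π) : ∃ l1 ∈ GX u h s y π, ∃ l2, γ = l1 ++ l2 := by
  obtain ⟨h1, ⟨p, hpπ, hp⟩, h3⟩ := hγ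
  obtain ⟨a, e, b, hab, hap⟩ := WordB956.mem_sitesL.1 hp
  obtain ⟨l1, l2, h4, h5⟩ := WordB956.exists_FH (D := {p | p ∈ sitesL 0 π}) (x := y) (l := a)
    ⟨a, [], by simp, by rw [hap]; exact hpπ⟩
  have h6 : γ = l1 ++ (l2 ++ e :: b) := by rw [hab, h4, List.append_assoc]
  have h7 : endp y l1 ∈ sitesL y γ := by
    refine WordB956.mem_sitesL.2 ?_
    cases l2 with
    | nil => exact ⟨l1, e, b, by rw [h6]; rfl, rfl⟩
    | cons e' l2 => exact ⟨l1, e', l2 ++ e :: b, by rw [h6]; rfl, rfl⟩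
  have hreg : ∀ q ∈ sitesL y γ, q ∈ Reg u h := by
    intro q hq
    have h8 := h1.1 (q - y) ((mem_sitesL_iff _ _ _).1 hq)
    have h9 : lev u q = lev u (q - y) + lev u y := by rw [← lev_add', sub_add_cancel]
    constructor
    · rw [h9]; omega
    · rw [h9]; omega
  refine ⟨l1, ⟨h5, fun q hq => hreg q ?_, hreg _ h7, h3 _ h5.1 h7⟩, _, h6⟩
  rw [h6, WordB956.sitesL_append]
  exact List.mem_append_left _ hq

open Classical in
lemma stepA2 (ν : Measure (Row d)) [IsProbabilityMeasure ν] (u : Step d) (h s : ℕ)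
    (y : Site d) (hy : lev u y = h - 1) (π : List (Step d)) :
    ∑' γ : List (Step d), (if γ ∈ SX u h s y π then aw ν γ else 0)
      ≤ ∑' γ : List (Step d), (if γ ∈ GX u h s y π then aw ν γ else 0) := by
  refine ext_le _ _ (fun l hl => SX_pre u h s y hy l π hl) (fun l => aw ν l) _ fun l1 _ => ?_
  refine le_trans ?_ (pf_ext_aw ν (pf_YD u h) l1)
  refine ENNReal.tsum_le_tsum fun l2 => ?_
  by_cases h1 : l1 ++ l2 ∈ SX u h s y π
  · have h2 : l1 ++ l2 ∈ YD u h := h1.1
    rw [if_pos h1, if_pos h2]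
  · rw [if_neg h1]; exact zero_le

lemma XE_tail (u : Step d) (h : ℕ) (E : Finset (Site d))
    (l1 l2 : List (Step d)) (hl : l1 ++ l2 ∈ XE u h E) : l2 ∈ TX u h E (endp 0 l1) := by
  obtain ⟨⟨h1, h2⟩, h3⟩ := hl
  have e1 : endp (endp 0 l1) l2 = endp 0 (l1 ++ l2) := by
    rw [← Flux566.endp_append]
  refine ⟨fun p hp => ?_, ?_, ?_⟩
  · have h4 : p ∈ sitesL 0 (l1 ++ l2) := by
      rw [WordB956.sitesL_append]; exact List.mem_append_right _ hp
    exact h1 p h4
  · rw [e1]; exact h2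
  · rw [e1]; exact h3

lemma RX_conc (u : Step d) (h s : ℕ) (E : Finset (Site d)) (y : Site d) (l1 : List (Step d))
    (h1 : ∀ p ∈ sitesL y l1, p ∈ Reg u h)
    (h2 : endp y l1 ∈ {v | v ∈ Reg u h ∧ lev u v + s < h}) (l2 : List (Step d))
    (hl2 : l2 ∈ TX u h E (endp y l1)) : l1 ++ l2 ∈ RX u h s E y := by
  obtain ⟨h3, h4, h5⟩ := hl2
  refine ⟨fun p hp => ?_, ?_, ?_, ?_⟩
  · rw [WordB956.sitesL_append] at hp
    rcases List.mem_append.1 hp with hp | hp
    · exact (h1 p hp).2
    · exact (h3 p hp).2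
  · rw [Flux566.endp_append]; exact h4
  · cases l2 with
    | nil =>
      exfalso
      have : lev u (endp y l1) = h := h4
      have := h2.1.2
      omega
    | cons e l2 =>
      exact ⟨endp y l1, WordB956.mem_sitesL.2 ⟨l1, e, l2, rfl, rfl⟩, h2.2⟩
  · rw [Flux566.endp_append]; exact h5

lemma mY_tot (u : Step d) (μ : Site d → ℝ≥0∞) (l : List (Step d)) :
    ∑' y : Site d, mY u μ y l = ∑' x, μ x := by
  rw [← (Equiv.addRight (-endp 0 l + stepVec u)).tsum_eq μ]
  refine tsum_congr fun y => ?_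
  unfold mY
  simp only [Equiv.coe_addRight]
  congr 1
  abel

open Classical in
lemma stepB2 (ω : Environment d) (u : Step d)
    (h s : ℕ) (E : Finset (Site d)) (μ : Site d → ℝ≥0∞) (M : ℝ≥0∞) (hμ : ∑' x, μ x ≤ 1)
    (hM : ∀ x, μ x ≤ M) (lam : ℝ≥0∞) (hl0 : lam ≠ 0) (hl1 : lam ≠ ⊤) :
    ∑' y : Site d, (if lev u y = h - 1 then ∑' π : List (Step d), (if π ∈ XE u h E then
      mY u μ y π * ∑' γ : List (Step d),
      (if γ ∈ GX u h s y π then lw ω 0 π * lw ω y γ else 0) else 0) else 0)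
      ≤ lam + M * (lam⁻¹ * ∑' y : Site d, (if lev u y = h - 1 then
        ∑' l : List (Step d), (if l ∈ RX u h s E y then lw ω y l else 0) else 0)) := by
  obtain ⟨B, hB⟩ : ∃ B : Site d → ℝ≥0∞, ∀ y, B y =
    ∑' l : List (Step d), (if l ∈ RX u h s E y then lw ω y l else 0) := ⟨_, fun y => rfl⟩
  set T := TX u h E with hT
  obtain ⟨D, hD⟩ : ∃ D : Set (Site d), ∀ v, v ∈ D ↔ v ∈ Reg u h ∧ ee T ω v ≤ lam :=
    ⟨{v | v ∈ Reg u h ∧ ee T ω v ≤ lam}, fun v => Iff.rfl⟩
  have key : ∀ (y : Site d) (π : List (Step d)), π ∈ XE u h E →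
      ∑' γ : List (Step d), (if γ ∈ GX u h s y π then lw ω 0 π * lw ω y γ else 0)
      ≤ (if π ∈ WordB956.Vis D 0 then lw ω 0 π else 0)
        + lw ω 0 π * (lam⁻¹ * B y) := by
    intro y π hπ
    obtain ⟨S1, hS1⟩ : ∃ S : Set (List (Step d)), ∀ γ, γ ∈ S ↔
      γ ∈ GX u h s y π ∧ ee T ω (endp y γ) ≤ lam :=
      ⟨{γ | γ ∈ GX u h s y π ∧ ee T ω (endp y γ) ≤ lam}, fun γ => Iff.rfl⟩
    obtain ⟨S2, hS2⟩ : ∃ S : Set (List (Step d)), ∀ γ, γ ∈ S ↔
      γ ∈ GX u h s y π ∧ lam < ee T ω (endp y γ) :=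
      ⟨{γ | γ ∈ GX u h s y π ∧ lam < ee T ω (endp y γ)}, fun γ => Iff.rfl⟩
    have b1 : ∑' γ : List (Step d), (if γ ∈ S1 then lw ω y γ else 0) ≤ 1 :=
      WordB956.pf_sum_le ω y ((pf_GX u h s y π).mono fun l hl => ((hS1 l).1 hl).1)
    have b2 : ∑' γ : List (Step d), (if γ ∈ S2 then lw ω y γ else 0) ≤ lam⁻¹ * B y := by
      have h0 := hit_reg ω y S2 ((pf_GX u h s y π).mono fun l hl => ((hS2 l).1 hl).1)
        (Reg u h) {v | v ∈ Reg u h ∧ lev u v + s < h} T (RX u h s E y) lam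
        (fun l hl => ⟨((hS2 l).1 hl).1.2.1, ⟨((hS2 l).1 hl).1.2.2.1,
          ((hS2 l).1 hl).1.2.2.2⟩, ((hS2 l).1 hl).2⟩)
        (fun l1 h1 h2 l2 h3 => RX_conc u h s E y l1 h1 h2 l2 h3)
      rw [hB]
      calc ∑' γ : List (Step d), (if γ ∈ S2 then lw ω y γ else 0)
          = lam⁻¹ * (lam * ∑' γ : List (Step d), (if γ ∈ S2 then lw ω y γ else 0)) := by
            rw [← mul_assoc, ENNReal.inv_mul_cancel hl0 hl1, one_mul]
        _ ≤ _ := mul_le_mul_right h0 _
    have b0 : ∑' γ : List (Step d), (if γ ∈ GX u h s y π then lw ω 0 π * lw ω y γ else 0)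
        = lw ω 0 π * ∑' γ : List (Step d), (if γ ∈ S1 then lw ω y γ else 0)
          + lw ω 0 π * ∑' γ : List (Step d), (if γ ∈ S2 then lw ω y γ else 0) := by
      rw [← mul_add, ← ENNReal.tsum_add, ← ENNReal.tsum_mul_left]
      refine tsum_congr fun γ => ?_
      by_cases h1 : γ ∈ GX u h s y π
      · rcases le_or_gt (ee T ω (endp y γ)) lam with h2 | h2
        · have h3 : γ ∈ S1 := (hS1 γ).2 ⟨h1, h2⟩
          have h4 : γ ∉ S2 := fun h5 => absurd ((hS2 γ).1 h5).2 (not_lt.2 h2)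
          rw [if_pos h1, if_pos h3, if_neg h4, add_zero]
        · have h3 : γ ∈ S2 := (hS2 γ).2 ⟨h1, h2⟩
          have h4 : γ ∉ S1 := fun h5 => absurd ((hS1 γ).1 h5).2 (not_le.2 h2)
          rw [if_pos h1, if_pos h3, if_neg h4, zero_add]
      · have h3 : γ ∉ S1 := fun h5 => h1 ((hS1 γ).1 h5).1
        have h4 : γ ∉ S2 := fun h5 => h1 ((hS2 γ).1 h5).1
        rw [if_neg h1, if_neg h3, if_neg h4, add_zero, mul_zero]
    rw [b0]
    refine add_le_add ?_ (mul_le_mul_right b2 _)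
    by_cases hv : π ∈ WordB956.Vis D 0
    · rw [if_pos hv]
      calc _ ≤ lw ω 0 π * 1 := mul_le_mul_right b1 _
        _ = _ := mul_one _
    · rw [if_neg hv]
      have : ∑' γ : List (Step d), (if γ ∈ S1 then lw ω y γ else 0) = 0 := by
        rw [ENNReal.tsum_eq_zero]
        intro γ
        refine if_neg fun hγ' => hv ?_
        have hγ := (hS1 γ).1 hγ'
        have h1 : endp y γ ∈ sitesL 0 π := hγ.1.1.1
        obtain ⟨a, e, b, hab, hap⟩ := WordB956.mem_sitesL.1 h1
        refine ⟨a, e :: b, hab, ?_⟩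
        rw [hap, hD]
        exact ⟨hγ.1.2.2.1, hγ.2⟩
      rw [this, mul_zero]
  have p1 : ∑' π : List (Step d), ((if π ∈ XE u h E ∧ π ∈ WordB956.Vis D 0 then lw ω 0 π else 0)
      * ∑' y : Site d, mY u μ y π) ≤ lam := by
    calc _ ≤ ∑' π : List (Step d), ((if π ∈ XE u h E ∧ π ∈ WordB956.Vis D 0 then lw ω 0 π else 0)
          * 1) := by
          refine ENNReal.tsum_le_tsum fun π => mul_le_mul_right ?_ _
          rw [mY_tot]; exact hμ
      _ = ∑' π : List (Step d), (if π ∈ XE u h E ∧ π ∈ WordB956.Vis D 0 then lw ω 0 π else 0) := by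
          simp only [mul_one]
      _ ≤ lam := by
          refine WordB956.vis_le ω 0 (XE u h E) D lam fun l1 hl1 => ?_
          have hl1D := (hD _).1 hl1.1
          refine le_trans ?_ hl1D.2
          unfold ee
          refine ENNReal.tsum_le_tsum fun l2 => ?_
          by_cases h1 : l1 ++ l2 ∈ XE u h E
          · have h2 : l2 ∈ T (endp 0 l1) := XE_tail u h E l1 l2 h1
            rw [if_pos h1, if_pos h2]
          · rw [if_neg h1]; exact zero_le
  calc _ ≤ ∑' y : Site d, ((∑' π : List (Step d), mY u μ y π *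
        (if π ∈ XE u h E ∧ π ∈ WordB956.Vis D 0 then lw ω 0 π else 0))
        + M * (lam⁻¹ * (if lev u y = h - 1 then B y else 0))) := by
        refine ENNReal.tsum_le_tsum fun y => ?_
        by_cases hy : lev u y = h - 1
        · simp only [hy, if_true]
          calc _ ≤ ∑' π : List (Step d), (mY u μ y π *
                (if π ∈ XE u h E ∧ π ∈ WordB956.Vis D 0 then lw ω 0 π else 0)
                + (if π ∈ XE u h E then lw ω 0 π else 0) * (M * (lam⁻¹ * B y))) := by
                refine ENNReal.tsum_le_tsum fun π => ?_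
                by_cases hπ : π ∈ XE u h E
                · simp only [hπ, if_true, true_and]
                  calc _ ≤ mY u μ y π * ((if π ∈ WordB956.Vis D 0 then lw ω 0 π else 0)
                        + lw ω 0 π * (lam⁻¹ * B y)) := mul_le_mul_right (key y π hπ) _
                    _ = mY u μ y π * (if π ∈ WordB956.Vis D 0 then lw ω 0 π else 0)
                        + mY u μ y π * (lw ω 0 π * (lam⁻¹ * B y)) := mul_add _ _ _
                    _ ≤ mY u μ y π * (if π ∈ WordB956.Vis D 0 then lw ω 0 π else 0)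
                        + M * (lw ω 0 π * (lam⁻¹ * B y)) :=
                        add_le_add le_rfl (mul_le_mul_left (hM _) _)
                    _ = _ := by ring
                · simp [hπ]
            _ = (∑' π : List (Step d), mY u μ y π *
                (if π ∈ XE u h E ∧ π ∈ WordB956.Vis D 0 then lw ω 0 π else 0))
                + (∑' π : List (Step d), (if π ∈ XE u h E then lw ω 0 π else 0)) *
                  (M * (lam⁻¹ * B y)) := by
                rw [ENNReal.tsum_add, ENNReal.tsum_mul_right]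
            _ ≤ (∑' π : List (Step d), mY u μ y π *
                (if π ∈ XE u h E ∧ π ∈ WordB956.Vis D 0 then lw ω 0 π else 0))
                + 1 * (M * (lam⁻¹ * B y)) :=
                add_le_add le_rfl (mul_le_mul_left (WordB956.pf_sum_le ω 0 (pf_XE u h E)) _)
            _ = _ := by rw [one_mul]
        · simp only [hy, if_false]; exact zero_le
    _ = (∑' π : List (Step d), ((if π ∈ XE u h E ∧ π ∈ WordB956.Vis D 0 then lw ω 0 π else 0)
      * ∑' y : Site d, mY u μ y π))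
        + M * (lam⁻¹ * ∑' y : Site d, (if lev u y = h - 1 then B y else 0)) := by
        rw [ENNReal.tsum_add, ENNReal.tsum_mul_left, ENNReal.tsum_mul_left, ENNReal.tsum_comm]
        congr 1
        refine tsum_congr fun π => ?_
        rw [ENNReal.tsum_mul_right, mul_comm]
    _ ≤ _ := by
        refine add_le_add p1 ?_
        simp_rw [hB]
        exact le_rfl

end Crest.Agent.R154.W23
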