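import Crest.Agent.R154.Win2_935

/-! Row 154, ROAD 801 (helper935): window lemma, X local, part 2. -/

set_option autoImplicit false

namespace Crest.Agent.R154.W23

open MeasureTheory ProbabilityTheory Crest.ProbabilityR.RandomEnvironment Crest.Agent.R154
open Crest.Agent.R154.Flux132 (lev opp)
open Crest.Agent.R154.Flux566 (lw endp sitesL)
open Crest.Agent.R154.NB28
open scoped ENNReal

variable {d : ℕ}

open Classical in
lemma sum_card_add (E : Finset (Site d)) (z : Site d) :
    ∑' y : Site d, (if y + z ∈ E then (1 : ℝ≥0∞) else 0) = E.card := by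
  have h := (Equiv.addRight z).tsum_eq (fun x : Site d => if x ∈ E then (1 : ℝ≥0∞) else 0)
  have h2 : ∑' y : Site d, (if y + z ∈ E then (1 : ℝ≥0∞) else 0)
      = ∑' x : Site d, (if x ∈ E then (1 : ℝ≥0∞) else 0) := by
    rw [← h]; rfl
  rw [h2, tsum_eq_sum (s := E)]
  · rw [Finset.sum_congr rfl (fun x hx => if_pos hx)]
    simp
  · intro x hx
    exact if_neg hx

open Classical in
lemma RX_sum (ν : Measure (Row d)) [IsProbabilityMeasure ν] (u : Step d)
    (h s : ℕ) (E : Finset (Site d)) :
    ∑' y : Site d, (if lev u y = h - 1 then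
        ∑' l : List (Step d), (if l ∈ RX u h s E y then aw ν l else 0) else 0)
      ≤ E.card * usX ν u s := by
  have e1 : ∀ y : Site d, (if lev u y = h - 1 then
        ∑' l : List (Step d), (if l ∈ RX u h s E y then aw ν l else 0) else 0)
      = ∑' l : List (Step d), (if lev u y = h - 1 ∧ l ∈ RX u h s E y then aw ν l else 0) := by
    intro y
    by_cases hy : lev u y = h - 1
    · simp [hy]
    · simp [hy]
  simp_rw [e1]
  rw [ENNReal.tsum_comm]
  unfold usX
  rw [← ENNReal.tsum_mul_left]
  refine ENNReal.tsum_le_tsum fun l => ?_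
  have hst : ∀ y : Site d, lev u y = h - 1 → l ∈ RX u h s E y →
      (∀ p ∈ sitesL 0 l, lev u p ≤ 0) ∧ lev u (endp 0 l) = 1 ∧
      (∃ p ∈ sitesL 0 l, lev u p ≤ -(s : ℤ)) := by
    intro y hy hl
    obtain ⟨h1, h2, ⟨q, hq, hq2⟩, h4⟩ := hl
    refine ⟨fun p hp => ?_, ?_, ?_⟩
    · have h5 := h1 (p + y) ((mem_sitesL_iff _ _ _).2 (by rw [add_sub_cancel_right]; exact hp))
      rw [lev_add'] at h5
      omega
    · rw [Flux566.endp_eq_add, lev_add'] at h2
      omega
    · refine ⟨q - y, (mem_sitesL_iff _ _ _).1 hq, ?_⟩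
      have h6 : lev u q = lev u (q - y) + lev u y := by rw [← lev_add', sub_add_cancel]
      omega
  by_cases hc : (∀ p ∈ sitesL 0 l, lev u p ≤ 0) ∧ lev u (endp 0 l) = 1 ∧
    (∃ p ∈ sitesL 0 l, lev u p ≤ -(s : ℤ))
  · rw [if_pos hc, ← sum_card_add E (endp 0 l), ← ENNReal.tsum_mul_right]
    refine ENNReal.tsum_le_tsum fun y => ?_
    by_cases hy : lev u y = h - 1 ∧ l ∈ RX u h s E y
    · have h1 : y + endp 0 l ∈ E := by
        have := hy.2.2.2.2
        rwa [Flux566.endp_eq_add] at this
      rw [if_pos hy, if_pos h1, one_mul]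
    · rw [if_neg hy]; exact zero_le
  · have h1 : ∀ y, ¬ (lev u y = h - 1 ∧ l ∈ RX u h s E y) := fun y h2 => hc (hst y h2.1 h2.2)
    simp only [h1, if_false, tsum_zero]
    exact zero_le

open Classical in
lemma stepC2 (ν : Measure (Row d)) [IsProbabilityMeasure ν] (u : Step d)
    (h s : ℕ) (E : Finset (Site d)) (μ : Site d → ℝ≥0∞) (M : ℝ≥0∞) (hμ : ∑' x, μ x ≤ 1)
    (hM : ∀ x, μ x ≤ M) (lam : ℝ≥0∞) (hl0 : lam ≠ 0) (hl1 : lam ≠ ⊤) :
    ∑' y : Site d, (if lev u y = h - 1 then ∑' π : List (Step d), (if π ∈ XE u h E then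
      mY u μ y π * ∑' γ : List (Step d),
      (if γ ∈ GX u h s y π then aw ν π * aw ν γ else 0) else 0) else 0)
      ≤ lam + M * (lam⁻¹ * (E.card * usX ν u s)) := by
  set Q := iidEnvironmentLaw ν with hQ
  have e1 : ∀ (y : Site d) (π γ : List (Step d)), γ ∈ GX u h s y π →
      aw ν π * aw ν γ = ∫⁻ ω, lw ω 0 π * lw ω y γ ∂Q := by
    intro y π γ hγ
    rw [lint_mul ν 0 y π γ]
    intro p hp hp'
    obtain ⟨a, e, b, hab, hap⟩ := WordB956.mem_sitesL.1 hp'
    refine hγ.1.2 a (e :: b) hab (by simp) ?_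
    rw [hap]; exact hp
  have mz : ∀ (y : Site d) (π γ : List (Step d)), Measurable fun ω : Environment d =>
      (if γ ∈ GX u h s y π then lw ω 0 π * lw ω y γ else 0) := by
    intro y π γ
    by_cases h1 : γ ∈ GX u h s y π
    · simp only [h1, if_true]
      exact (Flux566.measurable_lw 0 π).mul (Flux566.measurable_lw y γ)
    · simp only [h1, if_false]; exact measurable_const
  have mz2 : ∀ (y : Site d) (π : List (Step d)), Measurable fun ω : Environment d =>
      (if π ∈ XE u h E then mY u μ y π * ∑' γ : List (Step d),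
      (if γ ∈ GX u h s y π then lw ω 0 π * lw ω y γ else 0) else 0) := by
    intro y π
    by_cases h1 : π ∈ XE u h E
    · simp only [h1, if_true]
      exact (Measurable.ennreal_tsum fun γ => mz y π γ).const_mul _
    · simp only [h1, if_false]; exact measurable_const
  have mz3 : ∀ (y : Site d), Measurable fun ω : Environment d =>
      (if lev u y = h - 1 then ∑' π : List (Step d), (if π ∈ XE u h E then
      mY u μ y π * ∑' γ : List (Step d),
      (if γ ∈ GX u h s y π then lw ω 0 π * lw ω y γ else 0) else 0) else 0) := by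
    intro y
    by_cases h1 : lev u y = h - 1
    · simp only [h1, if_true]
      exact Measurable.ennreal_tsum fun π => mz2 y π
    · simp only [h1, if_false]; exact measurable_const
  have e2 : ∑' y : Site d, (if lev u y = h - 1 then ∑' π : List (Step d),
      (if π ∈ XE u h E then mY u μ y π * ∑' γ : List (Step d),
      (if γ ∈ GX u h s y π then aw ν π * aw ν γ else 0) else 0) else 0)
      = ∫⁻ ω, ∑' y : Site d, (if lev u y = h - 1 then ∑' π : List (Step d),
      (if π ∈ XE u h E then mY u μ y π * ∑' γ : List (Step d),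
      (if γ ∈ GX u h s y π then lw ω 0 π * lw ω y γ else 0) else 0) else 0) ∂Q := by
    rw [lintegral_tsum fun y => (mz3 y).aemeasurable]
    refine tsum_congr fun y => ?_
    by_cases hy : lev u y = h - 1
    swap
    · simp [hy]
    simp only [hy, if_true]
    rw [lintegral_tsum fun π => (mz2 y π).aemeasurable]
    refine tsum_congr fun π => ?_
    by_cases hπ : π ∈ XE u h E
    swap
    · simp [hπ]
    simp only [hπ, if_true]
    rw [lintegral_const_mul _ (Measurable.ennreal_tsum fun γ => mz y π γ),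
      lintegral_tsum fun γ => (mz y π γ).aemeasurable]
    congr 1
    refine tsum_congr fun γ => ?_
    by_cases hγ : γ ∈ GX u h s y π
    · simp only [hγ, if_true]
      exact e1 y π γ hγ
    · simp only [hγ, if_false, lintegral_zero]
  have mB : ∀ y : Site d, Measurable fun ω : Environment d => (if lev u y = h - 1 then
        ∑' l : List (Step d), (if l ∈ RX u h s E y then lw ω y l else 0) else 0) := by
    intro y
    by_cases h1 : lev u y = h - 1
    · simp only [h1, if_true]; exact meas_sum y _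
    · simp only [h1, if_false]; exact measurable_const
  rw [e2]
  calc _ ≤ ∫⁻ ω, (lam + M * (lam⁻¹ * ∑' y : Site d, (if lev u y = h - 1 then
        ∑' l : List (Step d), (if l ∈ RX u h s E y then lw ω y l else 0) else 0))) ∂Q :=
        lintegral_mono fun ω => stepB2 ω u h s E μ M hμ hM lam hl0 hl1
    _ = lam + M * (lam⁻¹ * ∑' y : Site d, (if lev u y = h - 1 then
        ∑' l : List (Step d), (if l ∈ RX u h s E y then aw ν l else 0) else 0)) := by
        rw [lintegral_add_left measurable_const, lintegral_const, measure_univ, mul_one,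
          lintegral_const_mul _ ((Measurable.ennreal_tsum mB).const_mul _),
          lintegral_const_mul _ (Measurable.ennreal_tsum mB),
          lintegral_tsum fun y => (mB y).aemeasurable]
        congr 3
        refine tsum_congr fun y => ?_
        by_cases hy : lev u y = h - 1
        · simp only [hy, if_true]
          exact lint_sum ν y _
        · simp [hy]
    _ ≤ _ := by
        gcongr
        exact RX_sum ν u h s E

open Classical in
/-- **window lemma, X local** (28's letters) -/
theorem win2 (ν : Measure (Row d)) [IsProbabilityMeasure ν] (u : Step d)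
    (h s : ℕ) (E : Finset (Site d)) (μ : Site d → ℝ≥0∞) (M lam : ℝ≥0∞) (hμ : ∑' x, μ x ≤ 1)
    (hM : ∀ x, μ x ≤ M) (hl0 : lam ≠ 0) (hl1 : lam ≠ ⊤) :
    ∑' w : Site d, μ w * ∑' π : List (Step d), ∑' γ : List (Step d),
      (if IsUp u h π ∧ IsDn u h γ ∧ endp 0 π ∈ E ∧ lev u w = 0 ∧ (∃ k, k ∈ Cm u w π γ) ∧
        (∀ k ∈ Cm u w π γ, s < k) then aw ν π * aw ν γ else 0)
      ≤ lam + M * (lam⁻¹ * (E.card * usX ν u s)) := by
  refine le_trans ?_ (stepC2 ν u h s E μ M hμ hM lam hl0 hl1)
  have h1 : ∀ (π : List (Step d)), ∑' w : Site d, μ w * ∑' γ : List (Step d),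
      (if IsUp u h π ∧ IsDn u h γ ∧ endp 0 π ∈ E ∧ lev u w = 0 ∧ (∃ k, k ∈ Cm u w π γ) ∧
        (∀ k ∈ Cm u w π γ, s < k) then aw ν π * aw ν γ else 0)
      ≤ ∑' y : Site d, (if lev u y = h - 1 then (if π ∈ XE u h E then
        mY u μ y π * (aw ν π * ∑' γ : List (Step d), (if γ ∈ SX u h s y π then aw ν γ else 0))
          else 0) else 0) := by
    intro π
    obtain ⟨F, hF⟩ : ∃ F : Site d → ℝ≥0∞, ∀ w, F w = μ w * ∑' γ : List (Step d),
      (if IsUp u h π ∧ IsDn u h γ ∧ endp 0 π ∈ E ∧ lev u w = 0 ∧ (∃ k, k ∈ Cm u w π γ) ∧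
        (∀ k ∈ Cm u w π γ, s < k) then aw ν π * aw ν γ else 0) := ⟨_, fun w => rfl⟩
    simp_rw [← hF]
    rw [← (Equiv.addRight (-endp 0 π + stepVec u)).tsum_eq F]
    refine ENNReal.tsum_le_tsum fun y => ?_
    have hFF : F ((Equiv.addRight (-endp 0 π + stepVec u)) y)
        = F (y + (-endp 0 π + stepVec u)) := rfl
    rw [hFF, hF]
    obtain ⟨w, hw⟩ : ∃ w, w = y + (-endp 0 π + stepVec u) := ⟨_, rfl⟩
    rw [← hw]
    have hmy : mY u μ y π = μ w := by
      unfold mY; congr 1; rw [hw]; abel
    by_cases hU : IsUp u h π ∧ endp 0 π ∈ E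
    swap
    · have hz : ∀ γ, ¬ (IsUp u h π ∧ IsDn u h γ ∧ endp 0 π ∈ E ∧ lev u w = 0 ∧
          (∃ k, k ∈ Cm u w π γ) ∧ (∀ k ∈ Cm u w π γ, s < k)) := fun γ h2 => hU ⟨h2.1, h2.2.2.1⟩
      simp only [hz, if_false, mul_zero, tsum_zero]; exact zero_le
    have hlw : lev u w = lev u y - h + 1 := by
      rw [hw, lev_add', lev_add', lev_neg', hU.1.2, lev_self]; ring
    by_cases hy : lev u y = h - 1
    swap
    · have : ¬ lev u w = 0 := by rw [hlw]; omega
      simp only [this, false_and, and_false, if_false, mul_zero, tsum_zero]; exact zero_le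
    have hXE : π ∈ XE u h E := hU
    rw [if_pos hy, if_pos hXE, hmy]
    refine mul_le_mul_right ?_ _
    rw [← ENNReal.tsum_mul_left]
    refine ENNReal.tsum_le_tsum fun γ => ?_
    by_cases hc : IsUp u h π ∧ IsDn u h γ ∧ endp 0 π ∈ E ∧ lev u w = 0 ∧
        (∃ k, k ∈ Cm u w π γ) ∧ (∀ k ∈ Cm u w π γ, s < k)
    swap
    · rw [if_neg hc]; exact zero_le
    have hc' := hc
    obtain ⟨_, hD, _, _, ⟨k, p, hp1, hp2, hp3⟩, hall⟩ := hc
    have hst : w + stepVec (opp u) = y - endp 0 π := by
      have : stepVec (opp u) = - stepVec u := Flux566.stepVec_opp u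
      rw [hw, this]; abel
    have sh1 : ∀ q : Site d, q ∈ sitesL 0 π ↔ q - endp 0 π ∈ sitesL (-endp 0 π) π := by
      intro q
      have := mem_sitesL_add π (-endp 0 π) (endp 0 π) (q - endp 0 π)
      rw [sub_add_cancel, neg_add_cancel] at this
      exact this
    have sh2 : ∀ q : Site d, q ∈ sitesL y γ ↔ q - endp 0 π ∈ sitesL (w + stepVec (opp u)) γ := by
      intro q
      have := mem_sitesL_add γ (w + stepVec (opp u)) (endp 0 π) (q - endp 0 π)
      rw [sub_add_cancel, hst, sub_add_cancel] at this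
      rw [hst]
      exact this
    have hS : γ ∈ SX u h s y π := by
      refine ⟨hD, ⟨p + endp 0 π, ?_, ?_⟩, fun q hq1 hq2 => ?_⟩
      · rw [sh1, add_sub_cancel_right]; exact hp1
      · rw [sh2, add_sub_cancel_right]; exact hp2
      · have h3 := hU.1.1 q hq1
        have h4 : lev u (q - endp 0 π) = lev u q - h := by
          rw [sub_eq_add_neg, lev_add', lev_neg', hU.1.2]; ring
        have h5 := hall (h - lev u q).toNat ⟨q - endp 0 π, (sh1 q).1 hq1, (sh2 q).1 hq2, by
          rw [h4, Int.toNat_of_nonneg (by omega)]; ring⟩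
        have h6 : (((h : ℤ) - lev u q).toNat : ℤ) = h - lev u q := Int.toNat_of_nonneg (by omega)
        omega
    rw [if_pos hc', if_pos hS]
  calc _ = ∑' π : List (Step d), ∑' w : Site d, μ w * ∑' γ : List (Step d),
      (if IsUp u h π ∧ IsDn u h γ ∧ endp 0 π ∈ E ∧ lev u w = 0 ∧ (∃ k, k ∈ Cm u w π γ) ∧
        (∀ k ∈ Cm u w π γ, s < k) then aw ν π * aw ν γ else 0) := by
        rw [ENNReal.tsum_comm]
        refine tsum_congr fun w => ?_
        rw [ENNReal.tsum_mul_left]
    _ ≤ ∑' π : List (Step d), ∑' y : Site d, (if lev u y = h - 1 then (if π ∈ XE u h E then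
        mY u μ y π * (aw ν π * ∑' γ : List (Step d), (if γ ∈ SX u h s y π then aw ν γ else 0))
          else 0) else 0) := ENNReal.tsum_le_tsum h1
    _ = ∑' y : Site d, (if lev u y = h - 1 then ∑' π : List (Step d), (if π ∈ XE u h E then
        mY u μ y π * (aw ν π * ∑' γ : List (Step d), (if γ ∈ SX u h s y π then aw ν γ else 0))
          else 0) else 0) := by
        rw [ENNReal.tsum_comm]
        refine tsum_congr fun y => ?_
        by_cases hy : lev u y = h - 1
        · simp only [hy, if_true]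
        · simp [hy]
    _ ≤ _ := by
        refine ENNReal.tsum_le_tsum fun y => ?_
        by_cases hy : lev u y = h - 1
        · simp only [hy, if_true]
          refine ENNReal.tsum_le_tsum fun π => ?_
          by_cases hπ : π ∈ XE u h E
          · simp only [hπ, if_true]
            refine mul_le_mul_right ?_ _
            calc _ ≤ aw ν π * ∑' γ : List (Step d), (if γ ∈ GX u h s y π then aw ν γ else 0) :=
                  mul_le_mul_right (stepA2 ν u h s y hy π) _
              _ = _ := by
                  rw [← ENNReal.tsum_mul_left]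
                  refine tsum_congr fun γ => ?_
                  rw [mul_ite, mul_zero]
          · simp [hπ]
        · simp [hy]

end Crest.Agent.R154.W23
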