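import Crest.Agent.R154.Words_175

/-! Row 154, ROAD 801 (helper175): the window lemma (3) in words: `Y` explored (local), `X` anything,
weight on the landing of `X`, class thresholds. -/

set_option autoImplicit false

namespace Crest.Agent.R154.Win175

open MeasureTheory ProbabilityTheory Crest.ProbabilityR.RandomEnvironment Crest.Agent.R154
open Crest.Agent.R154.Flux132 (lev opp)
open Crest.Agent.R154.Flux566 (lw endp sitesL)
open Crest.Agent.R154.NB28 (aw)
open Crest.Agent.R154.Wd175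
open scoped ENNReal

variable {d : ℕ}

/-- `Z`: natural until it reaches a level `≥ t`, then back to a level `≤ b` -/
def ZW (u : Step d) (b t : ℤ) (Z : List (Step d)) : Prop :=
  ∃ Z1 Z2, Z = Z1 ++ Z2 ∧ (∀ z ∈ sitesL 0 Z1, 0 ≤ lev u z ∧ lev u z < t) ∧
    t ≤ lev u (endp 0 Z1) ∧ (∀ z ∈ sitesL (endp 0 Z1) Z2, b < lev u z) ∧ lev u (endp 0 Z) ≤ b

/-- has a prefix in `ZW` -/
def ZP (u : Step d) (b t : ℤ) (π : List (Step d)) : Prop := ∃ Z q, π = Z ++ q ∧ ZW u b t Z

/-- completions of `Y` from `v` -/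
def Cp (u : Step d) (b : ℤ) (E : Finset (Site d)) (y v : Site d) (l : List (Step d)) : Prop :=
  (∀ z ∈ sitesL v l, b < lev u z) ∧ lev u (endp v l) ≤ b ∧ endp v l - y ∈ E

open Classical in
/-- quenched probability of a completion -/
noncomputable def ev (u : Step d) (b : ℤ) (E : Finset (Site d)) (y : Site d) (ω : Environment d)
    (v : Site d) : ℝ≥0∞ := ∑' l : List (Step d), if Cp u b E y v l then lw ω v l else 0

/-- `p` = prefix of `X` up to its first hit of the trace of `Y` -/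
def Rp (u : Step d) (b t : ℤ) (y : Site d) (ρ p : List (Step d)) : Prop :=
  (∀ z ∈ sitesL 0 p, z ∉ sitesL y ρ) ∧ endp 0 p ∈ sitesL y ρ ∧ t ≤ lev u (endp 0 p) ∧
    (∀ z ∈ sitesL 0 p, 0 ≤ lev u z) ∧ ¬ ZP u b t p

lemma zw_of {u : Step d} {b t : ℤ} {y v : Site d} {E : Finset (Site d)} {ρ p l : List (Step d)}
    (hbt : b < t) (h : Rp u b t y ρ p) (hl : Cp u b E y (endp 0 p) l) : ZW u b t (p ++ l) := by
  obtain ⟨h1, h2, h3, h4, h5⟩ := h
  obtain ⟨Z1, r, hp, hZ1, hZ1e⟩ := first_hit' (D := fun z => t ≤ lev u z) (x := 0) (l := p) h3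
  have hr : ∀ z ∈ sitesL (endp 0 Z1) r, b < lev u z := by
    by_contra hcon
    push Not at hcon
    obtain ⟨p2, q2, hr2, _, hp2, hp2e⟩ :=
      first_hit (D := fun z => lev u z ≤ b) (x := endp 0 Z1) (l := r) hcon
    refine h5 ⟨Z1 ++ p2, q2, by rw [hp, hr2, List.append_assoc], Z1, p2, rfl, ?_, hZ1e, ?_, ?_⟩
    · intro z hz
      exact ⟨h4 z (by rw [hp, mem_sites_append]; exact Or.inl hz), not_le.1 (hZ1 z hz)⟩
    · exact fun z hz => not_le.1 (hp2 z hz)
    · rw [endp_append]; exact hp2e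
  refine ⟨Z1, r ++ l, by rw [hp, List.append_assoc], ?_, hZ1e, ?_, ?_⟩
  · intro z hz
    exact ⟨h4 z (by rw [hp, mem_sites_append]; exact Or.inl hz), not_le.1 (hZ1 z hz)⟩
  · intro z hz
    rw [mem_sites_append] at hz
    rcases hz with hz | hz
    · exact hr z hz
    · rw [← endp_append, ← hp] at hz
      exact hl.1 z hz
  · rw [endp_append]; exact hl.2.1

/-- a minimal prefix with a property -/
lemma min_prefix {D : List (Step d) → Prop} {p : List (Step d)} (h : D p) :
    ∃ p' q', p = p' ++ q' ∧ D p' ∧ ∀ p1 q1, p' = p1 ++ q1 → q1 ≠ [] → ¬ D p1 := by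
  induction hn : p.length using Nat.strong_induction_on generalizing p with
  | _ n ih =>
    by_cases hc : ∃ p1 q1, p = p1 ++ q1 ∧ q1 ≠ [] ∧ D p1
    · obtain ⟨p1, q1, hp, hq, hD⟩ := hc
      have hlt : p1.length < n := by
        rw [← hn, hp, List.length_append]
        have := List.length_pos_iff.2 hq
        omega
      obtain ⟨p', q', h1, h2, h3⟩ := ih _ hlt hD rfl
      exact ⟨p', q' ++ q1, by rw [hp, h1, List.append_assoc], h2, h3⟩
    · push Not at hc
      exact ⟨p, [], by simp, h, fun p1 q1 h1 h2 => hc p1 q1 h1 h2⟩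

open Classical in
/-- quenched strong Markov: passing through `bad` and completing -/
lemma markov {u : Step d} {b : ℤ} {E : Finset (Site d)} {y : Site d} (ω : Environment d)
    {FY : List (Step d) → Prop}
    (hY : ∀ ρ, FY ρ → (∀ z ∈ sitesL y ρ, b < lev u z) ∧ lev u (endp y ρ) ≤ b ∧
      endp y ρ - y ∈ E) (lam : ℝ≥0∞) :
    ∑' ρ : List (Step d), (if FY ρ ∧ ∃ v ∈ sitesL y ρ, ev u b E y ω v ≤ lam
      then lw ω y ρ else 0) ≤ lam := by
  set bad : Site d → Prop := fun v => ev u b E y ω v ≤ lam with hbad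
  set S : List (Step d) → Prop := fun p => (∀ z ∈ sitesL y p, ¬ bad z) ∧ bad (endp y p) with hS
  have hPF : PF S := by
    intro l l' h1 h2
    have := hit_unique (D := bad) (x := y) (p := l) (q := l') (p' := l ++ l') (q' := [])
      (by simp) h1.1 h1.2 h2.1 h2.2
    have h3 : l.length = (l ++ l').length := by rw [← this]
    rw [List.length_append] at h3
    exact List.length_eq_zero_iff.1 (by omega)
  calc _ ≤ ∑' p : List (Step d), ∑' q : List (Step d),
        (if S p then lw ω y p else 0) *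
          (if Cp u b E y (endp y p) q then lw ω (endp y p) q else 0) := by
        refine tsum_split _ _ fun ρ hρ => ?_
        have hc : FY ρ ∧ ∃ v ∈ sitesL y ρ, ev u b E y ω v ≤ lam := by
          by_contra h'
          exact hρ (if_neg h')
        obtain ⟨p, q, h1, h2, h3, h4⟩ := first_hit (D := bad) hc.2
        refine ⟨p, q, h1, ?_⟩
        obtain ⟨g1, g2, g3⟩ := hY ρ hc.1
        rw [if_pos hc, if_pos ⟨h3, h4⟩, if_pos]
        · rw [h1, lw_append]
        · refine ⟨fun z hz => g1 z ?_, ?_, ?_⟩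
          · rw [h1, mem_sites_append]; exact Or.inr hz
          · rw [← endp_append, ← h1]; exact g2
          · rw [← endp_append, ← h1]; exact g3
    _ ≤ ∑' p : List (Step d), (if S p then lw ω y p else 0) * lam := by
        refine ENNReal.tsum_le_tsum fun p => ?_
        rw [ENNReal.tsum_mul_left]
        by_cases hp : S p
        · rw [if_pos hp]
          exact mul_le_mul_right hp.2 _
        · simp [if_neg hp]
    _ = (∑' p : List (Step d), (if S p then lw ω y p else 0)) * lam := ENNReal.tsum_mul_right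
    _ ≤ 1 * lam := by
        refine mul_le_mul_left ?_ _
        convert kraft ω y hPF
    _ = lam := one_mul _

section main

variable (ν : Measure (Row d)) [IsProbabilityMeasure ν] (u : Step d)
  (FX FY : List (Step d) → Prop) (b t T : ℤ) (E : Finset (Site d)) (μ : Site d → ℝ≥0∞)
  (M : ℝ≥0∞)

open Classical in
/-- weight of the continuations of `X` after the prefix `p` -/
noncomputable def Gw (y : Site d) (p : List (Step d)) : ℝ≥0∞ :=
  ∑' q : List (Step d), if FX (p ++ q) then aw ν (p ++ q) * μ (y - endp 0 (p ++ q)) else 0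

/-- level of the class `j` -/
noncomputable def th (j : ℕ) : ℝ≥0∞ := M * ((2⁻¹ : ℝ≥0∞) ^ j * (2⁻¹ : ℝ≥0∞) ^ j)

/-- class `j` -/
def cls (j : ℕ) (y : Site d) (p : List (Step d)) : Prop :=
  Gw ν FX μ y p ≤ th M j * aw ν p ∧ th M (j + 1) * aw ν p < Gw ν FX μ y p

/-- minimal prefixes above the level `j + 1` -/
def Sm (j : ℕ) (y : Site d) (p : List (Step d)) : Prop :=
  th M (j + 1) * aw ν p < Gw ν FX μ y p ∧
    ∀ p1 q1, p = p1 ++ q1 → q1 ≠ [] → ¬ (th M (j + 1) * aw ν p1 < Gw ν FX μ y p1)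

lemma th_succ (j : ℕ) : th M j = 4 * th M (j + 1) := by
  unfold th
  have h2 : (2 : ℝ≥0∞)⁻¹ * 2 = 1 := ENNReal.inv_mul_cancel (by simp) (by simp)
  have h4 : (4 : ℝ≥0∞) = 2 * 2 := by norm_num
  rw [pow_succ, h4]
  have : 2 * 2 * (M * ((2⁻¹ : ℝ≥0∞) ^ j * 2⁻¹ * ((2⁻¹ : ℝ≥0∞) ^ j * 2⁻¹)))
      = M * ((2⁻¹ : ℝ≥0∞) ^ j * (2⁻¹ : ℝ≥0∞) ^ j) * ((2⁻¹ * 2) * (2⁻¹ * 2)) := by ring
  rw [this, h2]; simp

variable {ν FX FY μ M}

lemma aw_le_one (l : List (Step d)) : aw ν l ≤ 1 := by
  have h := kraft_ann ν (S := fun l' => l' = l) (by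
    intro a a' h1 h2
    have h3 : (a ++ a').length = a.length := by rw [h2, h1]
    rw [List.length_append] at h3
    exact List.length_eq_zero_iff.1 (by omega))
  classical
  refine le_trans ?_ h
  refine le_trans ?_ (ENNReal.le_tsum l)
  simp

lemma Gw_le (hFX : PF FX) (hM : ∀ x, μ x ≤ M) (y : Site d) (p : List (Step d)) :
    Gw ν FX μ y p ≤ M * aw ν p := by
  classical
  unfold Gw
  calc _ ≤ ∑' q : List (Step d), M * (if FX (p ++ q) then aw ν (p ++ q) else 0) := by
        refine ENNReal.tsum_le_tsum fun q => ?_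
        by_cases h : FX (p ++ q)
        · rw [if_pos h, if_pos h, mul_comm]
          exact mul_le_mul_left (hM _) _
        · rw [if_neg h]; exact zero_le
    _ ≤ _ := by
        rw [ENNReal.tsum_mul_left]
        exact mul_le_mul_right (cont_ann ν hFX p) _

open Classical in
lemma Gw_cls (hFX : PF FX) (hM : ∀ x, μ x ≤ M) (hMt : M ≠ ⊤) (y : Site d) (p : List (Step d)) :
    Gw ν FX μ y p ≤ ∑' j : ℕ, (if cls ν FX μ M j y p then th M j * aw ν p else 0) := by
  by_cases h0 : Gw ν FX μ y p = 0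
  · rw [h0]; exact zero_le
  have hle := Gw_le (ν := ν) hFX hM y p
  have hex : ∃ j : ℕ, th M (j + 1) * aw ν p < Gw ν FX μ y p := by
    have h1 : Filter.Tendsto (fun j : ℕ => (2⁻¹ : ℝ≥0∞) ^ (j + 1)) Filter.atTop (nhds 0) :=
      (ENNReal.tendsto_pow_atTop_nhds_zero_of_lt_one (by simp)).comp
        (Filter.tendsto_add_atTop_nat 1)
    have h2 : Filter.Tendsto (fun j : ℕ => (M * aw ν p) * (2⁻¹ : ℝ≥0∞) ^ (j + 1)) Filter.atTop
        (nhds ((M * aw ν p) * 0)) := ENNReal.Tendsto.const_mul h1 (Or.inr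
          (ENNReal.mul_ne_top hMt ((aw_le_one p).trans_lt ENNReal.one_lt_top).ne))
    rw [mul_zero] at h2
    obtain ⟨j, hj⟩ := (h2.eventually (gt_mem_nhds (pos_iff_ne_zero.2 h0))).exists
    refine ⟨j, lt_of_le_of_lt ?_ hj⟩
    unfold th
    have h3 : (2⁻¹ : ℝ≥0∞) ^ (j + 1) ≤ 1 := pow_le_one₀ zero_le (by simp)
    calc M * ((2⁻¹ : ℝ≥0∞) ^ (j + 1) * (2⁻¹ : ℝ≥0∞) ^ (j + 1)) * aw ν p
        = (M * aw ν p) * (2⁻¹ : ℝ≥0∞) ^ (j + 1) * (2⁻¹ : ℝ≥0∞) ^ (j + 1) := by ring
      _ ≤ (M * aw ν p) * (2⁻¹ : ℝ≥0∞) ^ (j + 1) * 1 := mul_le_mul_right h3 _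
      _ = _ := mul_one _
  have hj := Nat.find_spec hex
  set j := Nat.find hex with hjdef
  have hc : cls ν FX μ M j y p := by
    refine ⟨?_, hj⟩
    rcases Nat.eq_zero_or_pos j with h | h
    · rw [h]; simpa [th] using hle
    · obtain ⟨i, hi⟩ : ∃ i, j = i + 1 := ⟨j - 1, by omega⟩
      rw [hi]
      exact not_lt.1 (Nat.find_min hex (m := i) (by omega))
  refine le_trans ?_ (ENNReal.le_tsum j)
  rw [if_pos hc]
  exact hc.1

open Classical in
/-- the pointwise inequality for a class `j` -/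
lemma phi_le (hFY : PF FY) (hbt : b < t) {y : Site d}
    (hY : ∀ ρ, FY ρ → (∀ z ∈ sitesL y ρ, b < lev u z) ∧ lev u (endp y ρ) ≤ b ∧
      endp y ρ - y ∈ E) (j : ℕ) {lam : ℝ≥0∞} (hl0 : lam ≠ 0) (hlt : lam ≠ ⊤) (ω : Environment d) :
    ∑' ρ : List (Step d), ∑' p : List (Step d),
      (if FY ρ ∧ Rp u b t y ρ p ∧ cls ν FX μ M j y p then lw ω 0 p * lw ω y ρ else 0)
      ≤ lam * (∑' p : List (Step d), (if Sm ν FX μ M j y p then lw ω 0 p else 0))
        + lam⁻¹ * ∑' Z : List (Step d), (if ZW u b t Z ∧ endp 0 Z - y ∈ E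
          then lw ω 0 Z else 0) := by
  set SS := ∑' p : List (Step d), (if Sm ν FX μ M j y p then lw ω 0 p else 0) with hSS
  set ZZ := ∑' Z : List (Step d), (if ZW u b t Z ∧ endp 0 Z - y ∈ E then lw ω 0 Z else 0) with hZZ
  have hPFR : ∀ ρ, PF fun p => Rp u b t y ρ p := by
    intro ρ l l' h1 h2
    have := hit_unique (D := fun z => z ∈ sitesL y ρ) (x := 0) (p := l) (q := l')
      (p' := l ++ l') (q' := []) (by simp) h1.1 h1.2.1 h2.1 h2.2.1
    have h3 : l.length = (l ++ l').length := by rw [← this]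
    rw [List.length_append] at h3
    exact List.length_eq_zero_iff.1 (by omega)
  -- part (a)
  have ha : ∀ ρ, ∑' p : List (Step d), (if FY ρ ∧ Rp u b t y ρ p ∧ cls ν FX μ M j y p ∧
      ev u b E y ω (endp 0 p) ≤ lam then lw ω 0 p * lw ω y ρ else 0)
      ≤ (if FY ρ ∧ ∃ v ∈ sitesL y ρ, ev u b E y ω v ≤ lam then lw ω y ρ else 0) * SS := by
    intro ρ
    by_cases hρ : FY ρ ∧ ∃ v ∈ sitesL y ρ, ev u b E y ω v ≤ lam
    · rw [if_pos hρ]
      calc _ ≤ ∑' p : List (Step d), lw ω y ρ *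
            (if Rp u b t y ρ p ∧ cls ν FX μ M j y p then lw ω 0 p else 0) := by
            refine ENNReal.tsum_le_tsum fun p => ?_
            by_cases h : FY ρ ∧ Rp u b t y ρ p ∧ cls ν FX μ M j y p ∧
                ev u b E y ω (endp 0 p) ≤ lam
            · rw [if_pos h, if_pos ⟨h.2.1, h.2.2.1⟩, mul_comm]
            · rw [if_neg h]; exact zero_le
        _ ≤ _ := by
            rw [ENNReal.tsum_mul_left]
            refine mul_le_mul_right ?_ _
            have hd := dom ω 0 (F := fun p => Rp u b t y ρ p ∧ cls ν FX μ M j y p)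
              (S := fun p => Sm ν FX μ M j y p)
              (PF.mono (S' := fun p => Rp u b t y ρ p ∧ cls ν FX μ M j y p) (hPFR ρ)
                fun l h => h.1) (by
                intro l hl
                obtain ⟨p', q', h1, h2, h3⟩ := min_prefix
                  (D := fun p => th M (j + 1) * aw ν p < Gw ν FX μ y p) hl.2.2
                exact ⟨p', q', h1, h2, h3⟩)
            convert hd
    · rw [if_neg hρ, zero_mul]
      refine le_of_eq (ENNReal.tsum_eq_zero.2 fun p => if_neg ?_)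
      rintro ⟨h1, h2, _, h4⟩
      exact hρ ⟨h1, _, h2.2.1, h4⟩
  -- part (b)
  have hb : ∀ ρ, ∑' p : List (Step d), (if FY ρ ∧ Rp u b t y ρ p ∧
      ¬ ev u b E y ω (endp 0 p) ≤ lam then lw ω 0 p * lw ω y ρ else 0)
      ≤ (if FY ρ then lw ω y ρ else 0) * (lam⁻¹ * ZZ) := by
    intro ρ
    by_cases hρ : FY ρ
    · rw [if_pos hρ]
      have h1 : ∀ p : List (Step d), (if FY ρ ∧ Rp u b t y ρ p ∧
          ¬ ev u b E y ω (endp 0 p) ≤ lam then lw ω 0 p * lw ω y ρ else 0)
          ≤ lw ω y ρ * (lam⁻¹ * ∑' q : List (Step d), (if Rp u b t y ρ p ∧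
            Cp u b E y (endp 0 p) q then lw ω 0 (p ++ q) else 0)) := by
        intro p
        by_cases h : FY ρ ∧ Rp u b t y ρ p ∧ ¬ ev u b E y ω (endp 0 p) ≤ lam
        · rw [if_pos h, mul_comm]
          refine mul_le_mul_right ?_ _
          have h2 : ∑' q : List (Step d), (if Rp u b t y ρ p ∧
              Cp u b E y (endp 0 p) q then lw ω 0 (p ++ q) else 0)
              = lw ω 0 p * ev u b E y ω (endp 0 p) := by
            unfold ev
            rw [← ENNReal.tsum_mul_left]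
            refine tsum_congr fun q => ?_
            by_cases hq : Cp u b E y (endp 0 p) q
            · rw [if_pos ⟨h.2.1, hq⟩, if_pos hq, lw_append]
            · rw [if_neg (fun h' => hq h'.2), if_neg hq, mul_zero]
          rw [h2]
          have h3 : 1 ≤ lam⁻¹ * ev u b E y ω (endp 0 p) := by
            calc (1 : ℝ≥0∞) = lam⁻¹ * lam := (ENNReal.inv_mul_cancel hl0 hlt).symm
              _ ≤ _ := mul_le_mul_right (not_le.1 h.2.2).le _
          calc lw ω 0 p = lw ω 0 p * 1 := (mul_one _).symm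
            _ ≤ lw ω 0 p * (lam⁻¹ * ev u b E y ω (endp 0 p)) := mul_le_mul_right h3 _
            _ = _ := by ring
        · rw [if_neg h]; exact zero_le
      calc _ ≤ ∑' p : List (Step d), lw ω y ρ * (lam⁻¹ * ∑' q : List (Step d),
            (if Rp u b t y ρ p ∧ Cp u b E y (endp 0 p) q then lw ω 0 (p ++ q) else 0)) :=
            ENNReal.tsum_le_tsum h1
        _ = lw ω y ρ * (lam⁻¹ * ∑' p : List (Step d), ∑' q : List (Step d),
            (if Rp u b t y ρ p ∧ Cp u b E y (endp 0 p) q then lw ω 0 (p ++ q) else 0)) := by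
            rw [ENNReal.tsum_mul_left, ENNReal.tsum_mul_left]
        _ ≤ _ := by
            refine mul_le_mul_right (mul_le_mul_right ?_ _) _
            refine tsum_merge _ _ (fun p q => ?_) (fun p q p' q' h h' heq => ?_)
            · by_cases h : Rp u b t y ρ p ∧ Cp u b E y (endp 0 p) q
              · rw [if_pos h, if_pos]
                exact ⟨zw_of (v := y) hbt h.1 h.2, by rw [endp_append]; exact h.2.2.2⟩
              · rw [if_neg h]; exact zero_le
            · have g : Rp u b t y ρ p := by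
                by_contra h0
                exact h (if_neg fun h1 => h0 h1.1)
              have g' : Rp u b t y ρ p' := by
                by_contra h0
                exact h' (if_neg fun h1 => h0 h1.1)
              exact hit_unique (D := fun z => z ∈ sitesL y ρ) (x := 0) heq g.1 g.2.1 g'.1 g'.2.1
    · rw [if_neg hρ, zero_mul]
      exact le_of_eq (ENNReal.tsum_eq_zero.2 fun p => if_neg fun h => hρ h.1)
  calc _ ≤ ∑' ρ : List (Step d), ((∑' p : List (Step d), (if FY ρ ∧ Rp u b t y ρ p ∧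
        cls ν FX μ M j y p ∧ ev u b E y ω (endp 0 p) ≤ lam then lw ω 0 p * lw ω y ρ else 0))
        + ∑' p : List (Step d), (if FY ρ ∧ Rp u b t y ρ p ∧
          ¬ ev u b E y ω (endp 0 p) ≤ lam then lw ω 0 p * lw ω y ρ else 0)) := by
        refine ENNReal.tsum_le_tsum fun ρ => ?_
        rw [← ENNReal.tsum_add]
        refine ENNReal.tsum_le_tsum fun p => ?_
        by_cases h : FY ρ ∧ Rp u b t y ρ p ∧ cls ν FX μ M j y p
        · rw [if_pos h]
          by_cases h' : ev u b E y ω (endp 0 p) ≤ lam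
          · rw [if_pos ⟨h.1, h.2.1, h.2.2, h'⟩]; exact le_self_add
          · rw [if_pos (⟨h.1, h.2.1, h'⟩ : FY ρ ∧ Rp u b t y ρ p ∧
              ¬ ev u b E y ω (endp 0 p) ≤ lam)]; exact le_add_self
        · rw [if_neg h]; exact zero_le
    _ ≤ ∑' ρ : List (Step d), ((if FY ρ ∧ ∃ v ∈ sitesL y ρ, ev u b E y ω v ≤ lam
          then lw ω y ρ else 0) * SS + (if FY ρ then lw ω y ρ else 0) * (lam⁻¹ * ZZ)) :=
        ENNReal.tsum_le_tsum fun ρ => add_le_add (ha ρ) (hb ρ)
    _ = (∑' ρ : List (Step d), (if FY ρ ∧ ∃ v ∈ sitesL y ρ, ev u b E y ω v ≤ lam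
          then lw ω y ρ else 0)) * SS
        + (∑' ρ : List (Step d), (if FY ρ then lw ω y ρ else 0)) * (lam⁻¹ * ZZ) := by
        rw [ENNReal.tsum_add, ENNReal.tsum_mul_right, ENNReal.tsum_mul_right]
    _ ≤ lam * SS + 1 * (lam⁻¹ * ZZ) :=
        add_le_add (mul_le_mul_left (markov ω hY lam) _) (mul_le_mul_left (kraft ω y hFY) _)
    _ = _ := by rw [one_mul]

open Classical in
lemma sum_Sm (y : Site d) (j : ℕ) :
    th M j * (∑' p : List (Step d), (if Sm ν FX μ M j y p then aw ν p else 0))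
      ≤ 4 * ∑' π : List (Step d), (if FX π then aw ν π * μ (y - endp 0 π) else 0) := by
  rw [th_succ, mul_assoc]
  refine mul_le_mul_right ?_ _
  rw [← ENNReal.tsum_mul_left]
  calc _ ≤ ∑' p : List (Step d), ∑' q : List (Step d),
        (if Sm ν FX μ M j y p ∧ FX (p ++ q) then aw ν (p ++ q) * μ (y - endp 0 (p ++ q))
          else 0) := by
        refine ENNReal.tsum_le_tsum fun p => ?_
        by_cases h : Sm ν FX μ M j y p
        · rw [if_pos h]
          refine h.1.le.trans ?_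
          unfold Gw
          refine ENNReal.tsum_le_tsum fun q => ?_
          by_cases hq : FX (p ++ q)
          · rw [if_pos hq, if_pos ⟨h, hq⟩]
          · rw [if_neg hq]; exact zero_le
        · rw [if_neg h, mul_zero]; exact zero_le
    _ ≤ _ := by
        refine tsum_merge _ _ (fun p q => ?_) (fun p q p' q' h h' heq => ?_)
        · by_cases h : Sm ν FX μ M j y p ∧ FX (p ++ q)
          · rw [if_pos h, if_pos h.2]
          · rw [if_neg h]; exact zero_le
        · have g : Sm ν FX μ M j y p := by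
            by_contra h0
            exact h (if_neg fun h1 => h0 h1.1)
          have g' : Sm ν FX μ M j y p' := by
            by_contra h0
            exact h' (if_neg fun h1 => h0 h1.1)
          rcases List.append_eq_append_iff.1 heq with ⟨a, ha, _⟩ | ⟨a, ha, _⟩
          · by_cases h0 : a = []
            · rw [ha, h0, List.append_nil]
            · exact absurd g.1 (g'.2 p a ha h0)
          · by_cases h0 : a = []
            · rw [ha, h0, List.append_nil]
            · exact absurd g'.1 (g.2 p' a ha h0)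

lemma meas_ite (c : Prop) [Decidable c] {f : Environment d → ℝ≥0∞} (hf : Measurable f) :
    Measurable fun ω => if c then f ω else 0 := by
  by_cases h : c
  · simpa [h] using hf
  · simp [h]

open Classical in
/-- the class form of the main part, one start `y` -/
lemma B_le (hFX : PF FX) (hFY : PF FY) (hM : ∀ x, μ x ≤ M) (hMt : M ≠ ⊤) (hbt : b < t)
    {y : Site d}
    (hY : ∀ ρ, FY ρ → (∀ z ∈ sitesL y ρ, b < lev u z) ∧ lev u (endp y ρ) ≤ b ∧
      endp y ρ - y ∈ E) {lam : ℝ≥0∞} (hl0 : lam ≠ 0) (hlt : lam ≠ ⊤) :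
    ∑' ρ : List (Step d), ∑' p : List (Step d),
      (if FY ρ ∧ Rp u b t y ρ p then Gw ν FX μ y p * aw ν ρ else 0)
      ≤ 8 * lam * (∑' π : List (Step d), (if FX π then aw ν π * μ (y - endp 0 π) else 0))
        + 2 * (M * lam⁻¹) * ∑' Z : List (Step d), (if ZW u b t Z ∧ endp 0 Z - y ∈ E
          then aw ν Z else 0) := by
  set Q := iidEnvironmentLaw ν with hQ
  set XX := ∑' π : List (Step d), (if FX π then aw ν π * μ (y - endp 0 π) else 0) with hXX
  set YY := ∑' Z : List (Step d), (if ZW u b t Z ∧ endp 0 Z - y ∈ E then aw ν Z else 0) with hYY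
  set f : ℕ → List (Step d) → List (Step d) → Environment d → ℝ≥0∞ := fun j ρ p ω =>
    if FY ρ ∧ Rp u b t y ρ p ∧ cls ν FX μ M j y p then lw ω 0 p * lw ω y ρ else 0 with hf
  have hfm : ∀ j ρ p, Measurable (f j ρ p) := fun j ρ p =>
    meas_ite _ ((Flux566.measurable_lw 0 p).mul (Flux566.measurable_lw y ρ))
  have h1 : ∀ ρ p, (if FY ρ ∧ Rp u b t y ρ p then Gw ν FX μ y p * aw ν ρ else 0)
      ≤ ∑' j : ℕ, th M j * ∫⁻ ω, f j ρ p ω ∂Q := by
    intro ρ p
    by_cases h : FY ρ ∧ Rp u b t y ρ p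
    · rw [if_pos h]
      calc Gw ν FX μ y p * aw ν ρ
          ≤ (∑' j : ℕ, (if cls ν FX μ M j y p then th M j * aw ν p else 0)) * aw ν ρ :=
            mul_le_mul_left (Gw_cls hFX hM hMt y p) _
        _ = ∑' j : ℕ, (if cls ν FX μ M j y p then th M j * aw ν p else 0) * aw ν ρ :=
            ENNReal.tsum_mul_right.symm
        _ ≤ _ := by
            refine ENNReal.tsum_le_tsum fun j => ?_
            by_cases hj : cls ν FX μ M j y p
            · rw [if_pos hj]
              have h2 : ∫⁻ ω, f j ρ p ω ∂Q = aw ν p * aw ν ρ := by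
                simp only [hf, if_pos (⟨h.1, h.2, hj⟩ : FY ρ ∧ Rp u b t y ρ p ∧
                  cls ν FX μ M j y p)]
                exact lint_lw_mul ν h.2.1
              rw [h2, mul_assoc]
            · rw [if_neg hj, zero_mul]; exact zero_le
    · rw [if_neg h]; exact zero_le
  have h2 : ∀ j, ∑' ρ : List (Step d), ∑' p : List (Step d), ∫⁻ ω, f j ρ p ω ∂Q
      = ∫⁻ ω, ∑' ρ : List (Step d), ∑' p : List (Step d), f j ρ p ω ∂Q := by
    intro j
    rw [lintegral_tsum fun ρ => (Measurable.ennreal_tsum fun p => hfm j ρ p).aemeasurable]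
    exact tsum_congr fun ρ => (lintegral_tsum fun p => (hfm j ρ p).aemeasurable).symm
  have h3 : ∀ j : ℕ, th M j * ∫⁻ ω, ∑' ρ : List (Step d), ∑' p : List (Step d), f j ρ p ω ∂Q
      ≤ (2⁻¹ : ℝ≥0∞) ^ j * (4 * lam * XX + M * lam⁻¹ * YY) := by
    intro j
    have ha0 : (2⁻¹ : ℝ≥0∞) ^ j ≠ 0 := pow_ne_zero _ (by simp)
    have hat : (2⁻¹ : ℝ≥0∞) ^ j ≠ ⊤ := ENNReal.pow_ne_top (by simp)
    have hlj0 : lam * (2⁻¹ : ℝ≥0∞) ^ j ≠ 0 := mul_ne_zero hl0 ha0
    have hljt : lam * (2⁻¹ : ℝ≥0∞) ^ j ≠ ⊤ := ENNReal.mul_ne_top hlt hat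
    have h4 : ∫⁻ ω, ∑' ρ : List (Step d), ∑' p : List (Step d), f j ρ p ω ∂Q
        ≤ (lam * (2⁻¹ : ℝ≥0∞) ^ j) *
            (∑' p : List (Step d), (if Sm ν FX μ M j y p then aw ν p else 0))
          + (lam * (2⁻¹ : ℝ≥0∞) ^ j)⁻¹ * YY := by
      calc _ ≤ ∫⁻ ω, ((lam * (2⁻¹ : ℝ≥0∞) ^ j) *
              (∑' p : List (Step d), (if Sm ν FX μ M j y p then lw ω 0 p else 0))
            + (lam * (2⁻¹ : ℝ≥0∞) ^ j)⁻¹ * ∑' Z : List (Step d),
              (if ZW u b t Z ∧ endp 0 Z - y ∈ E then lw ω 0 Z else 0)) ∂Q :=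
            lintegral_mono fun ω => phi_le (ν := ν) u b t E hFY hbt hY j hlj0 hljt ω
        _ = _ := by
            have m1 : Measurable fun ω : Environment d =>
                ∑' p : List (Step d), (if Sm ν FX μ M j y p then lw ω 0 p else 0) :=
              Measurable.ennreal_tsum fun p => meas_ite _ (Flux566.measurable_lw 0 p)
            have m2 : Measurable fun ω : Environment d => ∑' Z : List (Step d),
                (if ZW u b t Z ∧ endp 0 Z - y ∈ E then lw ω 0 Z else 0) :=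
              Measurable.ennreal_tsum fun p => meas_ite _ (Flux566.measurable_lw 0 p)
            rw [lintegral_add_left (m1.const_mul _), lintegral_const_mul _ m1,
              lintegral_const_mul _ m2]
            congr 2
            · exact lint_tsum ν 0 _
            · have := lint_tsum ν 0 (fun Z => ZW u b t Z ∧ endp 0 Z - y ∈ E)
              rw [hYY]
              convert this
    calc _ ≤ th M j * ((lam * (2⁻¹ : ℝ≥0∞) ^ j) *
            (∑' p : List (Step d), (if Sm ν FX μ M j y p then aw ν p else 0))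
          + (lam * (2⁻¹ : ℝ≥0∞) ^ j)⁻¹ * YY) := mul_le_mul_right h4 _
      _ = (lam * (2⁻¹ : ℝ≥0∞) ^ j) * (th M j *
            (∑' p : List (Step d), (if Sm ν FX μ M j y p then aw ν p else 0)))
          + th M j * (lam * (2⁻¹ : ℝ≥0∞) ^ j)⁻¹ * YY := by ring
      _ ≤ (lam * (2⁻¹ : ℝ≥0∞) ^ j) * (4 * XX)
          + (2⁻¹ : ℝ≥0∞) ^ j * (M * lam⁻¹) * YY := by
          refine add_le_add (mul_le_mul_right (sum_Sm y j) _) (le_of_eq ?_)
          congr 1
          unfold th
          rw [ENNReal.mul_inv (Or.inl hl0) (Or.inl hlt)]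
          calc M * ((2⁻¹ : ℝ≥0∞) ^ j * (2⁻¹ : ℝ≥0∞) ^ j) * (lam⁻¹ * ((2⁻¹ : ℝ≥0∞) ^ j)⁻¹)
              = ((2⁻¹ : ℝ≥0∞) ^ j * (M * lam⁻¹)) * ((2⁻¹ : ℝ≥0∞) ^ j * ((2⁻¹ : ℝ≥0∞) ^ j)⁻¹) := by
                ring
            _ = _ := by rw [ENNReal.mul_inv_cancel ha0 hat, mul_one]
      _ = _ := by ring
  have hgeo : ∑' j : ℕ, (2⁻¹ : ℝ≥0∞) ^ j = 2 := by
    rw [ENNReal.tsum_geometric, ENNReal.one_sub_inv_two, inv_inv]
  calc _ ≤ ∑' ρ : List (Step d), ∑' p : List (Step d), ∑' j : ℕ, th M j * ∫⁻ ω, f j ρ p ω ∂Q :=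
        ENNReal.tsum_le_tsum fun ρ => ENNReal.tsum_le_tsum fun p => h1 ρ p
    _ = ∑' j : ℕ, ∑' ρ : List (Step d), ∑' p : List (Step d), th M j * ∫⁻ ω, f j ρ p ω ∂Q := by
        rw [ENNReal.tsum_comm]
        conv_rhs => rw [ENNReal.tsum_comm]
        rw [ENNReal.tsum_comm]
        exact tsum_congr fun ρ => ENNReal.tsum_comm
    _ = ∑' j : ℕ, th M j * ∫⁻ ω, ∑' ρ : List (Step d), ∑' p : List (Step d), f j ρ p ω ∂Q := by
        refine tsum_congr fun j => ?_
        rw [← h2 j, ← ENNReal.tsum_mul_left]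
        exact tsum_congr fun ρ => ENNReal.tsum_mul_left
    _ ≤ ∑' j : ℕ, (2⁻¹ : ℝ≥0∞) ^ j * (4 * lam * XX + M * lam⁻¹ * YY) :=
        ENNReal.tsum_le_tsum h3
    _ = 2 * (4 * lam * XX + M * lam⁻¹ * YY) := by rw [ENNReal.tsum_mul_right, hgeo]
    _ = _ := by ring

open Classical in
/-- **the window lemma (3)**: `Y` explored and local, `X` anything -/
theorem win3 (hFX : PF FX) (hFY : PF FY) (hX0 : ∀ π, FX π → ∀ z ∈ sitesL 0 π, 0 ≤ lev u z)
    (hbt : b < t)
    (hY : ∀ y ρ, lev u y = T → FY ρ → (∀ z ∈ sitesL y ρ, b < lev u z) ∧ lev u (endp y ρ) ≤ b ∧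
      endp y ρ - y ∈ E)
    (hμ : ∑' x, μ x ≤ 1) (hM : ∀ x, μ x ≤ M) (hMt : M ≠ ⊤) {lam us : ℝ≥0∞} (hl0 : lam ≠ 0)
    (hlt : lam ≠ ⊤) (hus : ∑' Z : List (Step d), (if ZW u b t Z then aw ν Z else 0) ≤ us) :
    ∑' y : Site d, ∑' π : List (Step d), ∑' ρ : List (Step d),
      (if lev u y = T ∧ FX π ∧ FY ρ ∧ (∃ z ∈ sitesL 0 π, z ∈ sitesL y ρ) ∧
        (∀ z ∈ sitesL 0 π, z ∈ sitesL y ρ → t ≤ lev u z)
      then μ (y - endp 0 π) * (aw ν π * aw ν ρ) else 0)
      ≤ 8 * lam + 2 * (M * lam⁻¹ * (E.card * us)) + us := by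
  set A : Site d → ℝ≥0∞ := fun y => ∑' π : List (Step d), ∑' ρ : List (Step d),
    (if (FX π ∧ ZP u b t π) ∧ FY ρ then μ (y - endp 0 π) * (aw ν π * aw ν ρ) else 0) with hA
  set XX : Site d → ℝ≥0∞ := fun y => ∑' π : List (Step d),
    (if FX π then aw ν π * μ (y - endp 0 π) else 0) with hXX
  set YY : Site d → ℝ≥0∞ := fun y => ∑' Z : List (Step d),
    (if ZW u b t Z ∧ endp 0 Z - y ∈ E then aw ν Z else 0) with hYY
  have hshift : ∀ v : Site d, ∑' y : Site d, μ (y - v) ≤ 1 := fun v =>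
    (le_of_eq ((Equiv.subRight v).tsum_eq μ)).trans hμ
  -- per start
  have hper : ∀ y : Site d, ∑' π : List (Step d), ∑' ρ : List (Step d),
      (if lev u y = T ∧ FX π ∧ FY ρ ∧ (∃ z ∈ sitesL 0 π, z ∈ sitesL y ρ) ∧
        (∀ z ∈ sitesL 0 π, z ∈ sitesL y ρ → t ≤ lev u z)
      then μ (y - endp 0 π) * (aw ν π * aw ν ρ) else 0)
      ≤ A y + (8 * lam * XX y + 2 * (M * lam⁻¹) * YY y) := by
    intro y
    by_cases hy : lev u y = T
    · have hYy := fun ρ => hY y ρ hy
      refine le_trans ?_ (add_le_add le_rfl (B_le (ν := ν) u b t E hFX hFY hM hMt hbt hYy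
        hl0 hlt))
      calc _ ≤ ∑' π : List (Step d), ∑' ρ : List (Step d),
            ((if (FX π ∧ ZP u b t π) ∧ FY ρ then μ (y - endp 0 π) * (aw ν π * aw ν ρ) else 0)
            + (if FX π ∧ ¬ ZP u b t π ∧ FY ρ ∧ (∃ z ∈ sitesL 0 π, z ∈ sitesL y ρ) ∧
                (∀ z ∈ sitesL 0 π, z ∈ sitesL y ρ → t ≤ lev u z)
              then μ (y - endp 0 π) * (aw ν π * aw ν ρ) else 0)) := by
            refine ENNReal.tsum_le_tsum fun π => ENNReal.tsum_le_tsum fun ρ => ?_
            by_cases h : lev u y = T ∧ FX π ∧ FY ρ ∧ (∃ z ∈ sitesL 0 π, z ∈ sitesL y ρ) ∧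
                (∀ z ∈ sitesL 0 π, z ∈ sitesL y ρ → t ≤ lev u z)
            · rw [if_pos h]
              by_cases hz : ZP u b t π
              · rw [if_pos ⟨⟨h.2.1, hz⟩, h.2.2.1⟩]; exact le_self_add
              · rw [if_pos (⟨h.2.1, hz, h.2.2.1, h.2.2.2.1, h.2.2.2.2⟩ : FX π ∧
                  ¬ ZP u b t π ∧ FY ρ ∧ (∃ z ∈ sitesL 0 π, z ∈ sitesL y ρ) ∧
                  (∀ z ∈ sitesL 0 π, z ∈ sitesL y ρ → t ≤ lev u z))]
                exact le_add_self
            · rw [if_neg h]; exact zero_le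
        _ = A y + ∑' ρ : List (Step d), ∑' π : List (Step d),
              (if FX π ∧ ¬ ZP u b t π ∧ FY ρ ∧ (∃ z ∈ sitesL 0 π, z ∈ sitesL y ρ) ∧
                (∀ z ∈ sitesL 0 π, z ∈ sitesL y ρ → t ≤ lev u z)
              then μ (y - endp 0 π) * (aw ν π * aw ν ρ) else 0) := by
            simp only [ENNReal.tsum_add]
            congr 1
            exact ENNReal.tsum_comm
        _ ≤ _ := by
            refine add_le_add le_rfl (ENNReal.tsum_le_tsum fun ρ => ?_)
            calc _ ≤ ∑' p : List (Step d), ∑' q : List (Step d),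
                  (if FY ρ ∧ Rp u b t y ρ p then 1 else 0) * ((if FX (p ++ q) then
                    aw ν (p ++ q) * μ (y - endp 0 (p ++ q)) else 0) * aw ν ρ) := by
                  refine tsum_split _ _ fun π hπ => ?_
                  have h : FX π ∧ ¬ ZP u b t π ∧ FY ρ ∧ (∃ z ∈ sitesL 0 π, z ∈ sitesL y ρ) ∧
                      (∀ z ∈ sitesL 0 π, z ∈ sitesL y ρ → t ≤ lev u z) := by
                    by_contra h'
                    exact hπ (if_neg h')
                  obtain ⟨g1, g2, g3, g4, g5⟩ := h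
                  obtain ⟨p, q, e1, e2, e3, e4⟩ :=
                    first_hit (D := fun z => z ∈ sitesL y ρ) g4
                  have hmem : endp 0 p ∈ sitesL 0 π := by
                    rw [e1]; exact endp_mem_of_append e2
                  have hR : Rp u b t y ρ p := by
                    refine ⟨e3, e4, g5 _ hmem e4, fun z hz => hX0 π g1 z ?_, ?_⟩
                    · rw [e1, mem_sites_append]; exact Or.inl hz
                    · rintro ⟨Z, r, h1, h2⟩
                      exact g2 ⟨Z, r ++ q, by rw [e1, h1, List.append_assoc], h2⟩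
                  refine ⟨p, q, e1, ?_⟩
                  rw [if_pos ⟨g1, g2, g3, g4, g5⟩, if_pos ⟨g3, hR⟩, ← e1, if_pos g1, one_mul]
                  exact le_of_eq (by ring)
              _ ≤ _ := by
                  refine ENNReal.tsum_le_tsum fun p => ?_
                  rw [ENNReal.tsum_mul_left, ENNReal.tsum_mul_right]
                  by_cases h : FY ρ ∧ Rp u b t y ρ p
                  · rw [if_pos h, if_pos h, one_mul]; exact le_rfl
                  · rw [if_neg h, if_neg h, zero_mul]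
    · refine le_trans (le_of_eq ?_) zero_le
      refine ENNReal.tsum_eq_zero.2 fun π => ENNReal.tsum_eq_zero.2 fun ρ => if_neg ?_
      exact fun h => hy h.1
  -- sums over the start
  have hAs : ∑' y, A y ≤ us := by
    have hZP : ∑' π : List (Step d), (if FX π ∧ ZP u b t π then aw ν π else 0) ≤ us := by
      refine le_trans ?_ hus
      have := dom_ann ν (F := fun π => FX π ∧ ZP u b t π) (S := fun Z => ZW u b t Z)
        (PF.mono (S' := fun π => FX π ∧ ZP u b t π) hFX fun l h => h.1)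
        (fun l hl => by obtain ⟨Z, q, h1, h2⟩ := hl.2; exact ⟨Z, q, h1, h2⟩)
      refine le_trans (le_of_eq (tsum_congr fun π => ?_)) this
      by_cases h : FX π ∧ ZP u b t π
      · rw [if_pos h, if_pos h]
      · rw [if_neg h, if_neg h]
    calc ∑' y, A y = ∑' π : List (Step d), ∑' ρ : List (Step d), ∑' y : Site d,
          (if (FX π ∧ ZP u b t π) ∧ FY ρ then μ (y - endp 0 π) * (aw ν π * aw ν ρ) else 0) := by
          simp only [hA]
          rw [ENNReal.tsum_comm]
          exact tsum_congr fun π => ENNReal.tsum_comm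
      _ ≤ ∑' π : List (Step d), ∑' ρ : List (Step d),
          (if FX π ∧ ZP u b t π then aw ν π else 0) * (if FY ρ then aw ν ρ else 0) := by
          refine ENNReal.tsum_le_tsum fun π => ENNReal.tsum_le_tsum fun ρ => ?_
          by_cases h : (FX π ∧ ZP u b t π) ∧ FY ρ
          · simp only [if_pos h, if_pos h.1, if_pos h.2]
            rw [ENNReal.tsum_mul_right]
            calc _ ≤ 1 * (aw ν π * aw ν ρ) := mul_le_mul_left (hshift _) _
              _ = _ := one_mul _
          · simp only [if_neg h, tsum_zero]; exact zero_le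
      _ = (∑' π : List (Step d), (if FX π ∧ ZP u b t π then aw ν π else 0))
            * ∑' ρ : List (Step d), (if FY ρ then aw ν ρ else 0) := by
          simp only [ENNReal.tsum_mul_left]
          rw [ENNReal.tsum_mul_right]
      _ ≤ us * 1 := mul_le_mul' hZP (kraft_ann ν hFY)
      _ = us := mul_one _
  have hXs : ∑' y, XX y ≤ 1 := by
    calc ∑' y, XX y = ∑' π : List (Step d), ∑' y : Site d,
          (if FX π then aw ν π * μ (y - endp 0 π) else 0) := by
          simp only [hXX]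
          rw [ENNReal.tsum_comm]
      _ ≤ ∑' π : List (Step d), (if FX π then aw ν π else 0) := by
          refine ENNReal.tsum_le_tsum fun π => ?_
          by_cases h : FX π
          · simp only [if_pos h]
            rw [ENNReal.tsum_mul_left]
            calc _ ≤ aw ν π * 1 := mul_le_mul_right (hshift _) _
              _ = _ := mul_one _
          · simp only [if_neg h, tsum_zero]; exact le_rfl
      _ ≤ 1 := kraft_ann ν hFX
  have hYs : ∑' y, YY y ≤ E.card * us := by
    have hcard : ∀ v : Site d, ∑' y : Site d, (if v - y ∈ E then (1 : ℝ≥0∞) else 0) = E.card := by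
      intro v
      have h1 : ∑' y : Site d, (if v - y ∈ E then (1 : ℝ≥0∞) else 0)
          = ∑' x : Site d, (if x ∈ E then (1 : ℝ≥0∞) else 0) :=
        (Equiv.subLeft v).tsum_eq (fun x => if x ∈ E then (1 : ℝ≥0∞) else 0)
      rw [h1, tsum_eq_sum (s := E) fun x hx => if_neg hx, Finset.sum_congr rfl
        fun x hx => if_pos hx]
      simp
    calc ∑' y, YY y = ∑' Z : List (Step d), ∑' y : Site d,
          (if ZW u b t Z ∧ endp 0 Z - y ∈ E then aw ν Z else 0) := by
          simp only [hYY]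
          rw [ENNReal.tsum_comm]
      _ = ∑' Z : List (Step d), (E.card : ℝ≥0∞) * (if ZW u b t Z then aw ν Z else 0) := by
          refine tsum_congr fun Z => ?_
          rw [← hcard (endp 0 Z), ← ENNReal.tsum_mul_right]
          refine tsum_congr fun y => ?_
          by_cases h1 : ZW u b t Z <;> by_cases h2 : endp 0 Z - y ∈ E <;> simp [h1, h2]
      _ = E.card * ∑' Z : List (Step d), (if ZW u b t Z then aw ν Z else 0) :=
          ENNReal.tsum_mul_left
      _ ≤ _ := mul_le_mul_right hus _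
  calc _ ≤ ∑' y, (A y + (8 * lam * XX y + 2 * (M * lam⁻¹) * YY y)) :=
        ENNReal.tsum_le_tsum hper
    _ = ∑' y, A y + (8 * lam * ∑' y, XX y + 2 * (M * lam⁻¹) * ∑' y, YY y) := by
        rw [ENNReal.tsum_add, ENNReal.tsum_add, ENNReal.tsum_mul_left, ENNReal.tsum_mul_left]
    _ ≤ us + (8 * lam * 1 + 2 * (M * lam⁻¹) * (E.card * us)) :=
        add_le_add hAs (add_le_add (mul_le_mul_right hXs _) (mul_le_mul_right hYs _))
    _ = _ := by ring

end main

end Crest.Agent.R154.Win175
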