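import Crest.Agent.R154.Face_504
import Crest.Agent.R154.Us_109
import Crest.Agent.R154.Flux1_132

/-! Row 154, ROAD 801 (helper21): the window lemma (3) (local down walker, arbitrary up walker) in
words, from the facing lemma `Face504.face3_one`. Any pair of heights. -/

set_option autoImplicit false
set_option maxHeartbeats 1000000

namespace Crest.Agent.R154.Win21

open MeasureTheory ProbabilityTheory Crest.ProbabilityR.RandomEnvironment Crest.Agent.R154
open Crest.Agent.R154.Flux132 (lev opp)
open Crest.Agent.R154.Flux566 (lw endp sitesL Fol endp_append endp_eq_add measurable_lw)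
open Crest.Agent.R154.NB28 (IsUp IsDn aw)
open Crest.Agent.R154.Face504
open scoped ENNReal
open Classical

variable {d : ℕ}

lemma lev_sub (u : Step d) (x y : Site d) : lev u (x - y) = lev u x - lev u y := by
  rw [sub_eq_add_neg, Flux132.lev_add, Flux132.lev_neg]; ring

lemma mem_sitesL_add (l : List (Step d)) (x y z : Site d) :
    z ∈ sitesL (x + y) l ↔ z - x ∈ sitesL y l := by
  induction l generalizing y with
  | nil => simp [sitesL]
  | cons e l ih =>
    simp only [sitesL, List.mem_cons]
    rw [add_assoc, ih]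
    constructor
    · rintro (h | h)
      · left; rw [h]; abel
      · exact Or.inr h
    · rintro (h | h)
      · left; rw [← h]; abel
      · exact Or.inr h

lemma mem_sitesL0 (l : List (Step d)) (x z : Site d) :
    z ∈ sitesL x l ↔ z - x ∈ sitesL 0 l := by
  have := mem_sitesL_add l x 0 z
  rwa [add_zero] at this

lemma pf_up (u : Step d) (h : ℕ) : PF {π : Wd d | IsUp u h π} := by
  rintro l hl l' hl' ⟨t, rfl⟩
  by_cases ht : t = []
  · rw [ht, List.append_nil]
  · have h1 := (hl'.1 _ (end_mem_sites 0 l t ht)).2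
    have h2 := hl.2
    omega

lemma pf_dn (u : Step d) (h : ℕ) (E : Set (Site d)) :
    PF {γ : Wd d | IsDn u h γ ∧ endp 0 γ ∈ E} := by
  rintro l ⟨hl, _⟩ l' ⟨hl', _⟩ ⟨t, rfl⟩
  by_cases ht : t = []
  · rw [ht, List.append_nil]
  · have h1 := (hl'.1 _ (end_mem_sites 0 l t ht)).1
    have h2 := hl.2
    omega

/-- words which start at level `0`, reach level `≥ s` before any negative level, and end at their
first visit of level `g` -/
def RS (u : Step d) (g s : ℤ) : Set (Wd d) :=
  {l | (∃ l1 l2, l = l1 ++ l2 ∧ (∀ y ∈ sitesL 0 l1, 0 ≤ lev u y) ∧ s ≤ lev u (endp 0 l1)) ∧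
    (∀ y ∈ sitesL 0 l, g < lev u y) ∧ lev u (endp 0 l) = g}

lemma pf_RS (u : Step d) (g s : ℤ) : PF (RS (d := d) u g s) := by
  rintro l ⟨_, _, hl⟩ l' ⟨_, hl', _⟩ ⟨t, rfl⟩
  by_cases ht : t = []
  · rw [ht, List.append_nil]
  · have h1 := hl' _ (end_mem_sites 0 l t ht)
    omega

lemma RS_sub (u : Step d) {g s : ℤ} (hg : g ≤ -1) : RS (d := d) u g s ⊆ Us109.RetW u (-1) s := by
  rintro l ⟨h1, _, h3⟩
  exact ⟨h1, by omega⟩

lemma lint_tw (ν : Measure (Row d)) [IsProbabilityMeasure ν] (S : Set (Wd d)) :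
    ∫⁻ ω, tw ω 0 S ∂(iidEnvironmentLaw ν) = ∑' l, (if l ∈ S then aw ν l else 0) := by
  unfold tw
  rw [lintegral_tsum]
  · refine tsum_congr fun l => ?_
    split_ifs
    · rfl
    · simp
  · intro l
    split_ifs
    · exact (measurable_lw 0 l).aemeasurable
    · exact aemeasurable_const

/-- every end point serves `#E` starts -/
lemma sum_start (E : Finset (Site d)) (p : Site d) (c : ℝ≥0∞) :
    ∑' x : Site d, (if p - x ∈ E then c else 0) = E.card * c := by
  have h1 := (Equiv.subLeft p).tsum_eq (fun z : Site d => if z ∈ E then c else 0)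
  simp only [Equiv.subLeft_apply] at h1
  rw [h1, tsum_eq_sum (s := E) (fun z hz => if_neg hz), Finset.sum_congr rfl (g := fun _ => c)
    (fun z hz => if_pos hz), Finset.sum_const, nsmul_eq_mul]

/-- **window lemma (3)**: up walker from `0` with the weight `wt x π`, local down walker from `x`
at level `g + h'`, landing level `g ≤ -1`; every common site is at height `≥ s` -/
theorem win3 (ν : Measure (Row d)) [IsProbabilityMeasure ν] (u : Step d) (h h' : ℕ) (g : ℤ)
    (hg : g ≤ -1) (s : ℤ) (E : Finset (Site d)) {wt : Site d → Wd d → ℝ≥0∞} {M : ℝ≥0∞}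
    (hM0 : M ≠ 0) (hMt : M ≠ ∞) (hM : ∀ x π, wt x π ≤ M) (hs : ∀ π, ∑' x, wt x π ≤ 1)
    {lam : ℝ≥0∞} (hl0 : lam ≠ 0) (hlt : lam ≠ ∞) {us : ℝ≥0∞}
    (hus : ∀ W : Set (Wd d), Us109.PF W → W ⊆ Us109.RetW u (-1) s →
      ∑' l, (if l ∈ W then aw ν l else 0) ≤ us) :
    (∑' x : Site d, if lev u x = g + h' then (∑' π : Wd d, ∑' γ : Wd d,
      if IsUp u h π ∧ (IsDn u h' γ ∧ endp 0 γ ∈ E) ∧ (∃ z ∈ sitesL 0 π, z ∈ sitesL x γ) ∧
        (∀ z ∈ sitesL 0 π, z ∈ sitesL x γ → s ≤ lev u z)
      then aw ν π * aw ν γ * wt x π else 0) else 0)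
      ≤ M / lam * (E.card * us) + 4 * lam := by
  set A : Set (Wd d) := {π | IsUp u h π} with hA
  set B : Set (Wd d) := {γ | IsDn u h' γ ∧ endp 0 γ ∈ (E : Set (Site d))} with hB
  set Dp : Set (Site d) := {z | s ≤ lev u z} with hDp
  set R : Site d → Set (Wd d) := fun x => {l | l ∈ RS u g s ∧ endp 0 l - x ∈ E} with hR
  have hanx : ∀ x (l : Wd d), an ν x l = aw ν l := by
    intro x l
    have h1 := (Q561.iid_shift ν x).lintegral_comp (measurable_lw (0 : Site d) l)
    unfold an aw
    rw [← h1]
    refine lintegral_congr fun ω => ?_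
    have h2 : ∀ (l : Wd d) (y : Site d), lw (shiftEnv x ω) y l = lw ω (y + x) l := by
      intro l
      induction l with
      | nil => intro y; rfl
      | cons e l ih =>
        intro y
        simp only [lw]
        rw [ih, add_right_comm]
        rfl
    rw [h2, zero_add]
  have key : ∀ x : Site d, lev u x = g + h' →
      (∑' π : Wd d, ∑' γ : Wd d,
        if IsUp u h π ∧ (IsDn u h' γ ∧ endp 0 γ ∈ E) ∧ (∃ z ∈ sitesL 0 π, z ∈ sitesL x γ) ∧
          (∀ z ∈ sitesL 0 π, z ∈ sitesL x γ → s ≤ lev u z)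
        then aw ν π * aw ν γ * wt x π else 0)
      ≤ M / lam * ∫⁻ ω, tw ω 0 (R x) ∂(iidEnvironmentLaw ν)
        + 4 * lam * ∑' π : Wd d, (if π ∈ A then an ν 0 π * wt x π else 0) := by
    intro x hx
    refine le_trans ?_ (face3_one ν 0 x (A := A) (B := B) (pf_up u h) (pf_dn u h' E)
      (fun v => {τ | (∀ y ∈ sitesL v τ, g < lev u y) ∧ lev u (endp v τ) = g ∧
        endp v τ - x ∈ E}) ?_ hM0 hMt (hM x) Dp (R x) ?_ hl0 hlt)
    · refine ENNReal.tsum_le_tsum fun π => ENNReal.tsum_le_tsum fun γ => ?_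
      split_ifs with h1 h2 h2
      · rw [hanx, hanx]
      · exact absurd ⟨h1.1, h1.2.1, fhd_of_contact h1.2.2.1 h1.2.2.2⟩ h2
      · exact zero_le
      · exact le_rfl
    · rintro γ₁ γ₂ ⟨h1, h2⟩ _
      refine ⟨fun y hy => ?_, ?_, ?_⟩
      · have h3 : y ∈ sitesL x (γ₁ ++ γ₂) := by
          rw [Face504.sitesL_append]; exact List.mem_append.mpr (Or.inr hy)
        rw [mem_sitesL0] at h3
        have h4 := (h1.1 _ h3).1
        rw [lev_sub, hx] at h4
        omega
      · rw [← endp_append, endp_eq_add, Flux132.lev_add, hx, h1.2]; ring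
      · rw [← endp_append, endp_eq_add, add_sub_cancel_left]
        exact h2
    · rintro σ τ ⟨π, hπ, t, rfl⟩ hσ ⟨h1, h2, h3⟩
      have h4 : ∀ y ∈ sitesL 0 σ, 0 ≤ lev u y := fun y hy =>
        (hπ.1 y (by rw [Face504.sitesL_append]; exact List.mem_append.mpr (Or.inl hy))).1
      refine ⟨⟨⟨σ, τ, rfl, h4, hσ⟩, fun y hy => ?_, ?_⟩, ?_⟩
      · rw [Face504.sitesL_append] at hy
        rcases List.mem_append.mp hy with hy | hy
        · have := h4 y hy; omega
        · exact h1 y hy
      · rw [endp_append]; exact h2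
      · rw [endp_append]; exact h3
  calc (∑' x : Site d, if lev u x = g + h' then (∑' π : Wd d, ∑' γ : Wd d,
      if IsUp u h π ∧ (IsDn u h' γ ∧ endp 0 γ ∈ E) ∧ (∃ z ∈ sitesL 0 π, z ∈ sitesL x γ) ∧
        (∀ z ∈ sitesL 0 π, z ∈ sitesL x γ → s ≤ lev u z)
      then aw ν π * aw ν γ * wt x π else 0) else 0)
      ≤ ∑' x : Site d, (M / lam * ∫⁻ ω, tw ω 0 (R x) ∂(iidEnvironmentLaw ν)
        + 4 * lam * ∑' π : Wd d, (if π ∈ A then an ν 0 π * wt x π else 0)) := by
        refine ENNReal.tsum_le_tsum fun x => ?_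
        split_ifs with hx
        · exact key x hx
        · exact zero_le
    _ = M / lam * (∑' x, ∫⁻ ω, tw ω 0 (R x) ∂(iidEnvironmentLaw ν))
        + 4 * lam * ∑' x : Site d, ∑' π : Wd d, (if π ∈ A then an ν 0 π * wt x π else 0) := by
        rw [ENNReal.tsum_add, ENNReal.tsum_mul_left, ENNReal.tsum_mul_left]
    _ ≤ M / lam * (E.card * us) + 4 * lam * 1 := by
        refine add_le_add (mul_le_mul_right ?_ _) (mul_le_mul_right ?_ _)
        · calc (∑' x, ∫⁻ ω, tw ω 0 (R x) ∂(iidEnvironmentLaw ν))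
              = ∑' x : Site d, ∑' l : Wd d, (if l ∈ R x then aw ν l else 0) :=
                tsum_congr fun x => by
                  rw [lint_tw ν (R x)]
                  refine tsum_congr fun l => ?_
                  by_cases hl : l ∈ R x
                  · rw [if_pos hl, if_pos hl]
                  · rw [if_neg hl, if_neg hl]
            _ = ∑' l : Wd d, ∑' x : Site d, (if l ∈ R x then aw ν l else 0) :=
                ENNReal.tsum_comm
            _ = ∑' l : Wd d, (E.card : ℝ≥0∞) * (if l ∈ RS u g s then aw ν l else 0) := by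
                refine tsum_congr fun l => ?_
                by_cases hl : l ∈ RS u g s
                · rw [if_pos hl, ← sum_start E (endp 0 l) (aw ν l)]
                  refine tsum_congr fun x => ?_
                  simp only [hR, Set.mem_ofPred_eq, hl, true_and]
                · rw [if_neg hl, mul_zero]
                  refine (tsum_congr fun x => if_neg ?_).trans tsum_zero
                  rintro ⟨h1, _⟩
                  exact hl h1
            _ = E.card * ∑' l : Wd d, (if l ∈ RS u g s then aw ν l else 0) :=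
                ENNReal.tsum_mul_left
            _ ≤ E.card * us := mul_le_mul_right (hus _ (pf_RS u g s) (RS_sub u hg)) _
        · rw [ENNReal.tsum_comm]
          calc (∑' π : Wd d, ∑' x : Site d, if π ∈ A then an ν 0 π * wt x π else 0)
              ≤ ∑' π : Wd d, (if π ∈ A then aw ν π else 0) := by
                refine ENNReal.tsum_le_tsum fun π => ?_
                split_ifs
                · rw [ENNReal.tsum_mul_left, hanx]
                  calc aw ν π * ∑' x, wt x π ≤ aw ν π * 1 := mul_le_mul_right (hs π) _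
                    _ = _ := mul_one _
                · simp
            _ ≤ 1 := Us109.pf_sum_le_one ν A (pf_up u h)
    _ = _ := by rw [mul_one]

end Crest.Agent.R154.Win21
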