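import Crest.Agent.R154.Flux2_566
import Crest.Agent.R154.B5Abs_566

/-! Row 154, T0219, road 801 (helper349): quenched words, prefix-free families, window lemma (3)
with weight classes at the hit. -/

set_option autoImplicit false
set_option linter.unusedSectionVars false

open MeasureTheory ProbabilityTheory Crest.ProbabilityR.RandomEnvironment
open scoped ENNReal
open Crest.Agent.R154.Flux566

namespace Crest.Agent.R154.Win349

variable {d : ℕ}

/-- prefix-free family of words -/
def PF (S : Set (List (Step d))) : Prop := ∀ a b : List (Step d), a ∈ S → a ++ b ∈ S → b = []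

lemma lw_append (ω : Environment d) (x : Site d) (a b : List (Step d)) :
    lw ω x (a ++ b) = lw ω x a * lw ω (endp x a) b := by
  induction a generalizing x with
  | nil => simp [lw, endp]
  | cons e l ih =>
    simp only [List.cons_append, lw, endp]
    rw [ih, mul_assoc]

lemma mem_sitesL (x : Site d) (l : List (Step d)) (z : Site d) :
    z ∈ sitesL x l ↔ ∃ a b, l = a ++ b ∧ b ≠ [] ∧ endp x a = z := by
  induction l generalizing x with
  | nil => simp [sitesL]
  | cons e l ih =>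
    simp only [sitesL, List.mem_cons]
    constructor
    · rintro (h | h)
      · exact ⟨[], e :: l, rfl, by simp, h.symm⟩
      · obtain ⟨a, b, hl, hb, hz⟩ := (ih _).1 h
        exact ⟨e :: a, b, by rw [hl]; rfl, hb, hz⟩
    · rintro ⟨a, b, hl, hb, hz⟩
      cases a with
      | nil => exact Or.inl hz.symm
      | cons e' a =>
        simp only [List.cons_append, List.cons.injEq] at hl
        obtain ⟨rfl, hl⟩ := hl
        exact Or.inr ((ih _).2 ⟨a, b, hl, hb, hz⟩)

lemma sum_step_le (ω : Environment d) (x : Site d) :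
    ∑ e : Step d, ENNReal.ofReal ((ω x).1 e) ≤ 1 := by
  rw [← ENNReal.ofReal_sum_of_nonneg fun e _ => (ω x).2.1 e]
  rw [(ω x).2.2]
  simp

open Classical in
/-- sum of a function over a set of words -/
noncomputable def su (S : Set (List (Step d))) (f : List (Step d) → ℝ≥0∞) : ℝ≥0∞ :=
  ∑' l, if l ∈ S then f l else 0

open Classical in
lemma su_mono {S : Set (List (Step d))} {f g : List (Step d) → ℝ≥0∞} (h : ∀ l ∈ S, f l ≤ g l) :
    su S f ≤ su S g := by
  refine ENNReal.tsum_le_tsum fun l => ?_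
  by_cases hl : l ∈ S
  · simp [hl, h l hl]
  · simp [hl]

open Classical in
lemma su_subset {S T : Set (List (Step d))} (f : List (Step d) → ℝ≥0∞) (h : S ⊆ T) :
    su S f ≤ su T f := by
  refine ENNReal.tsum_le_tsum fun l => ?_
  by_cases hl : l ∈ S
  · simp [hl, h hl]
  · simp [hl]

open Classical in
lemma su_mul_left (S : Set (List (Step d))) (f : List (Step d) → ℝ≥0∞) (c : ℝ≥0∞) :
    su S (fun l => c * f l) = c * su S f := by
  unfold su
  rw [← ENNReal.tsum_mul_left]
  refine tsum_congr fun l => ?_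
  by_cases hl : l ∈ S <;> simp [hl]

open Classical in
lemma su_len_le_one (ω : Environment d) (n : ℕ) : ∀ (x : Site d) (S : Set (List (Step d))), PF S →
    su {l | l ∈ S ∧ l.length ≤ n} (lw ω x) ≤ 1 := by
  induction n with
  | zero =>
    intro x S _
    unfold su
    rw [tsum_eq_single []]
    · split_ifs <;> simp [lw]
    · intro l hl
      rw [if_neg]
      rintro ⟨_, h⟩
      exact hl (List.length_eq_zero_iff.1 (by omega))
  | succ n ih =>
    intro x S hS
    by_cases h0 : ([] : List (Step d)) ∈ S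
    · have h1 : ∀ l ∈ S, l = [] := fun l hl => hS [] l h0 (by simpa using hl)
      unfold su
      rw [tsum_eq_single []]
      · split_ifs <;> simp [lw]
      · intro l hl
        rw [if_neg]
        rintro ⟨h, _⟩
        exact hl (h1 l h)
    · unfold su
      rw [B5A.tsum_list]
      rw [if_neg (by rintro ⟨h, _⟩; exact h0 h), zero_add]
      calc _ = ∑' e : Step d, ENNReal.ofReal ((ω x).1 e) *
              su {l | l ∈ {l | e :: l ∈ S} ∧ l.length ≤ n} (lw ω (x + stepVec e)) := by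
            refine tsum_congr fun e => ?_
            unfold su
            rw [← ENNReal.tsum_mul_left]
            refine tsum_congr fun l => ?_
            have : (e :: l ∈ {l | l ∈ S ∧ l.length ≤ n + 1}) ↔
                (l ∈ {l | l ∈ {l | e :: l ∈ S} ∧ l.length ≤ n}) := by
              constructor
              · rintro ⟨h1, h2⟩
                exact ⟨h1, by simpa using h2⟩
              · rintro ⟨h1, h2⟩
                exact ⟨h1, by simpa using h2⟩
            by_cases h : e :: l ∈ {l | l ∈ S ∧ l.length ≤ n + 1}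
            · rw [if_pos h, if_pos (this.1 h)]
              rfl
            · rw [if_neg h, if_neg (fun h' => h (this.2 h')), mul_zero]
        _ ≤ ∑' e : Step d, ENNReal.ofReal ((ω x).1 e) * 1 := by
            refine ENNReal.tsum_le_tsum fun e => ?_
            gcongr
            exact ih _ _ (fun a b ha hab => hS (e :: a) b ha hab)
        _ ≤ 1 := by
            rw [tsum_fintype]
            simpa using sum_step_le ω x

/-- prefix-free families have quenched weight at most one -/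
lemma su_le_one (ω : Environment d) (x : Site d) {S : Set (List (Step d))} (hS : PF S) :
    su S (lw ω x) ≤ 1 := by
  classical
  unfold su
  rw [ENNReal.tsum_eq_iSup_sum]
  refine iSup_le fun T => ?_
  have hn : ∀ l ∈ T, l.length ≤ T.sup List.length := fun l hl =>
    Finset.le_sup (f := List.length) hl
  calc _ = ∑ l ∈ T, (if l ∈ {l | l ∈ S ∧ l.length ≤ T.sup List.length} then lw ω x l else 0) := by
        refine Finset.sum_congr rfl fun l hl => ?_
        by_cases h : l ∈ S
        · rw [if_pos h, if_pos ⟨h, hn l hl⟩]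
        · rw [if_neg h, if_neg (fun h' => h h'.1)]
    _ ≤ su {l | l ∈ S ∧ l.length ≤ T.sup List.length} (lw ω x) := by
        unfold su
        convert ENNReal.sum_le_tsum T
    _ ≤ 1 := su_len_le_one ω _ x S hS

open Classical in
/-- every word of `P` has a prefix in `F` -/
lemma su_cover (P F : Set (List (Step d))) (f : List (Step d) → ℝ≥0∞)
    (h : ∀ p ∈ P, ∃ a b, p = a ++ b ∧ a ∈ F) :
    su P f ≤ su F (fun a => su {b | a ++ b ∈ P} (fun b => f (a ++ b))) := by
  choose! a b hab using h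
  have e1 : su P f = ∑' p : P, f p := by
    unfold su
    rw [tsum_subtype P f]
    exact tsum_congr fun l => by by_cases hl : l ∈ P <;> simp [hl]
  have e2 : su F (fun a => su {b | a ++ b ∈ P} (fun b => f (a ++ b)))
      = ∑' q : List (Step d) × List (Step d),
        (if q.1 ∈ F then (if q.1 ++ q.2 ∈ P then f (q.1 ++ q.2) else 0) else 0) := by
    rw [ENNReal.tsum_prod (f := fun x y =>
      (if x ∈ F then (if x ++ y ∈ P then f (x ++ y) else 0) else 0))]
    unfold su
    refine tsum_congr fun x => ?_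
    by_cases hx : x ∈ F
    · simp only [hx, if_true]
      rfl
    · simp [hx]
  rw [e1, e2]
  refine le_trans ?_ (ENNReal.tsum_comp_le_tsum_of_injective
    (f := fun p : P => (a (p : List (Step d)), b (p : List (Step d)))) ?_ _)
  · refine ENNReal.tsum_le_tsum fun p => ?_
    have := hab p p.2
    simp only
    rw [if_pos this.2, ← this.1, if_pos p.2]
  · intro p q hpq
    simp only [Prod.mk.injEq] at hpq
    refine Subtype.ext ?_
    rw [(hab p p.2).1, (hab q q.2).1, hpq.1, hpq.2]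

lemma pf_append_inj {F : Set (List (Step d))} (hF : PF F) {a b a' b' : List (Step d)}
    (ha : a ∈ F) (ha' : a' ∈ F) (h : a ++ b = a' ++ b') : a = a' ∧ b = b' := by
  rcases List.append_eq_append_iff.1 h with ⟨c, hc, hb⟩ | ⟨c, hc, hb⟩
  · have : c = [] := hF a c ha (by rw [← hc]; exact ha')
    subst this
    simp at hc hb
    exact ⟨hc.symm, hb⟩
  · have : c = [] := hF a' c ha' (by rw [← hc]; exact ha)
    subst this
    simp at hc hb
    exact ⟨hc, hb.symm⟩

open Classical in
/-- disjoint extensions of a prefix-free family -/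
lemma su_disj (P F : Set (List (Step d))) (hF : PF F) (f : List (Step d) → ℝ≥0∞)
    (G : List (Step d) → Set (List (Step d))) (hG : ∀ a ∈ F, ∀ b ∈ G a, a ++ b ∈ P) :
    su F (fun a => su (G a) (fun b => f (a ++ b))) ≤ su P f := by
  have e1 : su P f = ∑' p : P, f p := by
    unfold su
    rw [tsum_subtype P f]
    exact tsum_congr fun l => by by_cases hl : l ∈ P <;> simp [hl]
  let A : Set (List (Step d) × List (Step d)) := {q | q.1 ∈ F ∧ q.2 ∈ G q.1}
  have e2 : su F (fun a => su (G a) (fun b => f (a ++ b)))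
      = ∑' q : A, f ((q : List (Step d) × List (Step d)).1 ++ (q : List (Step d) × List (Step d)).2) := by
    rw [tsum_subtype A (fun q : List (Step d) × List (Step d) => f (q.1 ++ q.2))]
    rw [ENNReal.tsum_prod (f := fun x y => A.indicator
      (fun q : List (Step d) × List (Step d) => f (q.1 ++ q.2)) (x, y))]
    unfold su
    refine tsum_congr fun x => ?_
    by_cases hx : x ∈ F
    · rw [if_pos hx]
      refine tsum_congr fun y => ?_
      by_cases hy : y ∈ G x
      · rw [if_pos hy, Set.indicator_of_mem (show (x, y) ∈ A from ⟨hx, hy⟩)]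
      · rw [if_neg hy, Set.indicator_of_notMem (fun h : (x, y) ∈ A => hy h.2)]
    · rw [if_neg hx]
      symm
      rw [ENNReal.tsum_eq_zero]
      intro y
      exact Set.indicator_of_notMem (fun h : (x, y) ∈ A => hx h.1) _
  rw [e1, e2]
  exact ENNReal.tsum_comp_le_tsum_of_injective
    (f := fun q : A => (⟨(q : List (Step d) × List (Step d)).1 ++
      (q : List (Step d) × List (Step d)).2, hG _ q.2.1 _ q.2.2⟩ : P))
    (by
      rintro ⟨⟨a, b⟩, h1, h2⟩ ⟨⟨a', b'⟩, h1', h2'⟩ h
      simp only [Subtype.mk.injEq] at h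
      obtain ⟨rfl, rfl⟩ := pf_append_inj hF h1 h1' h
      rfl) (fun p : P => f p)

/-- minimal words of a set -/
def mn (A : Set (List (Step d))) : Set (List (Step d)) :=
  {a | a ∈ A ∧ ∀ a' b', a = a' ++ b' → b' ≠ [] → a' ∉ A}

lemma pf_mn (A : Set (List (Step d))) : PF (mn A) := by
  intro a b ha hab
  by_contra hb
  exact hab.2 a b rfl hb ha.1

lemma mn_cover (A : Set (List (Step d))) (n : ℕ) : ∀ p ∈ A, p.length ≤ n →
    ∃ a b, p = a ++ b ∧ a ∈ mn A := by
  induction n with
  | zero =>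
    intro p hp hn
    refine ⟨p, [], by simp, hp, ?_⟩
    intro a' b' h hb
    have : p = [] := List.length_eq_zero_iff.1 (by omega)
    subst this
    simp at h
    exact absurd h.2 hb
  | succ n ih =>
    intro p hp hn
    by_cases h : p ∈ mn A
    · exact ⟨p, [], by simp, h⟩
    · have : ∃ a' b', p = a' ++ b' ∧ b' ≠ [] ∧ a' ∈ A := by
        by_contra hc
        apply h
        refine ⟨hp, fun a' b' h1 h2 h3 => hc ⟨a', b', h1, h2, h3⟩⟩
      obtain ⟨a', b', h1, h2, h3⟩ := this
      have hl : a'.length ≤ n := by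
        have := congrArg List.length h1
        rw [List.length_append] at this
        have hb : 0 < b'.length := List.length_pos_iff.2 h2
        omega
      obtain ⟨a, b, h4, h5⟩ := ih a' h3 hl
      exact ⟨a, b ++ b', by rw [h1, h4, List.append_assoc], h5⟩

/-- a prefix-free family all of whose words have a prefix in `A` -/
lemma su_le_mn (ω : Environment d) (x : Site d) {P A : Set (List (Step d))} (hP : PF P)
    (h : ∀ p ∈ P, ∃ a b, p = a ++ b ∧ a ∈ A) : su P (lw ω x) ≤ su (mn A) (lw ω x) := by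
  refine (su_cover P (mn A) _ ?_).trans (su_mono fun a _ => ?_)
  · intro p hp
    obtain ⟨a, b, h1, h2⟩ := h p hp
    obtain ⟨a', b', h3, h4⟩ := mn_cover A a.length a h2 le_rfl
    exact ⟨a', b' ++ b, by rw [h1, h3, List.append_assoc], h4⟩
  · simp_rw [lw_append]
    rw [su_mul_left]
    calc lw ω x a * su {b | a ++ b ∈ P} (lw ω (endp x a)) ≤ lw ω x a * 1 := by
          gcongr
          exact su_le_one ω _ fun b c hb hc => hP (a ++ b) c hb (by rw [List.append_assoc]; exact hc)
      _ = lw ω x a := mul_one _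


/-! ### annealed weights -/

lemma measurable_su (S : Set (List (Step d))) (x : Site d) :
    Measurable fun ω : Environment d => su S (lw ω x) := by
  classical
  unfold su
  refine Measurable.tsum fun l => ?_
  by_cases h : l ∈ S
  · simpa [h] using measurable_lw x l
  · simp [h]

/-- annealed weight of a word -/
noncomputable def aw (ν : Measure (Row d)) [IsProbabilityMeasure ν] (x : Site d)
    (l : List (Step d)) : ℝ≥0∞ := ∫⁻ ω, lw ω x l ∂(iidEnvironmentLaw ν)

lemma lintegral_su (ν : Measure (Row d)) [IsProbabilityMeasure ν] (S : Set (List (Step d)))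
    (x : Site d) : ∫⁻ ω, su S (lw ω x) ∂(iidEnvironmentLaw ν) = su S (aw ν x) := by
  classical
  unfold su
  rw [lintegral_tsum]
  · refine tsum_congr fun l => ?_
    by_cases h : l ∈ S
    · simp [h, aw]
    · simp [h]
  · intro l
    by_cases h : l ∈ S
    · simpa [h] using (measurable_lw x l).aemeasurable
    · simp [h]

/-- weighted number of extensions in `PP` -/
noncomputable def num (ν : Measure (Row d)) [IsProbabilityMeasure ν] (PP : Set (List (Step d)))
    (wt : Site d → ℝ≥0∞) (a : List (Step d)) : ℝ≥0∞ :=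
  su {b | a ++ b ∈ PP} (fun b => aw ν 0 (a ++ b) * wt (endp 0 (a ++ b)))

lemma num_nil (ν : Measure (Row d)) [IsProbabilityMeasure ν] (PP : Set (List (Step d)))
    (wt : Site d → ℝ≥0∞) : num ν PP wt [] = su PP (fun l => aw ν 0 l * wt (endp 0 l)) := by
  unfold num
  simp

lemma num_le (ν : Measure (Row d)) [IsProbabilityMeasure ν] {PP : Set (List (Step d))}
    (hPP : PF PP) {wt : Site d → ℝ≥0∞} {M : ℝ≥0∞} (hwt : ∀ y, wt y ≤ M) (a : List (Step d)) :
    num ν PP wt a ≤ M * aw ν 0 a := by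
  classical
  unfold num
  calc su {b | a ++ b ∈ PP} (fun b => aw ν 0 (a ++ b) * wt (endp 0 (a ++ b)))
      ≤ su {b | a ++ b ∈ PP} (fun b => M * aw ν 0 (a ++ b)) := by
        refine su_mono fun b _ => ?_
        rw [mul_comm]
        gcongr
        exact hwt _
    _ = M * su {b | a ++ b ∈ PP} (fun b => aw ν 0 (a ++ b)) := su_mul_left _ _ _
    _ ≤ M * aw ν 0 a := by
        gcongr
        have : su {b | a ++ b ∈ PP} (fun b => aw ν 0 (a ++ b))
            = ∫⁻ ω, su {b | a ++ b ∈ PP} (fun b => lw ω 0 (a ++ b)) ∂(iidEnvironmentLaw ν) := by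
          unfold su
          rw [lintegral_tsum]
          · refine tsum_congr fun l => ?_
            by_cases h : l ∈ {b | a ++ b ∈ PP}
            · simp only [h, if_true]; rfl
            · simp [h]
          · intro l
            by_cases h : l ∈ {b | a ++ b ∈ PP}
            · simpa [h] using (measurable_lw 0 (a ++ l)).aemeasurable
            · simp [h]
        rw [this]
        unfold aw
        refine lintegral_mono fun ω => ?_
        simp_rw [lw_append]
        rw [su_mul_left]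
        calc lw ω 0 a * su {b | a ++ b ∈ PP} (lw ω (endp 0 a)) ≤ lw ω 0 a * 1 := by
              gcongr
              exact su_le_one ω _ fun b c hb hc =>
                hPP (a ++ b) c hb (by rw [List.append_assoc]; exact hc)
          _ = lw ω 0 a := mul_one _

lemma su_num_le (ν : Measure (Row d)) [IsProbabilityMeasure ν] (PP : Set (List (Step d)))
    (wt : Site d → ℝ≥0∞) {F : Set (List (Step d))} (hF : PF F) :
    su F (num ν PP wt) ≤ num ν PP wt [] := by
  rw [num_nil]
  exact su_disj PP F hF (fun l => aw ν 0 l * wt (endp 0 l)) (fun a => {b | a ++ b ∈ PP})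
    fun a _ b hb => hb

/-- exchange: words reading disjoint sites -/
lemma aw_mul (ν : Measure (Row d)) [IsProbabilityMeasure ν] (x : Site d) (g a : List (Step d))
    (h : ∀ z ∈ sitesL x g, z ∉ sitesL 0 a) :
    aw ν x g * aw ν 0 a = ∫⁻ ω, lw ω x g * lw ω 0 a ∂(iidEnvironmentLaw ν) := by
  unfold aw
  rw [Q561.iid_lintegral_mul ν (S := {y | y ∈ sitesL x g}) (T := {y | y ∈ sitesL 0 a}) ?_
    (measurable_lw x g) (measurable_lw 0 a) (locOn_lw x g) (locOn_lw 0 a)]
  rw [Set.disjoint_left]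
  exact fun z hz hz' => h z hz hz'

/-- `a` ends at its first site used by the word `g` started at `x` -/
def FH (x : Site d) (g a : List (Step d)) : Prop :=
  endp 0 a ∈ sitesL x g ∧ ∀ a' b', a = a' ++ b' → b' ≠ [] → endp 0 a' ∉ sitesL x g

lemma pf_FH (x : Site d) (g : List (Step d)) (T : Set (List (Step d))) :
    PF {a | a ∈ T ∧ FH x g a} := by
  intro a b ha hab
  by_contra hb
  exact hab.2.2 a b rfl hb ha.2.1

lemma FH.disj {x : Site d} {g a : List (Step d)} (h : FH x g a) :
    ∀ z ∈ sitesL x g, z ∉ sitesL 0 a := by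
  intro z hz hz'
  obtain ⟨a', b', h1, h2, h3⟩ := (mem_sitesL 0 a z).1 hz'
  exact h.2 a' b' h1 h2 (h3 ▸ hz)


section win

variable (ν : Measure (Row d)) [IsProbabilityMeasure ν] (x : Site d)
  (Ga : Set (List (Step d))) (B : Site d → Set (List (Step d)))

/-- quenched completion probability -/
noncomputable def ev (B : Site d → Set (List (Step d))) (ω : Environment d) (v : Site d) : ℝ≥0∞ :=
  su (B v) (lw ω v)

/-- (a') quenched: words which pass a site of small completion probability -/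
lemma su_bad_le (ω : Environment d)
    (hGB : ∀ a b, a ++ b ∈ Ga → b ∈ B (endp x a)) (l : ℝ≥0∞) :
    su {g | g ∈ Ga ∧ ∃ z ∈ sitesL x g, ev B ω z ≤ l} (lw ω x) ≤ l := by
  set A : Set (List (Step d)) := {a | ev B ω (endp x a) ≤ l} with hA
  refine (su_cover _ (mn A) _ ?_).trans ?_
  · rintro g ⟨hg, z, hz, hzl⟩
    obtain ⟨a, b, h1, h2, h3⟩ := (mem_sitesL x g z).1 hz
    obtain ⟨a', b', h4, h5⟩ := mn_cover A a.length a (by rw [hA]; show ev B ω (endp x a) ≤ l; rw [h3]; exact hzl) le_rfl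
    exact ⟨a', b' ++ b, by rw [h1, h4, List.append_assoc], h5⟩
  · calc su (mn A) (fun a => su {b | a ++ b ∈ {g | g ∈ Ga ∧ ∃ z ∈ sitesL x g, ev B ω z ≤ l}}
            (fun b => lw ω x (a ++ b)))
        ≤ su (mn A) (fun a => l * lw ω x a) := by
          refine su_mono fun a ha => ?_
          simp_rw [lw_append]
          rw [su_mul_left, mul_comm l]
          gcongr
          have h1 : ev B ω (endp x a) ≤ l := ha.1
          refine le_trans (su_subset _ ?_) h1
          rintro b ⟨hb, _⟩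
          exact hGB a b hb
      _ = l * su (mn A) (lw ω x) := su_mul_left _ _ _
      _ ≤ l * 1 := by
          gcongr
          exact su_le_one ω x (pf_mn A)
      _ = l := mul_one _

/-- (b') quenched: prefixes of `D` ending at a site of large completion probability -/
lemma su_turn_le (ω : Environment d) (D Sx : Set (List (Step d)))
    (hDS : ∀ a ∈ D, ∀ b ∈ B (endp 0 a), a ++ b ∈ Sx) (l : ℝ≥0∞) :
    l * su (mn {a | a ∈ D ∧ l < ev B ω (endp 0 a)}) (lw ω 0) ≤ su Sx (lw ω 0) := by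
  rw [← su_mul_left]
  refine le_trans (su_mono (g := fun a => su (B (endp 0 a)) (fun b => lw ω 0 (a ++ b))) ?_)
    (su_disj Sx _ (pf_mn _) (lw ω 0) (fun a => B (endp 0 a)) fun a ha b hb => hDS a ha.1.1 b hb)
  intro a ha
  simp_rw [lw_append]
  rw [su_mul_left, mul_comm]
  gcongr
  exact ha.1.2.le

/-- the pointwise estimate of one weight class -/
lemma class_le (ω : Environment d) (D Sx C : Set (List (Step d))) (hGa : PF Ga)
    (hGB : ∀ a b, a ++ b ∈ Ga → b ∈ B (endp x a))
    (hDS : ∀ a ∈ D, ∀ b ∈ B (endp 0 a), a ++ b ∈ Sx) (l : ℝ≥0∞) (hl : l ≠ 0) (hl' : l ≠ ⊤) :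
    su Ga (fun g => lw ω x g * su {a | a ∈ (D ∩ C) ∧ FH x g a} (lw ω 0))
      ≤ l * su (mn C) (lw ω 0) + l⁻¹ * su Sx (lw ω 0) := by
  classical
  have hsplit : ∀ g ∈ Ga, lw ω x g * su {a | a ∈ (D ∩ C) ∧ FH x g a} (lw ω 0)
      ≤ (if ∃ z ∈ sitesL x g, ev B ω z ≤ l then lw ω x g else 0) * su (mn C) (lw ω 0)
        + lw ω x g * su (mn {a | a ∈ D ∧ l < ev B ω (endp 0 a)}) (lw ω 0) := by
    intro g _
    have h1 : su {a | a ∈ (D ∩ C) ∧ FH x g a} (lw ω 0)
        ≤ su {a | a ∈ (D ∩ C ∩ {a | ev B ω (endp 0 a) ≤ l}) ∧ FH x g a} (lw ω 0)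
          + su {a | a ∈ (D ∩ {a | l < ev B ω (endp 0 a)}) ∧ FH x g a} (lw ω 0) := by
      unfold su
      rw [← ENNReal.tsum_add]
      refine ENNReal.tsum_le_tsum fun a => ?_
      by_cases ha : a ∈ {a | a ∈ (D ∩ C) ∧ FH x g a}
      · rw [if_pos ha]
        by_cases he : ev B ω (endp 0 a) ≤ l
        · rw [if_pos (show a ∈ {a | a ∈ (D ∩ C ∩ {a | ev B ω (endp 0 a) ≤ l}) ∧ FH x g a} from
            ⟨⟨ha.1, he⟩, ha.2⟩)]
          exact le_self_add
        · rw [if_pos (show a ∈ {a | a ∈ (D ∩ {a | l < ev B ω (endp 0 a)}) ∧ FH x g a} from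
            ⟨⟨ha.1.1, not_le.1 he⟩, ha.2⟩)]
          exact le_add_self
      · rw [if_neg ha]
        exact zero_le
    have h2 : lw ω x g * su {a | a ∈ (D ∩ C ∩ {a | ev B ω (endp 0 a) ≤ l}) ∧ FH x g a} (lw ω 0)
        ≤ (if ∃ z ∈ sitesL x g, ev B ω z ≤ l then lw ω x g else 0) * su (mn C) (lw ω 0) := by
      by_cases hz : ∃ z ∈ sitesL x g, ev B ω z ≤ l
      · rw [if_pos hz]
        gcongr
        exact su_le_mn ω 0 (pf_FH x g _) fun p hp => ⟨p, [], by simp, hp.1.1.2⟩
      · have : su {a | a ∈ (D ∩ C ∩ {a | ev B ω (endp 0 a) ≤ l}) ∧ FH x g a} (lw ω 0) = 0 := by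
          unfold su
          rw [ENNReal.tsum_eq_zero]
          intro a
          rw [if_neg]
          rintro ⟨⟨_, h3⟩, h4⟩
          exact hz ⟨_, h4.1, h3⟩
        rw [this, mul_zero]
        exact zero_le
    have h3 : su {a | a ∈ (D ∩ {a | l < ev B ω (endp 0 a)}) ∧ FH x g a} (lw ω 0)
        ≤ su (mn {a | a ∈ D ∧ l < ev B ω (endp 0 a)}) (lw ω 0) :=
      su_le_mn ω 0 (pf_FH x g _) fun p hp => ⟨p, [], by simp, hp.1⟩
    calc lw ω x g * su {a | a ∈ (D ∩ C) ∧ FH x g a} (lw ω 0)
        ≤ lw ω x g * (su {a | a ∈ (D ∩ C ∩ {a | ev B ω (endp 0 a) ≤ l}) ∧ FH x g a} (lw ω 0)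
          + su {a | a ∈ (D ∩ {a | l < ev B ω (endp 0 a)}) ∧ FH x g a} (lw ω 0)) := by gcongr
      _ = _ := mul_add _ _ _
      _ ≤ _ := add_le_add h2 (by gcongr)
  have hturn : su (mn {a | a ∈ D ∧ l < ev B ω (endp 0 a)}) (lw ω 0) ≤ l⁻¹ * su Sx (lw ω 0) := by
    have := su_turn_le B ω D Sx hDS l
    calc su (mn {a | a ∈ D ∧ l < ev B ω (endp 0 a)}) (lw ω 0)
        = l⁻¹ * (l * su (mn {a | a ∈ D ∧ l < ev B ω (endp 0 a)}) (lw ω 0)) := by
          rw [← mul_assoc, ENNReal.inv_mul_cancel hl hl', one_mul]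
      _ ≤ _ := by gcongr
  calc su Ga (fun g => lw ω x g * su {a | a ∈ (D ∩ C) ∧ FH x g a} (lw ω 0))
      ≤ su Ga (fun g => su (mn C) (lw ω 0) * (if ∃ z ∈ sitesL x g, ev B ω z ≤ l then lw ω x g else 0)
        + su (mn {a | a ∈ D ∧ l < ev B ω (endp 0 a)}) (lw ω 0) * lw ω x g) := by
        refine su_mono fun g hg => (hsplit g hg).trans (le_of_eq ?_)
        ring
    _ = su (mn C) (lw ω 0) * su Ga (fun g => if ∃ z ∈ sitesL x g, ev B ω z ≤ l then lw ω x g else 0)
        + su (mn {a | a ∈ D ∧ l < ev B ω (endp 0 a)}) (lw ω 0) * su Ga (lw ω x) := by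
        rw [← su_mul_left, ← su_mul_left]
        unfold su
        rw [← ENNReal.tsum_add]
        refine tsum_congr fun g => ?_
        by_cases hg : g ∈ Ga
        · simp only [hg, if_true]
        · simp only [hg, if_false, add_zero]
    _ ≤ su (mn C) (lw ω 0) * l + (l⁻¹ * su Sx (lw ω 0)) * 1 := by
        gcongr
        · refine le_trans (le_of_eq ?_) (su_bad_le x Ga B ω hGB l)
          unfold su
          refine tsum_congr fun g => ?_
          by_cases hg : g ∈ Ga
          · by_cases hz : ∃ z ∈ sitesL x g, ev B ω z ≤ l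
            · rw [if_pos hg]
              beta_reduce
              rw [if_pos hz, if_pos (show g ∈ {g | g ∈ Ga ∧ ∃ z ∈ sitesL x g, ev B ω z ≤ l} from ⟨hg, hz⟩)]
            · rw [if_pos hg]
              beta_reduce
              rw [if_neg hz, if_neg (fun h : g ∈ {g | g ∈ Ga ∧ ∃ z ∈ sitesL x g, ev B ω z ≤ l} => hz h.2)]
          · rw [if_neg hg, if_neg (fun h : g ∈ {g | g ∈ Ga ∧ ∃ z ∈ sitesL x g, ev B ω z ≤ l} => hg h.1)]
        · exact su_le_one ω x hGa
    _ = _ := by rw [mul_one, mul_comm l]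

lemma lw_le_one (ω : Environment d) (y : Site d) (l : List (Step d)) : lw ω y l ≤ 1 := by
  induction l generalizing y with
  | nil => simp [lw]
  | cons e l ih =>
    simp only [lw]
    refine mul_le_one' ?_ (ih _)
    exact (Finset.single_le_sum (f := fun e : Step d => ENNReal.ofReal ((ω y).1 e))
      (fun _ _ => zero_le) (Finset.mem_univ e)).trans (sum_step_le ω y)

lemma aw_le_one (y : Site d) (l : List (Step d)) : aw ν y l ≤ 1 := by
  unfold aw
  calc _ ≤ ∫⁻ _ : Environment d, 1 ∂(iidEnvironmentLaw ν) := lintegral_mono fun ω => lw_le_one ω y l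
    _ = 1 := by simp

/-- weight levels -/
noncomputable def cc (M : ℝ≥0∞) (q : ℕ) : ℝ≥0∞ := M * ((2⁻¹ : ℝ≥0∞) ^ q * (2⁻¹ : ℝ≥0∞) ^ q)

lemma cc_succ (M : ℝ≥0∞) (q : ℕ) : cc M q = 4 * cc M (q + 1) := by
  unfold cc
  have h2 : (2 : ℝ≥0∞) * 2⁻¹ = 1 := ENNReal.mul_inv_cancel (by norm_num) (by norm_num)
  calc M * ((2⁻¹ : ℝ≥0∞) ^ q * 2⁻¹ ^ q)
      = M * ((2⁻¹ : ℝ≥0∞) ^ q * 2⁻¹ ^ q) * ((2 * 2⁻¹) * (2 * 2⁻¹)) := by rw [h2]; ring
    _ = _ := by
        rw [pow_succ]
        ring

/-- words of weight class `q` -/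
def Cl (PP : Set (List (Step d))) (wt : Site d → ℝ≥0∞) (M : ℝ≥0∞) (q : ℕ) :
    Set (List (Step d)) :=
  {a | cc M (q + 1) * aw ν 0 a < num ν PP wt a ∧ num ν PP wt a ≤ cc M q * aw ν 0 a}

open Classical in
lemma num_le_class {PP : Set (List (Step d))} (hPP : PF PP) {wt : Site d → ℝ≥0∞} {M : ℝ≥0∞}
    (hM : M ≠ ⊤) (hwt : ∀ y, wt y ≤ M) (a : List (Step d)) :
    num ν PP wt a ≤ ∑' q, if a ∈ Cl ν PP wt M q then cc M q * aw ν 0 a else 0 := by
  by_cases h0 : num ν PP wt a = 0
  · rw [h0]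
    exact zero_le
  have hex : ∃ q, cc M (q + 1) * aw ν 0 a < num ν PP wt a := by
    have hMa : M * aw ν 0 a ≠ ⊤ :=
      ENNReal.mul_ne_top hM (ne_top_of_le_ne_top ENNReal.one_ne_top (aw_le_one ν 0 a))
    have ht : Filter.Tendsto (fun q : ℕ => M * aw ν 0 a * (2⁻¹ : ℝ≥0∞) ^ q) Filter.atTop
        (nhds (M * aw ν 0 a * 0)) :=
      ENNReal.Tendsto.const_mul
        (ENNReal.tendsto_pow_atTop_nhds_zero_of_lt_one (by norm_num)) (Or.inr hMa)
    rw [mul_zero] at ht
    obtain ⟨q, hq⟩ := (ht.eventually_lt_const (pos_iff_ne_zero.2 h0)).exists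
    refine ⟨q, lt_of_le_of_lt ?_ hq⟩
    unfold cc
    have h1 : (2⁻¹ : ℝ≥0∞) ^ (q + 1) ≤ 1 := pow_le_one' (by norm_num) _
    have h2 : (2⁻¹ : ℝ≥0∞) ^ (q + 1) ≤ 2⁻¹ ^ q := pow_le_pow_right_of_le_one' (by norm_num) (Nat.le_succ q)
    calc M * ((2⁻¹ : ℝ≥0∞) ^ (q + 1) * 2⁻¹ ^ (q + 1)) * aw ν 0 a
        ≤ M * (2⁻¹ ^ q * 1) * aw ν 0 a := by gcongr
      _ = _ := by ring
  have hfind := Nat.find_spec hex
  have hmem : a ∈ Cl ν PP wt M (Nat.find hex) := by
    refine ⟨hfind, ?_⟩
    rcases Nat.eq_zero_or_pos (Nat.find hex) with h | h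
    · rw [h]
      unfold cc
      simpa using num_le ν hPP hwt a
    · have := Nat.find_min hex (m := Nat.find hex - 1) (by omega)
      rw [not_lt, Nat.sub_add_cancel h] at this
      exact this
  calc num ν PP wt a ≤ cc M (Nat.find hex) * aw ν 0 a := hmem.2
    _ = (if a ∈ Cl ν PP wt M (Nat.find hex) then cc M (Nat.find hex) * aw ν 0 a else 0) := by
        rw [if_pos hmem]
    _ ≤ _ := ENNReal.le_tsum (f := fun q => if a ∈ Cl ν PP wt M q then cc M q * aw ν 0 a else 0) _

lemma su_class_le {PP : Set (List (Step d))} {wt : Site d → ℝ≥0∞} {M : ℝ≥0∞} (q : ℕ) :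
    cc M q * su (mn (Cl ν PP wt M q)) (aw ν 0) ≤ 4 * num ν PP wt [] := by
  rw [cc_succ, mul_assoc]
  gcongr
  rw [← su_mul_left]
  refine le_trans (su_mono fun a ha => ?_) (su_num_le ν PP wt (pf_mn _))
  exact ha.1.1.le

lemma lintegral_pair (D : Set (List (Step d))) :
    su Ga (fun g => aw ν x g * su {a | a ∈ D ∧ FH x g a} (aw ν 0))
      = ∫⁻ ω, su Ga (fun g => lw ω x g * su {a | a ∈ D ∧ FH x g a} (lw ω 0))
          ∂(iidEnvironmentLaw ν) := by
  classical
  unfold su
  rw [lintegral_tsum]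
  · refine tsum_congr fun g => ?_
    by_cases hg : g ∈ Ga
    · simp only [hg, if_true]
      simp_rw [← ENNReal.tsum_mul_left]
      rw [lintegral_tsum]
      · refine tsum_congr fun a => ?_
        by_cases ha : a ∈ {a | a ∈ D ∧ FH x g a}
        · simp only [ha, if_true]
          exact aw_mul ν x g a ha.2.disj
        · simp [ha]
      · intro a
        by_cases ha : a ∈ {a | a ∈ D ∧ FH x g a}
        · simp only [ha, if_true]
          exact ((measurable_lw x g).mul (measurable_lw 0 a)).aemeasurable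
        · simp [ha]
    · simp [hg]
  · intro g
    by_cases hg : g ∈ Ga
    · simp only [hg, if_true]
      exact ((measurable_lw x g).mul (measurable_su _ 0)).aemeasurable
    · simp [hg]

/-- **window lemma (3), one start `x`** -/
theorem win3x {PP D Sx : Set (List (Step d))} (hPP : PF PP) {wt : Site d → ℝ≥0∞} {M : ℝ≥0∞}
    (hM : M ≠ ⊤) (hwt : ∀ y, wt y ≤ M) (hGa : PF Ga)
    (hGB : ∀ a b, a ++ b ∈ Ga → b ∈ B (endp x a))
    (hDS : ∀ a ∈ D, ∀ b ∈ B (endp 0 a), a ++ b ∈ Sx) {l : ℝ≥0∞} (hl : l ≠ 0) (hl' : l ≠ ⊤) :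
    su Ga (fun g => aw ν x g *
        su {w | w ∈ PP ∧ ∃ a b, w = a ++ b ∧ a ∈ D ∧ FH x g a}
          (fun w => aw ν 0 w * wt (endp 0 w)))
      ≤ 8 * l * num ν PP wt [] + 2 * M * l⁻¹ * su Sx (aw ν 0) := by
  classical
  have hgeo : ∑' q : ℕ, (2⁻¹ : ℝ≥0∞) ^ q = 2 := by
    rw [ENNReal.tsum_geometric, ENNReal.one_sub_inv_two, inv_inv]
  -- step 1
  have h1 : ∀ g ∈ Ga, su {w | w ∈ PP ∧ ∃ a b, w = a ++ b ∧ a ∈ D ∧ FH x g a}
        (fun w => aw ν 0 w * wt (endp 0 w))
      ≤ ∑' q, cc M q * su {a | a ∈ (D ∩ Cl ν PP wt M q) ∧ FH x g a} (aw ν 0) := by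
    intro g _
    calc _ ≤ su {a | a ∈ D ∧ FH x g a} (fun a => su {b | a ++ b ∈
            {w | w ∈ PP ∧ ∃ a b, w = a ++ b ∧ a ∈ D ∧ FH x g a}}
            (fun b => aw ν 0 (a ++ b) * wt (endp 0 (a ++ b)))) :=
          su_cover _ _ _ (by
            rintro w ⟨_, a, b, h, hD, hF⟩
            exact ⟨a, b, h, hD, hF⟩)
      _ ≤ su {a | a ∈ D ∧ FH x g a} (num ν PP wt) := by
          refine su_mono fun a _ => ?_
          exact su_subset _ fun b hb => hb.1
      _ ≤ su {a | a ∈ D ∧ FH x g a} (fun a => ∑' q, if a ∈ Cl ν PP wt M q then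
            cc M q * aw ν 0 a else 0) := su_mono fun a _ => num_le_class ν hPP hM hwt a
      _ = _ := by
          unfold su
          simp_rw [← ENNReal.tsum_mul_left]
          rw [ENNReal.tsum_comm]
          refine tsum_congr fun a => ?_
          by_cases ha : a ∈ {a | a ∈ D ∧ FH x g a}
          · rw [if_pos ha]
            refine tsum_congr fun q => ?_
            by_cases hq : a ∈ Cl ν PP wt M q
            · rw [if_pos hq, if_pos (show a ∈ {a | a ∈ (D ∩ Cl ν PP wt M q) ∧ FH x g a} from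
                ⟨⟨ha.1, hq⟩, ha.2⟩)]
            · rw [if_neg hq, if_neg (fun h : a ∈ {a | a ∈ (D ∩ Cl ν PP wt M q) ∧ FH x g a} =>
                hq h.1.2), mul_zero]
          · rw [if_neg ha]
            symm
            rw [ENNReal.tsum_eq_zero]
            intro q
            rw [if_neg (fun h : a ∈ {a | a ∈ (D ∩ Cl ν PP wt M q) ∧ FH x g a} =>
                ha ⟨h.1.1, h.2⟩), mul_zero]
  -- step 2
  have h2 : su Ga (fun g => aw ν x g *
        su {w | w ∈ PP ∧ ∃ a b, w = a ++ b ∧ a ∈ D ∧ FH x g a}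
          (fun w => aw ν 0 w * wt (endp 0 w)))
      ≤ ∑' q, cc M q * su Ga (fun g => aw ν x g *
          su {a | a ∈ (D ∩ Cl ν PP wt M q) ∧ FH x g a} (aw ν 0)) := by
    calc _ ≤ su Ga (fun g => ∑' q, cc M q * (aw ν x g *
            su {a | a ∈ (D ∩ Cl ν PP wt M q) ∧ FH x g a} (aw ν 0))) := by
          refine su_mono fun g hg => ?_
          calc _ ≤ aw ν x g * ∑' q, cc M q *
                su {a | a ∈ (D ∩ Cl ν PP wt M q) ∧ FH x g a} (aw ν 0) := by
                gcongr
                exact h1 g hg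
            _ = _ := by
                rw [← ENNReal.tsum_mul_left]
                exact tsum_congr fun q => by ring
      _ = _ := by
          simp_rw [← su_mul_left]
          unfold su
          rw [ENNReal.tsum_comm]
          refine tsum_congr fun g => ?_
          by_cases hg : g ∈ Ga
          · simp only [hg, if_true]
          · simp [hg]
  -- step 3
  have h3 : ∀ q : ℕ, su Ga (fun g => aw ν x g *
        su {a | a ∈ (D ∩ Cl ν PP wt M q) ∧ FH x g a} (aw ν 0))
      ≤ l * (2⁻¹ : ℝ≥0∞) ^ q * su (mn (Cl ν PP wt M q)) (aw ν 0)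
        + l⁻¹ * 2 ^ q * su Sx (aw ν 0) := by
    intro q
    have hq0 : l * (2⁻¹ : ℝ≥0∞) ^ q ≠ 0 := mul_ne_zero hl (pow_ne_zero _ (by norm_num))
    have hq1 : l * (2⁻¹ : ℝ≥0∞) ^ q ≠ ⊤ := ENNReal.mul_ne_top hl' (ENNReal.pow_ne_top (by norm_num))
    rw [lintegral_pair]
    calc _ ≤ ∫⁻ ω, (l * (2⁻¹ : ℝ≥0∞) ^ q * su (mn (Cl ν PP wt M q)) (lw ω 0)
            + (l * (2⁻¹ : ℝ≥0∞) ^ q)⁻¹ * su Sx (lw ω 0)) ∂(iidEnvironmentLaw ν) :=
          lintegral_mono fun ω => class_le x Ga B ω D Sx (Cl ν PP wt M q) hGa hGB hDS _ hq0 hq1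
      _ = _ := by
          rw [lintegral_add_left ((measurable_su _ 0).const_mul _),
            lintegral_const_mul _ (measurable_su _ 0), lintegral_const_mul _ (measurable_su _ 0),
            lintegral_su, lintegral_su, ENNReal.mul_inv (Or.inl hl) (Or.inl hl'),
            ← ENNReal.inv_pow, inv_inv]
  refine h2.trans ?_
  calc _ ≤ ∑' q : ℕ, (l * (2⁻¹ : ℝ≥0∞) ^ q * (4 * num ν PP wt [])
        + M * l⁻¹ * su Sx (aw ν 0) * (2⁻¹ : ℝ≥0∞) ^ q) := by
        refine ENNReal.tsum_le_tsum fun q => ?_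
        calc _ ≤ cc M q * (l * (2⁻¹ : ℝ≥0∞) ^ q * su (mn (Cl ν PP wt M q)) (aw ν 0)
              + l⁻¹ * 2 ^ q * su Sx (aw ν 0)) := by
              gcongr
              exact h3 q
          _ = l * (2⁻¹ : ℝ≥0∞) ^ q * (cc M q * su (mn (Cl ν PP wt M q)) (aw ν 0))
              + cc M q * 2 ^ q * l⁻¹ * su Sx (aw ν 0) := by ring
          _ ≤ l * (2⁻¹ : ℝ≥0∞) ^ q * (4 * num ν PP wt [])
              + cc M q * 2 ^ q * l⁻¹ * su Sx (aw ν 0) := by
              exact add_le_add (mul_le_mul' le_rfl (su_class_le ν q)) le_rfl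
          _ = _ := by
              congr 1
              have h22 : (2⁻¹ : ℝ≥0∞) ^ q * 2 ^ q = 1 := by
                rw [← mul_pow, ENNReal.inv_mul_cancel (by norm_num) (by norm_num), one_pow]
              unfold cc
              calc M * ((2⁻¹ : ℝ≥0∞) ^ q * 2⁻¹ ^ q) * 2 ^ q * l⁻¹ * su Sx (aw ν 0)
                  = M * l⁻¹ * su Sx (aw ν 0) * 2⁻¹ ^ q * ((2⁻¹ : ℝ≥0∞) ^ q * 2 ^ q) := by ring
                _ = _ := by rw [h22, mul_one]
    _ = _ := by
        rw [ENNReal.tsum_add, ENNReal.tsum_mul_right, ENNReal.tsum_mul_left,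
          ENNReal.tsum_mul_left, hgeo]
        ring

end win

/-- **window lemma (3)**: sum over the starts `x` -/
theorem win3 (ν : Measure (Row d)) [IsProbabilityMeasure ν]
    (Ga : Site d → Set (List (Step d))) (B : Site d → Site d → Set (List (Step d)))
    (PP D : Set (List (Step d))) (Sx : Site d → Set (List (Step d)))
    (wt : Site d → Site d → ℝ≥0∞) {M U l : ℝ≥0∞} (hM : M ≠ ⊤) (hl : l ≠ 0) (hl' : l ≠ ⊤)
    (hPP : PF PP) (hGa : ∀ x, PF (Ga x)) (hwt : ∀ x y, wt x y ≤ M)
    (hGB : ∀ x a b, a ++ b ∈ Ga x → b ∈ B x (endp x a))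
    (hDS : ∀ x, ∀ a ∈ D, ∀ b ∈ B x (endp 0 a), a ++ b ∈ Sx x)
    (h1 : ∑' x, su PP (fun w => aw ν 0 w * wt x (endp 0 w)) ≤ 1)
    (hU : ∑' x, su (Sx x) (aw ν 0) ≤ U) :
    ∑' x, su (Ga x) (fun g => aw ν x g *
        su {w | w ∈ PP ∧ ∃ a b, w = a ++ b ∧ a ∈ D ∧ FH x g a}
          (fun w => aw ν 0 w * wt x (endp 0 w)))
      ≤ 8 * l + 2 * M * l⁻¹ * U := by
  calc _ ≤ ∑' x, (8 * l * num ν PP (wt x) [] + 2 * M * l⁻¹ * su (Sx x) (aw ν 0)) :=
        ENNReal.tsum_le_tsum fun x => win3x ν x (Ga x) (B x) hPP hM (hwt x) (hGa x) (hGB x)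
          (hDS x) hl hl'
    _ = 8 * l * ∑' x, su PP (fun w => aw ν 0 w * wt x (endp 0 w))
        + 2 * M * l⁻¹ * ∑' x, su (Sx x) (aw ν 0) := by
        rw [ENNReal.tsum_add, ENNReal.tsum_mul_left, ENNReal.tsum_mul_left]
        simp_rw [num_nil]
    _ ≤ 8 * l * 1 + 2 * M * l⁻¹ * U := by gcongr
    _ = _ := by rw [mul_one]

end Crest.Agent.R154.Win349
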