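import Crest.Agent.R154.DoobW_431
import Crest.Agent.R154.NBSurg_28
import Crest.Agent.R154.Us_109

/-! Row 154, ROAD 801: the window inequality (3) (Y local, X stopped at its first hit of `V_Y`,
weight on X's landing) in words, class thresholds and Ville (helper711). -/

set_option autoImplicit false

namespace Crest.Agent.R154.Win711

open MeasureTheory ProbabilityTheory Crest.ProbabilityR.RandomEnvironment Crest.Agent.R154
open Crest.Agent.R154.Flux566 (lw endp sitesL measurable_lw)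
open Crest.Agent.R154.NB28 (aw IsUp IsDn lint_mul aw_shift prefix_eq)
open Crest.Agent.R154.DoobW431
open scoped ENNReal
open Classical

variable {d : ℕ}

/-- runner words stopped at the first hit of `V`, in `Dp`, prefixes of words of `XX` -/
def FH (XX : Set (List (Step d))) (Dp V : Set (Site d)) (x : Site d) : Set (List (Step d)) :=
  {π | (∃ t, π ++ t ∈ XX) ∧ endp x π ∈ V ∧ endp x π ∈ Dp ∧ ∀ y ∈ sitesL x π, y ∉ V}

lemma pf_FH (XX : Set (List (Step d))) (Dp V : Set (Site d)) (x : Site d) :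
    PF (FH XX Dp V x) := by
  intro l hl l' hl' hp
  exact prefix_eq x (fun y => y ∈ V) hl'.2.2.2 hl.2.1 hp

/-- continuation sum: prefix-free starts, `π ++ ρ ∈ R`. -/
lemma inj_sum {P : Set (List (Step d))} (hP : PF P) (C : List (Step d) → Set (List (Step d)))
    (R : Set (List (Step d))) (f : List (Step d) → ℝ≥0∞)
    (h : ∀ π ∈ P, ∀ ρ ∈ C π, π ++ ρ ∈ R) :
    ∑' π, (if π ∈ P then ∑' ρ, (if ρ ∈ C π then f (π ++ ρ) else 0) else 0)
      ≤ ∑' r, (if r ∈ R then f r else 0) := by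
  have := ville hP (fun π => ∑' ρ, (if ρ ∈ C π then f (π ++ ρ) else 0))
    (fun r => if r ∈ R then f r else 0) 1 (fun π hπ => by
      rw [one_mul]
      have h1 := ENNReal.tsum_comp_le_tsum_of_injective (f := fun ρ => π ++ ρ)
          (fun a b hab => List.append_cancel_left hab)
          (fun ξ => if π <+: ξ then (if ξ ∈ R then f ξ else 0) else 0)
      refine le_trans (le_trans (ENNReal.tsum_le_tsum fun ρ => ?_) h1)
        (le_of_eq (tsum_congr fun ξ => ?_))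
      · by_cases hρ : ρ ∈ C π
        · simp [hρ, h π hπ ρ hρ]
        · simp [hρ]
      · by_cases hh : π <+: ξ <;> simp [hh])
  rwa [one_mul] at this

/-- minimal words with a property -/
def Mn (p : Set (List (Step d))) : Set (List (Step d)) :=
  {θ | θ ∈ p ∧ ∀ θ', θ' <+: θ → θ' ≠ θ → θ' ∉ p}

lemma pf_Mn (p : Set (List (Step d))) : PF (Mn p) := by
  intro l hl l' hl' hp
  by_contra hne
  exact hl'.2 l hp hne hl.1

lemma exists_Mn (p : Set (List (Step d))) (π : List (Step d)) (hπ : π ∈ p) :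
    ∃ θ ∈ Mn p, θ <+: π := by
  have hex : ∃ n, ∃ γ, γ <+: π ∧ γ ∈ p ∧ γ.length = n := ⟨_, π, List.prefix_rfl, hπ, rfl⟩
  obtain ⟨γ, h1, h2, h3⟩ := Nat.find_spec hex
  refine ⟨γ, ⟨h2, fun γ' hp hne hB => ?_⟩, h1⟩
  have hlt : γ'.length < Nat.find hex := by
    rw [← h3]
    exact lt_of_le_of_ne hp.length_le fun h => hne (hp.eq_of_length h)
  exact Nat.find_min hex hlt ⟨γ', hp.trans h1, hB, rfl⟩

lemma pf_cont {P : Set (List (Step d))} (hP : PF P) (θ : List (Step d)) :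
    PF {t | θ ++ t ∈ P} := by
  intro l hl l' hl' hp
  have := hP _ hl _ hl' ((List.prefix_append_right_inj θ).2 hp)
  exact List.append_cancel_left this

lemma pf_sub {P : Set (List (Step d))} (hP : PF P) (q : List (Step d) → Prop) :
    PF {t | t ∈ P ∧ q t} := hP.mono fun _ h => h.1

/-- class `j` words weigh at most the minimal words -/
lemma class_le (ω : Environment d) {F : Set (List (Step d))} (hF : PF F)
    (p : Set (List (Step d))) (x : Site d) :
    ∑' π, (if π ∈ F ∧ π ∈ p then lw ω x π else 0) ≤ ∑' θ, (if θ ∈ Mn p then lw ω x θ else 0) := by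
  have h := markov_pf ω x (W := {π | π ∈ F ∧ π ∈ p}) (P := Mn p)
    (fun θ => {t | θ ++ t ∈ F}) (fun _ => 1)
    (fun π hπ => by
      obtain ⟨θ, h1, t, rfl⟩ := exists_Mn p π hπ.2
      exact ⟨θ, t, rfl, h1, hπ.1⟩)
    (fun θ _ => kraft ω _ (pf_cont hF θ))
  simpa using h

lemma mem_sites {x y : Site d} {l : List (Step d)} (h : y ∈ sitesL x l) :
    ∃ l1 l2, l = l1 ++ l2 ∧ l2 ≠ [] ∧ endp x l1 = y := by
  induction l generalizing x with
  | nil => simp [sitesL] at h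
  | cons e l ih =>
    simp only [sitesL, List.mem_cons] at h
    rcases h with h | h
    · exact ⟨[], e :: l, rfl, by simp, by simp [endp, h]⟩
    · obtain ⟨l1, l2, h1, h2, h3⟩ := ih h
      exact ⟨e :: l1, l2, by simp [h1], h2, by simpa [endp] using h3⟩

lemma exists_class {m M : ℝ≥0∞} (hm : m ≠ 0) (hmM : m ≤ M) (hM : M ≠ ⊤) :
    ∃ j : ℕ, M * 2⁻¹ ^ (j + 1) < m ∧ m ≤ M * 2⁻¹ ^ j := by
  have hex : ∃ j : ℕ, M * 2⁻¹ ^ (j + 1) < m := by
    have ht : Filter.Tendsto (fun j : ℕ => M * (2⁻¹ : ℝ≥0∞) ^ (j + 1)) Filter.atTop (nhds (M * 0)) :=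
      ENNReal.Tendsto.const_mul ((ENNReal.tendsto_pow_atTop_nhds_zero_of_lt_one
        (by simp)).comp (Filter.tendsto_add_atTop_nat 1)) (Or.inr hM)
    rw [mul_zero] at ht
    exact (ht.eventually (gt_mem_nhds (pos_iff_ne_zero.2 hm))).exists
  refine ⟨Nat.find hex, Nat.find_spec hex, ?_⟩
  cases hj : Nat.find hex with
  | zero => simpa using hmM
  | succ k =>
    have := Nat.find_min hex (m := k) (by omega)
    exact not_lt.1 this

/-- pointwise split of the weight -/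
lemma split_w {m M lam e : ℝ≥0∞} (hmM : m ≤ M) (hM : M ≠ ⊤) (h0 : lam ≠ 0) (ht : lam ≠ ⊤) :
    m ≤ M / lam * e + ∑' j : ℕ, (if M * 2⁻¹ ^ (j + 1) < m ∧ e ≤ lam * 2⁻¹ ^ j
      then M * 2⁻¹ ^ j else 0) := by
  rcases eq_or_ne m 0 with hm | hm
  · simp [hm]
  obtain ⟨j, h1, h2⟩ := exists_class hm hmM hM
  rcases le_or_gt e (lam * 2⁻¹ ^ j) with he | he
  · refine le_trans ?_ le_add_self
    refine le_trans h2 (le_trans (le_of_eq ?_) (ENNReal.le_tsum j))
    rw [if_pos ⟨h1, he⟩]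
  · refine le_trans ?_ le_self_add
    refine le_trans h2 ?_
    calc M * 2⁻¹ ^ j = M / lam * (lam * 2⁻¹ ^ j) := by
          rw [← mul_assoc, ENNReal.div_mul_cancel h0 ht]
      _ ≤ M / lam * e := by gcongr

/-- the quenched inequality for one start `x` of the local walker -/
theorem ptw (ω : Environment d) (XX : Set (List (Step d))) (Dp : Set (Site d)) (x : Site d)
    {W : Set (List (Step d))} (hW : PF W) (DD : Site d → Set (List (Step d)))
    (E : Finset (Site d)) (hD : ∀ γ1 γ2, γ1 ++ γ2 ∈ W → γ2 ∈ DD (endp x γ1))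
    (hE : ∀ γ ∈ W, endp x γ - x ∈ E) (RR : Set (List (Step d)))
    (hRR : ∀ π, (∃ t, π ++ t ∈ XX) → endp 0 π ∈ Dp → ∀ γ2 ∈ DD (endp 0 π), π ++ γ2 ∈ RR)
    (m : List (Step d) → ℝ≥0∞) {M lam : ℝ≥0∞} (hmM : ∀ π, m π ≤ M) (hM : M ≠ ⊤)
    (h0 : lam ≠ 0) (ht : lam ≠ ⊤) :
    ∑' γ, (if γ ∈ W then lw ω x γ * ∑' π, (if π ∈ FH XX Dp {y | y ∈ sitesL x γ} 0
        then m π * lw ω 0 π else 0) else 0)
      ≤ M / lam * ∑' r, (if r ∈ RR ∧ endp 0 r - x ∈ E then lw ω 0 r else 0)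
        + ∑' j : ℕ, (M * 2⁻¹ ^ j) * ((lam * 2⁻¹ ^ j) *
          ∑' θ, (if θ ∈ Mn {π | M * 2⁻¹ ^ (j + 1) < m π} then lw ω 0 θ else 0)) := by
  set e : Site d → ℝ≥0∞ := fun v =>
    ∑' γ, if γ ∈ DD v ∧ endp v γ - x ∈ E then lw ω v γ else 0 with he
  set R : ℝ≥0∞ := ∑' r, (if r ∈ RR ∧ endp 0 r - x ∈ E then lw ω 0 r else 0) with hR
  set K : ℕ → ℝ≥0∞ := fun j =>
    ∑' θ, (if θ ∈ Mn {π | M * 2⁻¹ ^ (j + 1) < m π} then lw ω 0 θ else 0) with hK
  set B : ℕ → Set (Site d) := fun j => {v | e v ≤ lam * 2⁻¹ ^ j} with hB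
  have key : ∀ γ ∈ W, ∑' π, (if π ∈ FH XX Dp {y | y ∈ sitesL x γ} 0 then m π * lw ω 0 π else 0)
      ≤ M / lam * R + ∑' j : ℕ, (M * 2⁻¹ ^ j) *
        (if (∃ γ1, γ1 <+: γ ∧ endp x γ1 ∈ B j) then K j else 0) := by
    intro γ hγ
    set F := FH XX Dp {y | y ∈ sitesL x γ} 0 with hF
    have hFpf : PF F := pf_FH _ _ _ _
    have s1 : ∑' π, (if π ∈ F then lw ω 0 π * e (endp 0 π) else 0) ≤ R := by
      refine le_trans (le_of_eq (tsum_congr fun π => ?_)) (le_trans (inj_sum hFpf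
        (fun π => {ρ | ρ ∈ DD (endp 0 π) ∧ endp (endp 0 π) ρ - x ∈ E})
        {r | r ∈ RR ∧ endp 0 r - x ∈ E} (fun r => lw ω 0 r) ?_)
        (le_of_eq (tsum_congr fun r => by
          by_cases hr : r ∈ RR ∧ endp 0 r - x ∈ E
          · rw [if_pos hr, if_pos (show r ∈ {r | r ∈ RR ∧ endp 0 r - x ∈ E} from hr)]
          · rw [if_neg hr, if_neg (show ¬ r ∈ {r | r ∈ RR ∧ endp 0 r - x ∈ E} from hr)])))
      · by_cases hπ : π ∈ F
        · rw [if_pos hπ, if_pos hπ, he]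
          simp only
          rw [← ENNReal.tsum_mul_left]
          refine tsum_congr fun ρ => ?_
          by_cases hρ : ρ ∈ DD (endp 0 π) ∧ endp (endp 0 π) ρ - x ∈ E
          · rw [if_pos hρ, if_pos (by exact hρ), lw_append]
          · rw [if_neg hρ, if_neg (by exact hρ), mul_zero]
        · simp [hπ]
      · intro π hπ ρ hρ
        exact ⟨hRR π hπ.1 hπ.2.2.1 ρ hρ.1, by
          rw [Flux566.endp_append]; exact hρ.2⟩
    have s2 : ∀ j : ℕ, ∑' π, (if π ∈ F ∧ (M * 2⁻¹ ^ (j + 1) < m π ∧ e (endp 0 π) ≤ lam * 2⁻¹ ^ j)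
        then lw ω 0 π else 0)
        ≤ (if (∃ γ1, γ1 <+: γ ∧ endp x γ1 ∈ B j) then K j else 0) := by
      intro j
      by_cases hv : ∃ γ1, γ1 <+: γ ∧ endp x γ1 ∈ B j
      · rw [if_pos hv]
        refine le_trans (ENNReal.tsum_le_tsum fun π => ?_)
          (class_le ω hFpf {π | M * 2⁻¹ ^ (j + 1) < m π} 0)
        by_cases hπ : π ∈ F ∧ (M * 2⁻¹ ^ (j + 1) < m π ∧ e (endp 0 π) ≤ lam * 2⁻¹ ^ j)
        · rw [if_pos hπ, if_pos ⟨hπ.1, hπ.2.1⟩]
        · rw [if_neg hπ]; exact zero_le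
      · rw [if_neg hv]
        refine le_of_eq (ENNReal.tsum_eq_zero.2 fun π => if_neg ?_)
        rintro ⟨h1, -, h3⟩
        obtain ⟨l1, l2, e1, -, e3⟩ := mem_sites (show endp 0 π ∈ sitesL x γ from h1.2.1)
        exact hv ⟨l1, ⟨l2, e1.symm⟩, by rw [e3]; exact h3⟩
    calc ∑' π, (if π ∈ F then m π * lw ω 0 π else 0)
        ≤ ∑' π, (M / lam * (if π ∈ F then lw ω 0 π * e (endp 0 π) else 0)
            + ∑' j : ℕ, (M * 2⁻¹ ^ j) * (if π ∈ F ∧ (M * 2⁻¹ ^ (j + 1) < m π ∧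
              e (endp 0 π) ≤ lam * 2⁻¹ ^ j) then lw ω 0 π else 0)) := by
          refine ENNReal.tsum_le_tsum fun π => ?_
          by_cases hπ : π ∈ F
          · rw [if_pos hπ, if_pos hπ]
            refine le_trans (mul_le_mul_left (split_w (hmM π) hM h0 ht (e := e (endp 0 π))) _) ?_
            rw [add_mul, ← ENNReal.tsum_mul_right]
            refine add_le_add (le_of_eq (by ring)) (ENNReal.tsum_le_tsum fun j => ?_)
            by_cases hj : M * 2⁻¹ ^ (j + 1) < m π ∧ e (endp 0 π) ≤ lam * 2⁻¹ ^ j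
            · rw [if_pos hj, if_pos ⟨hπ, hj⟩]
            · rw [if_neg hj, zero_mul]; exact zero_le
          · rw [if_neg hπ]; exact zero_le
      _ = M / lam * ∑' π, (if π ∈ F then lw ω 0 π * e (endp 0 π) else 0)
            + ∑' j : ℕ, (M * 2⁻¹ ^ j) * ∑' π, (if π ∈ F ∧ (M * 2⁻¹ ^ (j + 1) < m π ∧
              e (endp 0 π) ≤ lam * 2⁻¹ ^ j) then lw ω 0 π else 0) := by
          rw [ENNReal.tsum_add, ENNReal.tsum_mul_left, ENNReal.tsum_comm]
          congr 1
          exact tsum_congr fun j => ENNReal.tsum_mul_left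
      _ ≤ _ := by
          gcongr with j
          exact s2 j
  have hbad : ∀ j : ℕ, ∑' γ, (if γ ∈ W ∧ (∃ γ1, γ1 <+: γ ∧ endp x γ1 ∈ B j) then lw ω x γ else 0)
      ≤ lam * 2⁻¹ ^ j := fun j => by
    refine bad_le ω x W (B j) (fun v => {γ | γ ∈ DD v ∧ endp v γ - x ∈ E}) _
      (fun γ ρ2 h => ⟨hD γ ρ2 h, ?_⟩) (fun v hv => le_trans (le_of_eq (tsum_congr fun γ => by
        by_cases hr : γ ∈ DD v ∧ endp v γ - x ∈ E
        · rw [if_pos hr, if_pos (show γ ∈ {γ | γ ∈ DD v ∧ endp v γ - x ∈ E} from hr)]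
        · rw [if_neg hr, if_neg (show ¬ γ ∈ {γ | γ ∈ DD v ∧ endp v γ - x ∈ E} from hr)]))
        (show e v ≤ lam * 2⁻¹ ^ j from hv))
    have := hE _ h
    rwa [Flux566.endp_append] at this
  calc _ ≤ ∑' γ, (((if γ ∈ W then lw ω x γ else 0) * (M / lam * R)) + ∑' j : ℕ, (M * 2⁻¹ ^ j) *
        (K j * (if γ ∈ W ∧ (∃ γ1, γ1 <+: γ ∧ endp x γ1 ∈ B j) then lw ω x γ else 0))) := by
        refine ENNReal.tsum_le_tsum fun γ => ?_
        by_cases hγ : γ ∈ W
        · rw [if_pos hγ, if_pos hγ]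
          refine le_trans (mul_le_mul_right (key γ hγ) _) ?_
          rw [mul_add]
          refine add_le_add le_rfl ?_
          rw [← ENNReal.tsum_mul_left]
          refine ENNReal.tsum_le_tsum fun j => ?_
          by_cases hv : ∃ γ1, γ1 <+: γ ∧ endp x γ1 ∈ B j
          · rw [if_pos hv, if_pos ⟨hγ, hv⟩]
            exact le_of_eq (by ring)
          · rw [if_neg hv, mul_zero, mul_zero]; exact zero_le
        · rw [if_neg hγ]; exact zero_le
    _ = (∑' γ, (if γ ∈ W then lw ω x γ else 0)) * (M / lam * R) + ∑' j : ℕ, (M * 2⁻¹ ^ j) *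
        (K j * ∑' γ, (if γ ∈ W ∧ (∃ γ1, γ1 <+: γ ∧ endp x γ1 ∈ B j) then lw ω x γ else 0)) := by
        rw [ENNReal.tsum_add, ENNReal.tsum_mul_right, ENNReal.tsum_comm]
        congr 1
        exact tsum_congr fun j => by rw [ENNReal.tsum_mul_left, ENNReal.tsum_mul_left]
    _ ≤ 1 * (M / lam * R) + ∑' j : ℕ, (M * 2⁻¹ ^ j) * (K j * (lam * 2⁻¹ ^ j)) := by
        gcongr with j
        · exact kraft ω x hW
        · exact hbad j
    _ = _ := by
        rw [one_mul]
        congr 1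
        exact tsum_congr fun j => by rw [mul_comm (K j)]

/-! ### annealed -/

variable (ν : Measure (Row d)) [IsProbabilityMeasure ν]

lemma ext_le (ω : Environment d) {XX : Set (List (Step d))} (hXX : PF XX) (θ : List (Step d)) :
    ∑' ξ, (if ξ ∈ XX ∧ θ <+: ξ then lw ω 0 ξ else 0) ≤ lw ω 0 θ := by
  have h := markov_pf ω 0 (W := {ξ | ξ ∈ XX ∧ θ <+: ξ}) (P := {θ})
    (fun _ => {t | θ ++ t ∈ XX}) (fun _ => 1)
    (fun ξ hξ => by
      obtain ⟨h1, t, rfl⟩ := hξ
      exact ⟨θ, t, rfl, rfl, h1⟩)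
    (fun γ hγ => by
      have : γ = θ := hγ
      subst this
      exact kraft ω _ (pf_cont hXX _))
  refine le_trans (le_of_eq (tsum_congr fun ξ => ?_)) (h.trans (le_of_eq ?_))
  · by_cases hr : ξ ∈ XX ∧ θ <+: ξ
    · rw [if_pos hr, if_pos (show ξ ∈ {ξ | ξ ∈ XX ∧ θ <+: ξ} from hr)]
    · rw [if_neg hr, if_neg (show ¬ ξ ∈ {ξ | ξ ∈ XX ∧ θ <+: ξ} from hr)]
  · rw [tsum_eq_single θ]
    · simp
    · intro γ hγ; simp [hγ]

lemma aw_le_one (θ : List (Step d)) : aw ν θ ≤ 1 := by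
  have := NB28.pf_aw_le_one ν (ι := Unit) (fun _ => θ) (fun _ _ _ => rfl)
  simpa using this

lemma ext_aw_le {XX : Set (List (Step d))} (hXX : PF XX) (θ : List (Step d)) :
    ∑' ξ, (if ξ ∈ XX ∧ θ <+: ξ then aw ν ξ else 0) ≤ aw ν θ := by
  have e : ∀ ξ, (if ξ ∈ XX ∧ θ <+: ξ then aw ν ξ else 0)
      = ∫⁻ ω, (if ξ ∈ XX ∧ θ <+: ξ then lw ω 0 ξ else 0) ∂(iidEnvironmentLaw ν) := fun ξ => by
    split_ifs <;> simp [aw]
  simp_rw [e]
  rw [← lintegral_tsum]
  · exact lintegral_mono fun ω => ext_le ω hXX θ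
  · intro ξ
    split_ifs
    · exact (measurable_lw 0 ξ).aemeasurable
    · exact aemeasurable_const

/-- weight of the completions of `θ` -/
noncomputable def Ax (XX : Set (List (Step d))) (μ : Site d → ℝ≥0∞) (x : Site d)
    (θ : List (Step d)) : ℝ≥0∞ :=
  ∑' ξ, if ξ ∈ XX ∧ θ <+: ξ then μ (x - endp 0 ξ) * aw ν ξ else 0

lemma Ax_le {XX : Set (List (Step d))} (hXX : PF XX) {μ : Site d → ℝ≥0∞} {M : ℝ≥0∞}
    (hμ : ∀ z, μ z ≤ M) (x : Site d) (θ : List (Step d)) : Ax ν XX μ x θ ≤ M * aw ν θ := by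
  refine le_trans ?_ (mul_le_mul_right (ext_aw_le ν hXX θ) M)
  rw [← ENNReal.tsum_mul_left]
  refine ENNReal.tsum_le_tsum fun ξ => ?_
  by_cases h : ξ ∈ XX ∧ θ <+: ξ
  · rw [if_pos h, if_pos h]; gcongr; exact hμ _
  · rw [if_neg h]; exact zero_le

lemma Ax_eq {XX : Set (List (Step d))} (hXX : PF XX) {μ : Site d → ℝ≥0∞} {M : ℝ≥0∞}
    (hμ : ∀ z, μ z ≤ M) (x : Site d) (θ : List (Step d)) :
    Ax ν XX μ x θ = Ax ν XX μ x θ / aw ν θ * aw ν θ := by
  by_cases h : aw ν θ = 0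
  · have := Ax_le ν hXX hμ x θ
    rw [h, mul_zero] at this
    rw [nonpos_iff_eq_zero.1 this, h]; simp
  · rw [ENNReal.div_mul_cancel h (ne_top_of_le_ne_top ENNReal.one_ne_top (aw_le_one ν θ))]

lemma Ax_div_le {XX : Set (List (Step d))} (hXX : PF XX) {μ : Site d → ℝ≥0∞} {M : ℝ≥0∞}
    (hμ : ∀ z, μ z ≤ M) (x : Site d) (θ : List (Step d)) :
    Ax ν XX μ x θ / aw ν θ ≤ M := ENNReal.div_le_of_le_mul (Ax_le ν hXX hμ x θ)

/-- the local words from `x` -/
def LocW (YY : Site d → Set (List (Step d))) (E : Finset (Site d)) (x : Site d) :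
    Set (List (Step d)) := {γ | γ ∈ YY x ∧ endp x γ - x ∈ E}

/-- **the window inequality (3) in words**: `Y` local (`γ`), `X` stopped at its first hit. -/
theorem win3 {XX : Set (List (Step d))} (hXX : PF XX) {YY : Site d → Set (List (Step d))}
    (hYY : ∀ x, PF (YY x)) (DD : Site d → Site d → Set (List (Step d)))
    (hD : ∀ x γ1 γ2, γ1 ++ γ2 ∈ YY x → γ2 ∈ DD x (endp x γ1)) (Dp : Set (Site d))
    (RR : Set (List (Step d))) (hRR : ∀ x π, (∃ t, π ++ t ∈ XX) → endp 0 π ∈ Dp →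
      ∀ γ2 ∈ DD x (endp 0 π), π ++ γ2 ∈ RR)
    (E : Finset (Site d)) {μ : Site d → ℝ≥0∞} {M lam : ℝ≥0∞} (hμ1 : ∑' z, μ z ≤ 1)
    (hμ : ∀ z, μ z ≤ M) (hM : M ≠ ⊤) (h0 : lam ≠ 0) (ht : lam ≠ ⊤) :
    ∑' x, ∑' γ, ∑' ξ, (if γ ∈ YY x ∧ endp x γ - x ∈ E ∧ ξ ∈ XX ∧
        (∃ π ∈ FH XX Dp {y | y ∈ sitesL x γ} 0, π <+: ξ)
        then μ (x - endp 0 ξ) * (aw ν ξ * aw ν γ) else 0)
      ≤ 4 * lam + M / lam * (E.card * ∑' r, (if r ∈ RR then aw ν r else 0)) := by
  set m : Site d → List (Step d) → ℝ≥0∞ := fun x θ => Ax ν XX μ x θ / aw ν θ with hm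
  let W : Site d → Set (List (Step d)) := LocW YY E
  have hWpf : ∀ x, PF (W x) := fun x => (hYY x).mono fun _ h => h.1
  -- step 1
  have s1 : ∀ x γ, ∑' ξ, (if γ ∈ YY x ∧ endp x γ - x ∈ E ∧ ξ ∈ XX ∧
        (∃ π ∈ FH XX Dp {y | y ∈ sitesL x γ} 0, π <+: ξ)
        then μ (x - endp 0 ξ) * (aw ν ξ * aw ν γ) else 0)
      ≤ ∫⁻ ω, (if γ ∈ LocW YY E x then lw ω x γ * ∑' π, (if π ∈ FH XX Dp {y | y ∈ sitesL x γ} 0
        then m x π * lw ω 0 π else 0) else 0) ∂(iidEnvironmentLaw ν) := by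
    intro x γ
    by_cases hγ : γ ∈ LocW YY E x
    swap
    · rw [show (∑' ξ, (if γ ∈ YY x ∧ endp x γ - x ∈ E ∧ ξ ∈ XX ∧
        (∃ π ∈ FH XX Dp {y | y ∈ sitesL x γ} 0, π <+: ξ)
        then μ (x - endp 0 ξ) * (aw ν ξ * aw ν γ) else 0)) = 0 from
        ENNReal.tsum_eq_zero.2 fun ξ => if_neg fun h => hγ ⟨h.1, h.2.1⟩]
      exact zero_le
    simp only [if_pos hγ]
    set F := FH XX Dp {y | y ∈ sitesL x γ} 0 with hF
    have e1 : ∀ ω, lw ω x γ * ∑' π, (if π ∈ F then m x π * lw ω 0 π else 0)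
        = ∑' π, (if π ∈ F then m x π * (lw ω 0 π * lw ω x γ) else 0) := fun ω => by
      rw [← ENNReal.tsum_mul_left]
      refine tsum_congr fun π => ?_
      split_ifs
      · ring
      · simp
    simp_rw [e1]
    rw [lintegral_tsum]
    swap
    · intro π
      split_ifs
      · exact (((measurable_lw 0 π).mul (measurable_lw x γ)).const_mul _).aemeasurable
      · exact aemeasurable_const
    calc _ ≤ ∑' ξ, ∑' π, (if π ∈ F then (if ξ ∈ XX ∧ π <+: ξ then
          μ (x - endp 0 ξ) * aw ν ξ else 0) * aw ν γ else 0) := by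
          refine ENNReal.tsum_le_tsum fun ξ => ?_
          by_cases h : γ ∈ YY x ∧ endp x γ - x ∈ E ∧ ξ ∈ XX ∧ (∃ π ∈ F, π <+: ξ)
          · rw [if_pos h]
            obtain ⟨-, -, h3, π, h4, h5⟩ := h
            refine le_trans (le_of_eq ?_) (ENNReal.le_tsum π)
            rw [if_pos h4, if_pos ⟨h3, h5⟩, mul_assoc]
          · rw [if_neg h]; exact zero_le
      _ = ∑' π, (if π ∈ F then Ax ν XX μ x π * aw ν γ else 0) := by
          rw [ENNReal.tsum_comm]
          refine tsum_congr fun π => ?_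
          by_cases h : π ∈ F
          · simp only [if_pos h]
            rw [ENNReal.tsum_mul_right]; rfl
          · simp [h]
      _ = _ := by
          refine tsum_congr fun π => ?_
          by_cases h : π ∈ F
          · simp only [if_pos h]
            rw [lintegral_const_mul (f := fun ω => lw ω 0 π * lw ω x γ) _
              ((measurable_lw 0 π).mul (measurable_lw x γ)),
              lint_mul ν 0 x π γ (fun y hy => h.2.2.2 y hy), ← mul_assoc,
              ← Ax_eq ν hXX hμ x π]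
          · simp [h]
  -- step 2: the integral of the pointwise inequality
  have s2 : ∀ x, ∑' γ, ∫⁻ ω, (if γ ∈ LocW YY E x then lw ω x γ * ∑' π,
        (if π ∈ FH XX Dp {y | y ∈ sitesL x γ} 0
        then m x π * lw ω 0 π else 0) else 0) ∂(iidEnvironmentLaw ν)
      ≤ M / lam * ∑' r, (if r ∈ RR ∧ endp 0 r - x ∈ E then aw ν r else 0)
        + ∑' j : ℕ, (M * 2⁻¹ ^ j) * ((lam * 2⁻¹ ^ j) *
          ∑' θ, (if θ ∈ Mn {π | M * 2⁻¹ ^ (j + 1) < m x π} then aw ν θ else 0)) := by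
    intro x
    rw [← lintegral_tsum]
    swap
    · intro γ
      split_ifs
      · refine ((measurable_lw x γ).mul (Measurable.tsum fun π => ?_)).aemeasurable
        split_ifs
        · exact (measurable_lw 0 π).const_mul _
        · exact measurable_const
      · exact aemeasurable_const
    refine le_trans (lintegral_mono fun ω => ptw ω XX Dp x (hWpf x) (DD x) E
      (fun γ1 γ2 h => hD x γ1 γ2 h.1) (fun γ h => h.2) RR (hRR x) (m x)
      (fun π => Ax_div_le ν hXX hμ x π) hM h0 ht) (le_of_eq ?_)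
    have mR : ∀ r, Measurable fun ω : Environment d =>
        (if r ∈ RR ∧ endp 0 r - x ∈ E then lw ω 0 r else 0) := fun r => by
      split_ifs
      · exact measurable_lw 0 r
      · exact measurable_const
    have mT : ∀ (j : ℕ) (θ : List (Step d)), Measurable fun ω : Environment d =>
        (if θ ∈ Mn {π | M * 2⁻¹ ^ (j + 1) < m x π} then lw ω 0 θ else 0) := fun j r => by
      split_ifs
      · exact measurable_lw 0 r
      · exact measurable_const
    rw [lintegral_add_left ((Measurable.tsum mR).const_mul _),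
      lintegral_const_mul _ (Measurable.tsum mR), lintegral_tsum fun r => (mR r).aemeasurable,
      lintegral_tsum fun j => (((Measurable.tsum (mT j)).const_mul _).const_mul _).aemeasurable]
    congr 1
    · congr 1
      refine tsum_congr fun r => ?_
      split_ifs
      · rfl
      · simp
    · refine tsum_congr fun j => ?_
      rw [lintegral_const_mul _ ((Measurable.tsum (mT j)).const_mul _),
        lintegral_const_mul _ (Measurable.tsum (mT j)),
        lintegral_tsum fun r => (mT j r).aemeasurable]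
      congr 2
      refine tsum_congr fun r => ?_
      split_ifs
      · rfl
      · simp
  -- step 3: Ville
  have s3 : ∀ x j, (M * 2⁻¹ ^ j) * ((lam * 2⁻¹ ^ j) *
      ∑' θ, (if θ ∈ Mn {π | M * 2⁻¹ ^ (j + 1) < m x π} then aw ν θ else 0))
      ≤ 2 * lam * 2⁻¹ ^ j * ∑' ξ, (if ξ ∈ XX then μ (x - endp 0 ξ) * aw ν ξ else 0) := by
    intro x j
    have hv := ville (pf_Mn {π | M * 2⁻¹ ^ (j + 1) < m x π}) (aw ν)
      (fun ξ => if ξ ∈ XX then μ (x - endp 0 ξ) * aw ν ξ else 0) (M * 2⁻¹ ^ (j + 1))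
      (fun θ hθ => by
        have h1 : M * 2⁻¹ ^ (j + 1) < m x θ := hθ.1
        refine le_trans (mul_le_mul_left h1.le _) (le_trans (le_of_eq (Ax_eq ν hXX hμ x θ).symm) ?_)
        refine le_of_eq (tsum_congr fun ξ => ?_)
        by_cases h : θ <+: ξ <;> by_cases h' : ξ ∈ XX <;> simp [h, h'])
    refine le_trans (le_of_eq ?_) (mul_le_mul_right hv (2 * lam * 2⁻¹ ^ j))
    generalize (∑' θ, (if θ ∈ Mn {π | M * 2⁻¹ ^ (j + 1) < m x π} then aw ν θ else 0)) = T
    rw [pow_succ]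
    have h2 : (2 : ℝ≥0∞) * 2⁻¹ = 1 := ENNReal.mul_inv_cancel (by simp) (by simp)
    calc (M * 2⁻¹ ^ j) * ((lam * 2⁻¹ ^ j) * T)
        = (M * 2⁻¹ ^ j) * ((lam * 2⁻¹ ^ j) * (2 * 2⁻¹) * T) := by rw [h2, mul_one]
      _ = _ := by ring
  have hgeo : ∑' j : ℕ, 2 * lam * (2⁻¹ : ℝ≥0∞) ^ j = 4 * lam := by
    rw [ENNReal.tsum_mul_left, ENNReal.tsum_geometric_two]
    ring
  calc _ ≤ ∑' x, ∑' γ, ∫⁻ ω, (if γ ∈ LocW YY E x then lw ω x γ * ∑' π,
        (if π ∈ FH XX Dp {y | y ∈ sitesL x γ} 0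
        then m x π * lw ω 0 π else 0) else 0) ∂(iidEnvironmentLaw ν) :=
        ENNReal.tsum_le_tsum fun x => ENNReal.tsum_le_tsum fun γ => s1 x γ
    _ ≤ ∑' x, (M / lam * ∑' r, (if r ∈ RR ∧ endp 0 r - x ∈ E then aw ν r else 0)
        + ∑' j : ℕ, 2 * lam * 2⁻¹ ^ j *
          ∑' ξ, (if ξ ∈ XX then μ (x - endp 0 ξ) * aw ν ξ else 0)) :=
        ENNReal.tsum_le_tsum fun x => (s2 x).trans
          (add_le_add le_rfl (ENNReal.tsum_le_tsum fun j => s3 x j))
    _ = M / lam * ∑' x, ∑' r, (if r ∈ RR ∧ endp 0 r - x ∈ E then aw ν r else 0)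
        + 4 * lam * ∑' x, ∑' ξ, (if ξ ∈ XX then μ (x - endp 0 ξ) * aw ν ξ else 0) := by
        rw [ENNReal.tsum_add, ENNReal.tsum_mul_left]
        congr 1
        rw [← ENNReal.tsum_mul_left]
        exact tsum_congr fun x => by rw [ENNReal.tsum_mul_right, hgeo]
    _ ≤ M / lam * (E.card * ∑' r, (if r ∈ RR then aw ν r else 0)) + 4 * lam * 1 := by
        gcongr
        · rw [ENNReal.tsum_comm, ← ENNReal.tsum_mul_left]
          refine ENNReal.tsum_le_tsum fun r => ?_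
          by_cases hr : r ∈ RR
          · simp only [hr, true_and, if_true]
            calc ∑' x, (if endp 0 r - x ∈ E then aw ν r else 0)
                = ∑' x, (if x ∈ E then aw ν r else 0) := by
                  rw [← (Equiv.subLeft (endp 0 r)).tsum_eq
                    (fun x => (if x ∈ E then aw ν r else 0))]
                  rfl
              _ = ∑ x ∈ E, aw ν r := by
                  rw [tsum_eq_sum (s := E) (fun x hx => if_neg hx)]
                  exact Finset.sum_congr rfl fun x hx => if_pos hx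
              _ ≤ E.card * aw ν r := by rw [Finset.sum_const, nsmul_eq_mul]
          · simp [hr]
        · rw [ENNReal.tsum_comm]
          calc ∑' ξ, ∑' x, (if ξ ∈ XX then μ (x - endp 0 ξ) * aw ν ξ else 0)
              ≤ ∑' ξ, (if ξ ∈ XX then aw ν ξ else 0) := by
                refine ENNReal.tsum_le_tsum fun ξ => ?_
                by_cases h : ξ ∈ XX
                · simp only [if_pos h]
                  rw [ENNReal.tsum_mul_right]
                  have : ∑' x, μ (x - endp 0 ξ) = ∑' x, μ x :=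
                    (Equiv.subRight (endp 0 ξ)).tsum_eq μ
                  rw [this]
                  exact (mul_le_mul_left hμ1 _).trans (by rw [one_mul])
                · simp [h]
            _ ≤ aw ν [] := by
                refine le_trans (le_of_eq (tsum_congr fun ξ => ?_)) (ext_aw_le ν hXX [])
                by_cases h : ξ ∈ XX <;> simp [h]
            _ ≤ 1 := aw_le_one ν []
    _ = _ := by rw [mul_one, add_comm]

end Crest.Agent.R154.Win711
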