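import Crest.Agent.R154.WordB_956
import Crest.Agent.R154.NBDefs_28

/-! Row 154, ROAD 801 (helper761): window lemma (3) in words, proportional threshold + dyadic classes. -/

set_option autoImplicit false

namespace Crest.Agent.R154.Win761

open MeasureTheory ProbabilityTheory Crest.ProbabilityR.RandomEnvironment Crest.Agent.R154
open Crest.Agent.R154.Flux566 (lw endp sitesL endp_append endp_eq_add measurable_lw locOn_lw)
open Crest.Agent.R154.WordB956 (PF FH Vis pf_FH exists_FH FH_unique tsum_vis vis_le pf_sum_le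
  pf_aw_le pf_ext_le mem_sitesL)
open scoped ENNReal

variable {d : ℕ}

abbrev Wd (d : ℕ) := List (Step d)

lemma pair_le (P : Wd d → Wd d → Prop) (T : Wd d → Prop) (F : Wd d → ℝ≥0∞)
    [∀ a b, Decidable (P a b)] [∀ τ, Decidable (T τ)]
    (hinj : ∀ a b a' b', P a b → P a' b' → a ++ b = a' ++ b' → a = a' ∧ b = b')
    (hT : ∀ a b, P a b → T (a ++ b)) :
    ∑' a : Wd d, ∑' b : Wd d, (if P a b then F (a ++ b) else 0) ≤ ∑' τ : Wd d, (if T τ then F τ else 0) := by
  rw [← ENNReal.tsum_prod (f := fun a b : Wd d => if P a b then F (a ++ b) else 0)]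
  have e1 : ∑' p : Wd d × Wd d, (if P p.1 p.2 then F (p.1 ++ p.2) else 0)
      = ∑' p : {p : Wd d × Wd d | P p.1 p.2}, F (p.1.1 ++ p.1.2) := by
    rw [tsum_subtype {p : Wd d × Wd d | P p.1 p.2} (fun p => F (p.1 ++ p.2))]
    refine tsum_congr fun p => ?_
    by_cases h : P p.1 p.2 <;> simp [Set.indicator, h]
  have e2 : ∑' τ : Wd d, (if T τ then F τ else 0) = ∑' τ : {τ : Wd d | T τ}, F τ.1 := by
    rw [tsum_subtype {τ : Wd d | T τ} F]
    refine tsum_congr fun p => ?_
    by_cases h : T p <;> simp [Set.indicator, h]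
  rw [e1, e2]
  refine ENNReal.tsum_comp_le_tsum_of_injective
    (f := fun p : {p : Wd d × Wd d | P p.1 p.2} => (⟨p.1.1 ++ p.1.2, hT _ _ p.2⟩ : {τ : Wd d | T τ}))
    ?_ (fun τ => F τ.1)
  rintro ⟨⟨a, b⟩, hp⟩ ⟨⟨a', b'⟩, hp'⟩ h
  have h' : a ++ b = a' ++ b' := congrArg Subtype.val h
  obtain ⟨rfl, rfl⟩ := hinj a b a' b' hp hp' h'
  rfl

/-- minimal words with `r > c` -/
def First (r : Wd d → ℝ≥0∞) (c : ℝ≥0∞) : Set (Wd d) :=
  {l | c < r l ∧ ∀ l1 l2, l = l1 ++ l2 → l2 ≠ [] → r l1 ≤ c}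

lemma pf_First (r : Wd d → ℝ≥0∞) (c : ℝ≥0∞) : PF (First r c) := by
  intro l hl l' hl'
  by_contra h
  exact absurd (hl'.2 l l' rfl h) (not_le.2 hl.1)

lemma exists_First {r : Wd d → ℝ≥0∞} {c : ℝ≥0∞} {l : Wd d} (h : c < r l) :
    ∃ l1 l2, l = l1 ++ l2 ∧ l1 ∈ First r c := by
  have key : ∀ n, ∀ l : Wd d, l.length = n → c < r l → ∃ l1 l2, l = l1 ++ l2 ∧ l1 ∈ First r c := by
    intro n
    induction n using Nat.strong_induction_on with
    | _ n ih =>
      intro l hn hl
      by_cases hf : ∀ l1 l2, l = l1 ++ l2 → l2 ≠ [] → r l1 ≤ c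
      · exact ⟨l, [], by simp, hl, hf⟩
      · push Not at hf
        obtain ⟨l1, l2, h1, h2, h3⟩ := hf
        have hlen : l1.length < n := by
          rw [← hn, h1, List.length_append]
          have := List.length_pos_iff.2 h2
          omega
        obtain ⟨a, b, hab, ha⟩ := ih _ hlen l1 rfl h3
        exact ⟨a, b ++ l2, by rw [h1, hab, List.append_assoc], ha⟩
  exact key _ l rfl h

lemma pf_unique {S : Set (Wd d)} (hS : PF S) {a b a' b' : Wd d} (ha : a ∈ S) (ha' : a' ∈ S)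
    (h : a ++ b = a' ++ b') : a = a' ∧ b = b' := by
  have hh : a = a' := by
    rcases List.append_eq_append_iff.1 h with ⟨t, ht, _⟩ | ⟨t, ht, _⟩
    · have : t = [] := hS a ha t (ht ▸ ha')
      rw [ht, this, List.append_nil]
    · have : t = [] := hS a' ha' t (ht ▸ ha)
      rw [ht, this, List.append_nil]
  subst hh
  exact ⟨rfl, List.append_cancel_left h⟩

open Classical in
/-- words of a prefix-free set which have a prefix in the prefix-free set `T` weigh at most `T` -/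
lemma pf_prefix_le (ω : Environment d) (x : Site d) {S T : Set (Wd d)} (hS : PF S) (hT : PF T)
    (h : ∀ l ∈ S, ∃ l1 l2, l = l1 ++ l2 ∧ l1 ∈ T) :
    ∑' l : Wd d, (if l ∈ S then lw ω x l else 0) ≤ ∑' t : Wd d, (if t ∈ T then lw ω x t else 0) := by
  have h1 : ∑' l : Wd d, (if l ∈ S then lw ω x l else 0)
      ≤ ∑' a : Wd d, ∑' b : Wd d, (if a ∈ T ∧ a ++ b ∈ S then lw ω x (a ++ b) else 0) := by
    choose f g hf using h
    rw [← ENNReal.tsum_prod (f := fun a b : Wd d => if a ∈ T ∧ a ++ b ∈ S then lw ω x (a ++ b) else 0)]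
    have e1 : ∑' l : Wd d, (if l ∈ S then lw ω x l else 0) = ∑' l : S, lw ω x l.1 := by
      rw [tsum_subtype S (fun l => lw ω x l)]
      refine tsum_congr fun p => ?_
      by_cases h : p ∈ S <;> simp [Set.indicator, h]
    rw [e1]
    have e2 : ∀ l : S, lw ω x l.1 = (fun p : Wd d × Wd d => if p.1 ∈ T ∧ p.1 ++ p.2 ∈ S then
        lw ω x (p.1 ++ p.2) else 0) (f l.1 l.2, g l.1 l.2) := by
      intro l
      have := hf l.1 l.2
      simp only
      rw [← this.1, if_pos ⟨this.2, l.2⟩]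
    rw [tsum_congr e2]
    refine ENNReal.tsum_comp_le_tsum_of_injective (f := fun l : S => (f l.1 l.2, g l.1 l.2)) ?_ _
    intro l l' h
    have h1 := (hf l.1 l.2).1
    have h2 := (hf l'.1 l'.2).1
    simp only [Prod.mk.injEq] at h
    exact Subtype.ext (by rw [h1, h2, h.1, h.2])
  refine h1.trans (ENNReal.tsum_le_tsum fun a => ?_)
  by_cases ha : a ∈ T
  · rw [if_pos ha]
    have hpf : PF {b : Wd d | a ++ b ∈ S} := by
      intro b hb b' hb'
      exact hS (a ++ b) hb b' (by rw [List.append_assoc]; exact hb')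
    calc ∑' b : Wd d, (if a ∈ T ∧ a ++ b ∈ S then lw ω x (a ++ b) else 0)
        = ∑' b : Wd d, lw ω x a * (if b ∈ {b : Wd d | a ++ b ∈ S} then lw ω (endp x a) b else 0) := by
          refine tsum_congr fun b => ?_
          by_cases hb : a ++ b ∈ S
          · simp [ha, hb, WordB956.lw_append]
          · simp [hb]
      _ = lw ω x a * ∑' b : Wd d, (if b ∈ {b : Wd d | a ++ b ∈ S} then lw ω (endp x a) b else 0) :=
          ENNReal.tsum_mul_left
      _ ≤ lw ω x a * 1 := mul_le_mul_right (pf_sum_le ω _ hpf) _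
      _ = lw ω x a := mul_one _
  · simp [ha]

/-- words of `X` stopped at the first site of `Y`'s trace -/
def AA (XX : Set (Wd d)) (Dp : Set (Site d)) (x : Site d) (ρ : Wd d) : Set (Wd d) :=
  {l | l ∈ FH {y | y ∈ sitesL x ρ} 0 ∧ endp 0 l ∈ Dp ∧ ∃ l2, l2 ≠ [] ∧ l ++ l2 ∈ XX}

lemma pf_AA (XX : Set (Wd d)) (Dp : Set (Site d)) (x : Site d) (ρ : Wd d) : PF (AA XX Dp x ρ) :=
  (pf_FH _ _).mono fun _ h => h.1

open Classical in
/-- pointwise bound -/
lemma pw (ω : Environment d) (x : Site d) {XX YY : Set (Wd d)} {Dp : Set (Site d)}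
    {E : Finset (Site d)} {DD : Site d → Set (Wd d)} {TT : Set (Wd d)}
    (hYY : PF YY)
    (hYD : ∀ ρ1 ρ2, ρ1 ++ ρ2 ∈ YY → ρ2 ∈ DD (endp x ρ1))
    (hTT : ∀ π1 π2 δ, π2 ≠ [] → π1 ++ π2 ∈ XX → endp 0 π1 ∈ Dp → δ ∈ DD (endp 0 π1) → π1 ++ δ ∈ TT)
    (r : Wd d → ℝ≥0∞) (M lam : ℝ≥0∞) (hM0 : M ≠ 0) (hM : M ≠ ⊤) (hl0 : lam ≠ 0) (hl : lam ≠ ⊤)
    (hr : ∀ l, r l ≤ M) :
    ∑' ρ : Wd d, (if ρ ∈ YY ∧ endp 0 ρ ∈ E then lw ω x ρ *
        ∑' π : Wd d, (if π ∈ AA XX Dp x ρ then lw ω 0 π * r π else 0) else 0)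
      ≤ M / lam * (∑' τ : Wd d, (if τ ∈ TT ∧ endp 0 τ - x ∈ E then lw ω 0 τ else 0))
        + ∑' j : ℕ, (M * 2⁻¹ ^ j) * ((lam * 2⁻¹ ^ j) *
            ∑' π : Wd d, (if π ∈ First r (M * 2⁻¹ ^ (j + 1)) then lw ω 0 π else 0)) := by
  set e : Site d → ℝ≥0∞ := fun v => ∑' δ : Wd d, (if δ ∈ DD v ∧ endp v δ - x ∈ E then lw ω v δ else 0)
    with he
  set B : ℝ≥0∞ := ∑' τ : Wd d, (if τ ∈ TT ∧ endp 0 τ - x ∈ E then lw ω 0 τ else 0) with hB
  set G : ℕ → ℝ≥0∞ := fun j => ∑' π : Wd d, (if π ∈ First r (M * 2⁻¹ ^ (j + 1)) then lw ω 0 π else 0)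
    with hG
  clear_value e B G
  -- class bound
  have hcl : ∀ v : Site d, ∀ t : ℝ≥0∞, t ≤ M → t ≤ M / lam * e v
      + ∑' j : ℕ, (M * 2⁻¹ ^ j) * (if M * 2⁻¹ ^ (j + 1) < t ∧ e v ≤ lam * 2⁻¹ ^ j then 1 else 0) := by
    intro v t ht
    by_cases h : t ≤ M / lam * e v
    · exact h.trans le_self_add
    · rw [not_le] at h
      have ht0 : t ≠ 0 := (lt_of_le_of_lt zero_le h).ne'
      have htT : t ≠ ⊤ := ne_top_of_le_ne_top hM ht
      -- find the class
      have hex : ∃ j : ℕ, M * 2⁻¹ ^ (j + 1) < t := by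
        have hlim : Filter.Tendsto (fun j : ℕ => M * (2⁻¹ : ℝ≥0∞) ^ (j + 1)) Filter.atTop (nhds (M * 0)) := by
          refine ENNReal.Tendsto.const_mul ?_ (Or.inr hM)
          exact (ENNReal.tendsto_pow_atTop_nhds_zero_of_lt_one (by simp)).comp
            (Filter.tendsto_add_atTop_nat 1)
        rw [mul_zero] at hlim
        exact (hlim.eventually_lt_const (pos_iff_ne_zero.2 ht0)).exists
      set j := Nat.find hex with hj
      have hj1 : M * 2⁻¹ ^ (j + 1) < t := Nat.find_spec hex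
      have hj2 : t ≤ M * 2⁻¹ ^ j := by
        rcases Nat.eq_zero_or_pos j with h0 | h0
        · rw [h0]; simpa using ht
        · have := Nat.find_min hex (m := j - 1) (by omega)
          rw [not_lt, show j - 1 + 1 = j by omega] at this
          exact this
      have he1 : e v ≤ lam * 2⁻¹ ^ j := by
        have h3 : M / lam * e v ≤ M * 2⁻¹ ^ j := (h.le).trans hj2
        have h4 : M * e v ≤ M * (lam * 2⁻¹ ^ j) := by
          calc M * e v = lam * (M / lam * e v) := by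
                rw [← mul_assoc, ENNReal.mul_div_cancel hl0 hl]
            _ ≤ lam * (M * 2⁻¹ ^ j) := mul_le_mul_right h3 _
            _ = M * (lam * 2⁻¹ ^ j) := by ring
        exact (ENNReal.mul_le_mul_iff_right hM0 hM).1 h4
      calc t ≤ M * 2⁻¹ ^ j := hj2
        _ = (M * 2⁻¹ ^ j) * (if M * 2⁻¹ ^ (j + 1) < t ∧ e v ≤ lam * 2⁻¹ ^ j then 1 else 0) := by
            rw [if_pos ⟨hj1, he1⟩, mul_one]
        _ ≤ ∑' j : ℕ, (M * 2⁻¹ ^ j) * (if M * 2⁻¹ ^ (j + 1) < t ∧ e v ≤ lam * 2⁻¹ ^ j then 1 else 0) :=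
            ENNReal.le_tsum j
        _ ≤ _ := le_add_self
  -- fixed ρ
  have hρ : ∀ ρ : Wd d, ∑' π : Wd d, (if π ∈ AA XX Dp x ρ then lw ω 0 π * r π else 0)
      ≤ M / lam * B + ∑' j : ℕ, (M * 2⁻¹ ^ j) *
        ((if ρ ∈ Vis {v | e v ≤ lam * 2⁻¹ ^ j} x then 1 else 0) * G j) := by
    intro ρ
    calc ∑' π : Wd d, (if π ∈ AA XX Dp x ρ then lw ω 0 π * r π else 0)
        ≤ ∑' π : Wd d, ((M / lam) * (if π ∈ AA XX Dp x ρ then lw ω 0 π * e (endp 0 π) else 0)
          + ∑' j : ℕ, (M * 2⁻¹ ^ j) * (if π ∈ AA XX Dp x ρ ∧ M * 2⁻¹ ^ (j + 1) < r π ∧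
              e (endp 0 π) ≤ lam * 2⁻¹ ^ j then lw ω 0 π else 0)) := by
          refine ENNReal.tsum_le_tsum fun π => ?_
          by_cases hπ : π ∈ AA XX Dp x ρ
          · simp only [if_pos hπ, true_and, hπ]
            calc lw ω 0 π * r π ≤ lw ω 0 π * (M / lam * e (endp 0 π)
                  + ∑' j : ℕ, (M * 2⁻¹ ^ j) * (if M * 2⁻¹ ^ (j + 1) < r π ∧
                    e (endp 0 π) ≤ lam * 2⁻¹ ^ j then 1 else 0)) :=
                  mul_le_mul_right (hcl _ _ (hr π)) _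
              _ = _ := by
                  rw [mul_add, ← ENNReal.tsum_mul_left]
                  congr 1
                  · simp only [if_true]; ring
                  · refine tsum_congr fun j => ?_
                    split_ifs <;> ring
          · simp [hπ]
      _ = (M / lam) * ∑' π : Wd d, (if π ∈ AA XX Dp x ρ then lw ω 0 π * e (endp 0 π) else 0)
          + ∑' j : ℕ, (M * 2⁻¹ ^ j) * ∑' π : Wd d, (if π ∈ AA XX Dp x ρ ∧ M * 2⁻¹ ^ (j + 1) < r π ∧
              e (endp 0 π) ≤ lam * 2⁻¹ ^ j then lw ω 0 π else 0) := by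
          rw [ENNReal.tsum_add, ENNReal.tsum_mul_left, ENNReal.tsum_comm]
          congr 1
          refine tsum_congr fun j => ?_
          rw [ENNReal.tsum_mul_left]
      _ ≤ _ := by
          refine add_le_add (mul_le_mul_right ?_ _) (ENNReal.tsum_le_tsum fun j => mul_le_mul_right ?_ _)
          · -- (b')
            calc ∑' π : Wd d, (if π ∈ AA XX Dp x ρ then lw ω 0 π * e (endp 0 π) else 0)
                = ∑' π : Wd d, ∑' δ : Wd d, (if π ∈ AA XX Dp x ρ ∧ δ ∈ DD (endp 0 π) ∧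
                    endp (endp 0 π) δ - x ∈ E then lw ω 0 (π ++ δ) else 0) := by
                  refine tsum_congr fun π => ?_
                  by_cases hπ : π ∈ AA XX Dp x ρ
                  · simp only [if_pos hπ, hπ, true_and, he]
                    rw [← ENNReal.tsum_mul_left]
                    refine tsum_congr fun δ => ?_
                    split_ifs
                    · rw [WordB956.lw_append]
                    · simp
                  · simp [hπ]
              _ ≤ B := by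
                  rw [hB]
                  refine pair_le (fun π δ => π ∈ AA XX Dp x ρ ∧ δ ∈ DD (endp 0 π) ∧
                    endp (endp 0 π) δ - x ∈ E) (fun τ => τ ∈ TT ∧ endp 0 τ - x ∈ E)
                    (fun τ => lw ω 0 τ) ?_ ?_
                  · intro a b a' b' h1 h2 h3
                    exact pf_unique (pf_AA XX Dp x ρ) h1.1 h2.1 h3
                  · rintro a b ⟨⟨_, h2, l2, h3, h4⟩, h5, h6⟩
                    exact ⟨hTT a l2 b h3 h4 h2 h5, by rw [endp_append]; exact h6⟩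
          · -- class `j`
            by_cases hv : ρ ∈ Vis {v | e v ≤ lam * 2⁻¹ ^ j} x
            · rw [if_pos hv, one_mul, hG]
              refine le_trans (ENNReal.tsum_le_tsum fun π => ?_)
                (pf_prefix_le ω 0 (S := {π | π ∈ AA XX Dp x ρ ∧ M * 2⁻¹ ^ (j + 1) < r π})
                  ((pf_AA XX Dp x ρ).mono fun _ h => h.1) (pf_First r (M * 2⁻¹ ^ (j + 1)))
                  fun l hl => exists_First hl.2)
              by_cases h : π ∈ AA XX Dp x ρ ∧ M * 2⁻¹ ^ (j + 1) < r π ∧ e (endp 0 π) ≤ lam * 2⁻¹ ^ j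
              · rw [if_pos h, if_pos (show π ∈ {π | π ∈ AA XX Dp x ρ ∧ M * 2⁻¹ ^ (j + 1) < r π} from
                  ⟨h.1, h.2.1⟩)]
              · rw [if_neg h]; exact zero_le
            · rw [if_neg hv, zero_mul, nonpos_iff_eq_zero, ENNReal.tsum_eq_zero]
              intro π
              rw [if_neg]
              rintro ⟨hπ, _, h3⟩
              apply hv
              have h4 : endp 0 π ∈ {y | y ∈ sitesL x ρ} := hπ.1.1
              obtain ⟨l1, e1, l2, h5, h6⟩ := mem_sitesL.1 h4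
              exact ⟨l1, e1 :: l2, h5, by rw [h6]; exact h3⟩
  calc ∑' ρ : Wd d, (if ρ ∈ YY ∧ endp 0 ρ ∈ E then lw ω x ρ *
        ∑' π : Wd d, (if π ∈ AA XX Dp x ρ then lw ω 0 π * r π else 0) else 0)
      ≤ ∑' ρ : Wd d, ((M / lam * B) * (if ρ ∈ YY then lw ω x ρ else 0)
          + ∑' j : ℕ, (M * 2⁻¹ ^ j) * ((if (ρ ∈ {ρ | ρ ∈ YY ∧ endp 0 ρ ∈ E}) ∧
            ρ ∈ Vis {v | e v ≤ lam * 2⁻¹ ^ j} x then lw ω x ρ else 0) * G j)) := by
        refine ENNReal.tsum_le_tsum fun ρ => ?_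
        by_cases h : ρ ∈ YY ∧ endp 0 ρ ∈ E
        · rw [if_pos h, if_pos h.1]
          refine (mul_le_mul_right (hρ ρ) _).trans (le_of_eq ?_)
          rw [mul_add, ← ENNReal.tsum_mul_left, mul_comm]
          congr 1
          refine tsum_congr fun j => ?_
          by_cases hv : ρ ∈ Vis {v | e v ≤ lam * 2⁻¹ ^ j} x
          · rw [if_pos hv, if_pos ⟨h, hv⟩]; ring
          · rw [if_neg hv, if_neg (fun h' => hv h'.2)]; simp
        · rw [if_neg h]; exact zero_le
    _ = (M / lam * B) * ∑' ρ : Wd d, (if ρ ∈ YY then lw ω x ρ else 0)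
          + ∑' j : ℕ, (M * 2⁻¹ ^ j) * ((∑' ρ : Wd d, (if (ρ ∈ {ρ | ρ ∈ YY ∧ endp 0 ρ ∈ E}) ∧
            ρ ∈ Vis {v | e v ≤ lam * 2⁻¹ ^ j} x then lw ω x ρ else 0)) * G j) := by
        rw [ENNReal.tsum_add, ENNReal.tsum_mul_left, ENNReal.tsum_comm]
        congr 1
        refine tsum_congr fun j => ?_
        rw [ENNReal.tsum_mul_left, ENNReal.tsum_mul_right]
    _ ≤ (M / lam * B) * 1 + ∑' j : ℕ, (M * 2⁻¹ ^ j) * ((lam * 2⁻¹ ^ j) * G j) := by
        refine add_le_add (mul_le_mul_right (pf_sum_le ω x hYY) _)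
          (ENNReal.tsum_le_tsum fun j => mul_le_mul_right (mul_le_mul_left ?_ _) _)
        refine le_trans (le_of_eq (tsum_congr fun ρ => ?_))
          (vis_le ω x {ρ | ρ ∈ YY ∧ endp 0 ρ ∈ E} {v | e v ≤ lam * 2⁻¹ ^ j} (lam * 2⁻¹ ^ j)
            fun l1 hl1 => ?_)
        · congr
        have h1 : e (endp x l1) ≤ lam * 2⁻¹ ^ j := hl1.1
        rw [he] at h1
        refine le_trans (ENNReal.tsum_le_tsum fun l2 => ?_) h1
        by_cases h : l1 ++ l2 ∈ {ρ | ρ ∈ YY ∧ endp 0 ρ ∈ E}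
        · rw [if_pos h, if_pos]
          refine ⟨hYD l1 l2 h.1, ?_⟩
          have h2 := h.2
          rw [← endp_append, endp_eq_add]
          simpa using h2
        · rw [if_neg h]; exact zero_le
    _ = _ := by rw [mul_one, hG]

/-! ### the annealed ratio -/

section ratio
variable (ν : Measure (Row d)) [IsProbabilityMeasure ν]

open Classical in
/-- annealed weight of the crossings which extend `l`, tie weight included -/
noncomputable def WW (XX : Set (Wd d)) (g : Site d → ℝ≥0∞) (l : Wd d) : ℝ≥0∞ :=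
  ∑' l2 : Wd d, (if l ++ l2 ∈ XX then NB28.aw ν (l ++ l2) * g (endp 0 (l ++ l2)) else 0)

lemma WW_le {XX : Set (Wd d)} (hXX : PF XX) {g : Site d → ℝ≥0∞} {M : ℝ≥0∞} (hg : ∀ z, g z ≤ M)
    (l : Wd d) : WW ν XX g l ≤ NB28.aw ν l * M := by
  classical
  have hpf : PF {b : Wd d | l ++ b ∈ XX} := by
    intro b hb b' hb'
    exact hXX (l ++ b) hb b' (by rw [List.append_assoc]; exact hb')
  have h1 := pf_ext_le (iidEnvironmentLaw ν) 0 l hpf
  calc WW ν XX g l ≤ ∑' l2 : Wd d, (if l2 ∈ {b : Wd d | l ++ b ∈ XX} then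
        WordB956.aw (iidEnvironmentLaw ν) 0 (l ++ l2) else 0) * M := by
        unfold WW
        refine ENNReal.tsum_le_tsum fun l2 => ?_
        by_cases h : l ++ l2 ∈ XX
        · rw [if_pos h, if_pos (show l2 ∈ {b : Wd d | l ++ b ∈ XX} from h)]
          exact mul_le_mul_right (hg _) _
        · rw [if_neg h]; exact zero_le
    _ = (∑' l2 : Wd d, (if l2 ∈ {b : Wd d | l ++ b ∈ XX} then
        WordB956.aw (iidEnvironmentLaw ν) 0 (l ++ l2) else 0)) * M := ENNReal.tsum_mul_right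
    _ ≤ NB28.aw ν l * M := mul_le_mul_left h1 _

lemma sum_WW_le {XX T : Set (Wd d)} (hT : PF T) (g : Site d → ℝ≥0∞) [DecidablePred (· ∈ T)] :
    ∑' l : Wd d, (if l ∈ T then WW ν XX g l else 0) ≤ WW ν XX g [] := by
  classical
  calc ∑' l : Wd d, (if l ∈ T then WW ν XX g l else 0)
      = ∑' l : Wd d, ∑' l2 : Wd d, (if l ∈ T ∧ l ++ l2 ∈ XX then
          NB28.aw ν (l ++ l2) * g (endp 0 (l ++ l2)) else 0) := by
        refine tsum_congr fun l => ?_
        by_cases h : l ∈ T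
        · rw [if_pos h]; unfold WW
          refine tsum_congr fun l2 => ?_
          simp only [h, true_and]
        · simp [h]
    _ ≤ ∑' τ : Wd d, (if τ ∈ XX then NB28.aw ν τ * g (endp 0 τ) else 0) :=
        pair_le (fun l l2 => l ∈ T ∧ l ++ l2 ∈ XX) (fun τ => τ ∈ XX)
          (fun τ => NB28.aw ν τ * g (endp 0 τ))
          (fun a b a' b' h1 h2 h3 => pf_unique hT h1.1 h2.1 h3) (fun a b h => h.2)
    _ = WW ν XX g [] := by unfold WW; simp only [List.nil_append]

/-- ratio -/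
noncomputable def rr (XX : Set (Wd d)) (g : Site d → ℝ≥0∞) (l : Wd d) : ℝ≥0∞ :=
  WW ν XX g l / NB28.aw ν l

lemma aw_le_one (l : Wd d) : NB28.aw ν l ≤ 1 := by
  have := pf_ext_le (iidEnvironmentLaw ν) 0 ([] : Wd d) (S := {l}) (by
    intro a ha b hb
    simp only [Set.mem_singleton_iff] at ha hb
    subst ha
    simpa using hb)
  rw [tsum_eq_single l (by intro b hb; rw [if_neg (by simpa using hb)])] at this
  simp only [Set.mem_singleton_iff, if_true, List.nil_append] at this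
  refine this.trans (le_of_eq ?_)
  simp [WordB956.aw, lw]

lemma aw_mul_rr {XX : Set (Wd d)} (hXX : PF XX) {g : Site d → ℝ≥0∞} {M : ℝ≥0∞} (hM : M ≠ ⊤)
    (hg : ∀ z, g z ≤ M) (l : Wd d) : NB28.aw ν l * rr ν XX g l = WW ν XX g l := by
  unfold rr
  by_cases h0 : NB28.aw ν l = 0
  · have := WW_le ν hXX hg l
    rw [h0, zero_mul] at this
    rw [h0, zero_mul]
    exact (le_antisymm this zero_le).symm
  · rw [ENNReal.mul_div_cancel h0 (ne_top_of_le_ne_top ENNReal.one_ne_top (aw_le_one ν l))]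

lemma rr_le {XX : Set (Wd d)} (hXX : PF XX) {g : Site d → ℝ≥0∞} {M : ℝ≥0∞}
    (hg : ∀ z, g z ≤ M) (l : Wd d) : rr ν XX g l ≤ M := by
  unfold rr
  refine ENNReal.div_le_of_le_mul ?_
  rw [mul_comm]
  exact WW_le ν hXX hg l

lemma First_aw_le {XX : Set (Wd d)} (hXX : PF XX) {g : Site d → ℝ≥0∞} {M : ℝ≥0∞} (hM : M ≠ ⊤)
    (hg : ∀ z, g z ≤ M) (c : ℝ≥0∞) [DecidablePred (· ∈ First (rr ν XX g) c)] :
    c * ∑' l : Wd d, (if l ∈ First (rr ν XX g) c then NB28.aw ν l else 0) ≤ WW ν XX g [] := by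
  rw [← ENNReal.tsum_mul_left]
  refine le_trans (ENNReal.tsum_le_tsum fun l => ?_) (sum_WW_le ν (pf_First (rr ν XX g) c) g)
  by_cases h : l ∈ First (rr ν XX g) c
  · rw [if_pos h, if_pos h, ← aw_mul_rr ν hXX hM hg l, mul_comm]
    exact mul_le_mul_right h.1.le _
  · rw [if_neg h, mul_zero]; exact zero_le

lemma le_pair (Q : Wd d → Prop) (P : Wd d → Wd d → Prop) (F : Wd d → ℝ≥0∞)
    [∀ a b, Decidable (P a b)] [∀ τ, Decidable (Q τ)]
    (h : ∀ l, Q l → ∃ a b, l = a ++ b ∧ P a b) :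
    ∑' l : Wd d, (if Q l then F l else 0) ≤ ∑' a : Wd d, ∑' b : Wd d, (if P a b then F (a ++ b) else 0) := by
  classical
  choose f g hf using h
  rw [← ENNReal.tsum_prod (f := fun a b : Wd d => if P a b then F (a ++ b) else 0)]
  have e1 : ∑' l : Wd d, (if Q l then F l else 0) = ∑' l : {l : Wd d | Q l}, F l.1 := by
    rw [tsum_subtype {l : Wd d | Q l} F]
    refine tsum_congr fun p => ?_
    by_cases h : Q p <;> simp [Set.indicator, h]
  rw [e1]
  have e2 : ∀ l : {l : Wd d | Q l}, F l.1 = (fun p : Wd d × Wd d => if P p.1 p.2 then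
      F (p.1 ++ p.2) else 0) (f l.1 l.2, g l.1 l.2) := by
    intro l
    have := hf l.1 l.2
    simp only
    rw [← this.1, if_pos this.2]
  rw [tsum_congr e2]
  refine ENNReal.tsum_comp_le_tsum_of_injective
    (f := fun l : {l : Wd d | Q l} => (f l.1 l.2, g l.1 l.2)) ?_ _
  intro l l' h
  have h1 := (hf l.1 l.2).1
  have h2 := (hf l'.1 l'.2).1
  simp only [Prod.mk.injEq] at h
  exact Subtype.ext (by rw [h1, h2, h.1, h.2])

/-- `π` (from `0`) hits the trace of `ρ` (from `x`), first hit in `Dp` -/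
def Hit (Dp : Set (Site d)) (x : Site d) (ρ π : Wd d) : Prop :=
  ∃ π1 π2, π = π1 ++ π2 ∧ π2 ≠ [] ∧ π1 ∈ FH {y | y ∈ sitesL x ρ} 0 ∧ endp 0 π1 ∈ Dp

lemma aw_at (x : Site d) (l : Wd d) : WordB956.aw (iidEnvironmentLaw ν) x l = NB28.aw ν l :=
  WordB956.aw_shift _ (fun z => Q561.iid_shift ν z) x l

open Classical in
/-- fixed `x` -/
lemma win3_x (x : Site d) {XX YY : Set (Wd d)} {Dp : Set (Site d)}
    {E : Finset (Site d)} {DD : Site d → Set (Wd d)} {TT : Set (Wd d)}
    (hXX : PF XX) (hYY : PF YY)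
    (hYD : ∀ ρ1 ρ2, ρ1 ++ ρ2 ∈ YY → ρ2 ∈ DD (endp x ρ1))
    (hTT : ∀ π1 π2 δ, π2 ≠ [] → π1 ++ π2 ∈ XX → endp 0 π1 ∈ Dp → δ ∈ DD (endp 0 π1) → π1 ++ δ ∈ TT)
    (g : Site d → ℝ≥0∞) (M lam : ℝ≥0∞) (hM0 : M ≠ 0) (hM : M ≠ ⊤) (hl0 : lam ≠ 0) (hl : lam ≠ ⊤)
    (hg : ∀ z, g z ≤ M) :
    ∑' ρ : Wd d, (if ρ ∈ YY ∧ endp 0 ρ ∈ E then NB28.aw ν ρ *
        ∑' π : Wd d, (if π ∈ XX ∧ Hit Dp x ρ π then NB28.aw ν π * g (endp 0 π) else 0) else 0)
      ≤ M / lam * (∑' τ : Wd d, (if τ ∈ TT ∧ endp 0 τ - x ∈ E then NB28.aw ν τ else 0))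
        + 4 * lam * WW ν XX g [] := by
  set Q := iidEnvironmentLaw ν with hQ
  -- step 1
  have h1 : ∀ ρ : Wd d, ∑' π : Wd d, (if π ∈ XX ∧ Hit Dp x ρ π then NB28.aw ν π * g (endp 0 π) else 0)
      ≤ ∑' π : Wd d, (if π ∈ AA XX Dp x ρ then WW ν XX g π else 0) := by
    intro ρ
    refine le_trans (le_pair (fun π => π ∈ XX ∧ Hit Dp x ρ π)
      (fun a b => a ∈ AA XX Dp x ρ ∧ a ++ b ∈ XX) (fun π => NB28.aw ν π * g (endp 0 π)) ?_) ?_
    · rintro l ⟨hl1, π1, π2, rfl, hne, hF, hD⟩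
      exact ⟨π1, π2, rfl, ⟨hF, hD, π2, hne, hl1⟩, hl1⟩
    · refine ENNReal.tsum_le_tsum fun a => ?_
      by_cases h : a ∈ AA XX Dp x ρ
      · rw [if_pos h]; unfold WW
        refine ENNReal.tsum_le_tsum fun b => ?_
        by_cases hb : a ++ b ∈ XX
        · rw [if_pos hb, if_pos ⟨h, hb⟩]
        · rw [if_neg hb, if_neg (fun h' => hb h'.2)]
      · simp [h]
  -- step 2
  have h2 : ∀ ρ π : Wd d, π ∈ AA XX Dp x ρ → NB28.aw ν ρ * WW ν XX g π
      = ∫⁻ ω, lw ω x ρ * (lw ω 0 π * rr ν XX g π) ∂Q := by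
    intro ρ π hπ
    rw [← aw_mul_rr ν hXX hM hg π, ← mul_assoc, ← aw_at ν x ρ, mul_comm (WordB956.aw _ x ρ)]
    have h3 := WordB956.aw_mul ν 0 x π ρ (fun z hz hz' => by
      obtain ⟨l1, e, l2, h4, h5⟩ := mem_sitesL.1 hz
      exact hπ.1.2 l1 (e :: l2) h4 (by simp) (by rw [h5]; exact hz'))
    have h4 : NB28.aw ν π = WordB956.aw (iidEnvironmentLaw ν) 0 π := rfl
    have hm : Measurable fun ω : Environment d => lw ω 0 π * lw ω x ρ :=
      (measurable_lw 0 π).mul (measurable_lw x ρ)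
    rw [h4, ← h3, ← lintegral_mul_const _ hm]
    refine lintegral_congr fun ω => ?_
    ring
  calc ∑' ρ : Wd d, (if ρ ∈ YY ∧ endp 0 ρ ∈ E then NB28.aw ν ρ *
        ∑' π : Wd d, (if π ∈ XX ∧ Hit Dp x ρ π then NB28.aw ν π * g (endp 0 π) else 0) else 0)
      ≤ ∑' ρ : Wd d, (if ρ ∈ YY ∧ endp 0 ρ ∈ E then
          ∫⁻ ω, lw ω x ρ * ∑' π : Wd d, (if π ∈ AA XX Dp x ρ then lw ω 0 π * rr ν XX g π else 0) ∂Q
            else 0) := by
        refine ENNReal.tsum_le_tsum fun ρ => ?_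
        by_cases h : ρ ∈ YY ∧ endp 0 ρ ∈ E
        · rw [if_pos h, if_pos h]
          refine (mul_le_mul_right (h1 ρ) _).trans (le_of_eq ?_)
          rw [← ENNReal.tsum_mul_left]
          simp_rw [← ENNReal.tsum_mul_left]
          rw [lintegral_tsum]
          · refine tsum_congr fun π => ?_
            by_cases hπ : π ∈ AA XX Dp x ρ
            · simp only [if_pos hπ]
              exact h2 ρ π hπ
            · simp [hπ]
          · intro π
            by_cases hπ : π ∈ AA XX Dp x ρ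
            · simp only [if_pos hπ]
              exact ((measurable_lw x ρ).mul ((measurable_lw 0 π).mul_const _)).aemeasurable
            · simp [hπ]
        · rw [if_neg h, if_neg h]
    _ = ∫⁻ ω, ∑' ρ : Wd d, (if ρ ∈ YY ∧ endp 0 ρ ∈ E then lw ω x ρ *
          ∑' π : Wd d, (if π ∈ AA XX Dp x ρ then lw ω 0 π * rr ν XX g π else 0) else 0) ∂Q := by
        rw [lintegral_tsum]
        · refine tsum_congr fun ρ => ?_
          by_cases h : ρ ∈ YY ∧ endp 0 ρ ∈ E
          · simp only [if_pos h]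
          · simp [h]
        · intro ρ
          by_cases h : ρ ∈ YY ∧ endp 0 ρ ∈ E
          · simp only [if_pos h]
            refine ((measurable_lw x ρ).mul (Measurable.ennreal_tsum fun π => ?_)).aemeasurable
            by_cases hπ : π ∈ AA XX Dp x ρ
            · simp only [if_pos hπ]
              exact (measurable_lw 0 π).mul_const _
            · simp only [if_neg hπ]; exact measurable_const
          · simp [h]
    _ ≤ ∫⁻ ω, (M / lam * (∑' τ : Wd d, (if τ ∈ TT ∧ endp 0 τ - x ∈ E then lw ω 0 τ else 0))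
        + ∑' j : ℕ, (M * 2⁻¹ ^ j) * ((lam * 2⁻¹ ^ j) *
            ∑' π : Wd d, (if π ∈ First (rr ν XX g) (M * 2⁻¹ ^ (j + 1)) then lw ω 0 π else 0))) ∂Q :=
        lintegral_mono fun ω => pw ω x hYY hYD hTT (rr ν XX g) M lam hM0 hM hl0 hl (rr_le ν hXX hg)
    _ = M / lam * (∑' τ : Wd d, (if τ ∈ TT ∧ endp 0 τ - x ∈ E then NB28.aw ν τ else 0))
        + ∑' j : ℕ, (M * 2⁻¹ ^ j) * ((lam * 2⁻¹ ^ j) *
            ∑' π : Wd d, (if π ∈ First (rr ν XX g) (M * 2⁻¹ ^ (j + 1)) then NB28.aw ν π else 0)) := by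
        have hm1 : ∀ (T : Wd d → Prop) [DecidablePred T], Measurable fun ω : Environment d =>
            ∑' τ : Wd d, (if T τ then lw ω 0 τ else 0) := by
          intro T _
          refine Measurable.ennreal_tsum fun τ => ?_
          by_cases h : T τ
          · simp only [if_pos h]; exact measurable_lw 0 τ
          · simp only [if_neg h]; exact measurable_const
        have hi1 : ∀ (T : Wd d → Prop) [DecidablePred T], ∫⁻ ω : Environment d,
            ∑' τ : Wd d, (if T τ then lw ω 0 τ else 0) ∂Q = ∑' τ : Wd d, (if T τ then NB28.aw ν τ else 0) := by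
          intro T _
          rw [lintegral_tsum]
          · refine tsum_congr fun τ => ?_
            by_cases h : T τ
            · simp only [if_pos h]; rfl
            · simp [h]
          · intro τ
            by_cases h : T τ
            · simp only [if_pos h]; exact (measurable_lw 0 τ).aemeasurable
            · simp [h]
        rw [lintegral_add_left ((hm1 (fun τ => τ ∈ TT ∧ endp 0 τ - x ∈ E)).const_mul _),
          lintegral_const_mul _ (hm1 (fun τ => τ ∈ TT ∧ endp 0 τ - x ∈ E)), hi1]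
        congr 1
        rw [lintegral_tsum fun j => (((hm1 _).const_mul _).const_mul _).aemeasurable]
        refine tsum_congr fun j => ?_
        rw [lintegral_const_mul _ ((hm1 _).const_mul _), lintegral_const_mul _ (hm1 _), hi1]
    _ ≤ _ := by
        refine add_le_add le_rfl ?_
        calc ∑' j : ℕ, (M * 2⁻¹ ^ j) * ((lam * 2⁻¹ ^ j) *
            ∑' π : Wd d, (if π ∈ First (rr ν XX g) (M * 2⁻¹ ^ (j + 1)) then NB28.aw ν π else 0))
            ≤ ∑' j : ℕ, (2 * lam * WW ν XX g []) * 2⁻¹ ^ j := by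
              refine ENNReal.tsum_le_tsum fun j => ?_
              have h3 := First_aw_le ν hXX hM hg (M * 2⁻¹ ^ (j + 1))
              calc (M * 2⁻¹ ^ j) * ((lam * 2⁻¹ ^ j) *
                  ∑' π : Wd d, (if π ∈ First (rr ν XX g) (M * 2⁻¹ ^ (j + 1)) then NB28.aw ν π else 0))
                  = (2 * (lam * 2⁻¹ ^ j)) * ((M * 2⁻¹ ^ (j + 1)) *
                  ∑' π : Wd d, (if π ∈ First (rr ν XX g) (M * 2⁻¹ ^ (j + 1)) then NB28.aw ν π else 0)) := by
                    have h22 : (2 : ℝ≥0∞) * 2⁻¹ = 1 := ENNReal.mul_inv_cancel (by simp) (by simp)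
                    rw [pow_succ]
                    calc _ = (2 * 2⁻¹) * ((M * 2⁻¹ ^ j) * ((lam * 2⁻¹ ^ j) * _)) := by
                          rw [h22, one_mul]
                      _ = _ := by ring
                _ ≤ (2 * (lam * 2⁻¹ ^ j)) * WW ν XX g [] := mul_le_mul_right h3 _
                _ = (2 * lam * WW ν XX g []) * 2⁻¹ ^ j := by ring
          _ = (2 * lam * WW ν XX g []) * 2 := by
              rw [ENNReal.tsum_mul_left, ENNReal.tsum_geometric, ENNReal.one_sub_inv_two, inv_inv]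
          _ = 4 * lam * WW ν XX g [] := by ring

open Classical in
/-- **window lemma (3)** -/
theorem win3 (S : Set (Site d)) {XX YY : Set (Wd d)} {Dp : Set (Site d)}
    {E : Finset (Site d)} {DD : Site d → Set (Wd d)} {TT : Set (Wd d)}
    (hXX : PF XX) (hYY : PF YY)
    (hYD : ∀ x ∈ S, ∀ ρ1 ρ2, ρ1 ++ ρ2 ∈ YY → ρ2 ∈ DD (endp x ρ1))
    (hTT : ∀ π1 π2 δ, π2 ≠ [] → π1 ++ π2 ∈ XX → endp 0 π1 ∈ Dp → δ ∈ DD (endp 0 π1) → π1 ++ δ ∈ TT)
    (μ : Site d → ℝ≥0∞) (M lam : ℝ≥0∞) (hl0 : lam ≠ 0) (hl : lam ≠ ⊤)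
    (hμM : ∀ z, μ z ≤ M) (hμ1 : ∑' z, μ z ≤ 1) :
    ∑' x : Site d, (if x ∈ S then
      ∑' ρ : Wd d, (if ρ ∈ YY ∧ endp 0 ρ ∈ E then NB28.aw ν ρ *
        ∑' π : Wd d, (if π ∈ XX ∧ Hit Dp x ρ π then NB28.aw ν π * μ (x - endp 0 π) else 0) else 0)
        else 0)
      ≤ 4 * lam + M / lam * (E.card * ∑' τ : Wd d, (if τ ∈ TT then NB28.aw ν τ else 0)) := by
  -- the case `M ≠ 0, ⊤`
  have main : ∀ M : ℝ≥0∞, M ≠ 0 → M ≠ ⊤ → (∀ z, μ z ≤ M) →
    ∑' x : Site d, (if x ∈ S then
      ∑' ρ : Wd d, (if ρ ∈ YY ∧ endp 0 ρ ∈ E then NB28.aw ν ρ *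
        ∑' π : Wd d, (if π ∈ XX ∧ Hit Dp x ρ π then NB28.aw ν π * μ (x - endp 0 π) else 0) else 0)
        else 0)
      ≤ 4 * lam + M / lam * (E.card * ∑' τ : Wd d, (if τ ∈ TT then NB28.aw ν τ else 0)) := by
    intro M hM0 hM hμM
    calc _ ≤ ∑' x : Site d, (M / lam * (∑' τ : Wd d, (if τ ∈ TT ∧ endp 0 τ - x ∈ E then NB28.aw ν τ else 0))
        + 4 * lam * WW ν XX (fun z => μ (x - z)) []) := by
          refine ENNReal.tsum_le_tsum fun x => ?_
          by_cases hx : x ∈ S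
          · rw [if_pos hx]
            exact win3_x ν x hXX hYY (hYD x hx) hTT (fun z => μ (x - z)) M lam hM0 hM hl0 hl
              (fun z => hμM _)
          · rw [if_neg hx]; exact zero_le
      _ = M / lam * (∑' x : Site d, ∑' τ : Wd d, (if τ ∈ TT ∧ endp 0 τ - x ∈ E then NB28.aw ν τ else 0))
          + 4 * lam * ∑' x : Site d, WW ν XX (fun z => μ (x - z)) [] := by
          rw [ENNReal.tsum_add, ENNReal.tsum_mul_left, ENNReal.tsum_mul_left]
      _ ≤ M / lam * (E.card * ∑' τ : Wd d, (if τ ∈ TT then NB28.aw ν τ else 0)) + 4 * lam * 1 := by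
          refine add_le_add (mul_le_mul_right (le_of_eq ?_) _) (mul_le_mul_right ?_ _)
          · rw [ENNReal.tsum_comm, ← ENNReal.tsum_mul_left]
            refine tsum_congr fun τ => ?_
            by_cases hτ : τ ∈ TT
            · simp only [hτ, true_and, if_true]
              rw [tsum_eq_sum (s := E.image (fun y => endp 0 τ - y))]
              · rw [Finset.sum_congr rfl (g := fun _ => NB28.aw ν τ)]
                · rw [Finset.sum_const, Finset.card_image_of_injective _ (sub_right_injective),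
                    nsmul_eq_mul]
                · intro y hy
                  obtain ⟨z, hz, rfl⟩ := Finset.mem_image.1 hy
                  rw [if_pos (by simpa using hz)]
              · intro y hy
                rw [if_neg]
                intro h
                exact hy (Finset.mem_image.2 ⟨_, h, by simp⟩)
            · simp [hτ]
          · calc ∑' x : Site d, WW ν XX (fun z => μ (x - z)) []
                = ∑' π : Wd d, (if π ∈ XX then NB28.aw ν π else 0) * ∑' x : Site d, μ (x - endp 0 π) := by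
                  unfold WW
                  rw [ENNReal.tsum_comm]
                  refine tsum_congr fun π => ?_
                  simp only [List.nil_append]
                  by_cases h : π ∈ XX
                  · simp only [if_pos h]
                    rw [ENNReal.tsum_mul_left]
                  · simp [h]
              _ ≤ ∑' π : Wd d, (if π ∈ XX then NB28.aw ν π else 0) * 1 := by
                  refine ENNReal.tsum_le_tsum fun π => mul_le_mul_right ?_ _
                  refine le_trans (le_of_eq ?_) hμ1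
                  exact (Equiv.subRight (endp 0 π)).tsum_eq μ
              _ ≤ 1 := by
                  simp only [mul_one]
                  exact pf_aw_le (iidEnvironmentLaw ν) 0 hXX
      _ = _ := by rw [mul_one, add_comm]
  rcases eq_or_ne M 0 with h0 | h0
  · subst h0
    have hz : ∀ z, μ z = 0 := fun z => le_antisymm (hμM z) zero_le
    refine le_trans (le_of_eq ?_) zero_le
    simp [hz]
  · rcases eq_or_ne M ⊤ with hT | hT
    · subst hT
      have h1 : ∀ z, μ z ≤ 1 := fun z => (ENNReal.le_tsum z).trans hμ1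
      refine (main 1 one_ne_zero ENNReal.one_ne_top h1).trans ?_
      refine add_le_add le_rfl (mul_le_mul_left ?_ _)
      exact ENNReal.div_le_div le_top le_rfl
    · exact main M h0 hT hμM

end ratio

end Crest.Agent.R154.Win761
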