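import Crest.Agent.R154.NBSurg_28
import Crest.Agent.R154.B5Abs_566

/-! Row 154, T0219, ROAD 801 (order (3)): the window lemma with the weight dependent threshold
(helper767).  Everything is a sum over finite words. -/

set_option autoImplicit false

open MeasureTheory ProbabilityTheory Crest.ProbabilityR.RandomEnvironment
open scoped ENNReal

namespace Crest.Agent.R154.Win3767

open Flux566

variable {d : ℕ}

lemma lw_append (ω : Environment d) (x : Site d) (l l' : List (Step d)) :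
    lw ω x (l ++ l') = lw ω x l * lw ω (endp x l) l' := by
  induction l generalizing x with
  | nil => simp [lw, endp]
  | cons e l ih => simp only [List.cons_append, lw, endp]; rw [ih, mul_assoc]

lemma sitesL_append (x : Site d) (l l' : List (Step d)) :
    sitesL x (l ++ l') = sitesL x l ++ sitesL (endp x l) l' := by
  induction l generalizing x with
  | nil => simp [sitesL, endp]
  | cons e l ih => simp only [List.cons_append, sitesL, endp]; rw [ih]

/-- indicator with a fixed decidability instance -/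
noncomputable def ind (P : Prop) (x : ℝ≥0∞) : ℝ≥0∞ := @ite _ P (Classical.propDecidable P) x 0

lemma ind_pos {P : Prop} (h : P) {x : ℝ≥0∞} : ind P x = x := @if_pos _ (_) h _ _ _

lemma ind_neg {P : Prop} (h : ¬ P) {x : ℝ≥0∞} : ind P x = 0 := @if_neg _ (_) h _ _ _

@[simp] lemma ind_true {x : ℝ≥0∞} : ind True x = x := ind_pos trivial

@[simp] lemma ind_false {x : ℝ≥0∞} : ind False x = 0 := ind_neg not_false

lemma ind_eq (P : Prop) [Decidable P] (x : ℝ≥0∞) : ind P x = if P then x else 0 := by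
  by_cases h : P
  · rw [ind_pos h, if_pos h]
  · rw [ind_neg h, if_neg h]

/-- prefix-free sets of words -/
def PF (P : List (Step d) → Prop) : Prop := ∀ l l', P l → P (l ++ l') → l' = []

lemma row_sum (p : Row d) : ∑ e, ENNReal.ofReal (p.1 e) = 1 := by
  rw [← ENNReal.ofReal_sum_of_nonneg (fun e _ => p.2.1 e), p.2.2, ENNReal.ofReal_one]

lemma pf_aux (ω : Environment d) (n : ℕ) : ∀ (x : Site d) (P : List (Step d) → Prop), PF P →
    ∑' l, (ind (P l ∧ l.length ≤ n) (lw ω x l)) ≤ 1 := by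
  induction n with
  | zero =>
    intro x P _
    rw [B5A.tsum_list]
    have : ∑' b, ∑' L, (ind (P (b :: L) ∧ (b :: L).length ≤ 0) (lw ω x (b :: L))) = 0 := by
      simp
    rw [this, add_zero]
    by_cases hh : P [] <;> simp [ind, lw, hh]
  | succ n ih =>
    intro x P hP
    rw [B5A.tsum_list]
    by_cases h0 : P []
    · have : ∑' b, ∑' L, (ind (P (b :: L) ∧ (b :: L).length ≤ n + 1) (lw ω x (b :: L)))
          = 0 := by
        refine ENNReal.tsum_eq_zero.2 fun b => ENNReal.tsum_eq_zero.2 fun L => ?_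
        rw [ind_neg]
        rintro ⟨h1, -⟩
        have := hP [] (b :: L) h0 (by simpa using h1)
        simp at this
      rw [this, add_zero]
      by_cases hh : P [] <;> simp [ind, lw, hh]
    · rw [ind_neg (fun h => h0 h.1), zero_add]
      calc _ ≤ ∑' b : Step d, ENNReal.ofReal ((ω x).1 b) * 1 := by
            refine ENNReal.tsum_le_tsum fun b => ?_
            refine le_trans (le_of_eq ?_) (mul_le_mul_right (ih (x + stepVec b)
              (fun L => P (b :: L)) (fun l l' h h' => hP (b :: l) l' h (by simpa using h'))) _)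
            rw [← ENNReal.tsum_mul_left]
            refine tsum_congr fun L => ?_
            by_cases h : P (b :: L) ∧ L.length ≤ n
            · rw [ind_pos h, ind_pos ⟨h.1, by simpa using h.2⟩]; rfl
            · rw [ind_neg h, ind_neg (fun h' => h ⟨h'.1, by simpa using h'.2⟩), mul_zero]
        _ = 1 := by simp only [mul_one]; rw [tsum_fintype]; exact row_sum _

lemma pf_le_one (ω : Environment d) (x : Site d) {P : List (Step d) → Prop} (hP : PF P) :
    ∑' l, (ind (P l) (lw ω x l)) ≤ 1 := by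
  rw [ENNReal.tsum_eq_iSup_sum]
  refine iSup_le fun s => ?_
  refine le_trans ?_ (pf_aux ω (s.sup List.length) x P hP)
  refine le_trans (le_of_eq ?_) (ENNReal.sum_le_tsum s)
  refine Finset.sum_congr rfl fun l hl => ?_
  have : l.length ≤ s.sup List.length := Finset.le_sup (f := List.length) hl
  by_cases h : P l <;> simp [h, this]

lemma split_le (f : List (Step d) → ℝ≥0∞) {P : List (Step d) → Prop}
    {S : List (Step d) → List (Step d) → Prop}
    (h : ∀ l, P l → ∃ l0 l1, l = l0 ++ l1 ∧ S l0 l1) :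
    ∑' l, (ind (P l) (f l))
      ≤ ∑' l0, ∑' l1, (ind (S l0 l1) (f (l0 ++ l1))) := by
  rw [← ENNReal.tsum_prod]
  choose! g0 g1 hg hS using h
  have e1 : ∑' l, (ind (P l) (f l)) = ∑' l : {l // P l}, f l := by
    rw [show (fun l => ind (P l) (f l)) = ({l | P l} : Set (List (Step d))).indicator f from
      funext fun l => by by_cases h : P l <;> simp [h], ← tsum_subtype]
    rfl
  rw [e1]
  have hinj : Function.Injective (fun l : {l // P l} => (g0 l.1, g1 l.1)) := by
    rintro ⟨l, hl⟩ ⟨l', hl'⟩ h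
    simp only [Prod.mk.injEq] at h
    have : l = l' := by rw [hg l hl, hg l' hl', h.1, h.2]
    exact Subtype.ext this
  refine le_trans (le_of_eq ?_) (ENNReal.tsum_comp_le_tsum_of_injective hinj
    (fun p : List (Step d) × List (Step d) => ind (S p.1 p.2) (f (p.1 ++ p.2))))
  refine tsum_congr fun l => ?_
  rw [ind_pos (hS l.1 l.2), ← hg l.1 l.2]

lemma join_le (f : List (Step d) → ℝ≥0∞) {S : List (Step d) → List (Step d) → Prop}
    (h : ∀ l0 l1 l0' l1', S l0 l1 → S l0' l1' → l0 ++ l1 = l0' ++ l1' → l0 = l0') :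
    ∑' l0, ∑' l1, (ind (S l0 l1) (f (l0 ++ l1)))
      ≤ ∑' t, (ind (∃ l0 l1, t = l0 ++ l1 ∧ S l0 l1) (f t)) := by
  rw [← ENNReal.tsum_prod]
  have e1 : ∑' p : List (Step d) × List (Step d), (ind (S p.1 p.2) (f (p.1 ++ p.2)))
      = ∑' p : {p : List (Step d) × List (Step d) // S p.1 p.2}, f (p.1.1 ++ p.1.2) := by
    rw [show (fun p : List (Step d) × List (Step d) => ind (S p.1 p.2) (f (p.1 ++ p.2)))
      = ({p | S p.1 p.2} : Set (List (Step d) × List (Step d))).indicator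
        (fun p => f (p.1 ++ p.2)) from
      funext fun l => by by_cases h : S l.1 l.2 <;> simp [h], ← tsum_subtype]
    rfl
  rw [e1]
  have hinj : Function.Injective
      (fun p : {p : List (Step d) × List (Step d) // S p.1 p.2} => p.1.1 ++ p.1.2) := by
    rintro ⟨⟨l0, l1⟩, hp⟩ ⟨⟨l0', l1'⟩, hp'⟩ he
    simp only at he hp hp'
    have h0 := h _ _ _ _ hp hp' he
    subst h0
    have h1 := List.append_cancel_left he
    subst h1
    rfl
  refine le_trans (le_of_eq ?_) (ENNReal.tsum_comp_le_tsum_of_injective hinj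
    (fun t => ind (∃ l0 l1, t = l0 ++ l1 ∧ S l0 l1) (f t)))
  refine tsum_congr fun p => ?_
  rw [ind_pos ⟨p.1.1, p.1.2, rfl, p.2⟩]

/-- domination: a prefix-free set whose words have a prefix in `R` -/
lemma dom (ω : Environment d) (x : Site d) {P R : List (Step d) → Prop} (hP : PF P)
    (h : ∀ l, P l → ∃ l0 l1, l = l0 ++ l1 ∧ R l0) :
    ∑' l, (ind (P l) (lw ω x l)) ≤ ∑' l, (ind (R l) (lw ω x l)) := by
  refine (split_le (lw ω x) (S := fun l0 l1 => R l0 ∧ P (l0 ++ l1)) fun l hl => ?_).trans ?_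
  · obtain ⟨l0, l1, h1, h2⟩ := h l hl
    exact ⟨l0, l1, h1, h2, h1 ▸ hl⟩
  refine ENNReal.tsum_le_tsum fun l0 => ?_
  by_cases hR : R l0
  · rw [ind_pos hR]
    calc _ = lw ω x l0 * ∑' l1, (ind (P (l0 ++ l1)) (lw ω (endp x l0) l1)) := by
          rw [← ENNReal.tsum_mul_left]
          refine tsum_congr fun l1 => ?_
          by_cases h : P (l0 ++ l1) <;> simp [h, hR, lw_append]
      _ ≤ lw ω x l0 * 1 := by
          refine mul_le_mul_right (pf_le_one ω _ fun l l' h h' => ?_) _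
          exact hP (l0 ++ l) l' h (by simpa using h')
      _ = _ := mul_one _
  · simp [hR]

/-- the words of `R` none of whose strict prefixes is in `R` -/
def Fst (R : List (Step d) → Prop) (l : List (Step d)) : Prop :=
  R l ∧ ∀ l0 l1, l = l0 ++ l1 → R l0 → l1 = []

lemma pf_fst (R : List (Step d) → Prop) : PF (Fst R) := fun l l' h h' => h'.2 l l' rfl h.1

lemma exists_fst {R : List (Step d) → Prop} (l : List (Step d)) (hl : R l) :
    ∃ l0 l1, l = l0 ++ l1 ∧ Fst R l0 := by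
  classical
  have hex : ∃ n, ∃ l0 l1, l = l0 ++ l1 ∧ R l0 ∧ l0.length = n :=
    ⟨l.length, l, [], by simp, hl, rfl⟩
  obtain ⟨l0, l1, h1, h2, h3⟩ := Nat.find_spec hex
  refine ⟨l0, l1, h1, h2, fun k0 k1 hk hR => ?_⟩
  by_contra hne
  have hlt : k0.length < l0.length := by
    rw [hk, List.length_append]
    have := List.length_pos_iff.2 hne
    omega
  refine Nat.find_min hex (m := k0.length) (by rw [← h3]; exact hlt) ⟨k0, k1 ++ l1, ?_, hR, rfl⟩
  rw [h1, hk, List.append_assoc]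

lemma mem_split {v : Site d} : ∀ (r : List (Step d)) (a : Site d), v ∈ sitesL a r →
    ∃ r1 r2, r = r1 ++ r2 ∧ endp a r1 = v := by
  intro r
  induction r with
  | nil => intro a h; simp [sitesL] at h
  | cons e r ih =>
    intro a h
    simp only [sitesL, List.mem_cons] at h
    rcases h with h | h
    · exact ⟨[], e :: r, rfl, h.symm⟩
    · obtain ⟨r1, r2, h1, h2⟩ := ih _ h
      exact ⟨e :: r1, r2, by rw [h1]; rfl, h2⟩

lemma endp_mem (l : List (Step d)) (x : Site d) {l' : List (Step d)} (h : l' ≠ []) :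
    endp x l ∈ sitesL x (l ++ l') := by
  rw [sitesL_append, List.mem_append]
  right
  cases l' with
  | nil => exact absurd rfl h
  | cons e l' => simp [sitesL]

/-- first hit of the set `V` by the word `p` started at `0` -/
def hit (V : Set (Site d)) (p : List (Step d)) : Prop :=
  (∀ y ∈ sitesL 0 p, y ∉ V) ∧ endp 0 p ∈ V

lemma pf_hit (V : Set (Site d)) : PF (hit V) := by
  intro l l' h h'
  by_contra hne
  exact h'.1 _ (endp_mem l 0 hne) h.2

/-- quenched weight of the local completions from `v` -/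
noncomputable def ea (C : Site d → List (Step d) → Prop) (E : Set (Site d)) (ω : Environment d)
    (a v : Site d) : ℝ≥0∞ :=
  ∑' s, ind (C v s ∧ endp v s - a ∈ E) (lw ω v s)

section quen

variable (L : List (Step d) → Prop) (C : Site d → List (Step d) → Prop) (E : Set (Site d))

lemma qL (ω : Environment d) (a : Site d) (hC : ∀ r1 r2, L (r1 ++ r2) → C (endp a r1) r2)
    (S : Set (Site d)) (lam : ℝ≥0∞) (hS : ∀ v ∈ S, ea C E ω a v ≤ lam) :
    ∑' r, (ind (L r ∧ endp 0 r ∈ E ∧ ∃ v ∈ sitesL a r, v ∈ S) (lw ω a r)) ≤ lam := by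
  refine (split_le (lw ω a) (S := fun l0 l1 => Fst (fun l => endp a l ∈ S) l0 ∧
    C (endp a l0) l1 ∧ endp (endp a l0) l1 - a ∈ E) ?_).trans ?_
  · rintro r ⟨hL, hE, v, hv, hvS⟩
    obtain ⟨r1, r2, h1, h2⟩ := mem_split r a hv
    obtain ⟨l0, l1, h3, h4⟩ := exists_fst (R := fun l => endp a l ∈ S) r1 (by rw [h2]; exact hvS)
    refine ⟨l0, l1 ++ r2, by rw [h1, h3, List.append_assoc], h4, ?_, ?_⟩
    · apply hC
      rw [← List.append_assoc, ← h3, ← h1]
      exact hL
    · rw [← endp_append, ← List.append_assoc, ← h3, ← h1, endp_eq_add]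
      simpa using hE
  · calc _ = ∑' l0, ind (Fst (fun l => endp a l ∈ S) l0)
            (lw ω a l0 * ea C E ω a (endp a l0)) := by
          refine tsum_congr fun l0 => ?_
          by_cases h : Fst (fun l => endp a l ∈ S) l0
          · rw [ind_pos h, ea, ← ENNReal.tsum_mul_left]
            refine tsum_congr fun l1 => ?_
            by_cases h' : C (endp a l0) l1 ∧ endp (endp a l0) l1 - a ∈ E
            · rw [ind_pos ⟨h, h'⟩, ind_pos h', lw_append]
            · rw [ind_neg (fun h2 => h' h2.2), ind_neg h', mul_zero]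
          · rw [ind_neg h]
            exact ENNReal.tsum_eq_zero.2 fun l1 => ind_neg fun h2 => h h2.1
      _ ≤ ∑' l0, (ind (Fst (fun l => endp a l ∈ S) l0) (lw ω a l0)) * lam := by
          refine ENNReal.tsum_le_tsum fun l0 => ?_
          by_cases h : Fst (fun l => endp a l ∈ S) l0
          · rw [ind_pos h, ind_pos h]
            exact mul_le_mul_right (hS _ h.1) _
          · simp [h]
      _ = (∑' l0, (ind (Fst (fun l => endp a l ∈ S) l0) (lw ω a l0))) * lam :=
          ENNReal.tsum_mul_right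
      _ ≤ 1 * lam := mul_le_mul_left (pf_le_one ω a (pf_fst _)) _
      _ = lam := one_mul _

variable (Dp : Site d → Prop) (Pre : List (Step d) → Prop)

/-- turning words -/
def Ta (a : Site d) (t : List (Step d)) : Prop :=
  ∃ p s, t = p ++ s ∧ Pre p ∧ Dp (endp 0 p) ∧ C (endp 0 p) s ∧ endp 0 t - a ∈ E

lemma qG (ω : Environment d) (a : Site d) (lam : ℝ≥0∞) (h0 : lam ≠ 0) (ht : lam ≠ ⊤) :
    ∑' p, (ind (Fst (fun p => Pre p ∧ Dp (endp 0 p) ∧ lam < ea C E ω a (endp 0 p)) p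
       ) (lw ω 0 p))
      ≤ lam⁻¹ * ∑' t, (ind (Ta C E Dp Pre a t) (lw ω 0 t)) := by
  set R : List (Step d) → Prop := Fst (fun p => Pre p ∧ Dp (endp 0 p) ∧
    lam < ea C E ω a (endp 0 p)) with hR
  calc _ ≤ ∑' p, lam⁻¹ * (ind (R p) (lw ω 0 p * ea C E ω a (endp 0 p))) := by
        refine ENNReal.tsum_le_tsum fun p => ?_
        by_cases h : R p
        · rw [ind_pos h, ind_pos h]
          calc lw ω 0 p = lw ω 0 p * (lam⁻¹ * lam) := by
                rw [ENNReal.inv_mul_cancel h0 ht, mul_one]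
            _ ≤ lw ω 0 p * (lam⁻¹ * ea C E ω a (endp 0 p)) :=
                mul_le_mul_right (mul_le_mul_right h.1.2.2.le _) _
            _ = _ := by ring
        · simp [h]
    _ = lam⁻¹ * ∑' p, (ind (R p) (lw ω 0 p * ea C E ω a (endp 0 p))) :=
        ENNReal.tsum_mul_left
    _ = lam⁻¹ * ∑' p, ∑' s, (ind (R p ∧ C (endp 0 p) s ∧ endp (endp 0 p) s - a ∈ E
         ) (lw ω 0 (p ++ s))) := by
        congr 1
        refine tsum_congr fun p => ?_
        by_cases h : R p
        · rw [ind_pos h, ea, ← ENNReal.tsum_mul_left]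
          refine tsum_congr fun l1 => ?_
          by_cases h' : C (endp 0 p) l1 ∧ endp (endp 0 p) l1 - a ∈ E
          · rw [ind_pos h', ind_pos ⟨h, h'⟩, lw_append]
          · rw [ind_neg h', ind_neg (fun h2 => h' h2.2), mul_zero]
        · rw [ind_neg h]
          exact (ENNReal.tsum_eq_zero.2 fun l1 => ind_neg fun h2 => h h2.1).symm
    _ ≤ lam⁻¹ * ∑' t, (ind (∃ p s, t = p ++ s ∧ (R p ∧ C (endp 0 p) s ∧
          endp (endp 0 p) s - a ∈ E)) (lw ω 0 t)) := by
        refine mul_le_mul_right (join_le (lw ω 0) ?_) _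
        rintro l0 l1 l0' l1' ⟨h, -⟩ ⟨h', -⟩ he
        rcases List.append_eq_append_iff.1 he with ⟨k, hk, -⟩ | ⟨k, hk, -⟩
        · have := h'.2 l0 k hk h.1
          subst this
          simpa using hk.symm
        · have := h.2 l0' k hk h'.1
          subst this
          simpa using hk
    _ ≤ _ := by
        refine mul_le_mul_right (ENNReal.tsum_le_tsum fun t => ?_) _
        by_cases h : ∃ p s, t = p ++ s ∧ (R p ∧ C (endp 0 p) s ∧ endp (endp 0 p) s - a ∈ E)
        · rw [ind_pos h]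
          obtain ⟨p, s, h1, h2, h3, h4⟩ := h
          rw [ind_pos ⟨p, s, h1, h2.1.1, h2.1.2.1, h3, by rw [h1, endp_append]; exact h4⟩]
        · rw [ind_neg h]; exact zero_le

/-- **quenched form of the window lemma** (one weight class) -/
lemma quen (ω : Environment d) (a : Site d) (hL : PF L)
    (hC : ∀ r1 r2, L (r1 ++ r2) → C (endp a r1) r2) (Cl Cl' : List (Step d) → Prop)
    (hCl : ∀ p, Cl p → Cl' p) (lam : ℝ≥0∞) (h0 : lam ≠ 0) (ht : lam ≠ ⊤) :
    ∑' r, ∑' p, (ind (L r ∧ endp 0 r ∈ E ∧ hit {y | y ∈ sitesL a r} p ∧ Dp (endp 0 p) ∧ Pre p ∧ Cl p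
       ) (lw ω a r * lw ω 0 p))
      ≤ lam * ∑' p, (ind (Fst Cl' p) (lw ω 0 p))
        + lam⁻¹ * ∑' t, (ind (Ta C E Dp Pre a t) (lw ω 0 t)) := by
  set B1 := ∑' p, (ind (Fst Cl' p) (lw ω 0 p)) with hB1
  set B2 := ∑' p, (ind (Fst (fun p => Pre p ∧ Dp (endp 0 p) ∧ lam < ea C E ω a (endp 0 p)) p
       ) (lw ω 0 p)) with hB2
  set S : Set (Site d) := {v | ea C E ω a v ≤ lam} with hS
  have key : ∀ r, ∑' p, (ind (L r ∧ endp 0 r ∈ E ∧ hit {y | y ∈ sitesL a r} p ∧ Dp (endp 0 p) ∧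
      Pre p ∧ Cl p) (lw ω a r * lw ω 0 p))
      ≤ (ind (L r ∧ endp 0 r ∈ E ∧ ∃ v ∈ sitesL a r, v ∈ S) (lw ω a r)) * B1
        + (ind (L r) (lw ω a r)) * B2 := by
    intro r
    by_cases hr : L r ∧ endp 0 r ∈ E
    swap
    · rw [ENNReal.tsum_eq_zero.2 fun p => ind_neg fun h => hr ⟨h.1, h.2.1⟩]
      exact zero_le
    have h1 : ∑' p, (ind (hit {y | y ∈ sitesL a r} p ∧ Cl p ∧ endp 0 p ∈ S) (lw ω 0 p))
        ≤ (ind (∃ v ∈ sitesL a r, v ∈ S) (1)) * B1 := by
      by_cases hv : ∃ v ∈ sitesL a r, v ∈ S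
      · rw [ind_pos hv, one_mul]
        refine dom ω 0 (fun l l' h h' => pf_hit _ l l' h.1 h'.1) fun l hl => ?_
        exact exists_fst l (hCl l hl.2.1)
      · rw [ENNReal.tsum_eq_zero.2 fun p => ind_neg fun h => hv ⟨_, h.1.2, h.2.2⟩]
        exact zero_le
    have h2 : ∑' p, (ind (hit {y | y ∈ sitesL a r} p ∧ Dp (endp 0 p) ∧ Pre p ∧ endp 0 p ∉ S
       ) (lw ω 0 p)) ≤ B2 := by
      refine dom ω 0 (fun l l' h h' => pf_hit _ l l' h.1 h'.1) fun l hl => ?_
      exact exists_fst l ⟨hl.2.2.1, hl.2.1, not_le.1 hl.2.2.2⟩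
    calc _ ≤ ∑' p, (lw ω a r * (ind (hit {y | y ∈ sitesL a r} p ∧ Cl p ∧ endp 0 p ∈ S
           ) (lw ω 0 p)) + lw ω a r * (ind (hit {y | y ∈ sitesL a r} p ∧ Dp (endp 0 p) ∧
              Pre p ∧ endp 0 p ∉ S) (lw ω 0 p))) := by
          refine ENNReal.tsum_le_tsum fun p => ?_
          by_cases h : L r ∧ endp 0 r ∈ E ∧ hit {y | y ∈ sitesL a r} p ∧ Dp (endp 0 p) ∧
              Pre p ∧ Cl p
          · rw [ind_pos h]
            by_cases hp : endp 0 p ∈ S
            · rw [ind_pos ⟨h.2.2.1, h.2.2.2.2.2, hp⟩]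
              exact le_self_add
            · rw [ind_pos (⟨h.2.2.1, h.2.2.2.1, h.2.2.2.2.1, hp⟩ : hit {y | y ∈ sitesL a r} p ∧
                Dp (endp 0 p) ∧ Pre p ∧ endp 0 p ∉ S)]
              exact le_add_self
          · rw [ind_neg h]; exact zero_le
      _ = lw ω a r * (∑' p, (ind (hit {y | y ∈ sitesL a r} p ∧ Cl p ∧ endp 0 p ∈ S
           ) (lw ω 0 p))) + lw ω a r * (∑' p, (ind (hit {y | y ∈ sitesL a r} p ∧
              Dp (endp 0 p) ∧ Pre p ∧ endp 0 p ∉ S) (lw ω 0 p))) := by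
          rw [ENNReal.tsum_add, ENNReal.tsum_mul_left, ENNReal.tsum_mul_left]
      _ ≤ lw ω a r * ((ind (∃ v ∈ sitesL a r, v ∈ S) (1)) * B1) + lw ω a r * B2 :=
          add_le_add (mul_le_mul_right h1 _) (mul_le_mul_right h2 _)
      _ = _ := by
          rw [ind_pos hr.1]
          congr 1
          by_cases hv : ∃ v ∈ sitesL a r, v ∈ S
          · rw [ind_pos hv, ind_pos ⟨hr.1, hr.2, hv⟩, one_mul]
          · rw [ind_neg hv, ind_neg fun h => hv h.2.2, zero_mul, mul_zero]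
  calc _ ≤ ∑' r, ((ind (L r ∧ endp 0 r ∈ E ∧ ∃ v ∈ sitesL a r, v ∈ S) (lw ω a r)) * B1
        + (ind (L r) (lw ω a r)) * B2) := ENNReal.tsum_le_tsum key
    _ = (∑' r, (ind (L r ∧ endp 0 r ∈ E ∧ ∃ v ∈ sitesL a r, v ∈ S) (lw ω a r))) * B1
        + (∑' r, (ind (L r) (lw ω a r))) * B2 := by
        rw [ENNReal.tsum_add, ENNReal.tsum_mul_right, ENNReal.tsum_mul_right]
    _ ≤ lam * B1 + 1 * B2 := add_le_add
        (mul_le_mul_left (qL L C E ω a hC S lam fun v hv => hv) _)
        (mul_le_mul_left (pf_le_one ω a hL) _)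
    _ ≤ _ := by
        rw [one_mul]
        exact add_le_add le_rfl (qG C E Dp Pre ω a lam h0 ht)

end quen

/-! ### annealed form -/

open NB28 (aw aw_shift lint_mul)

lemma measurable_ind (P : Prop) {f : Environment d → ℝ≥0∞} (hf : Measurable f) :
    Measurable fun ω => ind P (f ω) := by
  by_cases h : P
  · simp only [ind_pos h]; exact hf
  · simp only [ind_neg h]; exact measurable_const

lemma lint_ind (ν : Measure (Row d)) [IsProbabilityMeasure ν] (P : Prop)
    (f : Environment d → ℝ≥0∞) :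
    ∫⁻ ω, ind P (f ω) ∂(iidEnvironmentLaw ν) = ind P (∫⁻ ω, f ω ∂(iidEnvironmentLaw ν)) := by
  by_cases h : P
  · simp only [ind_pos h]
  · simp only [ind_neg h]; simp

lemma pf_aw (ν : Measure (Row d)) [IsProbabilityMeasure ν] {P : List (Step d) → Prop}
    (hP : PF P) : ∑' l, ind (P l) (aw ν l) ≤ 1 := by
  have e : ∀ l, ind (P l) (aw ν l) = ∫⁻ ω, ind (P l) (lw ω 0 l) ∂(iidEnvironmentLaw ν) :=
    fun l => by rw [lint_ind]; rfl
  simp_rw [e]
  rw [← lintegral_tsum fun l => (measurable_ind _ (measurable_lw 0 l)).aemeasurable]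
  calc _ ≤ ∫⁻ _, 1 ∂(iidEnvironmentLaw ν) := lintegral_mono fun ω => pf_le_one ω 0 hP
    _ = 1 := by simp

lemma aw_prefix (ν : Measure (Row d)) [IsProbabilityMeasure ν] {G : List (Step d) → Prop}
    (hG : PF G) (p : List (Step d)) : ∑' l, ind (G (p ++ l)) (aw ν (p ++ l)) ≤ aw ν p := by
  have e : ∀ l, ind (G (p ++ l)) (aw ν (p ++ l))
      = ∫⁻ ω, ind (G (p ++ l)) (lw ω 0 (p ++ l)) ∂(iidEnvironmentLaw ν) :=
    fun l => by rw [lint_ind]; rfl
  simp_rw [e]
  rw [← lintegral_tsum fun l => (measurable_ind _ (measurable_lw 0 _)).aemeasurable]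
  refine lintegral_mono fun ω => ?_
  calc _ = lw ω 0 p * ∑' l, ind (G (p ++ l)) (lw ω (endp 0 p) l) := by
        rw [← ENNReal.tsum_mul_left]
        refine tsum_congr fun l => ?_
        by_cases h : G (p ++ l) <;> simp [h, lw_append]
    _ ≤ lw ω 0 p * 1 := by
        refine mul_le_mul_right (pf_le_one ω _ fun l l' h h' => ?_) _
        exact hG (p ++ l) l' h (by simpa using h')
    _ = _ := mul_one _

section ann

variable (ν : Measure (Row d)) [IsProbabilityMeasure ν]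
variable (G L : List (Step d) → Prop) (C : Site d → List (Step d) → Prop) (E : Set (Site d))
variable (Dp : Site d → Prop) (Pre : List (Step d) → Prop)

/-- the weight carried by a prefix `p` of the general walker -/
noncomputable def Nn (f : Site d → ℝ≥0∞) (p : List (Step d)) : ℝ≥0∞ :=
  ∑' l, ind (G (p ++ l)) (aw ν (p ++ l) * f (endp 0 (p ++ l)))

lemma Nn_le (hG : PF G) (f : Site d → ℝ≥0∞) (W : ℝ≥0∞) (hf : ∀ z, f z ≤ W)
    (p : List (Step d)) : Nn ν G f p ≤ W * aw ν p := by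
  calc Nn ν G f p ≤ ∑' l, W * ind (G (p ++ l)) (aw ν (p ++ l)) := by
        refine ENNReal.tsum_le_tsum fun l => ?_
        by_cases h : G (p ++ l)
        · rw [ind_pos h, ind_pos h, mul_comm W]
          exact mul_le_mul_right (hf _) _
        · simp [h]
    _ = W * ∑' l, ind (G (p ++ l)) (aw ν (p ++ l)) := ENNReal.tsum_mul_left
    _ ≤ _ := mul_le_mul_right (aw_prefix ν hG p) _

lemma fst_uniq {R : List (Step d) → Prop} {l0 l1 l0' l1' : List (Step d)} (h : Fst R l0)
    (h' : Fst R l0') (he : l0 ++ l1 = l0' ++ l1') : l0 = l0' := by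
  rcases List.append_eq_append_iff.1 he with ⟨k, hk, -⟩ | ⟨k, hk, -⟩
  · have := h'.2 l0 k hk h.1
    subst this
    simpa using hk.symm
  · have := h.2 l0' k hk h'.1
    subst this
    simpa using hk

/-- Ville in words -/
lemma ville (f : Site d → ℝ≥0∞) (θ : ℝ≥0∞) (h0 : θ ≠ 0) (ht : θ ≠ ⊤) :
    ∑' p, ind (Fst (fun p => θ * aw ν p < Nn ν G f p) p) (aw ν p) ≤ θ⁻¹ * Nn ν G f [] := by
  set R : List (Step d) → Prop := Fst (fun p => θ * aw ν p < Nn ν G f p) with hR
  calc _ ≤ ∑' p, θ⁻¹ * ind (R p) (Nn ν G f p) := by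
        refine ENNReal.tsum_le_tsum fun p => ?_
        by_cases h : R p
        · rw [ind_pos h, ind_pos h]
          calc aw ν p = θ⁻¹ * (θ * aw ν p) := by
                rw [← mul_assoc, ENNReal.inv_mul_cancel h0 ht, one_mul]
            _ ≤ _ := mul_le_mul_right h.1.le _
        · simp [h]
    _ = θ⁻¹ * ∑' p, ind (R p) (Nn ν G f p) := ENNReal.tsum_mul_left
    _ ≤ θ⁻¹ * Nn ν G f [] := by
        refine mul_le_mul_right ?_ _
        calc _ = ∑' p, ∑' l, ind (R p ∧ G (p ++ l)) (aw ν (p ++ l) * f (endp 0 (p ++ l))) := by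
              refine tsum_congr fun p => ?_
              by_cases h : R p
              · rw [ind_pos h, Nn]
                refine tsum_congr fun l => ?_
                by_cases h' : G (p ++ l)
                · rw [ind_pos h', ind_pos ⟨h, h'⟩]
                · rw [ind_neg h', ind_neg fun h2 => h' h2.2]
              · rw [ind_neg h]
                exact (ENNReal.tsum_eq_zero.2 fun l => ind_neg fun h2 => h h2.1).symm
          _ ≤ ∑' t, ind (∃ l0 l1, t = l0 ++ l1 ∧ (R l0 ∧ G (l0 ++ l1)))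
                (aw ν t * f (endp 0 t)) :=
              join_le (fun t => aw ν t * f (endp 0 t)) fun l0 l1 l0' l1' h h' he =>
                fst_uniq h.1 h'.1 he
          _ ≤ _ := by
              refine ENNReal.tsum_le_tsum fun t => ?_
              by_cases h : ∃ l0 l1, t = l0 ++ l1 ∧ (R l0 ∧ G (l0 ++ l1))
              · rw [ind_pos h]
                obtain ⟨l0, l1, h1, -, h3⟩ := h
                rw [List.nil_append, ind_pos (h1 ▸ h3)]
              · rw [ind_neg h]; exact zero_le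

/-- one weight class, one start `a` -/
lemma cls (a : Site d) (hL : PF L) (hC : ∀ r1 r2, L (r1 ++ r2) → C (endp a r1) r2)
    (f : Site d → ℝ≥0∞) (θ : ℝ≥0∞) (hθ : θ ≠ 0) (hθt : θ ≠ ⊤)
    (lam : ℝ≥0∞) (h0 : lam ≠ 0) (ht : lam ≠ ⊤) :
    ∑' r, ∑' p, ind (L r ∧ endp 0 r ∈ E ∧ hit {y | y ∈ sitesL a r} p ∧ Dp (endp 0 p) ∧ Pre p ∧
        θ * aw ν p < Nn ν G f p) (aw ν r * aw ν p)
      ≤ lam * (θ⁻¹ * Nn ν G f []) + lam⁻¹ * ∑' t, ind (Ta C E Dp Pre a t) (aw ν t) := by
  have e : ∀ r p, ind (L r ∧ endp 0 r ∈ E ∧ hit {y | y ∈ sitesL a r} p ∧ Dp (endp 0 p) ∧ Pre p ∧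
        θ * aw ν p < Nn ν G f p) (aw ν r * aw ν p)
      = ∫⁻ ω, ind (L r ∧ endp 0 r ∈ E ∧ hit {y | y ∈ sitesL a r} p ∧ Dp (endp 0 p) ∧ Pre p ∧
        θ * aw ν p < Nn ν G f p) (lw ω a r * lw ω 0 p) ∂(iidEnvironmentLaw ν) := by
    intro r p
    rw [lint_ind]
    by_cases h : L r ∧ endp 0 r ∈ E ∧ hit {y | y ∈ sitesL a r} p ∧ Dp (endp 0 p) ∧ Pre p ∧
        θ * aw ν p < Nn ν G f p
    · rw [ind_pos h, ind_pos h, lint_mul ν a 0 r p fun y hy hy' => h.2.2.1.1 y hy' hy]
    · rw [ind_neg h, ind_neg h]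
  simp_rw [e]
  have hm : ∀ r p, Measurable fun ω => ind (L r ∧ endp 0 r ∈ E ∧ hit {y | y ∈ sitesL a r} p ∧
      Dp (endp 0 p) ∧ Pre p ∧ θ * aw ν p < Nn ν G f p) (lw ω a r * lw ω 0 p) := fun r p =>
    measurable_ind _ ((measurable_lw a r).mul (measurable_lw 0 p))
  calc _ = ∫⁻ ω, ∑' r, ∑' p, ind (L r ∧ endp 0 r ∈ E ∧ hit {y | y ∈ sitesL a r} p ∧
        Dp (endp 0 p) ∧ Pre p ∧ θ * aw ν p < Nn ν G f p) (lw ω a r * lw ω 0 p)
          ∂(iidEnvironmentLaw ν) := by
        rw [lintegral_tsum fun r => (Measurable.ennreal_tsum fun p => hm r p).aemeasurable]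
        refine tsum_congr fun r => ?_
        rw [lintegral_tsum fun p => (hm r p).aemeasurable]
    _ ≤ ∫⁻ ω, (lam * ∑' p, ind (Fst (fun p => θ * aw ν p < Nn ν G f p) p) (lw ω 0 p)
        + lam⁻¹ * ∑' t, ind (Ta C E Dp Pre a t) (lw ω 0 t)) ∂(iidEnvironmentLaw ν) :=
        lintegral_mono fun ω => quen L C E Dp Pre ω a hL hC _ _ (fun p h => h) lam h0 ht
    _ = lam * ∑' p, ind (Fst (fun p => θ * aw ν p < Nn ν G f p) p) (aw ν p)
        + lam⁻¹ * ∑' t, ind (Ta C E Dp Pre a t) (aw ν t) := by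
        rw [lintegral_add_left, lintegral_const_mul, lintegral_const_mul, lintegral_tsum,
          lintegral_tsum]
        · simp_rw [lint_ind]
          rfl
        · exact fun p => (measurable_ind _ (measurable_lw 0 p)).aemeasurable
        · exact fun p => (measurable_ind _ (measurable_lw 0 p)).aemeasurable
        · exact Measurable.ennreal_tsum fun p => measurable_ind _ (measurable_lw 0 p)
        · exact Measurable.ennreal_tsum fun p => measurable_ind _ (measurable_lw 0 p)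
        · exact (Measurable.ennreal_tsum fun p => measurable_ind _
            (measurable_lw 0 p)).const_mul _
    _ ≤ _ := add_le_add (mul_le_mul_right (ville ν G f θ hθ hθt) _) le_rfl

/-! ### the sum over the classes -/

/-- thresholds -/
noncomputable def ck (k : ℕ) : ℝ≥0∞ := ENNReal.ofReal ((2 / 3 : ℝ) ^ k)

/-- weight levels -/
noncomputable def hk (k : ℕ) : ℝ≥0∞ := ENNReal.ofReal ((1 / 2 : ℝ) ^ (k + 1))

lemma ck_ne (k : ℕ) : ck k ≠ 0 := by
  unfold ck
  rw [Ne, ENNReal.ofReal_eq_zero, not_le]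
  positivity

lemma ck_top (k : ℕ) : ck k ≠ ⊤ := ENNReal.ofReal_ne_top

lemma hk_ne (k : ℕ) : hk k ≠ 0 := by
  unfold hk
  rw [Ne, ENNReal.ofReal_eq_zero, not_le]
  positivity

lemma hk_top (k : ℕ) : hk k ≠ ⊤ := ENNReal.ofReal_ne_top

lemma two_hk_zero : 2 * hk 0 = 1 := by
  unfold hk
  rw [show (2 : ℝ≥0∞) = ENNReal.ofReal 2 by simp, ← ENNReal.ofReal_mul (by norm_num)]
  norm_num

lemma two_hk_succ (k : ℕ) : 2 * hk (k + 1) = hk k := by
  unfold hk
  rw [show (2 : ℝ≥0∞) = ENNReal.ofReal 2 by simp, ← ENNReal.ofReal_mul (by norm_num)]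
  congr 1
  ring

lemma sum_ck : ∑' k, ck k = 3 := by
  unfold ck
  rw [← ENNReal.ofReal_tsum_of_nonneg (fun k => by positivity)
    (summable_geometric_of_lt_one (by norm_num) (by norm_num)),
    tsum_geometric_of_lt_one (by norm_num) (by norm_num)]
  norm_num

lemma sum_hc : ∑' k, (2 * hk k * (ck k)⁻¹) = 4 := by
  have e : ∀ k, 2 * hk k * (ck k)⁻¹ = ENNReal.ofReal ((3 / 4 : ℝ) ^ k) := by
    intro k
    unfold hk ck
    rw [← ENNReal.ofReal_inv_of_pos (by positivity),
      show (2 : ℝ≥0∞) = ENNReal.ofReal 2 by simp, ← ENNReal.ofReal_mul (by norm_num),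
      ← ENNReal.ofReal_mul (by positivity)]
    congr 1
    rw [← inv_pow, pow_succ, show (3 / 4 : ℝ) = (1 / 2) * (2 / 3)⁻¹ by norm_num, mul_pow]
    ring
  simp_rw [e]
  rw [← ENNReal.ofReal_tsum_of_nonneg (fun k => by positivity)
    (summable_geometric_of_lt_one (by norm_num) (by norm_num)),
    tsum_geometric_of_lt_one (by norm_num) (by norm_num)]
  norm_num

lemma exists_class (W x N : ℝ≥0∞) (hW : W ≠ ⊤) (hx : x ≠ ⊤) (hN : N ≤ W * x) (hN0 : N ≠ 0) :
    ∃ k, W * hk k * x < N ∧ N ≤ 2 * (W * hk k) * x := by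
  classical
  have hex : ∃ k, W * hk k * x < N := by
    obtain ⟨n, hn⟩ := ENNReal.exists_nat_mul_gt hN0 (ENNReal.mul_ne_top hW hx : W * x ≠ ⊤)
    refine ⟨n, ?_⟩
    have h2 : (n : ℝ≥0∞) * hk n ≤ 1 := by
      unfold hk
      rw [show (n : ℝ≥0∞) = ENNReal.ofReal n by simp, ← ENNReal.ofReal_mul (by positivity),
        ← ENNReal.ofReal_one]
      refine ENNReal.ofReal_le_ofReal ?_
      have h3 : (n : ℝ) ≤ 2 ^ (n + 1) := by
        have : n < 2 ^ n := Nat.lt_two_pow_self
        have h4 : (n : ℝ) < 2 ^ n := by exact_mod_cast this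
        have h5 : (2 : ℝ) ^ n ≤ 2 ^ (n + 1) := pow_le_pow_right₀ (by norm_num) (by omega)
        linarith
      rw [one_div, inv_pow, ← div_eq_mul_inv, div_le_one (by positivity)]
      exact h3
    calc W * hk n * x = (W * x) * hk n := by ring
      _ < (n * N) * hk n := by
          exact (ENNReal.mul_lt_mul_iff_left (hk_ne n) (hk_top n)).2 hn
      _ = ((n : ℝ≥0∞) * hk n) * N := by ring
      _ ≤ 1 * N := mul_le_mul_left h2 _
      _ = N := one_mul _
  refine ⟨Nat.find hex, Nat.find_spec hex, ?_⟩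
  rcases Nat.eq_zero_or_pos (Nat.find hex) with h | h
  · rw [h, show 2 * (W * hk 0) * x = W * x * (2 * hk 0) by ring, two_hk_zero, mul_one]
    exact hN
  · obtain ⟨j, hj⟩ : ∃ j, Nat.find hex = j + 1 := ⟨Nat.find hex - 1, by omega⟩
    have := Nat.find_min hex (m := j) (by omega)
    rw [hj, show 2 * (W * hk (j + 1)) * x = W * (2 * hk (j + 1)) * x by ring, two_hk_succ]
    exact not_lt.1 this

lemma aw_le_one (l : List (Step d)) : aw ν l ≤ 1 := by
  have h := pf_aw ν (P := fun l' => l' = l) (by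
    intro l1 l2 h1 h2
    rw [h1] at h2
    simpa using h2)
  refine le_trans ?_ (le_trans (ENNReal.le_tsum l) h)
  rw [ind_pos rfl]

lemma comm3 (F : List (Step d) → List (Step d) → ℕ → ℝ≥0∞) :
    ∑' r, ∑' p, ∑' k, F r p k = ∑' k, ∑' r, ∑' p, F r p k := by
  calc ∑' r, ∑' p, ∑' k, F r p k = ∑' r, ∑' k, ∑' p, F r p k :=
        tsum_congr fun r => ENNReal.tsum_comm
    _ = _ := ENNReal.tsum_comm

/-- all the classes, one start `a` -/
lemma allc (a : Site d) (hG : PF G) (hL : PF L)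
    (hC : ∀ r1 r2, L (r1 ++ r2) → C (endp a r1) r2)
    (f : Site d → ℝ≥0∞) (W : ℝ≥0∞) (hW0 : W ≠ 0) (hWt : W ≠ ⊤) (hf : ∀ z, f z ≤ W)
    (lam : ℝ≥0∞) (h0 : lam ≠ 0) (ht : lam ≠ ⊤) :
    ∑' r, ∑' p, ind (L r ∧ endp 0 r ∈ E ∧ hit {y | y ∈ sitesL a r} p ∧ Dp (endp 0 p) ∧ Pre p)
        (aw ν r * Nn ν G f p)
      ≤ 6 * lam * Nn ν G f [] + 4 * W * lam⁻¹ * ∑' t, ind (Ta C E Dp Pre a t) (aw ν t) := by
  set U := ∑' t, ind (Ta C E Dp Pre a t) (aw ν t) with hU
  set N0 := Nn ν G f [] with hN0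
  set cond : List (Step d) → List (Step d) → Prop := fun r p => L r ∧ endp 0 r ∈ E ∧
    hit {y | y ∈ sitesL a r} p ∧ Dp (endp 0 p) ∧ Pre p with hcond
  set θ : ℕ → ℝ≥0∞ := fun k => W * hk k with hθ
  have hθ0 : ∀ k, θ k ≠ 0 := fun k => mul_ne_zero hW0 (hk_ne k)
  have hθt : ∀ k, θ k ≠ ⊤ := fun k => ENNReal.mul_ne_top hWt (hk_top k)
  calc _ ≤ ∑' r, ∑' p, ∑' k, 2 * θ k * ind (L r ∧ endp 0 r ∈ E ∧ hit {y | y ∈ sitesL a r} p ∧
        Dp (endp 0 p) ∧ Pre p ∧ θ k * aw ν p < Nn ν G f p) (aw ν r * aw ν p) := by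
        refine ENNReal.tsum_le_tsum fun r => ENNReal.tsum_le_tsum fun p => ?_
        by_cases h : cond r p
        swap
        · rw [ind_neg h]; exact zero_le
        rw [ind_pos h]
        by_cases hN : Nn ν G f p = 0
        · rw [hN, mul_zero]; exact zero_le
        obtain ⟨k, hk1, hk2⟩ := exists_class W (aw ν p) (Nn ν G f p) hWt
          (ne_top_of_le_ne_top ENNReal.one_ne_top (aw_le_one ν p)) (Nn_le ν G hG f W hf p) hN
        refine le_trans ?_ (ENNReal.le_tsum k)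
        rw [ind_pos ⟨h.1, h.2.1, h.2.2.1, h.2.2.2.1, h.2.2.2.2, hk1⟩]
        calc aw ν r * Nn ν G f p ≤ aw ν r * (2 * (W * hk k) * aw ν p) := mul_le_mul_right hk2 _
          _ = _ := by rw [hθ]; ring
    _ = ∑' k, 2 * θ k * ∑' r, ∑' p, ind (L r ∧ endp 0 r ∈ E ∧ hit {y | y ∈ sitesL a r} p ∧
        Dp (endp 0 p) ∧ Pre p ∧ θ k * aw ν p < Nn ν G f p) (aw ν r * aw ν p) := by
        rw [comm3]
        refine tsum_congr fun k => ?_
        rw [← ENNReal.tsum_mul_left]
        refine tsum_congr fun r => ?_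
        rw [← ENNReal.tsum_mul_left]
    _ ≤ ∑' k, 2 * θ k * (lam * ck k * ((θ k)⁻¹ * N0) + (lam * ck k)⁻¹ * U) := by
        refine ENNReal.tsum_le_tsum fun k => mul_le_mul_right ?_ _
        exact cls ν G L C E Dp Pre a hL hC f (θ k) (hθ0 k) (hθt k) (lam * ck k)
          (mul_ne_zero h0 (ck_ne k)) (ENNReal.mul_ne_top ht (ck_top k))
    _ = ∑' k, (2 * lam * N0 * ck k + W * lam⁻¹ * U * (2 * hk k * (ck k)⁻¹)) := by
        refine tsum_congr fun k => ?_
        rw [mul_add, ENNReal.mul_inv (Or.inl h0) (Or.inl ht)]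
        congr 1
        · calc 2 * θ k * (lam * ck k * ((θ k)⁻¹ * N0))
              = 2 * lam * N0 * ck k * (θ k * (θ k)⁻¹) := by ring
            _ = _ := by rw [ENNReal.mul_inv_cancel (hθ0 k) (hθt k), mul_one]
        · rw [hθ]; ring
    _ = 2 * lam * N0 * 3 + W * lam⁻¹ * U * 4 := by
        rw [ENNReal.tsum_add, ENNReal.tsum_mul_left, ENNReal.tsum_mul_left, sum_ck, sum_hc]
    _ = _ := by ring

/-- **window lemma, order (3)** (local walker explored first, weight on the landing of the general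
walker, weight dependent threshold) -/
theorem win3 (A : Set (Site d)) (hG : PF G) (hL : PF L)
    (hC : ∀ a ∈ A, ∀ r1 r2, L (r1 ++ r2) → C (endp a r1) r2)
    (μ : Site d → ℝ≥0∞) (W : ℝ≥0∞) (hW0 : W ≠ 0) (hWt : W ≠ ⊤) (hμ : ∀ z, μ z ≤ W)
    (hμ1 : ∑' z, μ z ≤ 1) (lam : ℝ≥0∞) (h0 : lam ≠ 0) (ht : lam ≠ ⊤) :
    ∑' a, ∑' r, ∑' p, ind (a ∈ A ∧ L r ∧ endp 0 r ∈ E ∧ hit {y | y ∈ sitesL a r} p ∧
        Dp (endp 0 p) ∧ Pre p) (aw ν r * Nn ν G (fun z => μ (a - z)) p)
      ≤ 6 * lam + 4 * W * lam⁻¹ * ∑' a, ∑' t, ind (a ∈ A ∧ Ta C E Dp Pre a t) (aw ν t) := by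
  have hN : ∑' a, Nn ν G (fun z => μ (a - z)) [] ≤ 1 := by
    unfold Nn
    rw [ENNReal.tsum_comm]
    refine le_trans (ENNReal.tsum_le_tsum fun l => ?_) (pf_aw ν hG)
    by_cases h : G ([] ++ l)
    · simp_rw [ind_pos h]
      rw [List.nil_append] at h ⊢
      have e2 : ∑' i, μ (i - endp 0 l) = ∑' z, μ z := (Equiv.subRight (endp 0 l)).tsum_eq μ
      rw [ind_pos h, ENNReal.tsum_mul_left, e2]
      calc _ ≤ aw ν l * 1 := mul_le_mul_right hμ1 _
        _ = _ := mul_one _
    · simp_rw [ind_neg h]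
      simp
  calc _ ≤ ∑' a, (6 * lam * Nn ν G (fun z => μ (a - z)) [] + 4 * W * lam⁻¹ *
        ∑' t, ind (a ∈ A ∧ Ta C E Dp Pre a t) (aw ν t)) := by
        refine ENNReal.tsum_le_tsum fun a => ?_
        by_cases ha : a ∈ A
        · have := allc ν G L C E Dp Pre a hG hL (hC a ha) (fun z => μ (a - z)) W hW0 hWt
            (fun z => hμ _) lam h0 ht
          refine le_trans (le_of_eq ?_) (this.trans (le_of_eq ?_))
          · simp only [ha, true_and]
          · simp only [ha, true_and]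
        · rw [ENNReal.tsum_eq_zero.2 fun r => ENNReal.tsum_eq_zero.2 fun p =>
            ind_neg fun h => ha h.1]
          exact zero_le
    _ = 6 * lam * ∑' a, Nn ν G (fun z => μ (a - z)) [] + 4 * W * lam⁻¹ *
        ∑' a, ∑' t, ind (a ∈ A ∧ Ta C E Dp Pre a t) (aw ν t) := by
        rw [ENNReal.tsum_add, ENNReal.tsum_mul_left, ENNReal.tsum_mul_left]
    _ ≤ 6 * lam * 1 + _ := add_le_add (mul_le_mul_right hN _) le_rfl
    _ = _ := by rw [mul_one]

end ann

end Crest.Agent.R154.Win3767
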