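import Crest.Agent.R154.Flux2_566
import Crest.Agent.R154.Tree_870
import Crest.Agent.R154.Dyad_431

/-! Row 154, ROAD 801, window lemma (3) in words (helper870): `Y` local, `X` arbitrary. -/

set_option autoImplicit false
set_option linter.unusedSectionVars false

open MeasureTheory ProbabilityTheory Crest.ProbabilityR.RandomEnvironment
open scoped ENNReal Classical

namespace Crest.Agent.R154.Win870

open Crest.Agent.R154.Flux566 (lw endp sitesL endp_append locOn_lw measurable_lw)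
open Tree870

variable {d : ℕ}

/-! ### words -/

lemma sitesL_append (l l' : List (Step d)) (x : Site d) :
    sitesL x (l ++ l') = sitesL x l ++ sitesL (endp x l) l' := by
  induction l generalizing x with
  | nil => rfl
  | cons e l ih =>
    simp only [List.cons_append, sitesL, endp]
    rw [ih]

lemma lw_append (ω : Environment d) (l l' : List (Step d)) (x : Site d) :
    lw ω x (l ++ l') = lw ω x l * lw ω (endp x l) l' := by
  induction l generalizing x with
  | nil => simp [lw, endp]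
  | cons e l ih =>
    simp only [List.cons_append, lw, endp]
    rw [ih, mul_assoc]

lemma mem_sitesL {z : Site d} : ∀ {l : List (Step d)} {x : Site d}, z ∈ sitesL x l →
    ∃ l', l' <+: l ∧ l' ≠ l ∧ endp x l' = z := by
  intro l
  induction l with
  | nil => intro x h; simp [sitesL] at h
  | cons e l ih =>
    intro x h
    simp only [sitesL, List.mem_cons] at h
    rcases h with h | h
    · exact ⟨[], List.nil_prefix, by simp, h.symm⟩
    · obtain ⟨l', h1, h2, h3⟩ := ih h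
      refine ⟨e :: l', (List.prefix_cons_inj e).2 h1, ?_, h3⟩
      intro h4
      exact h2 (List.cons.inj h4).2

lemma row_sum (r : Row d) : ∑ e : Step d, ENNReal.ofReal (r.1 e) = 1 := by
  rw [← ENNReal.ofReal_sum_of_nonneg (fun e _ => r.2.1 e), r.2.2, ENNReal.ofReal_one]

lemma lw_tree (ω : Environment d) (x : Site d) (l : List (Step d)) :
    ∑ a, lw ω x (l ++ [a]) ≤ lw ω x l := by
  have h : ∀ a : Step d, lw ω x (l ++ [a]) = lw ω x l * ENNReal.ofReal ((ω (endp x l)).1 a) := by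
    intro a
    rw [lw_append]
    simp [lw]
  simp only [h]
  rw [← Finset.mul_sum, row_sum, mul_one]

lemma lw_pf (ω : Environment d) (x : Site d) {S : Set (List (Step d))} (hS : PF S) :
    ∑' l, (if l ∈ S then lw ω x l else 0) ≤ 1 :=
  (pf_sum (lw ω x) (lw_tree ω x) hS).trans (by simp [lw])

variable (ν : Measure (Row d)) [IsProbabilityMeasure ν]

/-- annealed weight of a word from `x` -/
noncomputable def ax (x : Site d) (l : List (Step d)) : ℝ≥0∞ :=
  ∫⁻ ω, lw ω x l ∂(iidEnvironmentLaw ν)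

lemma ax_tree (x : Site d) (l : List (Step d)) : ∑ a, ax ν x (l ++ [a]) ≤ ax ν x l := by
  unfold ax
  rw [← lintegral_finsetSum _ (fun a _ => measurable_lw x (l ++ [a]))]
  exact lintegral_mono fun ω => lw_tree ω x l

instance isProb : IsProbabilityMeasure (iidEnvironmentLaw ν) := by
  unfold iidEnvironmentLaw
  infer_instance

lemma ax_nil (x : Site d) : ax ν x [] = 1 := by
  unfold ax
  simp [lw]

lemma ax_pf (x : Site d) {S : Set (List (Step d))} (hS : PF S) :
    ∑' l, (if l ∈ S then ax ν x l else 0) ≤ 1 :=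
  (pf_sum (ax ν x) (ax_tree ν x) hS).trans (ax_nil ν x).le

lemma ax_mul {x y : Site d} {l l' : List (Step d)}
    (h : ∀ z, z ∈ sitesL x l → z ∉ sitesL y l') :
    ax ν x l * ax ν y l' = ∫⁻ ω, lw ω x l * lw ω y l' ∂(iidEnvironmentLaw ν) := by
  unfold ax
  rw [Q561.iid_lintegral_mul ν (S := {z | z ∈ sitesL x l}) (T := {z | z ∈ sitesL y l'}) ?_
    (measurable_lw _ _) (measurable_lw _ _) (locOn_lw _ _) (locOn_lw _ _)]
  rw [Set.disjoint_left]
  exact fun z hz hz' => h z hz hz'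

/-! ### the data -/

/-- `l` ends on the sites of `ρ` -/
def Hp (x : Site d) (ρ : List (Step d)) : List (Step d) → Prop := fun l => endp 0 l ∈ sitesL x ρ

variable (XX : Set (List (Step d))) (δ : Site d → Site d → ℝ≥0∞)

/-- the weight of the completions of `l` -/
noncomputable def W (x : Site d) (l : List (Step d)) : ℝ≥0∞ :=
  ∑' l2, (if l ++ l2 ∈ XX then ax ν 0 (l ++ l2) * δ x (endp 0 (l ++ l2)) else 0)

lemma W_tree (x : Site d) (l : List (Step d)) :
    ∑ a, W ν XX δ x (l ++ [a]) ≤ W ν XX δ x l := by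
  unfold W
  rw [← tsum_fintype (L := .unconditional _)
    (fun a => ∑' l2, (if (l ++ [a]) ++ l2 ∈ XX then
      ax ν 0 ((l ++ [a]) ++ l2) * δ x (endp 0 ((l ++ [a]) ++ l2)) else 0)), ← ENNReal.tsum_prod
    (f := fun (a : Step d) (l2 : List (Step d)) => (if (l ++ [a]) ++ l2 ∈ XX then
      ax ν 0 ((l ++ [a]) ++ l2) * δ x (endp 0 ((l ++ [a]) ++ l2)) else 0))]
  have hi : Function.Injective (fun p : Step d × List (Step d) => p.1 :: p.2) := by
    rintro ⟨a, l⟩ ⟨b, l'⟩ h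
    simp only [List.cons.injEq] at h
    rw [h.1, h.2]
  refine le_trans (le_of_eq ?_) (ENNReal.tsum_comp_le_tsum_of_injective hi _)
  refine tsum_congr fun p => ?_
  simp only [List.append_assoc, List.singleton_append]

variable {XX}

lemma W_le (hXX : PF XX) {M : ℝ≥0∞} (hδ : ∀ x z, δ x z ≤ M) (x : Site d) (l : List (Step d)) :
    W ν XX δ x l ≤ M * ax ν 0 l := by
  unfold W
  refine le_trans ?_ (mul_le_mul_right (pf_sum_ext (ax ν 0) (ax_tree ν 0) l hXX) M)
  rw [← ENNReal.tsum_mul_left]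
  refine ENNReal.tsum_le_tsum fun l2 => ?_
  split_ifs
  · rw [mul_comm]
    exact mul_le_mul_left (hδ _ _) _
  · simp

/-- the conditional weight -/
noncomputable def g (XX : Set (List (Step d))) (x : Site d) (l : List (Step d)) : ℝ≥0∞ :=
  W ν XX δ x l / ax ν 0 l

lemma g_le (hXX : PF XX) {M : ℝ≥0∞} (hδ : ∀ x z, δ x z ≤ M) (x : Site d) (l : List (Step d)) :
    g ν δ XX x l ≤ M := ENNReal.div_le_of_le_mul (W_le ν δ hXX hδ x l)

lemma ax_le_one (x : Site d) (l : List (Step d)) : ax ν x l ≤ 1 := by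
  have h := ax_pf ν x (S := {l}) (by
    intro a ha b hb _
    rw [Set.mem_singleton_iff] at ha hb
    rw [ha, hb])
  refine le_trans ?_ h
  refine le_trans (le_of_eq ?_) (ENNReal.le_tsum l)
  simp

lemma g_mul (hXX : PF XX) {M : ℝ≥0∞} (hδ : ∀ x z, δ x z ≤ M) (x : Site d) (l : List (Step d)) :
    g ν δ XX x l * ax ν 0 l = W ν XX δ x l := by
  unfold g
  by_cases h : ax ν 0 l = 0
  · have h1 := W_le ν δ hXX hδ x l
    rw [h, mul_zero] at h1
    rw [h, mul_zero]
    exact (le_antisymm h1 zero_le).symm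
  · exact ENNReal.div_mul_cancel h (ne_top_of_le_ne_top ENNReal.one_ne_top (ax_le_one ν 0 l))


/-! ### the quenched events -/

variable (CC : Site d → Site d → Set (List (Step d)))

/-- quenched probability of a continuation from `v` -/
noncomputable def ee (ω : Environment d) (x v : Site d) : ℝ≥0∞ :=
  ∑' σ, (if σ ∈ CC x v then lw ω v σ else 0)

variable {CC}

/-- **own event** : the walk visits `{e ≤ θ}` and completes -/
lemma own {x : Site d} {Y : Set (List (Step d))} 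
    (hc : ∀ r1 r2, r1 ++ r2 ∈ Y → r2 ∈ CC x (endp x r1)) (ω : Environment d) (θ : ℝ≥0∞) :
    ∑' r, (if r ∈ Y ∧ (∃ r1, r1 <+: r ∧ ee CC ω x (endp x r1) ≤ θ) then lw ω x r else 0) ≤ θ := by
  refine (split_sum (fun l => ee CC ω x (endp x l) ≤ θ)
    (fun r => if r ∈ Y ∧ (∃ r1, r1 <+: r ∧ ee CC ω x (endp x r1) ≤ θ) then lw ω x r else 0)
    (fun r => if r ∈ Y ∧ (∃ r1, r1 <+: r ∧ ee CC ω x (endp x r1) ≤ θ) then lw ω x r else 0)
    (fun r hr => ?_) (fun r => le_rfl)).trans ?_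
  · by_contra hn
    apply hr
    rw [if_neg]
    rintro ⟨_, h2⟩
    exact hn h2
  · refine (ENNReal.tsum_le_tsum (g := fun l1 =>
      θ * (if l1 ∈ Min (fun l => ee CC ω x (endp x l) ≤ θ) then lw ω x l1 else 0))
      fun l1 => ?_).trans ?_
    · split_ifs with h
      · refine (ENNReal.tsum_le_tsum (g := fun l2 => lw ω x l1 *
          (if l2 ∈ CC x (endp x l1) then lw ω (endp x l1) l2 else 0)) fun l2 => ?_).trans ?_
        · split_ifs with h1 h2 h2
          · rw [lw_append]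
          · exact absurd (hc _ _ h1.1) h2
          · exact zero_le
          · simp
        · rw [ENNReal.tsum_mul_left, mul_comm]
          exact mul_le_mul_left h.1 _
      · simp
    · rw [ENNReal.tsum_mul_left]
      exact (mul_le_mul_right (lw_pf ω x (pf_min _)) θ).trans (by rw [mul_one])

/-- a prefix-free set of words with property `P` weighs at most the first words of `P` -/
lemma le_min (w : List (Step d) → ℝ≥0∞) (hw : ∀ l, ∑ a, w (l ++ [a]) ≤ w l)
    {C : Set (List (Step d))} (hC : PF C) (P : List (Step d) → Prop) :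
    ∑' l, (if l ∈ C ∧ P l then w l else 0) ≤ ∑' l, (if l ∈ Min P then w l else 0) := by
  refine (split_sum P (fun l => if l ∈ C then w l else 0)
    (fun l => if l ∈ C ∧ P l then w l else 0) (fun l hl => ?_) (fun l => ?_)).trans ?_
  · by_contra hn
    apply hl
    rw [if_neg]
    rintro ⟨_, h2⟩
    exact hn ⟨l, List.prefix_rfl, h2⟩
  · split_ifs with h1 h2 h2
    · exact le_rfl
    · exact absurd h1.1 h2
    · exact zero_le
    · exact le_rfl
  · refine ENNReal.tsum_le_tsum fun l1 => ?_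
    split_ifs with h
    · exact pf_sum_ext w hw l1 hC
    · exact le_rfl

/-- **turning** : first hits of `ρ` followed by a continuation -/
lemma turn {x : Site d} {P : List (Step d) → Prop} {A : Site d → Prop} {E : List (Step d) → Prop}
    {TT : Set (List (Step d))}
    (hT : ∀ l1 s, E l1 → A (endp 0 l1) → s ∈ CC x (endp 0 l1) → l1 ++ s ∈ TT)
    (ω : Environment d) :
    ∑' l1, (if l1 ∈ Min P ∧ A (endp 0 l1) ∧ E l1 then lw ω 0 l1 * ee CC ω x (endp 0 l1) else 0) ≤
      ∑' t, (if t ∈ TT then lw ω 0 t else 0) := by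
  let s : Set (List (Step d) × List (Step d)) :=
    {p | (p.1 ∈ Min P ∧ A (endp 0 p.1) ∧ E p.1) ∧ p.2 ∈ CC x (endp 0 p.1)}
  have h1 : ∑' l1, (if l1 ∈ Min P ∧ A (endp 0 l1) ∧ E l1 then
      lw ω 0 l1 * ee CC ω x (endp 0 l1) else 0) =
      ∑' p : List (Step d) × List (Step d), (if p ∈ s then lw ω 0 (p.1 ++ p.2) else 0) := by
    rw [ENNReal.tsum_prod']
    refine tsum_congr fun l1 => ?_
    by_cases h : l1 ∈ Min P ∧ A (endp 0 l1) ∧ E l1
    · rw [if_pos h]
      unfold ee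
      rw [← ENNReal.tsum_mul_left]
      refine tsum_congr fun σ => ?_
      by_cases h2 : σ ∈ CC x (endp 0 l1)
      · rw [if_pos h2, if_pos (show ((l1, σ) : List (Step d) × List (Step d)) ∈ s from ⟨h, h2⟩),
          lw_append]
      · rw [if_neg h2, if_neg (show ((l1, σ) : List (Step d) × List (Step d)) ∉ s from
          fun h3 => h2 h3.2), mul_zero]
    · rw [if_neg h]
      symm
      rw [ENNReal.tsum_eq_zero]
      intro σ
      rw [if_neg (show ((l1, σ) : List (Step d) × List (Step d)) ∉ s from fun h3 => h h3.1)]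
  rw [h1]
  have h2 : ∑' p : List (Step d) × List (Step d), (if p ∈ s then lw ω 0 (p.1 ++ p.2) else 0) =
      ∑' p : s, (lw ω 0 (p.1.1 ++ p.1.2)) := by
    rw [tsum_subtype s (fun p : List (Step d) × List (Step d) => lw ω 0 (p.1 ++ p.2))]
    refine tsum_congr fun p => ?_
    by_cases h : p ∈ s
    · rw [Set.indicator_of_mem h, if_pos h]
    · rw [Set.indicator_of_notMem h, if_neg h]
  rw [h2]
  have hi : Function.Injective (fun p : s => p.1.1 ++ p.1.2) := by
    rintro ⟨⟨a, b⟩, hp⟩ ⟨⟨a', b'⟩, hp'⟩ h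
    simp only at h
    have h3 : a = a' := by
      have e1 : a <+: a ++ b := List.prefix_append a b
      have e2 : a' <+: a ++ b := by rw [h]; exact List.prefix_append a' b'
      rcases List.prefix_or_prefix_of_prefix e1 e2 with h4 | h4
      · exact pf_min P a hp.1.1 a' hp'.1.1 h4
      · exact (pf_min P a' hp'.1.1 a hp.1.1 h4).symm
    subst h3
    have h5 := List.append_cancel_left h
    subst h5
    rfl
  refine le_trans ?_ (ENNReal.tsum_comp_le_tsum_of_injective hi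
    (fun t => if t ∈ TT then lw ω 0 t else 0))
  refine ENNReal.tsum_le_tsum fun p => ?_
  rw [if_pos (hT _ _ p.2.1.2.2 p.2.1.2.1 p.2.2)]


/-- splitting `π` at its first hit of the sites of `ρ` -/
lemma first_hit (hXX : PF XX) {M : ℝ≥0∞} (hδ : ∀ x z, δ x z ≤ M) (A : Site d → Prop)
    (x : Site d) (ρ : List (Step d)) :
    ∑' π, (if π ∈ XX ∧ (∃ l', l' <+: π ∧ Hp x ρ l') ∧
      (∀ l', l' ∈ Min (Hp x ρ) → l' <+: π → A (endp 0 l')) then
      ax ν x ρ * ax ν 0 π * δ x (endp 0 π) else 0) ≤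
    ∫⁻ ω, ∑' l1, (if l1 ∈ Min (Hp x ρ) ∧ A (endp 0 l1) then
      g ν δ XX x l1 * (lw ω x ρ * lw ω 0 l1) else 0) ∂(iidEnvironmentLaw ν) := by
  rw [lintegral_tsum]
  · refine (split_sum (Hp x ρ) (fun π => if π ∈ XX ∧ (∃ l', l' <+: π ∧ Hp x ρ l') ∧
      (∀ l', l' ∈ Min (Hp x ρ) → l' <+: π → A (endp 0 l')) then
      ax ν x ρ * ax ν 0 π * δ x (endp 0 π) else 0) _ (fun l hl => ?_) (fun l => le_rfl)).trans ?_
    · by_contra hn
      apply hl
      rw [if_neg]
      rintro ⟨_, h2, _⟩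
      exact hn h2
    · refine ENNReal.tsum_le_tsum fun l1 => ?_
      by_cases h : l1 ∈ Min (Hp x ρ)
      · rw [if_pos h]
        by_cases hA : A (endp 0 l1)
        · have e1 : ∫⁻ ω, (if l1 ∈ Min (Hp x ρ) ∧ A (endp 0 l1) then
              g ν δ XX x l1 * (lw ω x ρ * lw ω 0 l1) else 0) ∂(iidEnvironmentLaw ν) =
              g ν δ XX x l1 * (ax ν x ρ * ax ν 0 l1) := by
            simp only [if_pos (show l1 ∈ Min (Hp x ρ) ∧ A (endp 0 l1) from ⟨h, hA⟩)]
            have hm : Measurable (fun ω : Environment d => lw ω x ρ * lw ω 0 l1) :=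
              (measurable_lw _ _).mul (measurable_lw _ _)
            rw [lintegral_const_mul _ hm, ax_mul]
            intro z hz hz'
            obtain ⟨l', h1, h2, h3⟩ := mem_sitesL hz'
            refine h.2 l' h1 h2 ?_
            unfold Hp
            rw [h3]
            exact hz
          rw [e1]
          have e2 : g ν δ XX x l1 * (ax ν x ρ * ax ν 0 l1) = ax ν x ρ * W ν XX δ x l1 := by
            rw [← g_mul ν δ hXX hδ x l1]
            ring
          rw [e2]
          unfold W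
          rw [← ENNReal.tsum_mul_left]
          refine ENNReal.tsum_le_tsum fun l2 => ?_
          by_cases h3 : l1 ++ l2 ∈ XX
          · rw [if_pos h3]
            split_ifs
            · rw [mul_assoc]
            · exact zero_le
          · rw [if_neg h3, if_neg (fun h4 => h3 h4.1)]
            exact zero_le
        · refine le_trans (le_of_eq ?_) zero_le
          rw [ENNReal.tsum_eq_zero]
          intro l2
          rw [if_neg]
          rintro ⟨_, _, h4⟩
          exact hA (h4 l1 h (List.prefix_append _ _))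
      · rw [if_neg h]
        exact zero_le
  · intro l1
    by_cases h : l1 ∈ Min (Hp x ρ) ∧ A (endp 0 l1)
    · simp only [if_pos h]
      exact (((measurable_lw _ _).mul (measurable_lw _ _)).const_mul _).aemeasurable
    · simp only [if_neg h]
      exact aemeasurable_const

/-- the weight of the first words with `g` in class `≤ j` -/
noncomputable def BB (XX : Set (List (Step d))) (M : ℝ≥0∞) (x : Site d) (j : ℕ)
    (ω : Environment d) : ℝ≥0∞ :=
  ∑' l, (if l ∈ Min (fun l => M * (4⁻¹ : ℝ≥0∞) ^ (j + 1) < g ν δ XX x l) then lw ω 0 l else 0)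

/-- one pair of words -/
lemma one_pair (CC : Site d → Site d → Set (List (Step d))) (A : Site d → Prop)
    (hXX : PF XX) {M lam : ℝ≥0∞} (hδ : ∀ x z, δ x z ≤ M)
    (hM0 : M ≠ 0) (hM : M ≠ ⊤) (hl0 : lam ≠ 0) (hl : lam ≠ ⊤) (x : Site d) (ω : Environment d)
    (ρ l1 : List (Step d)) :
    (if l1 ∈ Min (Hp x ρ) ∧ A (endp 0 l1) then
      g ν δ XX x l1 * (lw ω x ρ * lw ω 0 l1) else 0) ≤
    M / lam * (lw ω x ρ * (if l1 ∈ Min (Hp x ρ) ∧ A (endp 0 l1) ∧ (∃ l2, l1 ++ l2 ∈ XX) then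
      lw ω 0 l1 * ee CC ω x (endp 0 l1) else 0)) +
    ∑' j : ℕ, M * (4⁻¹ : ℝ≥0∞) ^ j * (if l1 ∈ Min (Hp x ρ) ∧
      ee CC ω x (endp 0 l1) ≤ lam * (4⁻¹ : ℝ≥0∞) ^ j ∧
      M * (4⁻¹ : ℝ≥0∞) ^ (j + 1) < g ν δ XX x l1 then lw ω x ρ * lw ω 0 l1 else 0) := by
  by_cases h : l1 ∈ Min (Hp x ρ) ∧ A (endp 0 l1)
  · rw [if_pos h]
    by_cases hg : g ν δ XX x l1 = 0
    · rw [hg, zero_mul]
      exact zero_le
    · have hex : ∃ l2, l1 ++ l2 ∈ XX := by
        by_contra hn
        push Not at hn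
        apply hg
        unfold g W
        simp [hn]
      by_cases hb : M * ee CC ω x (endp 0 l1) ≤ lam * g ν δ XX x l1
      · obtain ⟨j, hj1, hj2⟩ := Dyad431.exists_class M _ hM (g_le ν δ hXX hδ x l1) hg
        have he : ee CC ω x (endp 0 l1) ≤ lam * (4⁻¹ : ℝ≥0∞) ^ j := by
          refine (ENNReal.mul_le_mul_iff_right hM0 hM).1 ?_
          refine hb.trans ?_
          calc lam * g ν δ XX x l1 ≤ lam * (M * (4⁻¹ : ℝ≥0∞) ^ j) := mul_le_mul_right hj2 _
            _ = M * (lam * (4⁻¹ : ℝ≥0∞) ^ j) := by ring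
        refine le_trans ?_ le_add_self
        refine le_trans ?_ (ENNReal.le_tsum j)
        rw [if_pos ⟨h.1, he, hj1⟩]
        exact mul_le_mul_left hj2 _
      · refine le_trans ?_ le_self_add
        rw [if_pos ⟨h.1, h.2, hex⟩]
        have h2 : g ν δ XX x l1 ≤ M * ee CC ω x (endp 0 l1) / lam := by
          rw [ENNReal.le_div_iff_mul_le (Or.inl hl0) (Or.inl hl), mul_comm]
          exact (not_le.1 hb).le
        refine (mul_le_mul_left h2 _).trans (le_of_eq ?_)
        rw [div_eq_mul_inv, div_eq_mul_inv]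
        ring
  · rw [if_neg h]
    exact zero_le

/-- one `ρ` -/
lemma one_rho (CC : Site d → Site d → Set (List (Step d))) {TT : Set (List (Step d))}
    {A : Site d → Prop} (hXX : PF XX) {M lam : ℝ≥0∞} (hδ : ∀ x z, δ x z ≤ M)
    (hM0 : M ≠ 0) (hM : M ≠ ⊤) (hl0 : lam ≠ 0) (hl : lam ≠ ⊤) (x : Site d) (ω : Environment d)
    (hT : ∀ l1 s, (∃ l2, l1 ++ l2 ∈ XX) → A (endp 0 l1) → s ∈ CC x (endp 0 l1) → l1 ++ s ∈ TT)
    (ρ : List (Step d)) :
    ∑' l1, (if l1 ∈ Min (Hp x ρ) ∧ A (endp 0 l1) then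
      g ν δ XX x l1 * (lw ω x ρ * lw ω 0 l1) else 0) ≤
    M / lam * (lw ω x ρ * ∑' t, (if t ∈ TT then lw ω 0 t else 0)) +
    ∑' j : ℕ, M * (4⁻¹ : ℝ≥0∞) ^ j * ((if ∃ r1, r1 <+: ρ ∧
      ee CC ω x (endp x r1) ≤ lam * (4⁻¹ : ℝ≥0∞) ^ j then lw ω x ρ else 0) *
        BB ν δ XX M x j ω) := by
  refine (ENNReal.tsum_le_tsum fun l1 =>
    one_pair ν δ CC A hXX hδ hM0 hM hl0 hl x ω ρ l1).trans ?_
  rw [ENNReal.tsum_add]
  refine add_le_add ?_ ?_
  · rw [ENNReal.tsum_mul_left, ENNReal.tsum_mul_left]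
    exact mul_le_mul_right (mul_le_mul_right (turn (P := Hp x ρ) hT ω) _) _
  · rw [ENNReal.tsum_comm]
    refine ENNReal.tsum_le_tsum fun j => ?_
    rw [ENNReal.tsum_mul_left]
    refine mul_le_mul_right ?_ _
    by_cases hr : ∃ r1, r1 <+: ρ ∧ ee CC ω x (endp x r1) ≤ lam * (4⁻¹ : ℝ≥0∞) ^ j
    · rw [if_pos hr]
      refine le_trans ?_ (mul_le_mul_right (le_min (lw ω 0) (lw_tree ω 0) (pf_min (Hp x ρ))
        (fun l => M * (4⁻¹ : ℝ≥0∞) ^ (j + 1) < g ν δ XX x l)) _)
      rw [← ENNReal.tsum_mul_left]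
      refine ENNReal.tsum_le_tsum fun l1 => ?_
      split_ifs with h1 h2 h2
      · exact le_rfl
      · exact absurd ⟨h1.1, h1.2.2⟩ h2
      · exact zero_le
      · exact zero_le
    · rw [if_neg hr, zero_mul]
      refine le_of_eq ?_
      rw [ENNReal.tsum_eq_zero]
      intro l1
      rw [if_neg]
      rintro ⟨h1, h2, _⟩
      obtain ⟨r1, h3, _, h4⟩ := mem_sitesL (h1.1 : endp 0 l1 ∈ sitesL x ρ)
      exact hr ⟨r1, h3, by rw [h4]; exact h2⟩

/-- pointwise bound -/
lemma pointwise {CC : Site d → Site d → Set (List (Step d))} {TT : Set (List (Step d))}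
    {A : Site d → Prop} (hXX : PF XX) {M lam : ℝ≥0∞} (hδ : ∀ x z, δ x z ≤ M)
    (hM0 : M ≠ 0) (hM : M ≠ ⊤) (hl0 : lam ≠ 0) (hl : lam ≠ ⊤) (x : Site d) (ω : Environment d)
    {Y : Set (List (Step d))} (hY : PF Y)
    (hc : ∀ r1 r2, r1 ++ r2 ∈ Y → r2 ∈ CC x (endp x r1))
    (hT : ∀ l1 s, (∃ l2, l1 ++ l2 ∈ XX) → A (endp 0 l1) → s ∈ CC x (endp 0 l1) → l1 ++ s ∈ TT) :
    ∑' ρ, (if ρ ∈ Y then ∑' l1, (if l1 ∈ Min (Hp x ρ) ∧ A (endp 0 l1) then
      g ν δ XX x l1 * (lw ω x ρ * lw ω 0 l1) else 0) else 0) ≤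
    M / lam * (∑' t, (if t ∈ TT then lw ω 0 t else 0)) +
    ∑' j : ℕ, M * (4⁻¹ : ℝ≥0∞) ^ j * (lam * (4⁻¹ : ℝ≥0∞) ^ j * BB ν δ XX M x j ω) := by
  refine (ENNReal.tsum_le_tsum (g := fun ρ =>
    M / lam * ((if ρ ∈ Y then lw ω x ρ else 0) * ∑' t, (if t ∈ TT then lw ω 0 t else 0)) +
    ∑' j : ℕ, M * (4⁻¹ : ℝ≥0∞) ^ j * ((if ρ ∈ Y ∧ ∃ r1, r1 <+: ρ ∧
      ee CC ω x (endp x r1) ≤ lam * (4⁻¹ : ℝ≥0∞) ^ j then lw ω x ρ else 0) *
        BB ν δ XX M x j ω)) fun ρ => ?_).trans ?_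
  · by_cases h : ρ ∈ Y
    · simp only [h, if_true, true_and]
      exact one_rho ν δ CC hXX hδ hM0 hM hl0 hl x ω hT ρ
    · rw [if_neg h]
      exact zero_le
  · rw [ENNReal.tsum_add]
    refine add_le_add ?_ ?_
    · rw [ENNReal.tsum_mul_left, ENNReal.tsum_mul_right]
      refine mul_le_mul_right ?_ _
      exact (mul_le_mul_left (lw_pf ω x hY) _).trans (by rw [one_mul])
    · rw [ENNReal.tsum_comm]
      refine ENNReal.tsum_le_tsum fun j => ?_
      rw [ENNReal.tsum_mul_left, ENNReal.tsum_mul_right]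
      refine mul_le_mul_right ?_ _
      exact mul_le_mul_left (own (x := x) hc ω _) _

lemma BB_meas (M : ℝ≥0∞) (x : Site d) (j : ℕ) : Measurable (BB ν δ XX M x j) := by
  unfold BB
  refine Measurable.tsum fun l => ?_
  by_cases h : l ∈ Min (fun l => M * (4⁻¹ : ℝ≥0∞) ^ (j + 1) < g ν δ XX x l)
  · simp only [if_pos h]
    exact measurable_lw _ _
  · simp only [if_neg h]
    exact measurable_const

lemma BB_int (hXX : PF XX) {M : ℝ≥0∞} (hδ : ∀ x z, δ x z ≤ M) (x : Site d) (j : ℕ) :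
    M * (4⁻¹ : ℝ≥0∞) ^ (j + 1) * ∫⁻ ω, BB ν δ XX M x j ω ∂(iidEnvironmentLaw ν) ≤
      W ν XX δ x [] := by
  unfold BB
  rw [lintegral_tsum]
  · rw [← ENNReal.tsum_mul_left]
    refine le_trans ?_ (pf_sum (W ν XX δ x) (W_tree ν XX δ x)
      (pf_min (fun l => M * (4⁻¹ : ℝ≥0∞) ^ (j + 1) < g ν δ XX x l)))
    refine ENNReal.tsum_le_tsum fun l => ?_
    by_cases h : l ∈ Min (fun l => M * (4⁻¹ : ℝ≥0∞) ^ (j + 1) < g ν δ XX x l)
    · simp only [if_pos h]
      rw [← g_mul ν δ hXX hδ x l]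
      exact mul_le_mul_left (le_of_lt h.1) _
    · simp only [if_neg h]
      simp
  · intro l
    by_cases h : l ∈ Min (fun l => M * (4⁻¹ : ℝ≥0∞) ^ (j + 1) < g ν δ XX x l)
    · simp only [if_pos h]
      exact (measurable_lw _ _).aemeasurable
    · simp only [if_neg h]
      exact aemeasurable_const

lemma tsum_four : ∑' j : ℕ, (4⁻¹ : ℝ≥0∞) ^ j ≤ 2 := by
  rw [← Dyad431.tsum_half]
  refine ENNReal.tsum_le_tsum fun j => ?_
  refine pow_le_pow_left' ?_ j
  rw [ENNReal.inv_le_inv]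
  norm_num

/-- one start `x` -/
lemma one_x {CC : Site d → Site d → Set (List (Step d))} {TT : Set (List (Step d))}
    {A : Site d → Prop} (hXX : PF XX) {M lam : ℝ≥0∞} (hδ : ∀ x z, δ x z ≤ M)
    (hM0 : M ≠ 0) (hM : M ≠ ⊤) (hl0 : lam ≠ 0) (hl : lam ≠ ⊤) (x : Site d)
    {Y : Set (List (Step d))} (hY : PF Y)
    (hc : ∀ r1 r2, r1 ++ r2 ∈ Y → r2 ∈ CC x (endp x r1))
    (hT : ∀ l1 s, (∃ l2, l1 ++ l2 ∈ XX) → A (endp 0 l1) → s ∈ CC x (endp 0 l1) → l1 ++ s ∈ TT) :
    ∑' ρ, ∑' π, (if ρ ∈ Y ∧ π ∈ XX ∧ (∃ l', l' <+: π ∧ Hp x ρ l') ∧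
      (∀ l', l' ∈ Min (Hp x ρ) → l' <+: π → A (endp 0 l')) then
      ax ν x ρ * ax ν 0 π * δ x (endp 0 π) else 0) ≤
    M / lam * (∑' t, (if t ∈ TT then ax ν 0 t else 0)) + 8 * lam * W ν XX δ x [] := by
  have h1 : ∀ ρ, ∑' π, (if ρ ∈ Y ∧ π ∈ XX ∧ (∃ l', l' <+: π ∧ Hp x ρ l') ∧
      (∀ l', l' ∈ Min (Hp x ρ) → l' <+: π → A (endp 0 l')) then
      ax ν x ρ * ax ν 0 π * δ x (endp 0 π) else 0) ≤
      ∫⁻ ω, (if ρ ∈ Y then ∑' l1, (if l1 ∈ Min (Hp x ρ) ∧ A (endp 0 l1) then
      g ν δ XX x l1 * (lw ω x ρ * lw ω 0 l1) else 0) else 0) ∂(iidEnvironmentLaw ν) := by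
    intro ρ
    by_cases h : ρ ∈ Y
    · simp only [h, true_and, if_true]
      exact first_hit ν δ hXX hδ A x ρ
    · simp [h]
  refine (ENNReal.tsum_le_tsum h1).trans ?_
  rw [← lintegral_tsum]
  · refine (lintegral_mono fun ω =>
      pointwise ν δ hXX hδ hM0 hM hl0 hl x ω hY hc hT).trans ?_
    rw [lintegral_add_right _ (Measurable.tsum fun j =>
      ((BB_meas ν δ M x j).const_mul _).const_mul _)]
    refine add_le_add ?_ ?_
    · rw [lintegral_const_mul _ (Measurable.tsum fun t => ?_), lintegral_tsum]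
      · refine mul_le_mul_right (ENNReal.tsum_le_tsum fun t => ?_) _
        by_cases h : t ∈ TT
        · simp only [if_pos h]
          exact le_rfl
        · simp only [if_neg h]
          simp
      · intro t
        by_cases h : t ∈ TT
        · simp only [if_pos h]
          exact (measurable_lw _ _).aemeasurable
        · simp only [if_neg h]
          exact aemeasurable_const
      · by_cases h : t ∈ TT
        · simp only [if_pos h]
          exact measurable_lw _ _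
        · simp only [if_neg h]
          exact measurable_const
    · rw [lintegral_tsum (fun j => (((BB_meas ν δ M x j).const_mul _).const_mul _).aemeasurable)]
      refine (ENNReal.tsum_le_tsum (g := fun j =>
        4 * lam * W ν XX δ x [] * (4⁻¹ : ℝ≥0∞) ^ j) fun j => ?_).trans ?_
      · rw [lintegral_const_mul _ ((BB_meas ν δ M x j).const_mul _),
          lintegral_const_mul _ (BB_meas ν δ M x j)]
        have h4 : (4 : ℝ≥0∞) * 4⁻¹ = 1 := ENNReal.mul_inv_cancel (by norm_num) (by norm_num)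
        calc M * (4⁻¹ : ℝ≥0∞) ^ j * (lam * (4⁻¹ : ℝ≥0∞) ^ j *
              ∫⁻ ω, BB ν δ XX M x j ω ∂(iidEnvironmentLaw ν))
            = (4 * 4⁻¹) * (M * (4⁻¹ : ℝ≥0∞) ^ j * (lam * (4⁻¹ : ℝ≥0∞) ^ j *
              ∫⁻ ω, BB ν δ XX M x j ω ∂(iidEnvironmentLaw ν))) := by rw [h4, one_mul]
          _ = 4 * lam * (4⁻¹ : ℝ≥0∞) ^ j * (M * (4⁻¹ : ℝ≥0∞) ^ (j + 1) *
              ∫⁻ ω, BB ν δ XX M x j ω ∂(iidEnvironmentLaw ν)) := by ring
          _ ≤ 4 * lam * (4⁻¹ : ℝ≥0∞) ^ j * W ν XX δ x [] :=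
              mul_le_mul_right (BB_int ν δ hXX hδ x j) _
          _ = 4 * lam * W ν XX δ x [] * (4⁻¹ : ℝ≥0∞) ^ j := by ring
      · rw [ENNReal.tsum_mul_left]
        refine (mul_le_mul_right tsum_four _).trans (le_of_eq ?_)
        ring
  · intro ρ
    by_cases h : ρ ∈ Y
    · simp only [if_pos h]
      refine (Measurable.tsum fun l1 => ?_).aemeasurable
      by_cases h2 : l1 ∈ Min (Hp x ρ) ∧ A (endp 0 l1)
      · simp only [if_pos h2]
        exact (((measurable_lw _ _).mul (measurable_lw _ _)).const_mul _)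
      · simp only [if_neg h2]
        exact measurable_const
    · simp only [if_neg h]
      exact aemeasurable_const

/-- **win3** : `Y` (from `x`) local, `X` (from `0`) arbitrary, weight `δ x (end of X)`;
`X` hits the sites of `Y`, and its first hit lies in `A`. -/
theorem win3 {CC : Site d → Site d → Set (List (Step d))} {TT : Site d → Set (List (Step d))}
    {A : Site d → Prop} {YY : Site d → Set (List (Step d))}
    (hXX : PF XX) {M lam : ℝ≥0∞} (hδ : ∀ x z, δ x z ≤ M)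
    (hM0 : M ≠ 0) (hM : M ≠ ⊤) (hl0 : lam ≠ 0) (hl : lam ≠ ⊤)
    (hYY : ∀ x, PF (YY x))
    (hc : ∀ x r1 r2, r1 ++ r2 ∈ YY x → r2 ∈ CC x (endp x r1))
    (hT : ∀ x l1 s, (∃ l2, l1 ++ l2 ∈ XX) → A (endp 0 l1) → s ∈ CC x (endp 0 l1) →
      l1 ++ s ∈ TT x)
    (hδ1 : ∀ z, ∑' x, δ x z ≤ 1) :
    ∑' x, ∑' ρ, ∑' π, (if ρ ∈ YY x ∧ π ∈ XX ∧ (∃ l', l' <+: π ∧ endp 0 l' ∈ sitesL x ρ) ∧
      (∀ l', l' ∈ Min (fun l => endp 0 l ∈ sitesL x ρ) → l' <+: π → A (endp 0 l')) then
      ax ν x ρ * ax ν 0 π * δ x (endp 0 π) else 0) ≤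
    8 * lam + M / lam * ∑' x, ∑' t, (if t ∈ TT x then ax ν 0 t else 0) := by
  refine (ENNReal.tsum_le_tsum fun x =>
    one_x ν δ hXX hδ hM0 hM hl0 hl x (hYY x) (hc x) (hT x)).trans ?_
  rw [ENNReal.tsum_add, ENNReal.tsum_mul_left, ENNReal.tsum_mul_left, add_comm]
  refine add_le_add ?_ le_rfl
  refine (mul_le_mul_right (?_ : ∑' x, W ν XX δ x [] ≤ 1) _).trans (by rw [mul_one])
  unfold W
  simp only [List.nil_append]
  rw [ENNReal.tsum_comm]
  refine le_trans ?_ (ax_pf ν 0 hXX)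
  refine ENNReal.tsum_le_tsum fun π => ?_
  split_ifs
  · rw [ENNReal.tsum_mul_left]
    exact (mul_le_mul_right (hδ1 _) _).trans (by rw [mul_one])
  · simp

end Crest.Agent.R154.Win870
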