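import Crest.Agent.R154.WordB_956
import Crest.Agent.R154.Dyad_431

/-! Row 154, ROAD 801, window inequality (3) in words (helper934): explored walker `Y` (words `YY x`
from `x`), free walker `X` (words `XX` from `0`), weight on the relative position of the start of `Y`
and the landing of `X`; thresholds depend on the weight at the hit (Dyad_431). -/

set_option autoImplicit false

open MeasureTheory ProbabilityTheory Crest.ProbabilityR.RandomEnvironment
open Crest.Agent.R154.Flux566 Crest.Agent.R154.WordB956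
open scoped ENNReal

namespace Crest.Agent.R154.Win934

variable {d : ℕ}

section Abs

variable {α : Type*}

open Classical in
/-- a sum over words which split -/
lemma tsum_le_split (F : List α → ℝ≥0∞) (S : Set (List α)) (R : List α → List α → Prop)
    (h : ∀ l ∈ S, ∃ l1 l2, l = l1 ++ l2 ∧ R l1 l2) :
    ∑' l : List α, (if l ∈ S then F l else 0)
      ≤ ∑' l1 : List α, ∑' l2 : List α, (if R l1 l2 then F (l1 ++ l2) else 0) := by
  choose! a b hab hR using h
  have e1 : ∑' l1 : List α, ∑' l2 : List α, (if R l1 l2 then F (l1 ++ l2) else 0)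
      = ∑' p : List α × List α, (if R p.1 p.2 then F (p.1 ++ p.2) else 0) :=
    (ENNReal.tsum_prod (f := fun l1 l2 : List α => if R l1 l2 then F (l1 ++ l2) else 0)).symm
  rw [e1]
  have e2 : ∑' l : List α, (if l ∈ S then F l else 0) = ∑' l : S, F l := by
    rw [tsum_subtype S F]
    refine tsum_congr fun l => ?_
    by_cases hl : l ∈ S <;> simp [hl]
  rw [e2]
  have hinj : Function.Injective (fun l : S => ((a l.1, b l.1) : List α × List α)) := by
    intro l m hlm
    simp only [Prod.mk.injEq] at hlm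
    apply Subtype.ext
    rw [hab l.1 l.2, hab m.1 m.2, hlm.1, hlm.2]
  calc ∑' l : S, F l
      = ∑' l : S, (fun p : List α × List α => if R p.1 p.2 then F (p.1 ++ p.2) else 0)
          (a l.1, b l.1) := by
        refine tsum_congr fun l => ?_
        simp only
        rw [if_pos (hR l.1 l.2), ← hab l.1 l.2]
    _ ≤ _ := ENNReal.tsum_comp_le_tsum_of_injective hinj _

end Abs

open Classical in
/-- a sum over (element of a prefix-free set, continuation) is at most the whole sum -/
lemma split_le_tsum (F : List (Step d) → ℝ≥0∞) {T : Set (List (Step d))} (hT : PF T) :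
    ∑' l1 : List (Step d), (if l1 ∈ T then ∑' l2 : List (Step d), F (l1 ++ l2) else 0)
      ≤ ∑' l : List (Step d), F l := by
  have e1 : ∑' l1 : List (Step d), (if l1 ∈ T then ∑' l2 : List (Step d), F (l1 ++ l2) else 0)
      = ∑' p : List (Step d) × List (Step d), (if p.1 ∈ T then F (p.1 ++ p.2) else 0) := by
    rw [ENNReal.tsum_prod (f := fun a b : List (Step d) => if a ∈ T then F (a ++ b) else 0)]
    refine tsum_congr fun l1 => ?_
    by_cases h : l1 ∈ T <;> simp [h]
  rw [e1]
  have e2 : ∑' p : List (Step d) × List (Step d), (if p.1 ∈ T then F (p.1 ++ p.2) else 0)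
      = ∑' q : {p : List (Step d) × List (Step d) // p.1 ∈ T}, F (q.1.1 ++ q.1.2) := by
    rw [← tsum_subtype_eq_of_support_subset (s := {p : List (Step d) × List (Step d) |
      p.1 ∈ T})]
    · refine tsum_congr fun q => ?_
      exact if_pos q.2
    · intro p hp
      by_contra h
      exact hp (if_neg h)
  rw [e2]
  have hinj : Function.Injective
      (fun q : {p : List (Step d) × List (Step d) // p.1 ∈ T} => q.1.1 ++ q.1.2) := by
    rintro ⟨⟨a, b⟩, ha⟩ ⟨⟨a', b'⟩, ha'⟩ h
    simp only at h ha ha'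
    have hh : a = a' := by
      rcases List.append_eq_append_iff.1 h with ⟨c, hc, _⟩ | ⟨c, hc, _⟩
      · have : c = [] := hT a ha c (hc ▸ ha')
        rw [hc, this, List.append_nil]
      · have : c = [] := hT a' ha' c (hc ▸ ha)
        rw [hc, this, List.append_nil]
    subst hh
    have := List.append_cancel_left h
    subst this
    rfl
  exact ENNReal.tsum_comp_le_tsum_of_injective hinj F

open Classical in
/-- a prefix-free set, each element of which extends an element of `T`, weighs at most `T` -/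
lemma ext_le (ω : Environment d) (x : Site d) (S T : Set (List (Step d))) (hS : PF S)
    (h : ∀ l ∈ S, ∃ l1 l2, l = l1 ++ l2 ∧ l1 ∈ T) :
    ∑' l : List (Step d), (if l ∈ S then lw ω x l else 0)
      ≤ ∑' l : List (Step d), (if l ∈ T then lw ω x l else 0) := by
  calc ∑' l : List (Step d), (if l ∈ S then lw ω x l else 0)
      ≤ ∑' l1 : List (Step d), ∑' l2 : List (Step d),
          (if l1 ∈ T ∧ l1 ++ l2 ∈ S then lw ω x (l1 ++ l2) else 0) := by
        refine (tsum_le_split (fun l => lw ω x l) S (fun l1 l2 => l1 ∈ T ∧ l1 ++ l2 ∈ S)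
          (fun l hl => by
            obtain ⟨l1, l2, h1, h2⟩ := h l hl
            exact ⟨l1, l2, h1, h2, h1 ▸ hl⟩)).trans (le_of_eq ?_)
        refine tsum_congr fun l1 => tsum_congr fun l2 => ?_
        congr 1
    _ ≤ ∑' l1 : List (Step d), (if l1 ∈ T then lw ω x l1 else 0) := by
        refine ENNReal.tsum_le_tsum fun l1 => ?_
        by_cases h1 : l1 ∈ T
        · simp only [h1, true_and, if_true]
          calc ∑' l2 : List (Step d), (if l1 ++ l2 ∈ S then lw ω x (l1 ++ l2) else 0)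
              = lw ω x l1 * ∑' l2 : List (Step d),
                (if l2 ∈ {l2 | l1 ++ l2 ∈ S} then lw ω (endp x l1) l2 else 0) := by
                rw [← ENNReal.tsum_mul_left]
                refine tsum_congr fun l2 => ?_
                simp only [Set.mem_ofPred_eq]
                rw [lw_append, mul_ite, mul_zero]
            _ ≤ lw ω x l1 * 1 := by
                refine mul_le_mul_right (pf_sum_le ω _ ?_) _
                intro l hl l' hl'
                simp only [Set.mem_ofPred_eq] at hl hl'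
                exact hS _ hl l' (by rw [List.append_assoc]; exact hl')
            _ = lw ω x l1 := mul_one _
        · simp [h1]

/-- minimal prefix with a property -/
lemma exists_min {α : Type*} (P : List α → Prop) (l : List α) (h : P l) :
    ∃ l1 l2, l = l1 ++ l2 ∧ P l1 ∧ ∀ a b, l1 = a ++ b → b ≠ [] → ¬ P a := by
  classical
  have hex : ∃ n, P (l.take n) := ⟨l.length, by simpa using h⟩
  refine ⟨l.take (Nat.find hex), l.drop (Nat.find hex), (List.take_append_drop _ _).symm,
    Nat.find_spec hex, fun a b hab hb hPa => ?_⟩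
  have hlen : a.length < Nat.find hex := by
    have h1 : (l.take (Nat.find hex)).length ≤ Nat.find hex := List.length_take_le _ _
    rw [hab, List.length_append] at h1
    have : 0 < b.length := List.length_pos_iff.2 hb
    omega
  refine Nat.find_min hex hlen ?_
  have : l.take a.length = a := by
    have h2 : l = a ++ (b ++ l.drop (Nat.find hex)) := by
      rw [← List.append_assoc, ← hab, List.take_append_drop]
    rw [h2, List.take_left']
    rfl
  rw [this]
  exact hPa

lemma lw_le_one (ω : Environment d) (x : Site d) (l : List (Step d)) : lw ω x l ≤ 1 := by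
  classical
  have h := pf_sum_le ω x (S := {l}) (by
    intro a ha b hb
    simp only [Set.mem_singleton_iff] at ha hb
    subst ha
    simpa using hb)
  refine le_trans ?_ h
  refine le_trans ?_ (ENNReal.le_tsum l)
  simp

lemma aw_ne_top (Q : Measure (Environment d)) [IsProbabilityMeasure Q] (x : Site d)
    (l : List (Step d)) : WordB956.aw Q x l ≠ ⊤ := by
  refine ne_top_of_le_ne_top ENNReal.one_ne_top ?_
  calc WordB956.aw Q x l ≤ ∫⁻ _ : Environment d, (1 : ℝ≥0∞) ∂Q :=
        lintegral_mono fun ω => lw_le_one ω x l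
    _ = 1 := by simp

/-- departure sites of a first-hit word avoid the set -/
lemma sites_FH {D : Set (Site d)} {x : Site d} {s : List (Step d)} (h : s ∈ FH D x) :
    ∀ y ∈ sitesL x s, y ∉ D := by
  intro y hy
  obtain ⟨l1, e, l2, h1, h2⟩ := mem_sitesL.1 hy
  rw [← h2]
  exact h.2 l1 (e :: l2) h1 (by simp)

section Win

variable (ν : Measure (Row d)) [IsProbabilityMeasure ν]

/-- strict prefixes of the words of `XX` -/
def Pre (XX : Set (List (Step d))) : Set (List (Step d)) := {s | ∃ t, t ≠ [] ∧ s ++ t ∈ XX}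

lemma Pre.of_prefix {XX : Set (List (Step d))} {a b : List (Step d)} (h : a ++ b ∈ Pre XX) :
    a ∈ Pre XX := by
  obtain ⟨t, ht, h⟩ := h
  exact ⟨b ++ t, by simp [ht], by rwa [← List.append_assoc]⟩

open Classical in
/-- weight of the continuations -/
noncomputable def G (XX : Set (List (Step d))) (μ : Site d → ℝ≥0∞) (x : Site d)
    (s : List (Step d)) : ℝ≥0∞ :=
  ∑' t : List (Step d), (if t ≠ [] ∧ s ++ t ∈ XX then
    WordB956.aw (iidEnvironmentLaw ν) 0 (s ++ t) * μ (x - endp 0 (s ++ t)) else 0)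

/-- conditional weight -/
noncomputable def wt (XX : Set (List (Step d))) (μ : Site d → ℝ≥0∞) (x : Site d)
    (s : List (Step d)) : ℝ≥0∞ :=
  G ν XX μ x s / WordB956.aw (iidEnvironmentLaw ν) 0 s

variable {ν}

lemma G_le {XX : Set (List (Step d))} (hXX : PF XX) {μ : Site d → ℝ≥0∞} {M : ℝ≥0∞}
    (hμM : ∀ z, μ z ≤ M) (x : Site d) (s : List (Step d)) :
    G ν XX μ x s ≤ M * WordB956.aw (iidEnvironmentLaw ν) 0 s := by
  classical
  have hPF : PF {t : List (Step d) | t ≠ [] ∧ s ++ t ∈ XX} := by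
    intro l hl l' hl'
    exact hXX _ hl.2 l' (by rw [List.append_assoc]; exact hl'.2)
  calc G ν XX μ x s
      ≤ ∑' t : List (Step d), M * (if t ∈ {t : List (Step d) | t ≠ [] ∧ s ++ t ∈ XX} then
          WordB956.aw (iidEnvironmentLaw ν) 0 (s ++ t) else 0) := by
        refine ENNReal.tsum_le_tsum fun t => ?_
        by_cases h : t ≠ [] ∧ s ++ t ∈ XX
        · rw [if_pos h, if_pos (show t ∈ {t : List (Step d) | t ≠ [] ∧ s ++ t ∈ XX} from h),
            mul_comm]
          exact mul_le_mul_left (hμM _) _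
        · rw [if_neg h]; exact zero_le
    _ = M * ∑' t : List (Step d), (if t ∈ {t : List (Step d) | t ≠ [] ∧ s ++ t ∈ XX} then
          WordB956.aw (iidEnvironmentLaw ν) 0 (s ++ t) else 0) := ENNReal.tsum_mul_left
    _ ≤ _ := by
        refine mul_le_mul_right ((le_of_eq ?_).trans (pf_ext_le _ 0 s hPF)) _
        refine tsum_congr fun t => ?_
        congr 1

lemma wt_le {XX : Set (List (Step d))} (hXX : PF XX) {μ : Site d → ℝ≥0∞} {M : ℝ≥0∞}
    (hμM : ∀ z, μ z ≤ M) (x : Site d) (s : List (Step d)) : wt ν XX μ x s ≤ M :=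
  ENNReal.div_le_of_le_mul (G_le hXX hμM x s)

lemma G_eq {XX : Set (List (Step d))} (hXX : PF XX) {μ : Site d → ℝ≥0∞} {M : ℝ≥0∞}
    (hμM : ∀ z, μ z ≤ M) (x : Site d) (s : List (Step d)) :
    WordB956.aw (iidEnvironmentLaw ν) 0 s * wt ν XX μ x s = G ν XX μ x s := by
  unfold wt
  by_cases h0 : WordB956.aw (iidEnvironmentLaw ν) 0 s = 0
  · have : G ν XX μ x s = 0 := by
      have := G_le (ν := ν) hXX hμM x s
      rw [h0, mul_zero] at this
      exact le_antisymm this zero_le
    rw [h0, this]; simp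
  · rw [ENNReal.mul_div_cancel h0 (aw_ne_top _ _ _)]


/-- minimal words whose conditional weight exceeds `a` -/
def Mn (ν : Measure (Row d)) [IsProbabilityMeasure ν] (XX : Set (List (Step d)))
    (μ : Site d → ℝ≥0∞) (x : Site d) (a : ℝ≥0∞) : Set (List (Step d)) :=
  {s | a < wt ν XX μ x s ∧ ∀ l1 l2, s = l1 ++ l2 → l2 ≠ [] → ¬ a < wt ν XX μ x l1}

lemma pf_Mn (XX : Set (List (Step d))) (μ : Site d → ℝ≥0∞) (x : Site d) (a : ℝ≥0∞) :
    PF (Mn ν XX μ x a) := by
  intro l hl l' hl'
  by_contra h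
  exact hl'.2 l l' rfl h hl.1

open Classical in
/-- weight of the landing -/
noncomputable def mm (ν : Measure (Row d)) [IsProbabilityMeasure ν] (XX : Set (List (Step d)))
    (μ : Site d → ℝ≥0∞) (x : Site d) : ℝ≥0∞ :=
  ∑' l : List (Step d), (if l ∈ XX then
    WordB956.aw (iidEnvironmentLaw ν) 0 l * μ (x - endp 0 l) else 0)

open Classical in
/-- Ville -/
lemma ville {XX : Set (List (Step d))} (hXX : PF XX) {μ : Site d → ℝ≥0∞} {M : ℝ≥0∞}
    (hμM : ∀ z, μ z ≤ M) (x : Site d) (a : ℝ≥0∞) :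
    a * ∑' s : List (Step d), (if s ∈ Mn ν XX μ x a then
      WordB956.aw (iidEnvironmentLaw ν) 0 s else 0) ≤ mm ν XX μ x := by
  rw [← ENNReal.tsum_mul_left]
  calc ∑' s : List (Step d), a * (if s ∈ Mn ν XX μ x a then
        WordB956.aw (iidEnvironmentLaw ν) 0 s else 0)
      ≤ ∑' s : List (Step d), (if s ∈ Mn ν XX μ x a then ∑' t : List (Step d),
          (fun l : List (Step d) => if l ∈ XX then
            WordB956.aw (iidEnvironmentLaw ν) 0 l * μ (x - endp 0 l) else 0) (s ++ t) else 0) := by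
        refine ENNReal.tsum_le_tsum fun s => ?_
        by_cases hs : s ∈ Mn ν XX μ x a
        · rw [if_pos hs, if_pos hs]
          calc a * WordB956.aw (iidEnvironmentLaw ν) 0 s
              ≤ wt ν XX μ x s * WordB956.aw (iidEnvironmentLaw ν) 0 s :=
                mul_le_mul_left hs.1.le _
            _ = G ν XX μ x s := by rw [mul_comm, G_eq hXX hμM]
            _ ≤ _ := by
                unfold G
                refine ENNReal.tsum_le_tsum fun t => ?_
                by_cases h : t ≠ [] ∧ s ++ t ∈ XX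
                · rw [if_pos h]; simp only; rw [if_pos h.2]
                · rw [if_neg h]; exact zero_le
        · rw [if_neg hs, if_neg hs, mul_zero]
    _ ≤ _ := split_le_tsum _ (pf_Mn XX μ x a)

lemma sum_mm {XX : Set (List (Step d))} (hXX : PF XX) {μ : Site d → ℝ≥0∞}
    (hμ1 : ∑' z, μ z ≤ 1) : ∑' x : Site d, mm ν XX μ x ≤ 1 := by
  classical
  unfold mm
  rw [ENNReal.tsum_comm]
  calc ∑' l : List (Step d), ∑' x : Site d, (if l ∈ XX then
        WordB956.aw (iidEnvironmentLaw ν) 0 l * μ (x - endp 0 l) else 0)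
      ≤ ∑' l : List (Step d), (if l ∈ XX then WordB956.aw (iidEnvironmentLaw ν) 0 l else 0) := by
        refine ENNReal.tsum_le_tsum fun l => ?_
        by_cases h : l ∈ XX
        · simp only [h, if_true]
          rw [ENNReal.tsum_mul_left]
          have : ∑' x : Site d, μ (x - endp 0 l) = ∑' x : Site d, μ x :=
            (Equiv.subRight (endp 0 l)).tsum_eq μ
          rw [this]
          calc _ ≤ WordB956.aw (iidEnvironmentLaw ν) 0 l * 1 := mul_le_mul_right hμ1 _
            _ = _ := mul_one _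
        · simp [h]
    _ ≤ 1 := pf_aw_le _ 0 hXX

/-- **the event of (3)**: `Y`-word `ρ` from `x`, `X`-word `π` from `0`; `π` visits the sites of `ρ`
(strictly before its end) and its first visit is in `Dp`. -/
def Ev (YY : Site d → Set (List (Step d))) (XX : Set (List (Step d))) (Dp : Set (Site d))
    (x : Site d) (ρ π : List (Step d)) : Prop :=
  ρ ∈ YY x ∧ π ∈ XX ∧ ∃ s t, π = s ++ t ∧ t ≠ [] ∧ s ∈ FH {y | y ∈ sitesL x ρ} 0 ∧ endp 0 s ∈ Dp

open Classical in
/-- quenched landing weight of the continuations `DD x v` -/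
noncomputable def ee (DD : Site d → Site d → Set (List (Step d))) (x v : Site d)
    (ω : Environment d) : ℝ≥0∞ :=
  ∑' l : List (Step d), (if l ∈ DD x v then lw ω v l else 0)

lemma measurable_ee (DD : Site d → Site d → Set (List (Step d))) (x v : Site d) :
    Measurable (ee DD x v) := by
  classical
  unfold ee
  refine Measurable.tsum fun l => ?_
  by_cases h : l ∈ DD x v
  · simp only [h, if_true]; exact measurable_lw v l
  · simp only [h, if_false]; exact measurable_const

/-- deep sites with a large landing weight -/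
def Dg (DD : Site d → Site d → Set (List (Step d))) (Dp : Set (Site d)) (x : Site d) (lam : ℝ≥0∞)
    (ω : Environment d) : Set (Site d) := {v | v ∈ Dp ∧ lam < ee DD x v ω}

lemma meas_FH (DD : Site d → Site d → Set (List (Step d))) (Dp : Set (Site d)) (x : Site d)
    (lam : ℝ≥0∞) (s : List (Step d)) :
    MeasurableSet {ω : Environment d | s ∈ FH (Dg DD Dp x lam ω) 0} := by
  have h1 : ∀ v : Site d, MeasurableSet {ω : Environment d | v ∈ Dg DD Dp x lam ω} := by
    intro v
    by_cases hv : v ∈ Dp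
    · have : {ω : Environment d | v ∈ Dg DD Dp x lam ω} = {ω | lam < ee DD x v ω} := by
        ext ω; simp [Dg, hv]
      rw [this]
      exact measurableSet_lt measurable_const (measurable_ee DD x v)
    · have : {ω : Environment d | v ∈ Dg DD Dp x lam ω} = ∅ := by
        ext ω; simp [Dg, hv]
      rw [this]; exact MeasurableSet.empty
  have h2 : {ω : Environment d | s ∈ FH (Dg DD Dp x lam ω) 0}
      = {ω | endp 0 s ∈ Dg DD Dp x lam ω} ∩ ⋂ l1 : List (Step d), ⋂ l2 : List (Step d),
        ⋂ (_ : s = l1 ++ l2), ⋂ (_ : l2 ≠ []), {ω | endp 0 l1 ∈ Dg DD Dp x lam ω}ᶜ := by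
    ext ω
    simp only [FH, Set.mem_ofPred_eq, Set.mem_inter_iff, Set.mem_iInter, Set.mem_compl_iff]
  rw [h2]
  refine (h1 _).inter ?_
  exact MeasurableSet.iInter fun l1 => MeasurableSet.iInter fun l2 => MeasurableSet.iInter fun _ =>
    MeasurableSet.iInter fun _ => (h1 _).compl


/-- first hit relation -/
def rel (YY : Site d → Set (List (Step d))) (XX : Set (List (Step d))) (Dp : Set (Site d))
    (x : Site d) (r s : List (Step d)) : Prop :=
  r ∈ YY x ∧ s ∈ FH {y | y ∈ sitesL x r} 0 ∧ endp 0 s ∈ Dp ∧ s ∈ Pre XX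

open Classical in
/-- quenched sum at `x` -/
noncomputable def cont (ν : Measure (Row d)) [IsProbabilityMeasure ν]
    (YY : Site d → Set (List (Step d))) (XX : Set (List (Step d))) (Dp : Set (Site d))
    (μ : Site d → ℝ≥0∞) (x : Site d) (ω : Environment d) : ℝ≥0∞ :=
  ∑' r : List (Step d), ∑' s : List (Step d), (if rel YY XX Dp x r s then
    (if r ∈ YY x then lw ω x r else 0) * lw ω 0 s * wt ν XX μ x s else 0)

open Classical in
lemma ev_le {YY : Site d → Set (List (Step d))} {XX : Set (List (Step d))} (hXX : PF XX)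
    {Dp : Set (Site d)} {μ : Site d → ℝ≥0∞} {M : ℝ≥0∞} (hμM : ∀ z, μ z ≤ M) (x : Site d) :
    ∑' r : List (Step d), ∑' π : List (Step d), (if Ev YY XX Dp x r π then
      WordB956.aw (iidEnvironmentLaw ν) x r * WordB956.aw (iidEnvironmentLaw ν) 0 π
        * μ (x - endp 0 π) else 0)
      ≤ ∫⁻ ω, cont ν YY XX Dp μ x ω ∂(iidEnvironmentLaw ν) := by
  have hmeas : ∀ r s : List (Step d), Measurable fun ω : Environment d =>
      (if rel YY XX Dp x r s then
        (if r ∈ YY x then lw ω x r else 0) * lw ω 0 s * wt ν XX μ x s else 0) := by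
    intro r s
    by_cases h : rel YY XX Dp x r s
    · simp only [h, if_true, h.1]
      exact ((measurable_lw x r).mul (measurable_lw 0 s)).mul_const _
    · simp only [h, if_false]; exact measurable_const
  unfold cont
  rw [lintegral_tsum (fun r => (Measurable.tsum fun s => hmeas r s).aemeasurable)]
  refine ENNReal.tsum_le_tsum fun r => ?_
  rw [lintegral_tsum (fun s => (hmeas r s).aemeasurable)]
  refine (tsum_le_split (fun π => WordB956.aw (iidEnvironmentLaw ν) x r *
    WordB956.aw (iidEnvironmentLaw ν) 0 π * μ (x - endp 0 π)) {π | Ev YY XX Dp x r π}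
    (fun s t => rel YY XX Dp x r s ∧ (t ≠ [] ∧ s ++ t ∈ XX)) ?_).trans ?_
  · rintro π ⟨h1, h2, s, t, h3, h4, h5, h6⟩
    exact ⟨s, t, h3, ⟨h1, h5, h6, ⟨t, h4, h3 ▸ h2⟩⟩, h4, h3 ▸ h2⟩
  refine ENNReal.tsum_le_tsum fun s => ?_
  by_cases h : rel YY XX Dp x r s
  · simp only [h, true_and, if_true, h.1]
    calc ∑' t : List (Step d), (if t ≠ [] ∧ s ++ t ∈ XX then
          WordB956.aw (iidEnvironmentLaw ν) x r * WordB956.aw (iidEnvironmentLaw ν) 0 (s ++ t)
            * μ (x - endp 0 (s ++ t)) else 0)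
        = WordB956.aw (iidEnvironmentLaw ν) x r * G ν XX μ x s := by
          unfold G
          rw [← ENNReal.tsum_mul_left]
          refine tsum_congr fun t => ?_
          by_cases ht : t ≠ [] ∧ s ++ t ∈ XX
          · rw [if_pos ht, if_pos ht, mul_assoc]
          · rw [if_neg ht, if_neg ht, mul_zero]
      _ = (WordB956.aw (iidEnvironmentLaw ν) x r * WordB956.aw (iidEnvironmentLaw ν) 0 s)
            * wt ν XX μ x s := by rw [← G_eq hXX hμM, mul_assoc]
      _ = (∫⁻ ω, lw ω x r * lw ω 0 s ∂(iidEnvironmentLaw ν)) * wt ν XX μ x s := by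
          rw [aw_mul ν x 0 r s (fun z hz hz' => sites_FH h.2.1 z hz' hz)]
      _ = ∫⁻ ω, lw ω x r * lw ω 0 s * wt ν XX μ x s ∂(iidEnvironmentLaw ν) :=
          (lintegral_mul_const _ ((measurable_lw x r).mul (measurable_lw 0 s))).symm
      _ ≤ _ := le_rfl
  · simp [h]

open Classical in
/-- **window inequality (3) in words.**  `Y`-words `YY x` (prefix-free, from `x`) are explored,
`X`-words `XX` (prefix-free, from `0`) are free; the weight is `μ (x - landing of X)`, `μ ≤ M`. -/
theorem win3 {YY : Site d → Set (List (Step d))} {XX : Set (List (Step d))} {Dp : Set (Site d)}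
    {DD : Site d → Site d → Set (List (Step d))} {μ : Site d → ℝ≥0∞} {M lam B : ℝ≥0∞}
    (hYY : ∀ x, PF (YY x)) (hXX : PF XX)
    (hYD : ∀ x l1 l2, l1 ++ l2 ∈ YY x → l2 ≠ [] → l2 ∈ DD x (endp x l1))
    (hM : M ≠ ⊤) (hμM : ∀ z, μ z ≤ M) (hμ1 : ∑' z, μ z ≤ 1) (hl0 : lam ≠ 0) (hl : lam ≠ ⊤)
    (hB : ∑' x : Site d, ∑' τ : List (Step d), (if (∃ s δ, τ = s ++ δ ∧ s ∈ Pre XX ∧
      endp 0 s ∈ Dp ∧ δ ∈ DD x (endp 0 s)) then WordB956.aw (iidEnvironmentLaw ν) 0 τ else 0) ≤ B) :
    ∑' x : Site d, ∑' ρ : List (Step d), ∑' π : List (Step d), (if Ev YY XX Dp x ρ π then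
      WordB956.aw (iidEnvironmentLaw ν) x ρ * WordB956.aw (iidEnvironmentLaw ν) 0 π
        * μ (x - endp 0 π) else 0) ≤ 8 * lam + 2 * (M * B / lam) := by
  refine (ENNReal.tsum_le_tsum fun x => ev_le hXX hμM x).trans ?_
  have key := Dyad431.dyad_sum (ι := Site d) (iidEnvironmentLaw ν) M lam B 1 hl0 hl
    (cont ν YY XX Dp μ)
    (fun x j ω => ∑' s : List (Step d), (if s ∈ Mn ν XX μ x (M * (4⁻¹ : ℝ≥0∞) ^ (j + 1)) then
      lw ω 0 s else 0))
    (fun x j ω => ∑' s : List (Step d), (if s ∈ FH (Dg DD Dp x (lam * (2⁻¹ : ℝ≥0∞) ^ j) ω) 0 ∧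
      s ∈ Pre XX then lw ω 0 s else 0))
    (mm ν XX μ) ?_ ?_ ?_ ?_ ?_ (sum_mm hXX hμ1)
  · rw [mul_one] at key
    exact key
  · -- measurability of A
    intro x j
    refine Measurable.tsum fun s => ?_
    by_cases h : s ∈ Mn ν XX μ x (M * (4⁻¹ : ℝ≥0∞) ^ (j + 1))
    · simp only [h, if_true]; exact measurable_lw 0 s
    · simp only [h, if_false]; exact measurable_const
  · -- measurability of H
    intro x j
    refine Measurable.tsum fun s => ?_
    by_cases h : s ∈ Pre XX
    · simp only [h, and_true]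
      exact Measurable.ite (meas_FH DD Dp x _ s) (measurable_lw 0 s) measurable_const
    · simp only [h, and_false, if_false]; exact measurable_const
  · -- pathwise split
    intro x ω
    unfold cont
    refine Dyad431.split_words M lam hM (fun s => lw ω 0 s)
      (fun r => if r ∈ YY x then lw ω x r else 0) (rel YY XX Dp x) (fun s => wt ν XX μ x s)
      (fun s => ee DD x (endp 0 s) ω)
      (fun j r => r ∈ YY x ∧ ∃ l1 l2, r = l1 ++ l2 ∧ l2 ≠ [] ∧
        ee DD x (endp x l1) ω ≤ lam * (2⁻¹ : ℝ≥0∞) ^ j)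
      _ _ (fun s => wt_le hXX hμM x s) ?_ ?_ ?_ ?_ ?_
    · rintro r s j ⟨h1, h2, h3, h4⟩ hle
      refine ⟨h1, ?_⟩
      obtain ⟨l1, e, l2, h5, h6⟩ := mem_sitesL.1 (show endp 0 s ∈ sitesL x r from h2.1)
      exact ⟨l1, e :: l2, h5, by simp, by rw [h6]; exact hle⟩
    · exact pf_sum_le ω x (hYY x)
    · intro j
      have hv := vis_le ω x {r | r ∈ YY x ∧ ∃ l1 l2, r = l1 ++ l2 ∧ l2 ≠ [] ∧
        ee DD x (endp x l1) ω ≤ lam * (2⁻¹ : ℝ≥0∞) ^ j}
        {v | ee DD x v ω ≤ lam * (2⁻¹ : ℝ≥0∞) ^ j} (lam * (2⁻¹ : ℝ≥0∞) ^ j) ?_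
      · refine le_trans (ENNReal.tsum_le_tsum fun r => ?_) hv
        by_cases hr : r ∈ YY x ∧ ∃ l1 l2, r = l1 ++ l2 ∧ l2 ≠ [] ∧
          ee DD x (endp x l1) ω ≤ lam * (2⁻¹ : ℝ≥0∞) ^ j
        · rw [if_pos hr, if_pos hr.1]
          rw [if_pos]
          refine ⟨hr, ?_⟩
          obtain ⟨l1, l2, h1, _, h3⟩ := hr.2
          exact ⟨l1, l2, h1, h3⟩
        · rw [if_neg hr]; exact zero_le
      · intro l1 hl1
        refine le_trans ?_ (show ee DD x (endp x l1) ω ≤ lam * (2⁻¹ : ℝ≥0∞) ^ j from hl1.1)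
        change _ ≤ ∑' l : List (Step d), (if l ∈ DD x (endp x l1) then lw ω (endp x l1) l else 0)
        refine ENNReal.tsum_le_tsum fun l2 => ?_
        by_cases h : l1 ++ l2 ∈ {r | r ∈ YY x ∧ ∃ l1 l2, r = l1 ++ l2 ∧ l2 ≠ [] ∧
          ee DD x (endp x l1) ω ≤ lam * (2⁻¹ : ℝ≥0∞) ^ j}
        · rw [if_pos h]
          have hne : l2 ≠ [] := by
            rintro rfl
            obtain ⟨_, a, b, hab, hb, hle⟩ := h
            rw [List.append_nil] at hab
            exact hl1.2 a b hab hb hle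
          rw [if_pos (hYD x l1 l2 h.1 hne)]
        · rw [if_neg h]; exact zero_le
    · intro r j
      refine le_trans (le_of_eq ?_) (ext_le ω 0 {s | rel YY XX Dp x r s ∧
        M * (4⁻¹ : ℝ≥0∞) ^ (j + 1) < wt ν XX μ x s} (Mn ν XX μ x (M * (4⁻¹ : ℝ≥0∞) ^ (j + 1))) ?_ ?_)
      · refine tsum_congr fun s => ?_
        congr 1
      · exact (pf_FH _ _).mono fun s hs => hs.1.2.1
      · intro s hs
        exact exists_min (fun l => M * (4⁻¹ : ℝ≥0∞) ^ (j + 1) < wt ν XX μ x l) s hs.2
    · intro r j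
      refine le_trans (le_of_eq ?_) (ext_le ω 0 {s | rel YY XX Dp x r s ∧
        lam * (2⁻¹ : ℝ≥0∞) ^ j < ee DD x (endp 0 s) ω}
        {s | s ∈ FH (Dg DD Dp x (lam * (2⁻¹ : ℝ≥0∞) ^ j) ω) 0 ∧ s ∈ Pre XX} ?_ ?_ |>.trans
          (le_of_eq ?_))
      · refine tsum_congr fun s => ?_
        congr 1
      · exact (pf_FH _ _).mono fun s hs => hs.1.2.1
      · rintro s ⟨⟨_, _, h3, h4⟩, h5⟩
        obtain ⟨l1, l2, h6, h7⟩ := exists_FH (D := Dg DD Dp x (lam * (2⁻¹ : ℝ≥0∞) ^ j) ω) (x := 0)
          (l := s) ⟨s, [], by simp, h3, h5⟩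
        exact ⟨l1, l2, h6, h7, Pre.of_prefix (h6 ▸ h4)⟩
      · refine tsum_congr fun s => ?_
        congr 1
  · -- Ville
    intro x j
    refine le_trans (le_of_eq ?_) (ville hXX hμM x (M * (4⁻¹ : ℝ≥0∞) ^ (j + 1)))
    congr 1
    rw [lintegral_tsum]
    · refine tsum_congr fun s => ?_
      by_cases h : s ∈ Mn ν XX μ x (M * (4⁻¹ : ℝ≥0∞) ^ (j + 1))
      · simp only [h, if_true]; rfl
      · simp [h]
    · intro s
      by_cases h : s ∈ Mn ν XX μ x (M * (4⁻¹ : ℝ≥0∞) ^ (j + 1))
      · simp only [h, if_true]; exact (measurable_lw 0 s).aemeasurable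
      · simp only [h, if_false]; exact measurable_const.aemeasurable
  · -- turning
    intro j
    rw [mul_one]
    refine le_trans ?_ hB
    rw [← ENNReal.tsum_mul_left]
    refine ENNReal.tsum_le_tsum fun x => ?_
    have hτ : ∀ τ : List (Step d), Measurable fun ω : Environment d =>
        (if (∃ s δ, τ = s ++ δ ∧ s ∈ Pre XX ∧ endp 0 s ∈ Dp ∧ δ ∈ DD x (endp 0 s)) then
          lw ω 0 τ else 0) := by
      intro τ
      by_cases h : ∃ s δ, τ = s ++ δ ∧ s ∈ Pre XX ∧ endp 0 s ∈ Dp ∧ δ ∈ DD x (endp 0 s)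
      · simp only [h, if_true]; exact measurable_lw 0 τ
      · simp only [h, if_false]; exact measurable_const
    have hr : ∑' τ : List (Step d), (if (∃ s δ, τ = s ++ δ ∧ s ∈ Pre XX ∧
      endp 0 s ∈ Dp ∧ δ ∈ DD x (endp 0 s)) then WordB956.aw (iidEnvironmentLaw ν) 0 τ else 0)
        = ∫⁻ ω, ∑' τ : List (Step d), (if (∃ s δ, τ = s ++ δ ∧ s ∈ Pre XX ∧
      endp 0 s ∈ Dp ∧ δ ∈ DD x (endp 0 s)) then lw ω 0 τ else 0) ∂(iidEnvironmentLaw ν) := by
      rw [lintegral_tsum fun τ => (hτ τ).aemeasurable]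
      refine tsum_congr fun τ => ?_
      by_cases h : ∃ s δ, τ = s ++ δ ∧ s ∈ Pre XX ∧ endp 0 s ∈ Dp ∧ δ ∈ DD x (endp 0 s)
      · simp only [h, if_true]; rfl
      · simp [h]
    rw [hr, ← lintegral_const_mul' _ _ (ENNReal.mul_ne_top hl (ENNReal.pow_ne_top (by simp)))]
    refine lintegral_mono fun ω => ?_
    simp only
    rw [← ENNReal.tsum_mul_left]
    have hT : PF {s | s ∈ FH (Dg DD Dp x (lam * (2⁻¹ : ℝ≥0∞) ^ j) ω) 0 ∧ s ∈ Pre XX} :=
      (pf_FH _ _).mono fun s hs => hs.1
    refine le_trans ?_ (split_le_tsum (fun τ => if (∃ s δ, τ = s ++ δ ∧ s ∈ Pre XX ∧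
      endp 0 s ∈ Dp ∧ δ ∈ DD x (endp 0 s)) then lw ω 0 τ else 0) hT)
    refine ENNReal.tsum_le_tsum fun s => ?_
    by_cases h : s ∈ FH (Dg DD Dp x (lam * (2⁻¹ : ℝ≥0∞) ^ j) ω) 0 ∧ s ∈ Pre XX
    · rw [if_pos h, if_pos (show s ∈ {s | s ∈ FH (Dg DD Dp x (lam * (2⁻¹ : ℝ≥0∞) ^ j) ω) 0 ∧
        s ∈ Pre XX} from h)]
      calc lam * (2⁻¹ : ℝ≥0∞) ^ j * lw ω 0 s
          ≤ ee DD x (endp 0 s) ω * lw ω 0 s := mul_le_mul_left h.1.1.2.le _
        _ = ∑' δ : List (Step d), (if δ ∈ DD x (endp 0 s) then lw ω 0 (s ++ δ) else 0) := by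
            unfold ee
            rw [mul_comm, ← ENNReal.tsum_mul_left]
            refine tsum_congr fun δ => ?_
            rw [lw_append, mul_ite, mul_zero]
        _ ≤ _ := by
            refine ENNReal.tsum_le_tsum fun δ => ?_
            by_cases hδ : δ ∈ DD x (endp 0 s)
            · rw [if_pos hδ, if_pos ⟨s, δ, rfl, h.2, h.1.1.1, hδ⟩]
            · rw [if_neg hδ]; exact zero_le
    · rw [if_neg h, mul_zero]; exact zero_le

end Win

end Crest.Agent.R154.Win934
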