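import Crest.Agent.R154.W23_935

/-! Row 154, ROAD 801 (helper935): window lemma, Y local (classes of the conditional tie weight). -/

set_option autoImplicit false

namespace Crest.Agent.R154.W23

open MeasureTheory ProbabilityTheory Crest.ProbabilityR.RandomEnvironment Crest.Agent.R154
open Crest.Agent.R154.Flux132 (lev opp)
open Crest.Agent.R154.Flux566 (lw endp sitesL)
open Crest.Agent.R154.NB28
open scoped ENNReal

variable {d : ℕ}

/-- levels `0 ≤ . < h` -/
def Reg (u : Step d) (h : ℕ) : Set (Site d) := {p | 0 ≤ lev u p ∧ lev u p < h}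

/-- up crossings -/
def XX (u : Step d) (h : ℕ) : Set (List (Step d)) := {l | IsUp u h l}

/-- local down crossings -/
def YY (u : Step d) (h : ℕ) (E : Finset (Site d)) : Set (List (Step d)) :=
  {l | IsDn u h l ∧ endp 0 l ∈ E}

lemma pf_XX (u : Step d) (h : ℕ) : PF (XX u h) := by
  intro l hl l' hl'
  have := isUp_prefix hl hl' (List.prefix_append l l')
  simpa using this

lemma pf_YY (u : Step d) (h : ℕ) (E : Finset (Site d)) : PF (YY u h E) := by
  intro l hl l' hl'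
  have := isDn_prefix hl.1 hl'.1 (List.prefix_append l l')
  simpa using this

/-- completions of the Y word from `v` -/
def TY (u : Step d) (h : ℕ) (E : Finset (Site d)) (y v : Site d) : Set (List (Step d)) :=
  {l | (∀ p ∈ sitesL v l, p ∈ Reg u h) ∧ lev u (endp v l) = -1 ∧ endp v l - y ∈ E}

/-- words which turn -/
def RY (u : Step d) (h s : ℕ) (E : Finset (Site d)) (y : Site d) : Set (List (Step d)) :=
  {l | (∀ p ∈ sitesL 0 l, 0 ≤ lev u p) ∧ lev u (endp 0 l) = -1 ∧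
    (∃ p ∈ sitesL 0 l, (s : ℤ) ≤ lev u p) ∧ endp 0 l - y ∈ E}

open Classical in
/-- annealed weight of the words which go above `s` and come back below `0` -/
noncomputable def usY (ν : Measure (Row d)) [IsProbabilityMeasure ν] (u : Step d) (s : ℕ) : ℝ≥0∞ :=
  ∑' l : List (Step d), (if (∀ p ∈ sitesL 0 l, 0 ≤ lev u p) ∧ lev u (endp 0 l) = -1 ∧
    (∃ p ∈ sitesL 0 l, (s : ℤ) ≤ lev u p) then aw ν l else 0)

/-- first contacts of the runner with `γ` from `y` -/
def GY (u : Step d) (h s : ℕ) (y : Site d) (γ : List (Step d)) : Set (List (Step d)) :=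
  {l | l ∈ WordB956.FH {p | p ∈ sitesL y γ} 0 ∧ (∀ p ∈ sitesL 0 l, p ∈ Reg u h) ∧
    endp 0 l ∈ Reg u h ∧ (s : ℤ) ≤ lev u (endp 0 l)}

lemma pf_GY (u : Step d) (h s : ℕ) (y : Site d) (γ : List (Step d)) : PF (GY u h s y γ) :=
  (WordB956.pf_FH _ 0).mono fun _ hl => hl.1

open Classical in
/-- conditional weight of the tie -/
noncomputable def RR (ν : Measure (Row d)) [IsProbabilityMeasure ν] (u : Step d) (h : ℕ)
    (m : List (Step d) → ℝ≥0∞) (l : List (Step d)) : ℝ≥0∞ :=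
  ∑' l2 : List (Step d), (if l ++ l2 ∈ XX u h then aw ν (l ++ l2) * m (l ++ l2) else 0)

open Classical in
lemma pf_ext_aw (ν : Measure (Row d)) [IsProbabilityMeasure ν] {S : Set (List (Step d))}
    (hS : PF S) (l : List (Step d)) :
    ∑' l2 : List (Step d), (if l ++ l2 ∈ S then aw ν (l ++ l2) else 0) ≤ aw ν l :=
  WordB956.pf_ext_le (iidEnvironmentLaw ν) 0 l (pf_ext hS l)

lemma aw_le_one (ν : Measure (Row d)) [IsProbabilityMeasure ν] (l : List (Step d)) :
    aw ν l ≤ 1 := by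
  classical
  have hPF : PF ({l} : Set (List (Step d))) := by
    intro a ha b hb
    rw [Set.mem_singleton_iff] at ha hb
    rw [ha] at hb
    simpa using hb
  have h := WordB956.pf_aw_le (iidEnvironmentLaw ν) 0 hPF
  refine le_trans ?_ h
  refine le_trans ?_ (ENNReal.le_tsum l)
  simp only [Set.mem_singleton_iff, if_true]
  exact le_rfl

lemma RR_le (ν : Measure (Row d)) [IsProbabilityMeasure ν] (u : Step d) (h : ℕ)
    (m : List (Step d) → ℝ≥0∞) (M : ℝ≥0∞) (hm : ∀ l, m l ≤ M) (l : List (Step d)) :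
    RR ν u h m l ≤ M * aw ν l := by
  classical
  refine le_trans ?_ (mul_le_mul_right (pf_ext_aw ν (pf_XX u h) l) M)
  unfold RR
  rw [← ENNReal.tsum_mul_left]
  refine ENNReal.tsum_le_tsum fun l2 => ?_
  split_ifs
  · rw [mul_comm]; exact mul_le_mul_left (hm _) _
  · simp

/-- the class `j` -/
def Cl (ν : Measure (Row d)) [IsProbabilityMeasure ν] (u : Step d) (h : ℕ)
    (m : List (Step d) → ℝ≥0∞) (M : ℝ≥0∞) (j : ℕ) : Set (List (Step d)) :=
  {l | (2⁻¹ : ℝ≥0∞) ^ (j + 1) * M * aw ν l < RR ν u h m l ∧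
    RR ν u h m l ≤ (2⁻¹ : ℝ≥0∞) ^ j * M * aw ν l}

lemma exists_class (x r : ℝ≥0∞) (hx : x ≠ ⊤) (hr : r ≠ 0) (hrx : r ≤ x) :
    ∃ j : ℕ, (2⁻¹ : ℝ≥0∞) ^ (j + 1) * x < r ∧ r ≤ (2⁻¹ : ℝ≥0∞) ^ j * x := by
  classical
  have h : ∃ j : ℕ, (2⁻¹ : ℝ≥0∞) ^ (j + 1) * x < r := by
    have h1 : Filter.Tendsto (fun j : ℕ => (2⁻¹ : ℝ≥0∞) ^ (j + 1) * x) Filter.atTop (nhds 0) := by
      have h2 : Filter.Tendsto (fun j : ℕ => (2⁻¹ : ℝ≥0∞) ^ (j + 1)) Filter.atTop (nhds 0) :=
        (ENNReal.tendsto_pow_atTop_nhds_zero_of_lt_one (by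
          rw [ENNReal.inv_lt_one]; exact ENNReal.one_lt_two)).comp
          (Filter.tendsto_add_atTop_nat 1)
      have h3 := ENNReal.Tendsto.mul_const (b := x) h2 (Or.inr hx)
      simpa using h3
    exact ((h1.eventually_lt_const (pos_iff_ne_zero.2 hr)).exists)
  refine ⟨Nat.find h, Nat.find_spec h, ?_⟩
  rcases Nat.eq_zero_or_pos (Nat.find h) with h0 | h0
  · rw [h0, pow_zero, one_mul]; exact hrx
  · have := Nat.find_min h (m := Nat.find h - 1) (by omega)
    rw [not_lt, Nat.sub_add_cancel h0] at this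
    exact this

open Classical in
lemma RR_class (ν : Measure (Row d)) [IsProbabilityMeasure ν] (u : Step d) (h : ℕ)
    (m : List (Step d) → ℝ≥0∞) (M : ℝ≥0∞) (hM : M ≠ ⊤) (hm : ∀ l, m l ≤ M)
    (l : List (Step d)) :
    RR ν u h m l ≤ ∑' j : ℕ, (if l ∈ Cl ν u h m M j then (2⁻¹ : ℝ≥0∞) ^ j * M * aw ν l else 0) := by
  by_cases h0 : RR ν u h m l = 0
  · rw [h0]; exact zero_le
  · obtain ⟨j, h1, h2⟩ := exists_class (M * aw ν l) (RR ν u h m l)
      (ENNReal.mul_ne_top hM ((aw_le_one ν l).trans_lt ENNReal.one_lt_top).ne) h0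
      (RR_le ν u h m M hm l)
    refine le_trans ?_ (ENNReal.le_tsum j)
    have hc : l ∈ Cl ν u h m M j := ⟨by rw [mul_assoc]; exact h1, by rw [mul_assoc]; exact h2⟩
    rw [if_pos hc, mul_assoc]
    exact h2

/-- minimal words whose conditional weight is above the bottom of the class -/
def Pj (ν : Measure (Row d)) [IsProbabilityMeasure ν] (u : Step d) (h : ℕ)
    (m : List (Step d) → ℝ≥0∞) (M : ℝ≥0∞) (j : ℕ) : Set (List (Step d)) :=
  {l | (2⁻¹ : ℝ≥0∞) ^ (j + 1) * M * aw ν l < RR ν u h m l ∧ ∀ l1 l2, l = l1 ++ l2 → l2 ≠ [] →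
    ¬ (2⁻¹ : ℝ≥0∞) ^ (j + 1) * M * aw ν l1 < RR ν u h m l1}

lemma pf_Pj (ν : Measure (Row d)) [IsProbabilityMeasure ν] (u : Step d) (h : ℕ)
    (m : List (Step d) → ℝ≥0∞) (M : ℝ≥0∞) (j : ℕ) : PF (Pj ν u h m M j) := by
  intro l hl l' hl'
  by_contra h
  exact hl'.2 l l' rfl h hl.1

/-- minimal prefix with a property -/
lemma exists_min (P : List (Step d) → Prop) (l : List (Step d)) (hl : P l) :
    ∃ l1 l2, l = l1 ++ l2 ∧ P l1 ∧ ∀ a b, l1 = a ++ b → b ≠ [] → ¬ P a := by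
  classical
  have hex : ∃ n, P (l.take n) := ⟨l.length, by rw [List.take_length]; exact hl⟩
  refine ⟨l.take (Nat.find hex), l.drop (Nat.find hex), (List.take_append_drop _ _).symm,
    Nat.find_spec hex, fun a b hab hb hPa => ?_⟩
  have hlen : a.length < (l.take (Nat.find hex)).length := by
    rw [hab, List.length_append]
    have := List.length_pos_iff.2 hb
    omega
  have hlt : a.length < Nat.find hex := by
    rw [List.length_take] at hlen
    omega
  refine Nat.find_min hex hlt ?_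
  have : l.take a.length = a := by
    have h1 : l = a ++ (b ++ l.drop (Nat.find hex)) := by
      rw [← List.append_assoc, ← hab, List.take_append_drop]
    conv_lhs => rw [h1]
    rw [List.take_left]
  rw [this]
  exact hPa

open Classical in
/-- Doob in words -/
lemma doob (ν : Measure (Row d)) [IsProbabilityMeasure ν] (u : Step d) (h : ℕ)
    (m : List (Step d) → ℝ≥0∞) (M : ℝ≥0∞) (j : ℕ) :
    (2⁻¹ : ℝ≥0∞) ^ (j + 1) * M * ∑' l : List (Step d), (if l ∈ Pj ν u h m M j then aw ν l else 0)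
      ≤ ∑' l : List (Step d), (if l ∈ XX u h then aw ν l * m l else 0) := by
  refine le_trans ?_ (conc_le (Pj ν u h m M j) (pf_Pj ν u h m M j) (XX u h)
    (fun l => aw ν l * m l) (fun l1 => {l2 | l1 ++ l2 ∈ XX u h}) fun l1 _ l2 hl2 => hl2)
  rw [← ENNReal.tsum_mul_left]
  refine ENNReal.tsum_le_tsum fun l1 => ?_
  by_cases h1 : l1 ∈ Pj ν u h m M j
  · rw [if_pos h1, if_pos h1]
    exact h1.1.le
  · rw [if_neg h1, if_neg h1, mul_zero]

end Crest.Agent.R154.W23
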