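import Crest.Agent.R154.Win3_935

/-! Row 154, ROAD 801 (helper935): window lemma, Y local, part 2. -/

set_option autoImplicit false

namespace Crest.Agent.R154.W23

open MeasureTheory ProbabilityTheory Crest.ProbabilityR.RandomEnvironment Crest.Agent.R154
open Crest.Agent.R154.Flux132 (lev opp)
open Crest.Agent.R154.Flux566 (lw endp sitesL)
open Crest.Agent.R154.NB28
open scoped ENNReal

variable {d : ℕ}

/-- the good runner words -/
def SY (u : Step d) (h s : ℕ) (y : Site d) (γ : List (Step d)) : Set (List (Step d)) :=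
  {π | IsUp u h π ∧ (∃ p, p ∈ sitesL 0 π ∧ p ∈ sitesL y γ) ∧
    ∀ p, p ∈ sitesL 0 π → p ∈ sitesL y γ → (s : ℤ) ≤ lev u p}

lemma SY_pre (u : Step d) (h s : ℕ) (y : Site d) (γ π : List (Step d)) (hπ : π ∈ SY u h s y γ) :
    ∃ l1 ∈ GY u h s y γ, ∃ l2, π = l1 ++ l2 := by
  obtain ⟨h1, ⟨p, hp, hpγ⟩, h3⟩ := hπ
  obtain ⟨a, e, b, hab, hap⟩ := WordB956.mem_sitesL.1 hp
  obtain ⟨l1, l2, h4, h5⟩ := WordB956.exists_FH (D := {p | p ∈ sitesL y γ}) (x := 0) (l := a)
    ⟨a, [], by simp, by rw [hap]; exact hpγ⟩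
  have h6 : π = l1 ++ (l2 ++ e :: b) := by rw [hab, h4, List.append_assoc]
  have h7 : endp 0 l1 ∈ sitesL 0 π := by
    refine WordB956.mem_sitesL.2 ?_
    cases l2 with
    | nil => exact ⟨l1, e, b, by rw [h6]; rfl, rfl⟩
    | cons e' l2 => exact ⟨l1, e', l2 ++ e :: b, by rw [h6]; rfl, rfl⟩
  refine ⟨l1, ⟨h5, fun q hq => ?_, h1.1 _ h7, h3 _ h7 h5.1⟩, _, h6⟩
  refine h1.1 q ?_
  rw [h6, WordB956.sitesL_append]
  exact List.mem_append_left _ hq

open Classical in
lemma stepA (ν : Measure (Row d)) [IsProbabilityMeasure ν] (u : Step d) (h s : ℕ)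
    (m : List (Step d) → ℝ≥0∞) (y : Site d) (γ : List (Step d)) :
    ∑' π : List (Step d), (if π ∈ SY u h s y γ then aw ν π * m π else 0)
      ≤ ∑' π : List (Step d), (if π ∈ GY u h s y γ then RR ν u h m π else 0) := by
  refine ext_le _ _ (fun l hl => SY_pre u h s y γ l hl) (fun l => aw ν l * m l) _ fun l1 _ => ?_
  unfold RR
  refine ENNReal.tsum_le_tsum fun l2 => ?_
  by_cases h1 : l1 ++ l2 ∈ SY u h s y γ
  · have h2 : l1 ++ l2 ∈ XX u h := h1.1
    rw [if_pos h1, if_pos h2]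
  · rw [if_neg h1]; exact zero_le

lemma lev_add' (u : Step d) (x y : Site d) : lev u (x + y) = lev u x + lev u y := by
  unfold lev
  split_ifs <;> simp [add_comm]

lemma YY_tail (u : Step d) (h : ℕ) (E : Finset (Site d)) (y : Site d) (hy : lev u y = h - 1)
    (l1 l2 : List (Step d)) (hl : l1 ++ l2 ∈ YY u h E) : l2 ∈ TY u h E y (endp y l1) := by
  obtain ⟨⟨h1, h2⟩, h3⟩ := hl
  have e1 : endp (endp y l1) l2 = y + endp 0 (l1 ++ l2) := by
    rw [← Flux566.endp_append, Flux566.endp_eq_add]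
  refine ⟨fun p hp => ?_, ?_, ?_⟩
  · have h4 : p ∈ sitesL y (l1 ++ l2) := by
      rw [WordB956.sitesL_append]; exact List.mem_append_right _ hp
    have h5 := h1 (p - y) ((mem_sitesL_iff _ _ _).1 h4)
    have h6 : lev u p = lev u (p - y) + lev u y := by rw [← lev_add', sub_add_cancel]
    constructor
    · rw [h6]; omega
    · rw [h6]; omega
  · rw [e1, lev_add', h2, hy]; ring
  · rw [e1]; simpa using h3

lemma RY_conc (u : Step d) (h s : ℕ) (E : Finset (Site d)) (y : Site d) (l1 : List (Step d))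
    (h1 : ∀ p ∈ sitesL 0 l1, p ∈ Reg u h)
    (h2 : endp 0 l1 ∈ {v | v ∈ Reg u h ∧ (s : ℤ) ≤ lev u v}) (l2 : List (Step d))
    (hl2 : l2 ∈ TY u h E y (endp 0 l1)) : l1 ++ l2 ∈ RY u h s E y := by
  obtain ⟨h3, h4, h5⟩ := hl2
  refine ⟨fun p hp => ?_, ?_, ?_, ?_⟩
  · rw [WordB956.sitesL_append] at hp
    rcases List.mem_append.1 hp with hp | hp
    · exact (h1 p hp).1
    · exact (h3 p hp).1
  · rw [Flux566.endp_append]; exact h4
  · cases l2 with
    | nil =>
      exfalso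
      have : lev u (endp 0 l1) = -1 := h4
      have := h2.1.1
      omega
    | cons e l2 =>
      exact ⟨endp 0 l1, WordB956.mem_sitesL.2 ⟨l1, e, l2, rfl, rfl⟩, h2.2⟩
  · rw [Flux566.endp_append]; exact h5

open Classical in
lemma stepB (ω : Environment d) (ν : Measure (Row d)) [IsProbabilityMeasure ν] (u : Step d)
    (h s : ℕ) (E : Finset (Site d)) (m : List (Step d) → ℝ≥0∞) (M : ℝ≥0∞) (j : ℕ) (y : Site d)
    (hy : lev u y = h - 1) (lam : ℝ≥0∞) (hl0 : lam ≠ 0) (hl1 : lam ≠ ⊤) :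
    ∑' γ : List (Step d), (if γ ∈ YY u h E then ∑' π : List (Step d),
      (if π ∈ GY u h s y γ ∧ π ∈ Cl ν u h m M j then lw ω y γ * lw ω 0 π else 0) else 0)
      ≤ lam * ∑' π : List (Step d), (if π ∈ Pj ν u h m M j then lw ω 0 π else 0)
        + lam⁻¹ * ∑' l : List (Step d), (if l ∈ RY u h s E y then lw ω 0 l else 0) := by
  set A := ∑' π : List (Step d), (if π ∈ Pj ν u h m M j then lw ω 0 π else 0) with hA
  set B := ∑' l : List (Step d), (if l ∈ RY u h s E y then lw ω 0 l else 0) with hB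
  set T := TY u h E y with hT
  set D : Set (Site d) := {v | v ∈ Reg u h ∧ ee T ω v ≤ lam} with hD
  have key : ∀ γ : List (Step d), (if γ ∈ YY u h E then ∑' π : List (Step d),
      (if π ∈ GY u h s y γ ∧ π ∈ Cl ν u h m M j then lw ω y γ * lw ω 0 π else 0) else 0)
      ≤ (if γ ∈ YY u h E ∧ γ ∈ WordB956.Vis D y then lw ω y γ else 0) * A
        + (if γ ∈ YY u h E then lw ω y γ else 0) * (lam⁻¹ * B) := by
    intro γ
    by_cases hγ : γ ∈ YY u h E
    · simp only [hγ, if_true, true_and]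
      obtain ⟨S1, hS1⟩ : ∃ S : Set (List (Step d)), ∀ π, π ∈ S ↔
        (π ∈ GY u h s y γ ∧ π ∈ Cl ν u h m M j) ∧ ee T ω (endp 0 π) ≤ lam :=
        ⟨{π | (π ∈ GY u h s y γ ∧ π ∈ Cl ν u h m M j) ∧ ee T ω (endp 0 π) ≤ lam},
          fun π => Iff.rfl⟩
      obtain ⟨S2, hS2⟩ : ∃ S : Set (List (Step d)), ∀ π, π ∈ S ↔
        (π ∈ GY u h s y γ ∧ π ∈ Cl ν u h m M j) ∧ lam < ee T ω (endp 0 π) :=
        ⟨{π | (π ∈ GY u h s y γ ∧ π ∈ Cl ν u h m M j) ∧ lam < ee T ω (endp 0 π)},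
          fun π => Iff.rfl⟩
      have b1 : ∑' π : List (Step d), (if π ∈ S1 then lw ω 0 π else 0)
          ≤ A := by
        refine ext_lw ω 0 S1 _ ((pf_GY u h s y γ).mono fun l hl => ((hS1 l).1 hl).1.1)
          fun l hl => ?_
        obtain ⟨l1, l2, h1, h2, h3⟩ := exists_min
          (fun l => (2⁻¹ : ℝ≥0∞) ^ (j + 1) * M * aw ν l < RR ν u h m l) l
          ((hS1 l).1 hl).1.2.1
        exact ⟨l1, ⟨h2, h3⟩, l2, h1⟩
      have b2 : ∑' π : List (Step d), (if π ∈ S2 then lw ω 0 π else 0)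
          ≤ lam⁻¹ * B := by
        have h0 := hit_reg ω 0 S2 ((pf_GY u h s y γ).mono fun l hl => ((hS2 l).1 hl).1.1)
          (Reg u h) {v | v ∈ Reg u h ∧ (s : ℤ) ≤ lev u v} T (RY u h s E y) lam
          (fun l hl => ⟨((hS2 l).1 hl).1.1.2.1, ⟨((hS2 l).1 hl).1.1.2.2.1,
            ((hS2 l).1 hl).1.1.2.2.2⟩, ((hS2 l).1 hl).2⟩)
          (fun l1 h1 h2 l2 h3 => RY_conc u h s E y l1 h1 h2 l2 h3)
        calc ∑' π : List (Step d), (if π ∈ S2 then lw ω 0 π else 0)
            = lam⁻¹ * (lam * ∑' π : List (Step d), (if π ∈ S2 then lw ω 0 π else 0)) := by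
              rw [← mul_assoc, ENNReal.inv_mul_cancel hl0 hl1, one_mul]
          _ ≤ _ := mul_le_mul_right h0 _
      have b0 : ∑' π : List (Step d), (if π ∈ GY u h s y γ ∧ π ∈ Cl ν u h m M j then
            lw ω y γ * lw ω 0 π else 0)
          = lw ω y γ * ∑' π : List (Step d), (if π ∈ S1 then lw ω 0 π else 0)
            + lw ω y γ * ∑' π : List (Step d), (if π ∈ S2 then lw ω 0 π else 0) := by
        rw [← mul_add, ← ENNReal.tsum_add, ← ENNReal.tsum_mul_left]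
        refine tsum_congr fun π => ?_
        by_cases h1 : π ∈ GY u h s y γ ∧ π ∈ Cl ν u h m M j
        · rcases le_or_gt (ee T ω (endp 0 π)) lam with h2 | h2
          · have h3 : π ∈ S1 := (hS1 π).2 ⟨h1, h2⟩
            have h4 : π ∉ S2 := fun h5 => absurd ((hS2 π).1 h5).2 (not_lt.2 h2)
            rw [if_pos h1, if_pos h3, if_neg h4, add_zero]
          · have h3 : π ∈ S2 := (hS2 π).2 ⟨h1, h2⟩
            have h4 : π ∉ S1 := fun h5 => absurd ((hS1 π).1 h5).2 (not_le.2 h2)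
            rw [if_pos h1, if_pos h3, if_neg h4, zero_add]
        · have h3 : π ∉ S1 := fun h5 => h1 ((hS1 π).1 h5).1
          have h4 : π ∉ S2 := fun h5 => h1 ((hS2 π).1 h5).1
          rw [if_neg h1, if_neg h3, if_neg h4, add_zero, mul_zero]
      rw [b0]
      refine add_le_add ?_ (mul_le_mul_right b2 _)
      by_cases hv : γ ∈ WordB956.Vis D y
      · rw [if_pos hv]; exact mul_le_mul_right b1 _
      · rw [if_neg hv, zero_mul]
        have : ∑' π : List (Step d), (if π ∈ S1 then lw ω 0 π else 0) = 0 := by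
          rw [ENNReal.tsum_eq_zero]
          intro π
          refine if_neg fun hπ' => hv ?_
          have hπ := (hS1 π).1 hπ'
          have h1 : endp 0 π ∈ sitesL y γ := hπ.1.1.1.1
          obtain ⟨a, e, b, hab, hap⟩ := WordB956.mem_sitesL.1 h1
          refine ⟨a, e :: b, hab, ?_⟩
          rw [hap]
          exact ⟨hπ.1.1.2.2.1, hπ.2⟩
        rw [this, mul_zero]
    · simp [hγ]
  refine le_trans (ENNReal.tsum_le_tsum key) ?_
  rw [ENNReal.tsum_add, ENNReal.tsum_mul_right, ENNReal.tsum_mul_right]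
  refine add_le_add (mul_le_mul_left ?_ _) ?_
  · refine WordB956.vis_le ω y (YY u h E) D lam fun l1 hl1 => ?_
    refine le_trans ?_ hl1.1.2
    unfold ee
    refine ENNReal.tsum_le_tsum fun l2 => ?_
    by_cases h1 : l1 ++ l2 ∈ YY u h E
    · have h2 : l2 ∈ T (endp y l1) := YY_tail u h E y hy l1 l2 h1
      rw [if_pos h1, if_pos h2]
    · rw [if_neg h1]; exact zero_le
  · calc _ ≤ 1 * (lam⁻¹ * B) := mul_le_mul_left (WordB956.pf_sum_le ω y (pf_YY u h E)) _
      _ = _ := one_mul _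

end Crest.Agent.R154.W23
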