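import Crest.Agent.R154.Win3b_935

/-! Row 154, ROAD 801 (helper935): window lemma, Y local, part 3. -/

set_option autoImplicit false

namespace Crest.Agent.R154.W23

open MeasureTheory ProbabilityTheory Crest.ProbabilityR.RandomEnvironment Crest.Agent.R154
open Crest.Agent.R154.Flux132 (lev opp)
open Crest.Agent.R154.Flux566 (lw endp sitesL)
open Crest.Agent.R154.NB28
open scoped ENNReal

variable {d : ℕ}

open Classical in
lemma lint_sum (ν : Measure (Row d)) [IsProbabilityMeasure ν] (x : Site d)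
    (S : Set (List (Step d))) :
    ∫⁻ ω, ∑' l : List (Step d), (if l ∈ S then lw ω x l else 0) ∂(iidEnvironmentLaw ν)
      = ∑' l : List (Step d), (if l ∈ S then aw ν l else 0) := by
  rw [lintegral_tsum]
  · refine tsum_congr fun l => ?_
    by_cases h : l ∈ S
    · simp only [h, if_true]; exact aw_shift ν x l
    · simp [h]
  · intro l
    by_cases h : l ∈ S
    · simp only [h, if_true]; exact (Flux566.measurable_lw x l).aemeasurable
    · simp only [h, if_false]; exact measurable_const.aemeasurable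

open Classical in
lemma meas_sum (x : Site d) (S : Set (List (Step d))) :
    Measurable fun ω : Environment d => ∑' l : List (Step d), (if l ∈ S then lw ω x l else 0) := by
  refine Measurable.ennreal_tsum fun l => ?_
  by_cases h : l ∈ S
  · simp only [h, if_true]; exact Flux566.measurable_lw x l
  · simp only [h, if_false]; exact measurable_const

open Classical in
lemma stepC (ν : Measure (Row d)) [IsProbabilityMeasure ν] (u : Step d)
    (h s : ℕ) (E : Finset (Site d)) (m : Site d → List (Step d) → ℝ≥0∞) (M : ℝ≥0∞) (j : ℕ)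
    (lam : ℝ≥0∞) (hl0 : lam ≠ 0) (hl1 : lam ≠ ⊤) :
    ∑' y : Site d, (if lev u y = h - 1 then ∑' γ : List (Step d), (if γ ∈ YY u h E then
      ∑' π : List (Step d), (if π ∈ GY u h s y γ ∧ π ∈ Cl ν u h (m y) M j then
        aw ν γ * aw ν π else 0) else 0) else 0)
      ≤ lam * ∑' y : Site d, ∑' π : List (Step d), (if π ∈ Pj ν u h (m y) M j then aw ν π else 0)
        + lam⁻¹ * ∑' y : Site d, ∑' l : List (Step d),
          (if l ∈ RY u h s E y then aw ν l else 0) := by
  set Q := iidEnvironmentLaw ν with hQ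
  have e1 : ∀ (y : Site d) (γ π : List (Step d)), γ ∈ YY u h E → π ∈ GY u h s y γ →
      aw ν γ * aw ν π = ∫⁻ ω, lw ω y γ * lw ω 0 π ∂Q := by
    intro y γ π hγ hπ
    rw [lint_mul ν y 0 γ π]
    intro p hp hp'
    obtain ⟨a, e, b, hab, hap⟩ := WordB956.mem_sitesL.1 hp'
    refine hπ.1.2 a (e :: b) hab (by simp) ?_
    rw [hap]; exact hp
  have mz : ∀ (y : Site d) (γ π : List (Step d)), Measurable fun ω : Environment d =>
      (if π ∈ GY u h s y γ ∧ π ∈ Cl ν u h (m y) M j then lw ω y γ * lw ω 0 π else 0) := by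
    intro y γ π
    by_cases h1 : π ∈ GY u h s y γ ∧ π ∈ Cl ν u h (m y) M j
    · simp only [h1, if_true]
      exact (Flux566.measurable_lw y γ).mul (Flux566.measurable_lw 0 π)
    · simp only [h1, if_false]; exact measurable_const
  have mz2 : ∀ (y : Site d) (γ : List (Step d)), Measurable fun ω : Environment d =>
      (if γ ∈ YY u h E then ∑' π : List (Step d),
      (if π ∈ GY u h s y γ ∧ π ∈ Cl ν u h (m y) M j then lw ω y γ * lw ω 0 π else 0) else 0) := by
    intro y γ
    by_cases h1 : γ ∈ YY u h E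
    · simp only [h1, if_true]
      exact Measurable.ennreal_tsum fun π => mz y γ π
    · simp only [h1, if_false]; exact measurable_const
  have e2 : ∀ y : Site d, ∑' γ : List (Step d), (if γ ∈ YY u h E then
      ∑' π : List (Step d), (if π ∈ GY u h s y γ ∧ π ∈ Cl ν u h (m y) M j then
        aw ν γ * aw ν π else 0) else 0)
      = ∫⁻ ω, ∑' γ : List (Step d), (if γ ∈ YY u h E then ∑' π : List (Step d),
      (if π ∈ GY u h s y γ ∧ π ∈ Cl ν u h (m y) M j then lw ω y γ * lw ω 0 π else 0) else 0) ∂Q := by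
    intro y
    rw [lintegral_tsum fun γ => (mz2 y γ).aemeasurable]
    refine tsum_congr fun γ => ?_
    by_cases hγ : γ ∈ YY u h E
    · simp only [hγ, if_true]
      rw [lintegral_tsum fun π => (mz y γ π).aemeasurable]
      refine tsum_congr fun π => ?_
      by_cases h1 : π ∈ GY u h s y γ ∧ π ∈ Cl ν u h (m y) M j
      · simp only [h1, if_true]
        simp only [and_self, if_true]
        exact e1 y γ π hγ h1.1
      · simp only [h1, if_false, lintegral_zero]
    · simp [hγ]
  rw [← ENNReal.tsum_mul_left, ← ENNReal.tsum_mul_left, ← ENNReal.tsum_add]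
  refine ENNReal.tsum_le_tsum fun y => ?_
  by_cases hy : lev u y = h - 1
  · rw [if_pos hy, e2 y]
    calc _ ≤ ∫⁻ ω, (lam * ∑' π : List (Step d), (if π ∈ Pj ν u h (m y) M j then lw ω 0 π else 0)
        + lam⁻¹ * ∑' l : List (Step d), (if l ∈ RY u h s E y then lw ω 0 l else 0)) ∂Q :=
          lintegral_mono fun ω => stepB ω ν u h s E (m y) M j y hy lam hl0 hl1
      _ = _ := by
          rw [lintegral_add_left ((meas_sum 0 _).const_mul lam),
            lintegral_const_mul _ (meas_sum 0 _), lintegral_const_mul _ (meas_sum 0 _),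
            lint_sum, lint_sum]
  · rw [if_neg hy]; exact zero_le

open Classical in
lemma sum_card (E : Finset (Site d)) (z : Site d) :
    ∑' y : Site d, (if z - y ∈ E then (1 : ℝ≥0∞) else 0) = E.card := by
  have h := (Equiv.subLeft z).tsum_eq (fun x : Site d => if x ∈ E then (1 : ℝ≥0∞) else 0)
  have h2 : ∑' y : Site d, (if z - y ∈ E then (1 : ℝ≥0∞) else 0)
      = ∑' x : Site d, (if x ∈ E then (1 : ℝ≥0∞) else 0) := by
    rw [← h]; rfl
  rw [h2, tsum_eq_sum (s := E)]
  · rw [Finset.sum_congr rfl (fun x hx => if_pos hx)]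
    simp
  · intro x hx
    exact if_neg hx

open Classical in
lemma RY_sum (ν : Measure (Row d)) [IsProbabilityMeasure ν] (u : Step d)
    (h s : ℕ) (E : Finset (Site d)) :
    ∑' y : Site d, ∑' l : List (Step d), (if l ∈ RY u h s E y then aw ν l else 0)
      ≤ E.card * usY ν u s := by
  rw [ENNReal.tsum_comm]
  unfold usY
  rw [← ENNReal.tsum_mul_left]
  refine ENNReal.tsum_le_tsum fun l => ?_
  by_cases hc : (∀ p ∈ sitesL 0 l, 0 ≤ lev u p) ∧ lev u (endp 0 l) = -1 ∧
    (∃ p ∈ sitesL 0 l, (s : ℤ) ≤ lev u p)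
  · rw [if_pos hc]
    refine le_of_eq ?_
    rw [← sum_card E (endp 0 l), ← ENNReal.tsum_mul_right]
    refine tsum_congr fun y => ?_
    by_cases hy : endp 0 l - y ∈ E
    · have h1 : l ∈ RY u h s E y := ⟨hc.1, hc.2.1, hc.2.2, hy⟩
      rw [if_pos h1, if_pos hy, one_mul]
    · have h1 : l ∉ RY u h s E y := fun h2 => hy h2.2.2.2
      rw [if_neg h1, if_neg hy, zero_mul]
  · have h1 : ∀ y, l ∉ RY u h s E y := fun y h2 => hc ⟨h2.1, h2.2.1, h2.2.2.1⟩
    simp only [h1, if_false, tsum_zero]
    exact zero_le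

/-- weight of the tie seen by the runner -/
def mY (u : Step d) (μ : Site d → ℝ≥0∞) (y : Site d) (l : List (Step d)) : ℝ≥0∞ :=
  μ (y - endp 0 l + stepVec u)

open Classical in
lemma mY_sum (ν : Measure (Row d)) [IsProbabilityMeasure ν] (u : Step d) (h : ℕ)
    (μ : Site d → ℝ≥0∞) (hμ : ∑' x, μ x ≤ 1) :
    ∑' y : Site d, ∑' l : List (Step d), (if l ∈ XX u h then aw ν l * mY u μ y l else 0) ≤ 1 := by
  rw [ENNReal.tsum_comm]
  refine le_trans ?_ (WordB956.pf_aw_le (iidEnvironmentLaw ν) 0 (pf_XX u h))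
  refine ENNReal.tsum_le_tsum fun l => ?_
  by_cases hl : l ∈ XX u h
  · simp only [hl, if_true]
    rw [ENNReal.tsum_mul_left]
    have h1 : ∑' y : Site d, mY u μ y l = ∑' x, μ x := by
      rw [← (Equiv.addRight (-endp 0 l + stepVec u)).tsum_eq μ]
      refine tsum_congr fun y => ?_
      unfold mY
      simp only [Equiv.coe_addRight]
      congr 1
      abel
    rw [h1]
    calc aw ν l * ∑' x, μ x ≤ aw ν l * 1 := mul_le_mul_right hμ _
      _ = aw ν l := mul_one _
      _ ≤ _ := le_rfl
  · simp [hl]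

end Crest.Agent.R154.W23
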