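import Crest.Agent.R154.Win3c_935

/-! Row 154, ROAD 801 (helper935): window lemma, Y local, on `IsUp h × IsDn h` (28's letters). -/

set_option autoImplicit false

namespace Crest.Agent.R154.W23

open MeasureTheory ProbabilityTheory Crest.ProbabilityR.RandomEnvironment Crest.Agent.R154
open Crest.Agent.R154.Flux132 (lev opp)
open Crest.Agent.R154.Flux566 (lw endp sitesL)
open Crest.Agent.R154.NB28
open scoped ENNReal

variable {d : ℕ}

open Classical in
/-- sum over the classes -/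
lemma stepD (ν : Measure (Row d)) [IsProbabilityMeasure ν] (u : Step d)
    (h s : ℕ) (E : Finset (Site d)) (μ : Site d → ℝ≥0∞) (M : ℝ≥0∞) (hμ : ∑' x, μ x ≤ 1)
    (hM : ∀ x, μ x ≤ M) (hMt : M ≠ ⊤)
    (lam : ℕ → ℝ≥0∞) (hl0 : ∀ j, lam j ≠ 0) (hl1 : ∀ j, lam j ≠ ⊤) :
    ∑' y : Site d, (if lev u y = h - 1 then ∑' γ : List (Step d), (if γ ∈ YY u h E then
      aw ν γ * ∑' π : List (Step d), (if π ∈ GY u h s y γ then RR ν u h (mY u μ y) π else 0)
        else 0) else 0)
      ≤ ∑' j : ℕ, (2 * lam j + (2⁻¹ : ℝ≥0∞) ^ j * M * ((lam j)⁻¹ * (E.card * usY ν u s))) := by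
  have h1 : ∀ (y : Site d) (γ : List (Step d)),
      (if γ ∈ YY u h E then
      aw ν γ * ∑' π : List (Step d), (if π ∈ GY u h s y γ then RR ν u h (mY u μ y) π else 0)
        else 0) ≤ ∑' j : ℕ, (2⁻¹ : ℝ≥0∞) ^ j * M * (if γ ∈ YY u h E then
      ∑' π : List (Step d), (if π ∈ GY u h s y γ ∧ π ∈ Cl ν u h (mY u μ y) M j then
        aw ν γ * aw ν π else 0) else 0) := by
    intro y γ
    by_cases hγ : γ ∈ YY u h E
    · simp only [hγ, if_true]
      simp_rw [← ENNReal.tsum_mul_left]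
      rw [ENNReal.tsum_comm]
      refine ENNReal.tsum_le_tsum fun π => ?_
      by_cases hπ : π ∈ GY u h s y γ
      · simp only [hπ, if_true, true_and]
        calc aw ν γ * RR ν u h (mY u μ y) π
            ≤ aw ν γ * ∑' j : ℕ, (if π ∈ Cl ν u h (mY u μ y) M j then
              (2⁻¹ : ℝ≥0∞) ^ j * M * aw ν π else 0) :=
              mul_le_mul_right (RR_class ν u h (mY u μ y) M hMt (fun l => hM _) π) _
          _ = _ := by
              rw [← ENNReal.tsum_mul_left]
              refine tsum_congr fun j => ?_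
              split_ifs
              · ring
              · simp
      · simp [hπ]
    · simp [hγ]
  calc _ ≤ ∑' y : Site d, (if lev u y = h - 1 then ∑' γ : List (Step d),
        ∑' j : ℕ, (2⁻¹ : ℝ≥0∞) ^ j * M * (if γ ∈ YY u h E then
      ∑' π : List (Step d), (if π ∈ GY u h s y γ ∧ π ∈ Cl ν u h (mY u μ y) M j then
        aw ν γ * aw ν π else 0) else 0) else 0) := by
        refine ENNReal.tsum_le_tsum fun y => ?_
        by_cases hy : lev u y = h - 1
        · simp only [hy, if_true]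
          exact ENNReal.tsum_le_tsum fun γ => h1 y γ
        · simp [hy]
    _ = ∑' y : Site d, ∑' j : ℕ, (2⁻¹ : ℝ≥0∞) ^ j * M * (if lev u y = h - 1 then
        ∑' γ : List (Step d), (if γ ∈ YY u h E then
      ∑' π : List (Step d), (if π ∈ GY u h s y γ ∧ π ∈ Cl ν u h (mY u μ y) M j then
        aw ν γ * aw ν π else 0) else 0) else 0) := by
        refine tsum_congr fun y => ?_
        by_cases hy : lev u y = h - 1
        · simp only [hy, if_true]
          rw [ENNReal.tsum_comm]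
          refine tsum_congr fun j => ?_
          rw [ENNReal.tsum_mul_left]
        · simp [hy]
    _ = ∑' j : ℕ, (2⁻¹ : ℝ≥0∞) ^ j * M * ∑' y : Site d, (if lev u y = h - 1 then
        ∑' γ : List (Step d), (if γ ∈ YY u h E then
      ∑' π : List (Step d), (if π ∈ GY u h s y γ ∧ π ∈ Cl ν u h (mY u μ y) M j then
        aw ν γ * aw ν π else 0) else 0) else 0) := by
        rw [ENNReal.tsum_comm]
        refine tsum_congr fun j => ?_
        rw [ENNReal.tsum_mul_left]
    _ ≤ _ := by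
        refine ENNReal.tsum_le_tsum fun j => ?_
        refine le_trans (mul_le_mul_right (stepC ν u h s E (mY u μ) M j (lam j) (hl0 j)
          (hl1 j)) _) ?_
        rw [mul_add]
        refine add_le_add ?_ (mul_le_mul_right (mul_le_mul_right (RY_sum ν u h s E) _) _)
        have h2 : (2⁻¹ : ℝ≥0∞) ^ (j + 1) * M * ∑' y : Site d, ∑' π : List (Step d),
            (if π ∈ Pj ν u h (mY u μ y) M j then aw ν π else 0) ≤ 1 := by
          rw [← ENNReal.tsum_mul_left]
          exact le_trans (ENNReal.tsum_le_tsum fun y => doob ν u h (mY u μ y) M j)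
            (mY_sum ν u h μ hμ)
        have h3 : (2⁻¹ : ℝ≥0∞) ^ j = 2 * (2⁻¹ : ℝ≥0∞) ^ (j + 1) := by
          rw [pow_succ, mul_comm ((2⁻¹ : ℝ≥0∞) ^ j), ← mul_assoc,
            ENNReal.mul_inv_cancel (by norm_num) (by norm_num), one_mul]
        rw [h3]
        calc _ = 2 * lam j * ((2⁻¹ : ℝ≥0∞) ^ (j + 1) * M * ∑' y : Site d,
              ∑' π : List (Step d),
              (if π ∈ Pj ν u h (mY u μ y) M j then aw ν π else 0)) := by ring
          _ ≤ 2 * lam j * 1 := mul_le_mul_right h2 _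
          _ = _ := mul_one _

lemma lev_opp' (u : Step d) : lev u (stepVec (opp u)) = -1 := lev_opp u

lemma lev_self (u : Step d) : lev u (stepVec u) = 1 := Flux132.lev_step_self u

lemma lev_neg' (u : Step d) (x : Site d) : lev u (-x) = - lev u x := by
  unfold lev
  split_ifs <;> simp

open Classical in
/-- **window lemma, Y local**: on `IsUp h × IsDn h`, the contact `≥ s` above the bottom. -/
theorem win3_aux (ν : Measure (Row d)) [IsProbabilityMeasure ν] (u : Step d)
    (h s : ℕ) (E : Finset (Site d)) (μ : Site d → ℝ≥0∞) :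
    ∑' w : Site d, μ w * ∑' π : List (Step d), ∑' γ : List (Step d),
      (if IsUp u h π ∧ IsDn u h γ ∧ endp 0 γ ∈ E ∧ lev u w = 0 ∧ (∃ k, k ∈ Cm u w π γ) ∧
        (∀ k ∈ Cm u w π γ, k + s ≤ h) then aw ν π * aw ν γ else 0)
      ≤ ∑' y : Site d, (if lev u y = h - 1 then ∑' γ : List (Step d), (if γ ∈ YY u h E then
      aw ν γ * ∑' π : List (Step d), (if π ∈ GY u h s y γ then RR ν u h (mY u μ y) π else 0)
        else 0) else 0) := by
  have h1 : ∀ (π : List (Step d)), ∑' w : Site d, μ w * ∑' γ : List (Step d),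
      (if IsUp u h π ∧ IsDn u h γ ∧ endp 0 γ ∈ E ∧ lev u w = 0 ∧ (∃ k, k ∈ Cm u w π γ) ∧
        (∀ k ∈ Cm u w π γ, k + s ≤ h) then aw ν π * aw ν γ else 0)
      ≤ ∑' y : Site d, (if lev u y = h - 1 then ∑' γ : List (Step d), (if γ ∈ YY u h E then
        aw ν γ * (if π ∈ SY u h s y γ then aw ν π * mY u μ y π else 0) else 0) else 0) := by
    intro π
    obtain ⟨F, hF⟩ : ∃ F : Site d → ℝ≥0∞, ∀ w, F w = μ w * ∑' γ : List (Step d),
      (if IsUp u h π ∧ IsDn u h γ ∧ endp 0 γ ∈ E ∧ lev u w = 0 ∧ (∃ k, k ∈ Cm u w π γ) ∧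
        (∀ k ∈ Cm u w π γ, k + s ≤ h) then aw ν π * aw ν γ else 0) := ⟨_, fun w => rfl⟩
    simp_rw [← hF]
    rw [← (Equiv.addRight (-endp 0 π + stepVec u)).tsum_eq F]
    refine ENNReal.tsum_le_tsum fun y => ?_
    have hFF : F ((Equiv.addRight (-endp 0 π + stepVec u)) y)
        = F (y + (-endp 0 π + stepVec u)) := rfl
    rw [hFF, hF]
    obtain ⟨w, hw⟩ : ∃ w, w = y + (-endp 0 π + stepVec u) := ⟨_, rfl⟩
    rw [← hw]
    have hmy : mY u μ y π = μ w := by
      unfold mY; congr 1; rw [hw]; abel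
    rw [← ENNReal.tsum_mul_left]
    by_cases hU : IsUp u h π
    swap
    · simp only [hU, false_and, if_false, mul_zero, tsum_zero]; exact zero_le
    have hlw : lev u w = lev u y - h + 1 := by
      rw [hw, lev_add', lev_add', lev_neg', hU.2, lev_self]; ring
    by_cases hy : lev u y = h - 1
    swap
    · have : ¬ lev u w = 0 := by rw [hlw]; omega
      simp only [this, false_and, and_false, if_false, mul_zero, tsum_zero]; exact zero_le
    rw [if_pos hy]
    refine ENNReal.tsum_le_tsum fun γ => ?_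
    by_cases hc : IsUp u h π ∧ IsDn u h γ ∧ endp 0 γ ∈ E ∧ lev u w = 0 ∧
        (∃ k, k ∈ Cm u w π γ) ∧ (∀ k ∈ Cm u w π γ, k + s ≤ h)
    swap
    · rw [if_neg hc, mul_zero]; exact zero_le
    obtain ⟨_, hD, hE, _, ⟨k, p, hp1, hp2, hp3⟩, hall⟩ := hc
    have hγ : γ ∈ YY u h E := ⟨hD, hE⟩
    have hst : w + stepVec (opp u) = y - endp 0 π := by
      have : stepVec (opp u) = - stepVec u := Flux566.stepVec_opp u
      rw [hw, this]; abel
    have sh1 : ∀ q : Site d, q ∈ sitesL 0 π ↔ q - endp 0 π ∈ sitesL (-endp 0 π) π := by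
      intro q
      have := mem_sitesL_add π (-endp 0 π) (endp 0 π) (q - endp 0 π)
      rw [sub_add_cancel, neg_add_cancel] at this
      exact this
    have sh2 : ∀ q : Site d, q ∈ sitesL y γ ↔ q - endp 0 π ∈ sitesL (w + stepVec (opp u)) γ := by
      intro q
      have := mem_sitesL_add γ (w + stepVec (opp u)) (endp 0 π) (q - endp 0 π)
      rw [sub_add_cancel, hst, sub_add_cancel] at this
      rw [hst]
      exact this
    have hS : π ∈ SY u h s y γ := by
      refine ⟨hU, ⟨p + endp 0 π, ?_, ?_⟩, fun q hq1 hq2 => ?_⟩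
      · rw [sh1, add_sub_cancel_right]; exact hp1
      · rw [sh2, add_sub_cancel_right]; exact hp2
      · have h3 := hU.1 q hq1
        have h4 : lev u (q - endp 0 π) = lev u q - h := by
          rw [sub_eq_add_neg, lev_add', lev_neg', hU.2]; ring
        have h5 := hall (h - lev u q).toNat ⟨q - endp 0 π, (sh1 q).1 hq1, (sh2 q).1 hq2, by
          rw [h4, Int.toNat_of_nonneg (by omega)]; ring⟩
        have h6 : (((h : ℤ) - lev u q).toNat : ℤ) = h - lev u q := Int.toNat_of_nonneg (by omega)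
        omega
    rw [if_pos hγ, if_pos hS, hmy]
    split_ifs
    · refine le_of_eq ?_; ring
    · rw [mul_zero]; exact zero_le
  calc _ = ∑' π : List (Step d), ∑' w : Site d, μ w * ∑' γ : List (Step d),
      (if IsUp u h π ∧ IsDn u h γ ∧ endp 0 γ ∈ E ∧ lev u w = 0 ∧ (∃ k, k ∈ Cm u w π γ) ∧
        (∀ k ∈ Cm u w π γ, k + s ≤ h) then aw ν π * aw ν γ else 0) := by
        rw [ENNReal.tsum_comm]
        refine tsum_congr fun w => ?_
        rw [ENNReal.tsum_mul_left]
    _ ≤ ∑' π : List (Step d), ∑' y : Site d, (if lev u y = h - 1 then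
        ∑' γ : List (Step d), (if γ ∈ YY u h E then
        aw ν γ * (if π ∈ SY u h s y γ then aw ν π * mY u μ y π else 0) else 0) else 0) :=
        ENNReal.tsum_le_tsum h1
    _ = ∑' y : Site d, (if lev u y = h - 1 then ∑' γ : List (Step d), (if γ ∈ YY u h E then
        aw ν γ * ∑' π : List (Step d), (if π ∈ SY u h s y γ then aw ν π * mY u μ y π else 0)
        else 0) else 0) := by
        rw [ENNReal.tsum_comm]
        refine tsum_congr fun y => ?_
        by_cases hy : lev u y = h - 1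
        · simp only [hy, if_true]
          rw [ENNReal.tsum_comm]
          refine tsum_congr fun γ => ?_
          by_cases hγ : γ ∈ YY u h E
          · simp only [hγ, if_true]
            rw [ENNReal.tsum_mul_left]
          · simp [hγ]
        · simp [hy]
    _ ≤ _ := by
        refine ENNReal.tsum_le_tsum fun y => ?_
        by_cases hy : lev u y = h - 1
        · simp only [hy, if_true]
          refine ENNReal.tsum_le_tsum fun γ => ?_
          by_cases hγ : γ ∈ YY u h E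
          · simp only [hγ, if_true]
            exact mul_le_mul_right (stepA ν u h s (mY u μ y) y γ) _
          · simp [hγ]
        · simp [hy]

lemma geo1 : ∑' j : ℕ, (2 * (3 / 4 : ℝ≥0∞) ^ j) = 8 := by
  rw [ENNReal.tsum_mul_left, ENNReal.tsum_geometric]
  have h1 : (1 : ℝ≥0∞) - 3 / 4 = 4⁻¹ := by
    refine ENNReal.sub_eq_of_eq_add (by
      exact (ENNReal.div_lt_top (by norm_num) (by norm_num)).ne) ?_
    rw [← one_div, ENNReal.div_add_div_same, show (1 : ℝ≥0∞) + 3 = 4 by norm_num,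
      ENNReal.div_self (by norm_num) (by norm_num)]
  rw [h1, inv_inv]
  norm_num

lemma geo2 : ∑' j : ℕ, ((2⁻¹ : ℝ≥0∞) ^ j * ((3 / 4 : ℝ≥0∞) ^ j)⁻¹) = 3 := by
  have h0 : ∀ j : ℕ, ((2⁻¹ : ℝ≥0∞) ^ j * ((3 / 4 : ℝ≥0∞) ^ j)⁻¹) = (2 / 3 : ℝ≥0∞) ^ j := by
    intro j
    rw [ENNReal.inv_pow, ← mul_pow]
    congr 1
    rw [ENNReal.inv_div (Or.inl (by norm_num)) (Or.inl (by norm_num)), div_eq_mul_inv,
      div_eq_mul_inv, ← mul_assoc]
    congr 1
    rw [show (4 : ℝ≥0∞) = 2 * 2 by norm_num, ← mul_assoc,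
      ENNReal.inv_mul_cancel (by norm_num) (by norm_num), one_mul]
  simp_rw [h0]
  rw [ENNReal.tsum_geometric]
  have h1 : (1 : ℝ≥0∞) - 2 / 3 = 3⁻¹ := by
    refine ENNReal.sub_eq_of_eq_add (by
      exact (ENNReal.div_lt_top (by norm_num) (by norm_num)).ne) ?_
    rw [← one_div, ENNReal.div_add_div_same, show (1 : ℝ≥0∞) + 2 = 3 by norm_num,
      ENNReal.div_self (by norm_num) (by norm_num)]
  rw [h1, inv_inv]

open Classical in
/-- **window lemma, Y local** (28's letters) -/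
theorem win3 (ν : Measure (Row d)) [IsProbabilityMeasure ν] (u : Step d)
    (h s : ℕ) (E : Finset (Site d)) (μ : Site d → ℝ≥0∞) (M lam : ℝ≥0∞) (hμ : ∑' x, μ x ≤ 1)
    (hM : ∀ x, μ x ≤ M) (hMt : M ≠ ⊤) (hl0 : lam ≠ 0) (hl1 : lam ≠ ⊤) :
    ∑' w : Site d, μ w * ∑' π : List (Step d), ∑' γ : List (Step d),
      (if IsUp u h π ∧ IsDn u h γ ∧ endp 0 γ ∈ E ∧ lev u w = 0 ∧ (∃ k, k ∈ Cm u w π γ) ∧
        (∀ k ∈ Cm u w π γ, k + s ≤ h) then aw ν π * aw ν γ else 0)
      ≤ 8 * lam + 3 * (M * (lam⁻¹ * (E.card * usY ν u s))) := by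
  have hq0 : ∀ j : ℕ, ((3 / 4 : ℝ≥0∞) ^ j) ≠ 0 := fun j => pow_ne_zero _ (by simp)
  have hq1 : ∀ j : ℕ, ((3 / 4 : ℝ≥0∞) ^ j) ≠ ⊤ := fun j =>
    ENNReal.pow_ne_top (ENNReal.div_lt_top (by norm_num) (by norm_num)).ne
  refine le_trans (win3_aux ν u h s E μ) ?_
  refine le_trans (stepD ν u h s E μ M hμ hM hMt (fun j => lam * (3 / 4) ^ j)
    (fun j => mul_ne_zero hl0 (hq0 j)) (fun j => ENNReal.mul_ne_top hl1 (hq1 j))) ?_
  rw [ENNReal.tsum_add]
  refine add_le_add (le_of_eq ?_) (le_of_eq ?_)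
  · calc ∑' j : ℕ, 2 * (lam * (3 / 4 : ℝ≥0∞) ^ j)
        = (∑' j : ℕ, (2 * (3 / 4 : ℝ≥0∞) ^ j)) * lam := by
          rw [← ENNReal.tsum_mul_right]
          refine tsum_congr fun j => ?_
          ring
      _ = 8 * lam := by rw [geo1]
  · calc ∑' j : ℕ, (2⁻¹ : ℝ≥0∞) ^ j * M * ((lam * (3 / 4 : ℝ≥0∞) ^ j)⁻¹ *
          (E.card * usY ν u s))
        = (∑' j : ℕ, ((2⁻¹ : ℝ≥0∞) ^ j * ((3 / 4 : ℝ≥0∞) ^ j)⁻¹)) *
          (M * (lam⁻¹ * (E.card * usY ν u s))) := by
          rw [← ENNReal.tsum_mul_right]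
          refine tsum_congr fun j => ?_
          rw [ENNReal.mul_inv (Or.inl hl0) (Or.inl hl1)]
          ring
      _ = _ := by rw [geo2]

end Crest.Agent.R154.W23
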