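import Crest.Agent.R154.MidB_562

/-! Row 154, ROAD 801 (helper278): two walkers, one smooth: `half`; pieces: `piece`; the four
fold first passage sum. -/

set_option autoImplicit false
set_option linter.unusedSectionVars false
set_option linter.unusedVariables false

namespace Crest.Agent.R154.Win278

open scoped ENNReal Classical
open Crest.Agent.R154.B5A Crest.Agent.R154.Mid562

lemma sum2 (n : ℕ) (c : ℝ≥0∞) :
    ∑' jj : ℕ × ℕ, (if jj.1 < n ∧ jj.2 < n then c else 0) = (n : ℝ≥0∞) * n * c := by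
  rw [tsum_eq_sum (s := Finset.range n ×ˢ Finset.range n)]
  · rw [Finset.sum_congr rfl (g := fun _ => c)]
    · rw [Finset.sum_const, Finset.card_product, Finset.card_range, nsmul_eq_mul]
      push_cast
      ring
    · intro jj hjj
      rw [Finset.mem_product, Finset.mem_range, Finset.mem_range] at hjj
      rw [if_pos hjj]
  · intro jj hjj
    rw [Finset.mem_product, Finset.mem_range, Finset.mem_range] at hjj
    rw [if_neg hjj]

variable {BX BY G : Type*}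
variable (ΛX : BX → ℝ≥0∞) (hX : BX → ℕ) (ΛY : BY → ℝ≥0∞) (hY : BY → ℕ)

lemma FS_comm (T T' : ℕ) (F : List BX → List BY → ℝ≥0∞) :
    FS ΛX hX T (fun A => FS ΛY hY T' (fun A' => F A A'))
      = FS ΛY hY T' (fun A' => FS ΛX hX T (fun A => F A A')) := by
  have e : ∀ A, FS ΛY hY T' (fun A' => F A A')
      = ∑' A', if FR hY T' A' then LW ΛY A' * F A A' else 0 := fun _ => rfl
  simp_rw [e]
  rw [FS_tsum ΛX hX T (fun A' A => if FR hY T' A' then LW ΛY A' * F A A' else 0)]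
  unfold FS
  refine tsum_congr fun A' => ?_
  by_cases h : FR hY T' A'
  · simp only [if_pos h]
    rw [← ENNReal.tsum_mul_left]
    refine tsum_congr fun A => ?_
    split_ifs
    · ring
    · simp
  · simp [h]

variable [AddCommGroup G] (zX : BX → G) (zY : BY → G)

/-- **one smooth walker** -/
lemma half (h1X : ∀ b, 1 ≤ hX b) (hΛX : ∑' b, ΛX b = 1) (h1Y : ∀ b, 1 ≤ hY b)
    (hΛY : ∑' b, ΛY b = 1) (t i0 J a : ℕ) (th v C1 : ℝ≥0∞)
    (huv : ∑' x, (if pl ΛX hX zX t x ≤ 2 * th then 0 else pl ΛX hX zX t x) ≤ v)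
    (ha : (t + i0) * J ≤ a) (w : G)
    (K : ℕ → ℕ → G → ℝ≥0∞) (hK1 : ∀ i i' x, K i i' x ≤ 1)
    (hK : ∀ i ≤ i0, ∀ i' ≤ i0, ∀ μ : G → ℝ≥0∞, ∑' x, μ x ≤ 1 →
      (∀ x, μ x ≤ (∑ j ∈ Finset.range J, v ^ j) * ((i0 + 1 : ℕ) * (2 * th))) →
      ∑' x, μ x * K i i' x ≤ C1) :
    FS ΛX hX a (fun A => FS ΛY hY a (fun A' =>
      if HT hX A - a ≤ i0 ∧ HT hY A' - a ≤ i0 then
        K (HT hX A - a) (HT hY A' - a) (w + DG zY A' - DG zX A) else 0))
    ≤ (v ^ J + (∑ j ∈ Finset.range J, v ^ j) * ep ΛX hX i0)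
      + ((i0 + 1 : ℕ) : ℝ≥0∞) * (i0 + 1 : ℕ) * C1 := by
  obtain ⟨D, hD1, hD2, hD3⟩ := dens ΛX hX zX h1X hΛX t i0 th 0 v huv J a ha
  set Φ : ℕ × G → ℝ≥0∞ := fun p => FS ΛY hY a (fun A' =>
      if p.1 ≤ i0 ∧ HT hY A' - a ≤ i0 then
        K p.1 (HT hY A' - a) (w + DG zY A' - p.2) else 0) with hΦ
  have hΦ1 : ∀ p, Φ p ≤ 1 := fun p => FS_le_one ΛY hY h1Y hΛY a fun A' => by
    split_ifs
    · exact hK1 _ _ _
    · exact zero_le
  refine (hD3 Φ hΦ1).trans (add_le_add le_rfl ?_)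
  have e1 : ∀ p : ℕ × G, Φ p = ∑' q : ℕ × G, pl ΛY hY zY a q *
      (if p.1 ≤ i0 ∧ q.1 ≤ i0 then K p.1 q.1 (w + q.2 - p.2) else 0) := by
    intro p
    rw [← FS_law ΛY hY zY h1Y a (fun q : ℕ × G =>
      if p.1 ≤ i0 ∧ q.1 ≤ i0 then K p.1 q.1 (w + q.2 - p.2) else 0)]
  have hpl : ∀ i', ∑' z, pl ΛY hY zY a (i', z) ≤ 1 := fun i' =>
    (ENNReal.le_tsum (f := fun i => ∑' z, pl ΛY hY zY a (i, z)) i').trans
      (by rw [← ENNReal.tsum_prod']; exact (pl_sum ΛY hY zY h1Y hΛY a).le)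
  have hDi : ∀ i, ∑' z, D (i, z) ≤ 1 := fun i =>
    (ENNReal.le_tsum (f := fun i => ∑' z, D (i, z)) i).trans
      (by rw [← ENNReal.tsum_prod']; exact hD2)
  have e2 : ∀ i i', i ≤ i0 → i' ≤ i0 →
      ∑' z, ∑' z', D (i, z) * (pl ΛY hY zY a (i', z') * K i i' (w + z' - z)) ≤ C1 := by
    intro i i' hi hi'
    refine le_trans (le_of_eq ?_) (hK i hi i' hi'
      (fun x => ∑' z, D (i, z) * pl ΛY hY zY a (i', x - w + z)) ?_ ?_)
    · simp_rw [← ENNReal.tsum_mul_right]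
      rw [ENNReal.tsum_comm (f := fun x z => D (i, z) * pl ΛY hY zY a (i', x - w + z) * K i i' x)]
      refine tsum_congr fun z => ?_
      have := ((Equiv.subRight w).trans (Equiv.addRight z)).tsum_eq
        (fun z' => D (i, z) * (pl ΛY hY zY a (i', z') * K i i' (w + z' - z)))
      rw [← this]
      refine tsum_congr fun x => ?_
      show D (i, z) * (pl ΛY hY zY a (i', x - w + z) * K i i' (w + (x - w + z) - z)) = _
      rw [show w + (x - w + z) - z = x by abel, mul_assoc]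
    · rw [ENNReal.tsum_comm]
      refine le_trans (ENNReal.tsum_le_tsum fun z => ?_) (hDi i)
      rw [ENNReal.tsum_mul_left]
      refine mul_le_of_le_one_right' ?_
      have := ((Equiv.subRight w).trans (Equiv.addRight z)).tsum_eq
        (fun z' => pl ΛY hY zY a (i', z'))
      exact (le_of_eq this).trans (hpl i')
    · intro x
      calc _ ≤ ∑' z, ((∑ j ∈ Finset.range J, v ^ j) * ((i0 + 1 : ℕ) * (2 * th)))
            * pl ΛY hY zY a (i', x - w + z) :=
            ENNReal.tsum_le_tsum fun z => mul_le_mul_left (hD1 _) _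
        _ = ((∑ j ∈ Finset.range J, v ^ j) * ((i0 + 1 : ℕ) * (2 * th)))
            * ∑' z, pl ΛY hY zY a (i', x - w + z) := ENNReal.tsum_mul_left
        _ ≤ _ := by
            refine mul_le_of_le_one_right' ?_
            have := (Equiv.addLeft (x - w)).tsum_eq (fun z' => pl ΛY hY zY a (i', z'))
            exact (le_of_eq this).trans (hpl i')
  calc ∑' p, D p * Φ p
      = ∑' i, ∑' z, D (i, z) * ∑' i', ∑' z', pl ΛY hY zY a (i', z') *
        (if i ≤ i0 ∧ i' ≤ i0 then K i i' (w + z' - z) else 0) := by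
        rw [ENNReal.tsum_prod']
        refine tsum_congr fun i => tsum_congr fun z => ?_
        rw [e1, ENNReal.tsum_prod']
    _ = ∑' i, ∑' i', ∑' z, ∑' z', D (i, z) * (pl ΛY hY zY a (i', z') *
        (if i ≤ i0 ∧ i' ≤ i0 then K i i' (w + z' - z) else 0)) := by
        refine tsum_congr fun i => ?_
        rw [ENNReal.tsum_comm]
        refine tsum_congr fun z => ?_
        rw [← ENNReal.tsum_mul_left]
        refine tsum_congr fun i' => ?_
        rw [ENNReal.tsum_mul_left]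
    _ ≤ ∑' i, ∑' i', (if i < i0 + 1 ∧ i' < i0 + 1 then C1 else 0) := by
        refine ENNReal.tsum_le_tsum fun i => ENNReal.tsum_le_tsum fun i' => ?_
        by_cases h : i ≤ i0 ∧ i' ≤ i0
        · simp only [if_pos h]
          rw [if_pos (by omega)]
          exact e2 i i' h.1 h.2
        · simp [if_neg h]
    _ = _ := by
        rw [← ENNReal.tsum_prod (f := fun i i' : ℕ => if i < i0 + 1 ∧ i' < i0 + 1 then C1 else 0)]
        exact sum2 (i0 + 1) C1

/-- **pieces** of bounded overshoot -/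
lemma piece (h1X : ∀ b, 1 ≤ hX b) (h1Y : ∀ b, 1 ≤ hY b) (t i0 : ℕ)
    (R : G → List BX → List BY → Prop) (μ : G → ℝ≥0∞) (C2 : ℝ≥0∞)
    (h : ∀ j ≤ i0, ∀ j' ≤ i0, ∑' x, μ x * ∑' L, ∑' L', (if HT hX L = t + j ∧ HT hY L' = t + j' ∧
      R x L L' then LW ΛX L * LW ΛY L' else 0) ≤ C2) :
    ∑' x, μ x * FS ΛX hX t (fun P => FS ΛY hY t (fun P' =>
      if HT hX P - t ≤ i0 ∧ HT hY P' - t ≤ i0 ∧ R x P P' then 1 else 0))
    ≤ ((i0 + 1 : ℕ) : ℝ≥0∞) * (i0 + 1 : ℕ) * C2 := by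
  have e1 : ∀ x, FS ΛX hX t (fun P => FS ΛY hY t (fun P' =>
      if HT hX P - t ≤ i0 ∧ HT hY P' - t ≤ i0 ∧ R x P P' then 1 else 0))
      ≤ ∑' jj : ℕ × ℕ, if jj.1 < i0 + 1 ∧ jj.2 < i0 + 1 then
        ∑' L, ∑' L', (if HT hX L = t + jj.1 ∧ HT hY L' = t + jj.2 ∧
          R x L L' then LW ΛX L * LW ΛY L' else 0) else 0 := by
    intro x
    have e2 : ∀ jj : ℕ × ℕ, (if jj.1 < i0 + 1 ∧ jj.2 < i0 + 1 then
        ∑' L, ∑' L', (if HT hX L = t + jj.1 ∧ HT hY L' = t + jj.2 ∧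
          R x L L' then LW ΛX L * LW ΛY L' else 0) else 0)
        = ∑' L, ∑' L', (if (jj.1 < i0 + 1 ∧ jj.2 < i0 + 1) ∧ (HT hX L = t + jj.1 ∧
          HT hY L' = t + jj.2 ∧ R x L L') then LW ΛX L * LW ΛY L' else 0) := by
      intro jj
      by_cases hj : jj.1 < i0 + 1 ∧ jj.2 < i0 + 1
      · rw [if_pos hj]
        simp only [hj.1, hj.2, true_and]
      · rw [if_neg hj]
        simp only [hj, false_and, if_false, tsum_zero]
    simp_rw [e2]
    rw [ENNReal.tsum_comm]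
    unfold FS
    refine ENNReal.tsum_le_tsum fun P => ?_
    rw [ENNReal.tsum_comm]
    by_cases hP : FR hX t P
    · rw [if_pos hP, ← ENNReal.tsum_mul_left]
      refine ENNReal.tsum_le_tsum fun P' => ?_
      beta_reduce
      by_cases hP' : FR hY t P'
      · rw [if_pos hP']
        by_cases hR : HT hX P - t ≤ i0 ∧ HT hY P' - t ≤ i0 ∧ R x P P'
        · rw [if_pos hR, mul_one]
          refine le_trans (le_of_eq ?_) (ENNReal.le_tsum (HT hX P - t, HT hY P' - t))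
          have := FR_le hX h1X hP
          have := FR_le hY h1Y hP'
          rw [if_pos]
          refine ⟨⟨?_, ?_⟩, ?_, ?_, hR.2.2⟩
          · show HT hX P - t < i0 + 1; omega
          · show HT hY P' - t < i0 + 1; omega
          · show HT hX P = t + (HT hX P - t); omega
          · show HT hY P' = t + (HT hY P' - t); omega
        · rw [if_neg hR]; simp
      · rw [if_neg hP']; simp
    · rw [if_neg hP]; exact zero_le
  calc _ ≤ ∑' x, μ x * ∑' jj : ℕ × ℕ, (if jj.1 < i0 + 1 ∧ jj.2 < i0 + 1 then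
        ∑' L, ∑' L', (if HT hX L = t + jj.1 ∧ HT hY L' = t + jj.2 ∧
          R x L L' then LW ΛX L * LW ΛY L' else 0) else 0) :=
        ENNReal.tsum_le_tsum fun x => mul_le_mul_right (e1 x) _
    _ = ∑' jj : ℕ × ℕ, ∑' x, μ x * (if jj.1 < i0 + 1 ∧ jj.2 < i0 + 1 then
        ∑' L, ∑' L', (if HT hX L = t + jj.1 ∧ HT hY L' = t + jj.2 ∧
          R x L L' then LW ΛX L * LW ΛY L' else 0) else 0) := by
        rw [ENNReal.tsum_comm]
        exact tsum_congr fun x => ENNReal.tsum_mul_left.symm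
    _ ≤ ∑' jj : ℕ × ℕ, (if jj.1 < i0 + 1 ∧ jj.2 < i0 + 1 then C2 else 0) := by
        refine ENNReal.tsum_le_tsum fun jj => ?_
        by_cases hj : jj.1 < i0 + 1 ∧ jj.2 < i0 + 1
        · simp only [if_pos hj]
          exact h jj.1 (by omega) jj.2 (by omega)
        · simp only [if_neg hj, mul_zero, tsum_zero, le_refl]
    _ = _ := sum2 (i0 + 1) C2

/-- four fold sum -/
noncomputable def Q4 (a T : ℕ) (F : List BX → List BX → List BY → List BY → ℝ≥0∞) : ℝ≥0∞ :=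
  FS ΛX hX a (fun A => FS ΛX hX T (fun P => FS ΛY hY a (fun A' => FS ΛY hY T (fun P' =>
    F A P A' P'))))

lemma Q4_mono (a T : ℕ) {F F' : List BX → List BX → List BY → List BY → ℝ≥0∞}
    (h : ∀ A P A' P', FR hX a A → FR hX T P → FR hY a A' → FR hY T P' → F A P A' P' ≤ F' A P A' P') :
    Q4 ΛX hX ΛY hY a T F ≤ Q4 ΛX hX ΛY hY a T F' :=
  FS_mono _ _ fun A hA => FS_mono _ _ fun P hP => FS_mono _ _ fun A' hA' => FS_mono _ _ fun P' hP' =>
    h A P A' P' hA hP hA' hP'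

lemma Q4_add (a T : ℕ) (F F' : List BX → List BX → List BY → List BY → ℝ≥0∞) :
    Q4 ΛX hX ΛY hY a T (fun A P A' P' => F A P A' P' + F' A P A' P')
      = Q4 ΛX hX ΛY hY a T F + Q4 ΛX hX ΛY hY a T F' := by
  unfold Q4
  simp only [FS_add]

end Crest.Agent.R154.Win278
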