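import Mathlib

/-! Row 154, road 801 (helper546): prefix-free sets of words, pure combinatorics. -/

set_option autoImplicit false

namespace Crest.Agent.R154.Win546

open scoped ENNReal Classical

variable {α : Type*}

/-- prefix-free -/
def PF (S : Set (List α)) : Prop := ∀ l ∈ S, ∀ r, l ++ r ∈ S → r = []

/-- minimal words with a property -/
def Mn (A : List α → Prop) : Set (List α) :=
  {p | A p ∧ ∀ p' r, p = p' ++ r → A p' → r = []}

lemma pf_Mn (A : List α → Prop) : PF (Mn A) := fun l hl r hr => hr.2 l r rfl hl.1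

lemma exists_Mn (A : List α → Prop) : ∀ (l : List α), A l → ∃ p r, l = p ++ r ∧ p ∈ Mn A := by
  intro l hl
  have hex : ∃ n, ∃ p r, l = p ++ r ∧ A p ∧ p.length = n := ⟨l.length, l, [], by simp, hl, rfl⟩
  obtain ⟨p, r, h1, h2, h3⟩ := Nat.find_spec hex
  refine ⟨p, r, h1, h2, fun p' r' h hA => ?_⟩
  by_contra hne
  have hlt : p'.length < p.length := by
    rw [h, List.length_append]
    have : 0 < r'.length := List.length_pos_iff.2 hne
    omega
  refine Nat.find_min hex (h3 ▸ hlt) ⟨p', r' ++ r, ?_, hA, rfl⟩
  rw [h1, h, List.append_assoc]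

/-- sum over pairs is at most the sum over words -/
lemma restart_le {P : Set (List α)} (hP : PF P) (g : List α → ℝ≥0∞) :
    ∑' p, (if p ∈ P then ∑' r, g (p ++ r) else 0) ≤ ∑' t, g t := by
  have hinj : Function.Injective (fun q : P × List α => (q.1 : List α) ++ q.2) := by
    rintro ⟨⟨p, hp⟩, r⟩ ⟨⟨p', hp'⟩, r'⟩ h
    simp only at h
    rcases List.append_eq_append_iff.1 h with ⟨a, ha, hb⟩ | ⟨a, ha, hb⟩
    · have : a = [] := hP p hp a (ha ▸ hp')
      subst this
      simp at ha hb
      subst ha; subst hb; rfl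
    · have : a = [] := hP p' hp' a (ha ▸ hp)
      subst this
      simp at ha hb
      subst ha; subst hb; rfl
  calc ∑' p, (if p ∈ P then ∑' r, g (p ++ r) else 0)
      = ∑' p : P, ∑' r, g ((p : List α) ++ r) := by
        rw [tsum_subtype P (fun p => ∑' r, g (p ++ r))]
        refine tsum_congr fun p => ?_
        simp [Set.indicator]
    _ = ∑' q : P × List α, g ((q.1 : List α) ++ q.2) := (ENNReal.tsum_prod' (f := fun q : P × List α => g ((q.1 : List α) ++ q.2))).symm
    _ ≤ ∑' t, g t := ENNReal.tsum_comp_le_tsum_of_injective hinj g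

lemma tsum_le_of_support {ι κ : Type*} {g : κ → ℝ≥0∞} {f : ι → κ}
    (hs : Function.support g ⊆ Set.range f) : ∑' t, g t ≤ ∑' i, g (f i) := by
  choose c hc using fun t : Function.support g => hs t.2
  have hinj : Function.Injective c := by
    intro a b hab
    have := hc a
    rw [hab, hc b] at this
    exact Subtype.ext this.symm
  calc ∑' t, g t = ∑' t : Function.support g, g t := (tsum_subtype_support g).symm
    _ = ∑' t : Function.support g, g (f (c t)) := tsum_congr fun t => by rw [hc t]
    _ ≤ ∑' i, g (f i) := ENNReal.tsum_comp_le_tsum_of_injective hinj (fun i => g (f i))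

/-- every charged word starts in `P` -/
lemma le_cover (P : Set (List α)) (g : List α → ℝ≥0∞)
    (h : ∀ t, g t ≠ 0 → ∃ p r, t = p ++ r ∧ p ∈ P) :
    ∑' t, g t ≤ ∑' p, (if p ∈ P then ∑' r, g (p ++ r) else 0) := by
  calc ∑' t, g t ≤ ∑' q : P × List α, g ((q.1 : List α) ++ q.2) := by
        have hs : Function.support g ⊆ Set.range (fun q : P × List α => (q.1 : List α) ++ q.2) := by
          intro t ht
          obtain ⟨p, r, rfl, hp⟩ := h t ht
          exact ⟨(⟨p, hp⟩, r), rfl⟩
        exact tsum_le_of_support hs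
    _ = ∑' p : P, ∑' r, g ((p : List α) ++ r) := ENNReal.tsum_prod' (f := fun q : P × List α => g ((q.1 : List α) ++ q.2))
    _ = _ := by
        rw [tsum_subtype P (fun p => ∑' r, g (p ++ r))]
        refine tsum_congr fun p => ?_
        simp [Set.indicator]

end Crest.Agent.R154.Win546
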