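import Crest.Agent.R154.DensFP_706

/-! Row 154, ROAD 801, assembly (helper706): peeling of one walker at two first passages and the
bound of one window. -/

set_option autoImplicit false
set_option linter.unusedSectionVars false

namespace Crest.Agent.R154.WinA706

open scoped ENNReal
open Crest.Agent.R154.B5A Crest.Agent.R154.FP178 Crest.Agent.R154.DensFP706

section one

variable {B : Type*} (Λ : B → ℝ≥0∞) (ht : B → ℕ)

open Classical in
/-- weight of a first passage list of `a` with overshoot `≤ i0` -/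
noncomputable def wf (a i0 : ℕ) (L : List B) : ℝ≥0∞ :=
  if fp ht a L ∧ HT ht L ≤ a + i0 then LW Λ L else 0

/-- overshoot tail -/
noncomputable def ov (i0 : ℕ) : ℝ≥0∞ := ∑' k, tail Λ ht (i0 + k)

open Classical in
lemma wf_sum (h1 : ∀ b, 1 ≤ ht b) (hΛ : ∑' b, Λ b ≤ 1) (a i0 : ℕ) :
    ∑' L, wf Λ ht a i0 L ≤ 1 := by
  refine le_trans (ENNReal.tsum_le_tsum fun L => ?_) (sum_FP Λ ht h1 hΛ a)
  unfold wf
  by_cases h : fp ht a L
  · rw [if_pos h]; split_ifs <;> simp
  · rw [if_neg (fun h' => h h'.1)]; exact zero_le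

open Classical in
lemma HTsum_le (hU1 : ∀ n, U Λ ht n ≤ 1) (k : ℕ) (c : ℝ≥0∞) :
    ∑' L, (if HT ht L = k then LW Λ L * c else 0) ≤ c := by
  have e : ∀ L : List B, (if HT ht L = k then LW Λ L * c else 0)
      = (if HT ht L = k then LW Λ L else 0) * c := by
    intro L; split_ifs <;> simp
  rw [tsum_congr e, ENNReal.tsum_mul_right]
  calc _ ≤ 1 * c := by gcongr; exact hU1 k
    _ = c := one_mul c

open Classical in
/-- **peeling** -/
theorem peel (h1 : ∀ b, 1 ≤ ht b) (hΛ : ∑' b, Λ b ≤ 1) (hU1 : ∀ n, U Λ ht n ≤ 1)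
    (α T i0 n : ℕ) (hn : α + i0 + T ≤ n) (F : List B → ℝ≥0∞) (hF : ∀ L, F L ≤ 1)
    (Φ : List B → List B → ℝ≥0∞)
    (hΦ : ∀ A σ R, fp ht α A → HT ht A ≤ α + i0 → fp ht T σ → HT ht σ ≤ T + i0 →
      HT ht A + HT ht σ + HT ht R = n → F (A ++ (σ ++ R)) ≤ Φ A σ) :
    ∑' L, (if HT ht L = n then LW Λ L * F L else 0)
      ≤ 2 * ov Λ ht i0 + ∑' A, wf Λ ht α i0 A * ∑' σ, wf Λ ht T i0 σ * Φ A σ := by
  set f : List B → ℝ≥0∞ := fun L => if HT ht L = n then F L else 0 with hf
  have hf1 : ∀ L, f L ≤ 1 := by intro L; simp only [hf]; split_ifs; exacts [hF L, zero_le]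
  have e0 : ∀ L : List B, (if HT ht L = n then LW Λ L * F L else 0)
      = (if α ≤ HT ht L then LW Λ L * f L else 0) := by
    intro L
    simp only [hf]
    by_cases h : HT ht L = n
    · rw [if_pos h, if_pos h, if_pos (by omega)]
    · rw [if_neg h, if_neg h, mul_zero, ite_self]
  -- tails are at most one
  have hSA : ∀ A : List B, ∑' L2, LW Λ L2 * f (A ++ L2) ≤ 1 := by
    intro A
    refine le_trans (ENNReal.tsum_le_tsum fun L2 => ?_) (HTsum_le Λ ht hU1 (n - HT ht A) 1)
    simp only [hf, HT_append]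
    by_cases h : HT ht A + HT ht L2 = n
    · rw [if_pos h, if_pos (by omega)]
      gcongr
      exact hF _
    · rw [if_neg h, mul_zero]; exact zero_le
  have hgood : ∀ A : List B, fp ht α A → HT ht A ≤ α + i0 →
      ∑' L2, LW Λ L2 * f (A ++ L2) ≤ ov Λ ht i0 + ∑' σ, wf Λ ht T i0 σ * Φ A σ := by
    intro A hA hA2
    have e1 : ∀ L2 : List B, LW Λ L2 * f (A ++ L2)
        = (if T ≤ HT ht L2 then LW Λ L2 * f (A ++ L2) else 0) := by
      intro L2
      by_cases h : T ≤ HT ht L2
      · rw [if_pos h]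
      · rw [if_neg h]
        simp only [hf, HT_append]
        rw [if_neg (by omega), mul_zero]
    rw [tsum_congr e1, split Λ ht h1 T (fun L2 => f (A ++ L2))]
    have e2 : ∀ σ : List B, (if fp ht T σ then LW Λ σ * ∑' R, LW Λ R * f (A ++ (σ ++ R)) else 0)
        ≤ (if fp ht T σ ∧ T + i0 < HT ht σ then LW Λ σ else 0) + wf Λ ht T i0 σ * Φ A σ := by
      intro σ
      by_cases hσ : fp ht T σ
      · rw [if_pos hσ]
        by_cases hb : T + i0 < HT ht σ
        · rw [if_pos ⟨hσ, hb⟩]
          refine le_trans ?_ le_self_add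
          have := hSA (A ++ σ)
          simp only [List.append_assoc] at this
          calc _ ≤ LW Λ σ * 1 := by gcongr
            _ = _ := mul_one _
        · rw [if_neg (fun h => hb h.2), zero_add]
          unfold wf
          rw [if_pos ⟨hσ, not_lt.1 hb⟩]
          gcongr
          refine le_trans (ENNReal.tsum_le_tsum fun R => ?_)
            (HTsum_le Λ ht hU1 (n - HT ht A - HT ht σ) (Φ A σ))
          simp only [hf, HT_append]
          by_cases h : HT ht A + (HT ht σ + HT ht R) = n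
          · rw [if_pos h, if_pos (by omega)]
            gcongr
            exact hΦ A σ R hA hA2 hσ (not_lt.1 hb) (by omega)
          · rw [if_neg h, mul_zero]; exact zero_le
      · rw [if_neg hσ]; exact zero_le
    refine (ENNReal.tsum_le_tsum e2).trans ?_
    rw [ENNReal.tsum_add]
    exact add_le_add (overshoot Λ ht h1 hU1 i0 T) le_rfl
  rw [tsum_congr e0, split Λ ht h1 α f]
  have e3 : ∀ A : List B, (if fp ht α A then LW Λ A * ∑' L2, LW Λ L2 * f (A ++ L2) else 0)
      ≤ (if fp ht α A ∧ α + i0 < HT ht A then LW Λ A else 0) +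
        (wf Λ ht α i0 A * ov Λ ht i0 + wf Λ ht α i0 A * ∑' σ, wf Λ ht T i0 σ * Φ A σ) := by
    intro A
    by_cases hA : fp ht α A
    · rw [if_pos hA]
      by_cases hb : α + i0 < HT ht A
      · rw [if_pos ⟨hA, hb⟩]
        refine le_trans ?_ le_self_add
        calc _ ≤ LW Λ A * 1 := by gcongr; exact hSA A
          _ = _ := mul_one _
      · rw [if_neg (fun h => hb h.2), zero_add]
        unfold wf
        rw [if_pos ⟨hA, not_lt.1 hb⟩, ← mul_add]
        gcongr
        exact hgood A hA (not_lt.1 hb)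
    · rw [if_neg hA]; exact zero_le
  refine (ENNReal.tsum_le_tsum e3).trans ?_
  rw [ENNReal.tsum_add, ENNReal.tsum_add, ENNReal.tsum_mul_right, ← add_assoc]
  refine add_le_add ?_ le_rfl
  rw [two_mul]
  refine add_le_add (overshoot Λ ht h1 hU1 i0 α) ?_
  calc _ ≤ 1 * ov Λ ht i0 := by gcongr; exact wf_sum Λ ht h1 hΛ α i0
    _ = _ := one_mul _

end one

/-! ### traces -/

section tr

variable {B G : Type*} [AddCommGroup G] (h : B → ℕ) (z : B → G) (s : B → Set (G × ℕ))

/-- sites (position, depth) read by a list of blocks -/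
def TR : List B → G → ℕ → Set (G × ℕ)
  | [], _, _ => ∅
  | b :: L, x, a => {p | ∃ q ∈ s b, p = (x + q.1, a + q.2)} ∪ TR L (x + z b) (a + h b)

lemma TR_append (L L' : List B) (x : G) (a : ℕ) :
    TR h z s (L ++ L') x a = TR h z s L x a ∪ TR h z s L' (x + Dp z L) (a + HT h L) := by
  induction L generalizing x a with
  | nil => simp [TR, Dp, HT_nil]
  | cons b L ih =>
    simp only [List.cons_append, TR]
    rw [ih, Set.union_assoc, HT_cons]
    have : x + z b + Dp z L = x + Dp z (b :: L) := by simp [Dp, add_assoc]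
    rw [this, add_assoc]

lemma TR_depth (hs : ∀ b q, q ∈ s b → 1 ≤ q.2 ∧ q.2 ≤ h b) (L : List B) (x : G) (a : ℕ)
    (p : G × ℕ) (hp : p ∈ TR h z s L x a) : a < p.2 ∧ p.2 ≤ a + HT h L := by
  induction L generalizing x a with
  | nil => exact absurd hp (Set.notMem_empty _)
  | cons b L ih =>
    rw [HT_cons]
    rcases hp with ⟨q, hq, rfl⟩ | hp
    · have := hs b q hq
      simp only
      omega
    · have := ih _ _ hp
      omega

lemma TR_shift (L : List B) (x y : G) (a : ℕ) (v : G) (k : ℕ) :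
    (v, k) ∈ TR h z s L (x + y) a ↔ (v - y, k) ∈ TR h z s L x a := by
  induction L generalizing x a with
  | nil => simp [TR]
  | cons b L ih =>
    simp only [TR, Set.mem_union, Set.mem_setOf_eq]
    refine or_congr ?_ ?_
    · constructor
      · rintro ⟨q, hq, he⟩
        refine ⟨q, hq, ?_⟩
        rw [Prod.mk.injEq] at he ⊢
        refine ⟨?_, he.2⟩
        rw [he.1]; abel
      · rintro ⟨q, hq, he⟩
        refine ⟨q, hq, ?_⟩
        rw [Prod.mk.injEq] at he ⊢
        refine ⟨?_, he.2⟩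
        rw [sub_eq_iff_eq_add] at he
        rw [he.1]; abel
    · rw [show x + y + z b = x + z b + y by abel]
      exact ih _ _

end tr

end Crest.Agent.R154.WinA706
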