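import Crest.Agent.R154.Joint2_132

/-!
# Row 154, `d = 2`, D2.10, part A: an iid walk `T` which is tight and spread at a diffusive scale
has mass on both sides of `0`, and can be steered.  (helper956)
-/

set_option autoImplicit false
set_option linter.unusedSectionVars false

namespace Crest.Agent.R154.Win956

open MeasureTheory ProbabilityTheory Filter Topology Set Crest.Agent.R154.J132
open scoped ENNReal

variable {A : Type*} [MeasurableSpace A]

/-- determined by the first `m` letters -/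
def Det (m : ℕ) (C : Set (ℕ → A)) : Prop :=
  ∀ a b : ℕ → A, (∀ k < m, a k = b k) → (a ∈ C ↔ b ∈ C)

lemma Det.mono {m n : ℕ} (h : m ≤ n) {C : Set (ℕ → A)} (hC : Det m C) : Det n C :=
  fun a b hab => hC a b fun k hk => hab k (by omega)

lemma Det.inter {m : ℕ} {C D : Set (ℕ → A)} (hC : Det m C) (hD : Det m D) : Det m (C ∩ D) :=
  fun a b hab => and_congr (hC a b hab) (hD a b hab)

lemma Det.compl {m : ℕ} {C : Set (ℕ → A)} (hC : Det m C) : Det m Cᶜ :=
  fun a b hab => not_congr (hC a b hab)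

lemma Det.prod {m : ℕ} {C : Set (ℕ → A)} (h : Det m C) :
    Det2 m 0 (C ×ˢ (univ : Set (ℕ → A))) := by
  intro p q h1 _
  simp only [mem_prod, mem_univ, and_true]
  exact h _ _ h1

lemma Det.sh {m n : ℕ} {C : Set (ℕ → A)} (h : Det m C) : Det (n + m) (J132.sh n ⁻¹' C) := by
  intro a b hab
  refine h _ _ fun k hk => ?_
  exact hab (n + k) (by omega)

/-- the walk -/
def T (η : A → ℝ) (m : ℕ) (a : ℕ → A) : ℝ := ∑ i ∈ Finset.range m, η (a i)

lemma T_zero (η : A → ℝ) (a : ℕ → A) : T η 0 a = 0 := by simp [T]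

lemma T_add (η : A → ℝ) (m n : ℕ) (a : ℕ → A) : T η (m + n) a = T η m a + T η n (J132.sh m a) := by
  simp [T, Finset.sum_range_add, J132.sh]

lemma T_congr {η : A → ℝ} {m : ℕ} {a b : ℕ → A} (h : ∀ i < m, a i = b i) : T η m a = T η m b :=
  Finset.sum_congr rfl fun i hi => by rw [h i (Finset.mem_range.1 hi)]

lemma T_neg (η : A → ℝ) (m : ℕ) (a : ℕ → A) : T (fun x => - η x) m a = - T η m a := by
  simp [T]

lemma det_T (η : A → ℝ) (m : ℕ) (S : Set ℝ) : Det m {a | T η m a ∈ S} := by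
  intro a b hab
  simp only [mem_ofPred_eq, T_congr hab]

lemma T_mul_succ (η : A → ℝ) (m k : ℕ) (a : ℕ → A) :
    T η ((k + 1) * m) a = T η m a + T η (k * m) (J132.sh m a) := by
  have : (k + 1) * m = m + k * m := by ring
  rw [this, T_add]

lemma T_mul_succ' (η : A → ℝ) (m k : ℕ) (a : ℕ → A) :
    T η ((k + 1) * m) a = T η (k * m) a + T η m (J132.sh (k * m) a) := by
  have : (k + 1) * m = k * m + m := by ring
  rw [this, T_add]

open Classical in
/-- number of blocks in `B` -/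
noncomputable def cnt (B : Set (ℕ → A)) (m : ℕ) : ℕ → (ℕ → A) → ℕ
  | 0, _ => 0
  | k + 1, a => (if a ∈ B then 1 else 0) + cnt B m k (J132.sh m a)

/-- all blocks are in `G` -/
def Al (G : Set (ℕ → A)) (m : ℕ) : ℕ → Set (ℕ → A)
  | 0 => univ
  | k + 1 => G ∩ J132.sh m ⁻¹' Al G m k

lemma T_ge {η : A → ℝ} {m : ℕ} {α α' : ℝ} (k : ℕ) (a : ℕ → A)
    (h : a ∈ Al {b | -α' < T η m b} m k) :
    cnt {b | α ≤ T η m b} m k a * (α + α') - k * α' ≤ T η (k * m) a := by
  induction k generalizing a with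
  | zero => simp [cnt, T_zero]
  | succ k ih =>
    obtain ⟨h1, h2⟩ := h
    have h3 := ih _ h2
    rw [T_mul_succ]
    have h1' : -α' < T η m a := h1
    by_cases hB : a ∈ {b | α ≤ T η m b}
    · have h4 : α ≤ T η m a := hB
      simp only [cnt, if_pos hB]
      push_cast
      nlinarith
    · simp only [cnt, if_neg hB]
      push_cast
      nlinarith

variable [MeasurableSingletonClass A] [Countable A] [Inhabited A]

lemma Det.meas {m : ℕ} {C : Set (ℕ → A)} (h : Det m C) : MeasurableSet C := by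
  have h1 := h.prod.measurableSet
  have h2 : C = (fun a => (a, (fun _ => default : ℕ → A))) ⁻¹' (C ×ˢ univ) := by
    ext a; simp
  rw [h2]
  exact (measurable_id.prodMk measurable_const) h1

variable (μ : Measure A) [IsProbabilityMeasure μ]

theorem restart1 {m : ℕ} {C : Set (ℕ → A)} (hC : Det m C) {B : Set (ℕ → A)}
    (hB : MeasurableSet B) :
    iidL μ (C ∩ J132.sh m ⁻¹' B) = iidL μ C * iidL μ B := by
  have h := J132.restart μ hC.prod (B := B ×ˢ univ) (hB.prod MeasurableSet.univ)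
  have e : (C ×ˢ (univ : Set (ℕ → A))) ∩ sh2 m 0 ⁻¹' (B ×ˢ univ)
      = (C ∩ J132.sh m ⁻¹' B) ×ˢ univ := by
    ext p
    simp only [sh2, mem_inter_iff, mem_prod, mem_univ, and_true, mem_preimage]
  rw [e, Measure.prod_prod, Measure.prod_prod, Measure.prod_prod] at h
  simpa using h

theorem restart1_real {m : ℕ} {C : Set (ℕ → A)} (hC : Det m C) {B : Set (ℕ → A)}
    (hB : MeasurableSet B) :
    (iidL μ).real (C ∩ J132.sh m ⁻¹' B) = (iidL μ).real C * (iidL μ).real B := by
  simp only [measureReal_def, restart1 μ hC hB, ENNReal.toReal_mul]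

lemma det_univ (m : ℕ) : Det m (univ : Set (ℕ → A)) := fun _ _ _ => by simp

theorem sh_real (m : ℕ) {B : Set (ℕ → A)} (hB : MeasurableSet B) :
    (iidL μ).real (J132.sh m ⁻¹' B) = (iidL μ).real B := by
  have h := restart1_real μ (det_univ m) hB
  rw [Set.univ_inter] at h
  rw [h]; simp

lemma meas_cnt {B : Set (ℕ → A)} (hB : MeasurableSet B) (m k : ℕ) : Measurable (cnt B m k) := by
  classical
  induction k with
  | zero => exact measurable_const
  | succ k ih =>
    have h1 : Measurable fun a : ℕ → A => (if a ∈ B then 1 else 0 : ℕ) :=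
      Measurable.ite hB measurable_const measurable_const
    have h2 := h1.add (ih.comp (measurable_sh m))
    exact h2

/-- **Chernoff** -/
theorem cnt_le {B : Set (ℕ → A)} {m : ℕ} (hB : Det m B) (k c : ℕ) :
    (iidL μ).real {a | cnt B m k a ≤ c} ≤ 2 ^ c * (1 - (iidL μ).real B / 2) ^ k := by
  classical
  set q := (iidL μ).real B with hq
  have hq0 : 0 ≤ q := measureReal_nonneg
  have hq1 : q ≤ 1 := measureReal_le_one
  induction k generalizing c with
  | zero =>
    refine measureReal_le_one.trans ?_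
    simp only [pow_zero, mul_one]
    exact one_le_pow₀ (by norm_num)
  | succ k ih =>
    have hm : ∀ c, MeasurableSet {a : ℕ → A | cnt B m k a ≤ c} := fun c =>
      measurableSet_le (meas_cnt hB.meas m k) measurable_const
    have hc : (iidL μ).real Bᶜ = 1 - q := by
      rw [measureReal_compl hB.meas]; simp [hq]
    have hsub : {a : ℕ → A | cnt B m (k + 1) a ≤ c} ⊆
        (Bᶜ ∩ J132.sh m ⁻¹' {a | cnt B m k a ≤ c}) ∪
        (B ∩ J132.sh m ⁻¹' (if c = 0 then ∅ else {a | cnt B m k a ≤ c - 1})) := by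
      intro a ha
      simp only [mem_ofPred_eq, cnt] at ha
      by_cases h : a ∈ B
      · right
        rw [if_pos h] at ha
        refine ⟨h, ?_⟩
        have hc0 : c ≠ 0 := by omega
        rw [if_neg hc0]
        simp only [mem_preimage, mem_ofPred_eq]
        omega
      · left
        rw [if_neg h] at ha
        refine ⟨h, ?_⟩
        simp only [mem_preimage, mem_ofPred_eq]
        omega
    have hP : 0 ≤ (1 - q / 2) ^ k := pow_nonneg (by linarith) k
    have h1 : (iidL μ).real (Bᶜ ∩ J132.sh m ⁻¹' {a | cnt B m k a ≤ c})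
        ≤ (1 - q) * (2 ^ c * (1 - q / 2) ^ k) := by
      rw [restart1_real μ hB.compl (hm c), hc]
      exact mul_le_mul_of_nonneg_left (ih c) (by linarith)
    have h2 : (iidL μ).real (B ∩ J132.sh m ⁻¹' (if c = 0 then ∅ else {a | cnt B m k a ≤ c - 1}))
        ≤ q / 2 * (2 ^ c * (1 - q / 2) ^ k) := by
      by_cases hc0 : c = 0
      · rw [if_pos hc0]
        simp only [preimage_empty, inter_empty, measureReal_empty]
        positivity
      · rw [if_neg hc0, restart1_real μ hB (hm (c - 1))]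
        have h3 := ih (c - 1)
        have h4 : (2 : ℝ) ^ c = 2 * 2 ^ (c - 1) := by
          obtain ⟨c', rfl⟩ := Nat.exists_eq_succ_of_ne_zero hc0
          simp [pow_succ, mul_comm]
        rw [h4]
        calc q * (iidL μ).real {a | cnt B m k a ≤ c - 1}
            ≤ q * (2 ^ (c - 1) * (1 - q / 2) ^ k) := mul_le_mul_of_nonneg_left h3 hq0
          _ = _ := by ring
    calc (iidL μ).real {a | cnt B m (k + 1) a ≤ c}
        ≤ _ := measureReal_mono hsub (measure_ne_top _ _)
      _ ≤ _ := measureReal_union_le _ _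
      _ ≤ (1 - q) * (2 ^ c * (1 - q / 2) ^ k) + q / 2 * (2 ^ c * (1 - q / 2) ^ k) :=
          add_le_add h1 h2
      _ = 2 ^ c * (1 - q / 2) ^ (k + 1) := by rw [pow_succ]; ring

lemma meas_Al {G : Set (ℕ → A)} (hG : MeasurableSet G) (m k : ℕ) : MeasurableSet (Al G m k) := by
  induction k with
  | zero => exact MeasurableSet.univ
  | succ k ih => exact hG.inter (measurable_sh m ih)

theorem Al_compl {G : Set (ℕ → A)} {m : ℕ} (hG : MeasurableSet G) (k : ℕ) :
    (iidL μ).real (Al G m k)ᶜ ≤ k * (iidL μ).real Gᶜ := by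
  induction k with
  | zero => simp [Al]
  | succ k ih =>
    have h : (Al G m (k + 1))ᶜ = Gᶜ ∪ J132.sh m ⁻¹' (Al G m k)ᶜ := by
      ext a
      simp only [Al, mem_compl_iff, mem_inter_iff, mem_preimage, mem_union, not_and_or]
    rw [h]
    refine (measureReal_union_le _ _).trans ?_
    rw [sh_real μ m (meas_Al hG m k).compl]
    push_cast
    linarith

/-- `2^c (1 - q/2)^k ≤ (1 - q/4)^k` for `c ≤ k q / 4` -/
lemma chern_num {q : ℝ} (hq0 : 0 ≤ q) (hq1 : q ≤ 1) (k : ℕ) :
    (2 : ℝ) ^ (⌊(k : ℝ) * q / 4⌋₊) * (1 - q / 2) ^ k ≤ (1 - q / 4) ^ k := by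
  have h1 : (2 : ℝ) ^ (⌊(k : ℝ) * q / 4⌋₊) ≤ (1 + q / 4) ^ k := by
    have h2 : ((2 : ℝ) ^ (⌊(k : ℝ) * q / 4⌋₊)) ≤ (2 : ℝ) ^ ((k : ℝ) * q / 4) := by
      rw [← Real.rpow_natCast]
      exact Real.rpow_le_rpow_of_exponent_le (by norm_num) (Nat.floor_le (by positivity))
    refine h2.trans ?_
    have h3 : (2 : ℝ) ^ ((k : ℝ) * q / 4) = ((2 : ℝ) ^ (q / 4)) ^ k := by
      rw [← Real.rpow_natCast, ← Real.rpow_mul (by norm_num)]
      congr 1; ring
    rw [h3]
    refine pow_le_pow_left₀ (by positivity) ?_ k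
    -- 2^x ≤ 1 + x on [0,1], by Bernoulli
    have h4 := rpow_one_add_le_one_add_mul_self (s := (1 : ℝ)) (p := q / 4) (by norm_num)
      (by linarith) (by linarith)
    norm_num at h4
    linarith
  calc (2 : ℝ) ^ (⌊(k : ℝ) * q / 4⌋₊) * (1 - q / 2) ^ k
      ≤ (1 + q / 4) ^ k * (1 - q / 2) ^ k :=
        mul_le_mul_of_nonneg_right h1 (pow_nonneg (by linarith) k)
    _ = ((1 + q / 4) * (1 - q / 2)) ^ k := by rw [mul_pow]
    _ ≤ (1 - q / 4) ^ k := by
        refine pow_le_pow_left₀ (mul_nonneg (by linarith) (by linarith)) ?_ k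
        nlinarith

/-- one side -/
theorem one_sided (η : A → ℝ) (b : ℕ → ℝ) (hb : ∀ᶠ m in atTop, 0 < b m)
    (tight : ∀ ε : ℝ, 0 < ε → ∃ K : ℝ, ∀ᶠ m in atTop, (iidL μ).real {a | K * b m < |T η m a|} ≤ ε)
    (spr : ∃ s p : ℝ, 0 < s ∧ 0 < p ∧ ∀ᶠ m in atTop, p ≤ (iidL μ).real {a | s * b m ≤ |T η m a|})
    (scal : ∃ C : ℝ, ∀ k : ℕ, 1 ≤ k → ∀ᶠ m in atTop, b (k * m) ≤ C * √(k : ℝ) * b m) :
    ∃ s p : ℝ, 0 < s ∧ 0 < p ∧ ∀ᶠ m in atTop, p ≤ (iidL μ).real {a | T η m a ≤ -(s * b m)} := by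
  obtain ⟨s, p, hs, hp, hspr⟩ := spr
  obtain ⟨C, hC⟩ := scal
  obtain ⟨K, hK⟩ := tight (1 / 4) (by norm_num)
  set q := min (p / 2) 1 with hqd
  have hq0 : 0 < q := lt_min (by positivity) one_pos
  have hq1 : q ≤ 1 := min_le_right _ _
  have hqp : q ≤ p / 2 := min_le_left _ _
  -- choice of k
  have hk1 : ∀ᶠ k : ℕ in atTop, (1 - q / 4) ^ k ≤ 1 / 8 := by
    have := tendsto_pow_atTop_nhds_zero_of_lt_one (r := 1 - q / 4) (by linarith) (by linarith)
    exact (this.eventually (ge_mem_nhds (by norm_num : (0 : ℝ) < 1 / 8)))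
  have hk2 : ∀ᶠ k : ℕ in atTop, (|K| * |C| + 1) * 8 / (q * s) < √(k : ℝ) := by
    have := (Real.tendsto_sqrt_atTop.comp tendsto_natCast_atTop_atTop).eventually_gt_atTop
      ((|K| * |C| + 1) * 8 / (q * s))
    exact this
  obtain ⟨k, hk1, hk2, hk3⟩ := (hk1.and (hk2.and (eventually_ge_atTop 1))).exists
  have hkr : (1 : ℝ) ≤ k := by exact_mod_cast hk3
  set s' := q * s / 16 with hs'
  have hs'0 : 0 < s' := by positivity
  have hs's : s' ≤ s := by rw [hs']; nlinarith
  set p' := min q (1 / (8 * k)) with hp'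
  have hp'0 : 0 < p' := lt_min hq0 (by positivity)
  refine ⟨s', p', hs'0, hp'0, ?_⟩
  have hKk : ∀ᶠ m : ℕ in atTop, (iidL μ).real {a | K * b (k * m) < |T η (k * m) a|} ≤ 1 / 4 :=
    (tendsto_id.const_mul_atTop' (by omega : 0 < k)).eventually hK
  have hbk : ∀ᶠ m : ℕ in atTop, 0 < b (k * m) :=
    (tendsto_id.const_mul_atTop' (by omega : 0 < k)).eventually hb
  filter_upwards [hb, hspr, hC k hk3, hKk, hbk] with m hbm hsm hCm hKm hbkm
  by_contra hcon
  push Not at hcon
  set P := (iidL μ).real with hP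
  -- the up steps
  have hB : q ≤ P {a | s * b m ≤ T η m a} := by
    have hsub : {a : ℕ → A | s * b m ≤ |T η m a|} ⊆
        {a | s * b m ≤ T η m a} ∪ {a | T η m a ≤ -(s' * b m)} := by
      intro a ha
      simp only [mem_ofPred_eq] at ha
      rcases le_abs.1 ha with h | h
      · exact Or.inl h
      · right
        simp only [mem_ofPred_eq]
        nlinarith
    have h1 := measureReal_mono hsub (measure_ne_top (iidL μ) _)
    have h2 := h1.trans (measureReal_union_le _ _)
    have h3 : p' ≤ q := min_le_left _ _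
    have h4 := hsm.trans h2
    simp only [hP]
    linarith
  set B : Set (ℕ → A) := {a | s * b m ≤ T η m a} with hBd
  set G : Set (ℕ → A) := {a | -(s' * b m) < T η m a} with hGd
  have hBdet : Det m B := det_T η m (Ici (s * b m))
  have hGdet : Det m G := det_T η m (Ioi (-(s' * b m)))
  have hGc : P Gᶜ ≤ p' := by
    have : Gᶜ = {a | T η m a ≤ -(s' * b m)} := by
      ext a; simp [hGd]
    rw [this]; exact hcon.le
  have h1 : P (Al G m k)ᶜ ≤ 1 / 8 := by
    refine (Al_compl μ hGdet.meas k).trans ?_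
    have h2 : p' ≤ 1 / (8 * k) := min_le_right _ _
    calc (k : ℝ) * P Gᶜ ≤ k * (1 / (8 * k)) :=
          mul_le_mul_of_nonneg_left (hGc.trans h2) (by positivity)
      _ = 1 / 8 := by field_simp
  have h2 : P {a | cnt B m k a ≤ ⌊(k : ℝ) * q / 4⌋₊} ≤ 1 / 8 := by
    refine (cnt_le μ hBdet k _).trans ?_
    have h3 : (1 - P B / 2) ^ k ≤ (1 - q / 2) ^ k := by
      refine pow_le_pow_left₀ ?_ (by linarith) k
      have : P B ≤ 1 := measureReal_le_one
      linarith
    calc (2 : ℝ) ^ ⌊(k : ℝ) * q / 4⌋₊ * (1 - P B / 2) ^ k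
        ≤ 2 ^ ⌊(k : ℝ) * q / 4⌋₊ * (1 - q / 2) ^ k :=
          mul_le_mul_of_nonneg_left h3 (by positivity)
      _ ≤ (1 - q / 4) ^ k := chern_num hq0.le hq1 k
      _ ≤ 1 / 8 := hk1
  have hsub : (Al G m k)ᶜᶜ ∩ {a | cnt B m k a ≤ ⌊(k : ℝ) * q / 4⌋₊}ᶜ ⊆
      {a | K * b (k * m) < |T η (k * m) a|} := by
    rintro a ⟨ha1, ha2⟩
    rw [compl_compl] at ha1
    simp only [mem_compl_iff, mem_ofPred_eq, not_le] at ha2
    have h3 := T_ge (α := s * b m) k a ha1
    have h4 : (k : ℝ) * q / 4 ≤ cnt B m k a := by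
      have h5 := Nat.lt_floor_add_one ((k : ℝ) * q / 4)
      have h6 : (⌊(k : ℝ) * q / 4⌋₊ : ℝ) + 1 ≤ cnt B m k a := by exact_mod_cast ha2
      linarith
    have h5 : (k : ℝ) * q * s / 8 * b m ≤ T η (k * m) a := by
      refine le_trans ?_ h3
      have h6 : (k : ℝ) * q / 4 * (s * b m + s' * b m) ≤
          cnt B m k a * (s * b m + s' * b m) :=
        mul_le_mul_of_nonneg_right h4 (by positivity)
      have h7 : (k : ℝ) * (s' * b m) = (k : ℝ) * q * s / 16 * b m := by rw [hs']; ring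
      have h8 : (k : ℝ) * q / 4 * (s * b m) = (k : ℝ) * q * s / 4 * b m := by ring
      have h9 : 0 ≤ (k : ℝ) * q / 4 * (s' * b m) := by positivity
      have h10 : 0 ≤ (k : ℝ) * q * s * b m := by positivity
      nlinarith
    simp only [mem_ofPred_eq]
    refine lt_of_lt_of_le ?_ (h5.trans (le_abs_self _))
    have h6 : K * b (k * m) ≤ |K| * |C| * √(k : ℝ) * b m := by
      calc K * b (k * m) ≤ |K| * b (k * m) :=
            mul_le_mul_of_nonneg_right (le_abs_self K) hbkm.le
        _ ≤ |K| * (C * √(k : ℝ) * b m) := mul_le_mul_of_nonneg_left hCm (abs_nonneg _)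
        _ ≤ |K| * (|C| * √(k : ℝ) * b m) := by
            refine mul_le_mul_of_nonneg_left ?_ (abs_nonneg _)
            exact mul_le_mul_of_nonneg_right
              (mul_le_mul_of_nonneg_right (le_abs_self C) (Real.sqrt_nonneg _)) hbm.le
        _ = _ := by ring
    refine lt_of_le_of_lt h6 ?_
    rw [div_lt_iff₀ (by positivity)] at hk2
    have h7 : √(k : ℝ) * √(k : ℝ) = k := Real.mul_self_sqrt (by positivity)
    have h8 : 0 < √(k : ℝ) := Real.sqrt_pos.2 (by positivity)
    have h9 : (|K| * |C| + 1) * 8 * √(k : ℝ) < √(k : ℝ) * (q * s) * √(k : ℝ) :=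
      mul_lt_mul_of_pos_right hk2 h8
    have h10 : √(k : ℝ) * (q * s) * √(k : ℝ) = k * q * s := by
      calc √(k : ℝ) * (q * s) * √(k : ℝ) = (√(k : ℝ) * √(k : ℝ)) * q * s := by ring
        _ = _ := by rw [h7]
    rw [h10] at h9
    have h11 : |K| * |C| * √(k : ℝ) < k * q * s / 8 := by nlinarith
    exact mul_lt_mul_of_pos_right h11 hbm
  have hm1 : MeasurableSet (Al G m k) := meas_Al hGdet.meas m k
  have hm2 : MeasurableSet {a : ℕ → A | cnt B m k a ≤ ⌊(k : ℝ) * q / 4⌋₊} :=
    measurableSet_le (meas_cnt hBdet.meas m k) measurable_const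
  have h3 : 1 - P (((Al G m k)ᶜ) ∪ {a | cnt B m k a ≤ ⌊(k : ℝ) * q / 4⌋₊}) ≤
      P {a | K * b (k * m) < |T η (k * m) a|} := by
    have h4 : P ((Al G m k)ᶜ ∪ {a | cnt B m k a ≤ ⌊(k : ℝ) * q / 4⌋₊})ᶜ ≤
        P {a | K * b (k * m) < |T η (k * m) a|} := by
      refine measureReal_mono ?_ (measure_ne_top _ _)
      rw [compl_union]; exact hsub
    have h5 : P ((Al G m k)ᶜ ∪ {a | cnt B m k a ≤ ⌊(k : ℝ) * q / 4⌋₊})ᶜ =
        1 - P ((Al G m k)ᶜ ∪ {a | cnt B m k a ≤ ⌊(k : ℝ) * q / 4⌋₊}) := by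
      simp only [hP]
      rw [measureReal_compl (hm1.compl.union hm2)]; simp
    linarith
  have h4 : P (((Al G m k)ᶜ) ∪ {a | cnt B m k a ≤ ⌊(k : ℝ) * q / 4⌋₊}) ≤ 1 / 8 + 1 / 8 :=
    (measureReal_union_le _ _).trans (add_le_add h1 h2)
  linarith

/-- both sides -/
theorem two_sided (η : A → ℝ) (b : ℕ → ℝ) (hb : ∀ᶠ m in atTop, 0 < b m)
    (tight : ∀ ε : ℝ, 0 < ε → ∃ K : ℝ, ∀ᶠ m in atTop, (iidL μ).real {a | K * b m < |T η m a|} ≤ ε)
    (spr : ∃ s p : ℝ, 0 < s ∧ 0 < p ∧ ∀ᶠ m in atTop, p ≤ (iidL μ).real {a | s * b m ≤ |T η m a|})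
    (scal : ∃ C : ℝ, ∀ k : ℕ, 1 ≤ k → ∀ᶠ m in atTop, b (k * m) ≤ C * √(k : ℝ) * b m) :
    ∃ s K p : ℝ, 0 < s ∧ 0 < K ∧ 0 < p ∧ ∀ᶠ m in atTop,
      p ≤ (iidL μ).real {a | s * b m ≤ T η m a ∧ T η m a ≤ K * b m} ∧
      p ≤ (iidL μ).real {a | s * b m ≤ -T η m a ∧ -T η m a ≤ K * b m} := by
  have h1 := one_sided μ η b hb tight spr scal
  have h2 := one_sided μ (fun x => - η x) b hb
    (by simpa only [T_neg, abs_neg] using tight) (by simpa only [T_neg, abs_neg] using spr) scal
  obtain ⟨s1, p1, hs1, hp1, h1⟩ := h1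
  obtain ⟨s2, p2, hs2, hp2, h2⟩ := h2
  obtain ⟨K, hK⟩ := tight (min p1 p2 / 2) (by positivity)
  refine ⟨min s1 s2, max K 1, min p1 p2 / 2, lt_min hs1 hs2, lt_max_of_lt_right one_pos,
    by positivity, ?_⟩
  filter_upwards [hb, h1, h2, hK] with m hbm h1 h2 hK
  have e1 : min s1 s2 ≤ s1 := min_le_left _ _
  have e2 : min s1 s2 ≤ s2 := min_le_right _ _
  have e3 : K ≤ max K 1 := le_max_left _ _
  have e4 : min p1 p2 ≤ p1 := min_le_left _ _
  have e5 : min p1 p2 ≤ p2 := min_le_right _ _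
  constructor
  · have hsub : {a : ℕ → A | T (fun x => - η x) m a ≤ -(s2 * b m)} ⊆
        {a | min s1 s2 * b m ≤ T η m a ∧ T η m a ≤ max K 1 * b m} ∪
        {a | K * b m < |T η m a|} := by
      intro a ha
      simp only [mem_ofPred_eq, T_neg] at ha
      by_cases hk : K * b m < |T η m a|
      · exact Or.inr hk
      · left
        push Not at hk
        refine ⟨?_, ?_⟩
        · nlinarith
        · refine (le_abs_self _).trans (hk.trans ?_)
          exact mul_le_mul_of_nonneg_right e3 hbm.le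
    have h3 := (measureReal_mono hsub (measure_ne_top (iidL μ) _)).trans
      (measureReal_union_le _ _)
    linarith
  · have hsub : {a : ℕ → A | T η m a ≤ -(s1 * b m)} ⊆
        {a | min s1 s2 * b m ≤ -T η m a ∧ -T η m a ≤ max K 1 * b m} ∪
        {a | K * b m < |T η m a|} := by
      intro a ha
      simp only [mem_ofPred_eq] at ha
      by_cases hk : K * b m < |T η m a|
      · exact Or.inr hk
      · left
        push Not at hk
        refine ⟨?_, ?_⟩
        · nlinarith
        · refine (neg_le_abs _).trans (hk.trans ?_)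
          exact mul_le_mul_of_nonneg_right e3 hbm.le
    have h3 := (measureReal_mono hsub (measure_ne_top (iidL μ) _)).trans
      (measureReal_union_le _ _)
    linarith

/-! ### steering -/

/-- `k` steps of size in `[s, K]` towards `0` -/
def St (η : A → ℝ) (m : ℕ) (s K y : ℝ) : ℕ → Set (ℕ → A)
  | 0 => univ
  | k + 1 => (St η m s K y k ∩ {a | y + T η (k * m) a ≤ 0}) ∩
        J132.sh (k * m) ⁻¹' {a | s ≤ T η m a ∧ T η m a ≤ K} ∪
      (St η m s K y k ∩ {a | 0 < y + T η (k * m) a}) ∩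
        J132.sh (k * m) ⁻¹' {a | s ≤ -T η m a ∧ -T η m a ≤ K}

omit [MeasurableSingletonClass A] [Countable A] [Inhabited A] in
lemma St_bound {η : A → ℝ} {m : ℕ} {s K y : ℝ} (hs : 0 ≤ s) :
    ∀ (k : ℕ) (a : ℕ → A), a ∈ St η m s K y k → |y + T η (k * m) a| ≤ max (|y| - k * s) K := by
  intro k
  induction k with
  | zero => intro a _; simp [T_zero]
  | succ k ih =>
    intro a ha
    rw [T_mul_succ']
    push_cast
    rcases ha with ⟨⟨h1, h2⟩, h3, h4⟩ | ⟨⟨h1, h2⟩, h3, h4⟩
    · have h5 := ih a h1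
      have h2' : y + T η (k * m) a ≤ 0 := h2
      set x := y + T η (k * m) a
      set t := T η m (J132.sh (k * m) a)
      have e : y + (T η (k * m) a + t) = x + t := by ring
      rw [e]
      rcases le_total (x + t) 0 with h6 | h6
      · rw [abs_of_nonpos h6]
        rw [abs_of_nonpos h2'] at h5
        rcases le_max_iff.1 h5 with h7 | h7
        · refine le_max_of_le_left ?_; linarith
        · refine le_max_of_le_right ?_; linarith
      · rw [abs_of_nonneg h6]
        refine le_max_of_le_right ?_; linarith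
    · have h5 := ih a h1
      have h2' : 0 < y + T η (k * m) a := h2
      set x := y + T η (k * m) a
      set t := T η m (J132.sh (k * m) a)
      have e : y + (T η (k * m) a + t) = x + t := by ring
      rw [e]
      rcases le_total (x + t) 0 with h6 | h6
      · rw [abs_of_nonpos h6]
        refine le_max_of_le_right ?_; linarith
      · rw [abs_of_nonneg h6]
        rw [abs_of_pos h2'] at h5
        rcases le_max_iff.1 h5 with h7 | h7
        · refine le_max_of_le_left ?_; linarith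
        · refine le_max_of_le_right ?_; linarith

omit [MeasurableSingletonClass A] [Countable A] [Inhabited A] in
lemma det_St (η : A → ℝ) (m : ℕ) (s K y : ℝ) (k : ℕ) : Det (k * m) (St η m s K y k) := by
  induction k with
  | zero => intro a b _; simp [St]
  | succ k ih =>
    have e : (k + 1) * m = k * m + m := by ring
    have hle : k * m ≤ (k + 1) * m := by rw [e]; omega
    intro a b hab
    have h1 : a ∈ St η m s K y k ↔ b ∈ St η m s K y k := ih.mono hle a b hab
    have h2 : T η (k * m) a = T η (k * m) b := T_congr fun i hi => hab i (by omega)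
    have h3 : T η m (J132.sh (k * m) a) = T η m (J132.sh (k * m) b) :=
      T_congr fun i hi => hab (k * m + i) (by omega)
    simp only [St, mem_union, mem_inter_iff, mem_ofPred_eq, mem_preimage, h1, h2, h3]

theorem St_mass (η : A → ℝ) (m : ℕ) {s K p : ℝ} (hp : 0 ≤ p)
    (h1 : p ≤ (iidL μ).real {a | s ≤ T η m a ∧ T η m a ≤ K})
    (h2 : p ≤ (iidL μ).real {a | s ≤ -T η m a ∧ -T η m a ≤ K}) (y : ℝ) (k : ℕ) :
    p ^ k ≤ (iidL μ).real (St η m s K y k) := by
  induction k with
  | zero => simp [St]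
  | succ k ih =>
    set E := St η m s K y k with hE
    set B₁ : Set (ℕ → A) := {a | s ≤ T η m a ∧ T η m a ≤ K} with hB₁
    set B₂ : Set (ℕ → A) := {a | s ≤ -T η m a ∧ -T η m a ≤ K} with hB₂
    have dB₁ : Det m B₁ := by
      intro a b hab; simp only [hB₁, mem_ofPred_eq, T_congr hab]
    have dB₂ : Det m B₂ := by
      intro a b hab; simp only [hB₂, mem_ofPred_eq, T_congr hab]
    have dE : Det (k * m) E := det_St η m s K y k
    have d₁ : Det (k * m) (E ∩ {a | y + T η (k * m) a ≤ 0}) := by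
      refine dE.inter ?_
      intro a b hab; simp only [mem_ofPred_eq, T_congr hab]
    have d₂ : Det (k * m) (E ∩ {a | 0 < y + T η (k * m) a}) := by
      refine dE.inter ?_
      intro a b hab; simp only [mem_ofPred_eq, T_congr hab]
    have hdisj : Disjoint ((E ∩ {a | y + T η (k * m) a ≤ 0}) ∩ J132.sh (k * m) ⁻¹' B₁)
        ((E ∩ {a | 0 < y + T η (k * m) a}) ∩ J132.sh (k * m) ⁻¹' B₂) := by
      rw [Set.disjoint_left]
      rintro a ⟨⟨_, h3⟩, _⟩ ⟨⟨_, h4⟩, _⟩
      have h3' : y + T η (k * m) a ≤ 0 := h3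
      have h4' : 0 < y + T η (k * m) a := h4
      exact absurd h3' (not_le.2 h4')
    have e1 : St η m s K y (k + 1) = ((E ∩ {a | y + T η (k * m) a ≤ 0}) ∩
        J132.sh (k * m) ⁻¹' B₁) ∪ ((E ∩ {a | 0 < y + T η (k * m) a}) ∩
        J132.sh (k * m) ⁻¹' B₂) := rfl
    rw [e1, measureReal_union hdisj (d₂.meas.inter (measurable_sh _ dB₂.meas)),
      restart1_real μ d₁ dB₁.meas, restart1_real μ d₂ dB₂.meas]
    have e2 : (iidL μ).real E = (iidL μ).real (E ∩ {a | y + T η (k * m) a ≤ 0}) +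
        (iidL μ).real (E ∩ {a | 0 < y + T η (k * m) a}) := by
      rw [← measureReal_union _ d₂.meas]
      · congr 1
        ext a
        simp only [mem_union, mem_inter_iff, mem_ofPred_eq]
        constructor
        · intro h
          rcases le_or_gt (y + T η (k * m) a) 0 with h3 | h3
          · exact Or.inl ⟨h, h3⟩
          · exact Or.inr ⟨h, h3⟩
        · rintro (h | h) <;> exact h.1
      · rw [Set.disjoint_left]
        rintro a ⟨_, h3⟩ ⟨_, h4⟩
        have h3' : y + T η (k * m) a ≤ 0 := h3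
        have h4' : 0 < y + T η (k * m) a := h4
        exact absurd h3' (not_le.2 h4')
    calc p ^ (k + 1) = p ^ k * p := pow_succ _ _
      _ ≤ (iidL μ).real E * p := mul_le_mul_of_nonneg_right ih hp
      _ = (iidL μ).real (E ∩ {a | y + T η (k * m) a ≤ 0}) * p +
          (iidL μ).real (E ∩ {a | 0 < y + T η (k * m) a}) * p := by rw [e2]; ring
      _ ≤ _ := add_le_add (mul_le_mul_of_nonneg_left h1 measureReal_nonneg)
          (mul_le_mul_of_nonneg_left h2 measureReal_nonneg)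

/-- **steering** -/
theorem steer (η : A → ℝ) (m : ℕ) {s K p : ℝ} (hs : 0 ≤ s) (hp : 0 ≤ p)
    (h1 : p ≤ (iidL μ).real {a | s ≤ T η m a ∧ T η m a ≤ K})
    (h2 : p ≤ (iidL μ).real {a | s ≤ -T η m a ∧ -T η m a ≤ K}) (y : ℝ) (k : ℕ)
    (hy : |y| ≤ K + k * s) :
    p ^ k ≤ (iidL μ).real {a | |y + T η (k * m) a| ≤ K} := by
  refine (St_mass μ η m hp h1 h2 y k).trans (measureReal_mono ?_ (measure_ne_top _ _))
  intro a ha
  refine (St_bound hs k a ha).trans (max_le ?_ le_rfl)
  linarith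

end Crest.Agent.R154.Win956
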