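import Crest.Agent.R154.Smooth_178

/-! Row 154, road 801 (helper346): ONE WINDOW, abstract. Two independent lists of blocks, cut at
deterministic first passages; contact of the two pieces; both nonlocal, X local, Y local. -/

set_option autoImplicit false
set_option linter.unusedSectionVars false

namespace Crest.Agent.R154.WinAbs346

open scoped ENNReal
open Crest.Agent.R154.B5A
open Crest.Agent.R154.FP178 (fp mL dL)

/-! ### the tie -/

lemma tie {G ι : Type*} [AddCommGroup G] (wA : ι → ℝ≥0∞) (hw : ∑' i, wA i ≤ 1) (pos : ι → G)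
    (m g b : G → ℝ≥0∞) (hm : ∀ z, m z ≤ g z + b z) {M β K : ℝ≥0∞} (hgM : ∀ z, g z ≤ M)
    (hg1 : ∑' z, g z ≤ 1) (hb : ∑' z, b z ≤ β) (R : G → ℝ≥0∞) (hR1 : ∀ x, R x ≤ 1)
    (hK : ∀ μ : G → ℝ≥0∞, ∑' x, μ x ≤ 1 → (∀ x, μ x ≤ M) → ∑' x, μ x * R x ≤ K) :
    ∑' i, wA i * ∑' z, m z * R (pos i + z) ≤ K + β := by
  have shift : ∀ (f : G → ℝ≥0∞) (i : ι), ∑' z, f z * R (pos i + z) = ∑' x, f (x - pos i) * R x := by
    intro f i
    rw [← (Equiv.addLeft (pos i)).tsum_eq (fun x => f (x - pos i) * R x)]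
    refine tsum_congr fun z => ?_
    simp
  calc ∑' i, wA i * ∑' z, m z * R (pos i + z)
      ≤ ∑' i, (wA i * ∑' x, g (x - pos i) * R x + wA i * ∑' z, b z) := by
        refine ENNReal.tsum_le_tsum fun i => ?_
        rw [← mul_add]
        refine mul_le_mul' le_rfl ?_
        calc ∑' z, m z * R (pos i + z) ≤ ∑' z, (g z * R (pos i + z) + b z) := by
              refine ENNReal.tsum_le_tsum fun z => ?_
              calc m z * R (pos i + z) ≤ (g z + b z) * R (pos i + z) := mul_le_mul' (hm z) le_rfl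
                _ = g z * R (pos i + z) + b z * R (pos i + z) := add_mul _ _ _
                _ ≤ g z * R (pos i + z) + b z * 1 :=
                    add_le_add le_rfl (mul_le_mul' le_rfl (hR1 _))
                _ = _ := by rw [mul_one]
          _ = _ := by rw [ENNReal.tsum_add, shift]
    _ = ∑' x, (∑' i, wA i * g (x - pos i)) * R x + (∑' i, wA i) * ∑' z, b z := by
        rw [ENNReal.tsum_add, ENNReal.tsum_mul_right]
        congr 1
        simp_rw [← ENNReal.tsum_mul_left, ← ENNReal.tsum_mul_right]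
        rw [ENNReal.tsum_comm]
        refine tsum_congr fun x => tsum_congr fun i => by ring
    _ ≤ K + 1 * β := by
        refine add_le_add (hK _ ?_ ?_) (mul_le_mul' hw hb)
        · calc ∑' x, ∑' i, wA i * g (x - pos i) = ∑' i, wA i * ∑' x, g (x - pos i) := by
                rw [ENNReal.tsum_comm]
                refine tsum_congr fun i => ENNReal.tsum_mul_left
            _ = ∑' i, wA i * ∑' z, g z := by
                refine tsum_congr fun i => ?_
                rw [← (Equiv.subRight (pos i)).tsum_eq g]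
                rfl
            _ ≤ ∑' i, wA i * 1 := ENNReal.tsum_le_tsum fun i => mul_le_mul' le_rfl hg1
            _ ≤ 1 := by simpa using hw
        · intro x
          calc ∑' i, wA i * g (x - pos i) ≤ ∑' i, wA i * M :=
                ENNReal.tsum_le_tsum fun i => mul_le_mul' le_rfl (hgM _)
            _ = (∑' i, wA i) * M := ENNReal.tsum_mul_right
            _ ≤ 1 * M := mul_le_mul' hw le_rfl
            _ = M := one_mul _
    _ = K + β := by rw [one_mul]

/-! ### one walker: cut the list at two first passages -/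

section one

variable {B : Type*} (Λ : B → ℝ≥0∞) (ht : B → ℕ)

open Classical in
/-- first passage list of depth `a`, overshoot at most `i` -/
noncomputable def wt (a i : ℕ) (L : List B) : ℝ≥0∞ :=
  if fp ht a L ∧ HT ht L ≤ a + i then LW Λ L else 0

open Classical in
lemma wt_le (h1 : ∀ b, 1 ≤ ht b) (hΛ : ∑' b, Λ b ≤ 1) (a i : ℕ) : ∑' L, wt Λ ht a i L ≤ 1 := by
  refine le_trans (ENNReal.tsum_le_tsum fun L => ?_) (FP178.sum_FP Λ ht h1 hΛ a)
  unfold wt
  by_cases h : fp ht a L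
  · rw [if_pos h]
    split_ifs
    · exact le_rfl
    · exact bot_le
  · rw [if_neg h, if_neg (fun h' => h h'.1)]

open Classical in
theorem two (h1 : ∀ b, 1 ≤ ht b) (hΛ : ∑' b, Λ b ≤ 1) (hU : ∀ n, U Λ ht n ≤ 1)
    (D T i0 N : ℕ) (hN : D + i0 + T ≤ N) (ε : ℝ≥0∞)
    (hD : ∑' L, (if fp ht D L ∧ D + i0 < HT ht L then LW Λ L else 0) ≤ ε)
    (hT : ∑' L, (if fp ht T L ∧ T + i0 < HT ht L then LW Λ L else 0) ≤ ε)
    (F : List B → ℝ≥0∞) (hF : ∀ L, F L ≤ 1) (Φ : List B → List B → ℝ≥0∞)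
    (hΦ : ∀ P A R, fp ht D P → HT ht P ≤ D + i0 → fp ht T A → HT ht A ≤ T + i0 →
      HT ht (P ++ (A ++ R)) = N → F (P ++ (A ++ R)) ≤ Φ P A) :
    ∑' L, (if HT ht L = N then LW Λ L * F L else 0)
      ≤ 2 * ε + ∑' P, ∑' A, wt Λ ht D i0 P * wt Λ ht T i0 A * Φ P A := by
  set f : List B → ℝ≥0∞ := fun L => if HT ht L = N then F L else 0 with hf
  -- the rest has mass at most one
  have hrest : ∀ (P : List B) (c : ℝ≥0∞), (∀ R, HT ht (P ++ R) = N → F (P ++ R) ≤ c) →
      ∑' R, LW Λ R * f (P ++ R) ≤ c := by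
    intro P c hc
    calc ∑' R, LW Λ R * f (P ++ R)
        ≤ ∑' R, (if HT ht R = N - HT ht P then LW Λ R else 0) * c := by
          refine ENNReal.tsum_le_tsum fun R => ?_
          by_cases h : HT ht (P ++ R) = N
          · have h2 : HT ht R = N - HT ht P := by rw [HT_append] at h; omega
            rw [hf]
            simp only [if_pos h, if_pos h2]
            exact mul_le_mul' le_rfl (hc R h)
          · rw [hf]; simp only [if_neg h, mul_zero, zero_le]
      _ = U Λ ht (N - HT ht P) * c := by rw [ENNReal.tsum_mul_right]; rfl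
      _ ≤ 1 * c := mul_le_mul' (hU _) le_rfl
      _ = c := one_mul c
  have hin : ∀ P, fp ht D P → HT ht P ≤ D + i0 → ∑' L2, LW Λ L2 * f (P ++ L2)
      ≤ ε + ∑' A, wt Λ ht T i0 A * Φ P A := by
    intro P hP hPi
    have e1 : ∑' L2, LW Λ L2 * f (P ++ L2)
        = ∑' L2, (if T ≤ HT ht L2 then LW Λ L2 * f (P ++ L2) else 0) := by
      refine tsum_congr fun L2 => ?_
      by_cases h : T ≤ HT ht L2
      · rw [if_pos h]
      · rw [if_neg h, hf]
        have : ¬ HT ht (P ++ L2) = N := by rw [HT_append]; omega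
        simp only [if_neg this, mul_zero]
    rw [e1, FP178.split Λ ht h1 T (fun L2 => f (P ++ L2))]
    calc ∑' A, (if fp ht T A then LW Λ A * ∑' R, LW Λ R * f (P ++ (A ++ R)) else 0)
        ≤ ∑' A, ((if fp ht T A ∧ T + i0 < HT ht A then LW Λ A else 0)
            + wt Λ ht T i0 A * Φ P A) := by
          refine ENNReal.tsum_le_tsum fun A => ?_
          by_cases hA : fp ht T A
          · rw [if_pos hA]
            by_cases hAi : HT ht A ≤ T + i0
            · have hr := hrest (P ++ A) (Φ P A) (fun R hR => by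
                rw [List.append_assoc] at hR ⊢
                exact hΦ P A R hP hPi hA hAi hR)
              simp only [List.append_assoc] at hr
              have : wt Λ ht T i0 A = LW Λ A := by unfold wt; rw [if_pos ⟨hA, hAi⟩]
              rw [this]
              exact le_add_left (mul_le_mul' le_rfl hr)
            · have hr := hrest (P ++ A) 1 (fun R _ => hF _)
              simp only [List.append_assoc] at hr
              rw [if_pos (⟨hA, by omega⟩ : fp ht T A ∧ T + i0 < HT ht A)]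
              refine le_add_right ?_
              calc LW Λ A * _ ≤ LW Λ A * 1 := mul_le_mul' le_rfl hr
                _ = _ := mul_one _
          · rw [if_neg hA]; exact bot_le
      _ ≤ ε + ∑' A, wt Λ ht T i0 A * Φ P A := by
          rw [ENNReal.tsum_add]
          exact add_le_add hT le_rfl
  have e0 : ∑' L, (if HT ht L = N then LW Λ L * F L else 0)
      = ∑' L, (if D ≤ HT ht L then LW Λ L * f L else 0) := by
    refine tsum_congr fun L => ?_
    rw [hf]
    by_cases h : HT ht L = N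
    · simp only [if_pos h]; rw [if_pos (by omega)]
    · simp only [if_neg h, mul_zero, ite_self]
  rw [e0, FP178.split Λ ht h1 D f]
  calc ∑' P, (if fp ht D P then LW Λ P * ∑' L2, LW Λ L2 * f (P ++ L2) else 0)
      ≤ ∑' P, ((if fp ht D P ∧ D + i0 < HT ht P then LW Λ P else 0)
          + wt Λ ht D i0 P * (ε + ∑' A, wt Λ ht T i0 A * Φ P A)) := by
        refine ENNReal.tsum_le_tsum fun P => ?_
        by_cases hP : fp ht D P
        · rw [if_pos hP]
          by_cases hPi : HT ht P ≤ D + i0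
          · have : wt Λ ht D i0 P = LW Λ P := by unfold wt; rw [if_pos ⟨hP, hPi⟩]
            rw [this]
            exact le_add_left (mul_le_mul' le_rfl (hin P hP hPi))
          · rw [if_pos (⟨hP, by omega⟩ : fp ht D P ∧ D + i0 < HT ht P)]
            refine le_add_right ?_
            calc LW Λ P * _ ≤ LW Λ P * 1 := mul_le_mul' le_rfl (hrest P 1 (fun R _ => hF _))
              _ = _ := mul_one _
        · rw [if_neg hP]; exact bot_le
    _ = ∑' P, (if fp ht D P ∧ D + i0 < HT ht P then LW Λ P else 0)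
          + (∑' P, wt Λ ht D i0 P) * ε
          + ∑' P, ∑' A, wt Λ ht D i0 P * wt Λ ht T i0 A * Φ P A := by
        rw [ENNReal.tsum_add]
        simp_rw [mul_add]
        rw [ENNReal.tsum_add, ENNReal.tsum_mul_right, ← add_assoc]
        congr 1
        refine tsum_congr fun P => ?_
        rw [← ENNReal.tsum_mul_left]
        refine tsum_congr fun A => by rw [mul_assoc]
    _ ≤ ε + 1 * ε + ∑' P, ∑' A, wt Λ ht D i0 P * wt Λ ht T i0 A * Φ P A := by
        gcongr
        exact wt_le Λ ht h1 hΛ D i0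
    _ = _ := by rw [one_mul, two_mul]

end one

/-! ### two walkers, one window -/

section pair

variable {B C G : Type*} [AddCommGroup G]
  (ΛX : B → ℝ≥0∞) (hX : B → ℕ) (zX : B → G) (ΛY : C → ℝ≥0∞) (hY : C → ℕ) (zY : C → G)

open Classical in
lemma sum_mL_apply {B : Type*} (Λ : B → ℝ≥0∞) (ht : B → ℕ) (z : B → G) (a : ℕ) (R : G → ℝ≥0∞) :
    ∑' L, (if fp ht a L then LW Λ L * R (dL z L) else 0) = ∑' x, mL Λ ht z a x * R x := by
  unfold FP178.mL
  simp_rw [← ENNReal.tsum_mul_right]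
  rw [ENNReal.tsum_comm]
  refine tsum_congr fun L => ?_
  rw [tsum_eq_single (dL z L)]
  · by_cases h : fp ht a L
    · simp [h]
    · simp [h]
  · intro x hx
    by_cases h : fp ht a L
    · simp [h, Ne.symm hx]
    · simp [h]

open Classical in
theorem window (h1X : ∀ b, 1 ≤ hX b) (h1Y : ∀ b, 1 ≤ hY b) (hΛX : ∑' b, ΛX b ≤ 1)
    (hΛY : ∑' b, ΛY b ≤ 1) (hUX : ∀ n, U ΛX hX n ≤ 1) (hUY : ∀ n, U ΛY hY n ≤ 1)
    (D D' T i0 N : ℕ) (hN : D + i0 + T ≤ N) (hN' : D' + i0 + T ≤ N) (ε : ℝ≥0∞)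
    (oX : ∀ a, ∑' L, (if fp hX a L ∧ a + i0 < HT hX L then LW ΛX L else 0) ≤ ε)
    (oY : ∀ a, ∑' L, (if fp hY a L ∧ a + i0 < HT hY L then LW ΛY L else 0) ≤ ε)
    (w : G) (Ev : List B → List C → Prop) (Q : G → List B → List C → Prop)
    (hEv : ∀ P A R P' A' R', fp hX D P → HT hX P ≤ D + i0 → fp hX T A → HT hX A ≤ T + i0 →
      HT hX (P ++ (A ++ R)) = N → fp hY D' P' → HT hY P' ≤ D' + i0 → fp hY T A' →
      HT hY A' ≤ T + i0 → HT hY (P' ++ (A' ++ R')) = N →
      Ev (P ++ (A ++ R)) (P' ++ (A' ++ R')) → Q (w + dL zY P' + dL zX P) A A')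
    (EX EY : Set G) (uX uY : ℝ≥0∞)
    (nX : ∑' A, (if dL zX A ∈ EX then 0 else wt ΛX hX T i0 A) ≤ uX)
    (nY : ∑' A, (if dL zY A ∈ EY then 0 else wt ΛY hY T i0 A) ≤ uY)
    (gX bX gY bY : G → ℝ≥0∞) {MX MY βX βY : ℝ≥0∞}
    (mX : ∀ z, mL ΛX hX zX D z ≤ gX z + bX z) (gX1 : ∀ z, gX z ≤ MX) (gX2 : ∑' z, gX z ≤ 1)
    (bX1 : ∑' z, bX z ≤ βX)
    (mY : ∀ z, mL ΛY hY zY D' z ≤ gY z + bY z) (gY1 : ∀ z, gY z ≤ MY) (gY2 : ∑' z, gY z ≤ 1)
    (bY1 : ∑' z, bY z ≤ βY) (K2 K3 : ℝ≥0∞)
    (H2 : ∀ μ : G → ℝ≥0∞, ∑' x, μ x ≤ 1 → (∀ x, μ x ≤ MX) → ∑' x, μ x * ∑' A, ∑' A',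
      (if dL zX A ∈ EX ∧ Q x A A' then wt ΛX hX T i0 A * wt ΛY hY T i0 A' else 0) ≤ K2)
    (H3 : ∀ μ : G → ℝ≥0∞, ∑' x, μ x ≤ 1 → (∀ x, μ x ≤ MY) → ∑' x, μ x * ∑' A, ∑' A',
      (if dL zY A' ∈ EY ∧ Q x A A' then wt ΛX hX T i0 A * wt ΛY hY T i0 A' else 0) ≤ K3) :
    ∑' LX, ∑' LY, (if HT hX LX = N ∧ HT hY LY = N ∧ Ev LX LY then LW ΛX LX * LW ΛY LY else 0)
      ≤ 4 * ε + (uX * uY + (K2 + βX) + (K3 + βY)) := by
  have wX1 := wt_le ΛX hX h1X hΛX
  have wY1 := wt_le ΛY hY h1Y hΛY
  -- the indicator of the contact of the pieces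
  set q : G → List B → List C → ℝ≥0∞ := fun x A A' => if Q x A A' then 1 else 0 with hq
  set q2 : G → List B → List C → ℝ≥0∞ := fun x A A' =>
    if dL zX A ∈ EX ∧ Q x A A' then 1 else 0 with hq2
  set q3 : G → List B → List C → ℝ≥0∞ := fun x A A' =>
    if dL zY A' ∈ EY ∧ Q x A A' then 1 else 0 with hq3
  set nn : List B → List C → ℝ≥0∞ := fun A A' =>
    (if dL zX A ∈ EX then 0 else 1) * (if dL zY A' ∈ EY then 0 else 1) with hnn
  have hsplit : ∀ x A A', q x A A' ≤ nn A A' + q2 x A A' + q3 x A A' := by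
    intro x A A'
    simp only [hq, hq2, hq3, hnn]
    by_cases h1 : Q x A A' <;> by_cases h2 : dL zX A ∈ EX <;> by_cases h3 : dL zY A' ∈ EY <;>
      simp [h1, h2, h3]
  -- step 1: cut
  have step1 : ∑' LX, ∑' LY, (if HT hX LX = N ∧ HT hY LY = N ∧ Ev LX LY then
      LW ΛX LX * LW ΛY LY else 0)
      ≤ 4 * ε + ∑' P, ∑' A, ∑' P', ∑' A', wt ΛX hX D i0 P * wt ΛX hX T i0 A *
        (wt ΛY hY D' i0 P' * wt ΛY hY T i0 A' * q (w + dL zY P' + dL zX P) A A') := by
    set F : List B → ℝ≥0∞ := fun LX => ∑' LY, (if HT hY LY = N then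
      LW ΛY LY * (if Ev LX LY then 1 else 0) else 0) with hF
    have e : ∑' LX, ∑' LY, (if HT hX LX = N ∧ HT hY LY = N ∧ Ev LX LY then
        LW ΛX LX * LW ΛY LY else 0)
        = ∑' LX, (if HT hX LX = N then LW ΛX LX * F LX else 0) := by
      refine tsum_congr fun LX => ?_
      by_cases h : HT hX LX = N
      · rw [if_pos h, hF]
        simp only []
        rw [← ENNReal.tsum_mul_left]
        refine tsum_congr fun LY => ?_
        by_cases h2 : HT hY LY = N <;> by_cases h3 : Ev LX LY <;> simp [h, h2, h3]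
      · rw [if_neg h]
        simp [h]
    rw [e]
    have hF1 : ∀ L, F L ≤ 1 := by
      intro L
      refine le_trans (ENNReal.tsum_le_tsum fun LY => ?_) (hUY N)
      by_cases h2 : HT hY LY = N
      · rw [if_pos h2, if_pos h2]
        split_ifs
        · rw [mul_one]
        · rw [mul_zero]; exact bot_le
      · rw [if_neg h2, if_neg h2]
    refine (two ΛX hX h1X hΛX hUX D T i0 N hN ε (oX D) (oX T) F hF1
      (fun P A => 2 * ε + ∑' P', ∑' A', wt ΛY hY D' i0 P' * wt ΛY hY T i0 A' *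
        q (w + dL zY P' + dL zX P) A A') ?_).trans ?_
    · intro P A R hP hPi hA hAi hN2
      refine two ΛY hY h1Y hΛY hUY D' T i0 N hN' ε (oY D') (oY T) _ ?_ _ ?_
      · intro L; split_ifs <;> simp
      · intro P' A' R' hP' hPi' hA' hAi' hN3
        simp only [hq]
        by_cases hE : Ev (P ++ (A ++ R)) (P' ++ (A' ++ R'))
        · rw [if_pos hE, if_pos (hEv P A R P' A' R' hP hPi hA hAi hN2 hP' hPi' hA' hAi' hN3 hE)]
        · rw [if_neg hE]; exact bot_le
    · have e2 : ∑' P, ∑' A, wt ΛX hX D i0 P * wt ΛX hX T i0 A * (2 * ε + ∑' P', ∑' A',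
          wt ΛY hY D' i0 P' * wt ΛY hY T i0 A' * q (w + dL zY P' + dL zX P) A A')
          = (∑' P, wt ΛX hX D i0 P) * (∑' A, wt ΛX hX T i0 A) * (2 * ε)
            + ∑' P, ∑' A, ∑' P', ∑' A', wt ΛX hX D i0 P * wt ΛX hX T i0 A *
        (wt ΛY hY D' i0 P' * wt ΛY hY T i0 A' * q (w + dL zY P' + dL zX P) A A') := by
        have a1 : ∀ P, ∑' A, wt ΛX hX D i0 P * wt ΛX hX T i0 A * (2 * ε + ∑' P', ∑' A',
          wt ΛY hY D' i0 P' * wt ΛY hY T i0 A' * q (w + dL zY P' + dL zX P) A A')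
            = wt ΛX hX D i0 P * ((∑' A, wt ΛX hX T i0 A) * (2 * ε))
              + ∑' A, ∑' P', ∑' A', wt ΛX hX D i0 P * wt ΛX hX T i0 A *
        (wt ΛY hY D' i0 P' * wt ΛY hY T i0 A' * q (w + dL zY P' + dL zX P) A A') := by
          intro P
          simp_rw [mul_add]
          rw [ENNReal.tsum_add]
          congr 1
          · rw [← ENNReal.tsum_mul_right, ← ENNReal.tsum_mul_left]
            refine tsum_congr fun A => by rw [mul_assoc]
          · refine tsum_congr fun A => ?_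
            rw [← ENNReal.tsum_mul_left]
            refine tsum_congr fun P' => ?_
            rw [← ENNReal.tsum_mul_left]
        simp_rw [a1]
        rw [ENNReal.tsum_add, ENNReal.tsum_mul_right, mul_assoc]
      rw [e2]
      calc 2 * ε + ((∑' P, wt ΛX hX D i0 P) * (∑' A, wt ΛX hX T i0 A) * (2 * ε) + _)
          ≤ 2 * ε + (1 * 1 * (2 * ε) + _) := by
            gcongr
            · exact wX1 D i0
            · exact wX1 T i0
        _ = _ := by rw [one_mul, one_mul, ← add_assoc]; ring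
  refine step1.trans (add_le_add le_rfl ?_)
  -- step 2: split
  set S : (G → List B → List C → ℝ≥0∞) → ℝ≥0∞ := fun r => ∑' P, ∑' A, ∑' P', ∑' A',
    wt ΛX hX D i0 P * wt ΛX hX T i0 A *
      (wt ΛY hY D' i0 P' * wt ΛY hY T i0 A' * r (w + dL zY P' + dL zX P) A A') with hS
  have hSS : S q ≤ S (fun _ A A' => nn A A') + S q2 + S q3 := by
    rw [hS]
    simp only []
    simp_rw [← ENNReal.tsum_add]
    refine ENNReal.tsum_le_tsum fun P => ENNReal.tsum_le_tsum fun A =>
      ENNReal.tsum_le_tsum fun P' => ENNReal.tsum_le_tsum fun A' => ?_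
    rw [← mul_add, ← mul_add, ← mul_add, ← mul_add]
    exact mul_le_mul' le_rfl (mul_le_mul' le_rfl (hsplit _ A A'))
  -- nonlocal
  have hnl : S (fun _ A A' => nn A A') ≤ uX * uY := by
    have e : S (fun _ A A' => nn A A') = (∑' P, wt ΛX hX D i0 P) * ((∑' P', wt ΛY hY D' i0 P') *
        ((∑' A, (if dL zX A ∈ EX then 0 else wt ΛX hX T i0 A)) *
          ∑' A', (if dL zY A' ∈ EY then 0 else wt ΛY hY T i0 A'))) := by
      rw [hS]
      simp only [hnn]
      have e0 : ∀ (P : List B) (A : List B) (P' : List C) (A' : List C),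
          wt ΛX hX D i0 P * wt ΛX hX T i0 A * (wt ΛY hY D' i0 P' * wt ΛY hY T i0 A' *
            ((if dL zX A ∈ EX then 0 else 1) * (if dL zY A' ∈ EY then 0 else 1)))
          = wt ΛX hX D i0 P * ((if dL zX A ∈ EX then 0 else wt ΛX hX T i0 A) *
            (wt ΛY hY D' i0 P' * (if dL zY A' ∈ EY then 0 else wt ΛY hY T i0 A'))) := by
        intro P A P' A'
        split_ifs <;> simp <;> ring
      simp_rw [e0, ENNReal.tsum_mul_left, ENNReal.tsum_mul_right]
      ring
    rw [e]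
    calc _ ≤ 1 * (1 * (uX * uY)) := by
          gcongr
          · exact wX1 D i0
          · exact wY1 D' i0
      _ = _ := by rw [one_mul, one_mul]
  -- reorder
  have hre : ∀ r : G → List B → List C → ℝ≥0∞, S r = ∑' P', wt ΛY hY D' i0 P' *
      ∑' P, wt ΛX hX D i0 P * ∑' A, ∑' A',
        wt ΛX hX T i0 A * wt ΛY hY T i0 A' * r (w + dL zY P' + dL zX P) A A' := by
    intro r
    rw [hS]
    simp only []
    have e0 : ∀ P, ∑' A, ∑' P', ∑' A', wt ΛX hX D i0 P * wt ΛX hX T i0 A *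
        (wt ΛY hY D' i0 P' * wt ΛY hY T i0 A' * r (w + dL zY P' + dL zX P) A A')
        = ∑' P', wt ΛY hY D' i0 P' * (wt ΛX hX D i0 P * ∑' A, ∑' A',
        wt ΛX hX T i0 A * wt ΛY hY T i0 A' * r (w + dL zY P' + dL zX P) A A') := by
      intro P
      rw [ENNReal.tsum_comm]
      refine tsum_congr fun P' => ?_
      simp_rw [← ENNReal.tsum_mul_left]
      refine tsum_congr fun A => tsum_congr fun A' => by ring
    simp_rw [e0]
    rw [ENNReal.tsum_comm]
    refine tsum_congr fun P' => ?_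
    rw [ENNReal.tsum_mul_left]
  have h2' : ∀ (r : G → List B → List C → ℝ≥0∞), (∀ x A A', r x A A' ≤ 1) →
      ∀ x, ∑' A, ∑' A', wt ΛX hX T i0 A * wt ΛY hY T i0 A' * r x A A' ≤ 1 := by
    intro r hr x
    calc ∑' A, ∑' A', wt ΛX hX T i0 A * wt ΛY hY T i0 A' * r x A A'
        ≤ ∑' A, ∑' A', wt ΛX hX T i0 A * wt ΛY hY T i0 A' * 1 :=
          ENNReal.tsum_le_tsum fun A => ENNReal.tsum_le_tsum fun A' =>
            mul_le_mul' le_rfl (hr x A A')
      _ = (∑' A, wt ΛX hX T i0 A) * ∑' A', wt ΛY hY T i0 A' := by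
          simp_rw [mul_one, ENNReal.tsum_mul_left, ENNReal.tsum_mul_right]
      _ ≤ 1 * 1 := mul_le_mul' (wX1 T i0) (wY1 T i0)
      _ = 1 := one_mul 1
  have hXs : S q2 ≤ K2 + βX := by
    rw [hre]
    have e1 : ∀ P', ∑' P, wt ΛX hX D i0 P * ∑' A, ∑' A',
        wt ΛX hX T i0 A * wt ΛY hY T i0 A' * q2 (w + dL zY P' + dL zX P) A A'
        ≤ ∑' z, mL ΛX hX zX D z * ∑' A, ∑' A',
          wt ΛX hX T i0 A * wt ΛY hY T i0 A' * q2 (w + dL zY P' + z) A A' := by
      intro P'
      rw [← sum_mL_apply ΛX hX zX D (fun z => ∑' A, ∑' A',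
          wt ΛX hX T i0 A * wt ΛY hY T i0 A' * q2 (w + dL zY P' + z) A A')]
      refine ENNReal.tsum_le_tsum fun P => ?_
      unfold wt
      by_cases h : fp hX D P
      · rw [if_pos h]
        refine mul_le_mul' ?_ le_rfl
        split_ifs
        · exact le_rfl
        · exact bot_le
      · rw [if_neg h, if_neg (fun h' => h h'.1), zero_mul]
    calc _ ≤ ∑' P', wt ΛY hY D' i0 P' * ∑' z, mL ΛX hX zX D z * ∑' A, ∑' A',
          wt ΛX hX T i0 A * wt ΛY hY T i0 A' * q2 (w + dL zY P' + z) A A' :=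
          ENNReal.tsum_le_tsum fun P' => mul_le_mul' le_rfl (e1 P')
      _ ≤ K2 + βX := by
          refine tie (wt ΛY hY D' i0) (wY1 D' i0) (fun P' => w + dL zY P') _ gX bX mX gX1 gX2 bX1
            (fun x => ∑' A, ∑' A', wt ΛX hX T i0 A * wt ΛY hY T i0 A' * q2 x A A')
            (h2' q2 (fun x A A' => by simp only [hq2]; split_ifs <;> simp)) ?_
          intro μ hμ1 hμ2
          refine le_trans (le_of_eq (tsum_congr fun x => ?_)) (H2 μ hμ1 hμ2)
          congr 1
          refine tsum_congr fun A => tsum_congr fun A' => ?_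
          simp only [hq2]
          split_ifs <;> simp
  have hYs : S q3 ≤ K3 + βY := by
    have hre2 : S q3 = ∑' P, wt ΛX hX D i0 P * ∑' P', wt ΛY hY D' i0 P' * ∑' A, ∑' A',
        wt ΛX hX T i0 A * wt ΛY hY T i0 A' * q3 (w + dL zX P + dL zY P') A A' := by
      rw [hS]
      simp only []
      refine tsum_congr fun P => ?_
      rw [ENNReal.tsum_comm, ← ENNReal.tsum_mul_left]
      refine tsum_congr fun P' => ?_
      simp_rw [← ENNReal.tsum_mul_left]
      refine tsum_congr fun A => tsum_congr fun A' => ?_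
      rw [show w + dL zY P' + dL zX P = w + dL zX P + dL zY P' by abel]
      ring
    rw [hre2]
    have e1 : ∀ P, ∑' P', wt ΛY hY D' i0 P' * ∑' A, ∑' A',
        wt ΛX hX T i0 A * wt ΛY hY T i0 A' * q3 (w + dL zX P + dL zY P') A A'
        ≤ ∑' z, mL ΛY hY zY D' z * ∑' A, ∑' A',
          wt ΛX hX T i0 A * wt ΛY hY T i0 A' * q3 (w + dL zX P + z) A A' := by
      intro P
      rw [← sum_mL_apply ΛY hY zY D' (fun z => ∑' A, ∑' A',
          wt ΛX hX T i0 A * wt ΛY hY T i0 A' * q3 (w + dL zX P + z) A A')]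
      refine ENNReal.tsum_le_tsum fun P' => ?_
      unfold wt
      by_cases h : fp hY D' P'
      · rw [if_pos h]
        refine mul_le_mul' ?_ le_rfl
        split_ifs
        · exact le_rfl
        · exact bot_le
      · rw [if_neg h, if_neg (fun h' => h h'.1), zero_mul]
    calc _ ≤ ∑' P, wt ΛX hX D i0 P * ∑' z, mL ΛY hY zY D' z * ∑' A, ∑' A',
          wt ΛX hX T i0 A * wt ΛY hY T i0 A' * q3 (w + dL zX P + z) A A' :=
          ENNReal.tsum_le_tsum fun P => mul_le_mul' le_rfl (e1 P)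
      _ ≤ K3 + βY := by
          refine tie (wt ΛX hX D i0) (wX1 D i0) (fun P => w + dL zX P) _ gY bY mY gY1 gY2 bY1
            (fun x => ∑' A, ∑' A', wt ΛX hX T i0 A * wt ΛY hY T i0 A' * q3 x A A')
            (h2' q3 (fun x A A' => by simp only [hq3]; split_ifs <;> simp)) ?_
          intro μ hμ1 hμ2
          refine le_trans (le_of_eq (tsum_congr fun x => ?_)) (H3 μ hμ1 hμ2)
          congr 1
          refine tsum_congr fun A => tsum_congr fun A' => ?_
          simp only [hq3]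
          split_ifs <;> simp
  exact hSS.trans (add_le_add (add_le_add hnl hXs) hYs)

end pair

end Crest.Agent.R154.WinAbs346
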