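import Crest.Agent.R154.Sign_9
import Crest.Agent.R154.HM7_299

/-! Row 154 (helper9), HOME MASS, HM8 piece: `win_of_units` in 299's letters `WinAt`. -/

set_option autoImplicit false
set_option linter.unusedSectionVars false

namespace Crest.Agent.R154.WinAt9

open MeasureTheory ProbabilityTheory Set
open Crest.Agent.R154.RatioR872 Crest.Agent.R154.RatioR872.KerSys
open Crest.Agent.R154.Home903 Crest.Agent.R154.Doc74 Crest.Agent.R154.HM263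
open Crest.Agent.R154.HM7299
open scoped ENNReal

variable {S : Type*} [Countable S] {Ω : Type*} {m0 : MeasurableSpace Ω} {P : Measure Ω}

/-- **`WinAt` from the inputs of `win_of_units`**: grid `lv 0 ≥ 10 ^ i`, `lv (n k) ≤ 10 ^ (i+1)`,
units carried to the top `10 ^ (i+2)`. -/
theorem winAt_of {A : KerSys S P} {φ : S → ℝ} {lv : ℕ → ℕ} {d d2 g lam v : ℝ} {i k n : ℕ}
    (hk : 1 ≤ k) (hlv : Monotone lv) (h0 : 10 ^ i ≤ lv 0) (h1 : lv (n * k) ≤ 10 ^ (i + 1))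
    {ε δ ε3 δ3 : ℝ≥0∞} (hd : 0 ≤ d) (hd2 : 0 ≤ d2) (hg : g + 2 * k * d ≤ d2)
    (hH : ∀ m < n * k, Try9.HomeAt A φ lv d ε δ m)
    (hT : ∀ m < n * k, Try9.TravAt A φ lv d2 ε δ m)
    (hU : ∀ t < n, Try9.UnitsAt A φ k g (lv (t * k + (k - 1))) (10 ^ (i + 2)) ε3 δ3)
    (hε : ENNReal.ofReal (Real.exp (-v)) < ε3 * (ε / 2) ^ (k - 1))
    (hδ : ((k * k : ℕ) * δ) ^ n + n * δ3 ≤ ENNReal.ofReal (Real.exp (-(lam * v)))) :
    WinAt A lam i v := by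
  intro μ hμ B hB
  have he : lv (n * k) ≤ 10 ^ (i + 2) := h1.trans (Nat.pow_le_pow_right (by norm_num) (by omega))
  have hB' : MeasurableSet[A.F (lv 0)] B := A.F.mono h0 _ hB
  have hw := Try9.win_of_units hk hlv he hd hd2 hg hH hT hU hμ hB'
  refine le_trans (measure_mono ?_) (hw.trans (by gcongr))
  rintro ω ⟨hω, hne, hle⟩
  have hanti : A.Sh μ (10 ^ (i + 1)) ω ≤ A.Sh μ (lv (n * k)) ω := Sh_anti h1 ω
  have hne' : A.Sh μ (lv (n * k)) ω ≠ 0 := fun h0 =>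
    hne (le_antisymm (hanti.trans h0.le) zero_le)
  have hfin : A.Sh μ (lv (n * k)) ω ≠ ∞ :=
    ne_top_of_le_ne_top ENNReal.one_ne_top (Sh_le_one hμ _ ω)
  refine ⟨hω, hne', ?_⟩
  calc A.Sh μ (10 ^ (i + 2)) ω
      ≤ ENNReal.ofReal (Real.exp (-v)) * A.Sh μ (10 ^ (i + 1)) ω := hle
    _ ≤ ENNReal.ofReal (Real.exp (-v)) * A.Sh μ (lv (n * k)) ω := by gcongr
    _ < ε3 * (ε / 2) ^ (k - 1) * A.Sh μ (lv (n * k)) ω :=
        ENNReal.mul_lt_mul_left hne' hfin hε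

end Crest.Agent.R154.WinAt9
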