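import Crest.Agent.R154.WinA_278

/-! Row 154, ROAD 801 (helper278): the window bound. -/

set_option autoImplicit false
set_option linter.unusedSectionVars false
set_option linter.unusedVariables false

namespace Crest.Agent.R154.Win278

open scoped ENNReal Classical
open Crest.Agent.R154.B5A Crest.Agent.R154.Mid562

variable {BX BY G : Type*} [AddCommGroup G]
variable (ΛX : BX → ℝ≥0∞) (hX : BX → ℕ) (ΛY : BY → ℝ≥0∞) (hY : BY → ℕ)
variable (zX : BX → G) (zY : BY → G)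
variable (TX : List BX → G → ℕ → Set (G × ℕ)) (TY : List BY → G → ℕ → Set (G × ℕ))

/-- the piece event -/
def EV (a i0 s T i i' : ℕ) (x : G) (P : List BX) (P' : List BY) : Prop :=
  (∃ q : G × ℕ, q ∈ TX P 0 (a + i) ∧ q ∈ TY P' x (a + i')) ∧
  (∀ q : G × ℕ, q ∈ TX P 0 (a + i) → q ∈ TY P' x (a + i') → a + i0 + s ≤ q.2) ∧
  (∀ q : G × ℕ, q ∈ TX P 0 (a + i) → q ∈ TY P' x (a + i') → q.2 ≤ a + T - s)

/-- the set of heavy displacements at overshoot `j` -/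
def HV {B : Type*} (Λ : B → ℝ≥0∞) (ht : B → ℕ) (z : B → G) (T : ℕ) (th : ℝ≥0∞) (j : ℕ) : Set G :=
  {y | th ≤ pl Λ ht z T (j, y)}

lemma HV_fin {B : Type*} (Λ : B → ℝ≥0∞) (ht : B → ℕ) (z : B → G) (h1 : ∀ b, 1 ≤ ht b)
    (hΛ : ∑' b, Λ b = 1) (T : ℕ) (th : ℝ≥0∞) (hth : th ≠ 0) (j : ℕ) :
    ∃ E : Finset G, (∀ y, y ∈ E ↔ y ∈ HV Λ ht z T th j) ∧ th * (E.card : ℝ≥0∞) ≤ 1 := by
  have hs : ∑' y, pl Λ ht z T (j, y) ≤ 1 :=
    (ENNReal.le_tsum (f := fun i => ∑' z', pl Λ ht z T (i, z')) j).trans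
      (by rw [← ENNReal.tsum_prod']; exact (pl_sum Λ ht z h1 hΛ T).le)
  have hfin : (HV Λ ht z T th j).Finite :=
    ENNReal.finite_const_le_of_tsum_ne_top (ne_top_of_le_ne_top ENNReal.one_ne_top hs) hth
  refine ⟨hfin.toFinset, fun y => by simp, ?_⟩
  calc th * (hfin.toFinset.card : ℝ≥0∞) = ∑ y ∈ hfin.toFinset, th := by
        rw [Finset.sum_const, nsmul_eq_mul, mul_comm]
    _ ≤ ∑ y ∈ hfin.toFinset, pl Λ ht z T (j, y) :=
        Finset.sum_le_sum fun y hy => by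
          have := hfin.mem_toFinset.1 hy
          exact this
    _ ≤ ∑' y, pl Λ ht z T (j, y) := ENNReal.sum_le_tsum _
    _ ≤ 1 := hs

/-- mass of the light pieces -/
lemma light {B : Type*} (Λ : B → ℝ≥0∞) (ht : B → ℕ) (z : B → G) (h1 : ∀ b, 1 ≤ ht b)
    (T : ℕ) (th u : ℝ≥0∞) (hu : (∑' x, if th ≤ pl Λ ht z T x then 0 else pl Λ ht z T x) ≤ u) :
    FS Λ ht T (fun P => if DG z P ∈ HV Λ ht z T th (HT ht P - T) then 0 else 1) ≤ u := by
  refine le_trans (le_of_eq ?_) hu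
  have := FS_law Λ ht z h1 T (fun x : ℕ × G => if x.2 ∈ HV Λ ht z T th x.1 then 0 else 1)
  rw [this]
  refine tsum_congr fun x => ?_
  by_cases hx : th ≤ pl Λ ht z T x
  · have hx' : x.2 ∈ HV Λ ht z T th x.1 := hx
    rw [if_pos hx, if_pos hx', mul_zero]
  · have hx' : x.2 ∉ HV Λ ht z T th x.1 := hx
    rw [if_neg hx, if_neg hx', mul_one]

variable {ΛX hX ΛY hY zX zY TX TY}

/-- **X smooth and X local** -/
lemma partX (h1X : ∀ b, 1 ≤ hX b) (hΛX : ∑' b, ΛX b = 1) (h1Y : ∀ b, 1 ≤ hY b)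
    (hΛY : ∑' b, ΛY b = 1) (T i0 J a : ℕ) (th v C2 : ℝ≥0∞) (hth : th ≠ 0)
    (huv : ∑' x, (if pl ΛX hX zX T x ≤ 2 * th then 0 else pl ΛX hX zX T x) ≤ v)
    (ha : (T + i0) * J ≤ a) (w : G) (R : ℕ → ℕ → G → List BX → List BY → Prop)
    (H2 : ∀ i ≤ i0, ∀ i' ≤ i0, ∀ j ≤ i0, ∀ j' ≤ i0, ∀ (E : Finset G) (μ : G → ℝ≥0∞),
      ∑' x, μ x ≤ 1 → (∀ x, μ x ≤ (∑ j ∈ Finset.range J, v ^ j) * ((i0 + 1 : ℕ) * (2 * th))) →
      th * (E.card : ℝ≥0∞) ≤ 1 →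
      ∑' x, μ x * ∑' L, ∑' L', (if HT hX L = T + j ∧ HT hY L' = T + j' ∧
        (R i i' x L L' ∧ DG zX L ∈ E) then LW ΛX L * LW ΛY L' else 0) ≤ C2) :
    FS ΛX hX a (fun A => FS ΛY hY a (fun A' =>
      if HT hX A - a ≤ i0 ∧ HT hY A' - a ≤ i0 then
        FS ΛX hX T (fun P => FS ΛY hY T (fun P' =>
          if HT hX P - T ≤ i0 ∧ HT hY P' - T ≤ i0 ∧
            (R (HT hX A - a) (HT hY A' - a) (w + DG zY A' - DG zX A) P P' ∧
              DG zX P ∈ HV ΛX hX zX T th (HT hX P - T)) then 1 else 0)) else 0))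
    ≤ (v ^ J + (∑ j ∈ Finset.range J, v ^ j) * ep ΛX hX i0)
      + ((i0 + 1 : ℕ) : ℝ≥0∞) * (i0 + 1 : ℕ) * (((i0 + 1 : ℕ) : ℝ≥0∞) * (i0 + 1 : ℕ) * C2) := by
  choose E hE1 hE2 using HV_fin ΛX hX zX h1X hΛX T th hth
  refine half ΛX hX ΛY hY zX zY h1X hΛX h1Y hΛY T i0 J a th v _ huv ha w
    (fun i i' x => FS ΛX hX T (fun P => FS ΛY hY T (fun P' =>
          if HT hX P - T ≤ i0 ∧ HT hY P' - T ≤ i0 ∧
            (R i i' x P P' ∧
              DG zX P ∈ HV ΛX hX zX T th (HT hX P - T)) then 1 else 0))) ?_ ?_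
  · intro i i' x
    refine FS_le_one _ _ h1X hΛX _ fun P => FS_le_one _ _ h1Y hΛY _ fun P' => ?_
    split_ifs
    · exact le_rfl
    · exact zero_le
  · intro i hi i' hi' μ hμ1 hμ2
    have key := piece ΛX hX ΛY hY h1X h1Y T i0
      (fun x P P' => R i i' x P P' ∧ DG zX P ∈ HV ΛX hX zX T th (HT hX P - T)) μ C2 (by
      intro j hj j' hj'
      refine le_trans (ENNReal.tsum_le_tsum fun x => mul_le_mul_right
        (ENNReal.tsum_le_tsum fun L => ENNReal.tsum_le_tsum fun L' => ?_) _)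
        (H2 i hi i' hi' j hj j' hj' (E j) μ hμ1 hμ2 (hE2 j))
      by_cases h : HT hX L = T + j ∧ HT hY L' = T + j' ∧
        (R i i' x L L' ∧ DG zX L ∈ HV ΛX hX zX T th (HT hX L - T))
      · rw [if_pos h, if_pos]
        refine ⟨h.1, h.2.1, h.2.2.1, ?_⟩
        rw [hE1]
        have := h.2.2.2
        rwa [h.1, show T + j - T = j by omega] at this
      · rw [if_neg h]; exact zero_le)
    convert key

/-- **Y smooth and Y local** -/
lemma partY (h1X : ∀ b, 1 ≤ hX b) (hΛX : ∑' b, ΛX b = 1) (h1Y : ∀ b, 1 ≤ hY b)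
    (hΛY : ∑' b, ΛY b = 1) (T i0 J a : ℕ) (th v C2 : ℝ≥0∞) (hth : th ≠ 0)
    (huv : ∑' x, (if pl ΛY hY zY T x ≤ 2 * th then 0 else pl ΛY hY zY T x) ≤ v)
    (ha : (T + i0) * J ≤ a) (w : G) (R : ℕ → ℕ → G → List BX → List BY → Prop)
    (H3 : ∀ i ≤ i0, ∀ i' ≤ i0, ∀ j ≤ i0, ∀ j' ≤ i0, ∀ (E : Finset G) (μ : G → ℝ≥0∞),
      ∑' x, μ x ≤ 1 → (∀ x, μ x ≤ (∑ j ∈ Finset.range J, v ^ j) * ((i0 + 1 : ℕ) * (2 * th))) →
      th * (E.card : ℝ≥0∞) ≤ 1 →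
      ∑' x, μ x * ∑' L, ∑' L', (if HT hX L = T + j ∧ HT hY L' = T + j' ∧
        (R i i' x L L' ∧ DG zY L' ∈ E) then LW ΛX L * LW ΛY L' else 0) ≤ C2) :
    FS ΛX hX a (fun A => FS ΛY hY a (fun A' =>
      if HT hX A - a ≤ i0 ∧ HT hY A' - a ≤ i0 then
        FS ΛX hX T (fun P => FS ΛY hY T (fun P' =>
          if HT hX P - T ≤ i0 ∧ HT hY P' - T ≤ i0 ∧
            (R (HT hX A - a) (HT hY A' - a) (w + DG zY A' - DG zX A) P P' ∧
              DG zY P' ∈ HV ΛY hY zY T th (HT hY P' - T)) then 1 else 0)) else 0))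
    ≤ (v ^ J + (∑ j ∈ Finset.range J, v ^ j) * ep ΛY hY i0)
      + ((i0 + 1 : ℕ) : ℝ≥0∞) * (i0 + 1 : ℕ) * (((i0 + 1 : ℕ) : ℝ≥0∞) * (i0 + 1 : ℕ) * C2) := by
  have key := partX (ΛX := ΛY) (hX := hY) (ΛY := ΛX) (hY := hX) (zX := zY) (zY := zX)
    h1Y hΛY h1X hΛX T i0 J a th v C2 hth huv ha (-w) (fun i' i x L' L => R i i' (-x) L L') (by
      intro i' hi' i hi j' hj' j hj E μ hμ1 hμ2 hE
      have := H3 i hi i' hi' j hj j' hj' E (fun x => μ (-x))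
        (by
          refine le_trans (le_of_eq ?_) hμ1
          exact (Equiv.neg G).tsum_eq μ) (fun x => hμ2 _) hE
      refine le_trans (le_of_eq ?_) this
      rw [← (Equiv.neg G).tsum_eq (fun x => μ x * _)]
      refine tsum_congr fun x => ?_
      show μ (-x) * _ = μ (-x) * _
      congr 1
      rw [ENNReal.tsum_comm]
      refine tsum_congr fun L => tsum_congr fun L' => ?_
      simp only [Equiv.neg_apply, neg_neg]
      by_cases h : HT hX L = T + j ∧ HT hY L' = T + j' ∧ (R i i' x L L' ∧ DG zY L' ∈ E)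
      · rw [if_pos h, if_pos ⟨h.2.1, h.1, h.2.2⟩, mul_comm]
      · rw [if_neg h, if_neg (fun h' => h ⟨h'.2.1, h'.1, h'.2.2⟩)])
  refine le_trans (le_of_eq ?_) key
  rw [FS_comm]
  congr 1
  funext A'
  congr 1
  funext A
  by_cases h : HT hX A - a ≤ i0 ∧ HT hY A' - a ≤ i0
  · rw [if_pos h, if_pos ⟨h.2, h.1⟩, FS_comm]
    congr 1
    funext P'
    congr 1
    funext P
    have e : -(-w + DG zX A - DG zY A') = w + DG zY A' - DG zX A := by abel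
    simp only [e]
    by_cases h' : HT hX P - T ≤ i0 ∧ HT hY P' - T ≤ i0 ∧
            (R (HT hX A - a) (HT hY A' - a) (w + DG zY A' - DG zX A) P P' ∧
              DG zY P' ∈ HV ΛY hY zY T th (HT hY P' - T))
    · rw [if_pos h', if_pos ⟨h'.2.1, h'.1, h'.2.2⟩]
    · rw [if_neg h', if_neg (fun h'' => h' ⟨h''.2.1, h''.1, h''.2.2⟩)]
  · rw [if_neg h, if_neg (fun h' => h ⟨h'.2, h'.1⟩)]

end Crest.Agent.R154.Win278
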