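import Crest.Agent.R154.Flux2_566
import Crest.Agent.R154.B5Abs_566
import Crest.Agent.R154.WinA_546

/-! Row 154, road 801 (helper546): quenched sums over words. -/

set_option autoImplicit false

open MeasureTheory ProbabilityTheory Crest.ProbabilityR.RandomEnvironment
open scoped ENNReal Classical

namespace Crest.Agent.R154.Win546

open Flux566

variable {d : ℕ}

lemma lw_append (ω : Environment d) (l l' : List (Step d)) (x : Site d) :
    lw ω x (l ++ l') = lw ω x l * lw ω (endp x l) l' := by
  induction l generalizing x with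
  | nil => simp [lw, endp]
  | cons e l ih => simp only [List.cons_append, lw, endp]; rw [ih, mul_assoc]

lemma mem_sitesL (l : List (Step d)) (x z : Site d) :
    z ∈ sitesL x l ↔ ∃ p r, l = p ++ r ∧ r ≠ [] ∧ endp x p = z := by
  induction l generalizing x with
  | nil => simp [sitesL]
  | cons e l ih =>
    simp only [sitesL, List.mem_cons]
    constructor
    · rintro (h | h)
      · exact ⟨[], e :: l, rfl, by simp, h.symm⟩
      · obtain ⟨p, r, h1, h2, h3⟩ := (ih _).1 h
        exact ⟨e :: p, r, by rw [h1]; rfl, h2, h3⟩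
    · rintro ⟨p, r, h1, h2, h3⟩
      cases p with
      | nil => exact Or.inl h3.symm
      | cons e' p =>
        simp only [List.cons_append, List.cons.injEq] at h1
        obtain ⟨rfl, h1⟩ := h1
        exact Or.inr ((ih _).2 ⟨p, r, h1, h2, h3⟩)

lemma row_sum (ω : Environment d) (x : Site d) :
    ∑ e : Step d, ENNReal.ofReal ((ω x).1 e) = 1 := by
  rw [← ENNReal.ofReal_sum_of_nonneg (fun e _ => (ω x).2.1 e)]
  rw [(ω x).2.2]
  simp

lemma pf_sum_n (ω : Environment d) (n : ℕ) : ∀ (S : Set (List (Step d))), PF S → ∀ x : Site d,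
    ∑' l, (if l ∈ S ∧ l.length ≤ n then lw ω x l else 0) ≤ 1 := by
  induction n with
  | zero =>
    intro S hS x
    rw [B5A.tsum_list]
    have : ∀ (b : Step d) (L : List (Step d)),
        (if (b :: L) ∈ S ∧ (b :: L).length ≤ 0 then lw ω x (b :: L) else 0) = 0 := by
      intro b L
      rw [if_neg]
      simp
    simp only [this, tsum_zero, add_zero]
    split_ifs
    · simp [lw]
    · exact zero_le_one
  | succ n ih =>
    intro S hS x
    rw [B5A.tsum_list]
    by_cases h0 : ([] : List (Step d)) ∈ S
    · have : ∀ (b : Step d) (L : List (Step d)),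
          (if (b :: L) ∈ S ∧ (b :: L).length ≤ n + 1 then lw ω x (b :: L) else 0) = 0 := by
        intro b L
        rw [if_neg]
        rintro ⟨h, _⟩
        have := hS [] h0 (b :: L) (by simpa using h)
        simp at this
      simp only [this, tsum_zero, add_zero]
      split_ifs
      · simp [lw]
      · exact zero_le_one
    · rw [if_neg (fun h => h0 h.1), zero_add]
      calc ∑' b, ∑' L, (if (b :: L) ∈ S ∧ (b :: L).length ≤ n + 1 then lw ω x (b :: L) else 0)
          ≤ ∑' b : Step d, ENNReal.ofReal ((ω x).1 b) := by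
            refine ENNReal.tsum_le_tsum fun b => ?_
            have e1 : ∀ L : List (Step d),
                (if (b :: L) ∈ S ∧ (b :: L).length ≤ n + 1 then lw ω x (b :: L) else 0)
                = ENNReal.ofReal ((ω x).1 b) *
                  (if L ∈ {L | (b :: L) ∈ S} ∧ L.length ≤ n then lw ω (x + stepVec b) L else 0) := by
              intro L
              have : ((b :: L) ∈ S ∧ (b :: L).length ≤ n + 1)
                  ↔ (L ∈ {L | (b :: L) ∈ S} ∧ L.length ≤ n) := by
                simp
              by_cases h : (b :: L) ∈ S ∧ (b :: L).length ≤ n + 1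
              · rw [if_pos h, if_pos (this.1 h)]; rfl
              · rw [if_neg h, if_neg (fun h' => h (this.2 h')), mul_zero]
            simp only [e1]
            rw [ENNReal.tsum_mul_left]
            have hpf : PF {L : List (Step d) | (b :: L) ∈ S} := by
              intro l hl r hr
              exact hS (b :: l) hl r hr
            calc _ ≤ ENNReal.ofReal ((ω x).1 b) * 1 := mul_le_mul_right (ih _ hpf _) _
              _ = _ := mul_one _
        _ = 1 := by rw [tsum_fintype]; exact row_sum ω x

lemma pf_sum (ω : Environment d) {S : Set (List (Step d))} (hS : PF S) (x : Site d) :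
    ∑' l, (if l ∈ S then lw ω x l else 0) ≤ 1 := by
  rw [ENNReal.tsum_eq_iSup_sum]
  refine iSup_le fun s => ?_
  refine le_trans ?_ (pf_sum_n ω (s.sup List.length) S hS x)
  refine le_trans (Finset.sum_le_sum fun l hl => ?_)
    (ENNReal.sum_le_tsum (f := fun l => if l ∈ S ∧ l.length ≤ s.sup List.length
      then lw ω x l else 0) s)
  by_cases h : l ∈ S
  · rw [if_pos h, if_pos ⟨h, Finset.le_sup (f := List.length) hl⟩]
  · rw [if_neg h]; exact zero_le

/-- continuation sums -/
lemma pf_cont (ω : Environment d) {S : Set (List (Step d))} (hS : PF S) (x : Site d)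
    (p : List (Step d)) : ∑' r, (if p ++ r ∈ S then lw ω x (p ++ r) else 0) ≤ lw ω x p := by
  have e : ∀ r : List (Step d), (if p ++ r ∈ S then lw ω x (p ++ r) else 0)
      = lw ω x p * (if r ∈ {r | p ++ r ∈ S} then lw ω (endp x p) r else 0) := by
    intro r
    simp only [Set.mem_ofPred_eq]
    split_ifs
    · rw [lw_append]
    · simp
  simp only [e]
  rw [ENNReal.tsum_mul_left]
  have hpf : PF {r : List (Step d) | p ++ r ∈ S} := by
    intro l hl r hr
    refine hS (p ++ l) hl r ?_
    simpa [List.append_assoc] using hr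
  calc _ ≤ lw ω x p * 1 := mul_le_mul_right (pf_sum ω hpf _) _
    _ = _ := mul_one _

/-- stop at the first prefix with property `A` -/
lemma stop_le (ω : Environment d) {H : Set (List (Step d))} (hH : PF H) (A : List (Step d) → Prop)
    (x : Site d) (hA : ∀ l ∈ H, ∃ p r, l = p ++ r ∧ A p) :
    ∑' p, (if p ∈ H then lw ω x p else 0) ≤ ∑' p, (if p ∈ Mn A then lw ω x p else 0) := by
  refine (le_cover (Mn A) _ ?_).trans ?_
  · intro t ht
    have htH : t ∈ H := by
      by_contra h
      exact ht (if_neg h)
    obtain ⟨p, r, h1, h2⟩ := hA t htH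
    obtain ⟨p', r', h3, h4⟩ := exists_Mn A p h2
    exact ⟨p', r' ++ r, by rw [h1, h3, List.append_assoc], h4⟩
  · refine ENNReal.tsum_le_tsum fun p => ?_
    by_cases hp : p ∈ Mn A
    · rw [if_pos hp, if_pos hp]
      exact pf_cont ω hH x p
    · rw [if_neg hp, if_neg hp]

/-- visits a low site and completes -/
lemma low_le (ω : Environment d) (S : Set (List (Step d))) (x : Site d) (e : Site d → ℝ≥0∞)
    (lam : ℝ≥0∞)
    (he : ∀ p : List (Step d), ∑' r, (if p ++ r ∈ S then lw ω (endp x p) r else 0) ≤ e (endp x p)) :
    ∑' l, (if l ∈ S ∧ ∃ v ∈ sitesL x l, e v ≤ lam then lw ω x l else 0) ≤ lam := by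
  set A : List (Step d) → Prop := fun p => e (endp x p) ≤ lam with hAdef
  refine (le_cover (Mn A) _ ?_).trans ?_
  · intro t ht
    have h : t ∈ S ∧ ∃ v ∈ sitesL x t, e v ≤ lam := by
      by_contra h
      exact ht (if_neg h)
    obtain ⟨v, hv, hev⟩ := h.2
    obtain ⟨p, r, h1, -, h3⟩ := (mem_sitesL t x v).1 hv
    have hp : A p := by rw [hAdef]; simp only; rw [h3]; exact hev
    obtain ⟨p', r', h5, h4⟩ := exists_Mn A p hp
    exact ⟨p', r' ++ r, by rw [h1, h5, List.append_assoc], h4⟩
  · calc _ ≤ ∑' p, (if p ∈ Mn A then lam * lw ω x p else 0) := by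
          refine ENNReal.tsum_le_tsum fun p => ?_
          by_cases hp : p ∈ Mn A
          · rw [if_pos hp, if_pos hp]
            calc ∑' r, (if p ++ r ∈ S ∧ (∃ v ∈ sitesL x (p ++ r), e v ≤ lam)
                  then lw ω x (p ++ r) else 0)
                ≤ ∑' r, lw ω x p * (if p ++ r ∈ S then lw ω (endp x p) r else 0) := by
                  refine ENNReal.tsum_le_tsum fun r => ?_
                  by_cases h : p ++ r ∈ S
                  · rw [if_pos h, lw_append]
                    split_ifs
                    · exact le_rfl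
                    · exact zero_le
                  · rw [if_neg (fun h' => h h'.1)]; exact zero_le
              _ = lw ω x p * ∑' r, (if p ++ r ∈ S then lw ω (endp x p) r else 0) :=
                  ENNReal.tsum_mul_left
              _ ≤ lw ω x p * lam := mul_le_mul_right ((he p).trans hp.1) _
              _ = lam * lw ω x p := mul_comm _ _
          · rw [if_neg hp, if_neg hp]
      _ = lam * ∑' p, (if p ∈ Mn A then lw ω x p else 0) := by
          rw [← ENNReal.tsum_mul_left]
          refine tsum_congr fun p => ?_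
          split_ifs <;> simp
      _ ≤ lam * 1 := mul_le_mul_right (pf_sum ω (pf_Mn A) x) _
      _ = lam := mul_one _

/-- Chebyshev at the first high site -/
lemma high_le (ω : Environment d) (A : List (Step d) → Prop) (x : Site d) (lam : ℝ≥0∞)
    (T : Set (List (Step d)))
    (hA : ∀ p, A p → lam ≤ ∑' r, (if p ++ r ∈ T then lw ω (endp x p) r else 0)) :
    lam * ∑' p, (if p ∈ Mn A then lw ω x p else 0) ≤ ∑' t, (if t ∈ T then lw ω x t else 0) := by
  refine le_trans ?_ (restart_le (pf_Mn A) (fun t => if t ∈ T then lw ω x t else 0))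
  rw [← ENNReal.tsum_mul_left]
  refine ENNReal.tsum_le_tsum fun p => ?_
  by_cases hp : p ∈ Mn A
  · rw [if_pos hp, if_pos hp]
    have e : ∀ r : List (Step d), (if p ++ r ∈ T then lw ω x (p ++ r) else 0)
        = lw ω x p * (if p ++ r ∈ T then lw ω (endp x p) r else 0) := by
      intro r
      split_ifs
      · rw [lw_append]
      · simp
    simp only [e]
    rw [ENNReal.tsum_mul_left, mul_comm lam]
    exact mul_le_mul_right (hA p hp.1) _
  · rw [if_neg hp, if_neg hp, mul_zero]

end Crest.Agent.R154.Win546
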