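import Crest.Agent.R154.WinA_706

/-! Row 154, ROAD 801, assembly (helper706): the bound of one window. -/

set_option autoImplicit false
set_option linter.unusedSectionVars false
set_option maxHeartbeats 1000000

namespace Crest.Agent.R154.WinB706

open scoped ENNReal
open Crest.Agent.R154.B5A Crest.Agent.R154.FP178 Crest.Agent.R154.DensFP706
open Crest.Agent.R154.WinA706

section half

variable {B G : Type*} [AddCommGroup G] (Λ : B → ℝ≥0∞) (ht : B → ℕ) (z : B → G)

open Classical in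
lemma pp_sum_le (h1 : ∀ b, 1 ≤ ht b) (hΛ : ∑' b, Λ b ≤ 1) (T h : ℕ) :
    ∑' x, pp Λ ht z T h x ≤ 1 := by
  have := fiber Λ ht z T (fun _ _ => 1)
  simp only [mul_one] at this
  calc ∑' x, pp Λ ht z T h x ≤ ∑' h, ∑' x, pp Λ ht z T h x := ENNReal.le_tsum h
    _ = _ := this.symm
    _ ≤ 1 := sum_FP Λ ht h1 hΛ T

open Classical in
/-- a sum over the top pieces, through the density of their joint law -/
theorem half (h1 : ∀ b, 1 ≤ ht b) (hΛ : ∑' b, Λ b ≤ 1) (α i0 : ℕ) (e : G ≃ G)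
    (Ψ : ℕ → G → ℝ≥0∞) (hΨ : ∀ c x, Ψ c x ≤ 1) (M β K0 : ℝ≥0∞) (b : ℕ → G → ℝ≥0∞)
    (hb : ∑' o, ∑' x, b o x ≤ β) (hff : ∀ o x, ff Λ ht z α o x ≤ M + b o x)
    (hK : ∀ c, α ≤ c → c ≤ α + i0 → ∀ μ : G → ℝ≥0∞, ∑' x, μ x ≤ 1 → (∀ x, μ x ≤ M) →
      ∑' x, μ x * Ψ c x ≤ K0) :
    ∑' A, wf Λ ht α i0 A * Ψ (HT ht A) (e (Dp z A)) ≤ (i0 + 1 : ℕ) * K0 + β := by
  have e1 : ∀ A : List B, wf Λ ht α i0 A * Ψ (HT ht A) (e (Dp z A))
      = if fp ht α A then LW Λ A * (fun h x => if h ≤ α + i0 then Ψ h (e x) else 0)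
        (HT ht A) (Dp z A) else 0 := by
    intro A
    unfold wf
    by_cases hA : fp ht α A <;> by_cases hA2 : HT ht A ≤ α + i0 <;> simp [hA, hA2]
  rw [tsum_congr e1, fiber Λ ht z α (fun h x => if h ≤ α + i0 then Ψ h (e x) else 0)]
  have e2 : ∀ h, ∑' x, pp Λ ht z α h x * (if h ≤ α + i0 then Ψ h (e x) else 0)
      ≤ if α ≤ h ∧ h ≤ α + i0 then K0 + ∑' x, b (h - α) x else 0 := by
    intro h
    by_cases hh : α ≤ h ∧ h ≤ α + i0
    · rw [if_pos hh]
      have hpf : ∀ x, pp Λ ht z α h x = ff Λ ht z α (h - α) x := by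
        intro x
        unfold pp ff
        rw [show α + (h - α) = h by omega]
      have e3 : ∀ x, pp Λ ht z α h x * (if h ≤ α + i0 then Ψ h (e x) else 0)
          ≤ min (pp Λ ht z α h x) M * Ψ h (e x) + b (h - α) x := by
        intro x
        rw [if_pos hh.2]
        have : pp Λ ht z α h x ≤ min (pp Λ ht z α h x) M + b (h - α) x := by
          rcases le_total (pp Λ ht z α h x) M with hle | hle
          · rw [min_eq_left hle]; exact le_self_add
          · rw [min_eq_right hle, hpf x]; exact hff _ _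
        calc _ ≤ (min (pp Λ ht z α h x) M + b (h - α) x) * Ψ h (e x) := by gcongr
          _ = min (pp Λ ht z α h x) M * Ψ h (e x) + b (h - α) x * Ψ h (e x) := by ring
          _ ≤ min (pp Λ ht z α h x) M * Ψ h (e x) + b (h - α) x * 1 := by
              gcongr; exact hΨ _ _
          _ = _ := by rw [mul_one]
      refine (ENNReal.tsum_le_tsum e3).trans ?_
      rw [ENNReal.tsum_add]
      gcongr
      have e4 : ∑' x, min (pp Λ ht z α h x) M * Ψ h (e x)
          = ∑' y, (fun y => min (pp Λ ht z α h (e.symm y)) M) y * Ψ h y := by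
        rw [← e.tsum_eq (fun y => (fun y => min (pp Λ ht z α h (e.symm y)) M) y * Ψ h y)]
        refine tsum_congr fun x => ?_
        simp
      rw [e4]
      refine hK h hh.1 hh.2 _ ?_ fun x => min_le_right _ _
      calc ∑' y, min (pp Λ ht z α h (e.symm y)) M ≤ ∑' y, pp Λ ht z α h (e.symm y) :=
            ENNReal.tsum_le_tsum fun y => min_le_left _ _
        _ = ∑' x, pp Λ ht z α h x := e.symm.tsum_eq (pp Λ ht z α h)
        _ ≤ 1 := pp_sum_le Λ ht z h1 hΛ α h
    · rw [if_neg hh]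
      refine le_of_eq (ENNReal.tsum_eq_zero.2 fun x => ?_)
      by_cases h2 : h ≤ α + i0
      · have h3 : ¬ α ≤ h := fun h3 => hh ⟨h3, h2⟩
        have : pp Λ ht z α h x = 0 := by
          refine ENNReal.tsum_eq_zero.2 fun L => ?_
          rw [if_neg]
          rintro ⟨hf, hH, _⟩
          exact h3 (hH ▸ le_HT_of_fp ht hf)
        rw [this, zero_mul]
      · rw [if_neg h2, mul_zero]
  refine (ENNReal.tsum_le_tsum e2).trans ?_
  rw [tsum_eq_sum (s := Finset.Icc α (α + i0))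
    (fun h hh => if_neg (by rwa [Finset.mem_Icc] at hh))]
  calc ∑ h ∈ Finset.Icc α (α + i0), (if α ≤ h ∧ h ≤ α + i0 then K0 + ∑' x, b (h - α) x else 0)
      = ∑ h ∈ Finset.Icc α (α + i0), (K0 + ∑' x, b (h - α) x) :=
        Finset.sum_congr rfl fun h hh => if_pos (Finset.mem_Icc.1 hh)
    _ = (i0 + 1 : ℕ) * K0 + ∑ h ∈ Finset.Icc α (α + i0), ∑' x, b (h - α) x := by
        rw [Finset.sum_add_distrib, Finset.sum_const, Nat.card_Icc, nsmul_eq_mul]
        congr 3
        omega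
    _ ≤ (i0 + 1 : ℕ) * K0 + β := by
        gcongr
        refine le_trans ?_ hb
        rw [← Finset.sum_image (f := fun o => ∑' x, b o x) (g := fun h => h - α)
          (s := Finset.Icc α (α + i0)) (by
            intro x hx y hy hxy
            have h1 := Finset.mem_Icc.1 (Finset.mem_coe.1 hx)
            have h2 := Finset.mem_Icc.1 (Finset.mem_coe.1 hy)
            simp only at hxy
            omega)]
        exact ENNReal.sum_le_tsum _

end half

section win

variable {BX BY G : Type*} [AddCommGroup G] (ΛX : BX → ℝ≥0∞) (hX : BX → ℕ) (zX : BX → G)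
  (sX : BX → Set (G × ℕ)) (ΛY : BY → ℝ≥0∞) (hY : BY → ℕ) (zY : BY → G) (sY : BY → Set (G × ℕ))

/-- the pieces `L`, `L'` (tops at depths `a`, `a'`, relative position `x`) have a common site and
all their common sites are at depths in `[lo, hi]` -/
def Ct (L : List BX) (L' : List BY) (x : G) (a a' lo hi : ℕ) : Prop :=
  (∃ z k, (z, k) ∈ TR hX zX sX L 0 a ∧ (z, k) ∈ TR hY zY sY L' x a') ∧
  ∀ z k, (z, k) ∈ TR hX zX sX L 0 a → (z, k) ∈ TR hY zY sY L' x a' → lo ≤ k ∧ k ≤ hi

open Classical in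
/-- window lemma, `X` local -/
def H2 (C : ℝ≥0∞) (us : ℕ → ℝ≥0∞) : Prop :=
  ∀ (s h h' a a' lo hi : ℕ) (E : Finset G) (μ : G → ℝ≥0∞) (M lam : ℝ≥0∞),
    ∑' x, μ x ≤ 1 → (∀ x, μ x ≤ M) → lam ≠ 0 → lam ≠ ⊤ → a + s ≤ lo → a' + s ≤ lo →
    hi + s ≤ a + h → hi + s ≤ a' + h' → a ≤ a' → a + h ≤ a' + h' →
    ∑' x, μ x * ∑' L, ∑' L', (if HT hX L = h ∧ Dp zX L ∈ E ∧ HT hY L' = h' ∧
      Ct hX zX sX hY zY sY L L' x a a' lo hi then LW ΛX L * LW ΛY L' else 0)
      ≤ C * (lam + M * E.card * us s / lam + us s)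

open Classical in
/-- window lemma, `Y` local -/
def H3 (C : ℝ≥0∞) (us : ℕ → ℝ≥0∞) : Prop :=
  ∀ (s h h' a a' lo hi : ℕ) (E : Finset G) (μ : G → ℝ≥0∞) (M lam : ℝ≥0∞),
    ∑' x, μ x ≤ 1 → (∀ x, μ x ≤ M) → lam ≠ 0 → lam ≠ ⊤ → a + s ≤ lo → a' + s ≤ lo →
    hi + s ≤ a + h → hi + s ≤ a' + h' → a ≤ a' → a + h ≤ a' + h' →
    ∑' x, μ x * ∑' L, ∑' L', (if HT hX L = h ∧ Dp zY L' ∈ E ∧ HT hY L' = h' ∧
      Ct hX zX sX hY zY sY L L' x a a' lo hi then LW ΛX L * LW ΛY L' else 0)
      ≤ C * (lam + M * E.card * us s / lam + us s)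

open Classical in
/-- indicator of a contact in the window, off its slabs -/
noncomputable def chi (α T i0 s : ℕ) (w : G) (LX : List BX) (LY : List BY) : ℝ≥0∞ :=
  if (∃ z k, α + 3 * i0 + s ≤ k ∧ k + s ≤ α + T ∧ (z, k) ∈ TR hX zX sX LX 0 0 ∧
      (z, k) ∈ TR hY zY sY LY w 0) ∧
    (∀ z k, (z, k) ∈ TR hX zX sX LX 0 0 → (z, k) ∈ TR hY zY sY LY w 0 → α < k →
      k ≤ α + T + 2 * i0 → α + 3 * i0 + s ≤ k ∧ k + s ≤ α + T) then 1 else 0

open Classical in
/-- indicator for the pieces -/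
noncomputable def psi (α T i0 s : ℕ) (w : G) (A σ : List BX) (A' τ : List BY) : ℝ≥0∞ :=
  if Ct hX zX sX hY zY sY σ τ (w + Dp zY A' - Dp zX A) (HT hX A) (HT hY A') (α + 3 * i0 + s)
    (α + T - s) then 1 else 0

lemma chi_le_psi (hsX : ∀ b q, q ∈ sX b → 1 ≤ q.2 ∧ q.2 ≤ hX b)
    (hsY : ∀ b q, q ∈ sY b → 1 ≤ q.2 ∧ q.2 ≤ hY b) (α T i0 s : ℕ) (hs : 1 ≤ s) (w : G)
    (A σ R : List BX) (A' τ R' : List BY)
    (hA : fp hX α A) (hA2 : HT hX A ≤ α + i0) (hσ : fp hX T σ) (hσ2 : HT hX σ ≤ T + i0)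
    (hA' : fp hY (α + 2 * i0) A') (hA2' : HT hY A' ≤ α + 2 * i0 + i0) (hτ : fp hY T τ) :
    chi hX zX sX hY zY sY α T i0 s w (A ++ (σ ++ R)) (A' ++ (τ ++ R'))
      ≤ psi hX zX sX hY zY sY α T i0 s w A σ A' τ := by
  have a1 := le_HT_of_fp hX hA
  have a2 := le_HT_of_fp hX hσ
  have a3 := le_HT_of_fp hY hA'
  have a4 := le_HT_of_fp hY hτ
  unfold chi
  split_ifs with hc
  · obtain ⟨⟨v, k, hk1, hk2, hvX, hvY⟩, hall⟩ := hc
    have hin : Ct hX zX sX hY zY sY σ τ (w + Dp zY A' - Dp zX A) (HT hX A) (HT hY A')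
        (α + 3 * i0 + s) (α + T - s) := by
      rw [TR_append, TR_append] at hvX hvY
      constructor
      · refine ⟨v - Dp zX A, k, ?_, ?_⟩
        · rcases hvX with h | h | h
          · have := TR_depth hX zX sX hsX _ _ _ _ h
            simp only at this
            omega
          · rw [TR_shift] at h
            rw [zero_add] at h
            exact h
          · have := TR_depth hX zX sX hsX _ _ _ _ h
            simp only at this
            omega
        · rcases hvY with h | h | h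
          · have := TR_depth hY zY sY hsY _ _ _ _ h
            simp only at this
            omega
          · rw [← TR_shift, sub_add_cancel]
            rw [zero_add] at h
            exact h
          · have := TR_depth hY zY sY hsY _ _ _ _ h
            simp only at this
            omega
      · intro v' k' h1 h2
        have d1 := TR_depth hX zX sX hsX _ _ _ _ h1
        simp only at d1
        have g1 : (v' + Dp zX A, k') ∈ TR hX zX sX (A ++ (σ ++ R)) 0 0 := by
          rw [TR_append, TR_append]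
          refine Or.inr (Or.inl ?_)
          rw [TR_shift, add_sub_cancel_right, zero_add]
          exact h1
        have g2 : (v' + Dp zX A, k') ∈ TR hY zY sY (A' ++ (τ ++ R')) w 0 := by
          rw [TR_append, TR_append]
          refine Or.inr (Or.inl ?_)
          have h3 := (TR_shift hY zY sY τ (w + Dp zY A' - Dp zX A) (Dp zX A) (HT hY A')
            (v' + Dp zX A) k').2 (by rw [add_sub_cancel_right]; exact h2)
          rw [sub_add_cancel] at h3
          rw [zero_add]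
          exact h3
        have := hall _ _ g1 g2 (by omega) (by omega)
        omega
    unfold psi
    rw [if_pos hin]
  · exact zero_le

end win

end Crest.Agent.R154.WinB706
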