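import Crest.Agent.R154.WinA_956

/-!
# Row 154, `d = 2`, D2.10, part B: from block time to level time; the window bound.  (helper956)

`x l a` = lateral position at the first hit of the level `l` of the natural walk with letters `a`,
`Y` = height, `X` = lateral displacement of a letter, `wd` = width function, `θ` = slant.
-/

set_option autoImplicit false
set_option linter.unusedSectionVars false

namespace Crest.Agent.R154.Win956

open MeasureTheory ProbabilityTheory Filter Topology Set Crest.Agent.R154.J132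
open scoped ENNReal

variable {A : Type*} [MeasurableSpace A] [MeasurableSingletonClass A] [Countable A] [Inhabited A]
variable (μ : Measure A) [IsProbabilityMeasure μ]

/-- weak law of large numbers for the heights -/
theorem lln {Y : A → ℕ} (hI : Integrable (fun a => (Y a : ℝ)) μ) {δ ε : ℝ} (hδ : 0 < δ)
    (hε : 0 < ε) :
    ∀ᶠ m : ℕ in atTop, (iidL μ).real {a | δ * m < |(H Y m a : ℝ) - (∫ a, (Y a : ℝ) ∂μ) * m|} ≤ ε := by
  set c0 := ∫ a, (Y a : ℝ) ∂μ with hc0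
  have hYm : Measurable fun a => (Y a : ℝ) := measurable_of_countable _
  set Z : ℕ → (ℕ → A) → ℝ := fun i a => (Y (a i) : ℝ) with hZ
  have hZm : ∀ i, Measurable (Z i) := fun i => hYm.comp (measurable_pi_apply i)
  have hmap : ∀ i, (iidL μ).map (fun a : ℕ → A => a i) = μ := fun i =>
    Measure.infinitePi_map_eval (fun _ : ℕ => μ) i
  have hlaw : ∀ i, (iidL μ).map (Z i) = μ.map fun a => (Y a : ℝ) := by
    intro i
    have : Z i = (fun a => (Y a : ℝ)) ∘ fun a : ℕ → A => a i := rfl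
    rw [this, ← Measure.map_map hYm (measurable_pi_apply i), hmap]
  have hint : Integrable (Z 0) (iidL μ) := by
    have h1 : Integrable (fun a => (Y a : ℝ)) ((iidL μ).map (fun a : ℕ → A => a 0)) := by
      rw [hmap]; exact hI
    exact h1.comp_measurable (measurable_pi_apply 0)
  have hmean : ∫ a, Z 0 a ∂(iidL μ) = c0 := by
    have h1 : ∫ a, (Y a : ℝ) ∂((iidL μ).map (fun a : ℕ → A => a 0)) = ∫ a, Z 0 a ∂(iidL μ) :=
      integral_map (measurable_pi_apply 0).aemeasurable hYm.aestronglyMeasurable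
    rw [← h1, hmap]
  have hind : iIndepFun Z (iidL μ) :=
    iIndepFun_infinitePi (P := fun _ : ℕ => μ) (X := fun _ : ℕ => fun a : A => (Y a : ℝ))
      (fun _ => hYm)
  have hslln := strong_law_ae_real (μ := iidL μ) Z hint
    (fun i j hij => hind.indepFun hij)
    (fun i => ⟨(hZm i).aemeasurable, (hZm 0).aemeasurable, by rw [hlaw, hlaw]⟩)
  rw [hmean] at hslln
  have hfm : ∀ n : ℕ, Measurable fun a : ℕ → A => (∑ i ∈ Finset.range n, Z i a) / n := fun n =>
    (Finset.measurable_sum _ fun i _ => hZm i).div_const _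
  have h1 : TendstoInMeasure (iidL μ) (fun (n : ℕ) (a : ℕ → A) => (∑ i ∈ Finset.range n, Z i a) / n)
      atTop (fun _ => c0) :=
    tendstoInMeasure_of_tendsto_ae (fun n => (hfm n).aestronglyMeasurable) hslln
  have h2 := h1 (ENNReal.ofReal δ) (by simpa using hδ)
  have h3 := (tendsto_order.1 h2).2 (ENNReal.ofReal ε) (by simpa using hε)
  filter_upwards [h3, eventually_gt_atTop 0] with n hn hn0
  have hnr : (0 : ℝ) < n := by exact_mod_cast hn0
  have hsub : {a : ℕ → A | δ * n < |(H Y n a : ℝ) - c0 * n|} ⊆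
      {a | ENNReal.ofReal δ ≤ edist ((∑ i ∈ Finset.range n, Z i a) / n) c0} := by
    intro a ha
    simp only [mem_ofPred_eq] at ha ⊢
    rw [edist_dist, Real.dist_eq]
    refine ENNReal.ofReal_le_ofReal ?_
    have e : ∑ i ∈ Finset.range n, Z i a = (H Y n a : ℝ) := by
      simp [hZ, H]
    rw [e]
    have e2 : (H Y n a : ℝ) / n - c0 = ((H Y n a : ℝ) - c0 * n) / n := by field_simp
    rw [e2, abs_div, abs_of_pos hnr, le_div_iff₀ hnr]
    exact ha.le
  have h4 := (measure_mono hsub).trans hn.le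
  rw [measureReal_def]
  exact ENNReal.toReal_le_of_le_ofReal hε.le h4

/-- a real random variable is tight -/
lemma tight_one {f : (ℕ → A) → ℝ} (hf : Measurable f) {wd : ℕ → ℝ} (hinf : Tendsto wd atTop atTop)
    {δ ε : ℝ} (hδ : 0 < δ) (hε : 0 < ε) :
    ∀ᶠ N in atTop, (iidL μ).real {a | δ * wd N < |f a|} ≤ ε := by
  have h1 : Tendsto (fun n : ℕ => (iidL μ) {a | (n : ℝ) < |f a|}) atTop (𝓝 0) := by
    have h2 : (⋂ n : ℕ, {a : ℕ → A | (n : ℝ) < |f a|}) = ∅ := by
      ext a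
      simp only [mem_iInter, mem_ofPred_eq, mem_empty_iff_false, iff_false, not_forall, not_lt]
      exact exists_nat_ge |f a|
    have h3 := tendsto_measure_iInter_atTop (μ := iidL μ) (s := fun n : ℕ => {a | (n : ℝ) < |f a|})
      (fun n => (measurableSet_lt measurable_const hf.abs).nullMeasurableSet)
      (fun i j hij a ha => by
        simp only [mem_ofPred_eq] at ha ⊢
        exact lt_of_le_of_lt (by exact_mod_cast hij) ha)
      ⟨0, measure_ne_top _ _⟩
    rw [h2, measure_empty] at h3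
    exact h3
  obtain ⟨n, hn⟩ := ((tendsto_order.1 h1).2 (ENNReal.ofReal ε) (by simpa using hε)).exists
  have h4 := (hinf.const_mul_atTop hδ).eventually_ge_atTop (n : ℝ)
  filter_upwards [h4] with N hN
  rw [measureReal_def]
  refine ENNReal.toReal_le_of_le_ofReal hε.le ((measure_mono ?_).trans hn.le)
  intro a ha
  simp only [mem_ofPred_eq] at ha ⊢
  exact lt_of_le_of_lt hN ha

/-- the data -/
structure Dat (Y : A → ℕ) (X : A → ℝ) (x : ℕ → (ℕ → A) → ℝ) (θ : ℝ) (wd : ℕ → ℝ) : Prop where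
  one : ∀ a, 1 ≤ Y a
  int : Integrable (fun a => (Y a : ℝ)) μ
  meas : ∀ l, Measurable (x l)
  cov : ∀ (a : ℕ → A) (i l : ℕ), H Y i a ≤ l → x l a = T X i a + x (l - H Y i a) (J132.sh i a)
  mono : Monotone wd
  inf : Tendsto wd atTop atTop
  up : ∃ C : ℝ, ∀ k : ℕ, 1 ≤ k → ∀ᶠ N in atTop, wd (k * N) ≤ C * √(k : ℝ) * wd N
  lo : ∀ δ : ℝ, 0 < δ → ∃ K : ℕ, 1 ≤ K ∧ ∀ᶠ N in atTop, wd N ≤ δ * wd (K * N)
  tight : ∀ ε : ℝ, 0 < ε → ∃ K : ℝ, ∀ᶠ N in atTop, (iidL μ).real {a | K * wd N < |x N a - θ * N|} ≤ ε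
  spr : ∃ s p : ℝ, 0 < s ∧ 0 < p ∧ ∀ᶠ N in atTop, p ≤ (iidL μ).real {a | s * wd N ≤ |x N a - θ * N|}

variable {μ} {Y : A → ℕ} {X : A → ℝ} {x : ℕ → (ℕ → A) → ℝ} {θ : ℝ} {wd : ℕ → ℝ}

/-- the centred letter -/
def et (Y : A → ℕ) (X : A → ℝ) (θ : ℝ) (a : A) : ℝ := X a - θ * Y a

omit [MeasurableSpace A] [MeasurableSingletonClass A] [Countable A] [Inhabited A] in
lemma T_et (Y : A → ℕ) (X : A → ℝ) (θ : ℝ) (m : ℕ) (a : ℕ → A) :
    T (et Y X θ) m a = T X m a - θ * H Y m a := by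
  simp only [T, et, H, Finset.sum_sub_distrib]
  push_cast
  rw [Finset.mul_sum]

lemma Dat.c0 (D : Dat μ Y X x θ wd) : 1 ≤ ∫ a, (Y a : ℝ) ∂μ := by
  have h : ∫ _ : A, (1 : ℝ) ∂μ ≤ ∫ a, (Y a : ℝ) ∂μ :=
    integral_mono (integrable_const _) D.int fun a => by
      have h1 : (1 : ℝ) ≤ (Y a : ℝ) := Nat.one_le_cast.2 (D.one a)
      exact h1
  simpa using h

/-- **block time against level time** -/
theorem Dat.conv (D : Dat μ Y X x θ wd) {δ ε : ℝ} (hδ : 0 < δ) (hε : 0 < ε) :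
    ∃ ρ : ℝ, 0 < ρ ∧ ρ ≤ 1 / 4 ∧ ∀ᶠ N : ℕ in atTop, ∀ m : ℕ,
      (1 - 2 * ρ) * N ≤ (∫ a, (Y a : ℝ) ∂μ) * m → (∫ a, (Y a : ℝ) ∂μ) * m ≤ (1 - ρ) * N →
      (iidL μ).real {a | δ * wd N < |x N a - θ * N - T (et Y X θ) m a|} ≤ ε := by
  set c0 := ∫ a, (Y a : ℝ) ∂μ with hc0
  have hc1 : 1 ≤ c0 := D.c0
  obtain ⟨K, hK⟩ := D.tight (ε / 2) (by positivity)
  set K' := max K 1 with hK'
  have hK'0 : 0 < K' := lt_max_of_lt_right one_pos
  obtain ⟨K1, hK1, hlo⟩ := D.lo (δ / K') (by positivity)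
  have hK1r : (1 : ℝ) ≤ K1 := by exact_mod_cast hK1
  set ρ : ℝ := 1 / (4 * K1) with hρ
  have hρ0 : 0 < ρ := by positivity
  have hρ1 : ρ ≤ 1 / 4 := by
    rw [hρ]
    exact one_div_le_one_div_of_le (by norm_num) (by linarith)
  refine ⟨ρ, hρ0, hρ1, ?_⟩
  -- thresholds
  have hwpos : ∀ᶠ N in atTop, 0 ≤ wd N := D.inf.eventually_ge_atTop 0
  obtain ⟨r0, hr0⟩ := (hK.and hwpos).exists_forall_of_atTop
  have hsmall : ∀ᶠ N in atTop, ∀ r ∈ Finset.range r0,
      (iidL μ).real {a | δ * wd N < |x r a - θ * r|} ≤ ε / 2 := by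
    rw [Filter.eventually_all_finset]
    intro r _
    exact tight_one μ ((D.meas r).sub_const _) D.inf hδ (by positivity)
  have hlln := lln μ D.int hρ0 (ε := ε / 2) (by positivity)
  obtain ⟨m0, hm0⟩ := hlln.exists_forall_of_atTop
  have hdiv : Tendsto (fun N : ℕ => N / K1) atTop atTop :=
    Nat.tendsto_div_const_atTop (by omega)
  have hm0' : ∀ᶠ N : ℕ in atTop, (2 * c0 * m0 : ℝ) ≤ N :=
    tendsto_natCast_atTop_atTop.eventually_ge_atTop _
  filter_upwards [hsmall, hdiv.eventually hlo, hm0', D.inf.eventually_ge_atTop 0] with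
    N hN1 hN2 hN3 hN5 m hm1 hm2
  set R := N / K1 with hR
  have hRN : K1 * R ≤ N := Nat.mul_div_le N K1
  have hNr : (0 : ℝ) ≤ N := Nat.cast_nonneg N
  -- m is large
  have hmm0 : m0 ≤ m := by
    have h1 : (1 / 2 : ℝ) * N ≤ c0 * m := by nlinarith
    have h2 : c0 * m0 ≤ c0 * m := by linarith
    have h3 : (m0 : ℝ) ≤ m := le_of_mul_le_mul_left h2 (by linarith)
    exact_mod_cast h3
  have hmN : (m : ℝ) ≤ N := by nlinarith
  -- one residual level
  have hres : ∀ r : ℕ, r ≤ R → (iidL μ).real {a | δ * wd N < |x r a - θ * r|} ≤ ε / 2 := by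
    intro r hr
    rcases lt_or_ge r r0 with h | h
    · exact hN1 r (Finset.mem_range.2 h)
    · obtain ⟨h1, h2⟩ := hr0 r h
      refine (measureReal_mono ?_ (measure_ne_top _ _)).trans h1
      intro a ha
      simp only [mem_ofPred_eq] at ha ⊢
      refine lt_of_le_of_lt ?_ ha
      calc K * wd r ≤ K' * wd r := mul_le_mul_of_nonneg_right (le_max_left _ _) h2
        _ ≤ K' * wd R := mul_le_mul_of_nonneg_left (D.mono hr) hK'0.le
        _ ≤ K' * (δ / K' * wd (K1 * R)) := mul_le_mul_of_nonneg_left hN2 hK'0.le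
        _ = δ * wd (K1 * R) := by field_simp
        _ ≤ δ * wd N := mul_le_mul_of_nonneg_left (D.mono hRN) hδ.le
  -- covering
  set Bad : Set (ℕ → A) := {a | ρ * m < |(H Y m a : ℝ) - c0 * m|} with hBad
  set I : Finset ℕ := (Finset.range (N + 1)).filter fun h => N - h ≤ R with hI
  have hcov : {a : ℕ → A | δ * wd N < |x N a - θ * N - T (et Y X θ) m a|} ⊆
      Bad ∪ ⋃ h ∈ I, ({a | H Y m a = h} ∩
        J132.sh m ⁻¹' {a | δ * wd N < |x (N - h) a - θ * ((N - h : ℕ) : ℝ)|}) := by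
    intro a ha
    by_cases hb : a ∈ Bad
    · exact Or.inl hb
    · right
      simp only [hBad, mem_ofPred_eq, not_lt] at hb
      obtain ⟨hb1, hb2⟩ := abs_le.1 hb
      have hρm : ρ * m ≤ ρ * N := mul_le_mul_of_nonneg_left hmN hρ0.le
      have h1 : (H Y m a : ℝ) ≤ N := by linarith
      have h1' : H Y m a ≤ N := by exact_mod_cast h1
      have h2 : (N : ℝ) - H Y m a ≤ 3 * ρ * N := by linarith
      have h3 : N - H Y m a ≤ R := by
        rw [hR, Nat.le_div_iff_mul_le (by omega)]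
        have h4 : ((N - H Y m a : ℕ) : ℝ) * K1 ≤ N := by
          rw [Nat.cast_sub h1']
          calc ((N : ℝ) - H Y m a) * K1 ≤ 3 * ρ * N * K1 :=
                mul_le_mul_of_nonneg_right h2 (by positivity)
            _ = 3 / 4 * N := by rw [hρ]; field_simp
            _ ≤ N := by linarith
        exact_mod_cast h4
      simp only [mem_iUnion]
      refine ⟨H Y m a, ?_, rfl, ?_⟩
      · simp only [hI, Finset.mem_filter, Finset.mem_range]
        exact ⟨by omega, h3⟩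
      · simp only [mem_preimage, mem_ofPred_eq] at ha ⊢
        have e := D.cov a m N h1'
        rw [e, T_et] at ha
        have e2 : T X m a + x (N - H Y m a) (J132.sh m a) - θ * N - (T X m a - θ * H Y m a) =
            x (N - H Y m a) (J132.sh m a) - θ * ((N - H Y m a : ℕ) : ℝ) := by
          rw [Nat.cast_sub h1']; ring
        rw [e2] at ha
        exact ha
  have hdet : ∀ h : ℕ, Det m {a : ℕ → A | H Y m a = h} := by
    intro h a b hab
    simp only [mem_ofPred_eq, H_congr hab]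
  have hmeas : ∀ r : ℕ, MeasurableSet {a : ℕ → A | δ * wd N < |x r a - θ * r|} := fun r =>
    measurableSet_lt measurable_const ((D.meas r).sub_const _).abs
  have hsum : ∑ h ∈ I, (iidL μ).real {a : ℕ → A | H Y m a = h} ≤ 1 := by
    rw [← measureReal_biUnion_finset]
    · exact measureReal_le_one
    · intro h _ h' _ hne
      rw [Function.onFun, Set.disjoint_left]
      intro a h1 h2
      simp only [mem_ofPred_eq] at h1 h2
      exact hne (h1.symm.trans h2)
    · exact fun h _ => (hdet h).meas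
  calc (iidL μ).real {a | δ * wd N < |x N a - θ * N - T (et Y X θ) m a|}
      ≤ _ := measureReal_mono hcov (measure_ne_top _ _)
    _ ≤ _ := measureReal_union_le _ _
    _ ≤ ε / 2 + ∑ h ∈ I, (iidL μ).real ({a | H Y m a = h} ∩
        J132.sh m ⁻¹' {a | δ * wd N < |x (N - h) a - θ * ((N - h : ℕ) : ℝ)|}) :=
      add_le_add (hm0 m hmm0) (measureReal_biUnion_finset_le _ _)
    _ ≤ ε / 2 + ∑ h ∈ I, (iidL μ).real {a : ℕ → A | H Y m a = h} * (ε / 2) := by
      refine add_le_add le_rfl (Finset.sum_le_sum fun h hh => ?_)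
      rw [restart1_real μ (hdet h) (hmeas _)]
      refine mul_le_mul_of_nonneg_left (hres _ ?_) measureReal_nonneg
      exact (Finset.mem_filter.1 hh).2
    _ ≤ ε / 2 + 1 * (ε / 2) := by
      rw [← Finset.sum_mul]
      exact add_le_add le_rfl (mul_le_mul_of_nonneg_right hsum (by positivity))
    _ = ε := by ring

/-- comparison of scales -/
lemma Dat.up' (D : Dat μ Y X x θ wd) : ∃ C : ℝ, 1 ≤ C ∧ ∀ k : ℕ, 1 ≤ k →
    ∀ᶠ N in atTop, wd (k * N) ≤ C * √(k : ℝ) * wd N := by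
  obtain ⟨C, hC⟩ := D.up
  refine ⟨max C 1, le_max_right _ _, fun k hk => ?_⟩
  filter_upwards [hC k hk, D.inf.eventually_ge_atTop 0] with N h1 h2
  refine h1.trans ?_
  exact mul_le_mul_of_nonneg_right
    (mul_le_mul_of_nonneg_right (le_max_left _ _) (Real.sqrt_nonneg _)) h2

/-- the level associated with `m` blocks -/
lemma exists_level {c0 ρ : ℝ} (hc : 1 ≤ c0) (hρ0 : 0 < ρ) (hρ1 : ρ ≤ 1 / 4) :
    ∀ᶠ m : ℕ in atTop, ∃ N : ℕ, (1 - 2 * ρ) * N ≤ c0 * m ∧ c0 * m ≤ (1 - ρ) * N ∧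
      N ≤ 2 * (⌈c0⌉₊ * m) ∧ ⌈c0⌉₊ * m ≤ 2 * N ∧ m ≤ N := by
  have h1 : ∀ᶠ m : ℕ in atTop, (2 / ρ : ℝ) ≤ m := tendsto_natCast_atTop_atTop.eventually_ge_atTop _
  filter_upwards [h1] with m hm
  have hρm : 2 ≤ ρ * m := by
    rw [div_le_iff₀ hρ0] at hm; linarith
  have h0 : (0 : ℝ) < 1 - ρ := by linarith
  have hm8 : (8 : ℝ) ≤ m := by
    have : (0:ℝ) ≤ m := Nat.cast_nonneg m
    nlinarith
  set N := ⌈c0 * m / (1 - ρ)⌉₊ with hN
  have hN1 : c0 * m / (1 - ρ) ≤ N := Nat.le_ceil _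
  have hN2 : (N : ℝ) < c0 * m / (1 - ρ) + 1 := Nat.ceil_lt_add_one (by positivity)
  have e1 : c0 * m ≤ (1 - ρ) * N := by
    rw [div_le_iff₀ h0] at hN1; linarith
  have e2 : (1 - ρ) * N < c0 * m + (1 - ρ) := by
    have := mul_lt_mul_of_pos_left hN2 h0
    have e : (1 - ρ) * (c0 * m / (1 - ρ) + 1) = c0 * m + (1 - ρ) := by field_simp
    linarith
  have hNm : (m : ℝ) ≤ N := by nlinarith
  have e3 : (1 - 2 * ρ) * N ≤ c0 * m := by nlinarith
  have hc0 : c0 ≤ ⌈c0⌉₊ := Nat.le_ceil _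
  have hc1 : (⌈c0⌉₊ : ℝ) < c0 + 1 := Nat.ceil_lt_add_one (by linarith)
  refine ⟨N, e3, e1, ?_, ?_, by exact_mod_cast hNm⟩
  · have : (N : ℝ) ≤ 2 * (⌈c0⌉₊ * m) := by
      have h5 : (3 / 4 : ℝ) * N ≤ (1 - ρ) * N :=
        mul_le_mul_of_nonneg_right (by linarith) (Nat.cast_nonneg N)
      have h6 : c0 * m ≤ ⌈c0⌉₊ * m := mul_le_mul_of_nonneg_right hc0 (Nat.cast_nonneg m)
      nlinarith
    exact_mod_cast this
  · have : ((⌈c0⌉₊ : ℝ) * m) ≤ 2 * N := by
      have h6 : (⌈c0⌉₊ : ℝ) * m ≤ (c0 + 1) * m :=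
        mul_le_mul_of_nonneg_right hc1.le (Nat.cast_nonneg m)
      nlinarith
    exact_mod_cast this

/-- block time: two sided -/
theorem Dat.two (D : Dat μ Y X x θ wd) :
    ∃ s K p : ℝ, 0 < s ∧ 0 < K ∧ 0 < p ∧ ∀ᶠ m : ℕ in atTop,
      p ≤ (iidL μ).real {a | s * wd (⌈∫ a, (Y a : ℝ) ∂μ⌉₊ * m) ≤ T (et Y X θ) m a ∧
        T (et Y X θ) m a ≤ K * wd (⌈∫ a, (Y a : ℝ) ∂μ⌉₊ * m)} ∧
      p ≤ (iidL μ).real {a | s * wd (⌈∫ a, (Y a : ℝ) ∂μ⌉₊ * m) ≤ -T (et Y X θ) m a ∧
        -T (et Y X θ) m a ≤ K * wd (⌈∫ a, (Y a : ℝ) ∂μ⌉₊ * m)} := by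
  set c0 := ∫ a, (Y a : ℝ) ∂μ with hc0
  have hc1 : 1 ≤ c0 := D.c0
  set L := ⌈c0⌉₊ with hL
  have hL1 : 1 ≤ L := Nat.one_le_ceil_iff.2 (by linarith)
  have hLt : Tendsto (fun m : ℕ => L * m) atTop atTop :=
    tendsto_id.const_mul_atTop' (by omega : 0 < L)
  obtain ⟨C, hC1, hC⟩ := D.up'
  have h2 := hC 2 (by norm_num)
  set C2 := C * √((2 : ℕ) : ℝ) with hC2
  have hC20 : 0 < C2 := by positivity
  refine two_sided μ (et Y X θ) (fun m => wd (L * m)) ?_ ?_ ?_ ?_
  · exact hLt.eventually (D.inf.eventually_gt_atTop 0)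
  · intro ε hε
    obtain ⟨K, hK⟩ := D.tight (ε / 2) (by positivity)
    obtain ⟨ρ, hρ0, hρ1, hconv⟩ := D.conv (δ := 1) one_pos (ε := ε / 2) (by positivity)
    obtain ⟨N0, hN0⟩ := ((hK.and hconv).and (D.inf.eventually_ge_atTop 0)).exists_forall_of_atTop
    refine ⟨(|K| + 1) * C2, ?_⟩
    filter_upwards [exists_level hc1 hρ0 hρ1, eventually_ge_atTop N0, hLt.eventually h2] with
      m ⟨N, e1, e2, e3, e4, e5⟩ hm h2m
    obtain ⟨⟨h3, h4⟩, h5⟩ := hN0 N (hm.trans e5)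
    have h6 := h4 m e1 e2
    have h7 : wd N ≤ C2 * wd (L * m) := (D.mono e3).trans h2m
    have hsub : {a : ℕ → A | (|K| + 1) * C2 * wd (L * m) < |T (et Y X θ) m a|} ⊆
        {a | K * wd N < |x N a - θ * N|} ∪ {a | 1 * wd N < |x N a - θ * N - T (et Y X θ) m a|} := by
      intro a ha
      by_contra hcon
      simp only [mem_union, mem_ofPred_eq, not_or, not_lt] at hcon ha
      obtain ⟨h8, h9⟩ := hcon
      have h10 : |T (et Y X θ) m a| ≤ |x N a - θ * N| + |x N a - θ * N - T (et Y X θ) m a| := by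
        have e : T (et Y X θ) m a = (x N a - θ * N) - (x N a - θ * N - T (et Y X θ) m a) := by ring
        calc |T (et Y X θ) m a| = |(x N a - θ * N) - (x N a - θ * N - T (et Y X θ) m a)| := by
              rw [← e]
          _ ≤ _ := abs_sub _ _
      have h11 : K * wd N ≤ |K| * wd N := mul_le_mul_of_nonneg_right (le_abs_self _) h5
      have h12 : (|K| + 1) * wd N ≤ (|K| + 1) * (C2 * wd (L * m)) :=
        mul_le_mul_of_nonneg_left h7 (by positivity)
      linarith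
    have h8 := (measureReal_mono hsub (measure_ne_top (iidL μ) _)).trans
      (measureReal_union_le _ _)
    linarith
  · obtain ⟨s, p, hs, hp, hspr⟩ := D.spr
    obtain ⟨ρ, hρ0, hρ1, hconv⟩ := D.conv (δ := s / 2) (by positivity) (ε := p / 2) (by positivity)
    have h2' : ∀ᶠ N in atTop, wd (2 * N) ≤ C2 * wd N := h2
    obtain ⟨N0, hN0⟩ := ((hspr.and hconv).and (h2'.and (D.inf.eventually_ge_atTop 0))).exists_forall_of_atTop
    refine ⟨s / (2 * C2), p / 2, by positivity, by positivity, ?_⟩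
    filter_upwards [exists_level hc1 hρ0 hρ1, eventually_ge_atTop N0] with
      m ⟨N, e1, e2, e3, e4, e5⟩ hm
    obtain ⟨⟨h3, h4⟩, h5, h6⟩ := hN0 N (hm.trans e5)
    have h7 := h4 m e1 e2
    have h8 : wd (L * m) ≤ C2 * wd N := (D.mono e4).trans h5
    have hsub : {a : ℕ → A | s * wd N ≤ |x N a - θ * N|} ⊆
        {a | s / (2 * C2) * wd (L * m) ≤ |T (et Y X θ) m a|} ∪
        {a | s / 2 * wd N < |x N a - θ * N - T (et Y X θ) m a|} := by
      intro a ha
      by_contra hcon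
      simp only [mem_union, mem_ofPred_eq, not_or, not_lt, not_le] at hcon ha
      obtain ⟨h9, h10⟩ := hcon
      have h11 : |x N a - θ * N| ≤ |x N a - θ * N - T (et Y X θ) m a| + |T (et Y X θ) m a| := by
        have e : x N a - θ * N = (x N a - θ * N - T (et Y X θ) m a) + T (et Y X θ) m a := by ring
        calc |x N a - θ * N| = |(x N a - θ * N - T (et Y X θ) m a) + T (et Y X θ) m a| := by
              rw [← e]
          _ ≤ _ := abs_add_le _ _
      have h12 : s / (2 * C2) * wd (L * m) ≤ s / (2 * C2) * (C2 * wd N) :=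
        mul_le_mul_of_nonneg_left h8 (by positivity)
      have h13 : s / (2 * C2) * (C2 * wd N) = s / 2 * wd N := by field_simp
      linarith
    have h9 := (measureReal_mono hsub (measure_ne_top (iidL μ) _)).trans
      (measureReal_union_le _ _)
    linarith
  · refine ⟨C, fun k hk => ?_⟩
    filter_upwards [hLt.eventually (hC k hk)] with m hm
    have e : L * (k * m) = k * (L * m) := by ring
    rw [e]; exact hm

set_option maxHeartbeats 2000000 in
/-- **THE WINDOW BOUND** (natural law, level time) -/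
theorem Dat.window (D : Dat μ Y X x θ wd) {α β : ℝ} (hαβ : α < β) :
    ∃ c : ℝ, 0 < c ∧ ∀ᶠ N : ℕ in atTop,
      c ≤ (iidL μ).real {a | α * wd N ≤ x N a - θ * N ∧ x N a - θ * N ≤ β * wd N} := by
  obtain ⟨s, K, p, hs, hK, hp, htwo⟩ := D.two
  set c0 := ∫ a, (Y a : ℝ) ∂μ with hc0
  have hc1 : 1 ≤ c0 := D.c0
  set L := ⌈c0⌉₊ with hL
  have hL1 : 1 ≤ L := Nat.one_le_ceil_iff.2 (by linarith)
  have hcL : c0 ≤ L := Nat.le_ceil _
  have hcL' : (L : ℝ) < c0 + 1 := Nat.ceil_lt_add_one (by linarith)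
  obtain ⟨C, hC1, hC⟩ := D.up'
  have hba : 0 < β - α := by linarith
  obtain ⟨K1, hK1, hlo⟩ := D.lo ((β - α) / 4 / K) (by positivity)
  set M := |(α + β) / 2| with hM
  -- the number of pieces
  have hk1 : ∀ᶠ k : ℕ in atTop, M * C * √2 / s ≤ √(k : ℝ) :=
    (Real.tendsto_sqrt_atTop.comp tendsto_natCast_atTop_atTop).eventually_ge_atTop _
  obtain ⟨k, hk1, hk2, hk3⟩ := (hk1.and ((eventually_ge_atTop 1).and
    (eventually_ge_atTop (2 * K1)))).exists
  have hkr : (1 : ℝ) ≤ k := by exact_mod_cast hk2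
  obtain ⟨ρ, hρ0, hρ1, hconv⟩ := D.conv (δ := (β - α) / 4) (by positivity) (ε := p ^ k / 2)
    (by positivity)
  refine ⟨p ^ k / 2, by positivity, ?_⟩
  -- thresholds in m
  have hLt : Tendsto (fun m : ℕ => L * m) atTop atTop :=
    tendsto_id.const_mul_atTop' (by omega : 0 < L)
  obtain ⟨m0, hm0⟩ := ((htwo.and (hLt.eventually hlo)).and
    (hLt.eventually (hC (2 * k) (by omega)))).exists_forall_of_atTop
  have hN0 : ∀ᶠ N : ℕ in atTop, (4 * k * c0 * (m0 + 1) / ρ : ℝ) ≤ N :=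
    tendsto_natCast_atTop_atTop.eventually_ge_atTop _
  filter_upwards [hconv, hN0, D.inf.eventually_ge_atTop 0] with N hN1 hN2 hN3
  have hNr : (0 : ℝ) ≤ N := Nat.cast_nonneg N
  have hkc : (0 : ℝ) < k * c0 := by positivity
  have hρN : 4 * k * c0 * (m0 + 1) ≤ ρ * N := by
    rw [div_le_iff₀ hρ0] at hN2; linarith
  set m := ⌊(1 - ρ) * N / (k * c0)⌋₊ with hm
  have hml : (m : ℝ) ≤ (1 - ρ) * N / (k * c0) :=
    Nat.floor_le (div_nonneg (mul_nonneg (by linarith) hNr) hkc.le)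
  have hmu : (1 - ρ) * N / (k * c0) < m + 1 := Nat.lt_floor_add_one _
  have e1 : m * (k * c0) ≤ (1 - ρ) * N := by rwa [le_div_iff₀ hkc] at hml
  have e2 : (1 - ρ) * N < (m + 1) * (k * c0) := by rwa [div_lt_iff₀ hkc] at hmu
  have hm0r : (0 : ℝ) ≤ m0 := Nat.cast_nonneg _
  have hkc1 : k * c0 ≤ ρ * N := by nlinarith
  have e3 : (1 - 2 * ρ) * N ≤ c0 * ((k * m : ℕ) : ℝ) := by push_cast; nlinarith
  have e4 : c0 * ((k * m : ℕ) : ℝ) ≤ (1 - ρ) * N := by push_cast; nlinarith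
  have hρN' : ρ * N ≤ N := by nlinarith
  have hmm0 : m0 ≤ m := by
    have h1 : (m0 : ℝ) * (k * c0) ≤ m * (k * c0) := by nlinarith
    have h2 : (m0 : ℝ) ≤ m := le_of_mul_le_mul_right h1 hkc
    exact_mod_cast h2
  obtain ⟨⟨⟨h1, h2⟩, h3⟩, h4⟩ := hm0 m hmm0
  -- comparison of the scales
  have hLmN : K1 * (L * m) ≤ N := by
    have h5 : (K1 : ℝ) * (L * m) ≤ N := by
      have h6 : (2 * K1 : ℝ) ≤ k := by exact_mod_cast hk3
      have h7 : (L : ℝ) * m ≤ 2 * c0 * m :=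
        mul_le_mul_of_nonneg_right (by linarith) (Nat.cast_nonneg m)
      have h8 : (K1 : ℝ) * (L * m) ≤ K1 * (2 * c0 * m) :=
        mul_le_mul_of_nonneg_left h7 (Nat.cast_nonneg _)
      have h9 : (2 * K1 : ℝ) * (c0 * m) ≤ k * (c0 * m) :=
        mul_le_mul_of_nonneg_right h6 (by positivity)
      nlinarith
    exact_mod_cast h5
  have hNLm : N ≤ 2 * k * (L * m) := by
    have h5 : (N : ℝ) ≤ 2 * k * (L * m) := by
      have h6 : c0 * m ≤ L * m := mul_le_mul_of_nonneg_right hcL (Nat.cast_nonneg m)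
      have h7 : (k : ℝ) * (c0 * m) ≤ k * (L * m) := mul_le_mul_of_nonneg_left h6 (by positivity)
      nlinarith
    exact_mod_cast h5
  set b := wd (L * m) with hb
  have hbN : K * b ≤ (β - α) / 4 * wd N := by
    calc K * b ≤ K * ((β - α) / 4 / K * wd (K1 * (L * m))) := mul_le_mul_of_nonneg_left h3 hK.le
      _ = (β - α) / 4 * wd (K1 * (L * m)) := by field_simp
      _ ≤ (β - α) / 4 * wd N := mul_le_mul_of_nonneg_left (D.mono hLmN) (by positivity)
  have hwN : wd N ≤ C * √((2 * k : ℕ) : ℝ) * b := (D.mono hNLm).trans h4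
  have hb0 : 0 ≤ b := by
    by_contra hcon
    push Not at hcon
    have : C * √((2 * k : ℕ) : ℝ) * b < 0 := mul_neg_of_pos_of_neg (by positivity) hcon
    linarith
  set y := -((α + β) / 2 * wd N) with hy
  have hyb : |y| ≤ K * b + k * (s * b) := by
    rw [hy, abs_neg, abs_mul, abs_of_nonneg hN3]
    have h5 : M * wd N ≤ M * (C * √((2 * k : ℕ) : ℝ) * b) :=
      mul_le_mul_of_nonneg_left hwN (abs_nonneg _)
    have h6 : √((2 * k : ℕ) : ℝ) = √2 * √(k : ℝ) := by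
      push_cast
      rw [Real.sqrt_mul (by norm_num)]
    rw [h6] at h5
    rw [div_le_iff₀ hs] at hk1
    have h7 : √(k : ℝ) * √(k : ℝ) = k := Real.mul_self_sqrt (by positivity)
    have h8 : M * C * √2 * (√(k : ℝ) * b) ≤ √(k : ℝ) * s * (√(k : ℝ) * b) :=
      mul_le_mul_of_nonneg_right hk1 (by positivity)
    have h9 : √(k : ℝ) * s * (√(k : ℝ) * b) = k * (s * b) := by
      calc √(k : ℝ) * s * (√(k : ℝ) * b) = (√(k : ℝ) * √(k : ℝ)) * (s * b) := by ring
        _ = _ := by rw [h7]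
    have h10 : 0 ≤ K * b := by positivity
    have h11 : M * (C * (√2 * √(k : ℝ)) * b) = M * C * √2 * (√(k : ℝ) * b) := by ring
    linarith
  have hst := steer μ (et Y X θ) m (s := s * b) (K := K * b) (p := p) (by positivity) hp.le h1 h2 y k
    hyb
  have hcv := hN1 (k * m) e3 e4
  have hsub : {a : ℕ → A | |y + T (et Y X θ) (k * m) a| ≤ K * b} ⊆
      {a | α * wd N ≤ x N a - θ * N ∧ x N a - θ * N ≤ β * wd N} ∪
      {a | (β - α) / 4 * wd N < |x N a - θ * N - T (et Y X θ) (k * m) a|} := by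
    intro a ha
    by_cases hc : (β - α) / 4 * wd N < |x N a - θ * N - T (et Y X θ) (k * m) a|
    · exact Or.inr hc
    · left
      simp only [mem_ofPred_eq] at ha ⊢
      push Not at hc
      obtain ⟨g1, g2⟩ := abs_le.1 ha
      obtain ⟨g3, g4⟩ := abs_le.1 hc
      have g5 : 0 ≤ (β - α) * wd N := by positivity
      rw [hy] at g1 g2
      constructor <;> nlinarith
  have h5 := (measureReal_mono hsub (measure_ne_top (iidL μ) _)).trans (measureReal_union_le _ _)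
  linarith

end Crest.Agent.R154.Win956
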