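import Crest.Agent.R154.WinB_278

/-! Row 154, ROAD 801 (helper278): the window bound. -/

set_option autoImplicit false
set_option linter.unusedSectionVars false
set_option linter.unusedVariables false

namespace Crest.Agent.R154.Win278

open scoped ENNReal Classical
open Crest.Agent.R154.B5A Crest.Agent.R154.Mid562

variable {BX BY G : Type*} [AddCommGroup G]
variable {ΛX : BX → ℝ≥0∞} {hX : BX → ℕ} {ΛY : BY → ℝ≥0∞} {hY : BY → ℕ}
variable {zX : BX → G} {zY : BY → G}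
variable {TX : List BX → G → ℕ → Set (G × ℕ)} {TY : List BY → G → ℕ → Set (G × ℕ)}

lemma Q4_add' (a T : ℕ) (F F' : List BX → List BX → List BY → List BY → ℝ≥0∞) :
    Q4 ΛX hX ΛY hY a T (F + F') = Q4 ΛX hX ΛY hY a T F + Q4 ΛX hX ΛY hY a T F' :=
  Q4_add ΛX hX ΛY hY a T F F'

/-- the seven terms -/
noncomputable def f1 (hX : BX → ℕ) (a i0 : ℕ) : List BX → List BX → List BY → List BY → ℝ≥0∞ :=
  fun A _ _ _ => if a + i0 < HT hX A then 1 else 0
noncomputable def f2 (hX : BX → ℕ) (T i0 : ℕ) : List BX → List BX → List BY → List BY → ℝ≥0∞ :=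
  fun _ P _ _ => if T + i0 < HT hX P then 1 else 0
noncomputable def f3 (hY : BY → ℕ) (a i0 : ℕ) : List BX → List BX → List BY → List BY → ℝ≥0∞ :=
  fun _ _ A' _ => if a + i0 < HT hY A' then 1 else 0
noncomputable def f4 (hY : BY → ℕ) (T i0 : ℕ) : List BX → List BX → List BY → List BY → ℝ≥0∞ :=
  fun _ _ _ P' => if T + i0 < HT hY P' then 1 else 0

lemma Q_f1 (h1X : ∀ b, 1 ≤ hX b) (hΛX : ∑' b, ΛX b = 1) (h1Y : ∀ b, 1 ≤ hY b)
    (hΛY : ∑' b, ΛY b = 1) (a T i0 : ℕ) : Q4 ΛX hX ΛY hY a T (f1 hX a i0) ≤ ep ΛX hX i0 := by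
  unfold Q4 f1
  simp only [FS_const ΛY hY h1Y hΛY, FS_const ΛX hX h1X hΛX]
  exact Ov_le_ep ΛX hX h1X hΛX i0 a

lemma Q_f2 (h1X : ∀ b, 1 ≤ hX b) (hΛX : ∑' b, ΛX b = 1) (h1Y : ∀ b, 1 ≤ hY b)
    (hΛY : ∑' b, ΛY b = 1) (a T i0 : ℕ) : Q4 ΛX hX ΛY hY a T (f2 hX T i0) ≤ ep ΛX hX i0 := by
  unfold Q4 f2
  simp only [FS_const ΛY hY h1Y hΛY, FS_const ΛX hX h1X hΛX]
  exact Ov_le_ep ΛX hX h1X hΛX i0 T

lemma Q_f3 (h1X : ∀ b, 1 ≤ hX b) (hΛX : ∑' b, ΛX b = 1) (h1Y : ∀ b, 1 ≤ hY b)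
    (hΛY : ∑' b, ΛY b = 1) (a T i0 : ℕ) : Q4 ΛX hX ΛY hY a T (f3 hY a i0) ≤ ep ΛY hY i0 := by
  unfold Q4 f3
  simp only [FS_const ΛY hY h1Y hΛY, FS_const ΛX hX h1X hΛX]
  exact Ov_le_ep ΛY hY h1Y hΛY i0 a

lemma Q_f4 (h1X : ∀ b, 1 ≤ hX b) (hΛX : ∑' b, ΛX b = 1) (h1Y : ∀ b, 1 ≤ hY b)
    (hΛY : ∑' b, ΛY b = 1) (a T i0 : ℕ) : Q4 ΛX hX ΛY hY a T (f4 hY T i0) ≤ ep ΛY hY i0 := by
  unfold Q4 f4
  simp only [FS_const ΛY hY h1Y hΛY, FS_const ΛX hX h1X hΛX]
  exact Ov_le_ep ΛY hY h1Y hΛY i0 T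

/-- both light -/
noncomputable def f5 (ΛX : BX → ℝ≥0∞) (hX : BX → ℕ) (ΛY : BY → ℝ≥0∞) (hY : BY → ℕ)
    (zX : BX → G) (zY : BY → G) (T : ℕ) (tX tY : ℝ≥0∞) :
    List BX → List BX → List BY → List BY → ℝ≥0∞ :=
  fun _ P _ P' => (if DG zX P ∈ HV ΛX hX zX T tX (HT hX P - T) then 0 else 1)
    * (if DG zY P' ∈ HV ΛY hY zY T tY (HT hY P' - T) then 0 else 1)

lemma Q_f5 (h1X : ∀ b, 1 ≤ hX b) (hΛX : ∑' b, ΛX b = 1) (h1Y : ∀ b, 1 ≤ hY b)
    (hΛY : ∑' b, ΛY b = 1) (a T : ℕ) (tX tY u : ℝ≥0∞)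
    (huX : (∑' x, if tX ≤ pl ΛX hX zX T x then 0 else pl ΛX hX zX T x) ≤ u)
    (huY : (∑' x, if tY ≤ pl ΛY hY zY T x then 0 else pl ΛY hY zY T x) ≤ u) :
    Q4 ΛX hX ΛY hY a T (f5 ΛX hX ΛY hY zX zY T tX tY) ≤ u ^ 2 := by
  unfold Q4 f5
  simp only [FS_mul_left, FS_const ΛY hY h1Y hΛY, FS_const ΛX hX h1X hΛX]
  have hl1 := light ΛX hX zX h1X T tX u huX
  have hl2 := light ΛY hY zY h1Y T tY u huY
  calc _ ≤ FS ΛX hX T (fun P => u * (if DG zX P ∈ HV ΛX hX zX T tX (HT hX P - T) then 0 else 1)) := by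
        refine FS_mono _ _ fun P _ => ?_
        rw [mul_comm]
        exact mul_le_mul_left hl2 _
    _ = u * FS ΛX hX T (fun P => (if DG zX P ∈ HV ΛX hX zX T tX (HT hX P - T) then 0 else 1)) := by
        rw [FS_mul_left]
    _ ≤ u * u := mul_le_mul_right hl1 _
    _ = u ^ 2 := (sq u).symm

/-- local part -/
noncomputable def f6 (hX : BX → ℕ) (hY : BY → ℕ) (zX : BX → G) (zY : BY → G) (a T i0 : ℕ) (w : G)
    (R : ℕ → ℕ → G → List BX → List BY → Prop) (S : List BX → List BY → Prop) :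
    List BX → List BX → List BY → List BY → ℝ≥0∞ :=
  fun A P A' P' => if HT hX A - a ≤ i0 ∧ HT hY A' - a ≤ i0 then
    (if HT hX P - T ≤ i0 ∧ HT hY P' - T ≤ i0 ∧
      (R (HT hX A - a) (HT hY A' - a) (w + DG zY A' - DG zX A) P P' ∧ S P P') then 1 else 0) else 0

lemma Q_f6 (a T i0 : ℕ) (w : G)
    (R : ℕ → ℕ → G → List BX → List BY → Prop) (S : List BX → List BY → Prop) :
    Q4 ΛX hX ΛY hY a T (f6 hX hY zX zY a T i0 w R S) =
    FS ΛX hX a (fun A => FS ΛY hY a (fun A' =>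
      if HT hX A - a ≤ i0 ∧ HT hY A' - a ≤ i0 then
        FS ΛX hX T (fun P => FS ΛY hY T (fun P' =>
          if HT hX P - T ≤ i0 ∧ HT hY P' - T ≤ i0 ∧
            (R (HT hX A - a) (HT hY A' - a) (w + DG zY A' - DG zX A) P P' ∧ S P P')
          then 1 else 0)) else 0)) := by
  unfold Q4 f6
  congr 1
  funext A
  rw [FS_comm]
  congr 1
  funext A'
  by_cases h : HT hX A - a ≤ i0 ∧ HT hY A' - a ≤ i0
  · simp only [if_pos h]
  · simp only [if_neg h]
    unfold FS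
    simp

/-- **the window** -/
theorem window (h1X : ∀ b, 1 ≤ hX b) (hΛX : ∑' b, ΛX b = 1) (h1Y : ∀ b, 1 ≤ hY b)
    (hΛY : ∑' b, ΛY b = 1)
    (apX : ∀ L L' x a, TX (L ++ L') x a = TX L x a ∪ TX L' (x + DG zX L) (a + HT hX L))
    (apY : ∀ L L' x a, TY (L ++ L') x a = TY L x a ∪ TY L' (x + DG zY L) (a + HT hY L))
    (trX : ∀ L x y a (q : G × ℕ), q ∈ TX L (x + y) a ↔ (q.1 - x, q.2) ∈ TX L y a)
    (trY : ∀ L x y a (q : G × ℕ), q ∈ TY L (x + y) a ↔ (q.1 - x, q.2) ∈ TY L y a)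
    (rgX : ∀ L x a (q : G × ℕ), q ∈ TX L x a → a ≤ q.2 ∧ q.2 ≤ a + HT hX L)
    (rgY : ∀ L x a (q : G × ℕ), q ∈ TY L x a → a ≤ q.2 ∧ q.2 ≤ a + HT hY L)
    (t i0 s J a n : ℕ) (tX tY u v C2 : ℝ≥0∞) (htX : tX ≠ 0) (htY : tY ≠ 0)
    (hit : i0 + s < t) (hn : a + i0 + 3 * t ≤ n) (ha : (3 * t + i0) * J ≤ a) (w : G)
    (huX : (∑' x, if tX ≤ pl ΛX hX zX (3 * t) x then 0 else pl ΛX hX zX (3 * t) x) ≤ u)
    (huY : (∑' x, if tY ≤ pl ΛY hY zY (3 * t) x then 0 else pl ΛY hY zY (3 * t) x) ≤ u)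
    (hvX : ∑' x, (if pl ΛX hX zX (3 * t) x ≤ 2 * tX then 0 else pl ΛX hX zX (3 * t) x) ≤ v)
    (hvY : ∑' x, (if pl ΛY hY zY (3 * t) x ≤ 2 * tY then 0 else pl ΛY hY zY (3 * t) x) ≤ v)
    (H2 : ∀ i ≤ i0, ∀ i' ≤ i0, ∀ j ≤ i0, ∀ j' ≤ i0, ∀ (E : Finset G) (μ : G → ℝ≥0∞),
      ∑' x, μ x ≤ 1 → (∀ x, μ x ≤ (∑ j ∈ Finset.range J, v ^ j) * ((i0 + 1 : ℕ) * (2 * tX))) →
      tX * (E.card : ℝ≥0∞) ≤ 1 →
      ∑' x, μ x * ∑' L, ∑' L', (if HT hX L = 3 * t + j ∧ HT hY L' = 3 * t + j' ∧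
        (EV TX TY a i0 s (3 * t) i i' x L L' ∧ DG zX L ∈ E) then LW ΛX L * LW ΛY L' else 0) ≤ C2)
    (H3 : ∀ i ≤ i0, ∀ i' ≤ i0, ∀ j ≤ i0, ∀ j' ≤ i0, ∀ (E : Finset G) (μ : G → ℝ≥0∞),
      ∑' x, μ x ≤ 1 → (∀ x, μ x ≤ (∑ j ∈ Finset.range J, v ^ j) * ((i0 + 1 : ℕ) * (2 * tY))) →
      tY * (E.card : ℝ≥0∞) ≤ 1 →
      ∑' x, μ x * ∑' L, ∑' L', (if HT hX L = 3 * t + j ∧ HT hY L' = 3 * t + j' ∧
        (EV TX TY a i0 s (3 * t) i i' x L L' ∧ DG zY L' ∈ E) then LW ΛX L * LW ΛY L' else 0) ≤ C2) :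
    NS ΛX hX n (fun LX => NS ΛY hY n (fun LY =>
      if (∃ q : G × ℕ, a + t < q.2 ∧ q.2 ≤ a + 2 * t ∧ q ∈ TX LX 0 0 ∧ q ∈ TY LY w 0) ∧
        (∀ q : G × ℕ, q ∈ TX LX 0 0 → q ∈ TY LY w 0 → ¬ (a ≤ q.2 ∧ q.2 < a + (s + 2 * i0 + 1))) ∧
        (∀ q : G × ℕ, q ∈ TX LX 0 0 → q ∈ TY LY w 0 →
          ¬ (a + 3 * t - s ≤ q.2 ∧ q.2 < a + 3 * t - s + (s + 2 * i0 + 1))) then 1 else 0))
    ≤ 2 * ep ΛX hX i0 + 2 * ep ΛY hY i0 + u ^ 2
      + ((v ^ J + (∑ j ∈ Finset.range J, v ^ j) * ep ΛX hX i0)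
      + ((i0 + 1 : ℕ) : ℝ≥0∞) * (i0 + 1 : ℕ) * (((i0 + 1 : ℕ) : ℝ≥0∞) * (i0 + 1 : ℕ) * C2))
      + ((v ^ J + (∑ j ∈ Finset.range J, v ^ j) * ep ΛY hY i0)
      + ((i0 + 1 : ℕ) : ℝ≥0∞) * (i0 + 1 : ℕ) * (((i0 + 1 : ℕ) : ℝ≥0∞) * (i0 + 1 : ℕ) * C2)) := by
  set T := 3 * t with hT
  set R : ℕ → ℕ → G → List BX → List BY → Prop := EV TX TY a i0 s T with hR
  set H : List BX → List BX → List BY → List BY → ℝ≥0∞ := fun A P A' P' =>
    if HT hX P - T ≤ i0 ∧ HT hY P' - T ≤ i0 then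
      (if R (HT hX A - a) (HT hY A' - a) (w + DG zY A' - DG zX A) P P' then 1 else 0) else 1 with hH
  have hH1 : ∀ A P A' P', H A P A' P' ≤ 1 := by
    intro A P A' P'
    simp only [hH]
    split_ifs
    · exact le_rfl
    · exact zero_le
    · exact le_rfl
  -- step 1
  have s1 := NS_three ΛX hX h1X hΛX (T := a) (T' := T) (i := i0) (n := n) (by omega)
    (fun LX => NS ΛY hY n (fun LY =>
      if (∃ q : G × ℕ, a + t < q.2 ∧ q.2 ≤ a + 2 * t ∧ q ∈ TX LX 0 0 ∧ q ∈ TY LY w 0) ∧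
        (∀ q : G × ℕ, q ∈ TX LX 0 0 → q ∈ TY LY w 0 → ¬ (a ≤ q.2 ∧ q.2 < a + (s + 2 * i0 + 1))) ∧
        (∀ q : G × ℕ, q ∈ TX LX 0 0 → q ∈ TY LY w 0 →
          ¬ (a + T - s ≤ q.2 ∧ q.2 < a + T - s + (s + 2 * i0 + 1))) then 1 else 0))
    (fun LX => NS_le_one ΛY hY h1Y hΛY n fun LY => by
      split_ifs
      · exact le_rfl
      · exact zero_le)
    (fun A P => FS ΛY hY a (fun A' => if HT hY A' ≤ a + i0 then FS ΛY hY T (fun P' => H A P A' P')
      else 1))
    (by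
      intro A P Rr hA hAi hP
      refine NS_three ΛY hY h1Y hΛY (T := a) (T' := T) (i := i0) (n := n) (by omega) _
        (fun LY => by
          split_ifs
          · exact le_rfl
          · exact zero_le) (fun A' P' => H A P A' P') ?_
      intro A' P' Rr' hA' hAi' hP'
      have lA := FR_le hX h1X hA
      have lA' := FR_le hY h1Y hA'
      have lP := FR_le hX h1X hP
      have lP' := FR_le hY h1Y hP'
      simp only [hH]
      by_cases hok : HT hX P - T ≤ i0 ∧ HT hY P' - T ≤ i0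
      swap
      · rw [if_neg hok]
        split_ifs
        · exact le_rfl
        · exact zero_le
      rw [if_pos hok]
      split_ifs with hF hRR
      · exact le_rfl
      · exfalso
        apply hRR
        obtain ⟨⟨q, hq1, hq2, hqX, hqY⟩, hlo, hhi⟩ := hF
        -- translation of common sites
        have back : ∀ p : G × ℕ, p ∈ TX P 0 (a + (HT hX A - a)) →
            p ∈ TY P' (w + DG zY A' - DG zX A) (a + (HT hY A' - a)) →
            (DG zX A + p.1, p.2) ∈ TX (A ++ (P ++ Rr)) 0 0 ∧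
            (DG zX A + p.1, p.2) ∈ TY (A' ++ (P' ++ Rr')) w 0 := by
          intro p hp hp'
          rw [show a + (HT hX A - a) = HT hX A by omega] at hp
          rw [show a + (HT hY A' - a) = HT hY A' by omega] at hp'
          constructor
          · rw [apX, apX]
            refine Or.inr (Or.inl ?_)
            rw [zero_add, zero_add]
            have := (trX P (DG zX A) 0 (HT hX A) (DG zX A + p.1, p.2)).2 (by
              simpa using hp)
            simpa using this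
          · rw [apY, apY]
            refine Or.inr (Or.inl ?_)
            rw [zero_add]
            have := (trY P' (DG zX A) (w + DG zY A' - DG zX A) (HT hY A')
              (DG zX A + p.1, p.2)).2 (by simpa using hp')
            rwa [show DG zX A + (w + DG zY A' - DG zX A) = w + DG zY A' by abel] at this
        refine ⟨?_, ?_, ?_⟩
        · refine ⟨(q.1 - DG zX A, q.2), ?_, ?_⟩
          · rw [show a + (HT hX A - a) = HT hX A by omega]
            rw [apX, apX] at hqX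
            rcases hqX with h | h | h
            · exfalso; have := rgX _ _ _ _ h; omega
            · rw [zero_add, zero_add] at h
              have := (trX P (DG zX A) 0 (HT hX A) q).1 (by simpa using h)
              exact this
            · exfalso; have := rgX _ _ _ _ h; omega
          · rw [show a + (HT hY A' - a) = HT hY A' by omega]
            rw [apY, apY] at hqY
            rcases hqY with h | h | h
            · exfalso; have := rgY _ _ _ _ h; omega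
            · rw [zero_add] at h
              refine (trY P' (DG zX A) (w + DG zY A' - DG zX A) (HT hY A') q).1 ?_
              rwa [show DG zX A + (w + DG zY A' - DG zX A) = w + DG zY A' by abel]
            · exfalso; have := rgY _ _ _ _ h; omega
        · intro p hp hp'
          have hb := back p hp hp'
          have := hlo _ hb.1 hb.2
          have := rgX _ _ _ _ hp
          simp only at *
          omega
        · intro p hp hp'
          have hb := back p hp hp'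
          have := hhi _ hb.1 hb.2
          have := rgX _ _ _ _ hp
          simp only at *
          omega
      · exact zero_le
      · exact zero_le)
  refine s1.trans ?_
  -- step 2
  set SX : List BX → List BY → Prop := fun P _ => DG zX P ∈ HV ΛX hX zX T tX (HT hX P - T) with hSX
  set SY : List BX → List BY → Prop := fun _ P' => DG zY P' ∈ HV ΛY hY zY T tY (HT hY P' - T) with hSY
  set S7 : List BX → List BX → List BY → List BY → ℝ≥0∞ :=
    (((((f1 hX a i0 + f2 hX T i0) + f3 hY a i0) + f4 hY T i0)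
      + f5 ΛX hX ΛY hY zX zY T tX tY)
      + f6 hX hY zX zY a T i0 w R SX) + f6 hX hY zX zY a T i0 w R SY with hS7
  have e7 : ∀ A P A' P', S7 A P A' P' = (((((f1 hX a i0 A P A' P' + f2 hX T i0 A P A' P')
      + f3 hY a i0 A P A' P') + f4 hY T i0 A P A' P')
      + f5 ΛX hX ΛY hY zX zY T tX tY A P A' P')
      + f6 hX hY zX zY a T i0 w R SX A P A' P') + f6 hX hY zX zY a T i0 w R SY A P A' P' :=
    fun _ _ _ _ => rfl
  have s2 : FS ΛX hX a (fun A => if HT hX A ≤ a + i0 then FS ΛX hX T (fun P =>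
      FS ΛY hY a (fun A' => if HT hY A' ≤ a + i0 then FS ΛY hY T (fun P' => H A P A' P')
      else 1)) else 1) ≤ Q4 ΛX hX ΛY hY a T S7 := by
    refine FS_mono _ _ fun A hA => ?_
    by_cases hAi : HT hX A ≤ a + i0
    · rw [if_pos hAi]
      refine FS_mono _ _ fun P hP => FS_mono _ _ fun A' hA' => ?_
      by_cases hAi' : HT hY A' ≤ a + i0
      · rw [if_pos hAi']
        refine FS_mono _ _ fun P' hP' => ?_
        rw [e7]
        by_cases hok : HT hX P - T ≤ i0 ∧ HT hY P' - T ≤ i0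
        · simp only [hH]
          rw [if_pos hok]
          by_cases hRR : R (HT hX A - a) (HT hY A' - a) (w + DG zY A' - DG zX A) P P'
          · rw [if_pos hRR]
            by_cases hx : DG zX P ∈ HV ΛX hX zX T tX (HT hX P - T)
            · refine le_trans ?_ le_self_add
              refine le_trans ?_ le_add_self
              unfold f6
              rw [if_pos ⟨by omega, by omega⟩, if_pos ⟨hok.1, hok.2, hRR, hx⟩]
            · by_cases hy : DG zY P' ∈ HV ΛY hY zY T tY (HT hY P' - T)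
              · refine le_trans ?_ le_add_self
                unfold f6
                rw [if_pos ⟨by omega, by omega⟩, if_pos ⟨hok.1, hok.2, hRR, hy⟩]
              · refine le_trans ?_ le_self_add
                refine le_trans ?_ le_self_add
                refine le_trans ?_ le_add_self
                unfold f5
                rw [if_neg hx, if_neg hy, mul_one]
          · rw [if_neg hRR]; exact zero_le
        · refine (hH1 A P A' P').trans ?_
          by_cases hp : T + i0 < HT hX P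
          · refine le_trans ?_ le_self_add
            refine le_trans ?_ le_self_add
            refine le_trans ?_ le_self_add
            refine le_trans ?_ le_self_add
            refine le_trans ?_ le_self_add
            refine le_trans ?_ le_add_self
            unfold f2
            rw [if_pos hp]
          · refine le_trans ?_ le_self_add
            refine le_trans ?_ le_self_add
            refine le_trans ?_ le_self_add
            refine le_trans ?_ le_add_self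
            unfold f4
            rw [if_pos (by
              by_contra hc
              exact hok ⟨by omega, by omega⟩)]
      · rw [if_neg hAi']
        rw [← FS_one ΛY hY h1Y hΛY T]
        refine FS_mono _ _ fun P' hP' => ?_
        rw [e7]
        refine le_trans ?_ le_self_add
        refine le_trans ?_ le_self_add
        refine le_trans ?_ le_self_add
        refine le_trans ?_ le_self_add
        refine le_trans ?_ le_add_self
        unfold f3
        rw [if_pos (by omega)]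
    · rw [if_neg hAi]
      rw [← FS_one ΛX hX h1X hΛX T]
      refine FS_mono _ _ fun P hP => ?_
      rw [← FS_one ΛY hY h1Y hΛY a]
      refine FS_mono _ _ fun A' hA' => ?_
      rw [← FS_one ΛY hY h1Y hΛY T]
      refine FS_mono _ _ fun P' hP' => ?_
      rw [e7]
      refine le_trans ?_ le_self_add
      refine le_trans ?_ le_self_add
      refine le_trans ?_ le_self_add
      refine le_trans ?_ le_self_add
      refine le_trans ?_ le_self_add
      refine le_trans ?_ le_self_add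
      unfold f1
      rw [if_pos (by omega)]
  refine s2.trans ?_
  -- step 3
  rw [hS7, Q4_add', Q4_add', Q4_add', Q4_add', Q4_add', Q4_add']
  have b1 := Q_f1 (ΛX := ΛX) (ΛY := ΛY) (hX := hX) (hY := hY) h1X hΛX h1Y hΛY a T i0
  have b2 := Q_f2 (ΛX := ΛX) (ΛY := ΛY) (hX := hX) (hY := hY) h1X hΛX h1Y hΛY a T i0
  have b3 := Q_f3 (ΛX := ΛX) (ΛY := ΛY) (hX := hX) (hY := hY) h1X hΛX h1Y hΛY a T i0
  have b4 := Q_f4 (ΛX := ΛX) (ΛY := ΛY) (hX := hX) (hY := hY) h1X hΛX h1Y hΛY a T i0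
  have b5 := Q_f5 (ΛX := ΛX) (ΛY := ΛY) (hX := hX) (hY := hY) (zX := zX) (zY := zY)
    h1X hΛX h1Y hΛY a T tX tY u huX huY
  have b6 := partX (ΛX := ΛX) (ΛY := ΛY) (hX := hX) (hY := hY) (zX := zX) (zY := zY)
    h1X hΛX h1Y hΛY T i0 J a tX v C2 htX hvX ha w R H2
  have b7 := partY (ΛX := ΛX) (ΛY := ΛY) (hX := hX) (hY := hY) (zX := zX) (zY := zY)
    h1X hΛX h1Y hΛY T i0 J a tY v C2 htY hvY ha w R H3
  have b6' : Q4 ΛX hX ΛY hY a T (f6 hX hY zX zY a T i0 w R SX) ≤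
      ((v ^ J + (∑ j ∈ Finset.range J, v ^ j) * ep ΛX hX i0)
      + ((i0 + 1 : ℕ) : ℝ≥0∞) * (i0 + 1 : ℕ) * (((i0 + 1 : ℕ) : ℝ≥0∞) * (i0 + 1 : ℕ) * C2)) := by
    rw [Q_f6]
    refine le_trans (le_of_eq ?_) b6
    congr!
  have b7' : Q4 ΛX hX ΛY hY a T (f6 hX hY zX zY a T i0 w R SY) ≤
      ((v ^ J + (∑ j ∈ Finset.range J, v ^ j) * ep ΛY hY i0)
      + ((i0 + 1 : ℕ) : ℝ≥0∞) * (i0 + 1 : ℕ) * (((i0 + 1 : ℕ) : ℝ≥0∞) * (i0 + 1 : ℕ) * C2)) := by
    rw [Q_f6]
    refine le_trans (le_of_eq ?_) b7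
    congr!
  refine add_le_add (add_le_add ?_ b6') b7'
  refine add_le_add ?_ b5
  calc _ ≤ ((ep ΛX hX i0 + ep ΛX hX i0) + ep ΛY hY i0) + ep ΛY hY i0 :=
        add_le_add (add_le_add (add_le_add b1 b2) b3) b4
    _ = _ := by ring

end Crest.Agent.R154.Win278
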