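import Crest.Agent.R154.WinB_546

/-! Row 154, road 801 (helper546): the one-window inequality, X explored (order (2)). -/

set_option autoImplicit false

open MeasureTheory ProbabilityTheory Crest.ProbabilityR.RandomEnvironment
open scoped ENNReal Classical

namespace Crest.Agent.R154.Win546

open Flux566

variable {d : ℕ}

/-- annealed weight of a word -/
noncomputable def aw (ν : Measure (Row d)) (l : List (Step d)) : ℝ≥0∞ :=
  ∫⁻ ω, lw ω 0 l ∂(iidEnvironmentLaw ν)

lemma lw_shift (ω : Environment d) (z : Site d) (l : List (Step d)) (x : Site d) :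
    lw (shiftEnv z ω) x l = lw ω (x + z) l := by
  induction l generalizing x with
  | nil => rfl
  | cons e l ih =>
    simp only [lw]
    rw [ih, show x + stepVec e + z = x + z + stepVec e by abel]
    rfl

variable (ν : Measure (Row d)) [IsProbabilityMeasure ν]

lemma aw_eq (x : Site d) (l : List (Step d)) :
    ∫⁻ ω, lw ω x l ∂(iidEnvironmentLaw ν) = aw ν l := by
  rw [aw, ← (Q561.iid_shift ν x).lintegral_comp (measurable_lw 0 l)]
  refine lintegral_congr fun ω => ?_
  rw [lw_shift, zero_add]

lemma aw_nil : aw ν ([] : List (Step d)) = 1 := by simp [aw, lw]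

lemma aw_mul {x y : Site d} {l l' : List (Step d)} (h : ∀ z ∈ sitesL x l, z ∉ sitesL y l') :
    ∫⁻ ω, lw ω x l * lw ω y l' ∂(iidEnvironmentLaw ν) = aw ν l * aw ν l' := by
  rw [Q561.iid_lintegral_mul ν (S := {z | z ∈ sitesL x l}) (T := {z | z ∈ sitesL y l'})
    (Set.disjoint_left.2 h) (measurable_lw _ _) (measurable_lw _ _) (locOn_lw _ _) (locOn_lw _ _),
    aw_eq, aw_eq]

lemma lw_le_one (ω : Environment d) (x : Site d) (l : List (Step d)) : lw ω x l ≤ 1 := by
  have h : PF ({l} : Set (List (Step d))) := by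
    intro a ha r hr
    rw [Set.mem_singleton_iff] at ha hr
    subst ha
    simpa using hr
  refine le_trans ?_ (pf_sum ω h x)
  refine le_trans ?_ (ENNReal.le_tsum l)
  simp

lemma aw_le_one (l : List (Step d)) : aw ν l ≤ 1 := by
  calc aw ν l ≤ ∫⁻ _, 1 ∂(iidEnvironmentLaw ν) := lintegral_mono fun ω => lw_le_one ω 0 l
    _ = 1 := by simp

/-- annealed prefix-free sums -/
lemma aw_pf {S : Set (List (Step d))} (hS : PF S) : ∑' l, (if l ∈ S then aw ν l else 0) ≤ 1 := by
  calc ∑' l, (if l ∈ S then aw ν l else 0)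
      = ∫⁻ ω, ∑' l, (if l ∈ S then lw ω 0 l else 0) ∂(iidEnvironmentLaw ν) := by
        rw [lintegral_tsum]
        · refine tsum_congr fun l => ?_
          split_ifs
          · rfl
          · simp
        · intro l
          split_ifs
          · exact (measurable_lw 0 l).aemeasurable
          · exact aemeasurable_const
    _ ≤ ∫⁻ _, 1 ∂(iidEnvironmentLaw ν) := lintegral_mono fun ω => pf_sum ω hS 0
    _ = 1 := by simp

lemma aw_cont {S : Set (List (Step d))} (hS : PF S) (p : List (Step d)) :
    ∑' r, (if p ++ r ∈ S then aw ν (p ++ r) else 0) ≤ aw ν p := by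
  calc ∑' r, (if p ++ r ∈ S then aw ν (p ++ r) else 0)
      = ∫⁻ ω, ∑' r, (if p ++ r ∈ S then lw ω 0 (p ++ r) else 0) ∂(iidEnvironmentLaw ν) := by
        rw [lintegral_tsum]
        · refine tsum_congr fun l => ?_
          split_ifs
          · rfl
          · simp
        · intro l
          split_ifs
          · exact (measurable_lw 0 _).aemeasurable
          · exact aemeasurable_const
    _ ≤ aw ν p := lintegral_mono fun ω => pf_cont ω hS 0 p

/-- the high part -/
lemma bpart (ω : Environment d) {H : Set (List (Step d))} (hH : PF H) (x : Site d)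
    (e : Site d → ℝ≥0∞) {lam : ℝ≥0∞} (h0 : lam ≠ 0) (h1 : lam ≠ ⊤) (T : Set (List (Step d)))
    (hT : ∀ p ∈ H, e (endp x p) ≤ ∑' r, (if p ++ r ∈ T then lw ω (endp x p) r else 0)) :
    ∑' p, (if p ∈ H ∧ lam < e (endp x p) then lw ω x p else 0)
      ≤ lam⁻¹ * ∑' t, (if t ∈ T then lw ω x t else 0) := by
  obtain ⟨S, hS⟩ : ∃ S : Set (List (Step d)), S = {p | p ∈ H ∧ lam < e (endp x p)} := ⟨_, rfl⟩
  have hmem : ∀ p, p ∈ S ↔ (p ∈ H ∧ lam < e (endp x p)) := fun p => by rw [hS]; rfl
  have hpf : PF S := fun l hl r hr => hH l ((hmem l).1 hl).1 r ((hmem _).1 hr).1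
  have s1 := stop_le ω hpf (fun p => p ∈ S) x (fun l hl => ⟨l, [], by simp, hl⟩)
  have s2 := high_le ω (fun p => p ∈ S) x lam T
    (fun p hp => ((hmem p).1 hp).2.le.trans (hT p ((hmem p).1 hp).1))
  calc ∑' p, (if p ∈ H ∧ lam < e (endp x p) then lw ω x p else 0)
      = ∑' p, (if p ∈ S then lw ω x p else 0) := tsum_congr fun p => by
        by_cases h : p ∈ H ∧ lam < e (endp x p)
        · rw [if_pos h, if_pos ((hmem p).2 h)]
        · rw [if_neg h, if_neg (fun h' => h ((hmem p).1 h'))]
    _ ≤ ∑' p, (if p ∈ Mn (fun p => p ∈ S) then lw ω x p else 0) := s1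
    _ = lam⁻¹ * (lam * ∑' p, (if p ∈ Mn (fun p => p ∈ S) then lw ω x p else 0)) := by
        rw [← mul_assoc, ENNReal.inv_mul_cancel h0 h1, one_mul]
    _ ≤ _ := mul_le_mul_right s2 _

lemma tsum_sub_right (μ : Site d → ℝ≥0∞) (z : Site d) : ∑' x, μ (x - z) = ∑' x, μ x :=
  (Equiv.subRight z).tsum_eq μ

/-- the translation sum -/
lemma trans_sum (E : Finset (Site d)) (T : Set (List (Step d))) (s : Site d → Site d → Site d)
    (hs : ∀ z, Function.Injective (fun x => s x z)) (y : Site d → Site d) :
    ∫⁻ ω, ∑' x : Site d, ∑' t, (if t ∈ T ∧ s x (endp 0 t) ∈ E then lw ω (y x) t else 0)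
      ∂(iidEnvironmentLaw ν) ≤ E.card * ∑' t, (if t ∈ T then aw ν t else 0) := by
  rw [lintegral_tsum]
  swap
  · intro x
    refine (Measurable.tsum fun t => ?_).aemeasurable
    split_ifs
    · exact measurable_lw _ _
    · exact measurable_const
  calc ∑' x : Site d, ∫⁻ ω, ∑' t, (if t ∈ T ∧ s x (endp 0 t) ∈ E then lw ω (y x) t else 0)
        ∂(iidEnvironmentLaw ν)
      = ∑' x : Site d, ∑' t, (if t ∈ T ∧ s x (endp 0 t) ∈ E then aw ν t else 0) := by
        refine tsum_congr fun x => ?_
        rw [lintegral_tsum]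
        · refine tsum_congr fun t => ?_
          split_ifs
          · exact aw_eq ν _ _
          · simp
        · intro t
          split_ifs
          · exact (measurable_lw _ _).aemeasurable
          · exact aemeasurable_const
    _ = ∑' t, ∑' x : Site d, (if t ∈ T ∧ s x (endp 0 t) ∈ E then aw ν t else 0) :=
        ENNReal.tsum_comm
    _ ≤ ∑' t, E.card * (if t ∈ T then aw ν t else 0) := by
        refine ENNReal.tsum_le_tsum fun t => ?_
        by_cases ht : t ∈ T
        · rw [if_pos ht]
          calc ∑' x : Site d, (if t ∈ T ∧ s x (endp 0 t) ∈ E then aw ν t else 0)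
              = ∑' x : Site d, (fun z => if z ∈ E then aw ν t else 0) (s x (endp 0 t)) := by
                refine tsum_congr fun x => ?_
                simp [ht]
            _ ≤ ∑' z : Site d, (if z ∈ E then aw ν t else 0) :=
                ENNReal.tsum_comp_le_tsum_of_injective (hs _) _
            _ = E.card * aw ν t := by
                rw [tsum_eq_sum (s := E) (fun z hz => if_neg hz),
                  Finset.sum_congr rfl (fun z hz => if_pos hz), Finset.sum_const, nsmul_eq_mul]
        · rw [if_neg ht]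
          simp [ht]
    _ = _ := ENNReal.tsum_mul_left

end Crest.Agent.R154.Win546
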