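import Crest.Agent.R154.WinB_706

/-! Row 154, ROAD 801, assembly (helper706): the one-window inequality. -/

set_option autoImplicit false
set_option linter.unusedSectionVars false
set_option maxHeartbeats 1000000

namespace Crest.Agent.R154.WinC706

open scoped ENNReal
open Crest.Agent.R154.B5A Crest.Agent.R154.FP178 Crest.Agent.R154.DensFP706
open Crest.Agent.R154.WinA706 Crest.Agent.R154.WinB706

variable {BX BY G : Type*} [AddCommGroup G] (ΛX : BX → ℝ≥0∞) (hX : BX → ℕ) (zX : BX → G)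
  (sX : BX → Set (G × ℕ)) (ΛY : BY → ℝ≥0∞) (hY : BY → ℕ) (zY : BY → G) (sY : BY → Set (G × ℕ))

open Classical in
/-- inner sum, `X` piece local -/
lemma innX (C : ℝ≥0∞) (us : ℕ → ℝ≥0∞) (h2 : H2 ΛX hX zX sX ΛY hY zY sY C us)
    (α T i0 s : ℕ) (th : ℝ≥0∞) (E : ℕ → Finset G)
    (hE : ∀ h x, th ≤ pp ΛX hX zX T h x → x ∈ E h) (M lam D : ℝ≥0∞)
    (hD : ∀ h, T ≤ h → h ≤ T + i0 → M * (E h).card ≤ D) (hl0 : lam ≠ 0) (hlt : lam ≠ ⊤)
    (hsT : s ≤ T) (c c' : ℕ) (hc : α ≤ c) (hc2 : c ≤ α + i0) (hc' : α + 2 * i0 ≤ c')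
    (hc2' : c' ≤ α + 3 * i0) (μ : G → ℝ≥0∞) (hμ : ∑' x, μ x ≤ 1) (hμM : ∀ x, μ x ≤ M) :
    ∑' x, μ x * ∑' σ, wf ΛX hX T i0 σ * ((if th ≤ pp ΛX hX zX T (HT hX σ) (Dp zX σ) then 1 else 0) *
      ∑' τ, wf ΛY hY T i0 τ * (if Ct hX zX sX hY zY sY σ τ x c c' (α + 3 * i0 + s)
        (α + T - s) then 1 else 0))
      ≤ (i0 + 1 : ℕ) * ((i0 + 1 : ℕ) * (C * (lam + D * us s / lam + us s))) := by
  have key : ∀ (x : G) (σ : List BX) (τ : List BY),
      wf ΛX hX T i0 σ * ((if th ≤ pp ΛX hX zX T (HT hX σ) (Dp zX σ) then (1 : ℝ≥0∞) else 0) *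
        (wf ΛY hY T i0 τ * (if Ct hX zX sX hY zY sY σ τ x c c' (α + 3 * i0 + s)
        (α + T - s) then 1 else 0)))
      ≤ ∑ h ∈ Finset.Icc T (T + i0), ∑ h' ∈ Finset.Icc T (T + i0),
        (if HT hX σ = h ∧ Dp zX σ ∈ E h ∧ HT hY τ = h' ∧
          Ct hX zX sX hY zY sY σ τ x c c' (α + 3 * i0 + s) (α + T - s) then
          LW ΛX σ * LW ΛY τ else 0) := by
    intro x σ τ
    unfold wf
    by_cases g1 : fp hX T σ ∧ HT hX σ ≤ T + i0
    · by_cases g2 : th ≤ pp ΛX hX zX T (HT hX σ) (Dp zX σ)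
      · by_cases g3 : fp hY T τ ∧ HT hY τ ≤ T + i0
        · by_cases g4 : Ct hX zX sX hY zY sY σ τ x c c' (α + 3 * i0 + s) (α + T - s)
          · rw [if_pos g1, if_pos g2, if_pos g3, if_pos g4, one_mul, mul_one]
            have b1 := le_HT_of_fp hX g1.1
            have b2 := le_HT_of_fp hY g3.1
            have m1 : HT hX σ ∈ Finset.Icc T (T + i0) := Finset.mem_Icc.2 ⟨b1, g1.2⟩
            have m2 : HT hY τ ∈ Finset.Icc T (T + i0) := Finset.mem_Icc.2 ⟨b2, g3.2⟩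
            refine le_trans ?_ (Finset.single_le_sum (fun _ _ => zero_le) m1)
            refine le_trans ?_ (Finset.single_le_sum (fun _ _ => zero_le) m2)
            rw [if_pos ⟨rfl, hE _ _ g2, rfl, g4⟩]
          · simp [g4]
        · rw [if_neg g3]; simp
      · rw [if_neg g2]; simp
    · rw [if_neg g1]; simp
  calc ∑' x, μ x * ∑' σ, wf ΛX hX T i0 σ *
        ((if th ≤ pp ΛX hX zX T (HT hX σ) (Dp zX σ) then 1 else 0) *
        ∑' τ, wf ΛY hY T i0 τ * (if Ct hX zX sX hY zY sY σ τ x c c' (α + 3 * i0 + s)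
          (α + T - s) then 1 else 0))
      = ∑' x, μ x * ∑' σ, ∑' τ, wf ΛX hX T i0 σ *
        ((if th ≤ pp ΛX hX zX T (HT hX σ) (Dp zX σ) then (1 : ℝ≥0∞) else 0) *
        (wf ΛY hY T i0 τ * (if Ct hX zX sX hY zY sY σ τ x c c' (α + 3 * i0 + s)
        (α + T - s) then 1 else 0))) := by
        simp_rw [ENNReal.tsum_mul_left]
    _ ≤ ∑' x, μ x * ∑' σ, ∑' τ, ∑ h ∈ Finset.Icc T (T + i0), ∑ h' ∈ Finset.Icc T (T + i0),
        (if HT hX σ = h ∧ Dp zX σ ∈ E h ∧ HT hY τ = h' ∧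
          Ct hX zX sX hY zY sY σ τ x c c' (α + 3 * i0 + s) (α + T - s) then
          LW ΛX σ * LW ΛY τ else 0) := by
        gcongr with x σ τ
        exact key x σ τ
    _ = ∑ h ∈ Finset.Icc T (T + i0), ∑ h' ∈ Finset.Icc T (T + i0), ∑' x, μ x * ∑' σ, ∑' τ,
        (if HT hX σ = h ∧ Dp zX σ ∈ E h ∧ HT hY τ = h' ∧
          Ct hX zX sX hY zY sY σ τ x c c' (α + 3 * i0 + s) (α + T - s) then
          LW ΛX σ * LW ΛY τ else 0) := by
        simp_rw [Summable.tsum_finsetSum (fun _ _ => ENNReal.summable), Finset.mul_sum,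
          Summable.tsum_finsetSum (fun _ _ => ENNReal.summable)]
    _ ≤ ∑ h ∈ Finset.Icc T (T + i0), ∑ h' ∈ Finset.Icc T (T + i0),
          C * (lam + D * us s / lam + us s) := by
        refine Finset.sum_le_sum fun h hh => Finset.sum_le_sum fun h' hh' => ?_
        have q1 := Finset.mem_Icc.1 hh
        have q2 := Finset.mem_Icc.1 hh'
        refine (h2 s h h' c c' (α + 3 * i0 + s) (α + T - s) (E h) μ M lam hμ hμM hl0 hlt
          (by omega) (by omega) (by omega) (by omega) (by omega) (by omega)).trans ?_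
        gcongr
        exact hD h q1.1 q1.2
    _ = _ := by
        rw [Finset.sum_const, Finset.sum_const, Nat.card_Icc, nsmul_eq_mul, nsmul_eq_mul,
          show T + i0 + 1 - T = i0 + 1 by omega]

open Classical in
/-- inner sum, `Y` piece local -/
lemma innY (C : ℝ≥0∞) (us : ℕ → ℝ≥0∞) (h3 : H3 ΛX hX zX sX ΛY hY zY sY C us)
    (α T i0 s : ℕ) (th : ℝ≥0∞) (E : ℕ → Finset G)
    (hE : ∀ h x, th ≤ pp ΛY hY zY T h x → x ∈ E h) (M lam D : ℝ≥0∞)
    (hD : ∀ h, T ≤ h → h ≤ T + i0 → M * (E h).card ≤ D) (hl0 : lam ≠ 0) (hlt : lam ≠ ⊤)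
    (hsT : s ≤ T) (c c' : ℕ) (hc : α ≤ c) (hc2 : c ≤ α + i0) (hc' : α + 2 * i0 ≤ c')
    (hc2' : c' ≤ α + 3 * i0) (μ : G → ℝ≥0∞) (hμ : ∑' x, μ x ≤ 1) (hμM : ∀ x, μ x ≤ M) :
    ∑' x, μ x * ∑' σ, wf ΛX hX T i0 σ * ∑' τ, wf ΛY hY T i0 τ *
      ((if th ≤ pp ΛY hY zY T (HT hY τ) (Dp zY τ) then 1 else 0) *
      (if Ct hX zX sX hY zY sY σ τ x c c' (α + 3 * i0 + s) (α + T - s) then 1 else 0))
      ≤ (i0 + 1 : ℕ) * ((i0 + 1 : ℕ) * (C * (lam + D * us s / lam + us s))) := by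
  have key : ∀ (x : G) (σ : List BX) (τ : List BY),
      wf ΛX hX T i0 σ * (wf ΛY hY T i0 τ *
        ((if th ≤ pp ΛY hY zY T (HT hY τ) (Dp zY τ) then (1 : ℝ≥0∞) else 0) *
        (if Ct hX zX sX hY zY sY σ τ x c c' (α + 3 * i0 + s) (α + T - s) then 1 else 0)))
      ≤ ∑ h' ∈ Finset.Icc T (T + i0), ∑ h ∈ Finset.Icc T (T + i0),
        (if HT hX σ = h ∧ Dp zY τ ∈ E h' ∧ HT hY τ = h' ∧
          Ct hX zX sX hY zY sY σ τ x c c' (α + 3 * i0 + s) (α + T - s) then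
          LW ΛX σ * LW ΛY τ else 0) := by
    intro x σ τ
    unfold wf
    by_cases g1 : fp hX T σ ∧ HT hX σ ≤ T + i0
    · by_cases g2 : th ≤ pp ΛY hY zY T (HT hY τ) (Dp zY τ)
      · by_cases g3 : fp hY T τ ∧ HT hY τ ≤ T + i0
        · by_cases g4 : Ct hX zX sX hY zY sY σ τ x c c' (α + 3 * i0 + s) (α + T - s)
          · rw [if_pos g1, if_pos g2, if_pos g3, if_pos g4, one_mul, mul_one]
            have b1 := le_HT_of_fp hX g1.1
            have b2 := le_HT_of_fp hY g3.1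
            have m1 : HT hX σ ∈ Finset.Icc T (T + i0) := Finset.mem_Icc.2 ⟨b1, g1.2⟩
            have m2 : HT hY τ ∈ Finset.Icc T (T + i0) := Finset.mem_Icc.2 ⟨b2, g3.2⟩
            refine le_trans ?_ (Finset.single_le_sum (fun _ _ => zero_le) m2)
            refine le_trans ?_ (Finset.single_le_sum (fun _ _ => zero_le) m1)
            rw [if_pos ⟨rfl, hE _ _ g2, rfl, g4⟩]
          · simp [g4]
        · rw [if_neg g3]; simp
      · rw [if_neg g2]; simp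
    · rw [if_neg g1]; simp
  calc ∑' x, μ x * ∑' σ, wf ΛX hX T i0 σ * ∑' τ, wf ΛY hY T i0 τ *
        ((if th ≤ pp ΛY hY zY T (HT hY τ) (Dp zY τ) then 1 else 0) *
        (if Ct hX zX sX hY zY sY σ τ x c c' (α + 3 * i0 + s) (α + T - s) then 1 else 0))
      = ∑' x, μ x * ∑' σ, ∑' τ, wf ΛX hX T i0 σ * (wf ΛY hY T i0 τ *
        ((if th ≤ pp ΛY hY zY T (HT hY τ) (Dp zY τ) then (1 : ℝ≥0∞) else 0) *
        (if Ct hX zX sX hY zY sY σ τ x c c' (α + 3 * i0 + s) (α + T - s) then 1 else 0))) := by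
        simp_rw [ENNReal.tsum_mul_left]
    _ ≤ ∑' x, μ x * ∑' σ, ∑' τ, ∑ h' ∈ Finset.Icc T (T + i0), ∑ h ∈ Finset.Icc T (T + i0),
        (if HT hX σ = h ∧ Dp zY τ ∈ E h' ∧ HT hY τ = h' ∧
          Ct hX zX sX hY zY sY σ τ x c c' (α + 3 * i0 + s) (α + T - s) then
          LW ΛX σ * LW ΛY τ else 0) := by
        gcongr with x σ τ
        exact key x σ τ
    _ = ∑ h' ∈ Finset.Icc T (T + i0), ∑ h ∈ Finset.Icc T (T + i0), ∑' x, μ x * ∑' σ, ∑' τ,
        (if HT hX σ = h ∧ Dp zY τ ∈ E h' ∧ HT hY τ = h' ∧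
          Ct hX zX sX hY zY sY σ τ x c c' (α + 3 * i0 + s) (α + T - s) then
          LW ΛX σ * LW ΛY τ else 0) := by
        simp_rw [Summable.tsum_finsetSum (fun _ _ => ENNReal.summable), Finset.mul_sum,
          Summable.tsum_finsetSum (fun _ _ => ENNReal.summable)]
    _ ≤ ∑ h' ∈ Finset.Icc T (T + i0), ∑ h ∈ Finset.Icc T (T + i0),
          C * (lam + D * us s / lam + us s) := by
        refine Finset.sum_le_sum fun h' hh' => Finset.sum_le_sum fun h hh => ?_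
        have q1 := Finset.mem_Icc.1 hh
        have q2 := Finset.mem_Icc.1 hh'
        refine (h3 s h h' c c' (α + 3 * i0 + s) (α + T - s) (E h') μ M lam hμ hμM hl0 hlt
          (by omega) (by omega) (by omega) (by omega) (by omega) (by omega)).trans ?_
        gcongr
        exact hD h' q2.1 q2.2
    _ = _ := by
        rw [Finset.sum_const, Finset.sum_const, Nat.card_Icc, nsmul_eq_mul, nsmul_eq_mul,
          show T + i0 + 1 - T = i0 + 1 by omega]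

end Crest.Agent.R154.WinC706
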