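import Crest.Agent.R154.WinC_278
import Crest.Agent.R154.NumAll_658

/-! Row 154, ROAD 801 (helper278): the assembly (sum over the windows, order of constants). -/

set_option autoImplicit false
set_option linter.unusedSectionVars false
set_option linter.unusedVariables false

namespace Crest.Agent.R154.Win278

open scoped ENNReal Classical
open Filter
open Crest.Agent.R154.B5A Crest.Agent.R154.Mid562

variable {BX BY G : Type*} [AddCommGroup G]
variable {ΛX : BX → ℝ≥0∞} {hX : BX → ℕ} {ΛY : BY → ℝ≥0∞} {hY : BY → ℕ}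
variable {zX : BX → G} {zY : BY → G}
variable {TX : List BX → G → ℕ → Set (G × ℕ)} {TY : List BY → G → ℕ → Set (G × ℕ)}

/-- weight of the pairs of lists of height `n` with the property `S` -/
noncomputable def PD (ΛX : BX → ℝ≥0∞) (hX : BX → ℕ) (ΛY : BY → ℝ≥0∞) (hY : BY → ℕ) (n : ℕ)
    (S : List BX → List BY → Prop) : ℝ≥0∞ :=
  ∑' LX : List BX, ∑' LY : List BY,
    if HT hX LX = n ∧ HT hY LY = n ∧ S LX LY then LW ΛX LX * LW ΛY LY else 0

lemma PD_or (n : ℕ) (S S1 S2 : List BX → List BY → Prop) (h : ∀ LX LY, S LX LY → S1 LX LY ∨ S2 LX LY) :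
    PD ΛX hX ΛY hY n S ≤ PD ΛX hX ΛY hY n S1 + PD ΛX hX ΛY hY n S2 := by
  unfold PD
  rw [← ENNReal.tsum_add]
  refine ENNReal.tsum_le_tsum fun LX => ?_
  rw [← ENNReal.tsum_add]
  refine ENNReal.tsum_le_tsum fun LY => ?_
  by_cases hS : HT hX LX = n ∧ HT hY LY = n ∧ S LX LY
  · rw [if_pos hS]
    rcases h LX LY hS.2.2 with h1 | h1
    · rw [if_pos ⟨hS.1, hS.2.1, h1⟩]; exact le_self_add
    · refine le_trans ?_ le_add_self
      rw [if_pos ⟨hS.1, hS.2.1, h1⟩]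
  · rw [if_neg hS]; exact zero_le

lemma PD_union (n : ℕ) (Sj : ℕ → List BX → List BY → Prop) (c : ℝ≥0∞) (K : ℕ)
    (h : ∀ j < K, PD ΛX hX ΛY hY n (Sj j) ≤ c) :
    PD ΛX hX ΛY hY n (fun LX LY => ∃ j < K, Sj j LX LY) ≤ K * c := by
  induction K with
  | zero =>
    unfold PD
    simp
  | succ K ih =>
    refine (PD_or n _ (fun LX LY => ∃ j < K, Sj j LX LY) (Sj K) ?_).trans ?_
    · rintro LX LY ⟨j, hj, hS⟩
      rcases Nat.lt_succ_iff_lt_or_eq.1 hj with hj' | rfl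
      · exact Or.inl ⟨j, hj', hS⟩
      · exact Or.inr hS
    · calc _ ≤ K * c + c := add_le_add (ih fun j hj => h j (by omega)) (h K (by omega))
        _ = _ := by push_cast; ring

lemma PD_eq (n : ℕ) (S : List BX → List BY → Prop) :
    PD ΛX hX ΛY hY n S = NS ΛX hX n (fun LX => NS ΛY hY n (fun LY => if S LX LY then 1 else 0)) := by
  unfold PD NS
  refine tsum_congr fun LX => ?_
  by_cases h : HT hX LX = n
  · rw [if_pos h, ← ENNReal.tsum_mul_left]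
    refine tsum_congr fun LY => ?_
    by_cases h' : HT hY LY = n
    · by_cases hS : S LX LY
      · simp [h, h', hS]
      · simp [h, h', hS]
    · simp [h, h']
  · simp [h]

lemma geo_le (u : ℝ≥0∞) (hu1 : u ≤ 1) (J : ℕ) : ∑ j ∈ Finset.range J, (1 - u) ^ j ≤ 1 / u := by
  calc _ ≤ ∑' j : ℕ, (1 - u) ^ j := ENNReal.sum_le_tsum _
    _ = (1 - (1 - u))⁻¹ := ENNReal.tsum_geometric _
    _ = 1 / u := by rw [ENNReal.sub_sub_cancel ENNReal.one_ne_top hu1, one_div]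

lemma geo_le' (u : ℝ≥0∞) (J : ℕ) : ∑ j ∈ Finset.range J, (1 - u) ^ j ≤ J := by
  calc _ ≤ ∑ j ∈ Finset.range J, (1 : ℝ≥0∞) :=
        Finset.sum_le_sum fun j _ => pow_le_one' (tsub_le_self) j
    _ = J := by simp

/-- the quantile in the form used -/
lemma quant2 {ι : Type*} (p : ι → ℝ≥0∞) (hp : ∑' x, p x = 1) (u : ℝ≥0∞) (hu : u ≠ 0)
    (hu1 : u < 1) : ∃ th : ℝ≥0∞, th ≠ 0 ∧ (∑' x, if th ≤ p x then 0 else p x) ≤ u ∧
      (∑' x, if p x ≤ 2 * th then 0 else p x) ≤ 1 - u := by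
  obtain ⟨th, h0, _, h1, h2⟩ := quantile p hp u hu hu1.le
  refine ⟨th, h0, h1, ?_⟩
  refine ENNReal.le_sub_of_add_le_right hu1.ne_top ?_
  calc _ ≤ (∑' x, if p x ≤ 2 * th then 0 else p x) + ∑' x, (if p x ≤ 2 * th then p x else 0) :=
        add_le_add le_rfl h2
    _ = ∑' x, p x := by
        rw [← ENNReal.tsum_add]
        refine tsum_congr fun x => ?_
        split_ifs <;> simp
    _ ≤ 1 := hp.le

lemma mass_card (u tX : ℝ≥0∞) (hu1 : u ≤ 1) (i0 J : ℕ) (c : ℝ≥0∞) (hc : tX * c ≤ 1) :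
    (∑ j ∈ Finset.range J, (1 - u) ^ j) * (((i0 + 1 : ℕ) : ℝ≥0∞) * (2 * tX)) * c
      ≤ 2 * (i0 + 1) / u := by
  calc _ = (∑ j ∈ Finset.range J, (1 - u) ^ j) * (2 * ((i0 + 1 : ℕ) : ℝ≥0∞)) * (tX * c) := by ring
    _ ≤ (1 / u) * (2 * ((i0 + 1 : ℕ) : ℝ≥0∞)) * 1 :=
        mul_le_mul' (mul_le_mul' (geo_le u hu1 J) le_rfl) hc
    _ = _ := by
        rw [mul_one, one_div, ENNReal.div_eq_inv_mul]
        push_cast
        ring

end Crest.Agent.R154.Win278
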