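import Crest.Agent.R154.WinC_546

/-! Row 154, road 801 (helper546): order (2), X explored, Y stopped at its first site of X. -/

set_option autoImplicit false

open MeasureTheory ProbabilityTheory Crest.ProbabilityR.RandomEnvironment
open scoped ENNReal Classical

namespace Crest.Agent.R154.Win546

open Flux566

variable {d : ℕ}

/-- the explored word `π` (from `y`); the other walker (from `x`): first prefixes `p` ending in a site
of `π`, deep, which are strict prefixes of a word of `YY` -/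
def HH (YY : Set (List (Step d))) (Dp : Set (Site d)) (x y : Site d) (π : List (Step d)) :
    Set (List (Step d)) :=
  {p | p ∈ Mn (fun p => endp x p ∈ sitesL y π) ∧ endp x p ∈ Dp ∧ ∃ r, r ≠ [] ∧ p ++ r ∈ YY}

/-- first hit event -/
def Hit (Dp : Set (Site d)) (x y : Site d) (π ρ : List (Step d)) : Prop :=
  ∃ p r, ρ = p ++ r ∧ r ≠ [] ∧ p ∈ Mn (fun p => endp x p ∈ sitesL y π) ∧ endp x p ∈ Dp

lemma pf_HH (YY : Set (List (Step d))) (Dp : Set (Site d)) (x y : Site d) (π : List (Step d)) :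
    PF (HH YY Dp x y π) := fun l hl r hr => pf_Mn _ l hl.1 r hr.1

lemma HH_disj {YY : Set (List (Step d))} {Dp : Set (Site d)} {x y : Site d}
    {π p : List (Step d)} (hp : p ∈ HH YY Dp x y π) : ∀ z ∈ sitesL y π, z ∉ sitesL x p := by
  intro z hz hz'
  obtain ⟨p', r, h1, h2, h3⟩ := (mem_sitesL p x z).1 hz'
  exact h2 (hp.1.2 p' r h1 (show endp x p' ∈ sitesL y π by rw [h3]; exact hz))

variable (ν : Measure (Row d)) [IsProbabilityMeasure ν]

/-- inner sum: the stopped walker -/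
lemma inner_le {YY : Set (List (Step d))} (Dp : Set (Site d)) (x y : Site d)
    (π : List (Step d)) (f : List (Step d) → ℝ≥0∞) :
    ∑' ρ, (if ρ ∈ YY ∧ Hit Dp x y π ρ then f ρ else 0)
      ≤ ∑' p, (if p ∈ HH YY Dp x y π then ∑' r, (if p ++ r ∈ YY then f (p ++ r) else 0) else 0) := by
  refine (le_cover (HH YY Dp x y π) _ ?_).trans ?_
  · intro t ht
    have h : t ∈ YY ∧ Hit Dp x y π t := by
      by_contra h
      exact ht (if_neg h)
    obtain ⟨hY, p, r, h1, h2, h3, h4⟩ := h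
    exact ⟨p, r, h1, h3, h4, r, h2, h1 ▸ hY⟩
  · refine ENNReal.tsum_le_tsum fun p => ?_
    split_ifs
    · refine ENNReal.tsum_le_tsum fun r => ?_
      split_ifs with h1 h2 h2
      · exact le_rfl
      · exact absurd h1.1 h2
      · exact zero_le
      · exact le_rfl
    · exact le_rfl

/-- pointwise bound, order (2) -/
lemma point2 (ω : Environment d) {XX YY : Set (List (Step d))} (hXX : PF XX)
    (E : Finset (Site d)) (Dp : Set (Site d)) (DX : Site d → Set (List (Step d)))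
    (hDX : ∀ p r, p ++ r ∈ XX → r ∈ DX (endp 0 p)) (XS : Set (Site d)) (TT : Set (List (Step d)))
    (hTT : ∀ x ∈ XS, ∀ p r, r ≠ [] → p ++ r ∈ YY → endp x p ∈ Dp → ∀ δ ∈ DX (endp x p), p ++ δ ∈ TT)
    (μ : Site d → ℝ≥0∞) (M : ℝ≥0∞) (hM : ∀ z, μ z ≤ M) (h1 : ∑' z, μ z ≤ 1)
    {lam : ℝ≥0∞} (hl0 : lam ≠ 0) (hl1 : lam ≠ ⊤) :
    ∑' x, ∑' π, (if x ∈ XS ∧ π ∈ XX ∧ endp 0 π ∈ E then
        μ (x - endp 0 π) * (lw ω 0 π * ∑' p, (if p ∈ HH YY Dp x 0 π then lw ω x p else 0)) else 0)
      ≤ lam + M * (lam⁻¹ * ∑' x, ∑' t, (if t ∈ TT ∧ x + endp 0 t ∈ E then lw ω x t else 0)) := by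
  set e : Site d → ℝ≥0∞ := fun v =>
    ∑' δ, (if δ ∈ DX v ∧ endp v δ ∈ E then lw ω v δ else 0) with he
  -- split of the inner sum
  have hB : ∀ x ∈ XS, ∀ π, ∑' p, (if p ∈ HH YY Dp x 0 π ∧ lam < e (endp x p) then lw ω x p else 0)
      ≤ lam⁻¹ * ∑' t, (if t ∈ TT ∧ x + endp 0 t ∈ E then lw ω x t else 0) := by
    intro x hx π
    obtain ⟨T, hT⟩ : ∃ T : Set (List (Step d)), T = {t | t ∈ TT ∧ x + endp 0 t ∈ E} := ⟨_, rfl⟩
    have hmem : ∀ t, t ∈ T ↔ (t ∈ TT ∧ x + endp 0 t ∈ E) := fun t => by rw [hT]; rfl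
    refine (bpart ω (pf_HH YY Dp x 0 π) x e hl0 hl1 T ?_).trans ?_
    · intro p hp
      rw [he]
      simp only
      refine ENNReal.tsum_le_tsum fun δ => ?_
      by_cases hδ : δ ∈ DX (endp x p) ∧ endp (endp x p) δ ∈ E
      · rw [if_pos hδ, if_pos]
        rw [hmem]
        obtain ⟨r, hr0, hr⟩ := hp.2.2
        refine ⟨hTT x hx p r hr0 hr hp.2.1 δ hδ.1, ?_⟩
        rw [← endp_eq_add, endp_append]
        exact hδ.2
      · rw [if_neg hδ]; exact zero_le
    · refine mul_le_mul_right (le_of_eq (tsum_congr fun t => ?_)) _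
      by_cases h : t ∈ TT ∧ x + endp 0 t ∈ E
      · rw [if_pos h, if_pos ((hmem t).2 h)]
      · rw [if_neg h, if_neg (fun h' => h ((hmem t).1 h'))]
  have hA : ∀ x π, ∑' p, (if p ∈ HH YY Dp x 0 π ∧ e (endp x p) ≤ lam then lw ω x p else 0)
      ≤ if ∃ v ∈ sitesL (0 : Site d) π, e v ≤ lam then 1 else 0 := by
    intro x π
    by_cases hv : ∃ v ∈ sitesL (0 : Site d) π, e v ≤ lam
    · rw [if_pos hv]
      refine le_trans (ENNReal.tsum_le_tsum fun p => ?_) (pf_sum ω (pf_HH YY Dp x 0 π) x)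
      split_ifs with a b b
      · exact le_rfl
      · exact absurd a.1 b
      · exact zero_le
      · exact le_rfl
    · rw [if_neg hv]
      refine le_of_eq ?_
      rw [ENNReal.tsum_eq_zero]
      intro p
      rw [if_neg]
      rintro ⟨hp, hle⟩
      exact hv ⟨_, hp.1.1, hle⟩
  have hsplit : ∀ x π, ∑' p, (if p ∈ HH YY Dp x 0 π then lw ω x p else 0)
      = ∑' p, (if p ∈ HH YY Dp x 0 π ∧ e (endp x p) ≤ lam then lw ω x p else 0)
        + ∑' p, (if p ∈ HH YY Dp x 0 π ∧ lam < e (endp x p) then lw ω x p else 0) := by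
    intro x π
    rw [← ENNReal.tsum_add]
    refine tsum_congr fun p => ?_
    by_cases hp : p ∈ HH YY Dp x 0 π
    · rcases le_or_gt (e (endp x p)) lam with h | h
      · simp [hp, h, not_lt.2 h]
      · simp [hp, h, not_le.2 h]
    · simp [hp]
  calc ∑' x, ∑' π, (if x ∈ XS ∧ π ∈ XX ∧ endp 0 π ∈ E then
        μ (x - endp 0 π) * (lw ω 0 π * ∑' p, (if p ∈ HH YY Dp x 0 π then lw ω x p else 0)) else 0)
      ≤ ∑' x, ∑' π, ((if (π ∈ XX ∧ endp 0 π ∈ E) ∧ ∃ v ∈ sitesL (0 : Site d) π, e v ≤ lam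
            then μ (x - endp 0 π) * lw ω 0 π else 0)
          + (M * (lam⁻¹ * ∑' t, (if t ∈ TT ∧ x + endp 0 t ∈ E then lw ω x t else 0)))
              * (if π ∈ XX then lw ω 0 π else 0)) := by
        refine ENNReal.tsum_le_tsum fun x => ENNReal.tsum_le_tsum fun π => ?_
        by_cases hc : x ∈ XS ∧ π ∈ XX ∧ endp 0 π ∈ E
        · rw [if_pos hc, hsplit, mul_add, mul_add, if_pos hc.2.1]
          refine add_le_add ?_ ?_
          · refine (mul_le_mul_right (mul_le_mul_right (hA x π) _) _).trans ?_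
            by_cases hv : ∃ v ∈ sitesL (0 : Site d) π, e v ≤ lam
            · rw [if_pos hv, if_pos ⟨hc.2, hv⟩, mul_one]
            · rw [if_neg hv]; simp
          · calc μ (x - endp 0 π) * (lw ω 0 π *
                  ∑' p, (if p ∈ HH YY Dp x 0 π ∧ lam < e (endp x p) then lw ω x p else 0))
                ≤ M * (lw ω 0 π *
                  (lam⁻¹ * ∑' t, (if t ∈ TT ∧ x + endp 0 t ∈ E then lw ω x t else 0))) :=
                  mul_le_mul' (hM _) (mul_le_mul_right (hB x hc.1 π) _)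
              _ = _ := by ring
        · rw [if_neg hc]; exact zero_le
    _ = ∑' π, ∑' x, (if (π ∈ XX ∧ endp 0 π ∈ E) ∧ ∃ v ∈ sitesL (0 : Site d) π, e v ≤ lam
            then μ (x - endp 0 π) * lw ω 0 π else 0)
        + ∑' x, (M * (lam⁻¹ * ∑' t, (if t ∈ TT ∧ x + endp 0 t ∈ E then lw ω x t else 0)))
              * ∑' π, (if π ∈ XX then lw ω 0 π else 0) := by
        simp only [ENNReal.tsum_add, ENNReal.tsum_mul_left]
        congr 1
        exact ENNReal.tsum_comm
    _ ≤ lam + _ := by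
        refine add_le_add ?_ ?_
        · obtain ⟨S, hS⟩ : ∃ S : Set (List (Step d)), S = {π | π ∈ XX ∧ endp 0 π ∈ E} := ⟨_, rfl⟩
          have hmem : ∀ t, t ∈ S ↔ (t ∈ XX ∧ endp 0 t ∈ E) := fun t => by rw [hS]; rfl
          refine le_trans (ENNReal.tsum_le_tsum fun π => ?_) (low_le ω S 0 e lam ?_)
          · by_cases hc : (π ∈ XX ∧ endp 0 π ∈ E) ∧ ∃ v ∈ sitesL (0 : Site d) π, e v ≤ lam
            · simp only [if_pos hc]
              rw [if_pos ⟨(hmem π).2 hc.1, hc.2⟩, ENNReal.tsum_mul_right, tsum_sub_right]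
              exact (mul_le_mul_left h1 _).trans (by rw [one_mul])
            · simp only [if_neg hc]
              simp
          · intro p
            rw [he]
            simp only
            refine ENNReal.tsum_le_tsum fun r => ?_
            by_cases hr : p ++ r ∈ S
            · rw [if_pos hr, if_pos]
              have := (hmem _).1 hr
              exact ⟨hDX p r this.1, by rw [← endp_append]; exact this.2⟩
            · rw [if_neg hr]; exact zero_le
        · rw [← ENNReal.tsum_mul_left, ← ENNReal.tsum_mul_left]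
          refine ENNReal.tsum_le_tsum fun x => ?_
          calc _ ≤ (M * (lam⁻¹ * ∑' t, (if t ∈ TT ∧ x + endp 0 t ∈ E then lw ω x t else 0))) * 1 :=
                mul_le_mul_right (pf_sum ω hXX 0) _
            _ = _ := mul_one _

end Crest.Agent.R154.Win546
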