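import Crest.Agent.R154.WinC_706

/-! Row 154, ROAD 801, assembly (helper706): total of one window. -/

set_option autoImplicit false
set_option linter.unusedSectionVars false
set_option maxHeartbeats 1000000

namespace Crest.Agent.R154.WinD706

open scoped ENNReal
open Crest.Agent.R154.B5A Crest.Agent.R154.FP178 Crest.Agent.R154.DensFP706
open Crest.Agent.R154.WinA706 Crest.Agent.R154.WinB706 Crest.Agent.R154.WinC706

variable {BX BY G : Type*} [AddCommGroup G] (ΛX : BX → ℝ≥0∞) (hX : BX → ℕ) (zX : BX → G)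
  (sX : BX → Set (G × ℕ)) (ΛY : BY → ℝ≥0∞) (hY : BY → ℕ) (zY : BY → G) (sY : BY → Set (G × ℕ))

open Classical in
/-- local data of one walker in the window starting at `α` -/
structure Loc {B : Type*} (Λ : B → ℝ≥0∞) (ht : B → ℕ) (z : B → G) (α T i0 : ℕ)
    (th M D u β : ℝ≥0∞) (E : ℕ → Finset G) (b : ℕ → G → ℝ≥0∞) : Prop where
  hE : ∀ h x, th ≤ pp Λ ht z T h x → x ∈ E h
  hD : ∀ h, T ≤ h → h ≤ T + i0 → M * (E h).card ≤ D
  hu : ∑' σ, (wf Λ ht T i0 σ * if th ≤ pp Λ ht z T (HT ht σ) (Dp z σ) then 0 else 1) ≤ u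
  hb : ∑' o, ∑' x, b o x ≤ β
  hff : ∀ o x, ff Λ ht z α o x ≤ M + b o x

open Classical in
theorem window (h1X : ∀ b, 1 ≤ hX b) (hΛX : ∑' b, ΛX b ≤ 1) (hUX : ∀ n, U ΛX hX n ≤ 1)
    (h1Y : ∀ b, 1 ≤ hY b) (hΛY : ∑' b, ΛY b ≤ 1) (hUY : ∀ n, U ΛY hY n ≤ 1)
    (hsX : ∀ b q, q ∈ sX b → 1 ≤ q.2 ∧ q.2 ≤ hX b)
    (hsY : ∀ b q, q ∈ sY b → 1 ≤ q.2 ∧ q.2 ≤ hY b)
    (C : ℝ≥0∞) (us : ℕ → ℝ≥0∞) (h2 : H2 ΛX hX zX sX ΛY hY zY sY C us)
    (h3 : H3 ΛX hX zX sX ΛY hY zY sY C us) (α T i0 s : ℕ) (hs : 1 ≤ s) (hsT : s ≤ T)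
    (thX MX thY MY D u βX βY lam : ℝ≥0∞) (EX EY : ℕ → Finset G) (bX bY : ℕ → G → ℝ≥0∞)
    (LX : Loc ΛX hX zX α T i0 thX MX D u βX EX bX)
    (LY : Loc ΛY hY zY (α + 2 * i0) T i0 thY MY D u βY EY bY)
    (hl0 : lam ≠ 0) (hlt : lam ≠ ⊤) (n : ℕ) (hn : α + 3 * i0 + T ≤ n) (w : G) :
    ∑' L, (if HT hX L = n then LW ΛX L * ∑' L', (if HT hY L' = n then LW ΛY L' *
      chi hX zX sX hY zY sY α T i0 s w L L' else 0) else 0)
      ≤ 2 * ov ΛX hX i0 + (2 * ov ΛY hY i0 + (u * u +
        ((i0 + 1 : ℕ) * ((i0 + 1 : ℕ) * ((i0 + 1 : ℕ) * (C * (lam + D * us s / lam + us s)))) + βX)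
        + ((i0 + 1 : ℕ) * ((i0 + 1 : ℕ) * ((i0 + 1 : ℕ) * (C * (lam + D * us s / lam + us s))))
          + βY))) := by
  have hchi1 : ∀ L L', chi hX zX sX hY zY sY α T i0 s w L L' ≤ 1 := by
    intro L L'; unfold chi; split_ifs <;> simp
  have hpsi1 : ∀ A σ A' τ, psi hX zX sX hY zY sY α T i0 s w A σ A' τ ≤ 1 := by
    intro A σ A' τ; unfold psi; split_ifs <;> simp
  set ψ := psi hX zX sX hY zY sY α T i0 s w with hψ
  set wA := wf ΛX hX α i0 with hwA
  set wS := wf ΛX hX T i0 with hwS
  set wA' := wf ΛY hY (α + 2 * i0) i0 with hwA'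
  set wS' := wf ΛY hY T i0 with hwS'
  have sA : ∑' A, wA A ≤ 1 := wf_sum ΛX hX h1X hΛX α i0
  have sS : ∑' A, wS A ≤ 1 := wf_sum ΛX hX h1X hΛX T i0
  have sA' : ∑' A, wA' A ≤ 1 := wf_sum ΛY hY h1Y hΛY (α + 2 * i0) i0
  have sS' : ∑' A, wS' A ≤ 1 := wf_sum ΛY hY h1Y hΛY T i0
  -- peeling
  have step1 := peel ΛX hX h1X hΛX hUX α T i0 n (by omega)
    (fun L => ∑' L', (if HT hY L' = n then LW ΛY L' *
      chi hX zX sX hY zY sY α T i0 s w L L' else 0))
    (fun L => by
      refine le_trans (ENNReal.tsum_le_tsum fun L' => ?_) (HTsum_le ΛY hY hUY n 1)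
      split_ifs
      · gcongr; exact hchi1 _ _
      · exact le_rfl)
    (fun A σ => 2 * ov ΛY hY i0 + ∑' A', wA' A' * ∑' τ, wS' τ * ψ A σ A' τ)
    (by
      intro A σ R hA hA2 hσ hσ2 hR
      refine peel ΛY hY h1Y hΛY hUY (α + 2 * i0) T i0 n (by omega) _ (fun L' => hchi1 _ _)
        (fun A' τ => ψ A σ A' τ) ?_
      intro A' τ R' hA' hA2' hτ hτ2 hR'
      exact chi_le_psi hX zX sX hY zY sY hsX hsY α T i0 s hs w A σ R A' τ R' hA hA2 hσ hσ2
        hA' hA2' hτ)
  refine step1.trans ?_
  gcongr
  -- separate the constant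
  have step2 : ∑' A, wA A * ∑' σ, wS σ * (2 * ov ΛY hY i0 + ∑' A', wA' A' * ∑' τ, wS' τ *
      ψ A σ A' τ) ≤ 2 * ov ΛY hY i0 + ∑' A, wA A * ∑' σ, wS σ * ∑' A', wA' A' * ∑' τ, wS' τ *
      ψ A σ A' τ := by
    calc _ = ∑' A, (wA A * ((∑' σ, wS σ) * (2 * ov ΛY hY i0)) +
          wA A * ∑' σ, wS σ * ∑' A', wA' A' * ∑' τ, wS' τ * ψ A σ A' τ) := by
          refine tsum_congr fun A => ?_
          rw [← mul_add]
          congr 1
          rw [← ENNReal.tsum_mul_right, ← ENNReal.tsum_add]
          refine tsum_congr fun σ => ?_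
          rw [mul_add]
      _ = (∑' A, wA A) * ((∑' σ, wS σ) * (2 * ov ΛY hY i0)) + _ := by
          rw [ENNReal.tsum_add, ENNReal.tsum_mul_right]
      _ ≤ 1 * (1 * (2 * ov ΛY hY i0)) + _ := by gcongr
      _ = _ := by rw [one_mul, one_mul]
  refine step2.trans ?_
  gcongr
  -- four-fold sum
  set lX : List BX → ℝ≥0∞ := fun σ =>
    if thX ≤ pp ΛX hX zX T (HT hX σ) (Dp zX σ) then 1 else 0 with hlX
  set lY : List BY → ℝ≥0∞ := fun τ =>
    if thY ≤ pp ΛY hY zY T (HT hY τ) (Dp zY τ) then 1 else 0 with hlY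
  set nX : List BX → ℝ≥0∞ := fun σ =>
    if thX ≤ pp ΛX hX zX T (HT hX σ) (Dp zX σ) then 0 else 1 with hnX
  set nY : List BY → ℝ≥0∞ := fun τ =>
    if thY ≤ pp ΛY hY zY T (HT hY τ) (Dp zY τ) then 0 else 1 with hnY
  have hsplit : ∀ A σ A' τ, wA A * (wS σ * (wA' A' * (wS' τ * ψ A σ A' τ)))
      ≤ wA A * (wS σ * nX σ * (wA' A' * (wS' τ * nY τ)))
        + wA A * (wS σ * (lX σ * (wA' A' * (wS' τ * ψ A σ A' τ))))
        + wA A * (wS σ * (wA' A' * (wS' τ * (lY τ * ψ A σ A' τ)))) := by
    intro A σ A' τ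
    by_cases g1 : thX ≤ pp ΛX hX zX T (HT hX σ) (Dp zX σ)
    · simp only [hlX, g1, if_true, one_mul]
      exact le_add_right le_add_self
    · by_cases g2 : thY ≤ pp ΛY hY zY T (HT hY τ) (Dp zY τ)
      · simp only [hlY, g2, if_true, one_mul]
        exact le_add_self
      · simp only [hnX, hnY, g1, g2, if_false, mul_one]
        refine le_add_right (le_add_right ?_)
        gcongr
        calc wS' τ * ψ A σ A' τ ≤ wS' τ * 1 := by gcongr; exact hpsi1 _ _ _ _
          _ = _ := mul_one _
  have h4 : ∑' A, wA A * ∑' σ, wS σ * ∑' A', wA' A' * ∑' τ, wS' τ * ψ A σ A' τ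
      = ∑' A, ∑' σ, ∑' A', ∑' τ, wA A * (wS σ * (wA' A' * (wS' τ * ψ A σ A' τ))) := by
    simp_rw [ENNReal.tsum_mul_left]
  rw [h4]
  calc ∑' A, ∑' σ, ∑' A', ∑' τ, wA A * (wS σ * (wA' A' * (wS' τ * ψ A σ A' τ)))
      ≤ ∑' A, ∑' σ, ∑' A', ∑' τ, (wA A * (wS σ * nX σ * (wA' A' * (wS' τ * nY τ)))
        + wA A * (wS σ * (lX σ * (wA' A' * (wS' τ * ψ A σ A' τ))))
        + wA A * (wS σ * (wA' A' * (wS' τ * (lY τ * ψ A σ A' τ))))) := by
        gcongr with A σ A' τ
        exact hsplit A σ A' τ
    _ = (∑' A, ∑' σ, ∑' A', ∑' τ, wA A * (wS σ * nX σ * (wA' A' * (wS' τ * nY τ))))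
        + (∑' A, ∑' σ, ∑' A', ∑' τ, wA A * (wS σ * (lX σ * (wA' A' * (wS' τ * ψ A σ A' τ)))))
        + (∑' A, ∑' σ, ∑' A', ∑' τ, wA A * (wS σ * (wA' A' * (wS' τ * (lY τ *
          ψ A σ A' τ))))) := by
        simp_rw [ENNReal.tsum_add]
    _ ≤ _ := by
        refine add_le_add (add_le_add ?_ ?_) ?_
        · -- both non-local
          simp_rw [ENNReal.tsum_mul_left, ENNReal.tsum_mul_right]
          calc (∑' A, wA A) * ((∑' σ, wS σ * nX σ) * ((∑' A', wA' A') * ∑' τ, wS' τ * nY τ))
              ≤ 1 * (u * (1 * u)) := by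
                gcongr
                · exact LX.hu
                · exact LY.hu
            _ = _ := by rw [one_mul, one_mul]
        · -- X local: fix A'
          calc ∑' A, ∑' σ, ∑' A', ∑' τ, wA A * (wS σ * (lX σ * (wA' A' * (wS' τ *
                ψ A σ A' τ))))
              = ∑' A', ∑' A, ∑' σ, ∑' τ, wA' A' * (wA A * (wS σ * (lX σ * (wS' τ *
                ψ A σ A' τ)))) := by
                calc _ = ∑' A, ∑' A', ∑' σ, ∑' τ, wA A * (wS σ * (lX σ * (wA' A' * (wS' τ *
                      ψ A σ A' τ)))) := by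
                      refine tsum_congr fun A => ?_
                      rw [ENNReal.tsum_comm]
                  _ = ∑' A', ∑' A, ∑' σ, ∑' τ, wA A * (wS σ * (lX σ * (wA' A' * (wS' τ *
                      ψ A σ A' τ)))) := by rw [ENNReal.tsum_comm]
                  _ = _ := by
                      refine tsum_congr fun A' => tsum_congr fun A => tsum_congr fun σ =>
                        tsum_congr fun τ => ?_
                      ring
            _ = ∑' A', wA' A' * ∑' A, wA A * (fun c x => ∑' σ, wS σ * (lX σ * ∑' τ, wS' τ *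
                (if Ct hX zX sX hY zY sY σ τ x c (HT hY A') (α + 3 * i0 + s) (α + T - s)
                  then 1 else 0))) (HT hX A) (Equiv.subLeft (w + Dp zY A') (Dp zX A)) := by
                simp_rw [ENNReal.tsum_mul_left]
                rfl
            _ ≤ ∑' A', wA' A' * ((i0 + 1 : ℕ) * ((i0 + 1 : ℕ) * ((i0 + 1 : ℕ) *
                  (C * (lam + D * us s / lam + us s)))) + βX) := by
                refine ENNReal.tsum_le_tsum fun A' => ?_
                by_cases hA' : fp hY (α + 2 * i0) A' ∧ HT hY A' ≤ α + 2 * i0 + i0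
                · gcongr
                  have c1 := le_HT_of_fp hY hA'.1
                  refine half ΛX hX zX h1X hΛX α i0 (Equiv.subLeft (w + Dp zY A'))
                    (fun c x => ∑' σ, wS σ * (lX σ * ∑' τ, wS' τ *
                      (if Ct hX zX sX hY zY sY σ τ x c (HT hY A') (α + 3 * i0 + s) (α + T - s)
                        then 1 else 0))) ?_ MX βX _
                    bX LX.hb LX.hff ?_
                  · intro c x
                    calc _ ≤ ∑' σ, wS σ * (1 * ∑' τ, wS' τ * 1) := by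
                          gcongr with σ τ
                          · simp only [hlX]; split_ifs <;> simp
                          · split_ifs <;> simp
                      _ = (∑' σ, wS σ) * ∑' τ, wS' τ := by
                          simp_rw [mul_one, one_mul, ENNReal.tsum_mul_right]
                      _ ≤ 1 * 1 := by gcongr
                      _ = 1 := one_mul 1
                  · intro c hc hc2 μ hμ hμM
                    exact innX ΛX hX zX sX ΛY hY zY sY C us h2 α T i0 s thX EX LX.hE MX lam D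
                      LX.hD hl0 hlt hsT c (HT hY A') hc hc2 c1 (by omega) μ hμ hμM
                · have : wA' A' = 0 := by
                    simp only [hwA', wf]; rw [if_neg hA']
                  rw [this, zero_mul, zero_mul]
            _ = (∑' A', wA' A') * _ := by rw [ENNReal.tsum_mul_right]
            _ ≤ 1 * _ := by gcongr
            _ = _ := one_mul _
        · -- Y local: fix A
          calc ∑' A, ∑' σ, ∑' A', ∑' τ, wA A * (wS σ * (wA' A' * (wS' τ * (lY τ *
                ψ A σ A' τ))))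
              = ∑' A, ∑' A', ∑' σ, ∑' τ, wA A * (wA' A' * (wS σ * (wS' τ * (lY τ *
                ψ A σ A' τ)))) := by
                refine tsum_congr fun A => ?_
                rw [ENNReal.tsum_comm]
                refine tsum_congr fun A' => tsum_congr fun σ => tsum_congr fun τ => ?_
                ring
            _ = ∑' A, wA A * ∑' A', wA' A' * (fun c x => ∑' σ, wS σ * ∑' τ, wS' τ * (lY τ *
                (if Ct hX zX sX hY zY sY σ τ x (HT hX A) c (α + 3 * i0 + s) (α + T - s)
                  then 1 else 0))) (HT hY A') (Equiv.addLeft (w - Dp zX A) (Dp zY A')) := by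
                simp_rw [ENNReal.tsum_mul_left]
                refine tsum_congr fun A => ?_
                congr 1
                refine tsum_congr fun A' => ?_
                congr 1
                refine tsum_congr fun σ => ?_
                congr 1
                refine tsum_congr fun τ => ?_
                have hx : w + Dp zY A' - Dp zX A = w - Dp zX A + Dp zY A' := by abel
                have hps : ψ A σ A' τ = (if Ct hX zX sX hY zY sY σ τ
                    (Equiv.addLeft (w - Dp zX A) (Dp zY A')) (HT hX A) (HT hY A')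
                    (α + 3 * i0 + s) (α + T - s) then 1 else 0) := by
                  have hadd : (Equiv.addLeft (w - Dp zX A)) (Dp zY A')
                      = w + Dp zY A' - Dp zX A := hx.symm
                  rw [hadd]
                  rfl
                rw [hps]
            _ ≤ ∑' A, wA A * ((i0 + 1 : ℕ) * ((i0 + 1 : ℕ) * ((i0 + 1 : ℕ) *
                  (C * (lam + D * us s / lam + us s)))) + βY) := by
                refine ENNReal.tsum_le_tsum fun A => ?_
                by_cases hA : fp hX α A ∧ HT hX A ≤ α + i0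
                · gcongr
                  have c1 := le_HT_of_fp hX hA.1
                  refine half ΛY hY zY h1Y hΛY (α + 2 * i0) i0 (Equiv.addLeft (w - Dp zX A))
                    (fun c x => ∑' σ, wS σ * ∑' τ, wS' τ * (lY τ *
                      (if Ct hX zX sX hY zY sY σ τ x (HT hX A) c (α + 3 * i0 + s) (α + T - s)
                        then 1 else 0))) ?_
                    MY βY _ bY LY.hb LY.hff ?_
                  · intro c x
                    calc _ ≤ ∑' σ, wS σ * ∑' τ, wS' τ * (1 * 1) := by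
                          gcongr with σ τ
                          · simp only [hlY]; split_ifs <;> simp
                          · split_ifs <;> simp
                      _ = (∑' σ, wS σ) * ∑' τ, wS' τ := by
                          simp_rw [mul_one, ENNReal.tsum_mul_right]
                      _ ≤ 1 * 1 := by gcongr
                      _ = 1 := one_mul 1
                  · intro c hc hc2 μ hμ hμM
                    exact innY ΛX hX zX sX ΛY hY zY sY C us h3 α T i0 s thY EY LY.hE MY lam D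
                      LY.hD hl0 hlt hsT (HT hX A) c c1 hA.2 hc (by omega) μ hμ hμM
                · have : wA A = 0 := by
                    simp only [hwA, wf]; rw [if_neg hA]
                  rw [this, zero_mul, zero_mul]
            _ = (∑' A, wA A) * _ := by rw [ENNReal.tsum_mul_right]
            _ ≤ 1 * _ := by gcongr
            _ = _ := one_mul _

end Crest.Agent.R154.WinD706
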