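import Crest.Agent.R154.WinD_278

/-! Row 154, ROAD 801 (helper278): the assembly (sum over the windows, order of constants). -/

set_option autoImplicit false
set_option linter.unusedSectionVars false
set_option linter.unusedVariables false

namespace Crest.Agent.R154.Win278

open scoped ENNReal Classical
open Filter
open Crest.Agent.R154.B5A Crest.Agent.R154.Mid562

variable {BX BY G : Type*} [AddCommGroup G]
variable {ΛX : BX → ℝ≥0∞} {hX : BX → ℕ} {ΛY : BY → ℝ≥0∞} {hY : BY → ℕ}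
variable {zX : BX → G} {zY : BY → G}
variable {TX : List BX → G → ℕ → Set (G × ℕ)} {TY : List BY → G → ℕ → Set (G × ℕ)}

/-- **the abstract assembly**: KAPPA' on lists (540's `kapS`, `n` large) from the two window
lemmas (with an offset `g`) and the thin slab -/
theorem kapS (h1X : ∀ b, 1 ≤ hX b) (hΛX : ∑' b, ΛX b = 1) (hEX : ∑' b, ΛX b * (hX b : ℝ≥0∞) ≠ ⊤)
    (h1Y : ∀ b, 1 ≤ hY b) (hΛY : ∑' b, ΛY b = 1) (hEY : ∑' b, ΛY b * (hY b : ℝ≥0∞) ≠ ⊤)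
    (apX : ∀ L L' x a, TX (L ++ L') x a = TX L x a ∪ TX L' (x + DG zX L) (a + HT hX L))
    (apY : ∀ L L' x a, TY (L ++ L') x a = TY L x a ∪ TY L' (x + DG zY L) (a + HT hY L))
    (trX : ∀ L x y a (q : G × ℕ), q ∈ TX L (x + y) a ↔ (q.1 - x, q.2) ∈ TX L y a)
    (trY : ∀ L x y a (q : G × ℕ), q ∈ TY L (x + y) a ↔ (q.1 - x, q.2) ∈ TY L y a)
    (rgX : ∀ L x a (q : G × ℕ), q ∈ TX L x a → a ≤ q.2 ∧ q.2 ≤ a + HT hX L)
    (rgY : ∀ L x a (q : G × ℕ), q ∈ TY L x a → a ≤ q.2 ∧ q.2 ≤ a + HT hY L)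
    (us : ℕ → ℕ → ℝ≥0∞) (hus : ∀ g, Tendsto (us g) atTop (nhds 0)) (C : ℝ≥0∞) (hC : C ≠ ⊤)
    (H2 : ∀ (g s h h' a a' lo : ℕ) (E : Finset G) (μ : G → ℝ≥0∞) (M lam : ℝ≥0∞),
      ∑' x, μ x ≤ 1 → (∀ x, μ x ≤ M) → lam ≠ 0 → lam ≠ ⊤ → a ≤ a' + g → a' ≤ a + g →
      a + s ≤ lo → a' + s ≤ lo →
      ∑' x, μ x * (∑' L : List BX, ∑' L' : List BY, if HT hX L = h ∧
        DG zX L ∈ E ∧ HT hY L' = h' ∧
        (∃ z k, (z, k) ∈ TX L 0 a ∧ (z, k) ∈ TY L' x a') ∧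
        (∀ z k, (z, k) ∈ TX L 0 a → (z, k) ∈ TY L' x a' → lo ≤ k)
        then LW ΛX L * LW ΛY L' else 0)
      ≤ C * (lam + M * E.card * us g s / lam + us g s))
    (H3 : ∀ (g s h h' a a' hi : ℕ) (E : Finset G) (μ : G → ℝ≥0∞) (M lam : ℝ≥0∞),
      ∑' x, μ x ≤ 1 → (∀ x, μ x ≤ M) → lam ≠ 0 → lam ≠ ⊤ → a + h ≤ a' + h' + g →
      a' + h' ≤ a + h + g → hi + s ≤ a + h → hi + s ≤ a' + h' →
      ∑' x, μ x * (∑' L : List BX, ∑' L' : List BY, if HT hX L = h ∧ HT hY L' = h' ∧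
        DG zY L' ∈ E ∧
        (∃ z k, (z, k) ∈ TX L 0 a ∧ (z, k) ∈ TY L' x a') ∧
        (∀ z k, (z, k) ∈ TX L 0 a → (z, k) ∈ TY L' x a' → k ≤ hi)
        then LW ΛX L * LW ΛY L' else 0)
      ≤ C * (lam + M * E.card * us g s / lam + us g s))
    (Wok : G → Prop)
    (H5 : ∀ s : ℕ, ∀ η : ℝ≥0∞, η ≠ 0 → ∃ T : ℕ, ∀ a, T ≤ a → ∀ n, ∀ w, Wok w →
      PD ΛX hX ΛY hY n (fun LX LY => ∃ z k, a ≤ k ∧ k < a + s ∧ (z, k) ∈ TX LX 0 0 ∧
        (z, k) ∈ TY LY w 0) ≤ η) :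
    ∀ ε : ℝ≥0∞, ε ≠ 0 → ∃ M : ℕ, ∀ m, M ≤ m → ∃ N : ℕ, ∀ n, N ≤ n → ∀ w : G, Wok w →
      PD ΛX hX ΛY hY n (fun LX LY => ∃ z k, m < k ∧ k ≤ 2 * m ∧ (z, k) ∈ TX LX 0 0 ∧
        (z, k) ∈ TY LY w 0) ≤ ε := by
  intro ε hε
  -- constants
  set ov : ℕ → ℝ≥0∞ := fun i => ep ΛX hX i + ep ΛY hY i with hov
  have hov0 : Tendsto ov atTop (nhds 0) := by
    have := (ep_tendsto ΛX hX hΛX hEX).add (ep_tendsto ΛY hY hΛY hEY)
    simpa using this
  obtain ⟨K, u, i0, lam, η, -, hK2, hu0, hu1, hi1, hlam0, hlamt, hη0, hall⟩ :=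
    NumK658.choose_all ov hov0 (2 * C) (ENNReal.mul_ne_top (by simp) hC) ε hε 2
  obtain ⟨s, hs⟩ : ∃ s, us (2 * i0) s ≤ η :=
    ((hus (2 * i0)).eventually (ge_mem_nhds (pos_iff_ne_zero.2 hη0))).exists
  obtain ⟨T5, hT5⟩ := H5 (s + 2 * i0 + 1) (η / 2) (by simp [ENNReal.div_eq_zero_iff, hη0])
  set J := (K - 1) / 4 with hJ
  refine ⟨K * (K + i0 + s + T5 + s + 2), fun m hm => ?_⟩
  set t := m / K + 1 with ht
  have hK0 : 0 < K := by omega
  have htm : K + i0 + s + T5 + s + 2 ≤ m / K := (Nat.le_div_iff_mul_le hK0).2 (by linarith [mul_comm K (K + i0 + s + T5 + s + 2)])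
  have hmt : m < K * t := by
    have := Nat.lt_mul_div_succ m hK0
    simpa [ht] using this
  have hmt2 : K * (t - 1) ≤ m := by
    have := Nat.mul_div_le m K
    simpa [ht] using this
  refine ⟨m + K * t + 3 * t + i0, fun n hn w hw => ?_⟩
  -- thresholds
  obtain ⟨tX, htX, huX, hvX⟩ := quant2 (pl ΛX hX zX (3 * t)) (pl_sum ΛX hX zX h1X hΛX (3 * t)) u hu0 hu1
  obtain ⟨tY, htY, huY, hvY⟩ := quant2 (pl ΛY hY zY (3 * t)) (pl_sum ΛY hY zY h1Y hΛY (3 * t)) u hu0 hu1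
  set C2 : ℝ≥0∞ := C * (lam + (2 * (i0 + 1) / u) * η / lam + η) with hC2
  have hbd : ∀ (tt c : ℝ≥0∞), tt * c ≤ 1 →
      C * (lam + (∑ j ∈ Finset.range J, (1 - u) ^ j) * (((i0 + 1 : ℕ) : ℝ≥0∞) * (2 * tt)) * c
        * us (2 * i0) s / lam + us (2 * i0) s) ≤ C2 := by
    intro tt c hc
    have := mass_card u tt hu1.le i0 J c hc
    refine mul_le_mul_right (add_le_add (add_le_add le_rfl ?_) hs) C
    exact ENNReal.div_le_div_right (mul_le_mul' this hs) lam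
  -- the union over the windows
  have hwin : ∀ j < K, PD ΛX hX ΛY hY n (fun LX LY => ∃ z k, m + j * t < k ∧ k ≤ m + (j + 1) * t ∧
      (z, k) ∈ TX LX 0 0 ∧ (z, k) ∈ TY LY w 0) ≤ ε / (K + 1) := by
    intro j hj
    obtain ⟨a, ha⟩ : ∃ a, a = m + j * t - t := ⟨_, rfl⟩
    have h3 : t ≤ m := by
      have : t ≤ K * (t - 1) := by
        have h5 : 2 * (t - 1) ≤ K * (t - 1) := Nat.mul_le_mul_right _ hK2
        omega
      omega
    have hat : a + t = m + j * t := by omega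
    have hjt : j * t + t ≤ K * t := by
      have : (j + 1) * t ≤ K * t := Nat.mul_le_mul_right _ hj
      have e : (j + 1) * t = j * t + t := by ring
      omega
    have hat2 : a + 2 * t = m + (j + 1) * t := by
      have e : (j + 1) * t = j * t + t := by ring
      omega
    have haJ : (3 * t + i0) * J ≤ a := by
      have h4 : 4 * J ≤ K - 1 := by omega
      -- (3t + i0) J ≤ 4 (t - 1) J ≤ (K - 1) (t - 1) ≤ m - (t - 1) 
      rcases Nat.eq_zero_or_pos J with h0 | h0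
      · rw [h0, mul_zero]; exact Nat.zero_le _
      · have e1 : (3 * t + i0) * J + K * J ≤ 4 * t * J := by
          have : 3 * t + i0 + K ≤ 4 * t := by omega
          calc (3 * t + i0) * J + K * J = (3 * t + i0 + K) * J := by ring
            _ ≤ _ := Nat.mul_le_mul_right _ this
        have e2 : 4 * t * J ≤ (K - 1) * t := by
          calc 4 * t * J = (4 * J) * t := by ring
            _ ≤ _ := Nat.mul_le_mul_right _ h4
        have e3 : K * 1 ≤ K * J := Nat.mul_le_mul_left _ h0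
        have e4 : (K - 1) * t + t = K * t := by
          have : K - 1 + 1 = K := by omega
          calc (K - 1) * t + t = (K - 1 + 1) * t := by ring
            _ = _ := by rw [this]
        have e5 : K * (t - 1) + K = K * t := by
          have : t - 1 + 1 = t := by omega
          calc K * (t - 1) + K = K * (t - 1 + 1) := by ring
            _ = _ := by rw [this]
        omega
    have haT : T5 ≤ a := by
      have h5 : t + T5 ≤ m := by
        have h6 : 2 * (t - 1) ≤ K * (t - 1) := Nat.mul_le_mul_right _ hK2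
        omega
      omega
    have haT2 : T5 ≤ a + 3 * t - s := by omega
    have hwd := window (ΛX := ΛX) (hX := hX) (ΛY := ΛY) (hY := hY) (zX := zX) (zY := zY)
      (TX := TX) (TY := TY) h1X hΛX h1Y hΛY apX apY trX trY rgX rgY t i0 s J a n tX tY u (1 - u) C2
      htX htY (by omega) (by
        have : a + t = m + j * t := hat
        omega) haJ w huX huY hvX hvY (by
        intro i hi i' hi' jj hjj jj' hjj' E μ hμ1 hμ2 hE
        refine le_trans (ENNReal.tsum_le_tsum fun x => mul_le_mul_right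
          (ENNReal.tsum_le_tsum fun L => ENNReal.tsum_le_tsum fun L' => ?_) _)
          ((H2 (2 * i0) s (3 * t + jj) (3 * t + jj') (a + i) (a + i') (a + i0 + s) E μ _ lam hμ1 hμ2
            hlam0 hlamt (by omega) (by omega) (by omega) (by omega)).trans (hbd tX E.card hE))
        by_cases h : HT hX L = 3 * t + jj ∧ HT hY L' = 3 * t + jj' ∧
          (EV TX TY a i0 s (3 * t) i i' x L L' ∧ DG zX L ∈ E)
        · rw [if_pos h, if_pos]
          refine ⟨h.1, h.2.2.2, h.2.1, ?_, ?_⟩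
          · obtain ⟨q, hq1, hq2⟩ := h.2.2.1.1
            exact ⟨q.1, q.2, hq1, hq2⟩
          · intro z k h1 h2
            exact h.2.2.1.2.1 (z, k) h1 h2
        · rw [if_neg h]; exact zero_le) (by
        intro i hi i' hi' jj hjj jj' hjj' E μ hμ1 hμ2 hE
        refine le_trans (ENNReal.tsum_le_tsum fun x => mul_le_mul_right
          (ENNReal.tsum_le_tsum fun L => ENNReal.tsum_le_tsum fun L' => ?_) _)
          ((H3 (2 * i0) s (3 * t + jj) (3 * t + jj') (a + i) (a + i') (a + 3 * t - s) E μ _ lam hμ1 hμ2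
            hlam0 hlamt (by omega) (by omega) (by omega) (by omega)).trans (hbd tY E.card hE))
        by_cases h : HT hX L = 3 * t + jj ∧ HT hY L' = 3 * t + jj' ∧
          (EV TX TY a i0 s (3 * t) i i' x L L' ∧ DG zY L' ∈ E)
        · rw [if_pos h, if_pos]
          refine ⟨h.1, h.2.1, h.2.2.2, ?_, ?_⟩
          · obtain ⟨q, hq1, hq2⟩ := h.2.2.1.1
            exact ⟨q.1, q.2, hq1, hq2⟩
          · intro z k h1 h2
            exact h.2.2.1.2.2 (z, k) h1 h2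
        · rw [if_neg h]; exact zero_le)
    have hwd2 : PD ΛX hX ΛY hY n (fun LX LY =>
      (∃ q : G × ℕ, a + t < q.2 ∧ q.2 ≤ a + 2 * t ∧ q ∈ TX LX 0 0 ∧ q ∈ TY LY w 0) ∧
        (∀ q : G × ℕ, q ∈ TX LX 0 0 → q ∈ TY LY w 0 → ¬ (a ≤ q.2 ∧ q.2 < a + (s + 2 * i0 + 1))) ∧
        (∀ q : G × ℕ, q ∈ TX LX 0 0 → q ∈ TY LY w 0 →
          ¬ (a + 3 * t - s ≤ q.2 ∧ q.2 < a + 3 * t - s + (s + 2 * i0 + 1))))
      ≤ 2 * ep ΛX hX i0 + 2 * ep ΛY hY i0 + u ^ 2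
      + (((1 - u) ^ J + (∑ j ∈ Finset.range J, (1 - u) ^ j) * ep ΛX hX i0)
      + ((i0 + 1 : ℕ) : ℝ≥0∞) * (i0 + 1 : ℕ) * (((i0 + 1 : ℕ) : ℝ≥0∞) * (i0 + 1 : ℕ) * C2))
      + (((1 - u) ^ J + (∑ j ∈ Finset.range J, (1 - u) ^ j) * ep ΛY hY i0)
      + ((i0 + 1 : ℕ) : ℝ≥0∞) * (i0 + 1 : ℕ) * (((i0 + 1 : ℕ) : ℝ≥0∞) * (i0 + 1 : ℕ) * C2)) := by
      rw [PD_eq]
      refine le_trans (le_of_eq ?_) hwd
      congr!
    have hsl1 := hT5 a haT n w hw
    have hsl2 := hT5 (a + 3 * t - s) haT2 n w hw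
    refine (PD_or n _ (fun LX LY => ∃ z k, a ≤ k ∧ k < a + (s + 2 * i0 + 1) ∧ (z, k) ∈ TX LX 0 0 ∧
        (z, k) ∈ TY LY w 0) (fun LX LY =>
        (∃ z k, m + j * t < k ∧ k ≤ m + (j + 1) * t ∧ (z, k) ∈ TX LX 0 0 ∧ (z, k) ∈ TY LY w 0) ∧
        ¬ (∃ z k, a ≤ k ∧ k < a + (s + 2 * i0 + 1) ∧ (z, k) ∈ TX LX 0 0 ∧
        (z, k) ∈ TY LY w 0)) (fun LX LY h => by tauto)).trans ?_
    refine (add_le_add hsl1 (PD_or n _ (fun LX LY => ∃ z k, a + 3 * t - s ≤ k ∧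
        k < a + 3 * t - s + (s + 2 * i0 + 1) ∧ (z, k) ∈ TX LX 0 0 ∧
        (z, k) ∈ TY LY w 0) (fun LX LY =>
      (∃ q : G × ℕ, a + t < q.2 ∧ q.2 ≤ a + 2 * t ∧ q ∈ TX LX 0 0 ∧ q ∈ TY LY w 0) ∧
        (∀ q : G × ℕ, q ∈ TX LX 0 0 → q ∈ TY LY w 0 → ¬ (a ≤ q.2 ∧ q.2 < a + (s + 2 * i0 + 1))) ∧
        (∀ q : G × ℕ, q ∈ TX LX 0 0 → q ∈ TY LY w 0 →
          ¬ (a + 3 * t - s ≤ q.2 ∧ q.2 < a + 3 * t - s + (s + 2 * i0 + 1))))
        (fun LX LY h => by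
          by_cases hc : ∃ z k, a + 3 * t - s ≤ k ∧
            k < a + 3 * t - s + (s + 2 * i0 + 1) ∧ (z, k) ∈ TX LX 0 0 ∧ (z, k) ∈ TY LY w 0
          · exact Or.inl hc
          · refine Or.inr ⟨?_, ?_, ?_⟩
            · obtain ⟨z, k, h1, h2, h3, h4⟩ := h.1
              exact ⟨(z, k), by simp only; omega, by simp only; omega, h3, h4⟩
            · intro q h1 h2 h3
              exact h.2 ⟨q.1, q.2, h3.1, h3.2, h1, h2⟩
            · intro q h1 h2 h3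
              exact hc ⟨q.1, q.2, h3.1, h3.2, h1, h2⟩))).trans ?_
    refine (add_le_add le_rfl (add_le_add hsl2 hwd2)).trans ?_
    refine le_trans ?_ hall
    have hgJ := geo_le' u J
    have hi4 : ((i0 + 1 : ℕ) : ℝ≥0∞) * (i0 + 1 : ℕ) * (((i0 + 1 : ℕ) : ℝ≥0∞) * (i0 + 1 : ℕ) * C2)
        = ((i0 : ℝ≥0∞) + 1) ^ 4 * C2 := by push_cast; ring
    rw [hi4]
    have hη2 : η / 2 + η / 2 = η := ENNReal.add_halves η
    have hX' : (∑ j ∈ Finset.range J, (1 - u) ^ j) * ep ΛX hX i0 ≤ J * ep ΛX hX i0 :=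
      mul_le_mul_left hgJ _
    have hY' : (∑ j ∈ Finset.range J, (1 - u) ^ j) * ep ΛY hY i0 ≤ J * ep ΛY hY i0 :=
      mul_le_mul_left hgJ _
    calc _ = (η / 2 + η / 2) + (2 * ep ΛX hX i0 + 2 * ep ΛY hY i0 + u ^ 2
        + (((1 - u) ^ J + (∑ j ∈ Finset.range J, (1 - u) ^ j) * ep ΛX hX i0) + ((i0 : ℝ≥0∞) + 1) ^ 4 * C2)
        + (((1 - u) ^ J + (∑ j ∈ Finset.range J, (1 - u) ^ j) * ep ΛY hY i0) + ((i0 : ℝ≥0∞) + 1) ^ 4 * C2)) := by
          ring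
      _ ≤ η + (2 * ep ΛX hX i0 + 2 * ep ΛY hY i0 + u ^ 2
        + (((1 - u) ^ J + J * ep ΛX hX i0) + ((i0 : ℝ≥0∞) + 1) ^ 4 * C2)
        + (((1 - u) ^ J + J * ep ΛY hY i0) + ((i0 : ℝ≥0∞) + 1) ^ 4 * C2)) := by
          rw [hη2]
          gcongr
      _ ≤ _ := by
          have e1 : ((i0 : ℝ≥0∞) + 1) ^ 4 * C2 + ((i0 : ℝ≥0∞) + 1) ^ 4 * C2
              = (i0 + 1) ^ 4 * (2 * C * (lam + (2 * (i0 + 1) / u) * η / lam + η)) := by
            rw [hC2]; ring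
          calc _ = 2 * (ep ΛX hX i0 + ep ΛY hY i0) + η + (2 * (1 - u) ^ J + J * (ep ΛX hX i0 + ep ΛY hY i0))
                + u ^ 2 + (((i0 : ℝ≥0∞) + 1) ^ 4 * C2 + ((i0 : ℝ≥0∞) + 1) ^ 4 * C2) := by ring
            _ ≤ _ := by
                rw [e1]
                refine add_le_add (add_le_add (add_le_add (add_le_add ?_ (le_refl η)) ?_) (le_refl (u ^ 2))) (le_refl _)
                · have h24 : (2 : ℝ≥0∞) ≤ 4 := by norm_num
                  exact mul_le_mul_left h24 _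
                · have h12 : (1 : ℝ≥0∞) ≤ 2 := by norm_num
                  calc 2 * (1 - u) ^ J + (J : ℝ≥0∞) * (ep ΛX hX i0 + ep ΛY hY i0)
                      ≤ 2 * (1 - u) ^ J + 2 * ((J : ℝ≥0∞) * (ep ΛX hX i0 + ep ΛY hY i0)) :=
                        add_le_add (le_refl _) (le_mul_of_one_le_left' h12)
                    _ = 2 * ((1 - u) ^ J + (J : ℝ≥0∞) * (ep ΛX hX i0 + ep ΛY hY i0)) :=
                        (mul_add _ _ _).symm
  refine le_trans ?_ ((PD_union n (fun j LX LY => ∃ z k, m + j * t < k ∧ k ≤ m + (j + 1) * t ∧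
      (z, k) ∈ TX LX 0 0 ∧ (z, k) ∈ TY LY w 0) (ε / (K + 1)) K hwin).trans ?_)
  · unfold PD
    refine ENNReal.tsum_le_tsum fun LX => ENNReal.tsum_le_tsum fun LY => ?_
    by_cases h : HT hX LX = n ∧ HT hY LY = n ∧
      (∃ z k, m < k ∧ k ≤ 2 * m ∧ (z, k) ∈ TX LX 0 0 ∧ (z, k) ∈ TY LY w 0)
    · rw [if_pos h, if_pos]
      obtain ⟨h1, h2, z, k, h3, h4, h5, h6⟩ := h
      refine ⟨h1, h2, (k - m - 1) / t, ?_, z, k, ?_, ?_, h5, h6⟩
      · rw [Nat.div_lt_iff_lt_mul (by omega)]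
        omega
      · have := Nat.div_mul_le_self (k - m - 1) t
        omega
      · have := Nat.lt_div_mul_add (a := k - m - 1) (b := t) (by omega)
        have e : ((k - m - 1) / t + 1) * t = (k - m - 1) / t * t + t := by ring
        omega
    · rw [if_neg h]; exact zero_le
  · calc (K : ℝ≥0∞) * (ε / (K + 1)) ≤ (K + 1) * (ε / (K + 1)) := by gcongr; exact le_self_add
      _ ≤ ε := ENNReal.mul_div_le

end Crest.Agent.R154.Win278
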