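import Crest.Agent.R154.WinD_706
import Crest.Agent.R154.Dens_616

/-! Row 154, ROAD 801, assembly (helper706): the local data of one walker, and the numbers. -/

set_option autoImplicit false
set_option linter.unusedSectionVars false
set_option maxHeartbeats 1000000

namespace Crest.Agent.R154.WinE706

open scoped ENNReal
open Crest.Agent.R154.B5A Crest.Agent.R154.FP178 Crest.Agent.R154.DensFP706
open Crest.Agent.R154.WinA706 Crest.Agent.R154.WinB706 Crest.Agent.R154.WinC706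
open Crest.Agent.R154.WinD706

variable {B G : Type*} [AddCommGroup G] (Λ : B → ℝ≥0∞) (ht : B → ℕ) (z : B → G)

open Classical in
theorem sum_FP_eq (h1 : ∀ b, 1 ≤ ht b) (hΛ : ∑' b, Λ b = 1) (a : ℕ) :
    ∑' L, (if fp ht a L then LW Λ L else 0) = 1 := by
  induction a using Nat.strong_induction_on with
  | _ a ih =>
    rcases Nat.eq_zero_or_pos a with rfl | ha
    · have := sum_fp_zero Λ ht (fun _ => 1)
      simp only [mul_one] at this
      exact this
    · have := sum_fp_step Λ ht a ha (fun _ => 1)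
      simp only [mul_one] at this
      rw [this]
      calc ∑' b, Λ b * ∑' L, (if fp ht (a - ht b) L then LW Λ L else 0)
          = ∑' b, Λ b * 1 := by
            refine tsum_congr fun b => ?_
            rw [ih (a - ht b) (by have := h1 b; omega)]
        _ = 1 := by simpa using hΛ

open Classical in
lemma pp_total (h1 : ∀ b, 1 ≤ ht b) (hΛ : ∑' b, Λ b = 1) (T : ℕ) :
    ∑' q : ℕ × G, pp Λ ht z T q.1 q.2 = 1 := by
  rw [ENNReal.tsum_prod']
  have := fiber Λ ht z T (fun _ _ => 1)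
  simp only [mul_one] at this
  rw [← this]
  exact sum_FP_eq Λ ht h1 hΛ T

open Classical in
/-- **the local data** -/
theorem exists_loc (h1 : ∀ b, 1 ≤ ht b) (hΛ : ∑' b, Λ b = 1) (hU1 : ∀ n, U Λ ht n ≤ 1)
    (T i0 J : ℕ) (u : ℝ≥0∞) (hu0 : u ≠ 0) (hu1 : u < 1) (α : ℕ) (hα : J * (T + i0) ≤ α) :
    ∃ (th M : ℝ≥0∞) (E : ℕ → Finset G) (b : ℕ → G → ℝ≥0∞),
      Loc Λ ht z α T i0 th M ((i0 + 1 : ℕ) / u) u ((1 - u) ^ J + J * ov Λ ht i0) E b := by
  have hut : u ≠ ⊤ := ne_top_of_lt hu1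
  set p : ℕ × G → ℝ≥0∞ := fun q => pp Λ ht z T q.1 q.2 with hp
  have hp1 : ∑' q, p q = 1 := pp_total Λ ht z h1 hΛ T
  obtain ⟨th, ht0, ht1, hlow, hup⟩ := Dens616.quantile p hp1 hu0 hu1
  have htt : th ≠ ⊤ := ne_top_of_le_ne_top ENNReal.one_ne_top ht1
  have hfin : ∀ h, {x | th ≤ pp Λ ht z T h x}.Finite := by
    intro h
    refine Dens616.finite_local (fun x => pp Λ ht z T h x) ?_ ht0
    exact ne_top_of_le_ne_top ENNReal.one_ne_top (pp_sum_le Λ ht z h1 hΛ.le T h)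
  set M : ℝ≥0∞ := (i0 + 1 : ℕ) * th / u with hM
  have hq : ∑' h, ∑' x, (if (T ≤ h ∧ h ≤ T + i0) ∧ th < pp Λ ht z T h x then
      pp Λ ht z T h x else 0) ≤ 1 - u := by
    refine ENNReal.le_sub_of_add_le_right hut ?_
    calc ∑' h, ∑' x, (if (T ≤ h ∧ h ≤ T + i0) ∧ th < pp Λ ht z T h x then
          pp Λ ht z T h x else 0) + u
        ≤ (∑' q : ℕ × G, if th < p q then p q else 0) + ∑' q, (if p q ≤ th then p q else 0) := by
          gcongr
          rw [ENNReal.tsum_prod']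
          refine ENNReal.tsum_le_tsum fun h => ENNReal.tsum_le_tsum fun x => ?_
          by_cases hc : th < pp Λ ht z T h x
          · simp only [hp, hc, if_true]
            split_ifs <;> simp
          · rw [if_neg (fun h' => hc h'.2)]; exact zero_le
      _ = ∑' q, ((if th < p q then p q else 0) + (if p q ≤ th then p q else 0)) :=
          ENNReal.tsum_add.symm
      _ ≤ ∑' q, p q := by
          refine ENNReal.tsum_le_tsum fun q => ?_
          by_cases hc : th < p q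
          · rw [if_pos hc, if_neg (not_le.2 hc), add_zero]
          · rw [if_neg hc, if_pos (not_lt.1 hc), zero_add]
      _ = 1 := hp1
  have huM : u * M = (i0 + 1 : ℕ) * th := by
    rw [hM, ENNReal.mul_div_cancel hu0 hut]
  have hMt : M ≠ ⊤ := by
    rw [hM]
    exact ENNReal.div_ne_top (ENNReal.mul_ne_top (ENNReal.natCast_ne_top _) htt) hu0
  obtain ⟨b, hb, hff⟩ := dens Λ ht z h1 hΛ.le hU1 T i0 th (1 - u) M hq tsub_le_self (by
    rw [← huM, ← add_mul, add_tsub_cancel_of_le hu1.le, one_mul]) J α hα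
  refine ⟨th, M, fun h => (hfin h).toFinset, b, ⟨?_, ?_, ?_, hb, hff⟩⟩
  · intro h x hx
    simpa using hx
  · intro h _ _
    have hc : (((hfin h).toFinset.card : ℕ) : ℝ≥0∞) * th ≤ 1 := by
      refine (Dens616.card_mul_le (fun x => pp Λ ht z T h x) th _ ?_).trans
        (pp_sum_le Λ ht z h1 hΛ.le T h)
      intro x hx
      simpa using hx
    rw [hM, ENNReal.div_eq_inv_mul, ENNReal.div_eq_inv_mul]
    calc u⁻¹ * (((i0 + 1 : ℕ) : ℝ≥0∞) * th) * ((hfin h).toFinset.card : ℝ≥0∞)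
        = u⁻¹ * (((i0 + 1 : ℕ) : ℝ≥0∞) * (((hfin h).toFinset.card : ℝ≥0∞) * th)) := by ring
      _ ≤ u⁻¹ * (((i0 + 1 : ℕ) : ℝ≥0∞) * 1) := by gcongr
      _ = _ := by rw [mul_one]
  · refine le_trans ?_ hlow
    rw [ENNReal.tsum_prod']
    calc ∑' σ, (wf Λ ht T i0 σ * if th ≤ pp Λ ht z T (HT ht σ) (Dp z σ) then 0 else 1)
        ≤ ∑' σ, (if fp ht T σ then LW Λ σ * (fun h x => if th ≤ pp Λ ht z T h x then
            (0 : ℝ≥0∞) else 1) (HT ht σ) (Dp z σ) else 0) := by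
          refine ENNReal.tsum_le_tsum fun σ => ?_
          unfold wf
          by_cases h : fp ht T σ ∧ HT ht σ ≤ T + i0
          · rw [if_pos h, if_pos h.1]
          · rw [if_neg h, zero_mul]; exact zero_le
      _ = ∑' h, ∑' x, pp Λ ht z T h x * (if th ≤ pp Λ ht z T h x then (0 : ℝ≥0∞) else 1) :=
          fiber Λ ht z T (fun h x => if th ≤ pp Λ ht z T h x then (0 : ℝ≥0∞) else 1)
      _ ≤ _ := by
          refine ENNReal.tsum_le_tsum fun h => ENNReal.tsum_le_tsum fun x => ?_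
          by_cases hc : th ≤ pp Λ ht z T h x
          · rw [if_pos hc, mul_zero]; exact zero_le
          · rw [if_neg hc, mul_one]
            simp only [hp]
            rw [if_pos (not_le.1 hc)]

/-- the overshoot tail tends to zero -/
lemma ov_tendsto (hΛ : ∑' b, Λ b = 1) (hE : ∑' b, Λ b * (ht b : ℝ≥0∞) ≠ ⊤) :
    Filter.Tendsto (fun i0 => ov Λ ht i0) Filter.atTop (nhds 0) := by
  rw [sum_tail Λ ht hΛ] at hE
  have := ENNReal.tendsto_sum_nat_add (tail Λ ht) hE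
  refine this.congr fun i => ?_
  unfold ov
  exact tsum_congr fun k => by rw [add_comm]

/-- **numbers**: `4 J u² ≤ δ` and `8 J (1-u)^J ≤ δ` -/
lemma numbers (δ : ℝ≥0∞) (hδ : δ ≠ 0) : ∃ (J : ℕ) (u : ℝ≥0∞), 2 ≤ J ∧ u ≠ 0 ∧ u < 1 ∧
    (4 * J : ℕ) * (u * u) ≤ δ ∧ (8 * J : ℕ) * (1 - u) ^ J ≤ δ := by
  -- real target
  obtain ⟨r, hr0, hr⟩ : ∃ r : ℝ, 0 < r ∧ ENNReal.ofReal r ≤ δ := by
    rcases eq_or_ne δ ⊤ with rfl | h
    · exact ⟨1, one_pos, le_top⟩
    · exact ⟨δ.toReal, ENNReal.toReal_pos hδ h, (ENNReal.ofReal_toReal h).le⟩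
  have t1 : Filter.Tendsto (fun N : ℕ => 4 / (N : ℝ)) Filter.atTop (nhds 0) :=
    tendsto_const_div_atTop_nhds_zero_nat 4
  have t2 : Filter.Tendsto (fun N : ℕ => 8 * ((N : ℝ) ^ 3 * Real.exp (-(N : ℝ))))
      Filter.atTop (nhds 0) := by
    have := (Real.tendsto_pow_mul_exp_neg_atTop_nhds_zero 3).comp
      (tendsto_natCast_atTop_atTop (R := ℝ))
    simpa using this.const_mul 8
  obtain ⟨N, h1, h2, h3⟩ := ((t1.eventually (gt_mem_nhds hr0)).and
    ((t2.eventually (gt_mem_nhds hr0)).and (Filter.eventually_ge_atTop 2))).exists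
  have hN : (0 : ℝ) < N := by positivity
  have hN2 : (2 : ℝ) ≤ N := by exact_mod_cast h3
  have hu1 : 1 / (N : ℝ) ^ 2 < 1 := by
    rw [div_lt_one (by positivity)]
    nlinarith
  have hu0 : 0 < 1 / (N : ℝ) ^ 2 := by positivity
  refine ⟨N ^ 3, ENNReal.ofReal (1 / (N : ℝ) ^ 2), ?_, ?_, ?_, ?_, ?_⟩
  · calc 2 ≤ 2 ^ 3 := by norm_num
      _ ≤ N ^ 3 := Nat.pow_le_pow_left h3 3
  · exact (ENNReal.ofReal_pos.2 hu0).ne'
  · rw [← ENNReal.ofReal_one]
    exact (ENNReal.ofReal_lt_ofReal_iff one_pos).2 hu1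
  · refine le_trans ?_ hr
    rw [← ENNReal.ofReal_mul hu0.le, ← ENNReal.ofReal_natCast, ← ENNReal.ofReal_mul (by positivity)]
    refine ENNReal.ofReal_le_ofReal ?_
    have : ((4 * N ^ 3 : ℕ) : ℝ) * (1 / (N : ℝ) ^ 2 * (1 / (N : ℝ) ^ 2)) = 4 / N := by
      push_cast
      field_simp
    rw [this]
    exact h1.le
  · refine le_trans ?_ hr
    rw [← ENNReal.ofReal_one, ← ENNReal.ofReal_sub _ hu0.le, ← ENNReal.ofReal_pow (by linarith),
      ← ENNReal.ofReal_natCast, ← ENNReal.ofReal_mul (by positivity)]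
    refine ENNReal.ofReal_le_ofReal ?_
    have e1 : (1 - 1 / (N : ℝ) ^ 2) ^ (N ^ 3) ≤ Real.exp (-(N : ℝ)) := by
      calc (1 - 1 / (N : ℝ) ^ 2) ^ (N ^ 3) ≤ (Real.exp (-(1 / (N : ℝ) ^ 2))) ^ (N ^ 3) := by
            refine pow_le_pow_left₀ (by linarith) ?_ _
            have := Real.add_one_le_exp (-(1 / (N : ℝ) ^ 2))
            linarith
        _ = Real.exp (-(N : ℝ)) := by
            rw [← Real.exp_nat_mul]
            congr 1
            push_cast
            field_simp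
    calc ((8 * N ^ 3 : ℕ) : ℝ) * (1 - 1 / (N : ℝ) ^ 2) ^ (N ^ 3)
        ≤ ((8 * N ^ 3 : ℕ) : ℝ) * Real.exp (-(N : ℝ)) := by gcongr
      _ = 8 * ((N : ℝ) ^ 3 * Real.exp (-(N : ℝ))) := by push_cast; ring
      _ ≤ r := h2.le

end Crest.Agent.R154.WinE706
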