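import Crest.Agent.R154.WinK_267

/-! Row 154, ROAD 801 (helper267): KAPPA' in list letters, final composition. -/

set_option autoImplicit false

namespace Crest.Agent.R154.Win267

open scoped ENNReal Topology
open Filter
open Crest.Agent.R154.B5A

section F
variable {BX BY G : Type*} [AddCommGroup G]
variable (ΛX : BX → ℝ≥0∞) (hX : BX → ℕ) (zX : BX → G) (sX : BX → Set (G × ℕ))
variable (ΛY : BY → ℝ≥0∞) (hY : BY → ℕ) (zY : BY → G) (sY : BY → Set (G × ℕ))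
variable (Lt : G → Prop)

/-- slab lemma, list form -/
def HSL : Prop :=
  ∀ (r : ℕ) (η : ℝ≥0∞), η ≠ 0 → ∃ T0 : ℕ, ∀ a, T0 ≤ a → ∀ n, ∀ w : G, Lt w →
    ∑' L, ∑' L', ind (HT hX L = n ∧ HT hY L' = n ∧ ∃ z k, a ≤ k ∧ k < a + r ∧
      (z, k) ∈ TT zX hX sX L 0 0 ∧ (z, k) ∈ TT zY hY sY L' w 0) * (LW ΛX L * LW ΛY L') ≤ η

/-- the total event: first contact in `(m, 2m]` -/
def EvT (m : ℕ) (w : G) (L : List BX) (L' : List BY) : Prop :=
  (∀ z k, (z, k) ∈ TT zX hX sX L 0 0 → (z, k) ∈ TT zY hY sY L' w 0 → m < k) ∧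
  ∃ z k, (z, k) ∈ TT zX hX sX L 0 0 ∧ (z, k) ∈ TT zY hY sY L' w 0 ∧ k ≤ 2 * m

/-- covering by windows -/
lemma cover (m t s i0 W : ℕ) (ht : 0 < t) (hW : m ≤ W * t) (hmt : t ≤ m) (w : G)
    (L : List BX) (L' : List BY) (h : EvT hX zX sX hY zY sY m w L L') :
    ∃ q ∈ Finset.range W,
      EvW hX zX sX hY zY sY ((m + q * t - t) + t) t ((m + q * t - t) + 3 * t - s)
        ((m + q * t - t) + 3 * t + 2 * i0) w L L' ∨
      ∃ z k, (m + q * t - t) + 3 * t - s ≤ k ∧ k < (m + q * t - t) + 3 * t - s + (s + 2 * i0 + 1) ∧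
        (z, k) ∈ TT zX hX sX L 0 0 ∧ (z, k) ∈ TT zY hY sY L' w 0 := by
  classical
  obtain ⟨hall, z, k, h1, h2, h3⟩ := h
  have hex : ∃ k, ∃ z, (z, k) ∈ TT zX hX sX L 0 0 ∧ (z, k) ∈ TT zY hY sY L' w 0 := ⟨k, z, h1, h2⟩
  set k0 := Nat.find hex with hk0
  obtain ⟨z0, g1, g2⟩ := Nat.find_spec hex
  have hmin : ∀ k', (∃ z, (z, k') ∈ TT zX hX sX L 0 0 ∧ (z, k') ∈ TT zY hY sY L' w 0) → k0 ≤ k' :=
    fun k' hk' => Nat.find_min' hex hk'
  have hkk : k0 ≤ k := hmin k ⟨z, h1, h2⟩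
  have hm0 : m < k0 := hall z0 k0 g1 g2
  set q := (k0 - m - 1) / t with hq
  have q1 : q * t ≤ k0 - m - 1 := Nat.div_mul_le_self _ _
  have q2 : k0 - m - 1 < (q + 1) * t := by
    have := Nat.lt_div_mul_add (a := k0 - m - 1) ht
    rw [add_mul, one_mul]; exact this
  have q2' : k0 - m - 1 < q * t + t := by rw [add_mul, one_mul] at q2; exact q2
  refine ⟨q, ?_, ?_⟩
  · rw [Finset.mem_range]
    by_contra hlt
    have : W * t ≤ q * t := Nat.mul_le_mul_right t (not_lt.1 hlt)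
    omega
  · by_cases hs : ∃ z k, (m + q * t - t) + 3 * t - s ≤ k ∧
      k < (m + q * t - t) + 3 * t - s + (s + 2 * i0 + 1) ∧
        (z, k) ∈ TT zX hX sX L 0 0 ∧ (z, k) ∈ TT zY hY sY L' w 0
    · exact Or.inr hs
    · refine Or.inl ⟨⟨z0, k0, by omega, by omega, g1, g2⟩, ?_, ?_⟩
      · intro z' k' c1 c2
        have := hmin k' ⟨z', c1, c2⟩
        omega
      · intro z' k' c1 c2 c3 c4
        exact hs ⟨z', k', c3, by omega, c1, c2⟩

/-- **KAPPA' in list letters** -/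
theorem kapL (hX1 : ∀ b, 1 ≤ hX b) (hY1 : ∀ b, 1 ≤ hY b)
    (c : ℝ≥0∞) (hc : c ≠ 0) (hcX : ∀ n, c ≤ U ΛX hX n) (hcY : ∀ n, c ≤ U ΛY hY n)
    (hUX : ∀ n, U ΛX hX n ≤ 1) (hUY : ∀ n, U ΛY hY n ≤ 1)
    (hsX : ∀ b p k, (p, k) ∈ sX b → 1 ≤ k ∧ k ≤ hX b)
    (hsY : ∀ b p k, (p, k) ∈ sY b → 1 ≤ k ∧ k ≤ hY b)
    (hLt : ∀ w (L : List BX) (L' : List BY), Lt w → Lt (w + Dp zY L' - Dp zX L))
    (C : ℝ≥0∞) (hC : C ≠ ⊤) (us : ℕ → ℝ≥0∞) (hus : Tendsto us atTop (𝓝 0))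
    (H2 : H2L ΛX hX zX sX ΛY hY zY sY Lt C us) (H3 : H3L ΛX hX zX sX ΛY hY zY sY Lt C us)
    (HS : HSL ΛX hX zX sX ΛY hY zY sY Lt) :
    ∀ ε : ℝ≥0∞, ε ≠ 0 → ∃ M : ℕ, ∀ m, M ≤ m → ∃ n0 : ℕ, ∀ n, n0 ≤ n → ∀ w, Lt w →
      ∑' L, ∑' L', ind (HT hX L = n ∧ HT hY L' = n ∧ EvT hX zX sX hY zY sY m w L L')
        * (LW ΛX L * LW ΛY L') ≤ ε := by
  intro ε hε
  have hΛX : ∑' b, ΛX b = 1 :=
    le_antisymm (mass_le_one ΛX hX hX1 hUX) (mass_ge_one ΛX hX c hc 0 fun n _ => hcX n)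
  have hΛY : ∑' b, ΛY b = 1 :=
    le_antisymm (mass_le_one ΛY hY hY1 hUY) (mass_ge_one ΛY hY c hc 0 fun n _ => hcY n)
  set ep : ℕ → ℝ≥0∞ := fun i => 2 * (LD460.eps1 ΛX hX i + LD460.eps1 ΛY hY i) with hepd
  have hept : Tendsto ep atTop (𝓝 0) := by
    have a1 := LD460.eps1_tendsto ΛX hX hX1 c hc 0 (fun n _ => hcX n) hUX
    have a2 := LD460.eps1_tendsto ΛY hY hY1 c hc 0 (fun n _ => hcY n) hUY
    have a3 := a1.add a2
    have a4 := ENNReal.Tendsto.const_mul (a := 2) a3 (Or.inr (by norm_num))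
    simpa using a4
  -- constants
  set ε1 : ℝ≥0∞ := min (ε / 2 / 40) (1 / 2) with hε1
  have hε10 : ε1 ≠ 0 := by
    rw [hε1]
    refine (lt_min ?_ (by norm_num)).ne'
    exact ENNReal.div_pos (ENNReal.div_pos hε (by norm_num)).ne' (by norm_num)
  obtain ⟨K, u, hK, hu0, hu1, i0, lam, s, hl0, hlt, _, hepu, hbig⟩ :=
    Num869.choose' us ep hus hept C hC 4 ε1 hε10
  have hK' : (1 : ℝ≥0∞) ≤ K := by exact_mod_cast hK
  have hu1' : u < 1 := by
    rcases hu1.lt_or_eq with h | h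
    · exact h
    · exfalso
      have : (1 : ℝ≥0∞) ≤ ε1 := by
        refine le_trans ?_ hbig
        rw [h]
        calc (1 : ℝ≥0∞) = 1 * 1 ^ 2 := by norm_num
          _ ≤ K * (1 + ep i0) ^ 2 := mul_le_mul' hK' (pow_le_pow_left' le_self_add 2)
          _ ≤ _ := mul_le_mul_right (le_trans le_self_add le_self_add) _
      have h2 : ε1 ≤ 1 / 2 := min_le_right _ _
      have h3 := this.trans h2
      have : (1 : ℝ≥0∞) / 2 < 1 := by
        rw [one_div]; exact ENNReal.inv_lt_one.2 (by norm_num)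
      exact absurd h3 (not_le.2 this)
  set e : ℝ≥0∞ := LD460.eps1 ΛX hX i0 + LD460.eps1 ΛY hY i0 with he
  have heu : e ≤ u / 2 := by
    rw [ENNReal.le_div_iff_mul_le (Or.inl (by norm_num)) (Or.inl (by norm_num)), mul_comm]
    exact hepu
  set W : ℕ := 10 * K with hW
  obtain ⟨T0, hT0⟩ := HS (s + 2 * i0 + 1) (ε / 2 / W)
    (ENNReal.div_pos (ENNReal.div_pos hε (by norm_num)).ne' (ENNReal.natCast_ne_top _)).ne'
  refine ⟨5 * K * (s + 2 * i0 + 2) * 4 + T0 + 10 * K + s, fun m hm => ⟨20 * m + 3 * i0 + 2, fun n hn w hw => ?_⟩⟩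
  set t := m / (5 * K) with ht
  have hK0 : 0 < 5 * K := by omega
  have t1 : t * (5 * K) ≤ m := Nat.div_mul_le_self _ _
  have t2 : m < t * (5 * K) + 5 * K := Nat.lt_div_mul_add hK0
  have t3 : 4 * (s + 2 * i0 + 2) ≤ t := by
    rw [ht, Nat.le_div_iff_mul_le hK0]
    calc 4 * (s + 2 * i0 + 2) * (5 * K) = 5 * K * (s + 2 * i0 + 2) * 4 := by ring
      _ ≤ m := by omega
  have t4 : t ≤ t * (5 * K) := Nat.le_mul_of_pos_right _ hK0
  have hm10 : 10 * K ≤ m := by omega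
  have hWt : m ≤ W * t := by
    have : W * t = 2 * (t * (5 * K)) := by rw [hW]; ring
    rw [this]; omega
  have hWm : W * t ≤ 2 * m := by
    have : W * t = 2 * (t * (5 * K)) := by rw [hW]; ring
    rw [this]; omega
  have hJ0 : K * (3 * t + 2 * i0 + 1) ≤ m - t := by
    have k1 : K * (3 * t + 2 * i0 + 1) ≤ K * (4 * t) := Nat.mul_le_mul_left _ (by omega)
    have k2 : K * (4 * t) = 4 * (K * t) := by ring
    have k3 : t * (5 * K) = 5 * (K * t) := by ring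
    have k4 : t ≤ K * t := Nat.le_mul_of_pos_left _ (by omega)
    omega
  set D : ℝ≥0∞ := u ^ 2 + ((1 - u / 2) ^ K + (K + 1) * e) +
        ((i0 : ℝ≥0∞) + 1) ^ 4 * (C * (lam + (((i0 : ℝ≥0∞) + 1) / u) * us s / lam + us s)) with hD
  have hDK : K * D ≤ ε1 := by
    refine le_trans (mul_le_mul_right ?_ _) hbig
    rw [hD]
    refine add_le_add (add_le_add (pow_le_pow_left' le_self_add 2) (add_le_add le_rfl ?_)) le_rfl
    calc ((K : ℝ≥0∞) + 1) * e ≤ (K + K) * e := mul_le_mul_left (add_le_add le_rfl hK') _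
      _ = K * ep i0 := by simp only [hepd, he]; ring
  -- windows
  have hwin : ∀ q ∈ Finset.range W, ∑' L, ∑' L', ind (HT hX L = n ∧ HT hY L' = n ∧
        EvW hX zX sX hY zY sY ((m + q * t - t) + t) t ((m + q * t - t) + 3 * t - s)
        ((m + q * t - t) + 3 * t + 2 * i0) w L L') * (LW ΛX L * LW ΛY L') ≤ 4 * D := by
    intro q hq
    rw [Finset.mem_range] at hq
    have hqt : q * t ≤ W * t := Nat.mul_le_mul_right t hq.le
    exact one_window ΛX hX zX sX ΛY hY zY sY Lt hX1 hY1 hΛX hΛY hUX hUY hsX hsY hLt C us H2 H3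
      s i0 (m + q * t - t) t n K u lam e hu0 hu1' hl0 hlt le_rfl heu (by omega) (by omega)
      (by omega) w hw
  have hslab : ∀ q ∈ Finset.range W, ∑' L, ∑' L', ind (HT hX L = n ∧ HT hY L' = n ∧
        ∃ z k, (m + q * t - t) + 3 * t - s ≤ k ∧ k < (m + q * t - t) + 3 * t - s + (s + 2 * i0 + 1) ∧
        (z, k) ∈ TT zX hX sX L 0 0 ∧ (z, k) ∈ TT zY hY sY L' w 0) * (LW ΛX L * LW ΛY L')
        ≤ ε / 2 / W := by
    intro q _
    exact hT0 _ (by omega) n w hw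
  have hW0 : (W : ℝ≥0∞) ≠ 0 := by
    rw [hW]; exact_mod_cast (by omega : 10 * K ≠ 0)
  calc ∑' L, ∑' L', ind (HT hX L = n ∧ HT hY L' = n ∧ EvT hX zX sX hY zY sY m w L L')
        * (LW ΛX L * LW ΛY L')
      ≤ ∑' L, ∑' L', ∑ q ∈ Finset.range W,
        (ind (HT hX L = n ∧ HT hY L' = n ∧
          EvW hX zX sX hY zY sY ((m + q * t - t) + t) t ((m + q * t - t) + 3 * t - s)
          ((m + q * t - t) + 3 * t + 2 * i0) w L L') * (LW ΛX L * LW ΛY L') +
        ind (HT hX L = n ∧ HT hY L' = n ∧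
          ∃ z k, (m + q * t - t) + 3 * t - s ≤ k ∧
          k < (m + q * t - t) + 3 * t - s + (s + 2 * i0 + 1) ∧
          (z, k) ∈ TT zX hX sX L 0 0 ∧ (z, k) ∈ TT zY hY sY L' w 0) *
          (LW ΛX L * LW ΛY L')) := by
        refine ENNReal.tsum_le_tsum fun L => ENNReal.tsum_le_tsum fun L' => ?_
        by_cases h : HT hX L = n ∧ HT hY L' = n ∧ EvT hX zX sX hY zY sY m w L L'
        · obtain ⟨q, hq, hq'⟩ := cover hX zX sX hY zY sY m t s i0 W (by omega) hWt (by omega) w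
            L L' h.2.2
          refine le_trans ?_ (Finset.single_le_sum (f := fun q => _) (fun _ _ => zero_le) hq)
          rcases hq' with hq' | hq'
          · rw [ind_true h, ind_true (p := HT hX L = n ∧ HT hY L' = n ∧ EvW hX zX sX hY zY sY
              ((m + q * t - t) + t) t ((m + q * t - t) + 3 * t - s)
              ((m + q * t - t) + 3 * t + 2 * i0) w L L') ⟨h.1, h.2.1, hq'⟩]
            exact le_self_add
          · refine le_trans ?_ le_add_self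
            rw [ind_true h]
            refine mul_le_mul_left (le_of_eq (ind_true ⟨h.1, h.2.1, hq'⟩).symm) _
        · rw [ind_false h, zero_mul]; exact zero_le
    _ = ∑ q ∈ Finset.range W,
        ((∑' L, ∑' L', ind (HT hX L = n ∧ HT hY L' = n ∧
          EvW hX zX sX hY zY sY ((m + q * t - t) + t) t ((m + q * t - t) + 3 * t - s)
          ((m + q * t - t) + 3 * t + 2 * i0) w L L') * (LW ΛX L * LW ΛY L')) +
        ∑' L, ∑' L', ind (HT hX L = n ∧ HT hY L' = n ∧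
          ∃ z k, (m + q * t - t) + 3 * t - s ≤ k ∧
          k < (m + q * t - t) + 3 * t - s + (s + 2 * i0 + 1) ∧
          (z, k) ∈ TT zX hX sX L 0 0 ∧ (z, k) ∈ TT zY hY sY L' w 0) *
          (LW ΛX L * LW ΛY L')) := by
        simp only [← ENNReal.tsum_add]
        rw [← Summable.tsum_finsetSum (fun _ _ => ENNReal.summable)]
        refine tsum_congr fun L => ?_
        rw [Summable.tsum_finsetSum (fun _ _ => ENNReal.summable)]
    _ ≤ ∑ _q ∈ Finset.range W, (4 * D + ε / 2 / W) :=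
        Finset.sum_le_sum fun q hq => add_le_add (hwin q hq) (hslab q hq)
    _ = W * (4 * D) + W * (ε / 2 / W) := by
        rw [Finset.sum_const, Finset.card_range, nsmul_eq_mul, mul_add]
    _ ≤ ε / 2 + ε / 2 := by
        refine add_le_add ?_ (ENNReal.mul_div_le)
        calc (W : ℝ≥0∞) * (4 * D) = 40 * (K * D) := by rw [hW]; push_cast; ring
          _ ≤ 40 * ε1 := mul_le_mul_right hDK _
          _ ≤ 40 * (ε / 2 / 40) := mul_le_mul_right (min_le_left _ _) _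
          _ ≤ ε / 2 := ENNReal.mul_div_le
    _ = ε := ENNReal.add_halves ε

end F

end Crest.Agent.R154.Win267
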