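import Crest.Agent.R154.WinE_546

/-! Row 154, road 801 (helper546): order (3), Y explored and local, X stopped at its first site of Y;
dyadic classes of the weight. -/

set_option autoImplicit false

open MeasureTheory ProbabilityTheory Crest.ProbabilityR.RandomEnvironment
open scoped ENNReal Classical

namespace Crest.Agent.R154.Win546

open Flux566

variable {d : ℕ}

/-- pointwise bound, order (3), one class `C` (a property of prefixes of the stopped walker) -/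
lemma point3 (ω : Environment d) {XX YY : Set (List (Step d))} (hYY : PF YY)
    (E : Finset (Site d)) (Dp : Set (Site d)) (DY : Site d → Set (List (Step d)))
    (x : Site d) (hDY : ∀ p r, p ++ r ∈ YY → r ∈ DY (endp x p)) (TT : Set (List (Step d)))
    (hTT : ∀ p r, r ≠ [] → p ++ r ∈ XX → endp 0 p ∈ Dp → ∀ δ ∈ DY (endp 0 p), p ++ δ ∈ TT)
    (C : List (Step d) → Prop) {lam : ℝ≥0∞} (hl0 : lam ≠ 0) (hl1 : lam ≠ ⊤) :
    ∑' ρ, (if ρ ∈ YY ∧ endp 0 ρ ∈ E then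
        lw ω x ρ * ∑' p, (if p ∈ HH XX Dp 0 x ρ ∧ C p then lw ω 0 p else 0) else 0)
      ≤ lam * ∑' p, (if p ∈ Mn C then lw ω 0 p else 0)
        + lam⁻¹ * ∑' t, (if t ∈ TT ∧ endp 0 t - x ∈ E then lw ω 0 t else 0) := by
  set e : Site d → ℝ≥0∞ := fun v =>
    ∑' δ, (if δ ∈ DY v ∧ endp v δ - x ∈ E then lw ω v δ else 0) with he
  have hB : ∀ ρ, ∑' p, (if p ∈ HH XX Dp 0 x ρ ∧ lam < e (endp 0 p) then lw ω 0 p else 0)
      ≤ lam⁻¹ * ∑' t, (if t ∈ TT ∧ endp 0 t - x ∈ E then lw ω 0 t else 0) := by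
    intro ρ
    obtain ⟨T, hT⟩ : ∃ T : Set (List (Step d)), T = {t | t ∈ TT ∧ endp 0 t - x ∈ E} := ⟨_, rfl⟩
    have hmem : ∀ t, t ∈ T ↔ (t ∈ TT ∧ endp 0 t - x ∈ E) := fun t => by rw [hT]; rfl
    refine (bpart ω (pf_HH XX Dp 0 x ρ) 0 e hl0 hl1 T ?_).trans ?_
    · intro p hp
      rw [he]
      simp only
      refine ENNReal.tsum_le_tsum fun δ => ?_
      by_cases hδ : δ ∈ DY (endp 0 p) ∧ endp (endp 0 p) δ - x ∈ E
      · rw [if_pos hδ, if_pos]
        rw [hmem]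
        obtain ⟨r, hr0, hr⟩ := hp.2.2
        refine ⟨hTT p r hr0 hr hp.2.1 δ hδ.1, ?_⟩
        rw [endp_append]
        exact hδ.2
      · rw [if_neg hδ]; exact zero_le
    · refine mul_le_mul_right (le_of_eq (tsum_congr fun t => ?_)) _
      by_cases h : t ∈ TT ∧ endp 0 t - x ∈ E
      · rw [if_pos h, if_pos ((hmem t).2 h)]
      · rw [if_neg h, if_neg (fun h' => h ((hmem t).1 h'))]
  have hA : ∀ ρ, ∑' p, (if (p ∈ HH XX Dp 0 x ρ ∧ C p) ∧ e (endp 0 p) ≤ lam then lw ω 0 p else 0)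
      ≤ if ∃ v ∈ sitesL x ρ, e v ≤ lam then ∑' p, (if p ∈ Mn C then lw ω 0 p else 0) else 0 := by
    intro ρ
    by_cases hv : ∃ v ∈ sitesL x ρ, e v ≤ lam
    · rw [if_pos hv]
      obtain ⟨S, hS⟩ : ∃ S : Set (List (Step d)), S = {p | p ∈ HH XX Dp 0 x ρ ∧ C p} := ⟨_, rfl⟩
      have hmem : ∀ t, t ∈ S ↔ (t ∈ HH XX Dp 0 x ρ ∧ C t) := fun t => by rw [hS]; rfl
      have hpf : PF S := fun l hl r hr => pf_HH XX Dp 0 x ρ l ((hmem l).1 hl).1 r ((hmem _).1 hr).1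
      refine le_trans (ENNReal.tsum_le_tsum fun p => ?_)
        (stop_le ω hpf C 0 (fun l hl => ⟨l, [], by simp, ((hmem l).1 hl).2⟩))
      by_cases h : (p ∈ HH XX Dp 0 x ρ ∧ C p) ∧ e (endp 0 p) ≤ lam
      · rw [if_pos h, if_pos ((hmem p).2 h.1)]
      · rw [if_neg h]; exact zero_le
    · rw [if_neg hv]
      refine le_of_eq ?_
      rw [ENNReal.tsum_eq_zero]
      intro p
      rw [if_neg]
      rintro ⟨⟨hp, -⟩, hle⟩
      exact hv ⟨_, hp.1.1, hle⟩
  have hsplit : ∀ ρ, ∑' p, (if p ∈ HH XX Dp 0 x ρ ∧ C p then lw ω 0 p else 0)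
      ≤ ∑' p, (if (p ∈ HH XX Dp 0 x ρ ∧ C p) ∧ e (endp 0 p) ≤ lam then lw ω 0 p else 0)
        + ∑' p, (if p ∈ HH XX Dp 0 x ρ ∧ lam < e (endp 0 p) then lw ω 0 p else 0) := by
    intro ρ
    rw [← ENNReal.tsum_add]
    refine ENNReal.tsum_le_tsum fun p => ?_
    by_cases hp : p ∈ HH XX Dp 0 x ρ ∧ C p
    · rcases le_or_gt (e (endp 0 p)) lam with h | h
      · rw [if_pos hp, if_pos ⟨hp, h⟩]; exact le_self_add
      · rw [if_pos hp, if_pos (⟨hp.1, h⟩ : p ∈ HH XX Dp 0 x ρ ∧ lam < e (endp 0 p))]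
        exact le_add_self
    · rw [if_neg hp]; exact zero_le
  set Am := ∑' p, (if p ∈ Mn C then lw ω 0 p else 0) with hAm
  set Bm := lam⁻¹ * ∑' t, (if t ∈ TT ∧ endp 0 t - x ∈ E then lw ω 0 t else 0) with hBm
  calc ∑' ρ, (if ρ ∈ YY ∧ endp 0 ρ ∈ E then
        lw ω x ρ * ∑' p, (if p ∈ HH XX Dp 0 x ρ ∧ C p then lw ω 0 p else 0) else 0)
      ≤ ∑' ρ, ((if (ρ ∈ YY ∧ endp 0 ρ ∈ E) ∧ ∃ v ∈ sitesL x ρ, e v ≤ lam
            then lw ω x ρ else 0) * Am + (if ρ ∈ YY then lw ω x ρ else 0) * Bm) := by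
        refine ENNReal.tsum_le_tsum fun ρ => ?_
        by_cases hc : ρ ∈ YY ∧ endp 0 ρ ∈ E
        · rw [if_pos hc, if_pos hc.1]
          refine (mul_le_mul_right (hsplit ρ) _).trans ?_
          rw [mul_add]
          refine add_le_add ?_ (mul_le_mul_right (hB ρ) _)
          refine (mul_le_mul_right (hA ρ) _).trans ?_
          by_cases hv : ∃ v ∈ sitesL x ρ, e v ≤ lam
          · rw [if_pos hv, if_pos ⟨hc, hv⟩]
          · rw [if_neg hv]; simp
        · rw [if_neg hc]; exact zero_le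
    _ = (∑' ρ, (if (ρ ∈ YY ∧ endp 0 ρ ∈ E) ∧ ∃ v ∈ sitesL x ρ, e v ≤ lam
            then lw ω x ρ else 0)) * Am + (∑' ρ, (if ρ ∈ YY then lw ω x ρ else 0)) * Bm := by
        rw [ENNReal.tsum_add, ENNReal.tsum_mul_right, ENNReal.tsum_mul_right]
    _ ≤ lam * Am + 1 * Bm := by
        refine add_le_add (mul_le_mul_left ?_ _) (mul_le_mul_left (pf_sum ω hYY x) _)
        obtain ⟨S, hS⟩ : ∃ S : Set (List (Step d)), S = {π | π ∈ YY ∧ endp 0 π ∈ E} := ⟨_, rfl⟩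
        have hmem : ∀ t, t ∈ S ↔ (t ∈ YY ∧ endp 0 t ∈ E) := fun t => by rw [hS]; rfl
        refine le_trans (ENNReal.tsum_le_tsum fun π => ?_) (low_le ω S x e lam ?_)
        · by_cases hc : (π ∈ YY ∧ endp 0 π ∈ E) ∧ ∃ v ∈ sitesL x π, e v ≤ lam
          · rw [if_pos hc, if_pos ⟨(hmem π).2 hc.1, hc.2⟩]
          · rw [if_neg hc]; exact zero_le
        · intro p
          rw [he]
          simp only
          refine ENNReal.tsum_le_tsum fun r => ?_
          by_cases hr : p ++ r ∈ S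
          · rw [if_pos hr, if_pos]
            have := (hmem _).1 hr
            refine ⟨hDY p r this.1, ?_⟩
            rw [← endp_append, endp_eq_add, add_sub_cancel_left]
            exact this.2
          · rw [if_neg hr]; exact zero_le
    _ = _ := by rw [one_mul]

end Crest.Agent.R154.Win546
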