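import Crest.Agent.R154.WinH_554
import Crest.Agent.R154.KWBind2_419
import Crest.Agent.R154.Us_109

/-! Row 154, ROAD 801 (helper554): 419's `H3W` with `a + h ≤ a' + h'` from `win3x`. -/

set_option autoImplicit false

namespace Crest.Agent.R154.WinH554

open MeasureTheory ProbabilityTheory Crest.ProbabilityR.RandomEnvironment Crest.Agent.R154
open Crest.Agent.R154.Flux132 (lev opp)
open Crest.Agent.R154.Flux566 (lw endp sitesL measurable_lw endp_append endp_eq_add)
open Crest.Agent.R154.NB28 (IsUp IsDn)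
open Crest.Agent.R154.KWB419 (levA levN levS levZ levU sitesA mem_sitesT)
open scoped ENNReal

variable {d : ℕ} (ν : Measure (Row d)) [IsProbabilityMeasure ν]

lemma lev_nsmul (u : Step d) (n : ℕ) : lev u (n • stepVec u) = n := by
  induction n with
  | zero => simp [levZ]
  | succ n ih => rw [succ_nsmul, levA, ih, levU]; push_cast; ring

/-- first hit of level `L` from above -/
def DL (u : Step d) (L : ℤ) (v : Site d) (δ : List (Step d)) : Prop :=
  (∀ z ∈ sitesL v δ, L < lev u z) ∧ lev u (endp v δ) = L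

/-- the return words -/
def TTw (u : Step d) (y : Site d) (L D : ℤ) (τ : List (Step d)) : Prop :=
  (∃ a b, τ = a ++ b ∧ (∀ z ∈ sitesL y a, lev u y ≤ lev u z) ∧ D ≤ lev u (endp y a)) ∧
    DL u L y τ

lemma DL_pf (u : Step d) (L : ℤ) (v : Site d) : PF (DL u L v) := by
  rintro l hl l' hl' ⟨t, rfl⟩
  cases t with
  | nil => simp
  | cons e t =>
    exfalso
    have h1 := hl'.1 (endp v l) (by rw [sitesA]; simp [sitesL])
    rw [hl.2] at h1
    exact lt_irrefl _ h1

lemma sites_shift (l : List (Step d)) (x z : Site d) : z ∈ sitesL x l ↔ z - x ∈ sitesL 0 l := by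
  have := mem_sitesT l 0 x z
  rwa [zero_add] at this

lemma isUp_pf (u : Step d) (h : ℕ) : PF (IsUp u h) := by
  rintro l hl l' hl' ⟨t, rfl⟩
  cases t with
  | nil => simp
  | cons e t =>
    exfalso
    have h1 := (hl'.1 (endp 0 l) (by rw [sitesA]; simp [sitesL])).2
    rw [hl.2] at h1
    exact lt_irrefl _ h1

lemma isDn_pf (u : Step d) (h : ℕ) : PF (IsDn u h) := by
  rintro l hl l' hl' ⟨t, rfl⟩
  cases t with
  | nil => simp
  | cons e t =>
    exfalso
    have h1 := (hl'.1 (endp 0 l) (by rw [sitesA]; simp [sitesL])).1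
    rw [hl.2] at h1
    exact lt_irrefl _ h1

/-- hypothesis on `us` (109's `ret_le`) -/
def UsOK (u : Step d) (us : ℕ → ℝ≥0∞) : Prop :=
  ∀ (s : ℕ) (W : List (Step d) → Prop), PF W → (∀ l, W l → l ∈ Us109.RetW u 0 s) →
    ∀ [∀ l, Decidable (W l)], ∑' l, (if W l then aw ν l else 0) ≤ us s

open Classical in
theorem h3w (u : Step d) (us : ℕ → ℝ≥0∞) (hus : UsOK ν u us)
    (s h h' a a' hi : ℕ) (E : Finset (Site d)) (μ : Site d → ℝ≥0∞) (M lam : ℝ≥0∞)
    (hμ1 : ∑' x, μ x ≤ 1) (hμM : ∀ x, μ x ≤ M) (hl0 : lam ≠ 0) (hlt : lam ≠ ⊤)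
    (h1 : hi + s ≤ a + h) (h2 : hi + s ≤ a' + h') (h3 : a + h ≤ a' + h') :
    ∑' x, μ x * (∑' π, ∑' γ, if lev u x = 0 ∧ IsUp u h π ∧ IsDn u h' γ ∧
      (endp 0 γ + h' • stepVec u) ∈ E ∧ (∃ y, KWB419.Ct u π γ x a a' y) ∧
      (∀ y, KWB419.Ct u π γ x a a' y → -lev u y ≤ (hi : ℤ)) then aw ν π * aw ν γ else 0)
      ≤ 8 * (lam + M * E.card * us s / lam + us s) := by
  -- reduce to `M' = min M 1`
  set M' : ℝ≥0∞ := min M 1 with hM'
  have hμ' : ∀ x, μ x ≤ M' := fun x => le_min (hμM x) ((ENNReal.le_tsum x).trans hμ1)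
  by_cases hM0 : M' = 0
  · have : ∀ x, μ x = 0 := fun x => le_antisymm ((hμ' x).trans hM0.le) zero_le
    simp [this]
  have hMt : M' ≠ ⊤ := ne_top_of_le_ne_top ENNReal.one_ne_top (min_le_right _ _)
  -- anchors
  set y0 : Site d := -((a + h) • stepVec u) with hy0
  set L : ℤ := -((a' : ℤ) + h') - 1 with hL
  have hly0 : lev u y0 = -((a : ℤ) + h) := by rw [hy0, levN, lev_nsmul]; push_cast; ring
  set X0 : Site d → Site d := fun x => x - (a' + 1) • stepVec u with hX0
  have hlX0 : ∀ x, lev u x = 0 → lev u (X0 x) = -((a' : ℤ) + 1) := by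
    intro x hx
    simp only [hX0]
    rw [levS, lev_nsmul, hx]; push_cast; ring
  set vv : List (Step d) → Site d := fun π => h • stepVec u - endp 0 π with hvv
  set Dp : Set (Site d) := {z | -lev u z ≤ (hi : ℤ)} with hDp
  obtain ⟨FF, hFF⟩ : ∃ FF : Site d → Set (Site d), ∀ x z, z ∈ FF x ↔
      ∃ e ∈ E, z = X0 x + (e - h' • stepVec u) :=
    ⟨fun x => {z | ∃ e ∈ E, z = X0 x + (e - h' • stepVec u)}, fun _ _ => Iff.rfl⟩
  set g : Site d → List (Step d) → ℝ≥0∞ := fun x π => if lev u x = 0 then μ (x + vv π) else 0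
    with hg
  set TT := TTw u y0 L (-(hi : ℤ)) with hTT
  set lj : ℕ → ℝ≥0∞ := fun j => lam * (3 / 4 : ℝ≥0∞) ^ j with hlj
  have h34 : (3 / 4 : ℝ≥0∞) ≠ 0 := by
    rw [Ne, ENNReal.div_eq_zero_iff, not_or]; exact ⟨by norm_num, by norm_num⟩
  have h34t : (3 / 4 : ℝ≥0∞) ≠ ⊤ := ENNReal.div_ne_top (by norm_num) (by norm_num)
  -- step A: pointwise in x'
  have stepA : ∀ x, ∑' ρ, (if IsDn u h' ρ ∧ endp (X0 x) ρ ∈ FF x then aw ν ρ *
        ∑' π, (if IsUp u h π ∧ Ct (X0 x) y0 Dp ρ π then aw ν π * g x π else 0) else 0)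
      ≤ ∑' j, (2 * lj j * (∑' π, if IsUp u h π then aw ν π * g x π else 0)
        + cc M' j / lj j * ∑' τ, (if TT τ ∧ endp y0 τ ∈ FF x then aw ν τ else 0)) := by
    intro x
    by_cases hx : lev u x = 0
    · refine win3x ν (X0 x) y0 (IsUp u h) (IsDn u h') (g x) M' Dp (FF x) (DL u L) TT
        (isUp_pf u h) (isDn_pf u h') ?_ ?_ ?_ hM0 hMt lj ?_ ?_
      · intro l
        simp only [hg]
        split_ifs <;> first | exact hμ' _ | exact zero_le
      · intro p q hpq _
        have hend : lev u (endp (endp (X0 x) p) q) = L := by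
          rw [← endp_append, endp_eq_add, levA, hlX0 x hx, hpq.2, hL]; ring
        refine ⟨fun z hz => ?_, hend⟩
        have h5 : z ∈ sitesL (X0 x) (p ++ q) := by rw [sitesA]; exact List.mem_append_right _ hz
        rw [sites_shift] at h5
        have h6 := (hpq.1 _ h5).1
        rw [levS, hlX0 x hx] at h6
        rw [hL]; omega
      · rintro p ⟨q, hpq⟩ hD δ hδ
        have h5 : ∀ z ∈ sitesL y0 p, lev u y0 ≤ lev u z := by
          intro z hz
          rw [sites_shift] at hz
          have h6 := (hpq.1 (z - y0) (by rw [sitesA]; exact List.mem_append_left _ hz)).1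
          rw [levS] at h6; omega
        refine ⟨⟨p, δ, rfl, h5, ?_⟩, ?_, ?_⟩
        · have : -lev u (endp y0 p) ≤ (hi : ℤ) := hD
          omega
        · intro z hz
          rw [sitesA, List.mem_append] at hz
          rcases hz with hz | hz
          · have := h5 z hz
            rw [hly0] at this
            rw [hL]; omega
          · exact hδ.1 z hz
        · rw [endp_append]; exact hδ.2
      · intro j; exact mul_ne_zero hl0 (pow_ne_zero _ h34)
      · intro j; exact ENNReal.mul_ne_top hlt (ENNReal.pow_ne_top h34t)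
    · have hg0 : ∀ π, g x π = 0 := fun π => by simp only [hg, hx, if_false]
      refine le_trans (le_of_eq ?_) zero_le
      simp [hg0]
  -- step B: the left side is at most the sum of the pointwise ones
  have stepB : ∑' x, μ x * (∑' π, ∑' γ, if lev u x = 0 ∧ IsUp u h π ∧ IsDn u h' γ ∧
      (endp 0 γ + h' • stepVec u) ∈ E ∧ (∃ y, KWB419.Ct u π γ x a a' y) ∧
      (∀ y, KWB419.Ct u π γ x a a' y → -lev u y ≤ (hi : ℤ)) then aw ν π * aw ν γ else 0)
      ≤ ∑' x, ∑' ρ, (if IsDn u h' ρ ∧ endp (X0 x) ρ ∈ FF x then aw ν ρ *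
        ∑' π, (if IsUp u h π ∧ Ct (X0 x) y0 Dp ρ π then aw ν π * g x π else 0) else 0) := by
    set G : Site d → List (Step d) → List (Step d) → ℝ≥0∞ := fun x π γ =>
      if lev u x = 0 ∧ IsUp u h π ∧ IsDn u h' γ ∧
      (endp 0 γ + h' • stepVec u) ∈ E ∧ (∃ y, KWB419.Ct u π γ x a a' y) ∧
      (∀ y, KWB419.Ct u π γ x a a' y → -lev u y ≤ (hi : ℤ)) then aw ν π * aw ν γ else 0 with hG
    have e1 : ∑' x, μ x * (∑' π, ∑' γ, G x π γ) = ∑' π, ∑' γ, ∑' x, μ x * G x π γ := by
      simp_rw [← ENNReal.tsum_mul_left]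
      rw [ENNReal.tsum_comm]
      exact tsum_congr fun π => ENNReal.tsum_comm
    have e2 : ∀ π γ, ∑' x, μ x * G x π γ = ∑' x, μ (x + vv π) * G (x + vv π) π γ := by
      intro π γ
      exact ((Equiv.addRight (vv π)).tsum_eq (fun x => μ x * G x π γ)).symm
    rw [e1]
    have e3 : ∑' π, ∑' γ, ∑' x, μ x * G x π γ
        = ∑' x, ∑' γ, ∑' π, μ (x + vv π) * G (x + vv π) π γ := by
      simp_rw [e2]
      have : ∀ π, ∑' γ, ∑' x, μ (x + vv π) * G (x + vv π) π γ
          = ∑' x, ∑' γ, μ (x + vv π) * G (x + vv π) π γ := fun π => ENNReal.tsum_comm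
      simp_rw [this]
      rw [ENNReal.tsum_comm]
      exact tsum_congr fun x => ENNReal.tsum_comm
    rw [e3]
    refine ENNReal.tsum_le_tsum fun x => ENNReal.tsum_le_tsum fun γ => ?_
    by_cases hγ : IsDn u h' γ ∧ (endp 0 γ + h' • stepVec u) ∈ E
    · have hF : endp (X0 x) γ ∈ FF x := by
        refine (hFF _ _).2 ⟨_, hγ.2, ?_⟩
        rw [endp_eq_add]; abel
      rw [if_pos ⟨hγ.1, hF⟩, ← ENNReal.tsum_mul_left]
      refine ENNReal.tsum_le_tsum fun π => ?_
      by_cases hc : lev u (x + vv π) = 0 ∧ IsUp u h π ∧ IsDn u h' γ ∧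
        (endp 0 γ + h' • stepVec u) ∈ E ∧ (∃ y, KWB419.Ct u π γ (x + vv π) a a' y) ∧
        (∀ y, KWB419.Ct u π γ (x + vv π) a a' y → -lev u y ≤ (hi : ℤ))
      · have hlv : lev u (vv π) = 0 := by
          simp only [hvv]; rw [levS, lev_nsmul, hc.2.1.2]; ring
        have hx : lev u x = 0 := by have := hc.1; rw [levA, hlv] at this; omega
        have tr1 : ∀ z, z ∈ sitesL y0 π ↔
            z + vv π ∈ sitesL (-endp 0 π - a • stepVec u) π := by
          intro z
          rw [sites_shift π y0, sites_shift π (-endp 0 π - a • stepVec u)]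
          have : z + vv π - (-endp 0 π - a • stepVec u) = z - y0 := by
            simp only [hvv, hy0, add_nsmul]; abel
          rw [this]
        have tr2 : ∀ z, z ∈ sitesL (X0 x) γ ↔
            z + vv π ∈ sitesL (x + vv π - (a' + 1) • stepVec u) γ := by
          intro z
          rw [sites_shift γ (X0 x), sites_shift γ (x + vv π - (a' + 1) • stepVec u)]
          have : z + vv π - (x + vv π - (a' + 1) • stepVec u) = z - X0 x := by
            simp only [hX0]; abel
          rw [this]
        have hcon : Ct (X0 x) y0 Dp γ π := by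
          obtain ⟨y, hy1, hy2⟩ := hc.2.2.2.2.1
          obtain ⟨p, q, hpq, hq, hFV⟩ := exists_FV {z | z ∈ sitesL (X0 x) γ} π y0
            ⟨y - vv π, (tr1 _).2 (by simpa using hy1), (tr2 _).2 (by simpa using hy2)⟩
          refine ⟨p, q, hpq, hFV, ?_⟩
          have hmem : endp y0 p ∈ sitesL y0 π := by
            rw [hpq, sitesA, List.mem_append]
            right
            cases q with
            | nil => exact absurd rfl hq
            | cons e q => simp [sitesL]
          have h7 := hc.2.2.2.2.2 (endp y0 p + vv π) ⟨(tr1 _).1 hmem, (tr2 _).1 hFV.1⟩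
          rw [levA, hlv, add_zero] at h7
          exact h7
        simp only [hG]
        rw [if_pos hc, if_pos ⟨hc.2.1, hcon⟩]
        simp only [hg, hx, if_true]
        exact le_of_eq (by ring)
      · simp only [hG]
        rw [if_neg hc, mul_zero]; exact zero_le
    · refine le_trans (le_of_eq ?_) zero_le
      rw [ENNReal.tsum_eq_zero]
      intro π
      simp only [hG]
      rw [if_neg (fun hh => hγ ⟨hh.2.2.1, hh.2.2.2.1⟩), mul_zero]
  -- step C: sums over x
  have hm0 : ∑' x, ∑' π, (if IsUp u h π then aw ν π * g x π else 0) ≤ 1 := by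
    rw [ENNReal.tsum_comm]
    calc _ ≤ ∑' π, (if IsUp u h π then aw ν π else 0) := by
          refine ENNReal.tsum_le_tsum fun π => ?_
          by_cases hπ : IsUp u h π
          · simp only [hπ, if_true]
            rw [ENNReal.tsum_mul_left]
            calc aw ν π * ∑' x, g x π ≤ aw ν π * ∑' x, μ (x + vv π) := by
                  refine mul_le_mul_right (ENNReal.tsum_le_tsum fun x => ?_) _
                  simp only [hg]; split_ifs
                  · exact le_rfl
                  · exact zero_le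
              _ = aw ν π * ∑' x, μ x :=
                  congrArg (fun t => aw ν π * t) ((Equiv.addRight (vv π)).tsum_eq μ)
              _ ≤ aw ν π * 1 := mul_le_mul_right hμ1 _
              _ = aw ν π := mul_one _
          · simp [hπ]
      _ = ∫⁻ ω, ∑' π, (if IsUp u h π then lw ω 0 π else 0) ∂(iidEnvironmentLaw ν) := by
          rw [lintegral_tsum]
          · refine tsum_congr fun π => ?_
            by_cases hπ : IsUp u h π <;> simp [hπ, aw]
          · intro π
            by_cases hπ : IsUp u h π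
            · simp only [hπ, if_true]; exact (measurable_lw _ _).aemeasurable
            · simp only [hπ, if_false]; exact measurable_const.aemeasurable
      _ ≤ ∫⁻ _ω, 1 ∂(iidEnvironmentLaw ν) :=
          lintegral_mono fun ω => kraft ω 0 _ (isUp_pf u h)
      _ = 1 := by simp
  have hbb : ∑' x, ∑' τ, (if TT τ ∧ endp y0 τ ∈ FF x then aw ν τ else 0) ≤ E.card * us s := by
    rw [ENNReal.tsum_comm]
    have hTus : ∑' τ, (if TT τ then aw ν τ else 0) ≤ us s := by
      refine hus s TT ((DL_pf u L y0).mono fun l hl => hl.2) ?_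
      rintro τ ⟨⟨p, q, hpq, hp1, hp2⟩, hτ⟩
      refine ⟨⟨p, q, hpq, ?_, ?_⟩, ?_⟩
      · intro z hz
        have h8 := hp1 (z + y0) (by rw [sites_shift]; simpa using hz)
        rw [levA] at h8; omega
      · have h9 : endp y0 p = y0 + endp 0 p := endp_eq_add p y0
        rw [h9, levA, hly0] at hp2
        omega
      · have h9 : endp y0 τ = y0 + endp 0 τ := endp_eq_add τ y0
        have h10 := hτ.2
        rw [h9, levA, hly0, hL] at h10
        omega
    calc _ ≤ ∑' τ, (E.card : ℝ≥0∞) * (if TT τ then aw ν τ else 0) := by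
          refine ENNReal.tsum_le_tsum fun τ => ?_
          by_cases hτ : TT τ
          · simp only [hτ, true_and, if_true]
            calc ∑' x, (if endp y0 τ ∈ FF x then aw ν τ else 0)
                ≤ ∑' x, ∑ e ∈ E, (if x = endp y0 τ + h' • stepVec u + (a' + 1) • stepVec u - e
                    then aw ν τ else 0) := by
                  refine ENNReal.tsum_le_tsum fun x => ?_
                  by_cases hx : endp y0 τ ∈ FF x
                  · rw [if_pos hx]
                    obtain ⟨e, he, hz⟩ := (hFF _ _).1 hx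
                    refine le_trans ?_ (Finset.single_le_sum (fun _ _ => zero_le) he)
                    rw [if_pos]
                    rw [hz]; simp only [hX0]; abel
                  · rw [if_neg hx]; exact zero_le
              _ = ∑ e ∈ E, ∑' x, (if x = endp y0 τ + h' • stepVec u + (a' + 1) • stepVec u - e
                    then aw ν τ else 0) :=
                  Summable.tsum_finsetSum fun _ _ => ENNReal.summable
              _ = ∑ e ∈ E, aw ν τ := by
                  refine Finset.sum_congr rfl fun e _ => ?_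
                  rw [tsum_ite_eq]
              _ = E.card * aw ν τ := by rw [Finset.sum_const, nsmul_eq_mul]
          · simp [hτ]
      _ = E.card * ∑' τ, (if TT τ then aw ν τ else 0) := ENNReal.tsum_mul_left
      _ ≤ E.card * us s := mul_le_mul_right hTus _
  -- conclusion
  have hgeo1 : ∑' j, lj j = 4 * lam := by
    simp only [hlj]
    rw [ENNReal.tsum_mul_left, ENNReal.tsum_geometric]
    have : (1 - 3 / 4 : ℝ≥0∞)⁻¹ = 4 := by
      have h5 : (1 : ℝ≥0∞) - 3 / 4 = 4⁻¹ := by
        refine ENNReal.sub_eq_of_eq_add h34t ?_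
        rw [← one_div, ENNReal.div_add_div_same, eq_comm, ENNReal.div_eq_one_iff] <;> norm_num
      rw [h5, inv_inv]
    rw [this, mul_comm]
  have hgeo2 : ∑' j, cc M' j / lj j = 3 * (M' / lam) := by
    have h6 : ∀ j, cc M' j / lj j = (M' / lam) * (2 / 3 : ℝ≥0∞) ^ j := by
      intro j
      simp only [hlj, cc]
      rw [div_eq_mul_inv, ENNReal.mul_inv (Or.inl hl0) (Or.inl hlt),
        mul_mul_mul_comm, div_eq_mul_inv M' lam]
      congr 1
      rw [ENNReal.inv_pow, ← mul_pow]
      congr 1
      rw [ENNReal.inv_div (Or.inl (by norm_num)) (Or.inl (by norm_num)), ← one_div,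
        div_eq_mul_inv, div_eq_mul_inv, div_eq_mul_inv, one_mul, ← mul_assoc,
        show (4 : ℝ≥0∞) = 2 * 2 by norm_num, ← mul_assoc,
        ENNReal.inv_mul_cancel (by norm_num) (by norm_num), one_mul]
    simp_rw [h6]
    rw [ENNReal.tsum_mul_left, ENNReal.tsum_geometric]
    have : (1 - 2 / 3 : ℝ≥0∞)⁻¹ = 3 := by
      have h5 : (1 : ℝ≥0∞) - 2 / 3 = 3⁻¹ := by
        refine ENNReal.sub_eq_of_eq_add (ENNReal.div_ne_top (by norm_num) (by norm_num)) ?_
        rw [← one_div, ENNReal.div_add_div_same, eq_comm, ENNReal.div_eq_one_iff] <;> norm_num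
      rw [h5, inv_inv]
    rw [this, mul_comm]
  calc _ ≤ ∑' x, ∑' j, (2 * lj j * (∑' π, if IsUp u h π then aw ν π * g x π else 0)
        + cc M' j / lj j * ∑' τ, (if TT τ ∧ endp y0 τ ∈ FF x then aw ν τ else 0)) :=
        stepB.trans (ENNReal.tsum_le_tsum stepA)
    _ = ∑' j, (2 * lj j * (∑' x, ∑' π, if IsUp u h π then aw ν π * g x π else 0)
        + cc M' j / lj j * ∑' x, ∑' τ, (if TT τ ∧ endp y0 τ ∈ FF x then aw ν τ else 0)) := by
        rw [ENNReal.tsum_comm]
        refine tsum_congr fun j => ?_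
        rw [ENNReal.tsum_add, ENNReal.tsum_mul_left, ENNReal.tsum_mul_left]
    _ ≤ ∑' j, (2 * lj j * 1 + cc M' j / lj j * (E.card * us s)) :=
        ENNReal.tsum_le_tsum fun j => add_le_add (mul_le_mul_right hm0 _) (mul_le_mul_right hbb _)
    _ = 2 * (4 * lam) + 3 * (M' / lam) * (E.card * us s) := by
        simp only [mul_one]
        rw [ENNReal.tsum_add, ENNReal.tsum_mul_right, hgeo2, ENNReal.tsum_mul_left, hgeo1]
    _ ≤ 8 * lam + 8 * (M * E.card * us s / lam) := by
        refine add_le_add (le_of_eq (by ring)) ?_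
        calc 3 * (M' / lam) * (E.card * us s) = 3 * (M' * E.card * us s / lam) := by
              rw [div_eq_mul_inv, div_eq_mul_inv]; ring
          _ ≤ 8 * (M * E.card * us s / lam) := by
              gcongr
              · norm_num
              · exact min_le_left _ _
    _ ≤ 8 * (lam + M * E.card * us s / lam + us s) := by
        rw [mul_add, mul_add]; exact le_self_add

end Crest.Agent.R154.WinH554
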