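import Crest.Agent.R154.Surg_450

/-! Row 154, ROAD 801 (helper554): the window lemma (3) (event walker local, free walker stopped
at its first hit, tie weight on the landing of the free walker) in words, level free. -/

set_option autoImplicit false

namespace Crest.Agent.R154.WinH554

open MeasureTheory ProbabilityTheory Crest.ProbabilityR.RandomEnvironment Crest.Agent.R154
open Crest.Agent.R154.Flux566 (lw endp sitesL measurable_lw)
open scoped ENNReal

variable {d : ℕ}

/-- prefix free -/
def PF {A : Type*} (P : List A → Prop) : Prop := ∀ l, P l → ∀ l', P l' → l <+: l' → l = l'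

section gen
variable {A : Type*}

open Classical in
lemma tsum_if {B : Type*} (P : B → Prop) (F : B → ℝ≥0∞) :
    ∑' l, (if P l then F l else 0) = ∑' l : ({l | P l} : Set B), F l := by
  rw [tsum_subtype ({l | P l} : Set B) F]
  refine tsum_congr fun p => ?_
  by_cases h : P p <;> simp [Set.indicator, h]

open Classical in
lemma inj_sum (P : List A → Prop) (hP : PF P) (F : List A → ℝ≥0∞) :
    ∑' a, ∑' b, (if P a then F (a ++ b) else 0) ≤ ∑' l, F l := by
  rw [← ENNReal.tsum_prod (f := fun (a b : List A) => if P a then F (a ++ b) else 0)]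
  rw [tsum_if (fun p : List A × List A => P p.1) (fun p => F (p.1 ++ p.2))]
  refine ENNReal.tsum_comp_le_tsum_of_injective
    (f := fun p : ({p | P p.1} : Set (List A × List A)) => p.1.1 ++ p.1.2) ?_ F
  rintro ⟨⟨a, b⟩, ha⟩ ⟨⟨a', b'⟩, ha'⟩ h
  simp only at h ha ha'
  have : a = a' := by
    rcases List.prefix_or_prefix_of_prefix (List.prefix_append a b)
      (h ▸ List.prefix_append a' b') with h1 | h1
    · exact hP a ha a' ha' h1
    · exact (hP a' ha' a ha h1).symm
  subst this
  have := List.append_cancel_left h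
  subst this
  rfl

open Classical in
lemma dec_sum (C P : List A → Prop) (hC : ∀ l, C l → ∃ a b, l = a ++ b ∧ P a)
    (F : List A → ℝ≥0∞) :
    ∑' l, (if C l then F l else 0) ≤ ∑' a, ∑' b, (if P a then F (a ++ b) else 0) := by
  rw [← ENNReal.tsum_prod (f := fun (a b : List A) => if P a then F (a ++ b) else 0)]
  rw [tsum_if C F]
  choose a b h2 h3 using fun l : ({l | C l} : Set (List A)) => hC l.1 l.2
  calc ∑' l : ({l | C l} : Set (List A)), F l.1
      = ∑' l : ({l | C l} : Set (List A)), (fun p : List A × List A => if P p.1 then F (p.1 ++ p.2) else 0)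
          (a l, b l) := by
        refine tsum_congr fun l => ?_
        simp only [h3 l, if_true]
        rw [← h2 l]
    _ ≤ _ := by
        refine ENNReal.tsum_comp_le_tsum_of_injective 
          (f := fun l : ({l | C l} : Set (List A)) => (a l, b l)) ?_ _
        intro l l' h
        simp only [Prod.mk.injEq] at h
        apply Subtype.ext
        rw [h2 l, h2 l', h.1, h.2]

lemma PF.tail {P : List A → Prop} (hP : PF P) (a : List A) : PF fun b => P (a ++ b) := by
  intro b hb b' hb' h
  exact List.append_cancel_left (hP _ hb _ hb' ((List.prefix_append_right_inj a).2 h))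

lemma PF.mono {P P' : List A → Prop} (hP : PF P) (h : ∀ l, P' l → P l) : PF P' :=
  fun l hl l' hl' hh => hP l (h l hl) l' (h l' hl') hh

end gen

open Classical in
lemma kraft (ω : Environment d) (x : Site d) (P : List (Step d) → Prop) (hP : PF P) :
    ∑' l, (if P l then lw ω x l else 0) ≤ 1 := by
  have h := Surg450.tsum_pf ω x {l | P l} (fun l hl l' hl' hh => hP l hl l' hl' hh)
  rw [tsum_subtype {l | P l} (fun l => lw ω x l)] at h
  refine le_trans (le_of_eq (tsum_congr fun l => ?_)) h
  by_cases h : P l <;> simp [Set.indicator, h]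

open Classical in
lemma dom (ω : Environment d) (x : Site d) (P P' : List (Step d) → Prop) (hP : PF P)
    (h : ∀ l, P l → ∃ a b, l = a ++ b ∧ P' a) :
    ∑' l, (if P l then lw ω x l else 0) ≤ ∑' a, (if P' a then lw ω x a else 0) := by
  have h1 : ∑' l, (if P l then lw ω x l else 0)
      = ∑' l, (if P l then (if P l then lw ω x l else 0) else 0) :=
    tsum_congr fun l => by by_cases h : P l <;> simp [h]
  rw [h1]
  refine (dec_sum P P' h (fun l => if P l then lw ω x l else 0)).trans ?_
  refine ENNReal.tsum_le_tsum fun a => ?_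
  by_cases ha : P' a
  · simp only [ha, if_true]
    calc ∑' b, (if P (a ++ b) then lw ω x (a ++ b) else 0)
        = lw ω x a * ∑' b, (if P (a ++ b) then lw ω (endp x a) b else 0) := by
          rw [← ENNReal.tsum_mul_left]
          refine tsum_congr fun b => ?_
          by_cases h : P (a ++ b)
          · simp only [h, if_true, Surg450.lw_append]
          · simp [h]
      _ ≤ lw ω x a * 1 := mul_le_mul_right (kraft ω _ _ (hP.tail a)) _
      _ = lw ω x a := mul_one _
  · simp [ha]

lemma dom' (ω : Environment d) (x : Site d) (P P' : List (Step d) → Prop)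
    [∀ l, Decidable (P l)] [∀ l, Decidable (P' l)] (hP : PF P)
    (h : ∀ l, P l → ∃ a b, l = a ++ b ∧ P' a) :
    ∑' l, (if P l then lw ω x l else 0) ≤ ∑' a, (if P' a then lw ω x a else 0) := by
  convert dom ω x P P' hP h

/-- first visit of `B` -/
def FV (B : Set (Site d)) (y : Site d) (l : List (Step d)) : Prop :=
  endp y l ∈ B ∧ ∀ z ∈ sitesL y l, z ∉ B

lemma FV_pf (B : Set (Site d)) (y : Site d) : PF (FV B y) := by
  rintro l hl l' hl' ⟨t, rfl⟩
  cases t with
  | nil => simp
  | cons e t =>
    exfalso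
    refine hl'.2 (endp y l) ?_ hl.1
    rw [Surg450.sitesL_append]
    simp [sitesL]

/-- a word whose sites meet `B` has a first visit prefix (strict: the site is a departure) -/
lemma exists_FV (B : Set (Site d)) (l : List (Step d)) : ∀ y : Site d,
    (∃ z ∈ sitesL y l, z ∈ B) → ∃ a b, l = a ++ b ∧ b ≠ [] ∧ FV B y a := by
  induction l with
  | nil => rintro y ⟨z, hz, _⟩; simp [sitesL] at hz
  | cons e l ih =>
    rintro y ⟨z, hz, hzB⟩
    by_cases hy : y ∈ B
    · exact ⟨[], e :: l, rfl, by simp, hy, by simp [sitesL]⟩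
    · simp only [sitesL, List.mem_cons] at hz
      rcases hz with rfl | hz
      · exact absurd hzB hy
      · obtain ⟨a, b, h1, h2, h3, h4⟩ := ih (y + stepVec e) ⟨z, hz, hzB⟩
        refine ⟨e :: a, b, by rw [h1]; rfl, h2, h3, ?_⟩
        intro z hz
        simp only [sitesL, List.mem_cons] at hz
        rcases hz with rfl | hz
        · exact hy
        · exact h4 z hz

/-- minimal prefix with a property -/
def Mn (S : List (Step d) → Prop) (a : List (Step d)) : Prop :=
  S a ∧ ∀ b c, a = b ++ c → c ≠ [] → ¬ S b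

lemma Mn_pf (S : List (Step d) → Prop) : PF (Mn S) := by
  rintro l hl l' hl' ⟨t, rfl⟩
  cases t with
  | nil => simp
  | cons e t => exact absurd hl.1 (hl'.2 l (e :: t) rfl (by simp))

lemma exists_Mn (S : List (Step d) → Prop) (l : List (Step d)) (h : S l) :
    ∃ a b, l = a ++ b ∧ Mn S a := by
  classical
  have hex : ∃ n, S (l.take n) := ⟨l.length, by rwa [List.take_length]⟩
  refine ⟨l.take (Nat.find hex), l.drop (Nat.find hex), (List.take_append_drop _ _).symm,
    Nat.find_spec hex, ?_⟩
  intro b c hbc hc hb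
  have hlen : b.length < Nat.find hex := by
    have h1 := congrArg List.length hbc
    rw [List.length_append] at h1
    have h2 : 0 < c.length := List.length_pos_iff.2 hc
    have h3 := List.length_take_le (Nat.find hex) l
    omega
  refine Nat.find_min hex hlen ?_
  have : l.take b.length = b := by
    have h1 : l = b ++ (c ++ l.drop (Nat.find hex)) := by
      rw [← List.append_assoc, ← hbc, List.take_append_drop]
    rw [h1]
    simp
  rwa [this]

variable (ν : Measure (Row d)) [IsProbabilityMeasure ν]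

/-- annealed weight -/
noncomputable def aw (l : List (Step d)) : ℝ≥0∞ := ∫⁻ ω, lw ω 0 l ∂(iidEnvironmentLaw ν)

lemma lint_lw (x : Site d) (l : List (Step d)) :
    ∫⁻ ω, lw ω x l ∂(iidEnvironmentLaw ν) = aw ν l := Surg450.lintegral_lw ν x l

lemma aw_le_one (l : List (Step d)) : aw ν l ≤ 1 := by
  classical
  unfold aw
  calc ∫⁻ ω, lw ω 0 l ∂(iidEnvironmentLaw ν) ≤ ∫⁻ _ω, 1 ∂(iidEnvironmentLaw ν) := by
        refine lintegral_mono fun ω => ?_
        have h := kraft ω 0 (fun l' => l' = l) (fun a ha b hb _ => ha.trans hb.symm)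
        rw [tsum_eq_single l (fun b hb => by simp [hb])] at h
        simpa using h
    _ = 1 := by simp

section core

variable (x y : Site d) (XX YY : List (Step d) → Prop) (g : List (Step d) → ℝ≥0∞) (M : ℝ≥0∞)
  (Dp F : Set (Site d)) (DD : Site d → List (Step d) → Prop) (TT : List (Step d) → Prop)

open Classical in
/-- quenched landing mass -/
noncomputable def eq (ω : Environment d) (v : Site d) : ℝ≥0∞ :=
  ∑' δ, if DD v δ ∧ endp v δ ∈ F then lw ω v δ else 0

open Classical in
/-- numerator of the conditional weight of a prefix -/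
noncomputable def NN (α : List (Step d)) : ℝ≥0∞ :=
  ∑' β, if XX (α ++ β) then aw ν (α ++ β) * g (α ++ β) else 0

open Classical in
lemma NN_le (hX : PF XX) (hg : ∀ l, g l ≤ M) (α : List (Step d)) :
    NN ν XX g α ≤ M * aw ν α := by
  unfold NN
  calc ∑' β, (if XX (α ++ β) then aw ν (α ++ β) * g (α ++ β) else 0)
      ≤ ∑' β, M * (if XX (α ++ β) then aw ν (α ++ β) else 0) := by
        refine ENNReal.tsum_le_tsum fun β => ?_
        by_cases h : XX (α ++ β)
        · simp only [h, if_true]; rw [mul_comm]; exact mul_le_mul_left (hg _) _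
        · simp [h]
    _ = M * ∑' β, (if XX (α ++ β) then aw ν (α ++ β) else 0) := ENNReal.tsum_mul_left
    _ ≤ M * aw ν α := by
        refine mul_le_mul_right ?_ _
        calc ∑' β, (if XX (α ++ β) then aw ν (α ++ β) else 0)
            = ∫⁻ ω, ∑' β, (if XX (α ++ β) then lw ω 0 (α ++ β) else 0)
                ∂(iidEnvironmentLaw ν) := by
              rw [lintegral_tsum]
              · refine tsum_congr fun β => ?_
                by_cases h : XX (α ++ β) <;> simp [h, aw]
              · intro β
                by_cases h : XX (α ++ β)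
                · simp only [h, if_true]; exact (measurable_lw _ _).aemeasurable
                · simp only [h, if_false]; exact measurable_const.aemeasurable
          _ ≤ ∫⁻ ω, lw ω 0 α ∂(iidEnvironmentLaw ν) := by
              refine lintegral_mono fun ω => ?_
              calc ∑' β, (if XX (α ++ β) then lw ω 0 (α ++ β) else 0)
                  = lw ω 0 α * ∑' β, (if XX (α ++ β) then lw ω (endp 0 α) β else 0) := by
                    rw [← ENNReal.tsum_mul_left]
                    refine tsum_congr fun b => ?_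
                    by_cases h : XX (α ++ b)
                    · simp only [h, if_true, Surg450.lw_append]
                    · simp [h]
                _ ≤ lw ω 0 α * 1 := mul_le_mul_right (kraft ω _ _ (hX.tail α)) _
                _ = lw ω 0 α := mul_one _
          _ = aw ν α := rfl

/-- the event walker visits a dip and lands locally -/
def YC (ω : Environment d) (lam : ℝ≥0∞) (ρ : List (Step d)) : Prop :=
  (YY ρ ∧ endp x ρ ∈ F) ∧ ∃ z ∈ sitesL x ρ, z ∈ Dp ∧ eq F DD ω z ≤ lam

open Classical in
/-- (Y1) quenched strong Markov for the event walker -/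
lemma Y1 (hYD : ∀ a b, YY (a ++ b) → endp x a ∈ Dp → DD (endp x a) b)
    (ω : Environment d) (lam : ℝ≥0∞) :
    ∑' ρ, (if YC x YY Dp F DD ω lam ρ then lw ω x ρ else 0) ≤ lam := by
  set B : Set (Site d) := {z | z ∈ Dp ∧ eq F DD ω z ≤ lam} with hB
  set C : List (Step d) → Prop := YC x YY Dp F DD ω lam with hC
  have h1 : ∑' ρ, (if C ρ then lw ω x ρ else 0)
      = ∑' ρ, (if C ρ then (if C ρ then lw ω x ρ else 0) else 0) :=
    tsum_congr fun l => by by_cases h : C l <;> simp [h]
  rw [h1]
  refine (dec_sum C (FV B x) ?_ (fun l => if C l then lw ω x l else 0)).trans ?_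
  · rintro l ⟨_, hl⟩
    obtain ⟨a, b, h1, _, h3⟩ := exists_FV B l x hl
    exact ⟨a, b, h1, h3⟩
  · calc ∑' a, ∑' b, (if FV B x a then (if C (a ++ b) then lw ω x (a ++ b) else 0) else 0)
        ≤ ∑' a, (if FV B x a then lw ω x a else 0) * lam := by
          refine ENNReal.tsum_le_tsum fun a => ?_
          by_cases ha : FV B x a
          · simp only [ha, if_true]
            calc ∑' b, (if C (a ++ b) then lw ω x (a ++ b) else 0)
                ≤ ∑' b, lw ω x a * (if DD (endp x a) b ∧ endp (endp x a) b ∈ F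
                    then lw ω (endp x a) b else 0) := by
                  refine ENNReal.tsum_le_tsum fun b => ?_
                  by_cases hc : C (a ++ b)
                  · rw [if_pos hc, if_pos ⟨hYD a b hc.1.1 ha.1.1, by
                      rw [← Flux566.endp_append]; exact hc.1.2⟩, Surg450.lw_append]
                  · rw [if_neg hc]; exact zero_le
              _ = lw ω x a * eq F DD ω (endp x a) := ENNReal.tsum_mul_left
              _ ≤ lw ω x a * lam := mul_le_mul_right ha.1.2 _
          · simp [ha]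
      _ = (∑' a, (if FV B x a then lw ω x a else 0)) * lam := ENNReal.tsum_mul_right
      _ ≤ 1 * lam := mul_le_mul_left (kraft ω x _ (FV_pf B x)) _
      _ = lam := one_mul _

open Classical in
/-- (X1) the redirected free walker -/
lemma X1 (hTT : ∀ a, (∃ b, XX (a ++ b)) → endp y a ∈ Dp → ∀ δ, DD (endp y a) δ → TT (a ++ δ))
    (ω : Environment d) (lam : ℝ≥0∞) :
    lam * ∑' a, (if Mn (fun a => (∃ b, XX (a ++ b)) ∧ endp y a ∈ Dp ∧
      lam < eq F DD ω (endp y a)) a then lw ω y a else 0)
      ≤ ∑' τ, (if TT τ ∧ endp y τ ∈ F then lw ω y τ else 0) := by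
  set S : List (Step d) → Prop := fun a => (∃ b, XX (a ++ b)) ∧ endp y a ∈ Dp ∧
      lam < eq F DD ω (endp y a) with hS
  rw [← ENNReal.tsum_mul_left]
  refine le_trans ?_ (inj_sum (Mn S) (Mn_pf S)
    (fun τ => if TT τ ∧ endp y τ ∈ F then lw ω y τ else 0))
  refine ENNReal.tsum_le_tsum fun a => ?_
  by_cases ha : Mn S a
  · simp only [ha, if_true]
    calc lam * lw ω y a ≤ eq F DD ω (endp y a) * lw ω y a := mul_le_mul_left ha.1.2.2.le _
      _ = lw ω y a * eq F DD ω (endp y a) := mul_comm _ _
      _ = ∑' δ, lw ω y a * (if DD (endp y a) δ ∧ endp (endp y a) δ ∈ F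
            then lw ω (endp y a) δ else 0) := ENNReal.tsum_mul_left.symm
      _ ≤ _ := by
        refine ENNReal.tsum_le_tsum fun δ => ?_
        by_cases h : DD (endp y a) δ ∧ endp (endp y a) δ ∈ F
        · rw [if_pos h, if_pos ⟨hTT a ha.1.1 ha.1.2.1 δ h.1, by
            rw [Flux566.endp_append]; exact h.2⟩, Surg450.lw_append]
        · rw [if_neg h, mul_zero]; exact zero_le
  · simp [ha]

/-- scale -/
noncomputable def cc (j : ℕ) : ℝ≥0∞ := M * (2⁻¹ : ℝ≥0∞) ^ j

lemma cc_succ (j : ℕ) : cc M j = 2 * cc M (j + 1) := by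
  unfold cc
  rw [pow_succ, mul_left_comm, ← mul_assoc 2, mul_comm 2 _, mul_assoc,
    ENNReal.mul_inv_cancel (by norm_num) (by norm_num), mul_one, mul_comm]

/-- the class of a prefix -/
def Cl (j : ℕ) (a : List (Step d)) : Prop :=
  cc M (j + 1) * aw ν a < NN ν XX g a ∧ NN ν XX g a ≤ cc M j * aw ν a

open Classical in
lemma NN_class (hX : PF XX) (hg : ∀ l, g l ≤ M) (hMt : M ≠ ⊤) (a : List (Step d)) :
    NN ν XX g a ≤ ∑' j, (if Cl ν XX g M j a then cc M j * aw ν a else 0) := by
  by_cases hN : NN ν XX g a = 0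
  · rw [hN]; exact zero_le
  have hex : ∃ j, cc M (j + 1) * aw ν a < NN ν XX g a := by
    have h1 : Filter.Tendsto (fun j : ℕ => M * (2⁻¹ : ℝ≥0∞) ^ (j + 1) * aw ν a) Filter.atTop
        (nhds (M * 0 * aw ν a)) := by
      refine ENNReal.Tendsto.mul_const ?_ (Or.inr (ne_top_of_le_ne_top ENNReal.one_ne_top
        (aw_le_one ν a)))
      refine ENNReal.Tendsto.const_mul ?_ (Or.inr hMt)
      exact (ENNReal.tendsto_pow_atTop_nhds_zero_of_lt_one
        (ENNReal.inv_lt_one.2 (by norm_num))).comp (Filter.tendsto_add_atTop_nat 1)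
    rw [mul_zero, zero_mul] at h1
    have h2 := h1.eventually_lt_const (pos_iff_ne_zero.2 hN)
    exact h2.exists
  have hcl : Cl ν XX g M (Nat.find hex) a := by
    refine ⟨Nat.find_spec hex, ?_⟩
    rcases Nat.eq_zero_or_pos (Nat.find hex) with h0 | h0
    · rw [h0]
      unfold cc
      rw [pow_zero, mul_one]
      exact NN_le ν XX g M hX hg a
    · have h3 := Nat.find_min hex (Nat.sub_lt h0 one_pos)
      have h4 : Nat.find hex - 1 + 1 = Nat.find hex := by omega
      have h5 : Nat.find hex - Nat.succ 0 + 1 = Nat.find hex := by omega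
      rw [not_lt] at h3
      first
        | (rw [h5] at h3; exact h3)
        | (rw [h4] at h3; exact h3)
  calc NN ν XX g a ≤ cc M (Nat.find hex) * aw ν a := hcl.2
    _ = (if Cl ν XX g M (Nat.find hex) a then cc M (Nat.find hex) * aw ν a else 0) := by
        rw [if_pos hcl]
    _ ≤ _ := ENNReal.le_tsum (Nat.find hex)

/-- `α` is the part of the free walker before its first hit of the sites of `ρ`, which is deep -/
def Kh (ρ α : List (Step d)) : Prop := FV {z | z ∈ sitesL x ρ} y α ∧ endp y α ∈ Dp

/-- contact, first hit deep -/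
def Ct (ρ π : List (Step d)) : Prop := ∃ a b, π = a ++ b ∧ Kh x y Dp ρ a

open Classical in
lemma step1 (ρ : List (Step d)) :
    ∑' π, (if XX π ∧ Ct x y Dp ρ π then aw ν π * g π else 0)
      ≤ ∑' a, (if Kh x y Dp ρ a ∧ ∃ b, XX (a ++ b) then NN ν XX g a else 0) := by
  have h := dec_sum (fun π => XX π ∧ Ct x y Dp ρ π)
    (fun a => Kh x y Dp ρ a ∧ ∃ b, XX (a ++ b)) (by
      rintro l ⟨hl, a, b, rfl, hK⟩
      exact ⟨a, b, rfl, hK, b, hl⟩) (fun π => if XX π then aw ν π * g π else 0)
  refine le_trans (le_of_eq (tsum_congr fun π => ?_)) (h.trans (le_of_eq (tsum_congr fun a => ?_)))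
  · by_cases h1 : XX π ∧ Ct x y Dp ρ π
    · simp only [h1, h1.1, and_self, if_true]
    · simp [h1]
  · by_cases h1 : Kh x y Dp ρ a ∧ ∃ b, XX (a ++ b)
    · simp only [h1, if_true]; rfl
    · simp [h1]

/-- the relevant pairs of class `j` -/
def Pj (j : ℕ) (ρ a : List (Step d)) : Prop :=
  (YY ρ ∧ endp x ρ ∈ F) ∧ Kh x y Dp ρ a ∧ (∃ b, XX (a ++ b)) ∧ Cl ν XX g M j a

open Classical in
lemma quenched (hY : PF YY)
    (hYD : ∀ a b, YY (a ++ b) → endp x a ∈ Dp → DD (endp x a) b)
    (lam : ℝ≥0∞) (j : ℕ) (ω : Environment d) :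
    ∑' ρ, ∑' a, (if Pj ν x y XX YY g M Dp F j ρ a then lw ω x ρ * lw ω y a else 0)
      ≤ lam * ∑' a, (if Mn (fun a => cc M (j + 1) * aw ν a < NN ν XX g a) a then lw ω y a else 0)
        + ∑' a, (if Mn (fun a => (∃ b, XX (a ++ b)) ∧ endp y a ∈ Dp ∧
            lam < eq F DD ω (endp y a)) a then lw ω y a else 0) := by
  set A := ∑' a, (if Mn (fun a => cc M (j + 1) * aw ν a < NN ν XX g a) a then lw ω y a else 0)
    with hA
  set Sb := ∑' a, (if Mn (fun a => (∃ b, XX (a ++ b)) ∧ endp y a ∈ Dp ∧
            lam < eq F DD ω (endp y a)) a then lw ω y a else 0) with hSb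
  have key : ∀ ρ, ∑' a, (if Pj ν x y XX YY g M Dp F j ρ a then lw ω x ρ * lw ω y a else 0)
      ≤ (if YC x YY Dp F DD ω lam ρ then lw ω x ρ else 0) * A
        + (if YY ρ then lw ω x ρ else 0) * Sb := by
    intro ρ
    by_cases hR : YY ρ ∧ endp x ρ ∈ F
    · rw [if_pos hR.1]
      have h1 : ∑' a, (if Pj ν x y XX YY g M Dp F j ρ a ∧ eq F DD ω (endp y a) ≤ lam
          then lw ω x ρ * lw ω y a else 0) ≤ (if YC x YY Dp F DD ω lam ρ then lw ω x ρ else 0) * A := by
        by_cases hYC : YC x YY Dp F DD ω lam ρ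
        · rw [if_pos hYC]
          calc _ = lw ω x ρ * ∑' a, (if Pj ν x y XX YY g M Dp F j ρ a ∧
                eq F DD ω (endp y a) ≤ lam then lw ω y a else 0) := by
                rw [← ENNReal.tsum_mul_left]
                refine tsum_congr fun a => ?_
                split_ifs <;> simp
            _ ≤ lw ω x ρ * A := by
                refine mul_le_mul_right (dom' ω y _ _ ?_ ?_) _
                · exact (FV_pf {z | z ∈ sitesL x ρ} y).mono fun l hl => hl.1.2.1.1
                · rintro l ⟨hl, _⟩
                  exact exists_Mn _ l hl.2.2.2.1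
        · refine le_trans (le_of_eq ?_) zero_le
          rw [ENNReal.tsum_eq_zero]
          intro a
          rw [if_neg]
          rintro ⟨h2, h3⟩
          exact hYC ⟨hR, endp y a, h2.2.1.1.1, h2.2.1.2, h3⟩
      have h2 : ∑' a, (if Pj ν x y XX YY g M Dp F j ρ a ∧ lam < eq F DD ω (endp y a)
          then lw ω x ρ * lw ω y a else 0) ≤ lw ω x ρ * Sb := by
        calc _ = lw ω x ρ * ∑' a, (if Pj ν x y XX YY g M Dp F j ρ a ∧
                lam < eq F DD ω (endp y a) then lw ω y a else 0) := by
                rw [← ENNReal.tsum_mul_left]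
                refine tsum_congr fun a => ?_
                split_ifs <;> simp
            _ ≤ lw ω x ρ * Sb := by
                refine mul_le_mul_right (dom' ω y _ _ ?_ ?_) _
                · exact (FV_pf {z | z ∈ sitesL x ρ} y).mono fun l hl => hl.1.2.1.1
                · rintro l ⟨hl, hl2⟩
                  exact exists_Mn _ l ⟨hl.2.2.1, hl.2.1.2, hl2⟩
      refine le_trans ?_ (add_le_add h1 h2)
      rw [← ENNReal.tsum_add]
      refine ENNReal.tsum_le_tsum fun a => ?_
      by_cases hP : Pj ν x y XX YY g M Dp F j ρ a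
      · rcases le_or_gt (eq F DD ω (endp y a)) lam with h | h
        · simp [hP, h]
        · simp [hP, h]
      · simp [hP]
    · have : ∀ a, ¬ Pj ν x y XX YY g M Dp F j ρ a := fun a h => hR h.1
      simp [this]
  calc _ ≤ ∑' ρ, ((if YC x YY Dp F DD ω lam ρ then lw ω x ρ else 0) * A
        + (if YY ρ then lw ω x ρ else 0) * Sb) := ENNReal.tsum_le_tsum key
    _ = (∑' ρ, (if YC x YY Dp F DD ω lam ρ then lw ω x ρ else 0)) * A
        + (∑' ρ, (if YY ρ then lw ω x ρ else 0)) * Sb := by
          rw [ENNReal.tsum_add, ENNReal.tsum_mul_right, ENNReal.tsum_mul_right]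
    _ ≤ lam * A + 1 * Sb := add_le_add (mul_le_mul_left (Y1 x YY Dp F DD hYD ω lam) _)
          (mul_le_mul_left (kraft ω x YY hY) _)
    _ = lam * A + Sb := by rw [one_mul]

lemma meas_eq (v : Site d) : Measurable fun ω : Environment d => eq F DD ω v := by
  classical
  unfold eq
  refine Measurable.ennreal_tsum fun δ => ?_
  by_cases h : DD v δ ∧ endp v δ ∈ F
  · simp only [h, and_self, if_true]; exact measurable_lw _ _
  · simp only [h, if_false]; exact measurable_const

open Classical in
/-- class `j`, integrated -/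
lemma integrated (hY : PF YY)
    (hYD : ∀ a b, YY (a ++ b) → endp x a ∈ Dp → DD (endp x a) b)
    (hTT : ∀ a, (∃ b, XX (a ++ b)) → endp y a ∈ Dp → ∀ δ, DD (endp y a) δ → TT (a ++ δ))
    (hM0 : M ≠ 0) (hMt : M ≠ ⊤) (lam : ℝ≥0∞) (h0 : lam ≠ 0) (ht : lam ≠ ⊤) (j : ℕ) :
    cc M j * ∑' ρ, ∑' a, (if Pj ν x y XX YY g M Dp F j ρ a then aw ν ρ * aw ν a else 0)
      ≤ 2 * lam * (∑' π, if XX π then aw ν π * g π else 0)
        + cc M j / lam * ∑' τ, (if TT τ ∧ endp y τ ∈ F then aw ν τ else 0) := by
  set S1 : List (Step d) → Prop := Mn (fun a => cc M (j + 1) * aw ν a < NN ν XX g a) with hS1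
  set m0 := ∑' π, (if XX π then aw ν π * g π else 0) with hm0
  set bb := ∑' τ, (if TT τ ∧ endp y τ ∈ F then aw ν τ else 0) with hbb
  have hcc0 : ∀ i, cc M i ≠ 0 := fun i => mul_ne_zero hM0 (pow_ne_zero _ (by norm_num))
  have hcct : ∀ i, cc M i ≠ ⊤ := fun i =>
    ENNReal.mul_ne_top hMt (ENNReal.pow_ne_top (by norm_num))
  have hprod : ∀ ρ a, (if Pj ν x y XX YY g M Dp F j ρ a then aw ν ρ * aw ν a else 0)
      = ∫⁻ ω, (if Pj ν x y XX YY g M Dp F j ρ a then lw ω x ρ * lw ω y a else 0)
        ∂(iidEnvironmentLaw ν) := by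
    intro ρ a
    by_cases h : Pj ν x y XX YY g M Dp F j ρ a
    · simp only [h, if_true]
      rw [Surg450.lintegral_lw_mul ν x y ρ a (fun z hz hz' => h.2.1.1.2 z hz' hz)]
      rfl
    · simp [h]
  have hmeas : ∀ ρ a, Measurable fun ω : Environment d =>
      (if Pj ν x y XX YY g M Dp F j ρ a then lw ω x ρ * lw ω y a else 0) := by
    intro ρ a
    by_cases h : Pj ν x y XX YY g M Dp F j ρ a
    · simp only [h, if_true]; exact (measurable_lw _ _).mul (measurable_lw _ _)
    · simp only [h, if_false]; exact measurable_const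
  have hmA : Measurable fun ω : Environment d => ∑' a, (if S1 a then lw ω y a else 0) := by
    refine Measurable.ennreal_tsum fun a => ?_
    by_cases h : S1 a
    · simp only [h, if_true]; exact measurable_lw _ _
    · simp only [h, if_false]; exact measurable_const
  have hT : ∑' ρ, ∑' a, (if Pj ν x y XX YY g M Dp F j ρ a then aw ν ρ * aw ν a else 0)
      ≤ lam * ∑' a, (if S1 a then aw ν a else 0) + bb / lam := by
    have e1 : ∑' ρ, ∑' a, (if Pj ν x y XX YY g M Dp F j ρ a then aw ν ρ * aw ν a else 0)
        = ∫⁻ ω, ∑' ρ, ∑' a, (if Pj ν x y XX YY g M Dp F j ρ a then lw ω x ρ * lw ω y a else 0)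
          ∂(iidEnvironmentLaw ν) := by
      rw [lintegral_tsum fun ρ => (Measurable.ennreal_tsum fun a => hmeas ρ a).aemeasurable]
      refine tsum_congr fun ρ => ?_
      rw [lintegral_tsum fun a => (hmeas ρ a).aemeasurable]
      exact tsum_congr fun a => hprod ρ a
    have e2 : ∫⁻ ω, ∑' a, (if S1 a then lw ω y a else 0) ∂(iidEnvironmentLaw ν)
        = ∑' a, (if S1 a then aw ν a else 0) := by
      rw [lintegral_tsum]
      · refine tsum_congr fun a => ?_
        by_cases h : S1 a
        · simp only [h, if_true]; exact lint_lw ν y a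
        · simp [h]
      · intro a
        by_cases h : S1 a
        · simp only [h, if_true]; exact (measurable_lw _ _).aemeasurable
        · simp only [h, if_false]; exact measurable_const.aemeasurable
    have e3 : ∫⁻ ω, ∑' τ, (if TT τ ∧ endp y τ ∈ F then lw ω y τ else 0) ∂(iidEnvironmentLaw ν)
        = bb := by
      rw [lintegral_tsum]
      · refine tsum_congr fun a => ?_
        by_cases h : TT a ∧ endp y a ∈ F
        · simp only [h, and_self, if_true]; exact lint_lw ν y a
        · simp [h]
      · intro a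
        by_cases h : TT a ∧ endp y a ∈ F
        · simp only [h, and_self, if_true]; exact (measurable_lw _ _).aemeasurable
        · simp only [h, if_false]; exact measurable_const.aemeasurable
    rw [e1]
    calc _ ≤ ∫⁻ ω, (lam * (∑' a, (if S1 a then lw ω y a else 0))
          + lam⁻¹ * ∑' τ, (if TT τ ∧ endp y τ ∈ F then lw ω y τ else 0))
            ∂(iidEnvironmentLaw ν) := by
          refine lintegral_mono fun ω => ?_
          refine (quenched ν x y XX YY g M Dp F DD hY hYD lam j ω).trans ?_
          refine add_le_add le_rfl ?_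
          have h := X1 y XX Dp F DD TT hTT ω lam
          calc _ = lam⁻¹ * (lam * ∑' a, (if Mn (fun a => (∃ b, XX (a ++ b)) ∧ endp y a ∈ Dp ∧
                lam < eq F DD ω (endp y a)) a then lw ω y a else 0)) := by
                rw [← mul_assoc, ENNReal.inv_mul_cancel h0 ht, one_mul]
            _ ≤ _ := mul_le_mul_right h _
      _ = lam * ∑' a, (if S1 a then aw ν a else 0) + bb / lam := by
          rw [lintegral_add_left (hmA.const_mul _), lintegral_const_mul _ hmA, e2,
            lintegral_const_mul' _ _ (ENNReal.inv_ne_top.2 h0), e3, div_eq_mul_inv, mul_comm bb]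
  have hD : cc M (j + 1) * ∑' a, (if S1 a then aw ν a else 0) ≤ m0 := by
    refine le_trans ?_ (inj_sum S1 (Mn_pf _) (fun π => if XX π then aw ν π * g π else 0))
    rw [← ENNReal.tsum_mul_left]
    refine ENNReal.tsum_le_tsum fun a => ?_
    by_cases h : S1 a
    · simp only [h, if_true]; exact h.1.le
    · simp [h]
  calc _ ≤ cc M j * (lam * ∑' a, (if S1 a then aw ν a else 0) + bb / lam) :=
        mul_le_mul_right hT _
    _ = 2 * lam * (cc M (j + 1) * ∑' a, (if S1 a then aw ν a else 0)) + cc M j / lam * bb := by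
        rw [mul_add]
        congr 1
        · rw [cc_succ]; ring
        · rw [div_eq_mul_inv, div_eq_mul_inv]; ring
    _ ≤ _ := add_le_add (mul_le_mul_right hD _) le_rfl

open Classical in
/-- **(3) for one start `x` of the event walker.** -/
theorem win3x (hX : PF XX) (hY : PF YY) (hg : ∀ l, g l ≤ M)
    (hYD : ∀ a b, YY (a ++ b) → endp x a ∈ Dp → DD (endp x a) b)
    (hTT : ∀ a, (∃ b, XX (a ++ b)) → endp y a ∈ Dp → ∀ δ, DD (endp y a) δ → TT (a ++ δ))
    (hM0 : M ≠ 0) (hMt : M ≠ ⊤) (lam : ℕ → ℝ≥0∞) (h0 : ∀ j, lam j ≠ 0) (ht : ∀ j, lam j ≠ ⊤) :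
    ∑' ρ, (if YY ρ ∧ endp x ρ ∈ F then aw ν ρ *
        ∑' π, (if XX π ∧ Ct x y Dp ρ π then aw ν π * g π else 0) else 0)
      ≤ ∑' j, (2 * lam j * (∑' π, if XX π then aw ν π * g π else 0)
        + cc M j / lam j * ∑' τ, (if TT τ ∧ endp y τ ∈ F then aw ν τ else 0)) := by
  calc _ ≤ ∑' ρ, ∑' a, ∑' j, cc M j *
        (if Pj ν x y XX YY g M Dp F j ρ a then aw ν ρ * aw ν a else 0) := by
        refine ENNReal.tsum_le_tsum fun ρ => ?_
        by_cases hR : YY ρ ∧ endp x ρ ∈ F
        · rw [if_pos hR]
          refine (mul_le_mul_right (step1 ν x y XX g Dp ρ) _).trans ?_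
          rw [← ENNReal.tsum_mul_left]
          refine ENNReal.tsum_le_tsum fun a => ?_
          by_cases h : Kh x y Dp ρ a ∧ ∃ b, XX (a ++ b)
          · rw [if_pos h]
            refine (mul_le_mul_right (NN_class ν XX g M hX hg hMt a) _).trans ?_
            rw [← ENNReal.tsum_mul_left]
            refine ENNReal.tsum_le_tsum fun j => ?_
            by_cases hc : Cl ν XX g M j a
            · rw [if_pos hc, if_pos (show Pj ν x y XX YY g M Dp F j ρ a from
                ⟨hR, h.1, h.2, hc⟩)]
              exact le_of_eq (by ring)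
            · rw [if_neg hc, mul_zero]; exact zero_le
          · rw [if_neg h, mul_zero]; exact zero_le
        · rw [if_neg hR]; exact zero_le
    _ = ∑' j, cc M j * ∑' ρ, ∑' a,
        (if Pj ν x y XX YY g M Dp F j ρ a then aw ν ρ * aw ν a else 0) := by
        have : ∀ ρ, ∑' a, ∑' j, cc M j *
            (if Pj ν x y XX YY g M Dp F j ρ a then aw ν ρ * aw ν a else 0)
            = ∑' j, ∑' a, cc M j *
            (if Pj ν x y XX YY g M Dp F j ρ a then aw ν ρ * aw ν a else 0) :=
          fun ρ => ENNReal.tsum_comm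
        simp_rw [this]
        rw [ENNReal.tsum_comm]
        refine tsum_congr fun j => ?_
        rw [← ENNReal.tsum_mul_left]
        exact tsum_congr fun ρ => ENNReal.tsum_mul_left
    _ ≤ _ := ENNReal.tsum_le_tsum fun j =>
        integrated ν x y XX YY g M Dp F DD TT hY hYD hTT hM0 hMt (lam j) (h0 j) (ht j) j

end core

end Crest.Agent.R154.WinH554
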