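import Crest.Agent.R154.B5First_181
import Crest.Agent.R154.FP_178
import Crest.Agent.R154.NumK_658
import Crest.Agent.R154.AsmA_789

/-! Row 154, ROAD 801 (helper294): the joint-cut assembly (frame of 692, peeling of 663). -/

set_option autoImplicit false

namespace Crest.Agent.R154.WinJ294

open scoped ENNReal
open Crest.Agent.R154.B5A Crest.Agent.R154.FP178

variable {B W : Type*} (Λ : B → ℝ≥0∞) (ht : B → ℕ)

open Classical in
/-- first passage sums -/
noncomputable def PA (a : ℕ) (F : List B → ℝ≥0∞) : ℝ≥0∞ :=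
  ∑' L, (if fp ht a L then LW Λ L * F L else 0)

lemma PA_mono (a : ℕ) {F F' : List B → ℝ≥0∞} (h : ∀ L, fp ht a L → F L ≤ F' L) :
    PA Λ ht a F ≤ PA Λ ht a F' := by
  classical
  refine ENNReal.tsum_le_tsum fun L => ?_
  by_cases hL : fp ht a L
  · rw [if_pos hL, if_pos hL]; gcongr; exact h L hL
  · rw [if_neg hL, if_neg hL]

lemma PA_add (a : ℕ) (F F' : List B → ℝ≥0∞) :
    PA Λ ht a (fun L => F L + F' L) = PA Λ ht a F + PA Λ ht a F' := by
  classical
  rw [PA, PA, PA, ← ENNReal.tsum_add]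
  refine tsum_congr fun L => ?_
  by_cases hL : fp ht a L
  · simp [hL, mul_add]
  · simp [hL]

lemma PA_sum {ι : Type*} (a : ℕ) (s : Finset ι) (F : ι → List B → ℝ≥0∞) :
    PA Λ ht a (fun L => ∑ i ∈ s, F i L) = ∑ i ∈ s, PA Λ ht a (F i) := by
  classical
  induction s using Finset.induction_on with
  | empty => simp [PA]
  | insert i s hi ih => simp only [Finset.sum_insert hi]; rw [PA_add, ih]

lemma PA_const_mul (a : ℕ) (x : ℝ≥0∞) (F : List B → ℝ≥0∞) :
    PA Λ ht a (fun L => x * F L) = x * PA Λ ht a F := by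
  classical
  rw [PA, PA, ← ENNReal.tsum_mul_left]
  refine tsum_congr fun L => ?_
  by_cases hL : fp ht a L
  · simp [hL, mul_left_comm]
  · simp [hL]

lemma PA_one_le (h1 : ∀ b, 1 ≤ ht b) (hΛ : ∑' b, Λ b = 1) (a : ℕ) : PA Λ ht a (fun _ => 1) ≤ 1 := by
  classical
  have := sum_FP Λ ht h1 hΛ.le a
  simpa [PA] using this

lemma PA_one (h1 : ∀ b, 1 ≤ ht b) (hΛ : ∑' b, Λ b = 1) (a : ℕ) : PA Λ ht a (fun _ => 1) = 1 := by
  classical
  induction a using Nat.strong_induction_on with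
  | _ a ih =>
    rcases Nat.eq_zero_or_pos a with rfl | ha
    · exact sum_fp_zero Λ ht (fun _ => 1)
    · rw [PA, sum_fp_step Λ ht a ha (fun _ => 1)]
      have : ∀ b, Λ b * ∑' L, (if fp ht (a - ht b) L then LW Λ L * 1 else 0) = Λ b := by
        intro b
        have := ih (a - ht b) (by have := h1 b; omega)
        rw [PA] at this
        rw [this, mul_one]
      rw [tsum_congr this, hΛ]

lemma PA_const_le (h1 : ∀ b, 1 ≤ ht b) (hΛ : ∑' b, Λ b = 1) (a : ℕ) (x : ℝ≥0∞)
    (F : List B → ℝ≥0∞) (hF : ∀ L, F L ≤ x) : PA Λ ht a F ≤ x := by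
  calc PA Λ ht a F ≤ PA Λ ht a (fun _ => x * 1) := PA_mono Λ ht a fun L _ => by simpa using hF L
    _ = x * PA Λ ht a (fun _ => 1) := PA_const_mul Λ ht a x _
    _ = x := by rw [PA_one Λ ht h1 hΛ, mul_one]

lemma PA_split (h1 : ∀ b, 1 ≤ ht b) (τ a : ℕ) (hτ : τ ≤ a) (F : List B → ℝ≥0∞) :
    PA Λ ht a F = PA Λ ht τ (fun A => PA Λ ht (a - HT ht A) (fun L => F (A ++ L))) := by
  classical
  rw [PA, fp_split Λ ht h1 τ a hτ F]
  rfl

lemma fp_append (L L' : List B) : ∀ (a : ℕ), HT ht L < a → fp ht (a - HT ht L) L' →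
    fp ht a (L ++ L') := by
  induction L with
  | nil => intro a _ h; simpa [HT_nil] using h
  | cons b L ih =>
    intro a h h'
    rw [HT_cons] at h h'
    rw [List.cons_append, fp_cons]
    exact ⟨by omega, ih (a - ht b) (by omega) (by rwa [Nat.sub_sub])⟩

lemma fp_self (h1 : ∀ b, 1 ≤ ht b) (L : List B) : fp ht (HT ht L) L := by
  induction L with
  | nil => exact (fp_nil ht _).2 (HT_nil ht)
  | cons b L ih =>
    rw [fp_cons, HT_cons]
    have := h1 b
    exact ⟨by omega, by rwa [show ht b + HT ht L - ht b = HT ht L by omega]⟩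

open Classical in
/-- lists of `J` blocks are dominated by first passage lists -/
lemma SL_le_PA (h1 : ∀ b, 1 ≤ ht b) (hΛ : ∑' b, Λ b = 1) (J a : ℕ) (C : List B → Prop)
    (F : List B → ℝ≥0∞) (hF : ∀ L L', C L → 1 ≤ F (L ++ L')) :
    SL Λ J (fun L => if HT ht L < a ∧ C L then 1 else 0) ≤ PA Λ ht a F := by
  set g : List B → ℝ≥0∞ := fun L => if fp ht a L then LW Λ L * F L else 0 with hg
  refine le_trans ?_ (tsum_append_le J g)
  rw [SL]
  refine ENNReal.tsum_le_tsum fun L => ?_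
  by_cases hL : L.length = J
  · rw [if_pos hL, if_pos hL]
    by_cases hc : HT ht L < a ∧ C L
    · rw [if_pos hc, mul_one]
      calc LW Λ L = LW Λ L * PA Λ ht (a - HT ht L) (fun _ => 1) := by
            rw [PA_one Λ ht h1 hΛ, mul_one]
        _ = ∑' L', LW Λ L * (if fp ht (a - HT ht L) L' then LW Λ L' * 1 else 0) := by
            rw [PA, ENNReal.tsum_mul_left]
        _ ≤ ∑' L', g (L ++ L') := by
            refine ENNReal.tsum_le_tsum fun L' => ?_
            by_cases h : fp ht (a - HT ht L) L'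
            · rw [if_pos h]
              simp only [hg]
              rw [if_pos (fp_append ht L L' a hc.1 h), LW_append, mul_one]
              calc LW Λ L * LW Λ L' = LW Λ L * LW Λ L' * 1 := (mul_one _).symm
                _ ≤ _ := by gcongr; exact hF L L' hc.2
            · rw [if_neg h, mul_zero]; exact zero_le
    · rw [if_neg hc, mul_zero]; exact zero_le
  · rw [if_neg hL, if_neg hL]

open Classical in
/-- decomposition at the last cut at depth `≤ H` -/
lemma last_cut (h1 : ∀ b, 1 ≤ ht b) (hΛ : ∑' b, Λ b = 1) (H : ℕ) :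
    ∀ (a : ℕ), H < a → ∀ (f g : List B → ℝ≥0∞),
      (∀ L b R, HT ht L ≤ H → H < HT ht L + ht b → f (L ++ b :: R) ≤ g L) →
      PA Λ ht a f ≤ ∑' L, (if HT ht L ≤ H then LW Λ L * (tail Λ ht (H - HT ht L) * g L) else 0) := by
  induction H using Nat.strong_induction_on with
  | _ H ih =>
    intro a ha f g hfg
    rw [PA, sum_fp_step Λ ht a (by omega) f, tsum_list, if_pos (by rw [HT_nil]; omega), LW_nil,
      one_mul, HT_nil, Nat.sub_zero]
    have key : ∀ b, Λ b * ∑' L, (if fp ht (a - ht b) L then LW Λ L * f (b :: L) else 0)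
        ≤ (if H < ht b then Λ b else 0) * g [] + ∑' L, (if HT ht (b :: L) ≤ H then
          LW Λ (b :: L) * (tail Λ ht (H - HT ht (b :: L)) * g (b :: L)) else 0) := by
      intro b
      by_cases hb : H < ht b
      · rw [if_pos hb]
        refine le_add_right ?_
        gcongr
        have := PA_const_le Λ ht h1 hΛ (a - ht b) (g []) (fun L => f (b :: L))
          (fun L => hfg [] b L (by rw [HT_nil]; omega) (by rw [HT_nil]; omega))
        simpa [PA] using this
      · rw [if_neg hb, zero_mul, zero_add]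
        have hb1 := h1 b
        have := ih (H - ht b) (by omega) (a - ht b) (by omega) (fun L => f (b :: L))
          (fun L => g (b :: L)) (fun L b' R hL hL' => hfg (b :: L) b' R
            (by rw [HT_cons]; omega) (by rw [HT_cons]; omega))
        rw [PA] at this
        refine (mul_le_mul_right this _).trans ?_
        rw [← ENNReal.tsum_mul_left]
        refine ENNReal.tsum_le_tsum fun L => ?_
        rw [HT_cons, LW_cons]
        by_cases h : HT ht L ≤ H - ht b
        · rw [if_pos h, if_pos (by omega), Nat.sub_sub, mul_assoc]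
        · rw [if_neg h, mul_zero]; exact zero_le
    refine (ENNReal.tsum_le_tsum key).trans ?_
    rw [ENNReal.tsum_add, ENNReal.tsum_mul_right]
    rfl

open Classical in
/-- peeling of `N` attempts -/
lemma peel (h1 : ∀ b, 1 ≤ ht b) (hΛ : ∑' b, Λ b = 1) (dl : B → W → W) (g : W → ℝ≥0∞)
    (hg : ∀ w, g w ≤ 1) (h r : ℕ) (S : List B → Prop) (C1 ep c' : ℝ≥0∞)
    (hS : ∀ P, S P → HT ht P = h)
    (ha : ∀ a' w, ∑' P, (if S P then
      LW Λ P * PA Λ ht a' (fun L => g (act dl L (act dl P w))) else 0) ≤ C1)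
    (hb : c' ≤ ∑' P, if S P then LW Λ P else 0)
    (hc : ∑' P, (if fp ht h P ∧ h + r < HT ht P then LW Λ P else 0) ≤ ep) :
    ∀ (N a : ℕ), N * (h + r) ≤ a → ∀ w,
      PA Λ ht a (fun L => g (act dl L w)) ≤ N * C1 + N * ep + (1 - c') ^ N := by
  have hfpS : ∀ P, S P → fp ht h P := fun P hP => by
    have := fp_self ht h1 P
    rwa [hS P hP] at this
  have hSm : PA Λ ht h (fun P => if S P then 1 else 0) = ∑' P, if S P then LW Λ P else 0 := by
    rw [PA]
    refine tsum_congr fun P => ?_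
    by_cases hP : S P
    · simp [hP, hfpS P hP]
    · simp [hP]
  have hnS : PA Λ ht h (fun P => if S P then 0 else 1) ≤ 1 - c' := by
    have e : PA Λ ht h (fun P => if S P then 0 else 1) + PA Λ ht h (fun P => if S P then 1 else 0)
        = 1 := by
      rw [← PA_add]
      have e0 : (fun P : List B => (if S P then (0 : ℝ≥0∞) else 1) + (if S P then 1 else 0))
          = fun _ => 1 := by
        funext P
        by_cases hP : S P <;> simp [hP]
      rw [e0, PA_one Λ ht h1 hΛ]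
    have hne : PA Λ ht h (fun P => if S P then (1 : ℝ≥0∞) else 0) ≠ ⊤ := by
      intro h'
      rw [h'] at e
      simp at e
    have := ENNReal.le_sub_of_add_le_right hne e.le
    refine this.trans ?_
    rw [hSm]
    exact tsub_le_tsub_left hb 1
  intro N
  induction N with
  | zero =>
    intro a _ w
    simp only [Nat.cast_zero, zero_mul, zero_add, pow_zero]
    exact PA_const_le Λ ht h1 hΛ a 1 _ fun L => hg _
  | succ N ih =>
    intro a hN w
    have hah : h + r + N * (h + r) ≤ a := by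
      have : (N + 1) * (h + r) = h + r + N * (h + r) := by ring
      omega
    set K : ℝ≥0∞ := N * C1 + N * ep + (1 - c') ^ N with hK
    rw [PA_split Λ ht h1 h a (by omega)]
    set X : List B → ℝ≥0∞ := fun P => PA Λ ht (a - HT ht P)
      (fun L => g (act dl L (act dl P w))) with hX
    have hpt : ∀ P, fp ht h P → PA Λ ht (a - HT ht P) (fun L => g (act dl (P ++ L) w))
        ≤ (if S P then X P else 0) + ((if h + r < HT ht P then 1 else 0)
          + K * (if S P then 0 else 1)) := by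
      intro P _
      have e : PA Λ ht (a - HT ht P) (fun L => g (act dl (P ++ L) w)) = X P := by
        simp only [hX, act_append]
      rw [e]
      by_cases hP : S P
      · rw [if_pos hP]; exact le_self_add
      · rw [if_neg hP, if_neg hP, zero_add, mul_one]
        by_cases hh : h + r < HT ht P
        · rw [if_pos hh]
          exact le_add_right (PA_const_le Λ ht h1 hΛ _ 1 _ fun L => hg _)
        · rw [if_neg hh, zero_add]
          exact ih (a - HT ht P) (by omega) (act dl P w)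
    refine (PA_mono Λ ht h hpt).trans ?_
    rw [PA_add, PA_add, PA_const_mul]
    have t1 : PA Λ ht h (fun P => if S P then X P else 0) ≤ C1 := by
      refine le_trans ?_ (ha (a - h) w)
      refine ENNReal.tsum_le_tsum fun P => ?_
      by_cases hP : S P
      · simp only [hX]
        rw [if_pos (hfpS P hP), if_pos hP, if_pos hP, hS P hP]
      · simp [hP]
    have t2 : PA Λ ht h (fun P => if h + r < HT ht P then 1 else 0) ≤ ep := by
      refine le_trans ?_ hc
      refine ENNReal.tsum_le_tsum fun P => ?_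
      by_cases hP : fp ht h P <;> by_cases hP' : h + r < HT ht P <;> simp [hP, hP']
    have hc1 : (1 - c') ≤ (1 : ℝ≥0∞) := tsub_le_self
    calc _ ≤ C1 + (ep + K * (1 - c')) := by gcongr
      _ = C1 + (ep + ((1 - c') * (N * C1) + (1 - c') * (N * ep) + (1 - c') ^ (N + 1))) := by
          rw [hK, pow_succ]; ring
      _ ≤ C1 + (ep + (1 * (N * C1) + 1 * (N * ep) + (1 - c') ^ (N + 1))) := by gcongr
      _ = _ := by push_cast; ring

/-! ### pieces -/

open Classical in
theorem quant' {ι : Type*} (p : ι → ℝ≥0∞) (hp : ∑' i, p i ≤ 1) {u : ℝ≥0∞} (hu : u ≠ 0)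
    (hu1 : u ≤ ∑' i, p i) : ∃ θ : ℝ≥0∞, θ ≠ 0 ∧ θ ≤ 1 ∧ (∑' i, if p i < θ then p i else 0) ≤ u ∧
      u ≤ (∑' i, if p i < 2 * θ then p i else 0) := by
  have hex := AsmA789.exists_small p hp hu
  set P : ℕ → Prop := fun q => (∑' i, if p i < (2 : ℝ≥0∞)⁻¹ ^ q then p i else 0) ≤ u with hP
  have hex' : ∃ q, P q := hex
  have hq := Nat.find_spec hex'
  refine ⟨(2 : ℝ≥0∞)⁻¹ ^ Nat.find hex', ?_, ?_, hq, ?_⟩
  · exact pow_ne_zero _ (by simp)
  · exact pow_le_one' (by simp) _
  · rcases Nat.eq_zero_or_pos (Nat.find hex') with h0 | hpos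
    · rw [h0, pow_zero, mul_one]
      have : ∀ i, p i < 2 := by
        intro i
        calc p i ≤ ∑' i, p i := ENNReal.le_tsum i
          _ ≤ 1 := hp
          _ < 2 := by norm_num
      simp only [this, if_true]
      exact hu1
    · obtain ⟨r, hr⟩ := Nat.exists_eq_succ_of_ne_zero hpos.ne'
      have hnot : ¬ P r := Nat.find_min hex' (by omega)
      have e : 2 * (2 : ℝ≥0∞)⁻¹ ^ Nat.find hex' = (2 : ℝ≥0∞)⁻¹ ^ r := by
        rw [hr, Nat.succ_eq_add_one, pow_succ, mul_comm ((2 : ℝ≥0∞)⁻¹ ^ r), ← mul_assoc,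
          ENNReal.mul_inv_cancel (by norm_num) (by norm_num), one_mul]
      rw [e]
      exact (not_le.1 hnot).le

section Piece

variable {Z : Type*} [AddCommGroup Z] (dl : B → W → W)
  (zX zY : List B → Z) (pos : W → Z) (aX bY : ℕ → Z → ℝ≥0∞)

/-- a hit: height exactly `h` and a displacement of small mass -/
def Hit (h : ℕ) (M : ℝ≥0∞) (P : List B) : Prop := HT ht P = h ∧ aX h (zX P) < M

open Classical in
/-- the law of the hits, moved -/
lemma hit_le (hpos : ∀ L w, pos (act dl L w) = pos w + zX L + zY L)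
    (hprod : ∀ h (F : Z → Z → ℝ≥0∞), ∑' L, (if HT ht L = h then LW Λ L * F (zX L) (zY L) else 0)
      = ∑' z, ∑' z', aX h z * bY h z' * F z z')
    (hbY : ∀ h, ∑' z, bY h z ≤ 1) (h : ℕ) (M : ℝ≥0∞) (L : List B) (w w'' : W) :
    ∑' P, (if Hit ht zX aX h M P ∧ act dl L (act dl P w) = w'' then LW Λ P else 0)
      ≤ M := by
  set κ : Z := pos w'' - pos w - zX L - zY L with hκ
  set F : Z → Z → ℝ≥0∞ := fun z z' => if aX h z < M ∧ z = κ - z' then 1 else 0 with hF
  calc _ ≤ ∑' P, (if HT ht P = h then LW Λ P * F (zX P) (zY P) else 0) := by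
        refine ENNReal.tsum_le_tsum fun P => ?_
        by_cases hP : Hit ht zX aX h M P ∧ act dl L (act dl P w) = w''
        · rw [if_pos hP, if_pos hP.1.1]
          have e : zX P = κ - zY P := by
            have := hP.2
            have h2 : pos w'' = pos w + zX P + zY P + zX L + zY L := by
              rw [← this, hpos, hpos]
            rw [hκ, h2]; abel
          have : F (zX P) (zY P) = 1 := by
            simp only [hF]
            rw [if_pos ⟨hP.1.2, e⟩]
          rw [this, mul_one]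
        · rw [if_neg hP]; exact zero_le
    _ = ∑' z', ∑' z, aX h z * bY h z' * F z z' := by rw [hprod, ENNReal.tsum_comm]
    _ ≤ ∑' z', bY h z' * M := by
        refine ENNReal.tsum_le_tsum fun z' => ?_
        rw [tsum_eq_single (κ - z')]
        · simp only [hF]
          by_cases hz : aX h (κ - z') < M
          · rw [if_pos ⟨hz, trivial⟩, mul_one, mul_comm]
            gcongr
          · rw [if_neg (fun h' => hz h'.1), mul_zero]; exact zero_le
        · intro z hz
          simp only [hF]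
          rw [if_neg (fun h' => hz h'.2), mul_zero]
    _ ≤ 1 * M := by rw [ENNReal.tsum_mul_right]; gcongr; exact hbY h
    _ = M := one_mul _

open Classical in
lemma local_le (h1 : ∀ b, 1 ≤ ht b) (hΛ : ∑' b, Λ b = 1) (hU1 : ∀ n, U Λ ht n ≤ 1)
    (hpos : ∀ L w, pos (act dl L w) = pos w + zX L + zY L)
    (hprod : ∀ h (F : Z → Z → ℝ≥0∞), ∑' L, (if HT ht L = h then LW Λ L * F (zX L) (zY L) else 0)
      = ∑' z, ∑' z', aX h z * bY h z' * F z z')
    (hbY : ∀ h, ∑' z, bY h z ≤ 1) (h r : ℕ) (M C1 ep c' : ℝ≥0∞) (g : W → ℝ≥0∞)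
    (hg : ∀ w, g w ≤ 1)
    (hH : ∀ μ : W → ℝ≥0∞, ∑' w, μ w ≤ 1 → (∀ w, μ w ≤ M) → ∑' w, μ w * g w ≤ C1)
    (hlow : c' ≤ ∑' P, if Hit ht zX aX h M P then LW Λ P else 0)
    (hc : ∑' P, (if fp ht h P ∧ h + r < HT ht P then LW Λ P else 0) ≤ ep)
    (N a : ℕ) (hN : N * (h + r) ≤ a) (w : W) :
    PA Λ ht a (fun L => g (act dl L w)) ≤ N * C1 + N * ep + (1 - c') ^ N := by
  refine peel Λ ht h1 hΛ dl g hg h r (Hit ht zX aX h M) C1 ep c'
    (fun P hP => hP.1) ?_ hlow hc N a hN w
  intro a' w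
  set S : List B → Prop := Hit ht zX aX h M with hS
  have key : ∀ L : List B, ∑' P, (if S P then LW Λ P * g (act dl L (act dl P w)) else 0) ≤ C1 := by
    intro L
    set μ : W → ℝ≥0∞ := fun w'' => ∑' P, (if S P ∧ act dl L (act dl P w) = w'' then LW Λ P else 0)
      with hμ
    have e : ∑' P, (if S P then LW Λ P * g (act dl L (act dl P w)) else 0)
        = ∑' w'', μ w'' * g w'' := by
      simp only [hμ, ← ENNReal.tsum_mul_right]
      rw [ENNReal.tsum_comm]
      refine tsum_congr fun P => ?_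
      rw [tsum_eq_single (act dl L (act dl P w))]
      · by_cases hP : S P <;> simp [hP]
      · intro w'' hw
        rw [if_neg (fun h' => hw h'.2.symm), zero_mul]
    rw [e]
    refine hH μ ?_ ?_
    · simp only [hμ]
      rw [ENNReal.tsum_comm]
      refine le_trans ?_ (hU1 h)
      refine ENNReal.tsum_le_tsum fun P => ?_
      rw [tsum_eq_single (act dl L (act dl P w))]
      · by_cases hP : S P
        · rw [if_pos ⟨hP, rfl⟩, if_pos hP.1]
        · rw [if_neg (fun h' => hP h'.1)]; exact zero_le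
      · intro w'' hw
        rw [if_neg (fun h' => hw h'.2.symm)]
    · intro w''
      exact hit_le Λ ht dl zX zY pos aX bY hpos hprod hbY h M L w w''
  calc _ = ∑' L, (if fp ht a' L then LW Λ L *
        ∑' P, (if S P then LW Λ P * g (act dl L (act dl P w)) else 0) else 0) := by
        have e1 : ∀ P, (if S P then LW Λ P * PA Λ ht a' (fun L => g (act dl L (act dl P w))) else 0)
            = ∑' L, (if fp ht a' L then LW Λ L *
              (if S P then LW Λ P * g (act dl L (act dl P w)) else 0) else 0) := by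
          intro P
          by_cases hP : S P
          · rw [if_pos hP, PA, ← ENNReal.tsum_mul_left]
            refine tsum_congr fun L => ?_
            by_cases hL : fp ht a' L
            · simp only [hL, hP, if_true]; ring
            · simp [hL]
          · simp [hP]
        rw [tsum_congr e1, ENNReal.tsum_comm]
        refine tsum_congr fun L => ?_
        by_cases hL : fp ht a' L
        · simp only [hL, if_true]; rw [ENNReal.tsum_mul_left]
        · simp [hL]
    _ ≤ C1 := PA_const_le Λ ht h1 hΛ a' C1 _ key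

variable (cd : W → B → Set ℕ)

/-- X local, all contacts deeper than `s` -/
def E2 (h s : ℕ) (E : Finset Z) (w : W) (L : List B) : Prop :=
  HT ht L = h ∧ zX L ∈ E ∧ (CD ht dl cd L w).Nonempty ∧ ∀ k ∈ CD ht dl cd L w, s < k

/-- Y local, all contacts at distance `≥ s` from the bottom -/
def E3 (h s : ℕ) (E : Finset Z) (w : W) (L : List B) : Prop :=
  HT ht L = h ∧ zY L ∈ E ∧ (CD ht dl cd L w).Nonempty ∧ ∀ k ∈ CD ht dl cd L w, k + s ≤ h

/-- contact in the last `s` levels -/
def E5 (h s : ℕ) (w : W) (L : List B) : Prop :=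
  HT ht L = h ∧ ∃ k ∈ CD ht dl cd L w, h < k + s

/-- contact, all deeper than `r` -/
def EV (h r : ℕ) (w : W) (L : List B) : Prop :=
  HT ht L = h ∧ (CD ht dl cd L w).Nonempty ∧ ∀ k ∈ CD ht dl cd L w, r < k

open Classical in
lemma sumE_le (hU1 : ∀ n, U Λ ht n ≤ 1) (h : ℕ) (S : List B → Prop) (hS : ∀ L, S L → HT ht L = h) :
    ∑' L, (if S L then LW Λ L else 0) ≤ 1 := by
  refine le_trans ?_ (hU1 h)
  refine ENNReal.tsum_le_tsum fun L => ?_
  by_cases hL : S L
  · rw [if_pos hL, if_pos (hS L hL)]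
  · rw [if_neg hL]; exact zero_le

open Classical in
/-- the bound for pieces of height `h` -/
lemma piece_le (h1 : ∀ b, 1 ≤ ht b) (hΛ : ∑' b, Λ b = 1) (hU1 : ∀ n, U Λ ht n ≤ 1)
    (hpos : ∀ L w, pos (act dl L w) = pos w + zX L + zY L)
    (hprod : ∀ h (F : Z → Z → ℝ≥0∞), ∑' L, (if HT ht L = h then LW Λ L * F (zX L) (zY L) else 0)
      = ∑' z, ∑' z', aX h z * bY h z' * F z z')
    (haX : ∀ h, ∑' z, aX h z ≤ 1) (hbY : ∀ h, ∑' z, bY h z ≤ 1)
    (c : ℝ≥0∞) (hcX : ∀ h, c ≤ ∑' z, aX h z) (hcY : ∀ h, c ≤ ∑' z, bY h z)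
    (C : ℝ≥0∞) (us : ℕ → ℝ≥0∞)
    (H2 : ∀ h s (E : Finset Z) (μ : W → ℝ≥0∞) (M lam : ℝ≥0∞), ∑' w, μ w ≤ 1 → (∀ w, μ w ≤ M) →
      lam ≠ 0 → lam ≠ ⊤ → ∑' w, μ w * ∑' L, (if E2 ht dl zX cd h s E w L then LW Λ L else 0)
        ≤ C * (lam + M * E.card * us s / lam + us s))
    (H3 : ∀ h s (E : Finset Z) (μ : W → ℝ≥0∞) (M lam : ℝ≥0∞), ∑' w, μ w ≤ 1 → (∀ w, μ w ≤ M) →
      lam ≠ 0 → lam ≠ ⊤ → ∑' w, μ w * ∑' L, (if E3 ht dl zY cd h s E w L then LW Λ L else 0)
        ≤ C * (lam + M * E.card * us s / lam + us s))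
    (u : ℝ≥0∞) (hu0 : u ≠ 0) (huc : u ≤ c) (lam : ℝ≥0∞) (hl0 : lam ≠ 0) (hlt : lam ≠ ⊤)
    (s r : ℕ) (hsr : s ≤ r) (h : ℕ) (η : ℝ≥0∞)
    (H5 : ∀ w, ∑' L, (if E5 ht dl cd h s w L then LW Λ L else 0) ≤ η)
    (ep : ℝ≥0∞) (hc : ∑' P, (if fp ht h P ∧ h + r < HT ht P then LW Λ P else 0) ≤ ep)
    (N a : ℕ) (hN : N * (h + r) ≤ a) (w : W) :
    PA Λ ht a (fun L => ∑' L', (if EV ht dl cd h r (act dl L w) L' then LW Λ L' else 0))
      ≤ 2 * (N * (C * (lam + 2 * us s / lam + us s)) + N * ep + (1 - c * u) ^ N)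
        + u * u + η := by
  obtain ⟨θ, hθ0, hθ1, hθu, hθl⟩ := quant' (aX h) (haX h) hu0 (huc.trans (hcX h))
  obtain ⟨φ, hφ0, hφ1, hφu, hφl⟩ := quant' (bY h) (hbY h) hu0 (huc.trans (hcY h))
  obtain ⟨hfE, hcE⟩ := AsmA789.card_le (aX h) (haX h) hθ0
  obtain ⟨hfF, hcF⟩ := AsmA789.card_le (bY h) (hbY h) hφ0
  set E : Finset Z := hfE.toFinset with hE
  set F : Finset Z := hfF.toFinset with hF
  have hEc : 2 * θ * (E.card : ℝ≥0∞) ≤ 2 := by
    rw [Set.ncard_eq_toFinset_card _ hfE] at hcE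
    calc 2 * θ * (E.card : ℝ≥0∞) = 2 * ((E.card : ℝ≥0∞) * θ) := by ring
      _ ≤ 2 * 1 := by gcongr
      _ = 2 := mul_one _
  have hFc : 2 * φ * (F.card : ℝ≥0∞) ≤ 2 := by
    rw [Set.ncard_eq_toFinset_card _ hfF] at hcF
    calc 2 * φ * (F.card : ℝ≥0∞) = 2 * ((F.card : ℝ≥0∞) * φ) := by ring
      _ ≤ 2 * 1 := by gcongr
      _ = 2 := mul_one _
  set C1 : ℝ≥0∞ := C * (lam + 2 * us s / lam + us s) with hC1
  -- swapped product
  have hprod' : ∀ h (F : Z → Z → ℝ≥0∞), ∑' L, (if HT ht L = h then LW Λ L * F (zY L) (zX L) else 0)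
      = ∑' z, ∑' z', bY h z * aX h z' * F z z' := by
    intro h F
    rw [hprod h (fun z z' => F z' z), ENNReal.tsum_comm]
    refine tsum_congr fun z => tsum_congr fun z' => ?_
    ring
  have hpos' : ∀ L w, pos (act dl L w) = pos w + zY L + zX L := by
    intro L w; rw [hpos]; abel
  set g2 : W → ℝ≥0∞ := fun w => ∑' L, (if E2 ht dl zX cd h s E w L then LW Λ L else 0) with hg2
  set g3 : W → ℝ≥0∞ := fun w => ∑' L, (if E3 ht dl zY cd h s F w L then LW Λ L else 0) with hg3
  have b2 : PA Λ ht a (fun L => g2 (act dl L w)) ≤ N * C1 + N * ep + (1 - c * u) ^ N := by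
    refine local_le Λ ht dl zX zY pos aX bY h1 hΛ hU1 hpos hprod hbY h r (2 * θ) C1 ep (c * u) g2
      (fun w => sumE_le Λ ht hU1 h _ fun L hL => hL.1) ?_ ?_ hc N a hN w
    · intro μ hμ1 hμM
      refine (H2 h s E μ (2 * θ) lam hμ1 hμM hl0 hlt).trans ?_
      rw [hC1]
      gcongr
    · have e := hprod h (fun z _ => if aX h z < 2 * θ then 1 else 0)
      calc c * u ≤ (∑' z', bY h z') * (∑' z, if aX h z < 2 * θ then aX h z else 0) := by
            gcongr; exact hcY h
        _ = ∑' z, ∑' z', aX h z * bY h z' * (if aX h z < 2 * θ then 1 else 0) := by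
            rw [ENNReal.tsum_comm, ← ENNReal.tsum_mul_right]
            refine tsum_congr fun z' => ?_
            rw [← ENNReal.tsum_mul_left]
            refine tsum_congr fun z => ?_
            split_ifs <;> ring
        _ = _ := by
            rw [← e]
            refine tsum_congr fun L => ?_
            by_cases hh : HT ht L = h <;> by_cases hh' : aX h (zX L) < 2 * θ <;>
              simp [Hit, hh, hh']
  have b3 : PA Λ ht a (fun L => g3 (act dl L w)) ≤ N * C1 + N * ep + (1 - c * u) ^ N := by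
    refine local_le Λ ht dl zY zX pos bY aX h1 hΛ hU1 hpos' hprod' haX h r (2 * φ) C1 ep (c * u) g3
      (fun w => sumE_le Λ ht hU1 h _ fun L hL => hL.1) ?_ ?_ hc N a hN w
    · intro μ hμ1 hμM
      refine (H3 h s F μ (2 * φ) lam hμ1 hμM hl0 hlt).trans ?_
      rw [hC1]
      gcongr
    · have e := hprod' h (fun z _ => if bY h z < 2 * φ then 1 else 0)
      calc c * u ≤ (∑' z', aX h z') * (∑' z, if bY h z < 2 * φ then bY h z else 0) := by
            gcongr; exact hcX h
        _ = ∑' z, ∑' z', bY h z * aX h z' * (if bY h z < 2 * φ then 1 else 0) := by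
            rw [ENNReal.tsum_comm, ← ENNReal.tsum_mul_right]
            refine tsum_congr fun z' => ?_
            rw [← ENNReal.tsum_mul_left]
            refine tsum_congr fun z => ?_
            split_ifs <;> ring
        _ = _ := by
            rw [← e]
            refine tsum_congr fun L => ?_
            by_cases hh : HT ht L = h <;> by_cases hh' : bY h (zY L) < 2 * φ <;>
              simp [Hit, hh, hh']
  have b4 : ∑' L, (if HT ht L = h then LW Λ L *
      (if aX h (zX L) < θ ∧ bY h (zY L) < φ then 1 else 0) else 0) ≤ u * u := by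
    rw [hprod h (fun z z' => if aX h z < θ ∧ bY h z' < φ then 1 else 0)]
    calc ∑' z, ∑' z', aX h z * bY h z' * (if aX h z < θ ∧ bY h z' < φ then 1 else 0)
        = ∑' z, (if aX h z < θ then aX h z else 0) * ∑' z', (if bY h z' < φ then bY h z' else 0) := by
          refine tsum_congr fun z => ?_
          rw [← ENNReal.tsum_mul_left]
          refine tsum_congr fun z' => ?_
          by_cases hz : aX h z < θ <;> by_cases hz' : bY h z' < φ <;> simp [hz, hz']
      _ = (∑' z, (if aX h z < θ then aX h z else 0)) * ∑' z', (if bY h z' < φ then bY h z' else 0) :=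
          ENNReal.tsum_mul_right
      _ ≤ u * u := by gcongr
  have hpt : ∀ w, ∑' L', (if EV ht dl cd h r w L' then LW Λ L' else 0)
      ≤ (g2 w + g3 w) + (u * u + η) := by
    intro w
    calc _ ≤ ∑' L', (((if E2 ht dl zX cd h s E w L' then LW Λ L' else 0)
            + (if E3 ht dl zY cd h s F w L' then LW Λ L' else 0))
            + ((if HT ht L' = h then LW Λ L' *
              (if aX h (zX L') < θ ∧ bY h (zY L') < φ then 1 else 0) else 0)
            + (if E5 ht dl cd h s w L' then LW Λ L' else 0))) := by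
          refine ENNReal.tsum_le_tsum fun L => ?_
          by_cases hL : EV ht dl cd h r w L
          · rw [if_pos hL]
            obtain ⟨hh, hne, hall⟩ := hL
            by_cases hx : aX h (zX L) < θ
            · by_cases hy : bY h (zY L) < φ
              · refine le_add_left (le_add_right ?_)
                rw [if_pos hh, if_pos ⟨hx, hy⟩, mul_one]
              · by_cases h5 : ∃ k ∈ CD ht dl cd L w, h < k + s
                · refine le_add_left (le_add_left ?_)
                  rw [if_pos (show E5 ht dl cd h s w L from ⟨hh, h5⟩)]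
                · refine le_add_right (le_add_left ?_)
                  rw [if_pos (show E3 ht dl zY cd h s F w L from ⟨hh, ?_, hne, ?_⟩)]
                  · rw [hF, Set.Finite.mem_toFinset]; exact not_lt.1 hy
                  · intro k hk
                    by_contra hcon
                    exact h5 ⟨k, hk, by omega⟩
            · refine le_add_right (le_add_right ?_)
              rw [if_pos (show E2 ht dl zX cd h s E w L from ⟨hh, ?_, hne, ?_⟩)]
              · rw [hE, Set.Finite.mem_toFinset]; exact not_lt.1 hx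
              · intro k hk
                have := hall k hk
                omega
          · rw [if_neg hL]; exact zero_le
      _ ≤ _ := by
          rw [ENNReal.tsum_add, ENNReal.tsum_add, ENNReal.tsum_add]
          gcongr
          exact H5 w
  calc _ ≤ PA Λ ht a (fun L => (g2 (act dl L w) + g3 (act dl L w)) + (u * u + η)) :=
        PA_mono Λ ht a fun L _ => hpt _
    _ = (PA Λ ht a (fun L => g2 (act dl L w)) + PA Λ ht a (fun L => g3 (act dl L w)))
        + PA Λ ht a (fun _ => u * u + η) := by rw [PA_add, PA_add]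
    _ ≤ ((N * C1 + N * ep + (1 - c * u) ^ N) + (N * C1 + N * ep + (1 - c * u) ^ N))
        + (u * u + η) := by
        gcongr
        exact PA_const_le Λ ht h1 hΛ a _ _ fun _ => le_rfl
    _ = _ := by ring

open Classical in
/-- first contact depth in `(lo, hi]` -/
def EF (lo hi : ℕ) (w : W) (L : List B) : Prop :=
  (∀ k ∈ CD ht dl cd L w, lo < k) ∧ ∃ k ∈ CD ht dl cd L w, k ≤ hi

/-- tail sums -/
noncomputable def TT (r : ℕ) : ℝ≥0∞ := ∑' k, tail Λ ht (r + k)

open Classical in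
lemma sum_tail_le (r n : ℕ) :
    ∑ k ∈ Finset.range n, (if r ≤ k then tail Λ ht k else 0) ≤ TT Λ ht r := by
  have hinj : Function.Injective (fun k : ℕ => r + k) := add_right_injective r
  have hs : Function.support (fun k : ℕ => if r ≤ k then tail Λ ht k else 0)
      ⊆ Set.range (fun k : ℕ => r + k) := by
    intro k hk
    by_cases h : r ≤ k
    · exact ⟨k - r, by simp only; omega⟩
    · simp [h] at hk
  have e := hinj.tsum_eq hs
  calc _ ≤ ∑' k, (if r ≤ k then tail Λ ht k else 0) := ENNReal.sum_le_tsum _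
    _ = ∑' k, (if r ≤ r + k then tail Λ ht (r + k) else 0) := e.symm
    _ = TT Λ ht r := by
      rw [TT]
      refine tsum_congr fun k => ?_
      rw [if_pos (by omega)]

open Classical in
/-- one window -/
lemma window_le (h1 : ∀ b, 1 ≤ ht b) (hΛ : ∑' b, Λ b = 1) (hU1 : ∀ n, U Λ ht n ≤ 1)
    (hcd : ∀ w b k, k ∈ cd w b → 1 ≤ k ∧ k ≤ ht b)
    (r : ℕ) (hr : 1 ≤ r) (a0 A : ℕ) (hA : a0 + 8 * r ≤ A) (w : W) (δ : ℝ≥0∞)
    (hδ : ∀ h, 5 * r ≤ h → h ≤ 6 * r →
      PA Λ ht a0 (fun L => ∑' L', (if EV ht dl cd h r (act dl L w) L' then LW Λ L' else 0)) ≤ δ) :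
    PA Λ ht A (fun L => if EF ht dl cd (a0 + 2 * r) (a0 + 4 * r) w L then 1 else 0)
      ≤ 2 * TT Λ ht r + TT Λ ht 0 * δ := by
  set V : ℕ → W → ℝ≥0∞ := fun h w => ∑' L', (if EV ht dl cd h r w L' then LW Λ L' else 0) with hV
  have hCDp := CD_pos ht dl cd hcd
  have hlen := length_le_HT ht h1
  rw [PA_split Λ ht h1 a0 A (by omega)]
  -- the inner sum
  have inner : ∀ L1, fp ht a0 L1 → PA Λ ht (A - HT ht L1)
      (fun L => if EF ht dl cd (a0 + 2 * r) (a0 + 4 * r) w (L1 ++ L) then 1 else 0)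
      ≤ (if a0 + r < HT ht L1 then 1 else 0) + ∑ k ∈ Finset.range (6 * r + 1),
        tail Λ ht k * (if r ≤ k then 1 else V (6 * r - k) (act dl L1 w)) := by
    intro L1 hL1
    have hge := le_HT_of_fp ht hL1
    by_cases hov : a0 + r < HT ht L1
    · rw [if_pos hov]
      refine le_add_right (PA_const_le Λ ht h1 hΛ _ 1 _ fun L => ?_)
      split_ifs <;> simp
    · rw [if_neg hov, zero_add]
      set w1 := act dl L1 w with hw1
      set G : List B → ℝ≥0∞ := fun L => if HT ht L < 5 * r then 1 else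
        (if EV ht dl cd (HT ht L) r w1 L then 1 else 0) with hG
      have hlc := last_cut Λ ht h1 hΛ (6 * r) (A - HT ht L1) (by omega)
        (fun L => if EF ht dl cd (a0 + 2 * r) (a0 + 4 * r) w (L1 ++ L) then 1 else 0) G ?_
      · refine hlc.trans ?_
        have e : ∀ L : List B, (if HT ht L ≤ 6 * r then
            LW Λ L * (tail Λ ht (6 * r - HT ht L) * G L) else 0)
            ≤ ∑ k ∈ Finset.range (6 * r + 1), tail Λ ht k *
              (if r ≤ k then (if HT ht L = 6 * r - k then LW Λ L else 0)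
                else (if EV ht dl cd (6 * r - k) r w1 L then LW Λ L else 0)) := by
          intro L
          by_cases hL : HT ht L ≤ 6 * r
          · rw [if_pos hL]
            refine le_trans ?_ (Finset.single_le_sum (f := fun k => tail Λ ht k *
              (if r ≤ k then (if HT ht L = 6 * r - k then LW Λ L else 0)
                else (if EV ht dl cd (6 * r - k) r w1 L then LW Λ L else 0)))
              (fun _ _ => zero_le) (Finset.mem_range.2 (show 6 * r - HT ht L < 6 * r + 1 by omega)))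
            have e6 : 6 * r - (6 * r - HT ht L) = HT ht L := by omega
            simp only [e6, if_true, hG]
            by_cases h5 : HT ht L < 5 * r
            · rw [if_pos h5, if_pos (by omega), mul_one, mul_comm]
            · rw [if_neg h5]
              by_cases hEV : EV ht dl cd (HT ht L) r w1 L
              · rw [if_pos hEV, if_pos hEV]
                by_cases h55 : r ≤ 6 * r - HT ht L
                · rw [if_pos h55, mul_one, mul_comm]
                · rw [if_neg h55, mul_one, mul_comm]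
              · rw [if_neg hEV, mul_zero, mul_zero]; exact zero_le
          · rw [if_neg hL]; exact zero_le
        refine (ENNReal.tsum_le_tsum e).trans ?_
        rw [Summable.tsum_finsetSum (fun _ _ => ENNReal.summable)]
        refine Finset.sum_le_sum fun k _ => ?_
        rw [ENNReal.tsum_mul_left]
        gcongr
        by_cases hk : r ≤ k
        · simp only [hk, if_true]
          exact hU1 _
        · simp only [hk, if_false]
          exact le_rfl
      · intro L b R hL hLb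
        simp only [hG]
        by_cases h5 : HT ht L < 5 * r
        · rw [if_pos h5]; split_ifs <;> simp
        · rw [if_neg h5]
          by_cases hE : EF ht dl cd (a0 + 2 * r) (a0 + 4 * r) w (L1 ++ (L ++ b :: R))
          · rw [if_pos hE]
            obtain ⟨hall, k, hk, hk4⟩ := hE
            have hEV : EV ht dl cd (HT ht L) r w1 L := by
              refine ⟨rfl, ?_, ?_⟩
              · have hk' := hk
                rw [CD_append] at hk'
                rcases hk' with hk' | ⟨k', hk', rfl⟩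
                · have := hCDp L1 w k hk'
                  have := hall k hk
                  omega
                · rw [CD_append] at hk'
                  rcases hk' with hk' | ⟨k'', hk'', rfl⟩
                  · exact ⟨k', hk'⟩
                  · have := hCDp _ _ _ hk''
                    simp only at hk4
                    omega
              · intro k' hk'
                have := hall (HT ht L1 + k') (by
                  rw [CD_append]
                  refine Or.inr ⟨k', ?_, rfl⟩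
                  rw [CD_append]
                  exact Or.inl hk')
                omega
            rw [if_pos hEV]
          · rw [if_neg hE]; exact zero_le
  refine (PA_mono Λ ht a0 inner).trans ?_
  rw [PA_add, PA_sum]
  have hover : PA Λ ht a0 (fun L => if a0 + r < HT ht L then 1 else 0) ≤ TT Λ ht r := by
    refine le_trans ?_ (overshoot Λ ht h1 hU1 r a0)
    refine ENNReal.tsum_le_tsum fun P => ?_
    by_cases hP : fp ht a0 P <;> by_cases hP' : a0 + r < HT ht P <;> simp [hP, hP']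
  have hsum : ∑ k ∈ Finset.range (6 * r + 1), PA Λ ht a0 (fun L => tail Λ ht k *
      (if r ≤ k then 1 else V (6 * r - k) (act dl L w)))
      ≤ ∑ k ∈ Finset.range (6 * r + 1), ((if r ≤ k then tail Λ ht k else 0)
        + (if 0 ≤ k then tail Λ ht k else 0) * δ) := by
    refine Finset.sum_le_sum fun k hk => ?_
    have hk6 := Finset.mem_range.1 hk
    rw [if_pos (Nat.zero_le k), PA_const_mul]
    by_cases hkr : r ≤ k
    · simp only [hkr, if_true]
      refine le_add_right ?_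
      rw [PA_one Λ ht h1 hΛ, mul_one]
    · simp only [hkr, if_false, zero_add]
      gcongr
      exact hδ (6 * r - k) (by omega) (by omega)
  calc _ ≤ TT Λ ht r + ∑ k ∈ Finset.range (6 * r + 1), ((if r ≤ k then tail Λ ht k else 0)
        + (if 0 ≤ k then tail Λ ht k else 0) * δ) := add_le_add hover hsum
    _ = TT Λ ht r + (∑ k ∈ Finset.range (6 * r + 1), (if r ≤ k then tail Λ ht k else 0)
        + (∑ k ∈ Finset.range (6 * r + 1), (if 0 ≤ k then tail Λ ht k else 0)) * δ) := by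
        rw [Finset.sum_add_distrib, Finset.sum_mul]
    _ ≤ TT Λ ht r + (TT Λ ht r + TT Λ ht 0 * δ) := by
        gcongr
        · exact sum_tail_le Λ ht r _
        · exact sum_tail_le Λ ht 0 _
    _ = _ := by ring

open Classical in
/-- from the block form to first passage lists -/
lemma Kb1_le_PA (h1 : ∀ b, 1 ≤ ht b) (hΛ : ∑' b, Λ b = 1)
    (hcd : ∀ w b k, k ∈ cd w b → 1 ≤ k ∧ k ≤ ht b) (j n A : ℕ) (hA : n < A) (w : W) :
    Kb1 Λ ht dl cd j w ≤ SL Λ (3 * j) (fun L => if n < HT ht L then 1 else 0)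
      + PA Λ ht A (fun L => if EF ht dl cd j n w L then 1 else 0) := by
  have hCDp := CD_pos ht dl cd hcd
  have step1 : Kb1 Λ ht dl cd j w ≤ SL Λ (3 * j) (fun L => (if n < HT ht L then (1 : ℝ≥0∞) else 0)
      + (if HT ht L < A ∧ EF ht dl cd j n w L then 1 else 0)) := by
    rw [show 3 * j = j + 2 * j by ring, SL_add, Kb1]
    refine SL_mono Λ j fun L1 hL1 => SL_mono Λ (2 * j) fun L2 _ => ?_
    by_cases he : CD ht dl cd L1 w = ∅ ∧ CD ht dl cd L2 (act dl L1 w) ≠ ∅
    · rw [if_pos he]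
      by_cases hh : n < HT ht (L1 ++ L2)
      · simp only [hh, if_true]; exact le_self_add
      · obtain ⟨he1, he2⟩ := he
        obtain ⟨k', hk'⟩ := Set.nonempty_iff_ne_empty.2 he2
        have hk : HT ht L1 + k' ∈ CD ht dl cd (L1 ++ L2) w := by
          rw [CD_append]; exact Or.inr ⟨k', hk', rfl⟩
        have hall : ∀ k ∈ CD ht dl cd (L1 ++ L2) w, j < k := by
          intro k hk
          rw [CD_append, he1, Set.empty_union] at hk
          obtain ⟨k2, hk2, rfl⟩ := hk
          have := hCDp L2 _ _ hk2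
          have hl := length_le_HT ht h1 L1
          simp only
          omega
        have hEF : HT ht (L1 ++ L2) < A ∧ EF ht dl cd j n w (L1 ++ L2) := by
          refine ⟨by omega, hall, _, hk, ?_⟩
          have := hCDp _ _ _ hk
          omega
        rw [if_neg hh, if_pos hEF, zero_add]
    · rw [if_neg he]; exact zero_le
  refine step1.trans ?_
  rw [SL_add_fun Λ (3 * j) (fun L => if n < HT ht L then 1 else 0)]
  refine add_le_add le_rfl ?_
  refine SL_le_PA Λ ht h1 hΛ (3 * j) A (fun L => EF ht dl cd j n w L) _ ?_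
  intro L L' hL
  have : EF ht dl cd j n w (L ++ L') := by
    obtain ⟨hall, k, hk, hkn⟩ := hL
    have hkL := hCDp L w k hk
    have hjk := hall k hk
    refine ⟨?_, k, ?_, hkn⟩
    · intro k1 hk1
      rw [CD_append] at hk1
      rcases hk1 with hk1 | ⟨k2, _, rfl⟩
      · exact hall k1 hk1
      · simp only; omega
    · rw [CD_append]; exact Or.inl hk
  rw [if_pos this]

open Classical in
/-- sum over the windows -/
lemma windows (j n r Q A : ℕ) (hr : 1 ≤ r) (hjr : 2 * r ≤ j) (hn : n ≤ j + 2 * r * Q) (w : W) :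
    PA Λ ht A (fun L => if EF ht dl cd j n w L then 1 else 0)
      ≤ ∑ q ∈ Finset.range Q, PA Λ ht A (fun L => if EF ht dl cd
        ((j + 2 * r * q - 2 * r) + 2 * r) ((j + 2 * r * q - 2 * r) + 4 * r) w L then 1 else 0) := by
  rw [← PA_sum]
  refine PA_mono Λ ht A fun L _ => ?_
  by_cases hE : EF ht dl cd j n w L
  · rw [if_pos hE]
    obtain ⟨hall, k, hk, hkn⟩ := hE
    set k0 := sInf (CD ht dl cd L w) with hk0
    have hk0m : k0 ∈ CD ht dl cd L w := Nat.sInf_mem ⟨k, hk⟩
    have hmin : ∀ k ∈ CD ht dl cd L w, k0 ≤ k := fun k hk => Nat.sInf_le hk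
    have hjk := hall k0 hk0m
    have hk0n := hmin k hk
    set q := (k0 - j - 1) / (2 * r) with hq
    have hq1 : 2 * r * q ≤ k0 - j - 1 := Nat.mul_div_le _ _
    have hq2 : k0 - j - 1 < 2 * r * (q + 1) := by
      have := Nat.lt_mul_div_succ (k0 - j - 1) (show 0 < 2 * r by omega)
      simpa [hq] using this
    have hq3 : 2 * r * (q + 1) = 2 * r * q + 2 * r := by ring
    have hqQ : q < Q := by
      by_contra hcon
      have : 2 * r * Q ≤ 2 * r * q := Nat.mul_le_mul_left _ (by omega)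
      omega
    refine le_trans ?_ (Finset.single_le_sum (f := fun q => if EF ht dl cd
        ((j + 2 * r * q - 2 * r) + 2 * r) ((j + 2 * r * q - 2 * r) + 4 * r) w L
        then (1 : ℝ≥0∞) else 0)
      (fun _ _ => zero_le) (Finset.mem_range.2 hqQ))
    have : EF ht dl cd ((j + 2 * r * q - 2 * r) + 2 * r) ((j + 2 * r * q - 2 * r) + 4 * r) w L := by
      refine ⟨fun k hk => ?_, k0, hk0m, ?_⟩
      · have := hmin k hk
        omega
      · omega
    simp only [this, if_true, le_refl]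
  · rw [if_neg hE]; exact zero_le

lemma TT_tendsto (hE : TT Λ ht 0 ≠ ⊤) :
    Filter.Tendsto (TT Λ ht) Filter.atTop (nhds 0) := by
  have h0 : ∑' k, tail Λ ht k ≠ ⊤ := by simpa [TT] using hE
  have := ENNReal.tendsto_sum_nat_add (fun k => tail Λ ht k) h0
  refine this.congr fun i => ?_
  rw [TT]
  exact tsum_congr fun k => by rw [add_comm]

open Classical in
/-- the block form of KAPPA' -/
theorem kb1_small (h1 : ∀ b, 1 ≤ ht b) (hΛ : ∑' b, Λ b = 1) (hU1 : ∀ n, U Λ ht n ≤ 1)
    (hcd : ∀ w b k, k ∈ cd w b → 1 ≤ k ∧ k ≤ ht b)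
    (hpos : ∀ L w, pos (act dl L w) = pos w + zX L + zY L)
    (hprod : ∀ h (F : Z → Z → ℝ≥0∞), ∑' L, (if HT ht L = h then LW Λ L * F (zX L) (zY L) else 0)
      = ∑' z, ∑' z', aX h z * bY h z' * F z z')
    (haX : ∀ h, ∑' z, aX h z ≤ 1) (hbY : ∀ h, ∑' z, bY h z ≤ 1)
    (c : ℝ≥0∞) (hc0 : c ≠ 0) (hcX : ∀ h, c ≤ ∑' z, aX h z) (hcY : ∀ h, c ≤ ∑' z, bY h z)
    (C : ℝ≥0∞) (hC : C ≠ ⊤) (us : ℕ → ℝ≥0∞) (hus : ∀ ε : ℝ≥0∞, ε ≠ 0 → ∃ s, us s ≤ ε)
    (H2 : ∀ h s (E : Finset Z) (μ : W → ℝ≥0∞) (M lam : ℝ≥0∞), ∑' w, μ w ≤ 1 → (∀ w, μ w ≤ M) →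
      lam ≠ 0 → lam ≠ ⊤ → ∑' w, μ w * ∑' L, (if E2 ht dl zX cd h s E w L then LW Λ L else 0)
        ≤ C * (lam + M * E.card * us s / lam + us s))
    (H3 : ∀ h s (E : Finset Z) (μ : W → ℝ≥0∞) (M lam : ℝ≥0∞), ∑' w, μ w ≤ 1 → (∀ w, μ w ≤ M) →
      lam ≠ 0 → lam ≠ ⊤ → ∑' w, μ w * ∑' L, (if E3 ht dl zY cd h s E w L then LW Λ L else 0)
        ≤ C * (lam + M * E.card * us s / lam + us s))
    (H5 : ∀ (s : ℕ) (η : ℝ≥0∞), η ≠ 0 → ∃ h0 : ℕ, ∀ h, h0 ≤ h → ∀ w,
      ∑' L, (if E5 ht dl cd h s w L then LW Λ L else 0) ≤ η)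
    (hE : TT Λ ht 0 ≠ ⊤) :
    ∃ M : ℕ, ∀ j, M ≤ j → ∀ w, Kb1 Λ ht dl cd j w ≤ 1 / 8 := by
  have hct : c ≠ ⊤ := ne_top_of_le_ne_top ENNReal.one_ne_top ((hcX 0).trans (haX 0))
  set T0 := TT Λ ht 0 with hT0
  have hmean : ∑' b, Λ b * (ht b : ℝ≥0∞) = T0 := by
    rw [sum_tail Λ ht hΛ, hT0, TT]; simp
  obtain ⟨R, hR⟩ : ∃ R : ℕ, 48 * T0 ≤ (R : ℝ≥0∞) := by
    obtain ⟨N, hN⟩ := ENNReal.exists_nat_gt (ENNReal.mul_ne_top (by norm_num) hE : 48 * T0 ≠ ⊤)
    exact ⟨N, hN.le⟩
  have hci : c⁻¹ ≠ ⊤ := ENNReal.inv_ne_top.2 hc0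
  set c1 : ℝ≥0∞ := R * 9 * T0 * (2 + c⁻¹ ^ 2) + c⁻¹ ^ 4 with hc1
  have hc1t : c1 ≠ ⊤ := by
    rw [hc1]
    refine ENNReal.add_ne_top.2 ⟨ENNReal.mul_ne_top (ENNReal.mul_ne_top (ENNReal.mul_ne_top
      (ENNReal.natCast_ne_top _) (by norm_num)) hE) (ENNReal.add_ne_top.2 ⟨by norm_num,
      ENNReal.pow_ne_top hci⟩), ENNReal.pow_ne_top hci⟩
  set ε : ℝ≥0∞ := 1 / 256 with hε
  have hε0 : ε ≠ 0 := by rw [hε]; simp
  obtain ⟨N, v, _, hN1, hv0, hv1, hv2, hv3⟩ := NumK658.chooseK1 c1 hc1t ε hε0 1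
  set u : ℝ≥0∞ := v * c⁻¹ with hu
  have hcc : c * c⁻¹ = 1 := ENNReal.mul_inv_cancel hc0 hct
  have hcu : c * u = v := by
    rw [hu]; calc c * (v * c⁻¹) = v * (c * c⁻¹) := by ring
      _ = v := by rw [hcc, mul_one]
  have hu0 : u ≠ 0 := by
    rw [hu]; exact mul_ne_zero hv0 (ENNReal.inv_ne_zero.2 hct)
  have hN1' : (1 : ℝ≥0∞) ≤ (N : ℝ≥0∞) + 1 := le_add_self
  have huc : u ≤ c := by
    have h2 : (c⁻¹ ^ 2 * v) ^ 2 ≤ 1 := by
      calc (c⁻¹ ^ 2 * v) ^ 2 = c⁻¹ ^ 4 * (1 * v ^ 2) := by ring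
        _ ≤ c1 * ((N + 1) * v ^ 2) := by
            gcongr
            rw [hc1]; exact le_add_self
        _ ≤ ε := hv2
        _ ≤ 1 := by rw [hε]; exact ENNReal.div_le_of_le_mul (by norm_num)
    have h3 : c⁻¹ ^ 2 * v ≤ 1 := by
      by_contra hcon
      rw [not_le] at hcon
      exact absurd h2 (not_le.2 (one_lt_pow₀ hcon (by norm_num)))
    calc u = (c * c⁻¹) * (v * c⁻¹) := by rw [hcc, one_mul]
      _ = c * (c⁻¹ ^ 2 * v) := by ring
      _ ≤ c * 1 := by gcongr
      _ = c := mul_one _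
  set Q : ℕ := R * (7 * N + 2) with hQ
  have hQle : (Q : ℝ≥0∞) ≤ R * 9 * (N + 1) := by
    have : Q ≤ R * 9 * (N + 1) := by
      rw [hQ, mul_assoc]
      exact Nat.mul_le_mul_left _ (by omega)
    calc (Q : ℝ≥0∞) ≤ ((R * 9 * (N + 1) : ℕ) : ℝ≥0∞) := by exact_mod_cast this
      _ = _ := by push_cast; ring
  have hQt : (Q : ℝ≥0∞) ≠ ⊤ := ENNReal.natCast_ne_top _
  have hNt : (N : ℝ≥0∞) ≠ ⊤ := ENNReal.natCast_ne_top _
  set K1 : ℝ≥0∞ := Q * T0 * 2 * N * C with hK1
  have hK1t : K1 ≠ ⊤ := ENNReal.mul_ne_top (ENNReal.mul_ne_top (ENNReal.mul_ne_top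
    (ENNReal.mul_ne_top hQt hE) (by norm_num)) hNt) hC
  obtain ⟨lam, hl0, hlt, _, hlam⟩ := NumK658.chooseLam K1 hK1t ε hε0
  obtain ⟨x, hx0, hx⟩ := NumK658.chooseEta (K1 * (2 * lam⁻¹ + 1))
    (ENNReal.mul_ne_top hK1t (ENNReal.add_ne_top.2
      ⟨ENNReal.mul_ne_top (by norm_num) (ENNReal.inv_ne_top.2 hl0), ENNReal.one_ne_top⟩)) ε hε0
  obtain ⟨s, hs⟩ := hus x hx0
  obtain ⟨η, hη0, hη⟩ := NumK658.chooseEta (Q * T0) (ENNReal.mul_ne_top hQt hE) ε hε0
  obtain ⟨h0, hh0⟩ := H5 s η hη0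
  obtain ⟨r0, hr0⟩ := NumK658.chooseNat (TT Λ ht) (TT_tendsto Λ ht hE) (Q * 2 + Q * T0 * 2 * N)
    (ENNReal.add_ne_top.2 ⟨ENNReal.mul_ne_top hQt (by norm_num), ENNReal.mul_ne_top
      (ENNReal.mul_ne_top (ENNReal.mul_ne_top hQt hE) (by norm_num)) hNt⟩) ε hε0
  refine ⟨(7 * N + 2) * (r0 + s + h0 + 1), fun j hj w => ?_⟩
  set r := j / (7 * N + 2) with hr
  have hr1 : r0 + s + h0 + 1 ≤ r := by
    rw [hr, Nat.le_div_iff_mul_le (by omega), mul_comm]; exact hj
  have hrj : (7 * N + 2) * r ≤ j := Nat.mul_div_le _ _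
  have hrj2 : j < (7 * N + 2) * (r + 1) := Nat.lt_mul_div_succ j (by omega)
  have hrj' : 7 * (N * r) + 2 * r ≤ j := by
    have : (7 * N + 2) * r = 7 * (N * r) + 2 * r := by ring
    omega
  have hnQ : R * j ≤ j + 2 * r * Q := by
    calc R * j ≤ R * ((7 * N + 2) * (2 * r)) := by
          refine Nat.mul_le_mul_left _ (hrj2.le.trans (Nat.mul_le_mul_left _ (by omega)))
      _ = 2 * r * Q := by rw [hQ]; ring
      _ ≤ _ := Nat.le_add_left _ _
  refine (Kb1_le_PA Λ ht dl cd h1 hΛ hcd j (R * j) (j + 2 * r * Q + 8 * r + R * j + 1)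
    (by omega) w).trans ?_
  have hA1 : SL Λ (3 * j) (fun L => if R * j < HT ht L then 1 else 0) ≤ 1 / 16 := by
    rcases Nat.eq_zero_or_pos (R * j) with h00 | hpos'
    · -- then `T0 = 0`, impossible
      exfalso
      have hj0 : 0 < j := by
        have : 0 < (7 * N + 2) * (r0 + s + h0 + 1) := by positivity
        omega
      have hR0 : R = 0 := by
        rcases Nat.mul_eq_zero.1 h00 with h | h
        · exact h
        · omega
      have hT1 : (1 : ℝ≥0∞) ≤ T0 := by
        rw [← hmean, ← hΛ]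
        refine ENNReal.tsum_le_tsum fun b => ?_
        calc Λ b = Λ b * 1 := (mul_one _).symm
          _ ≤ Λ b * (ht b : ℝ≥0∞) := by gcongr; exact_mod_cast h1 b
      rw [hR0] at hR
      have h48 : (48 : ℝ≥0∞) * T0 ≤ 0 := by simpa using hR
      have : T0 = 0 := by
        have := le_zero_iff.1 h48
        simpa using this
      rw [this] at hT1
      simp at hT1
    · have hm := SL_markov Λ ht hΛ (3 * j) (R * j)
      rw [hmean] at hm
      set X := SL Λ (3 * j) (fun L => if R * j < HT ht L then (1 : ℝ≥0∞) else 0)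
      have h2 : (16 : ℝ≥0∞) * ((R * j : ℕ) * X) ≤ (R * j : ℕ) := by
        calc (16 : ℝ≥0∞) * ((R * j : ℕ) * X) ≤ 16 * ((3 * j : ℕ) * T0) := by gcongr
          _ = (48 * T0) * j := by push_cast; ring
          _ ≤ (R : ℝ≥0∞) * j := by gcongr
          _ = _ := by push_cast; ring
      have hp0 : ((R * j : ℕ) : ℝ≥0∞) ≠ 0 := by exact_mod_cast hpos'.ne'
      have htop : ((R * j : ℕ) : ℝ≥0∞) ≠ ⊤ := ENNReal.natCast_ne_top _
      rw [ENNReal.le_div_iff_mul_le (Or.inl (by norm_num)) (Or.inl (by norm_num)), mul_comm]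
      have h3 : ((R * j : ℕ) : ℝ≥0∞) * (16 * X) ≤ ((R * j : ℕ) : ℝ≥0∞) * 1 := by
        rw [mul_one]; calc _ = (16 : ℝ≥0∞) * ((R * j : ℕ) * X) := by ring
          _ ≤ _ := h2
      exact (ENNReal.mul_le_mul_iff_right hp0 htop).1 h3
  set δ : ℝ≥0∞ := 2 * (N * (C * (lam + 2 * us s / lam + us s)) + N * TT Λ ht r + (1 - c * u) ^ N)
    + u * u + η with hδ
  have hA2 : PA Λ ht (j + 2 * r * Q + 8 * r + R * j + 1)
      (fun L => if EF ht dl cd j (R * j) w L then 1 else 0) ≤ Q * (2 * TT Λ ht r + T0 * δ) := by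
    refine (windows Λ ht dl cd j (R * j) r Q _ (by omega) (by omega) hnQ w).trans ?_
    calc _ ≤ ∑ q ∈ Finset.range Q, (2 * TT Λ ht r + T0 * δ) := by
          refine Finset.sum_le_sum fun q hq => ?_
          have hqQ := Finset.mem_range.1 hq
          have hqQ' : 2 * r * q ≤ 2 * r * Q := Nat.mul_le_mul_left _ hqQ.le
          refine window_le Λ ht dl cd h1 hΛ hU1 hcd r (by omega) _ _ (by omega) w δ ?_
          intro h h5 h6
          refine piece_le Λ ht dl zX zY pos aX bY cd h1 hΛ hU1 hpos hprod haX hbY c hcX hcY C us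
            H2 H3 u hu0 huc lam hl0 hlt s r (by omega) h η (hh0 h (by omega)) (TT Λ ht r) ?_ N _ ?_ w
          · exact overshoot Λ ht h1 hU1 r h
          · have : N * (h + r) ≤ N * (7 * r) := Nat.mul_le_mul_left _ (by omega)
            have h7 : N * (7 * r) = 7 * (N * r) := by ring
            omega
      _ = Q * (2 * TT Λ ht r + T0 * δ) := by
          rw [Finset.sum_const, Finset.card_range, nsmul_eq_mul]
  have hfin : Q * (2 * TT Λ ht r + T0 * δ) ≤ 1 / 16 := by
    have e : (Q : ℝ≥0∞) * (2 * TT Λ ht r + T0 * δ)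
        = (Q * 2 + Q * T0 * 2 * N) * TT Λ ht r + K1 * lam + K1 * (2 * lam⁻¹ + 1) * us s
          + Q * T0 * 2 * (1 - v) ^ N + Q * T0 * (c⁻¹ ^ 2 * v ^ 2) + Q * T0 * η := by
      rw [hδ, hK1, hcu, hu, div_eq_mul_inv]; ring
    have t1 : (Q * 2 + Q * T0 * 2 * N) * TT Λ ht r ≤ ε := hr0 r (by omega)
    have t3 : K1 * (2 * lam⁻¹ + 1) * us s ≤ ε := le_trans (by gcongr) hx
    have t4 : Q * T0 * 2 * (1 - v) ^ N ≤ ε := by
      calc Q * T0 * 2 * (1 - v) ^ N ≤ (R * 9 * (N + 1)) * T0 * 2 * (1 - v) ^ N := by gcongr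
        _ = (R * 9 * T0 * 2) * ((N + 1) * (1 - v) ^ N) := by ring
        _ ≤ c1 * ((N + 1) * (1 - v) ^ N) := by
            gcongr
            rw [hc1]
            refine le_add_right ?_
            gcongr
            exact le_self_add
        _ ≤ ε := hv3
    have t5 : Q * T0 * (c⁻¹ ^ 2 * v ^ 2) ≤ ε := by
      calc Q * T0 * (c⁻¹ ^ 2 * v ^ 2) ≤ (R * 9 * (N + 1)) * T0 * (c⁻¹ ^ 2 * v ^ 2) := by gcongr
        _ = (R * 9 * T0 * c⁻¹ ^ 2) * ((N + 1) * v ^ 2) := by ring
        _ ≤ c1 * ((N + 1) * v ^ 2) := by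
            gcongr
            rw [hc1]
            refine le_add_right ?_
            gcongr
            exact le_add_self
        _ ≤ ε := hv2
    rw [e]
    calc _ ≤ ε + ε + ε + ε + ε + ε := by gcongr
      _ = 6 * ε := by ring
      _ ≤ 16 * ε := by gcongr; norm_num
      _ = 1 / 16 := by
        rw [hε, one_div, one_div, show (256 : ℝ≥0∞) = 16 * 16 by norm_num,
          ENNReal.mul_inv (by norm_num) (by norm_num), ← mul_assoc,
          ENNReal.mul_inv_cancel (by norm_num) (by norm_num), one_mul]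
  calc _ ≤ (1 / 16 : ℝ≥0∞) + 1 / 16 := add_le_add hA1 (hA2.trans hfin)
    _ = 1 / 8 := by
      rw [← two_mul, one_div, one_div, show (16 : ℝ≥0∞) = 2 * 8 by norm_num,
        ENNReal.mul_inv (by norm_num) (by norm_num), ← mul_assoc,
        ENNReal.mul_inv_cancel (by norm_num) (by norm_num), one_mul]

open Classical in
/-- **abstract form of block B5, joint cuts**: the conclusion of `abs_main1`. -/
theorem abs_mainJ [Infinite W] (h1 : ∀ b, 1 ≤ ht b)
    (hcd : ∀ w b k, k ∈ cd w b → 1 ≤ k ∧ k ≤ ht b)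
    (hinj : ∀ b, Function.Injective (dl b)) (hfar : ∀ b, {w | cd w b ≠ ∅}.Finite)
    (hpos : ∀ L w, pos (act dl L w) = pos w + zX L + zY L)
    (hprod : ∀ h (F : Z → Z → ℝ≥0∞), ∑' L, (if HT ht L = h then LW Λ L * F (zX L) (zY L) else 0)
      = ∑' z, ∑' z', aX h z * bY h z' * F z z')
    (haX : ∀ h, ∑' z, aX h z ≤ 1) (hbY : ∀ h, ∑' z, bY h z ≤ 1)
    (c : ℝ≥0∞) (hc0 : c ≠ 0) (hcX : ∀ h, c ≤ ∑' z, aX h z) (hcY : ∀ h, c ≤ ∑' z, bY h z)
    (C : ℝ≥0∞) (hC : C ≠ ⊤) (us : ℕ → ℝ≥0∞) (hus : ∀ ε : ℝ≥0∞, ε ≠ 0 → ∃ s, us s ≤ ε)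
    (H2 : ∀ h s (E : Finset Z) (μ : W → ℝ≥0∞) (M lam : ℝ≥0∞), ∑' w, μ w ≤ 1 → (∀ w, μ w ≤ M) →
      lam ≠ 0 → lam ≠ ⊤ → ∑' w, μ w * ∑' L, (if E2 ht dl zX cd h s E w L then LW Λ L else 0)
        ≤ C * (lam + M * E.card * us s / lam + us s))
    (H3 : ∀ h s (E : Finset Z) (μ : W → ℝ≥0∞) (M lam : ℝ≥0∞), ∑' w, μ w ≤ 1 → (∀ w, μ w ≤ M) →
      lam ≠ 0 → lam ≠ ⊤ → ∑' w, μ w * ∑' L, (if E3 ht dl zY cd h s E w L then LW Λ L else 0)
        ≤ C * (lam + M * E.card * us s / lam + us s))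
    (H5 : ∀ (s : ℕ) (η : ℝ≥0∞), η ≠ 0 → ∃ h0 : ℕ, ∀ h, h0 ≤ h → ∀ w,
      ∑' L, (if E5 ht dl cd h s w L then LW Λ L else 0) ≤ η)
    (F : Set W) (hF : F.Finite) :
    ∃ w, w ∉ F ∧
      ∑' L : List B, (if CD ht dl cd L w = ∅ then LW Λ L else 0) = ⊤ := by
  have hUeq : ∀ n, U Λ ht n = (∑' z, aX n z) * ∑' z, bY n z := by
    intro n
    have := hprod n (fun _ _ => 1)
    simp only [mul_one] at this
    rw [U, this, ← ENNReal.tsum_mul_right]
    exact tsum_congr fun z => ENNReal.tsum_mul_left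
  have hU : ∀ n, 0 ≤ n → c * c ≤ U Λ ht n := fun n _ => by
    rw [hUeq]; exact mul_le_mul' (hcX n) (hcY n)
  have hU1 : ∀ n, U Λ ht n ≤ 1 := fun n => by
    rw [hUeq]
    calc _ ≤ (1 : ℝ≥0∞) * 1 := mul_le_mul' (haX n) (hbY n)
      _ = 1 := one_mul 1
  have hcc0 : c * c ≠ 0 := mul_ne_zero hc0 hc0
  have hcle : c * c ≤ 1 := (hU 0 le_rfl).trans (hU1 0)
  have hc' : c * c ≠ ⊤ := ne_top_of_le_ne_top ENNReal.one_ne_top hcle
  have hΛ : ∑' b, Λ b = 1 :=
    le_antisymm (mass_le_one Λ ht h1 hU1) (mass_ge_one Λ ht (c * c) hcc0 0 hU)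
  have hEle := mean_le Λ ht h1 hΛ (c * c) hcc0 hc' 0 hU
  have hEtop : TT Λ ht 0 ≠ ⊤ := by
    have e : TT Λ ht 0 = ∑' b, Λ b * (ht b : ℝ≥0∞) := by
      rw [sum_tail Λ ht hΛ, TT]; simp
    rw [e]
    exact ne_top_of_le_ne_top (ENNReal.inv_ne_top.2 hcc0) hEle
  obtain ⟨M, hM⟩ := kb1_small Λ ht dl zX zY pos aX bY cd h1 hΛ hU1 hcd hpos hprod haX hbY c hc0
    hcX hcY C hC us hus H2 H3 H5 hEtop
  obtain ⟨J, hJ⟩ : ∃ J : ℕ, M ≤ 2 ^ J := ⟨M, Nat.lt_two_pow_self.le⟩
  have hev := G_far Λ ht dl cd hΛ hinj hfar (2 ^ (J + 2)) (1 / 2) (by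
    rw [one_div]; exact ENNReal.inv_lt_one.2 (by norm_num))
  have hev2 : ∀ᶠ w in Filter.cofinite, w ∉ F := by
    rw [Filter.eventually_cofinite]; simpa using hF
  obtain ⟨w, hw, hwF⟩ := (hev.and hev2).exists
  refine ⟨w, hwF, ?_⟩
  have := G_diverges1 Λ ht dl cd hΛ M hM w J hJ hw
  rw [← this]
  simp only [G]
  rw [← tsum_eq_tsum_SL]
  refine tsum_congr fun L => ?_
  split_ifs <;> simp

end Piece

end Crest.Agent.R154.WinJ294
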