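import Crest.Agent.R154.PFDefs_692
import Crest.Agent.R154.Num_873

/-! Row 154 (helper987, silent second of 692): pair frame, window estimate and `hK` from
`DensSt`, `SplitSt`, `HPiece`, `HPoint`. -/

set_option autoImplicit false

namespace Crest.Agent.R154.B5A

open scoped ENNReal
open Filter Topology

namespace J987

variable {B W : Type*} (Λ : B → ℝ≥0∞) (ht : B → ℕ) (dl : B → W → W) (cd : W → B → Set ℕ)

lemma fpl_zero (L : List B) : FPL ht 0 L ↔ L = [] := by
  constructor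
  · rintro ⟨-, h⟩
    by_contra hL
    exact absurd (h [] (List.nil_prefix) (Ne.symm hL)) (Nat.not_lt_zero _)
  · rintro rfl
    refine ⟨Nat.zero_le _, fun L' h h' => absurd (List.prefix_nil.1 h) h'⟩

lemma fpl_nil {a : ℕ} (ha : 0 < a) : ¬ FPL ht a [] := by
  rintro ⟨h, -⟩
  rw [HT_nil] at h
  omega

lemma fpl_cons {a : ℕ} (ha : 0 < a) (b : B) (L : List B) :
    FPL ht a (b :: L) ↔ FPL ht (a - ht b) L := by
  constructor
  · rintro ⟨h, h2⟩
    rw [HT_cons] at h
    refine ⟨by omega, fun L' hp hne => ?_⟩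
    have := h2 (b :: L') (List.cons_prefix_cons.2 ⟨rfl, hp⟩) (by simpa using hne)
    rw [HT_cons] at this
    omega
  · rintro ⟨h, h2⟩
    refine ⟨by rw [HT_cons]; omega, fun L' hp hne => ?_⟩
    cases L' with
    | nil => rw [HT_nil]; exact ha
    | cons b' L' =>
      obtain ⟨e, hp2⟩ := List.cons_prefix_cons.1 hp
      subst e
      have := h2 L' hp2 (by simpa using hne)
      rw [HT_cons]
      omega

open Classical in
lemma fpl_mass (h1 : ∀ b, 1 ≤ ht b) (hΛ : ∑' b, Λ b = 1) (a : ℕ) :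
    (∑' L : List B, if FPL ht a L then LW Λ L else 0) ≤ 1 := by
  induction a using Nat.strong_induction_on with
  | _ a ih =>
    rw [tsum_list]
    rcases Nat.eq_zero_or_pos a with rfl | ha
    · have : ∀ b : B, ∀ L : List B, (if FPL ht 0 (b :: L) then LW Λ (b :: L) else 0) = 0 := by
        intro b L
        rw [if_neg]
        rw [fpl_zero]
        simp
      simp only [this, tsum_zero, add_zero]
      split_ifs
      · rw [LW_nil]
      · exact zero_le
    · rw [if_neg (fpl_nil ht ha), zero_add, ← hΛ]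
      refine ENNReal.tsum_le_tsum fun b => ?_
      have : ∀ L : List B, (if FPL ht a (b :: L) then LW Λ (b :: L) else 0)
          = Λ b * (if FPL ht (a - ht b) L then LW Λ L else 0) := by
        intro L
        by_cases h : FPL ht (a - ht b) L
        · rw [if_pos h, if_pos ((fpl_cons ht ha b L).2 h), LW_cons]
        · rw [if_neg h, if_neg (fun h' => h ((fpl_cons ht ha b L).1 h')), mul_zero]
      rw [tsum_congr this, ENNReal.tsum_mul_left]
      calc Λ b * _ ≤ Λ b * 1 := mul_le_mul_right (ih _ (by have := h1 b; omega)) _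
        _ = Λ b := mul_one _

open Classical in
lemma sum_nuF (a : ℕ) (w : W) (f : W → ℝ≥0∞) :
    ∑' L1 : List B, (if FPL ht a L1 then LW Λ L1 * f (act dl L1 w) else 0)
      = ∑' w', nuF Λ ht dl a w w' * f w' := by
  have : ∀ w', nuF Λ ht dl a w w' * f w'
      = ∑' L : List B, (if FPL ht a L ∧ act dl L w = w' then LW Λ L * f w' else 0) := by
    intro w'
    rw [nuF, ← ENNReal.tsum_mul_right]
    refine tsum_congr fun L => ?_
    split_ifs <;> simp
  rw [tsum_congr this, ENNReal.tsum_comm]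
  refine tsum_congr fun L => ?_
  rw [tsum_eq_single (act dl L w)]
  · by_cases h : FPL ht a L
    · rw [if_pos h, if_pos ⟨h, rfl⟩]
    · rw [if_neg h, if_neg (fun h' => h h'.1)]
  · intro w' hw'
    rw [if_neg]
    rintro ⟨-, h⟩
    exact hw' h.symm

open Classical in
lemma FI_le_one (hU1 : ∀ n, U Λ ht n ≤ 1) (loc : List B → Prop) (h s : ℕ) (w : W) :
    FI Λ ht dl cd loc h s w ≤ 1 := by
  refine le_trans ?_ (hU1 h)
  rw [FI, U]
  refine ENNReal.tsum_le_tsum fun L => ?_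
  by_cases h' : HT ht L = h
  · rw [if_pos h']
    split_ifs
    · exact le_rfl
    · exact zero_le
  · rw [if_neg (fun hh => h' hh.1), if_neg h']

/-- one type -/
lemma type_est (h1 : ∀ b, 1 ≤ ht b) (hΛ : ∑' b, Λ b = 1) (hU1 : ∀ n, U Λ ht n ≤ 1)
    (hinj : ∀ b, Function.Injective (dl b)) (D : DensSt Λ ht dl)
    (q A : ℝ≥0∞) (δ : ℕ → ℝ≥0∞) (h : ℕ) (loc : List B → Prop) (HP : PType Λ ht dl cd q A δ h loc)
    (t J a s : ℕ) (lam : ℝ≥0∞) (hl : lam ≠ 0) (hl' : lam ≠ ⊤) (hh : h ≤ 4 * t)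
    (ha : 5 * t * J ≤ a) (w : W) :
    ∑' w', nuF Λ ht dl a w w' * FI Λ ht dl cd loc h s w' ≤
      A * (lam + J * δ s / lam + δ s) + ((1 - q) ^ J + J * tl Λ ht t) := by
  classical
  obtain ⟨th, hth0, hthT, low, hlow1, hlow2, hwin⟩ := HP
  have hD := D h1 hΛ hU1 hinj th q h t low hh hlow1 hlow2 J a ha w
  set nu : W → ℝ≥0∞ := fun w' => min (nuF Λ ht dl a w w') (J * th) with hnu
  have hmass : ∑' w', nuF Λ ht dl a w w' ≤ 1 := by
    have := sum_nuF Λ ht dl a w (fun _ => 1)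
    simp only [mul_one] at this
    rw [← this]
    exact fpl_mass Λ ht h1 hΛ a
  have hW := hwin s lam (J * th) hl hl' nu
    ((ENNReal.tsum_le_tsum fun w' => min_le_left _ _).trans hmass) (fun w' => min_le_right _ _)
  have hmul : (J * th : ℝ≥0∞) * th⁻¹ = J := by
    rw [mul_assoc, ENNReal.mul_inv_cancel hth0 hthT, mul_one]
  rw [hmul] at hW
  calc ∑' w', nuF Λ ht dl a w w' * FI Λ ht dl cd loc h s w'
      ≤ ∑' w', (nu w' * FI Λ ht dl cd loc h s w' + (nuF Λ ht dl a w w' - J * th)) := by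
        refine ENNReal.tsum_le_tsum fun w' => ?_
        have e : nuF Λ ht dl a w w' ≤ nu w' + (nuF Λ ht dl a w w' - J * th) := by
          rcases le_total (nuF Λ ht dl a w w') (J * th) with h' | h'
          · rw [hnu]; simp only [min_eq_left h']; exact le_self_add
          · rw [hnu]; simp only [min_eq_right h']; rw [add_tsub_cancel_of_le h']
        calc _ ≤ (nu w' + (nuF Λ ht dl a w w' - J * th)) * FI Λ ht dl cd loc h s w' :=
              mul_le_mul_left e _
          _ = nu w' * FI Λ ht dl cd loc h s w'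
              + (nuF Λ ht dl a w w' - J * th) * FI Λ ht dl cd loc h s w' := add_mul _ _ _
          _ ≤ _ := by
              gcongr
              calc _ ≤ (nuF Λ ht dl a w w' - J * th) * 1 :=
                    mul_le_mul_right (FI_le_one Λ ht dl cd hU1 loc h s w') _
                _ = _ := mul_one _
    _ = ∑' w', nu w' * FI Λ ht dl cd loc h s w' + ∑' w', (nuF Λ ht dl a w w' - J * th) :=
        ENNReal.tsum_add
    _ ≤ _ := add_le_add hW hD

open Classical in
/-- one window -/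
lemma win_est (h1 : ∀ b, 1 ≤ ht b) (hΛ : ∑' b, Λ b = 1) (hU1 : ∀ n, U Λ ht n ≤ 1)
    (hcd : ∀ w b k, k ∈ cd w b → 1 ≤ k ∧ k ≤ ht b)
    (hinj : ∀ b, Function.Injective (dl b)) (D : DensSt Λ ht dl) (S : SplitSt Λ ht)
    (c A : ℝ≥0∞) (δ : ℕ → ℝ≥0∞) (HP : HPiece Λ ht dl cd c A δ) (v : ℝ≥0∞) (hv0 : v ≠ 0)
    (hv : v ≤ c) (J i s t a n : ℕ) (lam : ℝ≥0∞) (hl : lam ≠ 0) (hl' : lam ≠ ⊤)
    (ha : 5 * t * J ≤ a) (hit : i + s ≤ t) (hn : a + i + 3 * t < n) (w : W) (β : ℝ≥0∞)
    (hPt : ∀ k, a + 3 * t ≤ k + i + s → k ≤ n →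
      (∑' L : List B, if HT ht L = n ∧ k ∈ CD ht dl cd L w then LW Λ L else 0) ≤ β) :
    (∑' L : List B, if HT ht L = n ∧ (∀ k ∈ CD ht dl cd L w, a + t < k) ∧
        ∃ k ∈ CD ht dl cd L w, k ≤ a + 2 * t then LW Λ L else 0) ≤
      (2 * i + s + 1 : ℕ) * β + (2 * tl Λ ht i + tl Λ ht 0 *
        (v * v + 2 * (A * (lam + J * δ s / lam + δ s) + ((1 - c * v) ^ J + J * tl Λ ht t)))) := by
  set I : Finset ℕ := Finset.Icc (a + 3 * t - i - s) (a + 3 * t + i) with hI
  set F : List B → ℝ≥0∞ := fun L => if (∀ k ∈ CD ht dl cd L w, a + t < k) ∧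
    (∃ k ∈ CD ht dl cd L w, k ≤ a + 2 * t) ∧ ∀ k ∈ I, k ∉ CD ht dl cd L w then 1 else 0 with hF
  set P : List B → List B → ℝ≥0∞ := fun L1 Lp => if CD ht dl cd Lp (act dl L1 w) ≠ ∅ ∧
    (∀ k ∈ CD ht dl cd Lp (act dl L1 w), s < k ∧ k + s ≤ HT ht Lp) then 1 else 0 with hP
  have hsplit := S h1 hΛ hU1 n a (3 * t) F P i hn (by omega)
    (fun L => by simp only [hF]; split_ifs <;> simp)
    (by
      intro L1 Lp R hL1 hb1 hb2 hb3 hb4
      simp only [hF, hP]
      by_cases hc : (∀ k ∈ CD ht dl cd (L1 ++ (Lp ++ R)) w, a + t < k) ∧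
        (∃ k ∈ CD ht dl cd (L1 ++ (Lp ++ R)) w, k ≤ a + 2 * t) ∧
        ∀ k ∈ I, k ∉ CD ht dl cd (L1 ++ (Lp ++ R)) w
      swap
      · rw [if_neg hc]; exact zero_le
      rw [if_pos hc, if_pos]
      obtain ⟨hc1, ⟨k0, hk0, hk0'⟩, hc3⟩ := hc
      have hin : ∀ k ∈ CD ht dl cd Lp (act dl L1 w), HT ht L1 + k ∈ CD ht dl cd (L1 ++ (Lp ++ R)) w := by
        intro k hk
        rw [CD_append]
        refine Or.inr ⟨k, ?_, rfl⟩
        rw [CD_append]
        exact Or.inl hk
      have haL := hL1.1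
      refine ⟨?_, ?_⟩
      · have hk0'' := hc1 k0 hk0
        rw [CD_append] at hk0
        rcases hk0 with hk0 | ⟨k1, hk1, rfl⟩
        · have := CD_pos ht dl cd hcd L1 w k0 hk0
          omega
        · rw [CD_append] at hk1
          rcases hk1 with hk1 | ⟨k2, hk2, rfl⟩
          · exact Set.nonempty_iff_ne_empty.1 ⟨k1, hk1⟩
          · have := CD_pos ht dl cd hcd R _ k2 hk2
            simp only at hk0'
            omega
      · intro k hk
        have e1 := hc1 _ (hin k hk)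
        have e2 := CD_pos ht dl cd hcd Lp _ k hk
        refine ⟨by omega, ?_⟩
        by_contra hcon
        refine hc3 (HT ht L1 + k) ?_ (hin k hk)
        rw [hI, Finset.mem_Icc]
        omega)
  have step1 : (∑' L : List B, if HT ht L = n ∧ (∀ k ∈ CD ht dl cd L w, a + t < k) ∧
        ∃ k ∈ CD ht dl cd L w, k ≤ a + 2 * t then LW Λ L else 0) ≤
      (∑ k ∈ I, ∑' L : List B, if HT ht L = n ∧ k ∈ CD ht dl cd L w then LW Λ L else 0)
      + ∑' L : List B, if HT ht L = n then LW Λ L * F L else 0 := by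
    rw [← Summable.tsum_finsetSum (fun _ _ => ENNReal.summable), ← ENNReal.tsum_add]
    refine ENNReal.tsum_le_tsum fun L => ?_
    by_cases hc : HT ht L = n ∧ (∀ k ∈ CD ht dl cd L w, a + t < k) ∧
        ∃ k ∈ CD ht dl cd L w, k ≤ a + 2 * t
    · rw [if_pos hc]
      by_cases hc' : ∀ k ∈ I, k ∉ CD ht dl cd L w
      · refine le_trans ?_ le_add_self
        rw [if_pos hc.1]
        simp only [hF]
        rw [if_pos ⟨hc.2.1, hc.2.2, hc'⟩, mul_one]
      · push Not at hc'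
        obtain ⟨k, hk, hk'⟩ := hc'
        refine le_trans ?_ le_self_add
        refine le_trans ?_ (Finset.single_le_sum (f := fun k => if HT ht L = n ∧
          k ∈ CD ht dl cd L w then LW Λ L else 0) (fun _ _ => zero_le) hk)
        rw [if_pos ⟨hc.1, hk'⟩]
    · rw [if_neg hc]; exact zero_le
  refine step1.trans (add_le_add ?_ (hsplit.trans ?_))
  · calc _ ≤ ∑ _k ∈ I, β := by
          refine Finset.sum_le_sum fun k hk => hPt k ?_ ?_
          · rw [hI, Finset.mem_Icc] at hk; omega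
          · rw [hI, Finset.mem_Icc] at hk; omega
      _ = (I.card : ℝ≥0∞) * β := by rw [Finset.sum_const, nsmul_eq_mul]
      _ ≤ _ := by
          refine mul_le_mul_left ?_ _
          rw [hI, Nat.card_Icc]
          exact_mod_cast (by omega : a + 3 * t + i + 1 - (a + 3 * t - i - s) ≤ 2 * i + s + 1)
  · refine add_le_add_right ?_ _
    set X : ℝ≥0∞ := v * v + 2 * (A * (lam + J * δ s / lam + δ s) + ((1 - c * v) ^ J + J * tl Λ ht t))
      with hX
    have hXh : ∀ h ∈ Finset.range (3 * t + 1),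
        (∑' L1 : List B, (if FPL ht a L1 then LW Λ L1 *
          ∑' Lp : List B, (if HT ht Lp = h then LW Λ Lp * P L1 Lp else 0) else 0)) ≤ X := by
      intro h hh
      rw [Finset.mem_range] at hh
      obtain ⟨lx, ly, hxy, HX, HY⟩ := HP v hv0 hv h
      have hinner : ∀ L1 : List B,
          (∑' Lp : List B, (if HT ht Lp = h then LW Λ Lp * P L1 Lp else 0)) ≤
          v * v + (FI Λ ht dl cd lx h s (act dl L1 w) + FI Λ ht dl cd ly h s (act dl L1 w)) := by
        intro L1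
        refine le_trans ?_ (add_le_add_left hxy _)
        rw [FI, FI, ← ENNReal.tsum_add, ← ENNReal.tsum_add]
        refine ENNReal.tsum_le_tsum fun Lp => ?_
        by_cases hc : HT ht Lp = h
        swap
        · rw [if_neg hc]; exact zero_le
        rw [if_pos hc]
        simp only [hP]
        by_cases hc2 : CD ht dl cd Lp (act dl L1 w) ≠ ∅ ∧
          (∀ k ∈ CD ht dl cd Lp (act dl L1 w), s < k ∧ k + s ≤ HT ht Lp)
        swap
        · rw [if_neg hc2, mul_zero]; exact zero_le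
        rw [if_pos hc2, mul_one]
        rw [hc] at hc2
        by_cases hx : lx Lp
        · refine le_trans ?_ le_add_self
          refine le_trans ?_ le_self_add
          rw [if_pos ⟨hc, hx, hc2⟩]
        · by_cases hy : ly Lp
          · refine le_trans ?_ le_add_self
            refine le_trans ?_ le_add_self
            rw [if_pos ⟨hc, hy, hc2⟩]
          · refine le_trans ?_ le_self_add
            rw [if_pos ⟨hc, hx, hy⟩]
      calc _ ≤ ∑' L1 : List B, ((if FPL ht a L1 then LW Λ L1 else 0) * (v * v)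
              + ((if FPL ht a L1 then LW Λ L1 * FI Λ ht dl cd lx h s (act dl L1 w) else 0)
              + (if FPL ht a L1 then LW Λ L1 * FI Λ ht dl cd ly h s (act dl L1 w) else 0))) := by
            refine ENNReal.tsum_le_tsum fun L1 => ?_
            by_cases hc : FPL ht a L1
            · simp only [if_pos hc]
              rw [← mul_add, ← mul_add]
              exact mul_le_mul_right (hinner L1) _
            · simp only [if_neg hc]; exact zero_le
        _ = (∑' L1 : List B, (if FPL ht a L1 then LW Λ L1 else 0)) * (v * v)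
            + ((∑' w', nuF Λ ht dl a w w' * FI Λ ht dl cd lx h s w')
            + (∑' w', nuF Λ ht dl a w w' * FI Λ ht dl cd ly h s w')) := by
            rw [ENNReal.tsum_add, ENNReal.tsum_add, ENNReal.tsum_mul_right,
              sum_nuF Λ ht dl a w (fun w' => FI Λ ht dl cd lx h s w'),
              sum_nuF Λ ht dl a w (fun w' => FI Λ ht dl cd ly h s w')]
        _ ≤ 1 * (v * v) + ((A * (lam + J * δ s / lam + δ s) + ((1 - c * v) ^ J + J * tl Λ ht t))
            + (A * (lam + J * δ s / lam + δ s) + ((1 - c * v) ^ J + J * tl Λ ht t))) := by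
            refine add_le_add (mul_le_mul_left (fpl_mass Λ ht h1 hΛ a) _) (add_le_add ?_ ?_)
            · exact type_est Λ ht dl cd h1 hΛ hU1 hinj D (c * v) A δ h lx HX t J a s lam hl hl'
                (by omega) ha w
            · exact type_est Λ ht dl cd h1 hΛ hU1 hinj D (c * v) A δ h ly HY t J a s lam hl hl'
                (by omega) ha w
        _ = X := by rw [hX, one_mul, two_mul]
    calc _ ≤ ∑ h ∈ Finset.range (3 * t + 1), tail Λ ht (3 * t - h) * X :=
          Finset.sum_le_sum fun h hh => mul_le_mul_right (hXh h hh) _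
      _ = (∑ h ∈ Finset.range (3 * t + 1), tail Λ ht h) * X := by
          rw [← Finset.sum_mul]
          congr 1
          rw [← Finset.sum_range_reflect (fun h => tail Λ ht h) (3 * t + 1)]
          refine Finset.sum_congr rfl fun h hh => ?_
          rw [Finset.mem_range] at hh
          congr 1
      _ ≤ tl Λ ht 0 * X := by
          refine mul_le_mul_left ?_ _
          unfold tl
          simp only [Nat.zero_add]
          exact ENNReal.sum_le_tsum _

lemma exists_small (f : ℕ → ℝ≥0∞) (hf : Tendsto f atTop (𝓝 0)) (C : ℝ≥0∞) (hC : C ≠ ⊤)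
    (e : ℝ≥0∞) (he : e ≠ 0) : ∃ N, ∀ n, N ≤ n → C * f n ≤ e := by
  have h := ENNReal.Tendsto.const_mul hf (Or.inr hC)
  rw [mul_zero] at h
  obtain ⟨N, hN⟩ := Filter.eventually_atTop.1 (h.eventually (Iic_mem_nhds (pos_iff_ne_zero.2 he)))
  exact ⟨N, fun n hn => hN n hn⟩

open Classical in
lemma kap_le (K t m n : ℕ) (hK : 1 ≤ K) (ht1 : K ≤ t) (hm1 : K * t ≤ m) (hm2 : m < K * (t + 1))
    (w : W) (R : ℝ≥0∞)
    (hR : ∀ j ∈ Finset.Icc K (2 * K + 1),
      (∑' L : List B, if HT ht L = n ∧ (∀ k ∈ CD ht dl cd L w, (j - 1) * t + t < k) ∧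
        ∃ k ∈ CD ht dl cd L w, k ≤ (j - 1) * t + 2 * t then LW Λ L else 0) ≤ R) :
    Kap1 Λ ht dl cd n m w ≤ (K + 2 : ℕ) * R := by
  have h1 : Kap1 Λ ht dl cd n m w ≤ ∑ j ∈ Finset.Icc K (2 * K + 1),
      (∑' L : List B, if HT ht L = n ∧ (∀ k ∈ CD ht dl cd L w, (j - 1) * t + t < k) ∧
        ∃ k ∈ CD ht dl cd L w, k ≤ (j - 1) * t + 2 * t then LW Λ L else 0) := by
    rw [Kap1, ← Summable.tsum_finsetSum (fun _ _ => ENNReal.summable)]
    refine ENNReal.tsum_le_tsum fun L => ?_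
    by_cases hc : HT ht L = n ∧ (∀ k ∈ CD ht dl cd L w, m < k) ∧ ∃ k ∈ CD ht dl cd L w, k ≤ 2 * m
    swap
    · rw [if_neg hc]; exact zero_le
    rw [if_pos hc]
    obtain ⟨hn, hall, k', hk', hk'2⟩ := hc
    have hne : (CD ht dl cd L w).Nonempty := ⟨_, hk'⟩
    set k0 := sInf (CD ht dl cd L w) with hk0
    have hk0m : k0 ∈ CD ht dl cd L w := Nat.sInf_mem hne
    have hmin : ∀ k ∈ CD ht dl cd L w, k0 ≤ k := fun k hk => Nat.sInf_le hk
    have hb1 : m < k0 := hall _ hk0m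
    have hb2 : k0 ≤ 2 * m := (hmin _ hk').trans hk'2
    have htpos : 0 < t := by omega
    set j := (k0 - 1) / t with hj
    have hj1 : j * t ≤ k0 - 1 := Nat.div_mul_le_self _ _
    have hj2 : k0 - 1 < (j + 1) * t := by
      have := Nat.lt_mul_div_succ (k0 - 1) htpos
      rw [mul_comm]
      exact this
    have hjK : K ≤ j := by
      rw [hj, Nat.le_div_iff_mul_le htpos]
      omega
    have hj2K : j ≤ 2 * K + 1 := by
      have : j < 2 * K + 2 := by
        rw [hj, Nat.div_lt_iff_lt_mul htpos]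
        have e1 : K * (t + 1) = K * t + K := by ring
        have e2 : (2 * K + 2) * t = 2 * (K * t) + 2 * t := by ring
        omega
      omega
    have hjm : (j - 1) * t + t = j * t := by
      obtain ⟨j', hj'⟩ : ∃ j', j = j' + 1 := ⟨j - 1, by omega⟩
      rw [hj']
      simp only [Nat.add_sub_cancel]
      ring
    refine le_trans ?_ (Finset.single_le_sum (f := fun j => if HT ht L = n ∧
      (∀ k ∈ CD ht dl cd L w, (j - 1) * t + t < k) ∧
        ∃ k ∈ CD ht dl cd L w, k ≤ (j - 1) * t + 2 * t then LW Λ L else 0)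
      (fun _ _ => zero_le) (Finset.mem_Icc.2 ⟨hjK, hj2K⟩))
    rw [if_pos]
    refine ⟨hn, fun k hk => ?_, k0, hk0m, ?_⟩
    · have := hmin k hk
      rw [hjm]
      omega
    · have e : (j - 1) * t + 2 * t = (j + 1) * t := by
        have : (j - 1) * t + 2 * t = ((j - 1) * t + t) + t := by ring
        rw [this, hjm]; ring
      rw [e]
      omega
  refine h1.trans ?_
  calc _ ≤ ∑ _j ∈ Finset.Icc K (2 * K + 1), R := Finset.sum_le_sum hR
    _ = (K + 2 : ℕ) * R := by
        rw [Finset.sum_const, nsmul_eq_mul, Nat.card_Icc]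
        congr 2
        omega

/-- **`hK` of `abs_main2`** in the pair frame. -/
theorem hK_of (h1 : ∀ b, 1 ≤ ht b) (hΛ : ∑' b, Λ b = 1) (hU1 : ∀ n, U Λ ht n ≤ 1)
    (hcd : ∀ w b k, k ∈ cd w b → 1 ≤ k ∧ k ≤ ht b)
    (hinj : ∀ b, Function.Injective (dl b)) (D : DensSt Λ ht dl) (S : SplitSt Λ ht)
    (hE : ∑' b, Λ b * (ht b : ℝ≥0∞) ≠ ⊤)
    (c A : ℝ≥0∞) (hc0 : c ≠ 0) (hcT : c ≠ ⊤) (hA : A ≠ ⊤) (δ : ℕ → ℝ≥0∞)
    (hδ : Tendsto δ atTop (𝓝 0))
    (HP : HPiece Λ ht dl cd c A δ) (HPt : HPoint Λ ht dl cd) :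
    ∀ ε : ℝ≥0∞, ε ≠ 0 → ∃ M : ℕ, ∀ m, M ≤ m → ∃ n0 : ℕ, ∀ n, n0 ≤ n → ∀ w,
      Kap1 Λ ht dl cd n m w ≤ ε := by
  intro ε' hε'
  -- make `ε` finite
  set ε : ℝ≥0∞ := min ε' 1 with hεd
  have hε : ε ≠ 0 := by
    rw [hεd]; exact (lt_min (pos_iff_ne_zero.2 hε') one_pos).ne'
  have hεT : ε ≠ ⊤ := ne_top_of_le_ne_top ENNReal.one_ne_top (min_le_right _ _)
  set e : ℝ≥0∞ := ε / 8 with he
  have he0 : e ≠ 0 := by
    rw [he, Ne, ENNReal.div_eq_zero_iff, not_or]
    exact ⟨hε, by norm_num⟩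
  have heT : e ≠ ⊤ := ENNReal.div_ne_top hεT (by norm_num)
  have h8 : 8 * e ≤ ε' := by
    calc 8 * e = ε := by rw [he, ENNReal.mul_div_cancel (by norm_num) (by norm_num)]
      _ ≤ ε' := min_le_left _ _
  -- mean height
  set E : ℝ≥0∞ := tl Λ ht 0 with hEd
  have hE' : E ≠ ⊤ := by
    have : E = ∑' b, Λ b * (ht b : ℝ≥0∞) := by
      rw [sum_tail Λ ht hΛ, hEd, tl]
      simp only [Nat.zero_add]
    rw [this]; exact hE
  have htail : ∑' k, tail Λ ht k ≠ ⊤ := by
    rw [← sum_tail Λ ht hΛ]; exact hE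
  have htl : Tendsto (fun i => tl Λ ht i) atTop (𝓝 0) := by
    have := ENNReal.tendsto_sum_nat_add (fun k => tail Λ ht k) htail
    refine this.congr fun i => ?_
    unfold tl
    exact tsum_congr fun k => by rw [add_comm]
  obtain ⟨Q, hQ⟩ : ∃ Q : ℕ, E + c⁻¹ ≤ Q := by
    obtain ⟨N, hN⟩ := ENNReal.exists_nat_gt (ENNReal.add_ne_top.2 ⟨hE', ENNReal.inv_ne_top.2 hc0⟩)
    exact ⟨N, hN.le⟩
  have hEQ : E ≤ Q := le_self_add.trans hQ
  have hcQ : c⁻¹ ≤ Q := le_add_self.trans hQ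
  set c' : ℕ := 6 + 2 * Q + Q ^ 3 with hc'
  obtain ⟨K0, hK0⟩ := Num873.num c' (by omega) (min e (c ^ 4))
    (by exact (lt_min (pos_iff_ne_zero.2 he0) (pos_iff_ne_zero.2 (pow_ne_zero _ hc0))).ne')
  set K : ℕ := max K0 6 with hKd
  obtain ⟨u, hu0, hu1, hn1, hn2⟩ := hK0 K (le_max_left _ _)
  have hK6 : 6 ≤ K := le_max_right _ _
  have huc : u ≤ c ^ 2 := by
    have h1 : u ^ 2 ≤ (c ^ 2) ^ 2 := by
      calc u ^ 2 = 1 * u ^ 2 := (one_mul _).symm
        _ ≤ ((c' * (K + c') : ℕ) : ℝ≥0∞) * u ^ 2 := by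
            refine mul_le_mul_left ?_ _
            have : 1 ≤ c' * (K + c') := Nat.mul_pos (by omega) (by omega)
            exact_mod_cast this
        _ ≤ c ^ 4 := hn1.trans (min_le_right _ _)
        _ = (c ^ 2) ^ 2 := by rw [← pow_mul]
    exact (ENNReal.pow_le_pow_left_iff (by norm_num)).1 h1
  set v : ℝ≥0∞ := u * c⁻¹ with hvd
  have hv0 : v ≠ 0 := mul_ne_zero hu0 (ENNReal.inv_ne_zero.2 hcT)
  have hvc : v ≤ c := by
    calc v ≤ c ^ 2 * c⁻¹ := mul_le_mul_left huc _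
      _ = c := by rw [pow_two, mul_assoc, ENNReal.mul_inv_cancel hc0 hcT, mul_one]
  have hcv : c * v = u := by
    rw [hvd, mul_comm u, ← mul_assoc, ENNReal.mul_inv_cancel hc0 hcT, one_mul]
  have hvQ : v ≤ u * Q := by rw [hvd]; exact mul_le_mul_right hcQ _
  set J : ℕ := K / c' with hJd
  set C1 : ℝ≥0∞ := ((K + 2 : ℕ) : ℝ≥0∞) with hC1
  have hC1T : C1 ≠ ⊤ := ENNReal.natCast_ne_top _
  have T1 : C1 * (E * (v * v)) ≤ e := by
    calc C1 * (E * (v * v)) ≤ C1 * (Q * ((u * Q) * (u * Q))) := by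
          gcongr
      _ = ((((K + 2) * Q ^ 3 : ℕ)) : ℝ≥0∞) * u ^ 2 := by rw [hC1]; push_cast; ring
      _ ≤ ((c' * (K + c') : ℕ) : ℝ≥0∞) * u ^ 2 := by
          refine mul_le_mul_left ?_ _
          have : (K + 2) * Q ^ 3 ≤ c' * (K + c') := by
            rw [mul_comm]
            exact Nat.mul_le_mul (by omega) (by omega)
          exact_mod_cast this
      _ ≤ e := hn1.trans (min_le_left _ _)
  have T2 : C1 * (E * (2 * (1 - u) ^ J)) ≤ e := by
    calc C1 * (E * (2 * (1 - u) ^ J)) ≤ C1 * (Q * (2 * (1 - u) ^ J)) := by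
          gcongr
      _ = ((((K + 2) * (2 * Q) : ℕ)) : ℝ≥0∞) * (1 - u) ^ J := by rw [hC1]; push_cast; ring
      _ ≤ ((c' * (K + c') : ℕ) : ℝ≥0∞) * (1 - u) ^ J := by
          refine mul_le_mul_left ?_ _
          have : (K + 2) * (2 * Q) ≤ c' * (K + c') := by
            rw [mul_comm]
            exact Nat.mul_le_mul (by omega) (by omega)
          exact_mod_cast this
      _ ≤ e := hn2.trans (min_le_left _ _)
  obtain ⟨i, hi⟩ := exists_small (fun i => tl Λ ht i) htl (C1 * 2)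
    (ENNReal.mul_ne_top hC1T (by norm_num)) e he0
  have T3 : C1 * (2 * tl Λ ht i) ≤ e := by
    have := hi i le_rfl
    rwa [mul_assoc] at this
  -- lam
  set Z : ℝ≥0∞ := C1 * (E * (2 * A)) with hZ
  have hZT : Z ≠ ⊤ := ENNReal.mul_ne_top hC1T (ENNReal.mul_ne_top hE'
    (ENNReal.mul_ne_top (by norm_num) hA))
  set lam : ℝ≥0∞ := e / (Z + 1) with hlam
  have hZ1 : Z + 1 ≠ ⊤ := ENNReal.add_ne_top.2 ⟨hZT, ENNReal.one_ne_top⟩
  have hl0 : lam ≠ 0 := by
    rw [hlam, Ne, ENNReal.div_eq_zero_iff, not_or]; exact ⟨he0, hZ1⟩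
  have hlT : lam ≠ ⊤ := ENNReal.div_ne_top heT (by simp)
  have T4 : C1 * (E * (2 * (A * lam))) ≤ e := by
    calc C1 * (E * (2 * (A * lam))) = Z * lam := by rw [hZ]; ring
      _ ≤ (Z + 1) * lam := mul_le_mul_left le_self_add _
      _ = e := by rw [hlam, ENNReal.mul_div_cancel (by simp) hZ1]
  obtain ⟨s1, hs1⟩ := exists_small δ hδ (Z * (J / lam))
    (ENNReal.mul_ne_top hZT (ENNReal.div_ne_top (ENNReal.natCast_ne_top _) hl0)) e he0
  obtain ⟨s2, hs2⟩ := exists_small δ hδ Z hZT e he0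
  set s : ℕ := max s1 s2 with hsd
  have hs : Z * (J / lam) * δ s ≤ e := hs1 s (le_max_left _ _)
  have T8 : C1 * (E * (2 * (A * δ s))) ≤ e := by
    calc C1 * (E * (2 * (A * δ s))) = Z * δ s := by rw [hZ]; ring
      _ ≤ e := hs2 s (le_max_right _ _)
  have T5 : C1 * (E * (2 * (A * (J * δ s / lam)))) ≤ e := by
    calc C1 * (E * (2 * (A * (J * δ s / lam)))) = Z * (J / lam) * δ s := by
          rw [hZ, div_eq_mul_inv, div_eq_mul_inv]; ring
      _ ≤ e := hs
  set β : ℝ≥0∞ := e / (C1 * (2 * i + s + 1 : ℕ)) with hβ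
  have hβZ : C1 * (2 * i + s + 1 : ℕ) ≠ ⊤ := ENNReal.mul_ne_top hC1T (ENNReal.natCast_ne_top _)
  have hβZ0 : C1 * (2 * i + s + 1 : ℕ) ≠ 0 := by
    refine mul_ne_zero ?_ ?_
    · rw [hC1]; exact_mod_cast (by omega : K + 2 ≠ 0)
    · exact_mod_cast (by omega : 2 * i + s + 1 ≠ 0)
  have hβ0 : β ≠ 0 := by
    rw [hβ, Ne, ENNReal.div_eq_zero_iff, not_or]; exact ⟨he0, hβZ⟩
  have T6 : C1 * ((2 * i + s + 1 : ℕ) * β) ≤ e := by
    rw [← mul_assoc, hβ, ENNReal.mul_div_cancel hβZ0 hβZ]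
  obtain ⟨k0, hk0⟩ := HPt β hβ0
  obtain ⟨t0, ht0⟩ := exists_small (fun i => tl Λ ht i) htl (C1 * (E * (2 * J)))
    (ENNReal.mul_ne_top hC1T (ENNReal.mul_ne_top hE'
      (ENNReal.mul_ne_top (by norm_num) (ENNReal.natCast_ne_top _)))) e he0
  refine ⟨K * (t0 + K + i + s + k0), fun m hm => ⟨7 * m + 1, fun n hn w => ?_⟩⟩
  set t : ℕ := m / K with htd
  have htT : t0 + K + i + s + k0 ≤ t := by
    rw [htd, Nat.le_div_iff_mul_le (by omega)]
    calc _ = K * (t0 + K + i + s + k0) := mul_comm _ _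
      _ ≤ m := hm
  have hm1 : K * t ≤ m := Nat.mul_div_le m K
  have hm2 : m < K * (t + 1) := Nat.lt_mul_div_succ m (by omega)
  have T7 : C1 * (E * (2 * (J * tl Λ ht t))) ≤ e := by
    calc C1 * (E * (2 * (J * tl Λ ht t))) = C1 * (E * (2 * J)) * tl Λ ht t := by ring
      _ ≤ e := ht0 t (by omega)
  have hJK : 5 * J ≤ K - 1 := by
    have : J ≤ K / 6 := Nat.div_le_div_left (by omega) (by norm_num)
    omega
  have hwin := kap_le Λ ht dl cd K t m n (by omega) (by omega) hm1 hm2 w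
    ((2 * i + s + 1 : ℕ) * β + (2 * tl Λ ht i + tl Λ ht 0 *
        (v * v + 2 * (A * (lam + J * δ s / lam + δ s) + ((1 - c * v) ^ J + J * tl Λ ht t)))))
    (fun j hj => by
      rw [Finset.mem_Icc] at hj
      have hjt : (j - 1) * t ≤ 2 * m := by
        calc (j - 1) * t ≤ (2 * K) * t := Nat.mul_le_mul_right _ (by omega)
          _ = 2 * (K * t) := by ring
          _ ≤ 2 * m := by omega
      have htm : t ≤ m := Nat.div_le_self _ _
      refine win_est Λ ht dl cd h1 hΛ hU1 hcd hinj D S c A δ HP v hv0 hvc J i s t ((j - 1) * t) n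
        lam hl0 hlT ?_ (by omega) (by omega) w β (fun k hk hkn => hk0 k (by omega) n hkn w)
      calc 5 * t * J = (5 * J) * t := by ring
        _ ≤ (K - 1) * t := Nat.mul_le_mul_right _ hJK
        _ ≤ (j - 1) * t := Nat.mul_le_mul_right _ (by omega))
  refine hwin.trans ?_
  rw [hcv]
  calc C1 * ((2 * i + s + 1 : ℕ) * β + (2 * tl Λ ht i + E *
        (v * v + 2 * (A * (lam + J * δ s / lam + δ s) + ((1 - u) ^ J + J * tl Λ ht t)))))
      = C1 * ((2 * i + s + 1 : ℕ) * β) + C1 * (2 * tl Λ ht i) + C1 * (E * (v * v))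
        + C1 * (E * (2 * (A * lam))) + C1 * (E * (2 * (A * (J * δ s / lam))))
        + C1 * (E * (2 * (A * δ s)))
        + C1 * (E * (2 * (1 - u) ^ J)) + C1 * (E * (2 * (J * tl Λ ht t))) := by ring
    _ ≤ e + e + e + e + e + e + e + e := by gcongr
    _ = 8 * e := by ring
    _ ≤ ε' := h8

end J987

end Crest.Agent.R154.B5A
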