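import Crest.Agent.R154.WinP_267

/-! Row 154, ROAD 801 (helper267): KAPPA' in list letters from the window lemmas H2, H3 and the
slab lemma. -/

set_option autoImplicit false

namespace Crest.Agent.R154.Win267

open scoped ENNReal Topology
open Filter
open Crest.Agent.R154.B5A

section K
variable {BX BY G : Type*} [AddCommGroup G]
variable (ΛX : BX → ℝ≥0∞) (hX : BX → ℕ) (zX : BX → G) (sX : BX → Set (G × ℕ))
variable (ΛY : BY → ℝ≥0∞) (hY : BY → ℕ) (zY : BY → G) (sY : BY → Set (G × ℕ))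
variable (Lt : G → Prop)

/-- contact predicate of the window lemmas -/
def Cq (lo hi : ℕ) (a a' : ℕ) (P : List BX) (P' : List BY) (x : G) : Prop :=
  Lt x ∧ (∃ z k, (z, k) ∈ TT zX hX sX P 0 a ∧ (z, k) ∈ TT zY hY sY P' x a') ∧
  ∀ z k, (z, k) ∈ TT zX hX sX P 0 a → (z, k) ∈ TT zY hY sY P' x a' → lo ≤ k ∧ k ≤ hi

/-- window lemma (2), list form -/
def H2L (C : ℝ≥0∞) (us : ℕ → ℝ≥0∞) : Prop :=
  ∀ (s h h' a a' lo hi : ℕ) (E : Finset G) (μ : G → ℝ≥0∞) (M lam : ℝ≥0∞),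
    ∑' x, μ x ≤ 1 → (∀ x, μ x ≤ M) → lam ≠ 0 → lam ≠ ⊤ → a < a' → a + h < a' + h' →
    a + s ≤ lo → a' + s ≤ lo → hi + s ≤ a + h → hi + s ≤ a' + h' →
    ∑' x, μ x * ∑' P, ∑' P', ind (HT hX P = h ∧ HT hY P' = h' ∧
      (Dp zX P ∈ E ∧ Cq hX zX sX hY zY sY Lt lo hi a a' P P' x)) * (LW ΛX P * LW ΛY P')
      ≤ C * (lam + M * E.card * us s / lam + us s)

/-- window lemma (3), list form -/
def H3L (C : ℝ≥0∞) (us : ℕ → ℝ≥0∞) : Prop :=
  ∀ (s h h' a a' lo hi : ℕ) (E : Finset G) (μ : G → ℝ≥0∞) (M lam : ℝ≥0∞),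
    ∑' x, μ x ≤ 1 → (∀ x, μ x ≤ M) → lam ≠ 0 → lam ≠ ⊤ → a < a' → a + h < a' + h' →
    a + s ≤ lo → a' + s ≤ lo → hi + s ≤ a + h → hi + s ≤ a' + h' →
    ∑' x, μ x * ∑' P, ∑' P', ind (HT hX P = h ∧ HT hY P' = h' ∧
      (Dp zY P' ∈ E ∧ Cq hX zX sX hY zY sY Lt lo hi a a' P P' x)) * (LW ΛX P * LW ΛY P')
      ≤ C * (lam + M * E.card * us s / lam + us s)

/-- the window event gives the piece event -/
lemma cq_of_ev (hsX : ∀ b p k, (p, k) ∈ sX b → 1 ≤ k ∧ k ≤ hX b)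
    (hsY : ∀ b p k, (p, k) ∈ sY b → 1 ≤ k ∧ k ≤ hY b)
    (hLt : ∀ w (L : List BX) (L' : List BY), Lt w → Lt (w + Dp zY L' - Dp zX L))
    (s i0 a t : ℕ) (hst : s + 2 * i0 + 1 ≤ t) (w : G) (hw : Lt w)
    (A P R : List BX) (A' P' R' : List BY)
    (hA : a ≤ HT hX A) (hA1 : HT hX A ≤ a + i0) (hP : 3 * t ≤ HT hX P) (hP1 : HT hX P ≤ 3 * t + i0)
    (hA' : a + i0 + 1 ≤ HT hY A') (hA1' : HT hY A' ≤ a + i0 + 1 + i0)
    (hP' : 3 * t + i0 + 1 ≤ HT hY P') (hP1' : HT hY P' ≤ 3 * t + i0 + 1 + i0)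
    (hE : EvW hX zX sX hY zY sY (a + t) t (a + 3 * t - s) (a + 3 * t + 2 * i0) w
      (A ++ (P ++ R)) (A' ++ (P' ++ R'))) :
    Cq hX zX sX hY zY sY Lt (a + t) (a + 3 * t - s) (HT hX A) (HT hY A') P P'
      (w + Dp zY A' - Dp zX A) := by
  have kX : ∀ z k, (z, k) ∈ TT zX hX sX P 0 (HT hX A) →
      (z + Dp zX A, k) ∈ TT zX hX sX (A ++ (P ++ R)) 0 0 := by
    intro z k hz
    rw [TT_append, TT_append]
    refine Or.inr (Or.inl ?_)
    rw [Nat.zero_add, TT_shift, add_sub_cancel_right]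
    exact hz
  have kY : ∀ z k, (z, k) ∈ TT zY hY sY P' (w + Dp zY A' - Dp zX A) (HT hY A') →
      (z + Dp zX A, k) ∈ TT zY hY sY (A' ++ (P' ++ R')) w 0 := by
    intro z k hz
    rw [TT_append, TT_append]
    refine Or.inr (Or.inl ?_)
    rw [Nat.zero_add]
    have e : w + Dp zY A' = (w + Dp zY A' - Dp zX A) + Dp zX A := by abel
    rw [e, TT_shift, add_sub_cancel_right]
    exact hz
  obtain ⟨⟨z, k, hk1, hk2, hzX, hzY⟩, hall, hsl⟩ := hE
  refine ⟨hLt w A A' hw, ⟨z - Dp zX A, k, ?_, ?_⟩, ?_⟩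
  · rw [TT_append, TT_append] at hzX
    rcases hzX with h | h | h
    · have := TT_depth zX hX sX hsX _ _ _ _ _ h; omega
    · rw [Nat.zero_add, TT_shift] at h; exact h
    · have := TT_depth zX hX sX hsX _ _ _ _ _ h; omega
  · rw [TT_append, TT_append] at hzY
    rcases hzY with h | h | h
    · have := TT_depth zY hY sY hsY _ _ _ _ _ h; omega
    · rw [Nat.zero_add] at h
      have e : w + Dp zY A' = (w + Dp zY A' - Dp zX A) + Dp zX A := by abel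
      rw [e, TT_shift] at h; exact h
    · have := TT_depth zY hY sY hsY _ _ _ _ _ h; omega
  · intro z' k' h1 h2
    have d1 := TT_depth zX hX sX hsX _ _ _ _ _ h1
    have d2 := TT_depth zY hY sY hsY _ _ _ _ _ h2
    have c1 := hall _ _ (kX _ _ h1) (kY _ _ h2)
    have c2 := hsl _ _ (kX _ _ h1) (kY _ _ h2)
    have c3 : ¬ (a + 3 * t - s ≤ k') := fun h => c2 h (by omega)
    omega

/-- one window, with the numbers -/
lemma one_window (hX1 : ∀ b, 1 ≤ hX b) (hY1 : ∀ b, 1 ≤ hY b) (hΛX : ∑' b, ΛX b = 1)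
    (hΛY : ∑' b, ΛY b = 1) (hUX : ∀ n, U ΛX hX n ≤ 1) (hUY : ∀ n, U ΛY hY n ≤ 1)
    (hsX : ∀ b p k, (p, k) ∈ sX b → 1 ≤ k ∧ k ≤ hX b)
    (hsY : ∀ b p k, (p, k) ∈ sY b → 1 ≤ k ∧ k ≤ hY b)
    (hLt : ∀ w (L : List BX) (L' : List BY), Lt w → Lt (w + Dp zY L' - Dp zX L))
    (C : ℝ≥0∞) (us : ℕ → ℝ≥0∞)
    (H2 : H2L ΛX hX zX sX ΛY hY zY sY Lt C us) (H3 : H3L ΛX hX zX sX ΛY hY zY sY Lt C us)
    (s i0 a t n J : ℕ) (u lam e : ℝ≥0∞) (hu0 : u ≠ 0) (hu1 : u < 1)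
    (hlam0 : lam ≠ 0) (hlam1 : lam ≠ ⊤)
    (he : LD460.eps1 ΛX hX i0 + LD460.eps1 ΛY hY i0 ≤ e) (heu : e ≤ u / 2)
    (hst : s + 2 * i0 + 1 ≤ t) (hJ : J * (3 * t + 2 * i0 + 1) ≤ a)
    (hn : a + 3 * t + 3 * i0 + 2 ≤ n) (w : G) (hw : Lt w) :
    ∑' L, ∑' L', ind (HT hX L = n ∧ HT hY L' = n ∧
        EvW hX zX sX hY zY sY (a + t) t (a + 3 * t - s) (a + 3 * t + 2 * i0) w L L')
        * (LW ΛX L * LW ΛY L')
      ≤ 4 * (u ^ 2 + ((1 - u / 2) ^ J + (J + 1) * e) +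
        ((i0 : ℝ≥0∞) + 1) ^ 4 * (C * (lam + (((i0 : ℝ≥0∞) + 1) / u) * us s / lam + us s))) := by
  have hjX : J * (3 * t + i0) ≤ a := le_trans (Nat.mul_le_mul_left _ (by omega)) hJ
  have hjY : J * (3 * t + i0 + 1 + i0) ≤ a + i0 + 1 :=
    (le_trans (Nat.mul_le_mul_left _ (by omega)) hJ).trans (by omega)
  have eX : LD460.eps1 ΛX hX i0 ≤ e := le_trans le_self_add he
  have eY : LD460.eps1 ΛY hY i0 ≤ e := le_trans le_add_self he
  obtain ⟨smX, EX, MX, x1, x2, x3, x4⟩ := pkg ΛX hX zX hX1 hΛX hUX (3 * t) i0 a J u hu0 hu1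
    (eX.trans heu) hjX
  obtain ⟨smY, EY, MY, y1, y2, y3, y4⟩ := pkg ΛY hY zY hY1 hΛY hUY (3 * t + i0 + 1) i0 (a + i0 + 1)
    J u hu0 hu1 (eY.trans heu) hjY
  set β : ℝ≥0∞ := C * (lam + (2 * (((i0 : ℝ≥0∞) + 1) / u)) * us s / lam + us s) with hβ
  have key := window' ΛX hX zX ΛY hY zY hX1 hY1 hΛX.le hΛY.le hUX hUY i0 a (3 * t) (a + i0 + 1)
    (3 * t + i0 + 1) n (by omega) (by omega) w e e u u ((1 - u / 2) ^ J + J * e)
    ((1 - u / 2) ^ J + J * e) MX MY β β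
    (fun b => by
      refine le_trans (le_of_eq ?_) ((LD460.overshoot ΛX hX hX1 hUX i0 b).trans eX)
      refine tsum_congr fun L => ?_
      by_cases h : FP hX b L ∧ b + i0 < HT hX L
      · rw [ind_true h, one_mul, if_pos ⟨(FP_iff' hX b L).1 h.1, h.2⟩]
      · rw [ind_false h, zero_mul, if_neg (fun h' => h ⟨(FP_iff' hX b L).2 h'.1, h'.2⟩)])
    (fun b => by
      refine le_trans (le_of_eq ?_) ((LD460.overshoot ΛY hY hY1 hUY i0 b).trans eY)
      refine tsum_congr fun L => ?_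
      by_cases h : FP hY b L ∧ b + i0 < HT hY L
      · rw [ind_true h, one_mul, if_pos ⟨(FP_iff' hY b L).1 h.1, h.2⟩]
      · rw [ind_false h, zero_mul, if_neg (fun h' => h ⟨(FP_iff' hY b L).2 h'.1, h'.2⟩)])
    smX smY (x1.trans (add_le_add le_rfl (mul_le_mul_right eX _)))
    (y1.trans (add_le_add le_rfl (mul_le_mul_right eY _))) x2 y2
    (fun P => Dp zX P ∈ EX (HT hX P)) (fun P => Dp zY P ∈ EY (HT hY P)) x3 y3
    (fun b b' P P' x => Cq hX zX sX hY zY sY Lt (a + t) (a + 3 * t - s) b b' P P' x)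
    ?_ ?_ (fun L L' => EvW hX zX sX hY zY sY (a + t) t (a + 3 * t - s) (a + 3 * t + 2 * i0) w L L')
    ?_
  · refine key.trans ?_
    have hb : β ≤ 2 * (C * (lam + (((i0 : ℝ≥0∞) + 1) / u) * us s / lam + us s)) := by
      rw [hβ]
      calc C * (lam + (2 * (((i0 : ℝ≥0∞) + 1) / u)) * us s / lam + us s)
          = C * (lam + 2 * ((((i0 : ℝ≥0∞) + 1) / u) * us s / lam) + us s) := by
            simp only [div_eq_mul_inv]; ring
        _ ≤ C * (2 * lam + 2 * ((((i0 : ℝ≥0∞) + 1) / u) * us s / lam) + 2 * us s) := by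
            refine mul_le_mul_right (add_le_add (add_le_add ?_ le_rfl) ?_) _
            · calc lam = 1 * lam := (one_mul _).symm
                _ ≤ 2 * lam := mul_le_mul_left (by norm_num) _
            · calc us s = 1 * us s := (one_mul _).symm
                _ ≤ 2 * us s := mul_le_mul_left (by norm_num) _
        _ = _ := by ring
    set D := C * (lam + (((i0 : ℝ≥0∞) + 1) / u) * us s / lam + us s) with hD
    have hcast : ((i0 + 1 : ℕ) : ℝ≥0∞) = (i0 : ℝ≥0∞) + 1 := by push_cast; rfl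
    rw [hcast]
    calc 2 * e + 2 * e + (u * u + ((1 - u / 2) ^ J + J * e) + ((1 - u / 2) ^ J + J * e)
          + ((i0 : ℝ≥0∞) + 1) ^ 4 * β + ((i0 : ℝ≥0∞) + 1) ^ 4 * β)
        ≤ 2 * e + 2 * e + (u * u + ((1 - u / 2) ^ J + J * e) + ((1 - u / 2) ^ J + J * e)
          + ((i0 : ℝ≥0∞) + 1) ^ 4 * (2 * D) + ((i0 : ℝ≥0∞) + 1) ^ 4 * (2 * D)) := by
          gcongr
      _ = 4 * e + (u ^ 2 + 2 * (1 - u / 2) ^ J + 2 * (J * e)
          + 4 * (((i0 : ℝ≥0∞) + 1) ^ 4 * D)) := by ring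
      _ ≤ 4 * e + (4 * u ^ 2 + 4 * (1 - u / 2) ^ J + 4 * (J * e)
          + 4 * (((i0 : ℝ≥0∞) + 1) ^ 4 * D)) := by
          gcongr
          · calc u ^ 2 = 1 * u ^ 2 := (one_mul _).symm
              _ ≤ 4 * u ^ 2 := mul_le_mul_left (by norm_num) _
          · norm_num
          · norm_num
      _ = _ := by ring
  · intro j j' i i' μ hμ1 hμ2 hj hj' hi hi'
    rcases Nat.lt_or_ge (a + j + (3 * t + i)) (a + 3 * t) with hbad | hok
    · omega
    refine le_trans (le_of_eq ?_) ((H2 s (3 * t + i) (3 * t + i0 + 1 + i') (a + j) (a + i0 + 1 + j')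
      (a + t) (a + 3 * t - s) (EX (3 * t + i)) μ MX lam hμ1 hμ2 hlam0 hlam1 (by omega) (by omega)
      (by omega) (by omega) (by omega) (by omega)).trans ?_)
    · refine tsum_congr fun x => ?_
      congr 1
      refine tsum_congr fun P => tsum_congr fun P' => ?_
      congr 2
      apply propext
      constructor
      · rintro ⟨h1, h2, h3, h4⟩; rw [h1] at h3; exact ⟨h1, h2, h3, h4⟩
      · rintro ⟨h1, h2, h3, h4⟩; exact ⟨h1, h2, by rw [h1]; exact h3, h4⟩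
    · rw [hβ]
      exact mul_le_mul_right (add_le_add (add_le_add le_rfl
        (ENNReal.div_le_div_right (mul_le_mul_left (x4 _) _) _)) le_rfl) _
  · intro j j' i i' μ hμ1 hμ2 hj hj' hi hi'
    refine le_trans (le_of_eq ?_) ((H3 s (3 * t + i) (3 * t + i0 + 1 + i') (a + j) (a + i0 + 1 + j')
      (a + t) (a + 3 * t - s) (EY (3 * t + i0 + 1 + i')) μ MY lam hμ1 hμ2 hlam0 hlam1 (by omega)
      (by omega) (by omega) (by omega) (by omega) (by omega)).trans ?_)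
    · refine tsum_congr fun x => ?_
      congr 1
      refine tsum_congr fun P => tsum_congr fun P' => ?_
      congr 2
      apply propext
      constructor
      · rintro ⟨h1, h2, h3, h4⟩; rw [h2] at h3; exact ⟨h1, h2, h3, h4⟩
      · rintro ⟨h1, h2, h3, h4⟩; exact ⟨h1, h2, by rw [h2]; exact h3, h4⟩
    · rw [hβ]
      exact mul_le_mul_right (add_le_add (add_le_add le_rfl
        (ENNReal.div_le_div_right (mul_le_mul_left (y4 _) _) _)) le_rfl) _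
  · intro A P R A' P' R' hA hA1 hP hP1 hA' hA1' hP' hP1' _ _ hE
    exact cq_of_ev hX zX sX hY zY sY Lt hsX hsY hLt s i0 a t hst w hw A P R A' P' R'
      hA.1 hA1 hP.1 hP1 hA'.1 hA1' hP'.1 hP1' hE

end K

end Crest.Agent.R154.Win267
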