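import Crest.Agent.R154.B5Abs_566

/-! Row 154, NBProp, ROAD 801: one window in list letters (helper815). -/

set_option autoImplicit false
set_option linter.unusedSectionVars false
set_option linter.unusedVariables false

namespace Crest.Agent.R154.WinL815

open scoped ENNReal
open Crest.Agent.R154.B5A

section lists

variable {B : Type*} (Λ : B → ℝ≥0∞) (ht : B → ℕ)

/-- first passage of height `a` -/
def FP (a : ℕ) (L : List B) : Prop :=
  a ≤ HT ht L ∧ ∀ L1 L2, L = L1 ++ L2 → L2 ≠ [] → HT ht L1 < a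

lemma fp_exists (h1 : ∀ b, 1 ≤ ht b) (a : ℕ) (L : List B) (h : a ≤ HT ht L) :
    ∃ A C, L = A ++ C ∧ FP ht a A := by
  induction L generalizing a with
  | nil =>
    refine ⟨[], [], rfl, h, ?_⟩
    intro L1 L2 e hne
    have := (List.append_eq_nil_iff.1 e.symm).2
    exact absurd this hne
  | cons b L ih =>
    by_cases ha : a = 0
    · subst ha
      refine ⟨[], b :: L, rfl, Nat.zero_le _, ?_⟩
      intro L1 L2 e hne
      exact absurd (List.append_eq_nil_iff.1 e.symm).2 hne
    · rw [HT_cons] at h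
      obtain ⟨A, C, e, hA⟩ := ih (a - ht b) (by omega)
      refine ⟨b :: A, C, by rw [e]; rfl, ?_, ?_⟩
      · rw [HT_cons]; have := hA.1; omega
      · intro L1 L2 e2 hne
        cases L1 with
        | nil => simp [HT_nil]; omega
        | cons c L1 =>
          simp only [List.cons_append, List.cons.injEq] at e2
          obtain ⟨rfl, e3⟩ := e2
          have hb := hA.2 L1 L2 e3 hne
          rw [HT_cons]
          omega

lemma fp_le (h1 : ∀ b, 1 ≤ ht b) (a : ℕ) (F : List B → ℝ≥0∞)
    (hF : ∀ L, F L ≠ 0 → a ≤ HT ht L) (P : List B → Prop) (hP : ∀ A, FP ht a A → P A) :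
    (∑' L, F L) ≤ ∑' A : List B, ∑' C : List B, open Classical in
      if P A then F (A ++ C) else 0 := by
  classical
  choose A C e hA using fun (L : {L : List B // a ≤ HT ht L}) => fp_exists ht h1 a L.1 L.2
  have hinj : Function.Injective (fun L : {L : List B // a ≤ HT ht L} => (A L, C L)) := by
    intro L L' h
    simp only [Prod.mk.injEq] at h
    apply Subtype.ext
    rw [e L, e L', h.1, h.2]
  have h2 := ENNReal.tsum_comp_le_tsum_of_injective hinj
    (fun p : List B × List B => if P p.1 then F (p.1 ++ p.2) else 0)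
  refine le_trans ?_ (h2.trans (le_of_eq (ENNReal.tsum_prod
    (f := fun A C : List B => if P A then F (A ++ C) else 0))))
  have h3 : (∑' L : {L : List B // a ≤ HT ht L}, F L.1) = ∑' L, F L :=
    tsum_subtype_eq_of_support_subset (s := {L : List B | a ≤ HT ht L}) (fun L hL => hF L hL)
  rw [← h3]
  refine ENNReal.tsum_le_tsum fun L => ?_
  simp only
  rw [if_pos (hP _ (hA L)), ← e L]

open Classical in
lemma u_bd (hU : ∀ n, U Λ ht n ≤ 1) (c : ℝ≥0∞) (k n : ℕ) (f : List B → ℝ≥0∞)
    (hf : ∀ R, f R ≤ c) :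
    ∑' R : List B, (if k + HT ht R = n then LW Λ R * f R else 0) ≤ c := by
  calc _ ≤ ∑' R : List B, (if HT ht R = n - k then LW Λ R else 0) * c := by
        refine ENNReal.tsum_le_tsum fun R => ?_
        by_cases h : k + HT ht R = n
        · rw [if_pos h, if_pos (by omega)]
          exact mul_le_mul_right (hf R) _
        · rw [if_neg h]; exact zero_le
    _ = U Λ ht (n - k) * c := by rw [ENNReal.tsum_mul_right, U]
    _ ≤ 1 * c := mul_le_mul_left (hU _) _
    _ = c := one_mul c

open Classical in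
lemma dec (h1 : ∀ b, 1 ≤ ht b) (hU : ∀ n, U Λ ht n ≤ 1) {T H i0 n : ℕ} (hn : T + i0 + H ≤ n)
    (e1 : ℝ≥0∞) (m1 : ∀ a, ∑' L : List B, (if FP ht a L then LW Λ L else 0) ≤ 1)
    (m2 : ∀ a, ∑' L : List B, (if FP ht a L ∧ a + i0 < HT ht L then LW Λ L else 0) ≤ e1)
    (f : List B → ℝ≥0∞) (f' : List B → List B → ℝ≥0∞) (hf1 : ∀ L, f L ≤ 1)
    (hff : ∀ A P R, FP ht T A → HT ht A ≤ T + i0 → FP ht H P → HT ht P ≤ H + i0 →
      f (A ++ (P ++ R)) ≤ f' A P) :
    ∑' L : List B, (if HT ht L = n then LW Λ L * f L else 0) ≤ e1 + e1 +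
      ∑' A : List B, ∑' P : List B, (if FP ht T A ∧ HT ht A ≤ T + i0 ∧ FP ht H P ∧
        HT ht P ≤ H + i0 then LW Λ A * LW Λ P * f' A P else 0) := by
  -- inner estimate
  have inner : ∀ A, FP ht T A → HT ht A ≤ T + i0 →
      ∑' C : List B, (if HT ht A + HT ht C = n then LW Λ C * f (A ++ C) else 0) ≤
        e1 + ∑' P : List B, (if FP ht H P ∧ HT ht P ≤ H + i0 then LW Λ P * f' A P else 0) := by
    intro A hA hA2
    refine (fp_le ht h1 H _ ?_ (FP ht H) (fun _ h => h)).trans ?_
    · intro C hC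
      by_contra hlt
      apply hC
      rw [if_neg (by omega)]
    calc _ ≤ ∑' P : List B, ((if FP ht H P ∧ H + i0 < HT ht P then LW Λ P else 0) +
          (if FP ht H P ∧ HT ht P ≤ H + i0 then LW Λ P * f' A P else 0)) := by
          refine ENNReal.tsum_le_tsum fun P => ?_
          by_cases hP : FP ht H P
          · simp only [hP, if_true, true_and]
            have e : ∀ R : List B, (if HT ht A + HT ht (P ++ R) = n then
                LW Λ (P ++ R) * f (A ++ (P ++ R)) else 0) = LW Λ P *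
                (if (HT ht A + HT ht P) + HT ht R = n then LW Λ R * f (A ++ (P ++ R)) else 0) := by
              intro R
              rw [HT_append, LW_append]
              by_cases h : HT ht A + HT ht P + HT ht R = n
              · rw [if_pos h, if_pos (by omega)]; ring
              · rw [if_neg h, if_neg (by omega), mul_zero]
            rw [tsum_congr e, ENNReal.tsum_mul_left]
            by_cases hP2 : HT ht P ≤ H + i0
            · rw [if_neg (by omega), if_pos hP2, zero_add]
              refine mul_le_mul_right ?_ _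
              exact u_bd Λ ht hU _ _ n _ (fun R => hff A P R hA hA2 hP hP2)
            · rw [if_pos (by omega), if_neg hP2, add_zero]
              calc _ ≤ LW Λ P * 1 := mul_le_mul_right
                    (u_bd Λ ht hU _ _ n _ (fun R => hf1 _)) _
                _ = _ := mul_one _
          · simp [hP]
      _ = _ := ENNReal.tsum_add
      _ ≤ _ := add_le_add (m2 H) le_rfl
  refine (fp_le ht h1 T _ ?_ (FP ht T) (fun _ h => h)).trans ?_
  · intro C hC
    by_contra hlt
    apply hC
    rw [if_neg (by omega)]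
  calc _ ≤ ∑' A : List B, ((if FP ht T A ∧ T + i0 < HT ht A then LW Λ A else 0) +
        ((if FP ht T A then LW Λ A else 0) * e1 +
        ∑' P : List B, (if FP ht T A ∧ HT ht A ≤ T + i0 ∧ FP ht H P ∧
        HT ht P ≤ H + i0 then LW Λ A * LW Λ P * f' A P else 0))) := by
        refine ENNReal.tsum_le_tsum fun A => ?_
        by_cases hA : FP ht T A
        · simp only [hA, if_true, true_and]
          have e : ∀ C : List B, (if HT ht (A ++ C) = n then LW Λ (A ++ C) * f (A ++ C) else 0)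
              = LW Λ A * (if HT ht A + HT ht C = n then LW Λ C * f (A ++ C) else 0) := by
            intro C
            rw [HT_append, LW_append]
            by_cases h : HT ht A + HT ht C = n
            · rw [if_pos h, if_pos h]; ring
            · rw [if_neg h, if_neg h, mul_zero]
          rw [tsum_congr e, ENNReal.tsum_mul_left]
          by_cases hA2 : HT ht A ≤ T + i0
          · rw [if_neg (by omega), zero_add]
            refine (mul_le_mul_right (inner A hA hA2) _).trans ?_
            rw [mul_add]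
            refine add_le_add le_rfl ?_
            rw [← ENNReal.tsum_mul_left]
            refine ENNReal.tsum_le_tsum fun P => ?_
            by_cases hP : FP ht H P ∧ HT ht P ≤ H + i0
            · rw [if_pos hP, if_pos ⟨hA2, hP⟩, mul_assoc]
            · rw [if_neg hP, mul_zero]; exact zero_le
          · rw [if_pos (by omega)]
            refine le_add_right ?_
            calc _ ≤ LW Λ A * 1 := mul_le_mul_right
                  (u_bd Λ ht hU _ _ n _ (fun R => hf1 _)) _
              _ = _ := mul_one _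
        · simp [hA]
    _ = _ := by rw [ENNReal.tsum_add, ENNReal.tsum_add, ENNReal.tsum_mul_right]
    _ ≤ e1 + (1 * e1 + _) := add_le_add (m2 T) (add_le_add (mul_le_mul_left (m1 T) _) le_rfl)
    _ = _ := by rw [one_mul, add_assoc]

end lists

section pos

variable {B G : Type*} [AddCommGroup G] (ht : B → ℕ) (z : B → G) (s : B → Set (G × ℕ))

/-- displacement -/
def Dp (L : List B) : G := (L.map z).sum

/-- sites of a list, from the position `x` and the depth `a` -/
def TX : List B → G → ℕ → Set (G × ℕ)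
  | [], _, _ => ∅
  | b :: L, x, a => {p | ∃ q ∈ s b, p = (x + q.1, a + q.2)} ∪ TX L (x + z b) (a + ht b)

lemma TX_append (L L' : List B) (x : G) (a : ℕ) :
    TX ht z s (L ++ L') x a = TX ht z s L x a ∪ TX ht z s L' (x + Dp z L) (a + HT ht L) := by
  induction L generalizing x a with
  | nil => simp [TX, Dp, HT]
  | cons b L ih =>
    simp only [List.cons_append, TX, HT_cons]
    rw [ih, Set.union_assoc]
    simp only [Dp, List.map_cons, List.sum_cons, add_assoc]

lemma TX_depth (hs : ∀ b q, q ∈ s b → 1 ≤ q.2 ∧ q.2 ≤ ht b) (L : List B) (x : G) (a : ℕ)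
    (p : G × ℕ) (hp : p ∈ TX ht z s L x a) : a < p.2 ∧ p.2 ≤ a + HT ht L := by
  induction L generalizing x a with
  | nil => simp [TX] at hp
  | cons b L ih =>
    rw [HT_cons]
    rcases hp with ⟨q, hq, rfl⟩ | hp
    · have := hs b q hq
      simp only
      omega
    · have := ih _ _ hp
      omega

lemma TX_shift (L : List B) (x y : G) (a : ℕ) (p : G × ℕ) :
    p ∈ TX ht z s L (x + y) a ↔ (p.1 - y, p.2) ∈ TX ht z s L x a := by
  induction L generalizing x a with
  | nil => simp [TX]
  | cons b L ih =>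
    simp only [TX, Set.mem_union, Set.mem_ofPred_eq]
    have e : x + y + z b = x + z b + y := by abel
    rw [e, ih]
    refine or_congr ?_ Iff.rfl
    constructor
    · rintro ⟨q, hq, rfl⟩
      exact ⟨q, hq, by simp only [Prod.mk.injEq, and_true]; abel⟩
    · rintro ⟨q, hq, h⟩
      refine ⟨q, hq, ?_⟩
      simp only [Prod.mk.injEq] at h
      refine Prod.ext ?_ h.2
      have := h.1
      simp only
      rw [sub_eq_iff_eq_add] at this
      rw [this]; abel

end pos

section window

open Classical in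
lemma push_mu {α β G : Type*} (g : α → β → ℝ≥0∞) (x : α → β → G) (Φ : G → ℝ≥0∞) :
    ∑' a, ∑' b, g a b * Φ (x a b) =
      ∑' y, (∑' a, ∑' b, if x a b = y then g a b else 0) * Φ y := by
  have h : ∀ a b, g a b * Φ (x a b) = ∑' y, (if x a b = y then g a b else 0) * Φ y := by
    intro a b
    rw [tsum_eq_single (x a b)]
    · rw [if_pos rfl]
    · intro y hy
      rw [if_neg (Ne.symm hy), zero_mul]
  simp_rw [h, ← ENNReal.tsum_mul_right]
  calc _ = ∑' a, ∑' y, ∑' b, (if x a b = y then g a b else 0) * Φ y :=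
        tsum_congr fun a => ENNReal.tsum_comm
    _ = _ := ENNReal.tsum_comm

lemma prod4 {α β γ δ : Type*} (f1 : α → ℝ≥0∞) (f2 : β → ℝ≥0∞) (f3 : γ → ℝ≥0∞) (f4 : δ → ℝ≥0∞) :
    ∑' a, ∑' b, ∑' c, ∑' e, f1 a * f2 b * (f3 c * f4 e) =
      (∑' a, f1 a) * (∑' b, f2 b) * ((∑' c, f3 c) * (∑' e, f4 e)) := by
  simp_rw [ENNReal.tsum_mul_left, ENNReal.tsum_mul_right, ENNReal.tsum_mul_left]
  rw [ENNReal.tsum_mul_right]

variable {BX BY G : Type*} [AddCommGroup G]
  (ΛX : BX → ℝ≥0∞) (ΛY : BY → ℝ≥0∞) (hX : BX → ℕ) (hY : BY → ℕ) (zX : BX → G) (zY : BY → G)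
  (sX : BX → Set (G × ℕ)) (sY : BY → Set (G × ℕ))

/-- contact event of two pieces, all common sites between `lo` and `hi` -/
def Jp (lo hi : ℕ) (P : List BX) (P' : List BY) (a a' : ℕ) (x : G) : Prop :=
  (∃ z k, (z, k) ∈ TX hX zX sX P 0 a ∧ (z, k) ∈ TX hY zY sY P' x a') ∧
  (∀ z k, (z, k) ∈ TX hX zX sX P 0 a → (z, k) ∈ TX hY zY sY P' x a' → lo ≤ k) ∧
  (∀ z k, (z, k) ∈ TX hX zX sX P 0 a → (z, k) ∈ TX hY zY sY P' x a' → k ≤ hi)

open Classical in
/-- sum over the pieces, `X` local -/
noncomputable def Phi2 (lo hi : ℕ) (E : Finset G) (h h' a a' : ℕ) (x : G) : ℝ≥0∞ :=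
  ∑' P : List BX, ∑' P' : List BY, (if HT hX P = h ∧ Dp zX P ∈ E ∧ HT hY P' = h' ∧
    Jp hX hY zX zY sX sY lo hi P P' a a' x then LW ΛX P * LW ΛY P' else 0)

open Classical in
/-- sum over the pieces, `Y` local -/
noncomputable def Phi3 (lo hi : ℕ) (E : Finset G) (h h' a a' : ℕ) (x : G) : ℝ≥0∞ :=
  ∑' P : List BX, ∑' P' : List BY, (if HT hX P = h ∧ HT hY P' = h' ∧ Dp zY P' ∈ E ∧
    Jp hX hY zX zY sX sY lo hi P P' a a' x then LW ΛX P * LW ΛY P' else 0)

lemma piece_event (hsX : ∀ b q, q ∈ sX b → 1 ≤ q.2 ∧ q.2 ≤ hX b)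
    (hsY : ∀ b q, q ∈ sY b → 1 ≤ q.2 ∧ q.2 ≤ hY b) {T H T' H' i0 s hi : ℕ} (hTT : T ≤ T')
    (hTH : T + H ≤ T' + H')
    (w : G) (A P R : List BX) (A' P' R' : List BY)
    (hA : FP hX T A) (hA2 : HT hX A ≤ T + i0) (hP : FP hX H P) (hP2 : HT hX P ≤ H + i0)
    (hA' : FP hY T' A') (hA2' : HT hY A' ≤ T' + i0) (hP' : FP hY H' P')
    (hP2' : HT hY P' ≤ H' + i0)
    (hc : ∃ z k, T' + i0 < k ∧ k ≤ T + H ∧ (z, k) ∈ TX hX zX sX (A ++ (P ++ R)) 0 0 ∧
      (z, k) ∈ TX hY zY sY (A' ++ (P' ++ R')) w 0)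
    (hlo : ∀ z k, (z, k) ∈ TX hX zX sX (A ++ (P ++ R)) 0 0 →
      (z, k) ∈ TX hY zY sY (A' ++ (P' ++ R')) w 0 → T' < k → T' + i0 + s < k)
    (hup : ∀ z k, (z, k) ∈ TX hX zX sX (A ++ (P ++ R)) 0 0 →
      (z, k) ∈ TX hY zY sY (A' ++ (P' ++ R')) w 0 → hi < k → T + H + 2 * i0 < k) :
    Jp hX hY zX zY sX sY (T' + i0 + s) hi P P' (HT hX A) (HT hY A') (w + Dp zY A' - Dp zX A) := by
  have key : ∀ z k, (z, k) ∈ TX hX zX sX P 0 (HT hX A) →
      (z, k) ∈ TX hY zY sY P' (w + Dp zY A' - Dp zX A) (HT hY A') →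
      (z + Dp zX A, k) ∈ TX hX zX sX (A ++ (P ++ R)) 0 0 ∧
      (z + Dp zX A, k) ∈ TX hY zY sY (A' ++ (P' ++ R')) w 0 := by
    intro z k h1 h2
    constructor
    · rw [TX_append, TX_append]
      refine Or.inr (Or.inl ?_)
      rw [zero_add, zero_add, ← zero_add (Dp zX A), TX_shift]
      simpa using h1
    · rw [TX_append, TX_append]
      refine Or.inr (Or.inl ?_)
      rw [zero_add]
      have e : w + Dp zY A' = (w + Dp zY A' - Dp zX A) + Dp zX A := by abel
      rw [e, TX_shift]
      simpa using h2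
  refine ⟨?_, ?_, ?_⟩
  · obtain ⟨z, k, hk1, hk2, h1, h2⟩ := hc
    refine ⟨z - Dp zX A, k, ?_, ?_⟩
    · rw [TX_append, TX_append] at h1
      rcases h1 with h1 | h1 | h1
      · have := (TX_depth hX zX sX hsX _ _ _ _ h1).2
        simp only at this
        omega
      · rw [zero_add, zero_add, ← zero_add (Dp zX A), TX_shift] at h1
        simpa using h1
      · have h3 := (TX_depth hX zX sX hsX _ _ _ _ h1).1
        simp only at h3
        have := hA.1
        have := hP.1
        omega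
    · rw [TX_append, TX_append] at h2
      rcases h2 with h2 | h2 | h2
      · have := (TX_depth hY zY sY hsY _ _ _ _ h2).2
        simp only at this
        omega
      · rw [zero_add] at h2
        have e : w + Dp zY A' = (w + Dp zY A' - Dp zX A) + Dp zX A := by abel
        rw [e, TX_shift] at h2
        simpa using h2
      · have h3 := (TX_depth hY zY sY hsY _ _ _ _ h2).1
        simp only at h3
        have := hA'.1
        have := hP'.1
        omega
  · intro z k h1 h2
    obtain ⟨h3, h4⟩ := key z k h1 h2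
    have h5 := (TX_depth hY zY sY hsY _ _ _ _ h2).1
    simp only at h5
    have := hlo _ _ h3 h4 (by have := hA'.1; omega)
    omega
  · intro z k h1 h2
    obtain ⟨h3, h4⟩ := key z k h1 h2
    have h5 := (TX_depth hX zX sX hsX _ _ _ _ h1).2
    simp only at h5
    by_contra hlt
    have := hup _ _ h3 h4 (by omega)
    omega

/-- hypotheses on one walker for a window: first passage `T`, piece `H`, overshoot `i0` -/
structure Wk {B : Type*} (Λ : B → ℝ≥0∞) (ht : B → ℕ) (z : B → G) (T H i0 : ℕ)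
    (Sp : List B → Prop) (E : ℕ → Finset G) (e1 b u M : ℝ≥0∞) : Prop where
  h1 : ∀ b, 1 ≤ ht b
  hU : ∀ n, U Λ ht n ≤ 1
  m1 : open Classical in ∀ a, ∑' L : List B, (if FP ht a L then LW Λ L else 0) ≤ 1
  m2 : open Classical in
    ∀ a, ∑' L : List B, (if FP ht a L ∧ a + i0 < HT ht L then LW Λ L else 0) ≤ e1
  bad : open Classical in ∑' A : List B, (if FP ht T A ∧ ¬ Sp A then LW Λ A else 0) ≤ b
  dens : open Classical in ∀ a x, ∑' A : List B,
    (if FP ht T A ∧ HT ht A = a ∧ Dp z A = x ∧ Sp A then LW Λ A else 0) ≤ M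
  nl : open Classical in
    ∑' P : List B, (if FP ht H P ∧ Dp z P ∉ E (HT ht P) then LW Λ P else 0) ≤ u

open Classical in
/-- general main term -/
lemma tmain {T H T' H' i0 : ℕ} (m1X : ∀ a, ∑' L : List BX, (if FP hX a L then LW ΛX L else 0) ≤ 1)
    (m1Y : ∀ a, ∑' L : List BY, (if FP hY a L then LW ΛY L else 0) ≤ 1)
    (SA : List BX → Prop) (SA' : List BY → Prop)
    (Q : List BX → List BY → ℕ → ℕ → G → Prop) (xx : List BX → List BY → G) {M R : ℝ≥0∞}
    (hM : ∀ a a' y, ∑' A : List BX, ∑' A' : List BY, (if xx A A' = y then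
      (if (FP hX T A ∧ HT hX A = a ∧ SA A) ∧ (FP hY T' A' ∧ HT hY A' = a' ∧ SA' A')
        then LW ΛX A * LW ΛY A' else 0) else 0) ≤ M)
    (H2 : ∀ a a' h h', a ∈ Finset.Icc T (T + i0) → a' ∈ Finset.Icc T' (T' + i0) →
      h ∈ Finset.Icc H (H + i0) → h' ∈ Finset.Icc H' (H' + i0) → ∀ μ : G → ℝ≥0∞,
      ∑' x, μ x ≤ 1 → (∀ x, μ x ≤ M) →
      ∑' x, μ x * (∑' P : List BX, ∑' P' : List BY, (if HT hX P = h ∧ HT hY P' = h' ∧
        Q P P' a a' x then LW ΛX P * LW ΛY P' else 0)) ≤ R) :
    ∑' A : List BX, ∑' A' : List BY, ∑' P : List BX, ∑' P' : List BY,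
      (if (FP hX T A ∧ HT hX A ≤ T + i0 ∧ FP hX H P ∧ HT hX P ≤ H + i0) ∧
        (FP hY T' A' ∧ HT hY A' ≤ T' + i0 ∧ FP hY H' P' ∧ HT hY P' ≤ H' + i0) ∧
        (SA A ∧ SA' A') ∧ Q P P' (HT hX A) (HT hY A') (xx A A')
        then LW ΛX A * LW ΛX P * (LW ΛY A' * LW ΛY P') else 0) ≤ ((i0 + 1 : ℕ) : ℝ≥0∞) ^ 4 * R := by
  set IT := Finset.Icc T (T + i0) with hIT
  set IH := Finset.Icc H (H + i0) with hIH
  set IT' := Finset.Icc T' (T' + i0) with hIT'
  set IH' := Finset.Icc H' (H' + i0) with hIH'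
  set Φ : ℕ → ℕ → ℕ → ℕ → G → ℝ≥0∞ := fun a a' h h' x =>
    ∑' P : List BX, ∑' P' : List BY, (if HT hX P = h ∧ HT hY P' = h' ∧
        Q P P' a a' x then LW ΛX P * LW ΛY P' else 0) with hΦ
  set g : ℕ → ℕ → List BX → List BY → ℝ≥0∞ := fun a a' A A' =>
    (if (FP hX T A ∧ HT hX A = a ∧ SA A) ∧ (FP hY T' A' ∧ HT hY A' = a' ∧ SA' A')
        then LW ΛX A * LW ΛY A' else 0) with hg
  have step : ∀ A A', ∑' P : List BX, ∑' P' : List BY,
      (if (FP hX T A ∧ HT hX A ≤ T + i0 ∧ FP hX H P ∧ HT hX P ≤ H + i0) ∧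
        (FP hY T' A' ∧ HT hY A' ≤ T' + i0 ∧ FP hY H' P' ∧ HT hY P' ≤ H' + i0) ∧
        (SA A ∧ SA' A') ∧ Q P P' (HT hX A) (HT hY A') (xx A A')
        then LW ΛX A * LW ΛX P * (LW ΛY A' * LW ΛY P') else 0) ≤
      ∑ a ∈ IT, ∑ a' ∈ IT', ∑ h ∈ IH, ∑ h' ∈ IH', g a a' A A' * Φ a a' h h' (xx A A') := by
    intro A A'
    by_cases hgd : (FP hX T A ∧ HT hX A ≤ T + i0 ∧ SA A) ∧ (FP hY T' A' ∧ HT hY A' ≤ T' + i0 ∧ SA' A')
    · obtain ⟨⟨g1, g2, g3⟩, g4, g5, g6⟩ := hgd
      have ha : HT hX A ∈ IT := Finset.mem_Icc.2 ⟨g1.1, g2⟩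
      have ha' : HT hY A' ∈ IT' := Finset.mem_Icc.2 ⟨g4.1, g5⟩
      refine le_trans ?_ (Finset.single_le_sum (f := fun a => ∑ a' ∈ IT', ∑ h ∈ IH, ∑ h' ∈ IH',
        g a a' A A' * Φ a a' h h' (xx A A')) (fun _ _ => zero_le) ha)
      refine le_trans ?_ (Finset.single_le_sum (f := fun a' => ∑ h ∈ IH, ∑ h' ∈ IH',
        g (HT hX A) a' A A' * Φ (HT hX A) a' h h' (xx A A')) (fun _ _ => zero_le) ha')
      have e1 : g (HT hX A) (HT hY A') A A' = LW ΛX A * LW ΛY A' := by
        simp only [hg]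
        rw [if_pos ⟨⟨g1, trivial, g3⟩, g4, trivial, g6⟩]
      simp only [e1, hΦ]
      simp_rw [← ENNReal.tsum_mul_left]
      rw [show (∑ h ∈ IH, ∑ h' ∈ IH', ∑' P : List BX, ∑' P' : List BY, LW ΛX A * LW ΛY A' *
          (if HT hX P = h ∧ HT hY P' = h' ∧ Q P P' (HT hX A) (HT hY A') (xx A A')
            then LW ΛX P * LW ΛY P' else 0)) =
          ∑' P : List BX, ∑' P' : List BY, ∑ h ∈ IH, ∑ h' ∈ IH', LW ΛX A * LW ΛY A' *
          (if HT hX P = h ∧ HT hY P' = h' ∧ Q P P' (HT hX A) (HT hY A') (xx A A')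
            then LW ΛX P * LW ΛY P' else 0) by
        simp_rw [Summable.tsum_finsetSum (fun _ _ => ENNReal.summable)]]
      refine ENNReal.tsum_le_tsum fun P => ENNReal.tsum_le_tsum fun P' => ?_
      split_ifs with hc
      · obtain ⟨⟨_, _, c1, c2⟩, ⟨_, _, c3, c4⟩, _, c5⟩ := hc
        refine le_trans ?_ (Finset.single_le_sum (f := fun h => ∑ h' ∈ IH', LW ΛX A * LW ΛY A' *
          (if HT hX P = h ∧ HT hY P' = h' ∧ Q P P' (HT hX A) (HT hY A') (xx A A')
            then LW ΛX P * LW ΛY P' else 0)) (fun _ _ => zero_le)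
            (Finset.mem_Icc.2 ⟨c1.1, c2⟩ : HT hX P ∈ IH))
        refine le_trans ?_ (Finset.single_le_sum (f := fun h' => LW ΛX A * LW ΛY A' *
          (if HT hX P = HT hX P ∧ HT hY P' = h' ∧ Q P P' (HT hX A) (HT hY A') (xx A A')
            then LW ΛX P * LW ΛY P' else 0)) (fun _ _ => zero_le)
            (Finset.mem_Icc.2 ⟨c3.1, c4⟩ : HT hY P' ∈ IH'))
        rw [if_pos ⟨rfl, rfl, c5⟩]
        exact le_of_eq (by ring)
      · exact zero_le
    · have : ∀ (P : List BX) (P' : List BY), ¬ ((FP hX T A ∧ HT hX A ≤ T + i0 ∧ FP hX H P ∧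
          HT hX P ≤ H + i0) ∧
        (FP hY T' A' ∧ HT hY A' ≤ T' + i0 ∧ FP hY H' P' ∧ HT hY P' ≤ H' + i0) ∧
        (SA A ∧ SA' A') ∧ Q P P' (HT hX A) (HT hY A') (xx A A')) := by
        intro P P' h
        exact hgd ⟨⟨h.1.1, h.1.2.1, h.2.2.1.1⟩, h.2.1.1, h.2.1.2.1, h.2.2.1.2⟩
      simp [this]
  calc _ ≤ ∑' A : List BX, ∑' A' : List BY,
        ∑ a ∈ IT, ∑ a' ∈ IT', ∑ h ∈ IH, ∑ h' ∈ IH', g a a' A A' * Φ a a' h h' (xx A A') :=
        ENNReal.tsum_le_tsum fun A => ENNReal.tsum_le_tsum fun A' => step A A'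
    _ = ∑ a ∈ IT, ∑ a' ∈ IT', ∑ h ∈ IH, ∑ h' ∈ IH', ∑' A : List BX, ∑' A' : List BY,
        g a a' A A' * Φ a a' h h' (xx A A') := by
        simp_rw [Summable.tsum_finsetSum (fun _ _ => ENNReal.summable)]
    _ ≤ ∑ a ∈ IT, ∑ a' ∈ IT', ∑ h ∈ IH, ∑ h' ∈ IH', R := by
        refine Finset.sum_le_sum fun a ha => Finset.sum_le_sum fun a' ha' =>
          Finset.sum_le_sum fun h hh => Finset.sum_le_sum fun h' hh' => ?_
        rw [push_mu (g a a') xx (Φ a a' h h')]
        refine H2 a a' h h' ha ha' hh hh' _ ?_ (fun y => hM a a' y)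
        -- total mass
        have e := push_mu (g a a') xx (fun _ => 1)
        simp only [mul_one] at e
        rw [← e]
        calc _ ≤ ∑' A : List BX, ∑' A' : List BY, (if FP hX T A then LW ΛX A else 0) *
              (if FP hY T' A' then LW ΛY A' else 0) := by
              refine ENNReal.tsum_le_tsum fun A => ENNReal.tsum_le_tsum fun A' => ?_
              simp only [hg]
              by_cases h1 : (FP hX T A ∧ HT hX A = a ∧ SA A) ∧
                  (FP hY T' A' ∧ HT hY A' = a' ∧ SA' A')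
              · rw [if_pos h1, if_pos h1.1.1, if_pos h1.2.1]
              · rw [if_neg h1]; exact zero_le
          _ = (∑' A : List BX, (if FP hX T A then LW ΛX A else 0)) *
              ∑' A' : List BY, (if FP hY T' A' then LW ΛY A' else 0) := by
              simp_rw [ENNReal.tsum_mul_left]
              rw [ENNReal.tsum_mul_right]
          _ ≤ 1 * 1 := mul_le_mul' (m1X T) (m1Y T')
          _ = 1 := one_mul 1
    _ = _ := by
        simp only [Finset.sum_const, hIT, hIH, hIT', hIH', Nat.card_Icc, nsmul_eq_mul]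
        rw [show T + i0 + 1 - T = i0 + 1 by omega, show H + i0 + 1 - H = i0 + 1 by omega,
          show T' + i0 + 1 - T' = i0 + 1 by omega, show H' + i0 + 1 - H' = i0 + 1 by omega]
        ring

open Classical in
lemma muX {T T' : ℕ} (m1Y : ∀ a, ∑' L : List BY, (if FP hY a L then LW ΛY L else 0) ≤ 1)
    (SpX : List BX → Prop) {MX : ℝ≥0∞}
    (dens : ∀ a x, ∑' A : List BX,
      (if FP hX T A ∧ HT hX A = a ∧ Dp zX A = x ∧ SpX A then LW ΛX A else 0) ≤ MX)
    (w : G) (a a' : ℕ) (y : G) :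
    ∑' A : List BX, ∑' A' : List BY, (if w + Dp zY A' - Dp zX A = y then
      (if (FP hX T A ∧ HT hX A = a ∧ SpX A) ∧ (FP hY T' A' ∧ HT hY A' = a' ∧ True)
        then LW ΛX A * LW ΛY A' else 0) else 0) ≤ MX := by
  rw [ENNReal.tsum_comm]
  calc _ ≤ ∑' A' : List BY, (if FP hY T' A' then LW ΛY A' else 0) * MX := by
        refine ENNReal.tsum_le_tsum fun A' => ?_
        by_cases hA' : FP hY T' A' ∧ HT hY A' = a'
        · rw [if_pos hA'.1]
          refine le_trans ?_ (mul_le_mul_right (dens a (w + Dp zY A' - y)) _)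
          rw [← ENNReal.tsum_mul_left]
          refine ENNReal.tsum_le_tsum fun A => ?_
          by_cases h : w + Dp zY A' - Dp zX A = y
          · rw [if_pos h]
            by_cases h2 : FP hX T A ∧ HT hX A = a ∧ SpX A
            · rw [if_pos ⟨h2, hA'.1, hA'.2, trivial⟩, if_pos ⟨h2.1, h2.2.1, by rw [← h]; abel,
                h2.2.2⟩, mul_comm]
            · rw [if_neg (fun h3 => h2 h3.1)]; exact zero_le
          · rw [if_neg h]; exact zero_le
        · have : ∀ A : List BX, (if w + Dp zY A' - Dp zX A = y then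
              (if (FP hX T A ∧ HT hX A = a ∧ SpX A) ∧ (FP hY T' A' ∧ HT hY A' = a' ∧ True)
              then LW ΛX A * LW ΛY A' else 0) else 0) = 0 := by
            intro A
            rw [if_neg (c := (FP hX T A ∧ HT hX A = a ∧ SpX A) ∧ _)
              (fun h3 => hA' ⟨h3.2.1, h3.2.2.1⟩), ite_self]
          simp only [this, tsum_zero]
          exact zero_le
    _ = (∑' A' : List BY, (if FP hY T' A' then LW ΛY A' else 0)) * MX := ENNReal.tsum_mul_right
    _ ≤ 1 * MX := mul_le_mul_left (m1Y T') _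
    _ = MX := one_mul _

open Classical in
lemma muY {T T' : ℕ} (m1X : ∀ a, ∑' L : List BX, (if FP hX a L then LW ΛX L else 0) ≤ 1)
    (SpY : List BY → Prop) {MY : ℝ≥0∞}
    (dens : ∀ a x, ∑' A : List BY,
      (if FP hY T' A ∧ HT hY A = a ∧ Dp zY A = x ∧ SpY A then LW ΛY A else 0) ≤ MY)
    (w : G) (a a' : ℕ) (y : G) :
    ∑' A : List BX, ∑' A' : List BY, (if w + Dp zY A' - Dp zX A = y then
      (if (FP hX T A ∧ HT hX A = a ∧ True) ∧ (FP hY T' A' ∧ HT hY A' = a' ∧ SpY A')
        then LW ΛX A * LW ΛY A' else 0) else 0) ≤ MY := by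
  calc _ ≤ ∑' A : List BX, (if FP hX T A then LW ΛX A else 0) * MY := by
        refine ENNReal.tsum_le_tsum fun A => ?_
        by_cases hA : FP hX T A ∧ HT hX A = a
        · rw [if_pos hA.1]
          refine le_trans ?_ (mul_le_mul_right (dens a' (y + Dp zX A - w)) _)
          rw [← ENNReal.tsum_mul_left]
          refine ENNReal.tsum_le_tsum fun A' => ?_
          by_cases h : w + Dp zY A' - Dp zX A = y
          · rw [if_pos h]
            by_cases h2 : FP hY T' A' ∧ HT hY A' = a' ∧ SpY A'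
            · rw [if_pos ⟨⟨hA.1, hA.2, trivial⟩, h2⟩, if_pos ⟨h2.1, h2.2.1, by rw [← h]; abel,
                h2.2.2⟩]
            · rw [if_neg (fun h3 => h2 h3.2)]; exact zero_le
          · rw [if_neg h]; exact zero_le
        · have : ∀ A' : List BY, (if w + Dp zY A' - Dp zX A = y then
              (if (FP hX T A ∧ HT hX A = a ∧ True) ∧ (FP hY T' A' ∧ HT hY A' = a' ∧ SpY A')
              then LW ΛX A * LW ΛY A' else 0) else 0) = 0 := by
            intro A'
            rw [if_neg (c := (FP hX T A ∧ HT hX A = a ∧ True) ∧ _)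
              (fun h3 => hA ⟨h3.1.1, h3.1.2.1⟩), ite_self]
          simp only [this, tsum_zero]
          exact zero_le
    _ = (∑' A : List BX, (if FP hX T A then LW ΛX A else 0)) * MY := ENNReal.tsum_mul_right
    _ ≤ 1 * MY := mul_le_mul_left (m1X T) _
    _ = MY := one_mul _

open Classical in
/-- **one window** -/
theorem window (hsX : ∀ b q, q ∈ sX b → 1 ≤ q.2 ∧ q.2 ≤ hX b)
    (hsY : ∀ b q, q ∈ sY b → 1 ≤ q.2 ∧ q.2 ≤ hY b) {T H T' H' i0 s hi n : ℕ} (hTT : T ≤ T')
    (hTH : T + H ≤ T' + H') (hn : T + i0 + H ≤ n) (hn' : T' + i0 + H' ≤ n)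
    {SpX : List BX → Prop} {SpY : List BY → Prop} {EX EY : ℕ → Finset G}
    {eX bX uX MX eY bY uY MY R2 R3 : ℝ≥0∞}
    (WX : Wk ΛX hX zX T H i0 SpX EX eX bX uX MX) (WY : Wk ΛY hY zY T' H' i0 SpY EY eY bY uY MY)
    (w : G)
    (H2 : ∀ a a' h h', a ∈ Finset.Icc T (T + i0) → a' ∈ Finset.Icc T' (T' + i0) →
      h ∈ Finset.Icc H (H + i0) → h' ∈ Finset.Icc H' (H' + i0) → ∀ μ : G → ℝ≥0∞,
      ∑' x, μ x ≤ 1 → (∀ x, μ x ≤ MX) →
      ∑' x, μ x * (∑' P : List BX, ∑' P' : List BY, (if HT hX P = h ∧ HT hY P' = h' ∧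
        (Dp zX P ∈ EX (HT hX P) ∧ Jp hX hY zX zY sX sY (T' + i0 + s) hi P P' a a' x)
        then LW ΛX P * LW ΛY P' else 0)) ≤ R2)
    (H3 : ∀ a a' h h', a ∈ Finset.Icc T (T + i0) → a' ∈ Finset.Icc T' (T' + i0) →
      h ∈ Finset.Icc H (H + i0) → h' ∈ Finset.Icc H' (H' + i0) → ∀ μ : G → ℝ≥0∞,
      ∑' x, μ x ≤ 1 → (∀ x, μ x ≤ MY) →
      ∑' x, μ x * (∑' P : List BX, ∑' P' : List BY, (if HT hX P = h ∧ HT hY P' = h' ∧
        (Dp zY P' ∈ EY (HT hY P') ∧ Jp hX hY zX zY sX sY (T' + i0 + s) hi P P' a a' x)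
        then LW ΛX P * LW ΛY P' else 0)) ≤ R3) :
    ∑' LX : List BX, ∑' LY : List BY, (if HT hX LX = n ∧ HT hY LY = n ∧
      ((∃ z k, T' + i0 < k ∧ k ≤ T + H ∧ (z, k) ∈ TX hX zX sX LX 0 0 ∧
        (z, k) ∈ TX hY zY sY LY w 0) ∧
      (∀ z k, (z, k) ∈ TX hX zX sX LX 0 0 → (z, k) ∈ TX hY zY sY LY w 0 →
        T' < k → T' + i0 + s < k) ∧
      (∀ z k, (z, k) ∈ TX hX zX sX LX 0 0 → (z, k) ∈ TX hY zY sY LY w 0 →
        hi < k → T + H + 2 * i0 < k)) then LW ΛX LX * LW ΛY LY else 0) ≤
      (eX + eX) + ((eY + eY) + (uX * uY + bX + bY +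
        (((i0 + 1 : ℕ) : ℝ≥0∞) ^ 4 * R2 + ((i0 + 1 : ℕ) : ℝ≥0∞) ^ 4 * R3))) := by
  set Ev : List BX → List BY → Prop := fun LX LY =>
      ((∃ z k, T' + i0 < k ∧ k ≤ T + H ∧ (z, k) ∈ TX hX zX sX LX 0 0 ∧
        (z, k) ∈ TX hY zY sY LY w 0) ∧
      (∀ z k, (z, k) ∈ TX hX zX sX LX 0 0 → (z, k) ∈ TX hY zY sY LY w 0 →
        T' < k → T' + i0 + s < k) ∧
      (∀ z k, (z, k) ∈ TX hX zX sX LX 0 0 → (z, k) ∈ TX hY zY sY LY w 0 →
        hi < k → T + H + 2 * i0 < k)) with hEv
  set J : List BX → List BX → List BY → List BY → Prop := fun A P A' P' =>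
    Jp hX hY zX zY sX sY (T' + i0 + s) hi P P' (HT hX A) (HT hY A') (w + Dp zY A' - Dp zX A) with hJ
  set GX : List BX → List BX → Prop := fun A P =>
    FP hX T A ∧ HT hX A ≤ T + i0 ∧ FP hX H P ∧ HT hX P ≤ H + i0 with hGX
  set GY : List BY → List BY → Prop := fun A P =>
    FP hY T' A ∧ HT hY A ≤ T' + i0 ∧ FP hY H' P ∧ HT hY P ≤ H' + i0 with hGY
  -- step 1
  have s1 : ∑' LX : List BX, ∑' LY : List BY, (if HT hX LX = n ∧ HT hY LY = n ∧ Ev LX LY
      then LW ΛX LX * LW ΛY LY else 0) =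
      ∑' LX : List BX, (if HT hX LX = n then LW ΛX LX *
        (∑' LY : List BY, (if HT hY LY = n then LW ΛY LY * (if Ev LX LY then 1 else 0) else 0))
        else 0) := by
    refine tsum_congr fun LX => ?_
    by_cases h : HT hX LX = n
    · rw [if_pos h, ← ENNReal.tsum_mul_left]
      refine tsum_congr fun LY => ?_
      by_cases h2 : HT hY LY = n
      · by_cases h3 : Ev LX LY
        · rw [if_pos ⟨h, h2, h3⟩, if_pos h2, if_pos h3, mul_one]
        · rw [if_neg (fun h4 => h3 h4.2.2), if_pos h2, if_neg h3, mul_zero, mul_zero]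
      · rw [if_neg (fun h4 => h2 h4.2.1), if_neg h2, mul_zero]
    · simp [h]
  rw [s1]
  have s2 := dec ΛX hX WX.h1 WX.hU hn eX WX.m1 WX.m2
    (fun LX => ∑' LY : List BY, (if HT hY LY = n then LW ΛY LY * (if Ev LX LY then 1 else 0) else 0))
    (fun A P => (eY + eY) + ∑' A' : List BY, ∑' P' : List BY, (if GY A' P'
      then LW ΛY A' * LW ΛY P' * (if J A P A' P' then 1 else 0) else 0)) ?_ ?_
  rotate_left
  · intro LX
    have := u_bd ΛY hY WY.hU 1 0 n (fun LY => if Ev LX LY then 1 else 0)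
      (fun R => by split_ifs <;> simp)
    simpa using this
  · intro A P R hA hA2 hP hP2
    refine dec ΛY hY WY.h1 WY.hU hn' eY WY.m1 WY.m2 _
      (fun A' P' => if J A P A' P' then 1 else 0) (fun R => by split_ifs <;> simp) ?_
    intro A' P' R' hA' hA2' hP' hP2'
    by_cases h : Ev (A ++ (P ++ R)) (A' ++ (P' ++ R'))
    · rw [if_pos h, if_pos]
      exact piece_event hX hY zX zY sX sY hsX hsY hTT hTH w A P R A' P' R' hA hA2 hP hP2 hA' hA2' hP'
        hP2' h.1 h.2.1 h.2.2
    · rw [if_neg h]; exact zero_le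
  refine s2.trans (add_le_add le_rfl ?_)
  -- step 2
  have totX : ∑' A : List BX, ∑' P : List BX, (if GX A P then LW ΛX A * LW ΛX P else 0) ≤ 1 := by
    calc _ ≤ ∑' A : List BX, ∑' P : List BX, (if FP hX T A then LW ΛX A else 0) *
          (if FP hX H P then LW ΛX P else 0) := by
          refine ENNReal.tsum_le_tsum fun A => ENNReal.tsum_le_tsum fun P => ?_
          by_cases h : GX A P
          · rw [if_pos h, if_pos h.1, if_pos h.2.2.1]
          · rw [if_neg h]; exact zero_le
      _ = (∑' A : List BX, (if FP hX T A then LW ΛX A else 0)) *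
          ∑' P : List BX, (if FP hX H P then LW ΛX P else 0) := by
          simp_rw [ENNReal.tsum_mul_left]
          rw [ENNReal.tsum_mul_right]
      _ ≤ 1 * 1 := mul_le_mul' (WX.m1 T) (WX.m1 H)
      _ = 1 := one_mul 1
  calc _ = ∑' A : List BX, ∑' P : List BX, ((if GX A P then LW ΛX A * LW ΛX P else 0) * (eY + eY) +
        ∑' A' : List BY, ∑' P' : List BY, (if GX A P ∧ GY A' P' ∧ J A P A' P'
          then LW ΛX A * LW ΛX P * (LW ΛY A' * LW ΛY P') else 0)) := by
        refine tsum_congr fun A => tsum_congr fun P => ?_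
        by_cases h : GX A P
        · rw [if_pos h, mul_add, if_pos (show FP hX T A ∧ HT hX A ≤ T + i0 ∧ FP hX H P ∧
            HT hX P ≤ H + i0 from h)]
          congr 1
          rw [← ENNReal.tsum_mul_left]
          refine tsum_congr fun A' => ?_
          rw [← ENNReal.tsum_mul_left]
          refine tsum_congr fun P' => ?_
          by_cases h2 : GY A' P'
          · by_cases h3 : J A P A' P'
            · rw [if_pos h2, if_pos h3, if_pos ⟨h, h2, h3⟩, mul_one]
            · rw [if_pos h2, if_neg h3, if_neg (fun h4 => h3 h4.2.2), mul_zero, mul_zero]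
          · rw [if_neg h2, if_neg (fun h4 => h2 h4.2.1), mul_zero]
        · rw [if_neg h, if_neg (show ¬ (FP hX T A ∧ HT hX A ≤ T + i0 ∧ FP hX H P ∧
            HT hX P ≤ H + i0) from h)]
          simp [h]
    _ = (∑' A : List BX, ∑' P : List BX, (if GX A P then LW ΛX A * LW ΛX P else 0)) * (eY + eY) +
        ∑' A : List BX, ∑' P : List BX, ∑' A' : List BY, ∑' P' : List BY,
          (if GX A P ∧ GY A' P' ∧ J A P A' P'
          then LW ΛX A * LW ΛX P * (LW ΛY A' * LW ΛY P') else 0) := by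
        simp_rw [ENNReal.tsum_add, ENNReal.tsum_mul_right]
    _ ≤ _ := by
        refine add_le_add ?_ ?_
        · calc _ ≤ 1 * (eY + eY) := mul_le_mul_left totX _
            _ = _ := one_mul _
        · set wX1 : List BX → ℝ≥0∞ := fun A => if FP hX T A then LW ΛX A else 0 with hw1
          set wX2 : List BX → ℝ≥0∞ := fun P => if FP hX H P then LW ΛX P else 0 with hw2
          set wY1 : List BY → ℝ≥0∞ := fun A => if FP hY T' A then LW ΛY A else 0 with hw3
          set wY2 : List BY → ℝ≥0∞ := fun P => if FP hY H' P then LW ΛY P else 0 with hw4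
          set nX : List BX → ℝ≥0∞ := fun P =>
            if FP hX H P ∧ Dp zX P ∉ EX (HT hX P) then LW ΛX P else 0 with hnX
          set nY : List BY → ℝ≥0∞ := fun P =>
            if FP hY H' P ∧ Dp zY P ∉ EY (HT hY P) then LW ΛY P else 0 with hnY
          set bdX : List BX → ℝ≥0∞ := fun A => if FP hX T A ∧ ¬ SpX A then LW ΛX A else 0 with hbX
          set bdY : List BY → ℝ≥0∞ := fun A => if FP hY T' A ∧ ¬ SpY A then LW ΛY A else 0 with hbY
          set c4 : List BX → List BX → List BY → List BY → ℝ≥0∞ := fun A P A' P' =>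
            (if GX A P ∧ GY A' P' ∧ (SpX A ∧ True) ∧ (Dp zX P ∈ EX (HT hX P) ∧ J A P A' P')
              then LW ΛX A * LW ΛX P * (LW ΛY A' * LW ΛY P') else 0) with hc4
          set c5 : List BX → List BX → List BY → List BY → ℝ≥0∞ := fun A P A' P' =>
            (if GX A P ∧ GY A' P' ∧ (True ∧ SpY A') ∧ (Dp zY P' ∈ EY (HT hY P') ∧ J A P A' P')
              then LW ΛX A * LW ΛX P * (LW ΛY A' * LW ΛY P') else 0) with hc5
          have pw : ∀ A P A' P', (if GX A P ∧ GY A' P' ∧ J A P A' P'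
              then LW ΛX A * LW ΛX P * (LW ΛY A' * LW ΛY P') else 0) ≤
              wX1 A * nX P * (wY1 A' * nY P') + bdX A * wX2 P * (wY1 A' * wY2 P') +
              wX1 A * wX2 P * (bdY A' * wY2 P') + (c4 A P A' P' + c5 A P A' P') := by
            intro A P A' P'
            by_cases h : GX A P ∧ GY A' P' ∧ J A P A' P'
            · obtain ⟨hg1, hg2, hj⟩ := h
              have f1 : FP hX T A := hg1.1
              have f2 : FP hX H P := hg1.2.2.1
              have f3 : FP hY T' A' := hg2.1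
              have f4 : FP hY H' P' := hg2.2.2.1
              rw [if_pos ⟨hg1, hg2, hj⟩]
              by_cases l1 : Dp zX P ∈ EX (HT hX P)
              · by_cases p1 : SpX A
                · refine le_add_left (le_add_right ?_)
                  simp only [hc4]
                  rw [if_pos ⟨hg1, hg2, ⟨p1, trivial⟩, l1, hj⟩]
                · refine le_add_right (le_add_right (le_add_left ?_))
                  simp only [hbX, hw2, hw3, hw4]
                  rw [if_pos ⟨f1, p1⟩, if_pos f2, if_pos f3, if_pos f4]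
              · by_cases l2 : Dp zY P' ∈ EY (HT hY P')
                · by_cases p2 : SpY A'
                  · refine le_add_left (le_add_left ?_)
                    simp only [hc5]
                    rw [if_pos ⟨hg1, hg2, ⟨trivial, p2⟩, l2, hj⟩]
                  · refine le_add_right (le_add_left ?_)
                    simp only [hbY, hw1, hw2, hw4]
                    rw [if_pos f1, if_pos f2, if_pos ⟨f3, p2⟩, if_pos f4]
                · refine le_add_right (le_add_right (le_add_right ?_))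
                  simp only [hw1, hnX, hw3, hnY]
                  rw [if_pos f1, if_pos ⟨f2, l1⟩, if_pos f3, if_pos ⟨f4, l2⟩]
            · rw [if_neg h]; exact zero_le
          have m1 : (∑' A, wX1 A) ≤ 1 := WX.m1 T
          have m2 : (∑' A, wX2 A) ≤ 1 := WX.m1 H
          have m3 : (∑' A, wY1 A) ≤ 1 := WY.m1 T'
          have m4 : (∑' A, wY2 A) ≤ 1 := WY.m1 H'
          have m5 : (∑' A, nX A) ≤ uX := WX.nl
          have m6 : (∑' A, nY A) ≤ uY := WY.nl
          have m7 : (∑' A, bdX A) ≤ bX := WX.bad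
          have m8 : (∑' A, bdY A) ≤ bY := WY.bad
          calc _ ≤ ∑' A : List BX, ∑' P : List BX, ∑' A' : List BY, ∑' P' : List BY,
                (wX1 A * nX P * (wY1 A' * nY P') + bdX A * wX2 P * (wY1 A' * wY2 P') +
              wX1 A * wX2 P * (bdY A' * wY2 P') + (c4 A P A' P' + c5 A P A' P')) :=
                ENNReal.tsum_le_tsum fun A => ENNReal.tsum_le_tsum fun P =>
                ENNReal.tsum_le_tsum fun A' => ENNReal.tsum_le_tsum fun P' => pw A P A' P'
            _ = (∑' A, wX1 A) * (∑' P, nX P) * ((∑' A', wY1 A') * (∑' P', nY P')) +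
                (∑' A, bdX A) * (∑' P, wX2 P) * ((∑' A', wY1 A') * (∑' P', wY2 P')) +
                (∑' A, wX1 A) * (∑' P, wX2 P) * ((∑' A', bdY A') * (∑' P', wY2 P')) +
                ((∑' A : List BX, ∑' P : List BX, ∑' A' : List BY, ∑' P' : List BY, c4 A P A' P') +
                (∑' A : List BX, ∑' P : List BX, ∑' A' : List BY, ∑' P' : List BY,
                  c5 A P A' P')) := by
                simp_rw [ENNReal.tsum_add]
                rw [← prod4, ← prod4, ← prod4]
            _ ≤ 1 * uX * (1 * uY) + bX * 1 * (1 * 1) + 1 * 1 * (bY * 1) +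
                (((i0 + 1 : ℕ) : ℝ≥0∞) ^ 4 * R2 + ((i0 + 1 : ℕ) : ℝ≥0∞) ^ 4 * R3) := by
                refine add_le_add (add_le_add (add_le_add ?_ ?_) ?_) (add_le_add ?_ ?_)
                · exact mul_le_mul' (mul_le_mul' m1 m5) (mul_le_mul' m3 m6)
                · exact mul_le_mul' (mul_le_mul' m7 m2) (mul_le_mul' m3 m4)
                · exact mul_le_mul' (mul_le_mul' m1 m2) (mul_le_mul' m8 m4)
                · have q := (tmain ΛX ΛY hX hY WX.m1 WY.m1 SpX (fun _ => True)
                    (fun P P' a a' x => Dp zX P ∈ EX (HT hX P) ∧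
                      Jp hX hY zX zY sX sY (T' + i0 + s) hi P P' a a' x)
                    (fun A A' => w + Dp zY A' - Dp zX A)
                    (T := T) (H := H) (T' := T') (H' := H') (i0 := i0) (M := MX) (R := R2)
                    (fun a a' y => by
                      convert muX ΛX ΛY hX hY zX zY WY.m1 SpX WX.dens w a a' y)
                    (by
                      intro a a' h h' i1 i2 i3 i4 μ h5 h6
                      convert H2 a a' h h' i1 i2 i3 i4 μ h5 h6))
                  refine le_trans (le_of_eq ?_) q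
                  refine tsum_congr fun A => ?_
                  rw [ENNReal.tsum_comm]
                  refine tsum_congr fun A' => tsum_congr fun P => tsum_congr fun P' => ?_
                  simp only [hc4]
                  split_ifs <;> first | rfl | contradiction
                · have q := (tmain ΛX ΛY hX hY WX.m1 WY.m1 (fun _ => True) SpY
                    (fun P P' a a' x => Dp zY P' ∈ EY (HT hY P') ∧
                      Jp hX hY zX zY sX sY (T' + i0 + s) hi P P' a a' x)
                    (fun A A' => w + Dp zY A' - Dp zX A)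
                    (T := T) (H := H) (T' := T') (H' := H') (i0 := i0) (M := MY) (R := R3)
                    (fun a a' y => by
                      convert muY ΛX ΛY hX hY zX zY WX.m1 SpY WY.dens w a a' y)
                    (by
                      intro a a' h h' i1 i2 i3 i4 μ h5 h6
                      convert H3 a a' h h' i1 i2 i3 i4 μ h5 h6))
                  refine le_trans (le_of_eq ?_) q
                  refine tsum_congr fun A => ?_
                  rw [ENNReal.tsum_comm]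
                  refine tsum_congr fun A' => tsum_congr fun P => tsum_congr fun P' => ?_
                  simp only [hc5]
                  split_ifs <;> first | rfl | contradiction
            _ = _ := by simp only [one_mul, mul_one]

end window

end Crest.Agent.R154.WinL815
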