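import Crest.Agent.R154.Win_775

/-! Row 154, ROAD 801 (helper135): helper775's window lemma (3) with the turning words restricted
to those whose part before the visit of `A` is natural. -/

set_option autoImplicit false
set_option linter.unusedVariables false

open MeasureTheory ProbabilityTheory Crest.ProbabilityR.RandomEnvironment
open scoped ENNReal Classical

namespace Crest.Agent.R154.WinN135

open Crest.Agent.R154.Flux566
open Crest.Agent.R154.Win775

variable {d : ℕ}

/-- natural up to a visit of `A` -/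
def NA (S' A : Set (Site d)) (y : Site d) (σ : List (Step d)) : Prop :=
  ∃ σ1 σ2, σ = σ1 ++ σ2 ∧ (∀ z ∈ sitesL y σ1, z ∈ S') ∧ endp y σ1 ∈ A

variable (ν : Measure (Row d)) [IsProbabilityMeasure ν] {S T : Site d → Set (Site d)}
  {S' T' Q A : Set (Site d)} {y : Site d} {δ : Site d → Site d → ℝ≥0∞}

lemma turn_leN (ω : Environment d) (hS : ∀ x, S x ⊆ Qᶜ) (hT : ∀ x, T x ⊆ Q) (hS' : S' ⊆ Qᶜ)
    (x : Site d) (ρ : List (Step d)) (hρ : FP (S x) (T x) x ρ) :
    ∑' π1 : List (Step d), (if F1 S' A y x ρ π1 then lw ω y π1 *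
      (∑' τ : List (Step d), (if FP (S x) (T x) (endp y π1) τ then lw ω (endp y π1) τ else 0))
        else 0)
      ≤ ∑' σ : List (Step d), (if FP Qᶜ Q y σ ∧ endp y σ ∈ T x ∧ NA S' A y σ
        then lw ω y σ else 0) := by
  calc _ = ∑' π1 : List (Step d), ∑' τ : List (Step d),
        (if F1 S' A y x ρ π1 ∧ FP (S x) (T x) (endp y π1) τ then
          lw ω y π1 * lw ω (endp y π1) τ else 0) := by
        refine tsum_congr fun π1 => ?_
        by_cases h : F1 S' A y x ρ π1
        · rw [if_pos h, ← ENNReal.tsum_mul_left]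
          refine tsum_congr fun τ => ?_
          by_cases h2 : FP (S x) (T x) (endp y π1) τ
          · rw [if_pos h2, if_pos ⟨h, h2⟩]
          · rw [if_neg h2, if_neg (fun hh => h2 hh.2), mul_zero]
        · rw [if_neg h]
          simp [h]
    _ ≤ _ := by
        refine tsum_join_le ?_ ?_
        · intro π1 τ
          by_cases h : F1 S' A y x ρ π1 ∧ FP (S x) (T x) (endp y π1) τ
          · rw [if_pos h, if_pos, lw_append]
            obtain ⟨⟨f1, f2, f3, f4⟩, g1, g2⟩ := h
            refine ⟨⟨?_, ?_⟩, ?_, ?_⟩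
            · intro z hz
              rw [sitesL_append, List.mem_append] at hz
              rcases hz with hz | hz
              · exact hS' (f4 z hz)
              · exact hS x (g1 z hz)
            · rw [endp_append]; exact hT x g2
            · rw [endp_append]; exact g2
            · exact ⟨π1, τ, rfl, f4, f3⟩
          · rw [if_neg h]; exact zero_le
        · intro l1 l2 l1' l2' h h' e
          have h1 : F1 S' A y x ρ l1 := by
            by_contra hcon; exact h (if_neg fun hh => hcon hh.1)
          have h2 : F1 S' A y x ρ l1' := by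
            by_contra hcon; exact h' (if_neg fun hh => hcon hh.1)
          exact h1.inj h2 e


lemma point_leN (ω : Environment d) {M lam : ℝ≥0∞} (hM : M ≠ 0) (hM' : M ≠ ⊤) (hl : lam ≠ 0)
    (hl' : lam ≠ ⊤) (hd : Disjoint S' T') (hδ : ∀ x z, δ x z ≤ M)
    (hS : ∀ x, S x ⊆ Qᶜ) (hT : ∀ x, T x ⊆ Q) (hS' : S' ⊆ Qᶜ) (x : Site d) :
    ∑' ρ : List (Step d), ∑' π1 : List (Step d), (if FP (S x) (T x) x ρ ∧ F1 S' A y x ρ π1 then
      lw ω x ρ * lw ω y π1 * mw ν S' T' y δ x π1 else 0)
      ≤ M / lam * ∑' σ : List (Step d), (if FP Qᶜ Q y σ ∧ endp y σ ∈ T x ∧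
          NA S' A y σ then lw ω y σ else 0) +
        ∑' j : ℕ, M * (2 ^ j)⁻¹ * (lam * (2 ^ j)⁻¹) *
          ∑' π0 : List (Step d), (if F0 ν S' T' y δ M x j π0 then lw ω y π0 else 0) := by
  have hdx : Disjoint (S x) (T x) :=
    Set.disjoint_left.2 fun z hz hz' => hS x hz (hT x hz')
  set e : Site d → ℝ≥0∞ := fun v =>
    ∑' τ : List (Step d), (if FP (S x) (T x) v τ then lw ω v τ else 0) with he
  set Rx := ∑' σ : List (Step d), (if FP Qᶜ Q y σ ∧ endp y σ ∈ T x ∧
          NA S' A y σ then lw ω y σ else 0) with hRx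
  set Z : ℕ → ℝ≥0∞ := fun j =>
    ∑' π0 : List (Step d), (if F0 ν S' T' y δ M x j π0 then lw ω y π0 else 0) with hZ
  -- for fixed `ρ`
  have key : ∀ ρ : List (Step d), ∑' π1 : List (Step d),
      (if FP (S x) (T x) x ρ ∧ F1 S' A y x ρ π1 then
        lw ω x ρ * lw ω y π1 * mw ν S' T' y δ x π1 else 0)
      ≤ (if FP (S x) (T x) x ρ then lw ω x ρ else 0) * (M / lam * Rx) +
        ∑' j : ℕ, M * (2 ^ j)⁻¹ * ((if FP (S x) (T x) x ρ ∧
          (∃ z ∈ sitesL x ρ, z ∈ {v | e v ≤ lam * (2 ^ j)⁻¹}) then lw ω x ρ else 0) * Z j) := by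
    intro ρ
    by_cases hρ : FP (S x) (T x) x ρ
    swap
    · simp [hρ]
    simp only [hρ, true_and, if_true]
    calc ∑' π1 : List (Step d), (if F1 S' A y x ρ π1 then
          lw ω x ρ * lw ω y π1 * mw ν S' T' y δ x π1 else 0)
        ≤ ∑' π1 : List (Step d), (lw ω x ρ * (M / lam) *
            (if F1 S' A y x ρ π1 then lw ω y π1 * e (endp y π1) else 0) +
            ∑' j : ℕ, M * (2 ^ j)⁻¹ * (lw ω x ρ * (if F1 S' A y x ρ π1 ∧
              M * (2 ^ (j + 1))⁻¹ < mw ν S' T' y δ x π1 ∧ e (endp y π1) ≤ lam * (2 ^ j)⁻¹ then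
                lw ω y π1 else 0))) := by
          refine ENNReal.tsum_le_tsum fun π1 => ?_
          by_cases h1 : F1 S' A y x ρ π1
          · simp only [h1, if_true, true_and]
            calc lw ω x ρ * lw ω y π1 * mw ν S' T' y δ x π1
                ≤ lw ω x ρ * lw ω y π1 * (M / lam * e (endp y π1) +
                  ∑' j : ℕ, (if M * (2 ^ (j + 1))⁻¹ < mw ν S' T' y δ x π1 ∧
                    e (endp y π1) ≤ lam * (2 ^ j)⁻¹ then M * (2 ^ j)⁻¹ else 0)) :=
                  mul_le_mul_right (dyadic hM hM' hl hl' (mw_le ν S' T' y δ hd hδ x π1)) _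
              _ = _ := by
                  rw [mul_add]
                  congr 1
                  · ring
                  · rw [← ENNReal.tsum_mul_left]
                    refine tsum_congr fun j => ?_
                    split_ifs
                    · ring
                    · simp
          · rw [if_neg h1]; exact zero_le
      _ = lw ω x ρ * (M / lam) * ∑' π1 : List (Step d),
            (if F1 S' A y x ρ π1 then lw ω y π1 * e (endp y π1) else 0) +
          ∑' j : ℕ, M * (2 ^ j)⁻¹ * (lw ω x ρ * ∑' π1 : List (Step d), (if F1 S' A y x ρ π1 ∧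
              M * (2 ^ (j + 1))⁻¹ < mw ν S' T' y δ x π1 ∧ e (endp y π1) ≤ lam * (2 ^ j)⁻¹ then
                lw ω y π1 else 0)) := by
          rw [ENNReal.tsum_add, ENNReal.tsum_mul_left, ENNReal.tsum_comm]
          congr 1
          refine tsum_congr fun j => ?_
          rw [ENNReal.tsum_mul_left, ENNReal.tsum_mul_left]
      _ ≤ lw ω x ρ * (M / lam) * Rx + ∑' j : ℕ, M * (2 ^ j)⁻¹ * ((if
          (∃ z ∈ sitesL x ρ, z ∈ {v | e v ≤ lam * (2 ^ j)⁻¹}) then lw ω x ρ else 0) * Z j) := by
          refine add_le_add (mul_le_mul_right (turn_leN ω hS hT hS' x ρ hρ) _) ?_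
          refine ENNReal.tsum_le_tsum fun j => mul_le_mul_right ?_ _
          by_cases hv : ∃ z ∈ sitesL x ρ, z ∈ {v | e v ≤ lam * (2 ^ j)⁻¹}
          · rw [if_pos hv]
            refine mul_le_mul_right (le_trans (le_of_eq ?_)
              (free_le (A := A) ν ω x ρ j fun π1 => e (endp y π1) ≤ lam * (2 ^ j)⁻¹)) _
            refine tsum_congr fun π1 => ?_
            congr
          · have : ∀ π1 : List (Step d), ¬ (F1 S' A y x ρ π1 ∧
              M * (2 ^ (j + 1))⁻¹ < mw ν S' T' y δ x π1 ∧ e (endp y π1) ≤ lam * (2 ^ j)⁻¹) := by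
              rintro π1 ⟨h1, _, h3⟩
              exact hv ⟨_, h1.2.1, h3⟩
            simp only [if_neg (this _), tsum_zero, mul_zero]
            exact zero_le
      _ = _ := by rw [mul_assoc]
  calc _ ≤ ∑' ρ : List (Step d), ((if FP (S x) (T x) x ρ then lw ω x ρ else 0) * (M / lam * Rx) +
        ∑' j : ℕ, M * (2 ^ j)⁻¹ * ((if FP (S x) (T x) x ρ ∧
          (∃ z ∈ sitesL x ρ, z ∈ {v | e v ≤ lam * (2 ^ j)⁻¹}) then lw ω x ρ else 0) * Z j)) :=
        ENNReal.tsum_le_tsum key
    _ = (∑' ρ : List (Step d), (if FP (S x) (T x) x ρ then lw ω x ρ else 0)) * (M / lam * Rx) +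
        ∑' j : ℕ, M * (2 ^ j)⁻¹ * ((∑' ρ : List (Step d), (if FP (S x) (T x) x ρ ∧
          (∃ z ∈ sitesL x ρ, z ∈ {v | e v ≤ lam * (2 ^ j)⁻¹}) then lw ω x ρ else 0)) * Z j) := by
        rw [ENNReal.tsum_add, ENNReal.tsum_mul_right, ENNReal.tsum_comm]
        congr 1
        refine tsum_congr fun j => ?_
        rw [ENNReal.tsum_mul_left, ENNReal.tsum_mul_right]
    _ ≤ 1 * (M / lam * Rx) + ∑' j : ℕ, M * (2 ^ j)⁻¹ * ((lam * (2 ^ j)⁻¹) * Z j) := by
        refine add_le_add (mul_le_mul_left (kraft ω hdx x) _) ?_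
        refine ENNReal.tsum_le_tsum fun j => mul_le_mul_right (mul_le_mul_left ?_ _) _
        refine le_trans (le_of_eq ?_)
          (markov_le ω hdx x {v | e v ≤ lam * (2 ^ j)⁻¹} _ fun v hv => hv)
        exact tsum_congr fun ρ => by congr
    _ = _ := by
        rw [one_mul]
        congr 1
        exact tsum_congr fun j => (mul_assoc _ _ _).symm


theorem win3N {M lam N r : ℝ≥0∞} (hM : M ≠ 0) (hM' : M ≠ ⊤) (hl : lam ≠ 0)
    (hl' : lam ≠ ⊤) (hd : Disjoint S' T') (hδ : ∀ x z, δ x z ≤ M)
    (hδ1 : ∀ z, ∑' x, δ x z ≤ 1)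
    (hS : ∀ x, S x ⊆ Qᶜ) (hT : ∀ x, T x ⊆ Q) (hS' : S' ⊆ Qᶜ)
    (hN : ∀ z, ∑' x : Site d, (if z ∈ T x then (1 : ℝ≥0∞) else 0) ≤ N)
    (hr : ∑' σ : List (Step d), (if FP Qᶜ Q y σ ∧ NA S' A y σ then
      awx ν y σ else 0) ≤ r) :
    ∑' x : Site d, ∑' ρ : List (Step d), ∑' π : List (Step d),
      (if FP (S x) (T x) x ρ ∧ FP S' T' y π ∧ Hit x ρ y A π then
        awx ν x ρ * (awx ν y π * δ x (endp y π)) else 0)
      ≤ 4 * lam + M / lam * (N * r) := by
  calc ∑' x : Site d, ∑' ρ : List (Step d), ∑' π : List (Step d),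
      (if FP (S x) (T x) x ρ ∧ FP S' T' y π ∧ Hit x ρ y A π then
        awx ν x ρ * (awx ν y π * δ x (endp y π)) else 0)
      ≤ ∑' x : Site d, ∑' ρ : List (Step d), ∑' π1 : List (Step d),
          (if FP (S x) (T x) x ρ ∧ F1 S' A y x ρ π1 then
            awx ν x ρ * awx ν y π1 * mw ν S' T' y δ x π1 else 0) := by
        refine ENNReal.tsum_le_tsum fun x => ENNReal.tsum_le_tsum fun ρ => ?_
        by_cases hρ : FP (S x) (T x) x ρ
        swap
        · simp [hρ]
        simp only [hρ, true_and]
        calc _ = awx ν x ρ * ∑' π : List (Step d), (if FP S' T' y π ∧ Hit x ρ y A π then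
              awx ν y π * δ x (endp y π) else 0) := by
              rw [← ENNReal.tsum_mul_left]
              refine tsum_congr fun π => ?_
              split_ifs <;> simp
          _ ≤ awx ν x ρ * ∑' π1 : List (Step d),
                (if F1 S' A y x ρ π1 then Bw ν S' T' y δ x π1 else 0) :=
              mul_le_mul_right (hit_sum ν S' T' A y δ x ρ) _
          _ = _ := by
              rw [← ENNReal.tsum_mul_left]
              refine tsum_congr fun π1 => ?_
              by_cases h : F1 S' A y x ρ π1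
              · rw [if_pos h, if_pos h, Bw_eq ν S' T' y δ hd hδ, mul_assoc]
              · rw [if_neg h, if_neg h, mul_zero]
    _ = ∫⁻ ω, ∑' x : Site d, ∑' ρ : List (Step d), ∑' π1 : List (Step d),
          (if FP (S x) (T x) x ρ ∧ F1 S' A y x ρ π1 then
            lw ω x ρ * lw ω y π1 * mw ν S' T' y δ x π1 else 0) ∂(iidEnvironmentLaw ν) := by
        have hm : ∀ x (ρ π1 : List (Step d)), Measurable fun ω : Environment d =>
            (if FP (S x) (T x) x ρ ∧ F1 S' A y x ρ π1 then
              lw ω x ρ * lw ω y π1 * mw ν S' T' y δ x π1 else 0) := by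
          intro x ρ π1
          split_ifs
          · exact ((measurable_lw _ _).mul (measurable_lw _ _)).mul_const _
          · exact measurable_const
        rw [lintegral_tsum fun x => (Measurable.ennreal_tsum fun ρ =>
          Measurable.ennreal_tsum fun π1 => hm x ρ π1).aemeasurable]
        refine tsum_congr fun x => ?_
        rw [lintegral_tsum fun ρ => (Measurable.ennreal_tsum fun π1 => hm x ρ π1).aemeasurable]
        refine tsum_congr fun ρ => ?_
        rw [lintegral_tsum fun π1 => (hm x ρ π1).aemeasurable]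
        refine tsum_congr fun π1 => ?_
        by_cases h : FP (S x) (T x) x ρ ∧ F1 S' A y x ρ π1
        · simp only [if_pos h]
          have hmm : Measurable fun ω : Environment d => lw ω x ρ * lw ω y π1 :=
            (measurable_lw _ _).mul (measurable_lw _ _)
          rw [lintegral_mul_const _ hmm, lintegral_lw_mul ν h.2.1]
        · simp only [if_neg h, lintegral_zero]
    _ ≤ ∫⁻ ω, ∑' x : Site d, (M / lam * ∑' σ : List (Step d), (if FP Qᶜ Q y σ ∧
          endp y σ ∈ T x ∧ NA S' A y σ then lw ω y σ else 0) +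
        ∑' j : ℕ, M * (2 ^ j)⁻¹ * (lam * (2 ^ j)⁻¹) *
          ∑' π0 : List (Step d), (if F0 ν S' T' y δ M x j π0 then lw ω y π0 else 0))
            ∂(iidEnvironmentLaw ν) :=
        lintegral_mono fun ω => ENNReal.tsum_le_tsum fun x =>
          point_leN ν ω hM hM' hl hl' hd hδ hS hT hS' x
    _ = ∑' x : Site d, (M / lam * ∑' σ : List (Step d), (if FP Qᶜ Q y σ ∧
          endp y σ ∈ T x ∧ NA S' A y σ then awx ν y σ else 0) +
        ∑' j : ℕ, M * (2 ^ j)⁻¹ * (lam * (2 ^ j)⁻¹) *
          ∑' π0 : List (Step d), (if F0 ν S' T' y δ M x j π0 then awx ν y π0 else 0)) := by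
        have hm1 : ∀ x, Measurable fun ω : Environment d => ∑' σ : List (Step d),
            (if FP Qᶜ Q y σ ∧ endp y σ ∈ T x ∧ NA S' A y σ then lw ω y σ else 0) :=
          fun x => Measurable.ennreal_tsum fun σ => meas_if_lw _ y σ
        have hm2 : ∀ x (j : ℕ), Measurable fun ω : Environment d => ∑' π0 : List (Step d),
            (if F0 ν S' T' y δ M x j π0 then lw ω y π0 else 0) :=
          fun x j => Measurable.ennreal_tsum fun π0 => meas_if_lw _ y π0
        have hmx : ∀ x : Site d, Measurable fun ω : Environment d =>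
            (M / lam * ∑' σ : List (Step d), (if FP Qᶜ Q y σ ∧
              endp y σ ∈ T x ∧ NA S' A y σ then lw ω y σ else 0) +
            ∑' j : ℕ, M * (2 ^ j)⁻¹ * (lam * (2 ^ j)⁻¹) *
              ∑' π0 : List (Step d), (if F0 ν S' T' y δ M x j π0 then lw ω y π0 else 0)) :=
          fun x => ((hm1 x).const_mul _).add (Measurable.ennreal_tsum fun j =>
            (hm2 x j).const_mul _)
        rw [lintegral_tsum fun x => (hmx x).aemeasurable]
        refine tsum_congr fun x => ?_
        rw [lintegral_add_left ((hm1 x).const_mul _), lintegral_const_mul _ (hm1 x),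
          lintegral_tsum fun σ => (meas_if_lw _ y σ).aemeasurable,
          lintegral_tsum fun j => ((hm2 x j).const_mul _).aemeasurable]
        congr 1
        · congr 1
          exact tsum_congr fun σ => lintegral_if_lw ν _ y σ
        · refine tsum_congr fun j => ?_
          rw [lintegral_const_mul _ (hm2 x j),
            lintegral_tsum fun π0 => (meas_if_lw _ y π0).aemeasurable]
          congr 1
          exact tsum_congr fun π0 => lintegral_if_lw ν _ y π0
    _ = M / lam * (∑' x : Site d, ∑' σ : List (Step d), (if FP Qᶜ Q y σ ∧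
          endp y σ ∈ T x ∧ NA S' A y σ then awx ν y σ else 0)) +
        ∑' j : ℕ, M * (2 ^ j)⁻¹ * (lam * (2 ^ j)⁻¹) * ∑' x : Site d,
          ∑' π0 : List (Step d), (if F0 ν S' T' y δ M x j π0 then awx ν y π0 else 0) := by
        rw [ENNReal.tsum_add, ENNReal.tsum_mul_left]
        congr 1
        rw [ENNReal.tsum_comm]
        exact tsum_congr fun j => ENNReal.tsum_mul_left
    _ ≤ M / lam * (N * r) + ∑' j : ℕ, 2 * (lam * (2 ^ j)⁻¹) := by
        refine add_le_add (mul_le_mul_right ?_ _) (ENNReal.tsum_le_tsum fun j => ?_)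
        · rw [ENNReal.tsum_comm]
          calc ∑' σ : List (Step d), ∑' x : Site d, (if FP Qᶜ Q y σ ∧
                endp y σ ∈ T x ∧ NA S' A y σ then awx ν y σ else 0)
              ≤ ∑' σ : List (Step d), N * (if FP Qᶜ Q y σ ∧ NA S' A y σ then
                  awx ν y σ else 0) := by
                refine ENNReal.tsum_le_tsum fun σ => ?_
                by_cases h : FP Qᶜ Q y σ ∧ NA S' A y σ
                · rw [if_pos h]
                  refine le_trans ?_ (mul_le_mul_left (hN (endp y σ)) _)
                  rw [← ENNReal.tsum_mul_right]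
                  refine ENNReal.tsum_le_tsum fun x => ?_
                  by_cases h2 : endp y σ ∈ T x
                  · simp [h.1, h2]
                    split_ifs <;> simp
                  · rw [if_neg (fun hh => h2 hh.2.1)]; exact zero_le
                · have : ∀ x, ¬ (FP Qᶜ Q y σ ∧ endp y σ ∈ T x ∧ NA S' A y σ) :=
                    fun x hh => h ⟨hh.1, hh.2.2⟩
                  simp only [if_neg (this _), tsum_zero]
                  exact zero_le
            _ = N * ∑' σ : List (Step d), (if FP Qᶜ Q y σ ∧ NA S' A y σ then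
                  awx ν y σ else 0) := ENNReal.tsum_mul_left
            _ ≤ N * r := mul_le_mul_right hr _
        · set W := ∑' x : Site d, ∑' π0 : List (Step d), (if F0 ν S' T' y δ M x j π0 then
            awx ν y π0 else 0) with hW
          have h1 : M * (2 ^ (j + 1))⁻¹ * W ≤ 1 := by
            rw [hW, ← ENNReal.tsum_mul_left]
            calc _ ≤ ∑' x : Site d, ∑' π : List (Step d),
                  (if FP S' T' y π then awx ν y π * δ x (endp y π) else 0) :=
                  ENNReal.tsum_le_tsum fun x => F0_mass ν hd hδ j x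
              _ = ∑' π : List (Step d), (if FP S' T' y π then awx ν y π else 0) *
                    ∑' x : Site d, δ x (endp y π) := by
                  rw [ENNReal.tsum_comm]
                  refine tsum_congr fun π => ?_
                  rw [← ENNReal.tsum_mul_left]
                  refine tsum_congr fun x => ?_
                  split_ifs <;> simp
              _ ≤ ∑' π : List (Step d), (if FP S' T' y π then awx ν y π else 0) * 1 :=
                  ENNReal.tsum_le_tsum fun π => mul_le_mul_right (hδ1 _) _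
              _ ≤ awx ν y [] := by
                  simp only [mul_one]
                  exact awx_kraft ν hd y []
              _ ≤ 1 := awx_le_one ν y []
          calc M * (2 ^ j)⁻¹ * (lam * (2 ^ j)⁻¹) * W
              = 2 * (lam * (2 ^ j)⁻¹) * (M * (2 ^ (j + 1))⁻¹ * W) := by
                have h2 : ((2 : ℝ≥0∞) ^ j)⁻¹ = 2 * (2 ^ (j + 1))⁻¹ := by
                  rw [pow_succ, ENNReal.mul_inv (Or.inl (by positivity))
                    (Or.inl (by finiteness)), mul_comm (2 : ℝ≥0∞), mul_assoc,
                    ENNReal.inv_mul_cancel (by norm_num) (by norm_num), mul_one]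
                calc M * (2 ^ j)⁻¹ * (lam * (2 ^ j)⁻¹) * W
                    = (lam * (2 ^ j)⁻¹) * (M * (2 ^ j)⁻¹ * W) := by ring
                  _ = (lam * (2 ^ j)⁻¹) * (M * (2 * (2 ^ (j + 1))⁻¹) * W) := by rw [← h2]
                  _ = _ := by ring
            _ ≤ 2 * (lam * (2 ^ j)⁻¹) * 1 := mul_le_mul_right h1 _
            _ = _ := mul_one _
    _ = 4 * lam + M / lam * (N * r) := by rw [sum_four, add_comm]

end Crest.Agent.R154.WinN135
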