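import Crest.Agent.R154.B5Abs_566

/-! Row 154, ROAD 801 (helper267): single-walker lists, first passage split, one window. -/

set_option autoImplicit false

namespace Crest.Agent.R154.Win267

open scoped ENNReal
open Crest.Agent.R154.B5A

open Classical in
/-- indicator -/
noncomputable def ind (p : Prop) : ℝ≥0∞ := if p then 1 else 0

lemma ind_le_one (p : Prop) : ind p ≤ 1 := by unfold ind; split_ifs <;> simp
lemma ind_true {p : Prop} (h : p) : ind p = 1 := by unfold ind; rw [if_pos h]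
lemma ind_false {p : Prop} (h : ¬p) : ind p = 0 := by unfold ind; rw [if_neg h]
lemma ind_mono {p q : Prop} (h : p → q) : ind p ≤ ind q := by
  by_cases hp : p
  · rw [ind_true hp, ind_true (h hp)]
  · rw [ind_false hp]; exact zero_le

section FPS
variable {B : Type*} (Λ : B → ℝ≥0∞) (ht : B → ℕ)

/-- first passage of height `a` -/
def FP (a : ℕ) (L : List B) : Prop :=
  a ≤ HT ht L ∧ ∀ L1 L2, L = L1 ++ L2 → L2 ≠ [] → HT ht L1 < a

lemma exists_FP (L : List B) : ∀ a, a ≤ HT ht L → ∃ L1 L2, L = L1 ++ L2 ∧ FP ht a L1 := by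
  induction L with
  | nil =>
    intro a h
    rw [HT_nil] at h
    refine ⟨[], [], rfl, by rw [HT_nil]; exact h, fun L1 L2 he h2 => ?_⟩
    exact absurd (List.append_eq_nil_iff.1 he.symm).2 h2
  | cons b L ih =>
    intro a h
    rcases Nat.eq_zero_or_pos a with rfl | ha
    · refine ⟨[], b :: L, rfl, Nat.zero_le _, fun L1 L2 he h2 => ?_⟩
      exact absurd (List.append_eq_nil_iff.1 he.symm).2 h2
    · rw [HT_cons] at h
      obtain ⟨L1, L2, he, hF⟩ := ih (a - ht b) (by omega)
      by_cases hb : a ≤ ht b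
      · refine ⟨[b], L, rfl, by rw [HT_cons, HT_nil]; omega, fun M1 M2 he2 h2 => ?_⟩
        cases M1 with
        | nil => rw [HT_nil]; exact ha
        | cons c M1 =>
          simp only [List.cons_append, List.cons.injEq] at he2
          exact absurd (List.append_eq_nil_iff.1 he2.2.symm).2 h2
      · refine ⟨b :: L1, L2, by rw [he]; rfl, by rw [HT_cons]; have := hF.1; omega,
          fun M1 M2 he2 h2 => ?_⟩
        cases M1 with
        | nil => rw [HT_nil]; exact ha
        | cons c M1 =>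
          simp only [List.cons_append, List.cons.injEq] at he2
          obtain ⟨rfl, he3⟩ := he2
          have := hF.2 M1 M2 he3 h2
          rw [HT_cons]; omega

lemma split_le (a : ℕ) (g : List B → ℝ≥0∞) :
    ∑' L, ind (a ≤ HT ht L) * g L ≤ ∑' L1, ∑' L2, ind (FP ht a L1) * g (L1 ++ L2) := by
  classical
  rw [← ENNReal.tsum_prod]
  choose! f1 f2 hf1 hf2 using exists_FP ht
  set S : Set (List B) := {L | a ≤ HT ht L} with hS
  have e1 : ∑' L, ind (a ≤ HT ht L) * g L = ∑' L : S, g L := by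
    rw [tsum_subtype S g]
    refine tsum_congr fun L => ?_
    by_cases h : a ≤ HT ht L
    · rw [ind_true h, one_mul, Set.indicator_of_mem (show L ∈ S from h)]
    · rw [ind_false h, zero_mul, Set.indicator_of_notMem (show L ∉ S from h)]
  rw [e1]
  set f : S → List B × List B := fun L => (f1 L a, f2 L a) with hf
  have hinj : Function.Injective f := by
    intro L L' h
    simp only [hf, Prod.mk.injEq] at h
    apply Subtype.ext
    rw [hf1 L a L.2, hf1 L' a L'.2, h.1, h.2]
  have e2 : ∑' L : S, g L = ∑' L : S, (fun p : List B × List B =>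
      ind (FP ht a p.1) * g (p.1 ++ p.2)) (f L) := by
    refine tsum_congr fun L => ?_
    simp only [hf]
    rw [ind_true (hf2 L a L.2), one_mul, ← hf1 L a L.2]
  rw [e2]
  exact ENNReal.tsum_comp_le_tsum_of_injective hinj _

lemma FP_zero {L : List B} (h : FP ht 0 L) : L = [] := by
  by_contra hne
  exact absurd (h.2 [] L rfl hne) (by simp)

lemma FP_cons {a : ℕ} {b : B} {L : List B} (h : FP ht a (b :: L)) : FP ht (a - ht b) L := by
  refine ⟨by have := h.1; rw [HT_cons] at this; omega, fun L1 L2 he h2 => ?_⟩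
  have := h.2 (b :: L1) L2 (by rw [he]; rfl) h2
  rw [HT_cons] at this
  omega

lemma mass_FP (h1 : ∀ b, 1 ≤ ht b) (hΛ : ∑' b, Λ b ≤ 1) (a : ℕ) :
    ∑' L, ind (FP ht a L) * LW Λ L ≤ 1 := by
  induction a using Nat.strong_induction_on with
  | _ a ih =>
    rw [tsum_list]
    rcases Nat.eq_zero_or_pos a with rfl | ha
    · have : ∀ b, ∀ L, ind (FP ht 0 (b :: L)) * LW Λ (b :: L) = 0 := fun b L => by
        rw [ind_false (fun h => by have := FP_zero ht h; simp at this), zero_mul]
      simp only [this, tsum_zero, add_zero, LW_nil, mul_one]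
      exact ind_le_one _
    · rw [ind_false (fun h : FP ht a [] => by have := h.1; rw [HT_nil] at this; omega), zero_mul,
        zero_add]
      calc ∑' b, ∑' L, ind (FP ht a (b :: L)) * LW Λ (b :: L)
          ≤ ∑' b, Λ b * ∑' L, ind (FP ht (a - ht b) L) * LW Λ L := by
            refine ENNReal.tsum_le_tsum fun b => ?_
            rw [← ENNReal.tsum_mul_left]
            refine ENNReal.tsum_le_tsum fun L => ?_
            rw [LW_cons, mul_left_comm]
            exact mul_le_mul_right (mul_le_mul_left (ind_mono (FP_cons ht)) _) _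
        _ ≤ ∑' b, Λ b * 1 := ENNReal.tsum_le_tsum fun b =>
            mul_le_mul_right (ih _ (by have := h1 b; omega)) _
        _ ≤ 1 := by simpa using hΛ

/-- weight of the first passages without overshoot -/
noncomputable def wt (i0 a : ℕ) (A : List B) : ℝ≥0∞ :=
  ind (FP ht a A ∧ HT ht A ≤ a + i0) * LW Λ A

lemma sum_wt (h1 : ∀ b, 1 ≤ ht b) (hΛ : ∑' b, Λ b ≤ 1) (i0 a : ℕ) :
    ∑' A, wt Λ ht i0 a A ≤ 1 :=
  (ENNReal.tsum_le_tsum fun A => mul_le_mul_left (ind_mono And.left) _).trans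
    (mass_FP Λ ht h1 hΛ a)

lemma U_ind (n : ℕ) : U Λ ht n = ∑' L, ind (HT ht L = n) * LW Λ L := by
  rw [U]
  refine tsum_congr fun L => ?_
  by_cases h : HT ht L = n
  · rw [if_pos h, ind_true h, one_mul]
  · rw [if_neg h, ind_false h, zero_mul]

lemma one_split (h1 : ∀ b, 1 ≤ ht b) (hU : ∀ n, U Λ ht n ≤ 1) (a i0 n : ℕ) (hn : a ≤ n)
    (e : ℝ≥0∞) (he : ∑' L, ind (FP ht a L ∧ a + i0 < HT ht L) * LW Λ L ≤ e)
    (F : List B → ℝ≥0∞) (hF : ∀ L, F L ≤ 1) (F' : List B → ℝ≥0∞)
    (hFF : ∀ A, FP ht a A → HT ht A ≤ a + i0 → HT ht A ≤ n →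
      ∑' R, ind (HT ht R = n - HT ht A) * (LW Λ R * F (A ++ R)) ≤ F' A) :
    ∑' L, ind (HT ht L = n) * (LW Λ L * F L) ≤ e + ∑' A, wt Λ ht i0 a A * F' A := by
  have s1 : ∑' L, ind (HT ht L = n) * (LW Λ L * F L)
      ≤ ∑' A, ∑' R, ind (FP ht a A) * (ind (HT ht (A ++ R) = n) * (LW Λ (A ++ R) * F (A ++ R))) := by
    refine le_trans (le_of_eq ?_) (split_le ht a (fun L => ind (HT ht L = n) * (LW Λ L * F L)))
    refine tsum_congr fun L => ?_
    by_cases h : HT ht L = n
    · rw [ind_true (show a ≤ HT ht L by omega), one_mul]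
    · rw [ind_false h, zero_mul, mul_zero]
  refine s1.trans ?_
  have s2 : ∀ A, ∑' R, ind (FP ht a A) * (ind (HT ht (A ++ R) = n) * (LW Λ (A ++ R) * F (A ++ R)))
      ≤ ind (FP ht a A ∧ a + i0 < HT ht A) * LW Λ A + wt Λ ht i0 a A * F' A := by
    intro A
    by_cases hA : FP ht a A
    · by_cases hn' : HT ht A ≤ n
      · have s3 : ∑' R, ind (FP ht a A) * (ind (HT ht (A ++ R) = n) * (LW Λ (A ++ R) * F (A ++ R)))
            = LW Λ A * ∑' R, ind (HT ht R = n - HT ht A) * (LW Λ R * F (A ++ R)) := by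
          rw [← ENNReal.tsum_mul_left]
          refine tsum_congr fun R => ?_
          rw [ind_true hA, one_mul, LW_append, HT_append]
          by_cases h : HT ht A + HT ht R = n
          · rw [ind_true h, ind_true (by omega)]; ring
          · rw [ind_false h, ind_false (by omega)]; ring
        rw [s3]
        by_cases ho : a + i0 < HT ht A
        · rw [ind_true ⟨hA, ho⟩, one_mul]
          refine le_trans ?_ le_self_add
          calc LW Λ A * ∑' R, ind (HT ht R = n - HT ht A) * (LW Λ R * F (A ++ R))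
              ≤ LW Λ A * U Λ ht (n - HT ht A) := by
                rw [U_ind]
                refine mul_le_mul_right (ENNReal.tsum_le_tsum fun R => ?_) _
                refine mul_le_mul_right ?_ _
                calc LW Λ R * F (A ++ R) ≤ LW Λ R * 1 := mul_le_mul_right (hF _) _
                  _ = _ := mul_one _
            _ ≤ LW Λ A * 1 := mul_le_mul_right (hU _) _
            _ = _ := mul_one _
        · refine le_trans ?_ le_add_self
          rw [wt, ind_true ⟨hA, by omega⟩, one_mul]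
          exact mul_le_mul_right (hFF A hA (by omega) hn') _
      · refine le_trans (le_of_eq ?_) zero_le
        simp only [HT_append]
        refine ENNReal.tsum_eq_zero.2 fun R => ?_
        rw [ind_false (show ¬ HT ht A + HT ht R = n by omega), zero_mul, mul_zero]
    · simp only [ind_false hA, zero_mul, tsum_zero]
      exact zero_le
  calc _ ≤ ∑' A, (ind (FP ht a A ∧ a + i0 < HT ht A) * LW Λ A + wt Λ ht i0 a A * F' A) :=
        ENNReal.tsum_le_tsum s2
    _ = _ := ENNReal.tsum_add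
    _ ≤ _ := add_le_add he le_rfl

lemma decomp (h1 : ∀ b, 1 ≤ ht b) (hΛ : ∑' b, Λ b ≤ 1) (hU : ∀ n, U Λ ht n ≤ 1)
    (a t i0 n : ℕ) (hn : a + i0 + t ≤ n)
    (e : ℝ≥0∞) (he : ∀ b, ∑' L, ind (FP ht b L ∧ b + i0 < HT ht L) * LW Λ L ≤ e)
    (F : List B → ℝ≥0∞) (hF : ∀ L, F L ≤ 1) (F' : List B → List B → ℝ≥0∞)
    (hFF : ∀ A P R, FP ht a A → HT ht A ≤ a + i0 → FP ht t P → HT ht P ≤ t + i0 →
      HT ht (A ++ (P ++ R)) = n → F (A ++ (P ++ R)) ≤ F' A P) :
    ∑' L, ind (HT ht L = n) * (LW Λ L * F L)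
      ≤ 2 * e + ∑' A, wt Λ ht i0 a A * ∑' P, wt Λ ht i0 t P * F' A P := by
  refine (one_split Λ ht h1 hU a i0 n (by omega) e (he a) F hF
    (fun A => e + ∑' P, wt Λ ht i0 t P * F' A P) ?_).trans ?_
  · intro A hA hA1 hA2
    refine one_split Λ ht h1 hU t i0 (n - HT ht A) (by omega) e (he t) (fun R => F (A ++ R))
      (fun R => hF _) (fun P => F' A P) ?_
    intro P hP hP1 hP2
    calc ∑' R, ind (HT ht R = n - HT ht A - HT ht P) * (LW Λ R * F (A ++ (P ++ R)))
        ≤ ∑' R, (ind (HT ht R = n - HT ht A - HT ht P) * LW Λ R) * F' A P := by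
          refine ENNReal.tsum_le_tsum fun R => ?_
          by_cases h : HT ht R = n - HT ht A - HT ht P
          · rw [ind_true h, one_mul, one_mul]
            refine mul_le_mul_right (hFF A P R hA hA1 hP hP1 ?_) _
            rw [HT_append, HT_append]; omega
          · rw [ind_false h, zero_mul, zero_mul, zero_mul]
      _ = U Λ ht (n - HT ht A - HT ht P) * F' A P := by rw [ENNReal.tsum_mul_right, ← U_ind]
      _ ≤ 1 * F' A P := mul_le_mul_left (hU _) _
      _ = _ := one_mul _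
  · have h3 : ∑' A, wt Λ ht i0 a A * (e + ∑' P, wt Λ ht i0 t P * F' A P)
        ≤ e + ∑' A, wt Λ ht i0 a A * ∑' P, wt Λ ht i0 t P * F' A P := by
      simp only [mul_add]
      rw [ENNReal.tsum_add, ENNReal.tsum_mul_right]
      refine add_le_add ?_ le_rfl
      calc _ ≤ 1 * e := mul_le_mul_left (sum_wt Λ ht h1 hΛ i0 a) _
        _ = e := one_mul _
    refine (add_le_add le_rfl h3).trans (le_of_eq ?_)
    rw [← add_assoc, two_mul]

end FPS


/-! ### two walkers -/

section Two
variable {BX BY G : Type*} [AddCommGroup G]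

/-- displacement -/
def Dp {B : Type*} (z : B → G) (L : List B) : G := (L.map z).sum

/-- positions read by a list whose top is at `(x, a)` -/
def TT {B : Type*} (z : B → G) (h : B → ℕ) (st : B → Set (G × ℕ)) : List B → G → ℕ → Set (G × ℕ)
  | [], _, _ => ∅
  | b :: L, x, a => {p | ∃ q ∈ st b, p = (x + q.1, a + q.2)} ∪ TT z h st L (x + z b) (a + h b)

section
variable {B : Type*} (z : B → G) (h : B → ℕ) (st : B → Set (G × ℕ))

lemma TT_append (L L' : List B) (x : G) (a : ℕ) :
    TT z h st (L ++ L') x a = TT z h st L x a ∪ TT z h st L' (x + Dp z L) (a + HT h L) := by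
  induction L generalizing x a with
  | nil => simp [TT, Dp, HT]
  | cons b L ih =>
    simp only [List.cons_append, TT]
    rw [ih, Set.union_assoc, HT_cons]
    simp only [Dp, List.map_cons, List.sum_cons, add_assoc]

lemma TT_shift (L : List B) (x y : G) (a k : ℕ) (p : G) :
    (p, k) ∈ TT z h st L (x + y) a ↔ (p - y, k) ∈ TT z h st L x a := by
  induction L generalizing x a with
  | nil => simp [TT]
  | cons b L ih =>
    simp only [TT, Set.mem_union, Set.mem_setOf_eq, Prod.mk.injEq]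
    have e : x + y + z b = x + z b + y := by abel
    rw [e, ih]
    refine or_congr ⟨?_, ?_⟩ Iff.rfl
    · rintro ⟨q, hq, h1, h2⟩
      exact ⟨q, hq, by rw [h1]; abel, h2⟩
    · rintro ⟨q, hq, h1, h2⟩
      exact ⟨q, hq, by rw [eq_add_of_sub_eq h1]; abel, h2⟩

lemma TT_depth (hst : ∀ b p k, (p, k) ∈ st b → 1 ≤ k ∧ k ≤ h b) (L : List B) (x : G) (a k : ℕ)
    (p : G) (hp : (p, k) ∈ TT z h st L x a) : a < k ∧ k ≤ a + HT h L := by
  induction L generalizing x a with
  | nil => simp [TT] at hp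
  | cons b L ih =>
    rw [HT_cons]
    rcases hp with ⟨q, hq, he⟩ | hp
    · simp only [Prod.mk.injEq] at he
      have := hst b q.1 q.2 hq
      omega
    · have := ih _ _ hp
      omega

end

variable (ΛX : BX → ℝ≥0∞) (hX : BX → ℕ) (zX : BX → G) (sX : BX → Set (G × ℕ))
variable (ΛY : BY → ℝ≥0∞) (hY : BY → ℕ) (zY : BY → G) (sY : BY → Set (G × ℕ))

/-- contact of two pieces, all contacts at distance `≥ s` from the four ends -/
def Con (s : ℕ) (P : List BX) (P' : List BY) (a a' : ℕ) (x : G) : Prop :=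
  (∃ z k, (z, k) ∈ TT zX hX sX P 0 a ∧ (z, k) ∈ TT zY hY sY P' x a') ∧
  ∀ z k, (z, k) ∈ TT zX hX sX P 0 a → (z, k) ∈ TT zY hY sY P' x a' →
    a + s ≤ k ∧ a' + s ≤ k ∧ k + s ≤ a + HT hX P ∧ k + s ≤ a' + HT hY P'

/-- window event: first contact in `(b, b+t]`, no contact at the depths `[b+t .. b+t+r]`
below it -/
def EvW (b t lo1 hi1 : ℕ) (w : G) (L : List BX) (L' : List BY) : Prop :=
  (∃ z k, b < k ∧ k ≤ b + t ∧ (z, k) ∈ TT zX hX sX L 0 0 ∧ (z, k) ∈ TT zY hY sY L' w 0) ∧
  (∀ z k, (z, k) ∈ TT zX hX sX L 0 0 → (z, k) ∈ TT zY hY sY L' w 0 → b < k) ∧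
  (∀ z k, (z, k) ∈ TT zX hX sX L 0 0 → (z, k) ∈ TT zY hY sY L' w 0 → lo1 ≤ k → k ≤ hi1 → False)

/-- the window event gives the piece event -/
lemma con_of_ev (hsX : ∀ b p k, (p, k) ∈ sX b → 1 ≤ k ∧ k ≤ hX b)
    (hsY : ∀ b p k, (p, k) ∈ sY b → 1 ≤ k ∧ k ≤ hY b)
    (s i0 a t : ℕ) (hst : s + i0 ≤ t) (w : G)
    (A P R : List BX) (A' P' R' : List BY)
    (hA : a ≤ HT hX A) (hA1 : HT hX A ≤ a + i0) (hP : 3 * t ≤ HT hX P) (hP1 : HT hX P ≤ 3 * t + i0)
    (hA' : a ≤ HT hY A') (hA1' : HT hY A' ≤ a + i0) (hP' : 3 * t ≤ HT hY P')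
    (hP1' : HT hY P' ≤ 3 * t + i0)
    (hE : EvW hX zX sX hY zY sY (a + t) t (a + 3 * t - s) (a + 3 * t + 2 * i0) w
      (A ++ (P ++ R)) (A' ++ (P' ++ R'))) :
    Con hX zX sX hY zY sY s P P' (HT hX A) (HT hY A') (w + Dp zY A' - Dp zX A) := by
  have kX : ∀ z k, (z, k) ∈ TT zX hX sX P 0 (HT hX A) →
      (z + Dp zX A, k) ∈ TT zX hX sX (A ++ (P ++ R)) 0 0 := by
    intro z k hz
    rw [TT_append, TT_append]
    refine Or.inr (Or.inl ?_)
    rw [Nat.zero_add, TT_shift, add_sub_cancel_right]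
    exact hz
  have kY : ∀ z k, (z, k) ∈ TT zY hY sY P' (w + Dp zY A' - Dp zX A) (HT hY A') →
      (z + Dp zX A, k) ∈ TT zY hY sY (A' ++ (P' ++ R')) w 0 := by
    intro z k hz
    rw [TT_append, TT_append]
    refine Or.inr (Or.inl ?_)
    rw [Nat.zero_add]
    have e : w + Dp zY A' = (w + Dp zY A' - Dp zX A) + Dp zX A := by abel
    rw [e, TT_shift, add_sub_cancel_right]
    exact hz
  obtain ⟨⟨z, k, hk1, hk2, hzX, hzY⟩, hall, hsl⟩ := hE
  refine ⟨⟨z - Dp zX A, k, ?_, ?_⟩, ?_⟩
  · rw [TT_append, TT_append] at hzX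
    rcases hzX with h | h | h
    · have := TT_depth zX hX sX hsX _ _ _ _ _ h; omega
    · rw [Nat.zero_add, TT_shift] at h; exact h
    · have := TT_depth zX hX sX hsX _ _ _ _ _ h; omega
  · rw [TT_append, TT_append] at hzY
    rcases hzY with h | h | h
    · have := TT_depth zY hY sY hsY _ _ _ _ _ h; omega
    · rw [Nat.zero_add] at h
      have e : w + Dp zY A' = (w + Dp zY A' - Dp zX A) + Dp zX A := by abel
      rw [e, TT_shift] at h; exact h
    · have := TT_depth zY hY sY hsY _ _ _ _ _ h; omega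
  · intro z' k' h1 h2
    have d1 := TT_depth zX hX sX hsX _ _ _ _ _ h1
    have d2 := TT_depth zY hY sY hsY _ _ _ _ _ h2
    have c1 := hall _ _ (kX _ _ h1) (kY _ _ h2)
    have c2 := hsl _ _ (kX _ _ h1) (kY _ _ h2)
    have c3 : ¬ (a + 3 * t - s ≤ k') := fun h => c2 h (by omega)
    omega

end Two

end Crest.Agent.R154.Win267
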