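import Crest.Agent.R154.WinB_267

/-! Row 154, ROAD 801 (helper267): the package of one walker (smooth law, local set). -/

set_option autoImplicit false

namespace Crest.Agent.R154.Win267

open scoped ENNReal
open Crest.Agent.R154.B5A

variable {B G : Type*} [AddCommGroup G] (Λ : B → ℝ≥0∞) (ht : B → ℕ) (dz : B → G)

lemma FP_iff' (a : ℕ) (L : List B) : FP ht a L ↔ LD460.FP ht a L := by
  rw [LD460.fp_iff]; rfl

lemma DZ_eq (L : List B) : LD460.DZ dz L = Dp dz L := rfl

open Classical in
lemma mass_one (h1 : ∀ b, 1 ≤ ht b) (hΛ : ∑' b, Λ b = 1) (a : ℕ) :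
    ∑' L, (if LD460.FP ht a L then LW Λ L else 0) = 1 := by
  induction a using Nat.strong_induction_on with
  | _ a ih =>
    rcases Nat.eq_zero_or_pos a with h | h
    · subst h
      rw [tsum_eq_single []]
      · simp [LD460.FP, LW_nil]
      · intro L hL
        rw [if_neg (fun h' => hL (LD460.fp_zero.1 h'))]
    · have e := LD460.fp_cons Λ (ht := ht) a h (fun _ => 1)
      simp only [mul_one] at e
      rw [e]
      calc ∑' b, Λ b * ∑' L, (if LD460.FP ht (a - ht b) L then LW Λ L else 0)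
          = ∑' b, Λ b * 1 := tsum_congr fun b => by
            have := h1 b
            rw [ih _ (by omega)]
        _ = 1 := by simpa using hΛ

open Classical in
/-- regrouping a first passage sum by height and displacement -/
lemma regroup (T : ℕ) (φ : ℕ × G → ℝ≥0∞) :
    ∑' L, (if LD460.FP ht T L then LW Λ L * φ (HT ht L, Dp dz L) else 0)
      = ∑' x : ℕ × G, LD460.pA Λ ht dz T x.1 x.2 * φ x := by
  have e : ∀ x : ℕ × G, LD460.pA Λ ht dz T x.1 x.2 * φ x
      = ∑' L, (if LD460.FP ht T L ∧ HT ht L = x.1 ∧ LD460.DZ dz L = x.2 then LW Λ L else 0) * φ x := by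
    intro x
    rw [LD460.pA, ENNReal.tsum_mul_right]
  simp only [e]
  rw [ENNReal.tsum_comm]
  refine tsum_congr fun L => ?_
  by_cases h : LD460.FP ht T L
  · rw [if_pos h, tsum_eq_single (HT ht L, Dp dz L)]
    · rw [if_pos ⟨h, rfl, rfl⟩]
    · intro x hx
      rw [if_neg, zero_mul]
      rintro ⟨_, h2, h3⟩
      exact hx (Prod.ext h2.symm h3.symm)
  · rw [if_neg h]
    symm
    refine ENNReal.tsum_eq_zero.2 fun x => ?_
    rw [if_neg (fun h' => h h'.1), zero_mul]

open Classical in
/-- **package of one walker** -/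
theorem pkg (h1 : ∀ b, 1 ≤ ht b) (hΛ : ∑' b, Λ b = 1) (hU1 : ∀ n, U Λ ht n ≤ 1)
    (T i0 a J : ℕ) (u : ℝ≥0∞) (hu0 : u ≠ 0) (hu1 : u < 1)
    (hep : LD460.eps1 Λ ht i0 ≤ u / 2) (hJ : J * (T + i0) ≤ a) :
    ∃ (sm : List B → Prop) (E : ℕ → Finset G) (M : ℝ≥0∞),
      (∑' A, wt Λ ht i0 a A * ind (¬ sm A) ≤ (1 - u / 2) ^ J + J * LD460.eps1 Λ ht i0) ∧
      (∀ j z, ∑' A, wt Λ ht i0 a A * ind (sm A) * ind (HT ht A = j) * ind (Dp dz A = z) ≤ M) ∧
      (∑' P, wt Λ ht i0 T P * ind (¬ Dp dz P ∈ E (HT ht P)) ≤ u) ∧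
      (∀ h, M * (E h).card ≤ 2 * (((i0 : ℝ≥0∞) + 1) / u)) := by
  have hut : u ≠ ⊤ := hu1.ne_top
  set p : ℕ × G → ℝ≥0∞ := fun x => LD460.pA Λ ht dz T x.1 x.2 with hp
  have hp1 : ∑' x, p x = 1 := by
    have := regroup Λ ht dz T (fun _ => 1)
    simp only [mul_one] at this
    rw [hp, ← this, mass_one Λ ht h1 hΛ]
  obtain ⟨th, hth0, hth1, hq1, hq2⟩ := Dens616.quantile p hp1 hu0 hu1
  have hfin : ∀ h, {z : G | th ≤ LD460.pA Λ ht dz T h z}.Finite := by
    intro h
    refine Dens616.finite_local (fun z => LD460.pA Λ ht dz T h z) ?_ hth0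
    refine ne_top_of_le_ne_top ENNReal.one_ne_top ?_
    rw [← hp1]
    exact ENNReal.tsum_comp_le_tsum_of_injective (f := fun z : G => ((h, z) : ℕ × G))
      (fun a b hab => by simpa using hab) p
  set E : ℕ → Finset G := fun h => (hfin h).toFinset with hE
  have hcard : ∀ h, ((E h).card : ℝ≥0∞) * th ≤ 1 := by
    intro h
    refine (Dens616.card_mul_le (fun z => LD460.pA Λ ht dz T h z) th (E h) ?_).trans ?_
    · intro x hx
      rw [hE] at hx
      simpa using hx
    · rw [← hp1]
      exact ENNReal.tsum_comp_le_tsum_of_injective (f := fun z : G => ((h, z) : ℕ × G))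
        (fun a b hab => by simpa using hab) p
  -- mass of the special attempts
  have hsp : u / 2 ≤ ∑' A, (if LD460.Sp Λ ht dz T i0 th A then LW Λ A else 0) := by
    have e1 : u ≤ (∑' A, (if LD460.Sp Λ ht dz T i0 th A then LW Λ A else 0)) + u / 2 := by
      refine hq2.trans ?_
      have e2 : (∑' x, if p x ≤ th then p x else 0)
          = ∑' L, (if LD460.FP ht T L then LW Λ L *
            (fun x => if p x ≤ th then (1 : ℝ≥0∞) else 0) (HT ht L, Dp dz L) else 0) := by
        rw [regroup Λ ht dz T (fun x => if p x ≤ th then (1 : ℝ≥0∞) else 0)]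
        refine tsum_congr fun x => ?_
        by_cases h : p x ≤ th
        · rw [if_pos h, if_pos h, mul_one]
        · rw [if_neg h, if_neg h, mul_zero]
      rw [e2]
      refine le_trans (ENNReal.tsum_le_tsum (g := fun L =>
        (if LD460.Sp Λ ht dz T i0 th L then LW Λ L else 0) +
        (if LD460.FP ht T L ∧ T + i0 < HT ht L then LW Λ L else 0)) fun L => ?_) ?_
      · by_cases hF : LD460.FP ht T L
        · rw [if_pos hF]
          by_cases hpx : p (HT ht L, Dp dz L) ≤ th
          · simp only [if_pos hpx, mul_one]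
            by_cases ho : T + i0 < HT ht L
            · rw [if_pos (c := LD460.FP ht T L ∧ T + i0 < HT ht L) ⟨hF, ho⟩]
              exact le_add_self
            · rw [if_pos (c := LD460.Sp Λ ht dz T i0 th L) ⟨hF, by omega, hpx⟩]
              exact le_self_add
          · simp only [if_neg hpx, mul_zero]; exact zero_le
        · rw [if_neg hF]; exact zero_le
      · rw [ENNReal.tsum_add]
        exact add_le_add le_rfl ((LD460.overshoot Λ ht h1 hU1 i0 T).trans hep)
    have e3 : u = u / 2 + u / 2 := (ENNReal.add_halves u).symm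
    have hu2 : u / 2 ≠ ⊤ := by
      exact ENNReal.div_ne_top hut (by norm_num)
    have e4 : u / 2 + u / 2 ≤ (∑' A, (if LD460.Sp Λ ht dz T i0 th A then LW Λ A else 0)) + u / 2 := by
      rw [← e3]; exact e1
    exact (ENNReal.add_le_add_iff_right hu2).1 e4
  have hs0 : u / 2 ≠ 0 := by
    rw [Ne, ENNReal.div_eq_zero_iff]; simp [hu0]
  have hs1 : u / 2 ≤ 1 := (ENNReal.half_le_self).trans hu1.le
  refine ⟨fun A => LD460.Sm Λ ht dz T i0 th J a A, E, ((i0 + 1 : ℕ) : ℝ≥0∞) * th / (u / 2),
    ?_, ?_, ?_, ?_⟩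
  · refine le_trans (ENNReal.tsum_le_tsum fun A => ?_)
      (LD460.nonsmooth Λ ht dz T i0 th h1 hU1 hs1 hsp J a hJ)
    by_cases hA : FP ht a A ∧ HT ht A ≤ a + i0
    · rw [wt, ind_true hA, one_mul]
      have hA' := (FP_iff' ht a A).1 hA.1
      by_cases hs : LD460.Sm Λ ht dz T i0 th J a A
      · rw [ind_false (fun h => h hs), mul_zero]; exact zero_le
      · rw [ind_true hs, mul_one, if_pos ⟨hA', hs⟩]
    · rw [wt, ind_false hA, zero_mul, zero_mul]; exact zero_le
  · intro j z
    refine le_trans (ENNReal.tsum_le_tsum fun A => ?_)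
      (LD460.dens Λ ht dz T i0 th h1 hΛ.le hs0 hs1 hsp J a j z)
    by_cases hA : FP ht a A ∧ HT ht A ≤ a + i0
    · have hA' := (FP_iff' ht a A).1 hA.1
      by_cases hc : LD460.Sm Λ ht dz T i0 th J a A ∧ HT ht A = j ∧ Dp dz A = z
      · rw [wt, ind_true hA, ind_true hc.1, ind_true hc.2.1, ind_true hc.2.2,
          if_pos ⟨hA', hc.2.1, hc.2.2, hc.1⟩]
        simp
      · refine le_trans (le_of_eq ?_) zero_le
        by_cases c1 : LD460.Sm Λ ht dz T i0 th J a A
        · by_cases c2 : HT ht A = j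
          · rw [ind_false (p := Dp dz A = z) (fun h => hc ⟨c1, c2, h⟩), mul_zero]
          · rw [ind_false (p := HT ht A = j) c2, mul_zero, zero_mul]
        · rw [ind_false (p := LD460.Sm Λ ht dz T i0 th J a A) c1, mul_zero, zero_mul, zero_mul]
    · rw [wt, ind_false hA, zero_mul, zero_mul, zero_mul, zero_mul]; exact zero_le
  · refine le_trans ?_ hq1
    have e2 : (∑' x, if p x < th then p x else 0)
        = ∑' L, (if LD460.FP ht T L then LW Λ L *
          (fun x => if p x < th then (1 : ℝ≥0∞) else 0) (HT ht L, Dp dz L) else 0) := by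
      rw [regroup Λ ht dz T (fun x => if p x < th then (1 : ℝ≥0∞) else 0)]
      refine tsum_congr fun x => ?_
      by_cases h : p x < th
      · rw [if_pos h, if_pos h, mul_one]
      · rw [if_neg h, if_neg h, mul_zero]
    rw [e2]
    refine ENNReal.tsum_le_tsum fun P => ?_
    by_cases hP : FP ht T P ∧ HT ht P ≤ T + i0
    · have hP' := (FP_iff' ht T P).1 hP.1
      rw [wt, ind_true hP, one_mul, if_pos hP']
      refine mul_le_mul_right ?_ _
      by_cases hm : Dp dz P ∈ E (HT ht P)
      · rw [ind_false (fun h => h hm)]; exact zero_le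
      · rw [ind_true hm]
        have : p (HT ht P, Dp dz P) < th := by
          rw [← not_le]
          intro h
          exact hm (by rw [hE]; simpa using h)
        simp only [if_pos this]
        exact le_rfl
    · rw [wt, ind_false hP, zero_mul, zero_mul]; exact zero_le
  · intro h
    calc ((i0 + 1 : ℕ) : ℝ≥0∞) * th / (u / 2) * (E h).card
        = ((i0 + 1 : ℕ) : ℝ≥0∞) / (u / 2) * ((E h).card * th) := by
          simp only [div_eq_mul_inv]; ring
      _ ≤ ((i0 + 1 : ℕ) : ℝ≥0∞) / (u / 2) * 1 := mul_le_mul_right (hcard h) _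
      _ = 2 * (((i0 : ℝ≥0∞) + 1) / u) := by
          rw [mul_one, div_eq_mul_inv, div_eq_mul_inv, div_eq_mul_inv,
            ENNReal.mul_inv (Or.inr (by simp)) (Or.inr (by simp)), inv_inv]
          push_cast
          ring

end Crest.Agent.R154.Win267
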