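import Crest.Agent.R154.Gap_388
import Crest.Agent.R154.HWin_388
import Crest.Agent.R154.FreeD_950

/-!
# Row 154 (helper388): windows of boundedly many units of one good octave (soft half of `WIN`)

`soft_win`: for every rate `θ` there is `x0` such that for every bound `C` on the number `J` of units
and every large good octave `N`, windows of height `J N` lose `x0 ≤ x ≤ J (2m+3)` with probability
`≤ exp (-θ x)`.  Only `h n → h ∞` (950's `free_fixed`) and 299's `steep_sym` are used.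
-/

set_option autoImplicit false
set_option linter.deprecated false
set_option linter.unusedVariables false

open MeasureTheory ENNReal Crest.Agent.R154.RatioR872 Crest.Agent.R154.RatioR872.KerSys
  Crest.Agent.R154.WindowK299

namespace Crest.Agent.R154.WinShort388

variable {S : Type*} {Ω : Type*} {m0 : MeasurableSpace Ω} {P : Measure Ω} [Countable S]

/-- one threshold of (F) in real form -/
noncomputable def v0 (p : ℝ≥0∞) : ℝ := Real.log (4 / p.toReal) + 1

theorem v0_pos {p : ℝ≥0∞} (hp0 : p ≠ 0) (hp1 : p ≤ 1) : 0 < v0 p := by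
  have h1 : 0 < p.toReal := ENNReal.toReal_pos hp0 (ne_top_of_le_ne_top ENNReal.one_ne_top hp1)
  have h2 : p.toReal ≤ 1 := by
    have := ENNReal.toReal_mono ENNReal.one_ne_top hp1
    simpa using this
  have h3 : 0 ≤ Real.log (4 / p.toReal) := by
    apply Real.log_nonneg
    rw [le_div_iff₀ h1]
    linarith
  unfold v0
  linarith

theorem exp_v0_lt {p : ℝ≥0∞} (hp0 : p ≠ 0) (hp1 : p ≤ 1) :
    ENNReal.ofReal (Real.exp (-(v0 p))) < p / 4 := by
  have hpt : p ≠ ∞ := ne_top_of_le_ne_top ENNReal.one_ne_top hp1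
  have h1 : 0 < p.toReal := ENNReal.toReal_pos hp0 hpt
  have h4 : p / 4 = ENNReal.ofReal (p.toReal / 4) := by
    rw [ENNReal.ofReal_div_of_pos (by norm_num), ENNReal.ofReal_toReal hpt]
    simp
  rw [h4]
  refine (ENNReal.ofReal_lt_ofReal_iff (by positivity)).2 ?_
  have h5 : Real.exp (-(v0 p)) = (p.toReal / 4) * Real.exp (-1) := by
    unfold v0
    rw [show -(Real.log (4 / p.toReal) + 1) = -Real.log (4 / p.toReal) + -1 by ring, Real.exp_add,
      Real.exp_neg, Real.exp_log (by positivity)]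
    rw [inv_div]
  rw [h5]
  have h6 : Real.exp (-1) < 1 := by rw [Real.exp_lt_one_iff]; norm_num
  nlinarith [mul_pos h1 (sub_pos.2 h6)]

/-- (F) at unit `N`, all `a < e` -/
theorem free_unit [IsProbabilityMeasure P] (A : KerSys S P) {p : ℝ≥0∞} (hp0 : p ≠ 0)
    (hp : ∀ n, p ≤ A.h n) (hh : ∀ n, A.h n ≤ 1) (hne : (A.L 0).Nonempty)
    (hpos : ∀ μ, A.Start μ → ∀ h, ∀ᵐ ω ∂P, A.Sh μ h ω ≠ 0) {δ : ℝ≥0∞} (hδ : δ ≠ 0) :
    ∃ N0 : ℕ, ∀ N, N0 ≤ N → ∀ μ : S → ℝ≥0∞, A.Start μ → ∀ h0 a e : ℕ, 1 ≤ a → a < e →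
      ∀ B, MeasurableSet[A.F (h0 + (a - 1) * N)] B →
        P (B ∩ {ω | A.Sh μ (h0 + a * N) ω ≠ 0 ∧ A.Sh μ (h0 + e * N) ω ≤
          ENNReal.ofReal (Real.exp (-(v0 p))) * A.Sh μ (h0 + a * N) ω}) ≤ δ * P B := by
  obtain ⟨T, hT1, s0, hs0⟩ := FreeD950.free_fixed A hp0 hp hh hne hpos hδ
  refine ⟨T * s0, fun N hN μ hμ h0 a e ha hae B hB => ?_⟩
  have hp1 : p ≤ 1 := (hp 0).trans (hh 0)
  set s := N / T with hs
  have hs1 : s0 ≤ s := by
    rw [hs]
    exact (Nat.le_div_iff_mul_le (by omega)).2 (by rw [mul_comm]; exact hN)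
  have hTs : T * s ≤ N := Nat.mul_div_le N T
  have ea : h0 + a * N = h0 + (a - 1) * N + N := by
    obtain ⟨a', rfl⟩ : ∃ a', a = a' + 1 := ⟨a - 1, by omega⟩
    rw [Nat.add_sub_cancel]; ring
  have hle1 : h0 + (a - 1) * N + T * s ≤ h0 + a * N := by rw [ea]; omega
  have hle2 : h0 + a * N ≤ h0 + e * N :=
    Nat.add_le_add_left (Nat.mul_le_mul_right _ hae.le) _
  have key := hs0 s hs1 (h0 + (a - 1) * N) (h0 + e * N) (hle1.trans hle2) μ hμ B hB
  refine le_trans (measure_mono_ae ?_) key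
  filter_upwards [FreeD950.Sh_of_alive A hμ p (T := T) (s := s) (a0 := h0 + (a - 1) * N)
    (b := h0 + e * N) (hle1.trans hle2)] with ω hω
  rintro ⟨h1, h2, h3⟩
  refine ⟨h1, fun h4 => ?_⟩
  have h5 := hω h4 (h0 + a * N) hle1
  have hfin : A.Sh μ (h0 + a * N) ω ≠ ∞ :=
    ne_top_of_le_ne_top ENNReal.one_ne_top (KerSys.Sh_le_one hμ _ ω)
  have h6 := (ENNReal.mul_lt_mul_iff_left h2 hfin).2 (exp_v0_lt hp0 hp1)
  exact absurd (h5.trans h3) (not_le.2 h6)

/-- the sum of the steep weights -/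
theorem steep_sum {θ X : ℝ} (hθ : 1 ≤ θ) (hX : 5 ≤ X) (J M : ℕ) :
    ∑ n ∈ Finset.Icc 1 M, (if (J * X / 4 : ℝ) < 2 * (n * X) then
        ENNReal.ofReal (Real.exp (-(4 * (2 * θ) * (n * X)))) else 0) ≤
      ENNReal.ofReal (Real.exp (-(θ * X * J / 2))) := by
  have h1 : ∀ n ∈ Finset.Icc 1 M, (if (J * X / 4 : ℝ) < 2 * (n * X) then
        ENNReal.ofReal (Real.exp (-(4 * (2 * θ) * (n * X)))) else 0) ≤
      ENNReal.ofReal (Real.exp (-(θ * X * J / 2))) * (2⁻¹ : ℝ≥0∞) ^ n := by
    intro n hn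
    split_ifs with h
    · have h2 : ENNReal.ofReal (Real.exp (-(4 * (2 * θ) * (n * X)))) ≤
          ENNReal.ofReal (Real.exp (-(θ * X * J / 2))) *
            ENNReal.ofReal (Real.exp (-((4 * θ * X) * n))) := by
        rw [← ENNReal.ofReal_mul (Real.exp_pos _).le, ← Real.exp_add]
        refine ENNReal.ofReal_le_ofReal (Real.exp_le_exp.2 ?_)
        have h3 : θ * (J * X / 4) ≤ θ * (2 * (n * X)) :=
          mul_le_mul_of_nonneg_left h.le (by linarith)
        nlinarith
      refine h2.trans (mul_le_mul_right (Sun95.half_pow (by nlinarith) n) _)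
    · exact zero_le
  refine (Finset.sum_le_sum h1).trans ?_
  rw [← Finset.mul_sum]
  have h2 : ∑ n ∈ Finset.Icc 1 M, (2⁻¹ : ℝ≥0∞) ^ n ≤ 1 := by
    rw [← Sun95.sum_half M]; exact le_self_add
  calc _ ≤ ENNReal.ofReal (Real.exp (-(θ * X * J / 2))) * 1 := mul_le_mul_right h2 _
    _ = _ := mul_one _

/-- **soft windows** -/
theorem soft_win [IsProbabilityMeasure P] (A : KerSys S P) {p : ℝ≥0∞} (hp0 : p ≠ 0)
    (hp : ∀ n, p ≤ A.h n) (hh : ∀ n, A.h n ≤ 1) (hne : (A.L 0).Nonempty)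
    (hpos : ∀ μ, A.Start μ → ∀ h, ∀ᵐ ω ∂P, A.Sh μ h ω ≠ 0) {θ m : ℝ} (hθ : 1 ≤ θ) (hm : 1 ≤ m)
    (m1 : ℝ) : ∃ x0 : ℝ, 0 < x0 ∧ ∀ C : ℕ, ∃ N0 : ℕ, ∀ N, N0 ≤ N →
      TileSys A N (ENNReal.ofReal (Real.exp (-m1))) (ENNReal.ofReal (Real.exp (-m)))
        (ENNReal.ofReal (Real.exp (-(16 * θ * (2 * m + 3) + 3)))) →
      ∀ J : ℕ, 1 ≤ J → J ≤ C → ∀ μ : S → ℝ≥0∞, A.Start μ →
        ∀ h0 : ℕ, ∀ B, MeasurableSet[A.F h0] B →
        ∀ x : ℝ, x0 ≤ x → x ≤ J * (2 * m + 3) →
          P (B ∩ {ω | A.Sh μ (h0 + J * N) ω ≠ 0 ∧ A.Sh μ (h0 + 2 * (J * N)) ω ≤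
            ENNReal.ofReal (Real.exp (-x)) * A.Sh μ (h0 + J * N) ω}) ≤
            ENNReal.ofReal (Real.exp (-(θ * x))) * P B := by
  have hp1 : p ≤ 1 := (hp 0).trans (hh 0)
  have hv := v0_pos hp0 hp1
  set v : ℝ := v0 p with hvdef
  set X : ℝ := 2 * m + 3 with hXdef
  have hX5 : 5 ≤ X := by rw [hXdef]; linarith
  have hm1a := abs_nonneg m1
  set x0 : ℝ := (8 + 8 * |m1|) * X + 8 * v + 2 with hx0def
  have hx0pos : 0 < x0 := by rw [hx0def]; positivity
  refine ⟨x0, hx0pos, fun C => ?_⟩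
  set δr : ℝ := Real.exp (-(θ * (C * X))) / (2 * Real.exp (2 * θ * v) * (C + 1)) with hδr
  have hδpos : 0 < δr := by rw [hδr]; positivity
  obtain ⟨N0, hN0⟩ := free_unit A hp0 hp hh hne hpos
    (δ := ENNReal.ofReal δr) (by simpa using hδpos)
  refine ⟨N0, fun N hN hTS J hJ1 hJC μ hμ h0 B hB x hx hxJ => ?_⟩
  have hJXx : x0 ≤ J * X := hx.trans hxJ
  have hXpos : 0 < X := by linarith
  have hJlow : 8 + 8 * |m1| ≤ (J : ℝ) := by
    have h1 : (8 + 8 * |m1|) * X ≤ J * X := by
      refine le_trans ?_ hJXx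
      rw [hx0def]
      linarith
    exact le_of_mul_le_mul_right h1 hXpos
  have hJv : 8 * v ≤ J * X := by
    refine le_trans ?_ hJXx
    rw [hx0def]
    have : 0 ≤ (8 + 8 * |m1|) * X := by positivity
    linarith
  have hJ8 : (8 : ℝ) ≤ J := by linarith
  have hJ8' : 8 ≤ J := by exact_mod_cast hJ8
  have hJC' : (J : ℝ) ≤ C := by exact_mod_cast hJC
  have hJpos : (0 : ℝ) < J := by linarith
  -- the constant `η = 1 / (D J)`
  set Dr : ℝ := Real.exp (2 * θ * v) with hDr
  have hDpos : 0 < Dr := Real.exp_pos _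
  have hη : ∀ M : ℕ, ENNReal.ofReal δr * ENNReal.ofReal (Real.exp (2 * θ * (2 * (J * X / 4)))) +
      ∑ n ∈ Finset.Icc 1 M, (if (J * X / 4 : ℝ) < 2 * (n * X) then
        ENNReal.ofReal (Real.exp (-(4 * (2 * θ) * (n * X)))) else 0) ≤
        ENNReal.ofReal (1 / (Dr * J)) := by
    intro M
    have h1 : ENNReal.ofReal δr * ENNReal.ofReal (Real.exp (2 * θ * (2 * (J * X / 4)))) ≤
        ENNReal.ofReal (1 / (2 * (Dr * J))) := by
      rw [← ENNReal.ofReal_mul hδpos.le]
      refine ENNReal.ofReal_le_ofReal ?_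
      rw [hδr]
      have h2 : Real.exp (2 * θ * (2 * (J * X / 4))) ≤ Real.exp (θ * (C * X)) := by
        apply Real.exp_le_exp.2
        have : θ * (J * X) ≤ θ * (C * X) := by gcongr
        linarith
      calc Real.exp (-(θ * (C * X))) / (2 * Dr * (C + 1)) *
            Real.exp (2 * θ * (2 * (J * X / 4)))
          ≤ Real.exp (-(θ * (C * X))) / (2 * Dr * (C + 1)) * Real.exp (θ * (C * X)) := by gcongr
        _ = 1 / (2 * Dr * (C + 1)) := by
            rw [div_mul_eq_mul_div, ← Real.exp_add]; simp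
        _ ≤ 1 / (2 * (Dr * J)) := by
            apply one_div_le_one_div_of_le (by positivity)
            have : Dr * J ≤ Dr * (C + 1) := by gcongr; linarith
            linarith
    have h2 : ∑ n ∈ Finset.Icc 1 M, (if (J * X / 4 : ℝ) < 2 * (n * X) then
        ENNReal.ofReal (Real.exp (-(4 * (2 * θ) * (n * X)))) else 0) ≤
        ENNReal.ofReal (1 / (2 * (Dr * J))) := by
      refine (steep_sum hθ hX5 J M).trans (ENNReal.ofReal_le_ofReal ?_)
      rw [Real.exp_neg, ← one_div]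
      apply one_div_le_one_div_of_le (by positivity)
      have e1 : Real.exp (θ * X * J / 2) = Real.exp (θ * X * J / 4) * Real.exp (θ * X * J / 4) := by
        rw [← Real.exp_add]; congr 1; ring
      have e2 : Dr ≤ Real.exp (θ * X * J / 4) := by
        rw [hDr]
        apply Real.exp_le_exp.2
        have : θ * (8 * v) ≤ θ * (J * X) := mul_le_mul_of_nonneg_left hJv (by linarith)
        linarith
      have e3 : 2 * (J : ℝ) ≤ Real.exp (θ * X * J / 4) := by
        have e4 : (5 : ℝ) * J / 8 ≤ θ * X * J / 8 := by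
          have : (5 : ℝ) ≤ θ * X := by nlinarith
          have := mul_le_mul_of_nonneg_right this hJpos.le
          linarith
        have e5 := Real.add_one_le_exp (θ * X * J / 8)
        have e6 : Real.exp (θ * X * J / 4) = Real.exp (θ * X * J / 8) * Real.exp (θ * X * J / 8) := by
          rw [← Real.exp_add]; congr 1; ring
        rw [e6]
        have e7 : (5 : ℝ) * J / 8 + 1 ≤ Real.exp (θ * X * J / 8) := by linarith
        have e8 : (0 : ℝ) ≤ 5 * J / 8 + 1 := by positivity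
        have e9 := mul_le_mul e7 e7 e8 (Real.exp_pos _).le
        nlinarith
      rw [e1]
      calc 2 * (Dr * J) = Dr * (2 * J) := by ring
        _ ≤ _ := by gcongr
    refine (add_le_add h1 h2).trans (le_of_eq ?_)
    rw [← ENNReal.ofReal_add (by positivity) (by positivity)]
    congr 1
    field_simp
    norm_num
  have hB0 : MeasurableSet[(HWin388.shF A h0 N) 0] B := by
    show MeasurableSet[A.F (h0 + 0 * N)] B
    rw [zero_mul, add_zero]; exact hB
  have key := Gap388.gap (P := P) (F := HWin388.shF A h0 N) (s := fun i => A.Sh μ (h0 + i * N))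
    (fun i => KerSys.meas_Sh hμ _) (fun i ω => KerSys.Sh_anti (by
      exact Nat.add_le_add_left (Nat.mul_le_mul_right _ (Nat.le_succ i)) _) ω)
    (fun i ω => ne_top_of_le_ne_top ENNReal.one_ne_top (KerSys.Sh_le_one hμ _ ω))
    (X := X) (R := J * X / 4) (v0 := v) (θ := 2 * θ) hXpos (by nlinarith) hv (by linarith)
    (k := J) (K := 2 * J) (by omega) (by omega) (by nlinarith)
    (ε0 := ENNReal.ofReal δr) (η := ENNReal.ofReal (1 / (Dr * J)))
    (by
      intro a e ha hae he B' hB'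
      exact hN0 N hN μ hμ h0 a e (by omega) hae B' hB')
    (by
      intro e n hn1 hn2 hn3 hn4 B' hB'
      have hn8 : (m1 : ℝ) ≤ n := by
        have h1 : (J : ℝ) * X < 8 * n * X := by linarith
        have h2 : (J : ℝ) < 8 * n := lt_of_mul_lt_mul_right h1 hXpos.le
        have := le_abs_self m1
        linarith
      have h3 := Steep299.steep_sym (A := A) (X := X) (Λ := 16 * θ) (by linarith) (by linarith)
        le_rfl le_rfl hTS hμ h0 (e := e) (n := n) hn1 hn8 hn2 hB'
      refine h3.trans (le_of_eq ?_)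
      congr 3
      ring)
    hη (u := x) (by linarith) hB0
  have e1 : h0 + 2 * (J * N) = h0 + 2 * J * N := by ring
  rw [e1]
  refine key.trans (mul_le_mul_left ?_ _)
  have hpow : (1 + ENNReal.ofReal (Real.exp (2 * θ * v)) * ENNReal.ofReal (1 / (Dr * J))) ^
      (2 * J - J) ≤ ENNReal.ofReal (Real.exp 1) := by
    rw [show 2 * J - J = J by omega, ← ENNReal.ofReal_mul (Real.exp_pos _).le, ← hDr]
    have e2 : Dr * (1 / (Dr * J)) = 1 / J := by field_simp
    rw [e2, ← ENNReal.ofReal_one, ← ENNReal.ofReal_add (by norm_num) (by positivity),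
      ← ENNReal.ofReal_pow (by positivity)]
    refine ENNReal.ofReal_le_ofReal ?_
    calc (1 + 1 / (J : ℝ)) ^ J ≤ Real.exp (1 / J) ^ J := by
          refine pow_le_pow_left₀ (by positivity) ?_ J
          have := Real.add_one_le_exp (1 / (J : ℝ))
          linarith
      _ = Real.exp 1 := by
          rw [← Real.exp_nat_mul]; congr 1; field_simp
  calc ENNReal.ofReal ((((2 * J : ℕ) : ℝ) + 1) ^ 2 * Real.exp (-(2 * (2 * θ) * (J * X)))) +
        ENNReal.ofReal (Real.exp (2 * θ * v - 2 * θ * x)) *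
          (1 + ENNReal.ofReal (Real.exp (2 * θ * v)) * ENNReal.ofReal (1 / (Dr * J))) ^ (2 * J - J)
      ≤ ENNReal.ofReal ((((2 * J : ℕ) : ℝ) + 1) ^ 2 * Real.exp (-(2 * (2 * θ) * (J * X)))) +
        ENNReal.ofReal (Real.exp (2 * θ * v - 2 * θ * x)) * ENNReal.ofReal (Real.exp 1) := by
        gcongr
    _ = ENNReal.ofReal ((((2 * J : ℕ) : ℝ) + 1) ^ 2 * Real.exp (-(2 * (2 * θ) * (J * X))) +
        Real.exp (2 * θ * v - 2 * θ * x) * Real.exp 1) := by
        rw [← ENNReal.ofReal_mul (Real.exp_pos _).le, ← ENNReal.ofReal_add (by positivity)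
          (by positivity)]
    _ ≤ ENNReal.ofReal (Real.exp (-(θ * x))) := by
        refine ENNReal.ofReal_le_ofReal ?_
        have hhalf : Real.exp (-1) ≤ 1 / 2 := by
          rw [Real.exp_neg, ← one_div]
          apply one_div_le_one_div_of_le (by norm_num)
          have := Real.add_one_le_exp (1 : ℝ); linarith
        have t1 : (((2 * J : ℕ) : ℝ) + 1) ^ 2 * Real.exp (-(2 * (2 * θ) * (J * X))) ≤
            1 / 2 * Real.exp (-(θ * x)) := by
          have e4 : (((2 * J : ℕ) : ℝ) + 1) ≤ Real.exp (2 * J) := by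
            push_cast
            exact Real.add_one_le_exp _
          have e5 : (((2 * J : ℕ) : ℝ) + 1) ^ 2 ≤ Real.exp (4 * J) := by
            calc (((2 * J : ℕ) : ℝ) + 1) ^ 2 ≤ Real.exp (2 * J) ^ 2 := by gcongr
              _ = Real.exp (4 * J) := by rw [← Real.exp_nat_mul]; congr 1; push_cast; ring
          have h5J : 5 * (J : ℝ) ≤ θ * (J * X) := by
            have e7 : (5 : ℝ) ≤ θ * X := by nlinarith
            have := mul_le_mul_of_nonneg_right e7 hJpos.le
            linarith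
          have hθx : θ * x ≤ θ * (J * X) := mul_le_mul_of_nonneg_left hxJ (by linarith)
          calc (((2 * J : ℕ) : ℝ) + 1) ^ 2 * Real.exp (-(2 * (2 * θ) * (J * X)))
              ≤ Real.exp (4 * J) * Real.exp (-(2 * (2 * θ) * (J * X))) := by gcongr
            _ = Real.exp (4 * J - 2 * (2 * θ) * (J * X)) := by
                rw [← Real.exp_add]; congr 1
            _ ≤ Real.exp (-1 + -(θ * x)) := Real.exp_le_exp.2 (by linarith)
            _ = Real.exp (-1) * Real.exp (-(θ * x)) := Real.exp_add _ _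
            _ ≤ _ := by gcongr
        have t2 : Real.exp (2 * θ * v - 2 * θ * x) * Real.exp 1 ≤
            1 / 2 * Real.exp (-(θ * x)) := by
          have hxv : 2 * v + 2 ≤ x := by
            refine le_trans ?_ hx
            rw [hx0def]
            have : 0 ≤ (8 + 8 * |m1|) * X := by positivity
            linarith
          have hθxv : θ * (2 * v + 2) ≤ θ * x := mul_le_mul_of_nonneg_left hxv (by linarith)
          calc Real.exp (2 * θ * v - 2 * θ * x) * Real.exp 1
              = Real.exp (2 * θ * v - 2 * θ * x + 1) := by rw [← Real.exp_add]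
            _ ≤ Real.exp (-1 + -(θ * x)) := Real.exp_le_exp.2 (by nlinarith)
            _ = Real.exp (-1) * Real.exp (-(θ * x)) := Real.exp_add _ _
            _ ≤ _ := by gcongr
        linarith

end Crest.Agent.R154.WinShort388
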