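import Crest.Agent.R154.Win2b_935
import Crest.Agent.R154.RetW_458

/-! Row 154, ROAD 801 (helper935): `usX`, `usY` tend to `0` (458's `ret_small`). -/

set_option autoImplicit false

namespace Crest.Agent.R154.W23

open MeasureTheory ProbabilityTheory Crest.ProbabilityR.RandomEnvironment Crest.Agent.R154
open Crest.Agent.R154.Flux132 (lev opp)
open Crest.Agent.R154.Flux566 (lw endp sitesL)
open Crest.Agent.R154.NB28
open scoped ENNReal

variable {d : ℕ}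

lemma lev_opp_all (u : Step d) (x : Site d) : lev (opp u) x = - lev u x := by
  unfold lev opp
  cases h : u.2 <;> simp

lemma usX_small (ν : Measure (Row d)) [IsProbabilityMeasure ν] (u : Step d)
    (ε : ℝ≥0∞) (hε : ε ≠ 0) : ∃ s0 : ℕ, ∀ s, s0 ≤ s → usX ν u s ≤ ε := by
  classical
  obtain ⟨s0, h0⟩ := RetW458.ret_small ν u 1 ε hε
  refine ⟨s0, fun s hs => le_trans ?_ (h0 s hs)⟩
  unfold usX
  refine ENNReal.tsum_le_tsum fun l => ?_
  by_cases hc : (∀ p ∈ sitesL 0 l, lev u p ≤ 0) ∧ lev u (endp 0 l) = 1 ∧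
    (∃ p ∈ sitesL 0 l, lev u p ≤ -(s : ℤ))
  · rw [if_pos hc, if_pos ⟨fun y hy => Int.lt_of_le_sub_one (by exact hc.1 y hy), hc.2.1, hc.2.2⟩]
    exact le_rfl
  · rw [if_neg hc]; exact zero_le

lemma usY_small (ν : Measure (Row d)) [IsProbabilityMeasure ν] (u : Step d)
    (ε : ℝ≥0∞) (hε : ε ≠ 0) : ∃ s0 : ℕ, ∀ s, s0 ≤ s → usY ν u s ≤ ε := by
  classical
  obtain ⟨s0, h0⟩ := usX_small ν (opp u) ε hε
  refine ⟨s0, fun s hs => le_trans ?_ (h0 s hs)⟩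
  unfold usX usY
  refine ENNReal.tsum_le_tsum fun l => ?_
  by_cases hc : (∀ p ∈ sitesL 0 l, 0 ≤ lev u p) ∧ lev u (endp 0 l) = -1 ∧
    (∃ p ∈ sitesL 0 l, (s : ℤ) ≤ lev u p)
  · have hc' : (∀ p ∈ sitesL 0 l, lev (opp u) p ≤ 0) ∧ lev (opp u) (endp 0 l) = 1 ∧
        (∃ p ∈ sitesL 0 l, lev (opp u) p ≤ -(s : ℤ)) := by
      refine ⟨fun p hp => ?_, ?_, ?_⟩
      · have := hc.1 p hp
        rw [lev_opp_all]; omega
      · rw [lev_opp_all, hc.2.1]; norm_num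
      · obtain ⟨p, hp, hp2⟩ := hc.2.2
        exact ⟨p, hp, by rw [lev_opp_all]; omega⟩
    rw [if_pos hc, if_pos hc']
  · rw [if_neg hc]; exact zero_le

end Crest.Agent.R154.W23
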