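import Crest.Agent.R154.WordB_956
import Crest.Agent.R154.NBSurg_28

/-! Row 154, ROAD 801 (helper316): the window lemma (3) in words, level-free form. -/

set_option autoImplicit false

namespace Crest.Agent.R154.W316

open MeasureTheory ProbabilityTheory Crest.ProbabilityR.RandomEnvironment Crest.Agent.R154
open Crest.Agent.R154.Flux566 (lw endp sitesL measurable_lw)
open Crest.Agent.R154.WordB956 (PF FH Vis pf_FH pf_sum_le tsum_vis vis_le FH_unique mem_sitesL
  lw_append)
open Crest.Agent.R154.NB28 (aw aw_shift lint_mul)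
open scoped ENNReal

variable {d : ℕ}

open Classical in
/-- joining words: a prefix-free set of first parts -/
lemma tsum_join {P : Set (List (Step d))} (hP : PF P) (F : List (Step d) → ℝ≥0∞) :
    ∑' l1 : List (Step d), (if l1 ∈ P then ∑' l2 : List (Step d), F (l1 ++ l2) else 0)
      ≤ ∑' l, F l := by
  have e1 : ∑' l1 : List (Step d), (if l1 ∈ P then ∑' l2 : List (Step d), F (l1 ++ l2)
      else 0) = ∑' p : List (Step d) × List (Step d),
        (if p.1 ∈ P then F (p.1 ++ p.2) else 0) := by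
    rw [ENNReal.tsum_prod (f := fun a b : List (Step d) => if a ∈ P then F (a ++ b) else 0)]
    refine tsum_congr fun l1 => ?_
    by_cases h : l1 ∈ P <;> simp [h]
  rw [e1]
  have e2 : ∑' p : List (Step d) × List (Step d),
        (if p.1 ∈ P then F (p.1 ++ p.2) else 0)
      = ∑' q : {p : List (Step d) × List (Step d) // p.1 ∈ P}, F (q.1.1 ++ q.1.2) := by
    rw [← tsum_subtype_eq_of_support_subset (s := {p : List (Step d) × List (Step d) |
      p.1 ∈ P})]
    · refine tsum_congr fun q => ?_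
      exact if_pos q.2
    · intro p hp
      by_contra h
      exact hp (if_neg h)
  rw [e2]
  have hinj : Function.Injective (fun q : {p : List (Step d) × List (Step d) // p.1 ∈ P} =>
      q.1.1 ++ q.1.2) := by
    rintro ⟨⟨a, b⟩, ha⟩ ⟨⟨a', b'⟩, ha'⟩ h
    simp only at h
    have hh : a = a' := by
      rcases List.append_eq_append_iff.1 h with ⟨c, hc, _⟩ | ⟨c, hc, _⟩
      · have : c = [] := hP a ha c (hc ▸ ha')
        rw [hc, this, List.append_nil]
      · have : c = [] := hP a' ha' c (hc ▸ ha)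
        rw [hc, this, List.append_nil]
    subst hh
    have := List.append_cancel_left h
    subst this
    rfl
  exact ENNReal.tsum_comp_le_tsum_of_injective hinj F

/-- words which end at their first time in `C` -/
def MinP (C : List (Step d) → Prop) : Set (List (Step d)) :=
  {l | C l ∧ ∀ l1 l2, l = l1 ++ l2 → l2 ≠ [] → ¬ C l1}

lemma pf_MinP (C : List (Step d) → Prop) : PF (MinP C) := by
  intro l hl l' hl'
  by_contra h
  exact hl'.2 l l' rfl h hl.1

lemma exists_MinP {C : List (Step d) → Prop} : ∀ (n : ℕ) (l1 l2 : List (Step d)),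
    l1.length ≤ n → C l1 → ∃ m1 m2, l1 ++ l2 = m1 ++ m2 ∧ m1 ∈ MinP C := by
  intro n
  induction n with
  | zero =>
    intro l1 l2 hn hC
    have : l1 = [] := List.length_eq_zero_iff.1 (Nat.le_zero.1 hn)
    subst this
    exact ⟨[], l2, rfl, hC, fun a b hab hb =>
      absurd (List.append_eq_nil_iff.1 hab.symm).2 hb⟩
  | succ n ih =>
    intro l1 l2 hn hC
    by_cases h : ∀ a b, l1 = a ++ b → b ≠ [] → ¬ C a
    · exact ⟨l1, l2, rfl, hC, h⟩
    · push Not at h
      obtain ⟨a, b, hab, hb, hCa⟩ := h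
      have hlen : a.length ≤ n := by
        have := congrArg List.length hab
        rw [List.length_append] at this
        have : 0 < b.length := List.length_pos_iff.2 hb
        omega
      obtain ⟨m1, m2, h1, h2⟩ := ih a (b ++ l2) hlen hCa
      exact ⟨m1, m2, by rw [hab, List.append_assoc, h1], h2⟩

open Classical in
/-- splitting words at the first time in `C` -/
lemma tsum_min (C : List (Step d) → Prop) (F : List (Step d) → ℝ≥0∞)
    (hF : ∀ l, F l ≠ 0 → ∃ l1 l2, l = l1 ++ l2 ∧ C l1) :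
    ∑' l, F l ≤ ∑' l1 : List (Step d), (if l1 ∈ MinP C then ∑' l2 : List (Step d),
      F (l1 ++ l2) else 0) := by
  have e1 : ∑' l1 : List (Step d), (if l1 ∈ MinP C then ∑' l2 : List (Step d), F (l1 ++ l2)
      else 0) = ∑' p : List (Step d) × List (Step d),
        (if p.1 ∈ MinP C then F (p.1 ++ p.2) else 0) := by
    rw [ENNReal.tsum_prod (f := fun a b : List (Step d) => if a ∈ MinP C then F (a ++ b) else 0)]
    refine tsum_congr fun l1 => ?_
    by_cases h : l1 ∈ MinP C <;> simp [h]
  rw [e1]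
  have hex : ∀ l : Function.support F, ∃ p : List (Step d) × List (Step d),
      p.1 ++ p.2 = l.1 ∧ p.1 ∈ MinP C := by
    rintro ⟨l, hl⟩
    obtain ⟨l1, l2, h1, h2⟩ := hF l hl
    obtain ⟨m1, m2, h3, h4⟩ := exists_MinP l1.length l1 l2 le_rfl h2
    exact ⟨(m1, m2), h3.symm.trans h1.symm, h4⟩
  choose g hg1 hg2 using hex
  have hinj : Function.Injective g := by
    intro a b h
    apply Subtype.ext
    rw [← hg1 a, ← hg1 b, h]
  calc ∑' l, F l = ∑' l : Function.support F, F l.1 :=
        (tsum_subtype_eq_of_support_subset (s := Function.support F) subset_rfl).symm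
    _ = ∑' l : Function.support F, (fun p : List (Step d) × List (Step d) =>
          if p.1 ∈ MinP C then F (p.1 ++ p.2) else 0) (g l) := by
        refine tsum_congr fun l => ?_
        simp only
        rw [if_pos (hg2 l), hg1 l]
    _ ≤ _ := ENNReal.tsum_comp_le_tsum_of_injective hinj _

/-- words which use a site of `V` for the first time after `π1` -/
def Hit (A V : Set (Site d)) (π : List (Step d)) : Prop :=
  ∃ π1 π2, π = π1 ++ π2 ∧ π2 ≠ [] ∧ endp 0 π1 ∈ A ∧ π1 ∈ FH V 0

open Classical in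
/-- dyadic majorant -/
lemma dyad (M w e lam : ℝ≥0∞) (hM : M ≠ ⊤) (hw : w ≤ M) (hl : lam ≠ 0) (hl' : lam ≠ ⊤) :
    w ≤ (∑' j : ℕ, (if M * 2⁻¹ ^ (j + 1) < w ∧ e ≤ lam * 2⁻¹ ^ j then M * 2⁻¹ ^ j else 0))
      + M / lam * e := by
  rcases eq_or_ne w 0 with rfl | hw0
  · exact zero_le
  have hM0 : M ≠ 0 := fun h => hw0 (le_antisymm (h ▸ hw) zero_le)
  by_cases he : e ≤ lam * (w / M)
  · refine le_add_right ?_
    have hex : ∃ j : ℕ, M * 2⁻¹ ^ (j + 1) < w := by
      have h1 : Filter.Tendsto (fun j : ℕ => M * (2⁻¹ : ℝ≥0∞) ^ (j + 1)) Filter.atTop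
          (nhds (M * 0)) := by
        refine ENNReal.Tendsto.const_mul ?_ (Or.inr hM)
        exact (ENNReal.tendsto_pow_atTop_nhds_zero_of_lt_one
          (by rw [ENNReal.inv_lt_one]; norm_num)).comp (Filter.tendsto_add_atTop_nat 1)
      rw [mul_zero] at h1
      exact (h1.eventually_lt_const (pos_iff_ne_zero.2 hw0)).exists
    have hj := Nat.find_spec hex
    set j := Nat.find hex with hjdef
    have hwj : w ≤ M * 2⁻¹ ^ j := by
      rcases Nat.eq_zero_or_pos j with h0 | h0
      · rw [h0, pow_zero, mul_one]; exact hw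
      · have := Nat.find_min hex (m := j - 1) (by omega)
        rw [Nat.sub_add_cancel h0, not_lt] at this
        exact this
    refine le_trans ?_ (ENNReal.le_tsum j)
    rw [if_pos]
    · exact hwj
    · refine ⟨hj, he.trans (mul_le_mul_right ?_ _)⟩
      rw [ENNReal.div_le_iff_le_mul (Or.inl hM0) (Or.inl hM), mul_comm]
      exact hwj
  · rw [not_le] at he
    refine le_add_left ?_
    calc w = M / lam * (lam * (w / M)) := by
          rw [← mul_assoc, ENNReal.div_mul_cancel hl hl', ENNReal.mul_div_cancel hM0 hM]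
      _ ≤ _ := mul_le_mul_right he.le _

section win3

variable (ν : Measure (Row d)) [IsProbabilityMeasure ν]

open Classical in
/-- weight of the continuations of `π1` in `XX` -/
noncomputable def rho (XX : Set (List (Step d))) (m : Site d → ℝ≥0∞) (π1 : List (Step d)) : ℝ≥0∞ :=
  ∑' π2 : List (Step d), (if π1 ++ π2 ∈ XX then aw ν (π1 ++ π2) * m (endp 0 (π1 ++ π2)) else 0)

open Classical in
lemma ext_le {XX : Set (List (Step d))} (hXX : PF XX) (π1 : List (Step d)) :
    ∑' π2 : List (Step d), (if π1 ++ π2 ∈ XX then aw ν (π1 ++ π2) else 0) ≤ aw ν π1 := by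
  have h := WordB956.pf_ext_le (iidEnvironmentLaw ν) 0 π1 (S := {l | π1 ++ l ∈ XX})
    (fun l hl l' hl' => by
      have := hXX (π1 ++ l) hl l'
      rw [List.append_assoc] at this
      exact this hl')
  exact h

open Classical in
lemma rho_le {XX : Set (List (Step d))} (hXX : PF XX) (m : Site d → ℝ≥0∞) (M : ℝ≥0∞)
    (hm : ∀ z, m z ≤ M) (π1 : List (Step d)) : rho ν XX m π1 ≤ M * aw ν π1 := by
  calc rho ν XX m π1 ≤ ∑' π2 : List (Step d), M * (if π1 ++ π2 ∈ XX then aw ν (π1 ++ π2) else 0) := by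
        refine ENNReal.tsum_le_tsum fun π2 => ?_
        by_cases h : π1 ++ π2 ∈ XX
        · rw [if_pos h, if_pos h, mul_comm M]
          exact mul_le_mul_right (hm _) _
        · rw [if_neg h]; exact zero_le
    _ = M * ∑' π2 : List (Step d), (if π1 ++ π2 ∈ XX then aw ν (π1 ++ π2) else 0) :=
        ENNReal.tsum_mul_left
    _ ≤ _ := mul_le_mul_right (ext_le ν hXX π1) _

open Classical in
lemma rho_sum (XX : Set (List (Step d))) (m : Site d → ℝ≥0∞) {P : Set (List (Step d))}
    (hP : PF P) : ∑' π1 : List (Step d), (if π1 ∈ P then rho ν XX m π1 else 0)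
      ≤ rho ν XX m [] := by
  have := tsum_join hP (fun l => if l ∈ XX then aw ν l * m (endp 0 l) else 0)
  simpa [rho] using this

open Classical in
/-- quenched: the words of a prefix-free set, all having a prefix in `C` -/
lemma min_le (ω : Environment d) (x : Site d) (S : Set (List (Step d))) (hS : PF S)
    (C : List (Step d) → Prop) (hC : ∀ l ∈ S, C l) :
    ∑' l : List (Step d), (if l ∈ S then lw ω x l else 0)
      ≤ ∑' l : List (Step d), (if l ∈ MinP C then lw ω x l else 0) := by
  refine (tsum_min C (fun l => if l ∈ S then lw ω x l else 0) fun l hl => ?_).trans ?_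
  · have : l ∈ S := by by_contra h; exact hl (if_neg h)
    exact ⟨l, [], by simp, hC l this⟩
  · refine ENNReal.tsum_le_tsum fun l1 => ?_
    by_cases h1 : l1 ∈ MinP C
    · rw [if_pos h1, if_pos h1]
      calc ∑' l2 : List (Step d), (if l1 ++ l2 ∈ S then lw ω x (l1 ++ l2) else 0)
          = lw ω x l1 * ∑' l2 : List (Step d),
            (if l2 ∈ {l | l1 ++ l ∈ S} then lw ω (endp x l1) l2 else 0) := by
            rw [← ENNReal.tsum_mul_left]
            refine tsum_congr fun l2 => ?_
            rw [lw_append, mul_ite, mul_zero]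
            rfl
        _ ≤ lw ω x l1 * 1 := by
            refine mul_le_mul_right (pf_sum_le ω _ fun l hl l' hl' => ?_) _
            have := hS (l1 ++ l) hl l'
            rw [List.append_assoc] at this
            exact this hl'
        _ = _ := mul_one _
    · rw [if_neg h1, if_neg h1]

open Classical in
/-- quenched inequality for one position `y` of the local walker -/
lemma quen3 (ω : Environment d) (y : Site d) (XX YL TT : Set (List (Step d))) (hYL : PF YL)
    (A : Set (Site d)) (DD : Site d → Set (List (Step d))) (w : List (Step d) → ℝ≥0∞)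
    (M lam : ℝ≥0∞) (hM : M ≠ ⊤) (hw : ∀ l, w l ≤ M) (hl : lam ≠ 0) (hl' : lam ≠ ⊤)
    (hYD : ∀ l1 l2, l1 ++ l2 ∈ YL → l2 ∈ DD (endp y l1))
    (hDT : ∀ π1 δ, (∃ π2, π2 ≠ [] ∧ π1 ++ π2 ∈ XX) → endp 0 π1 ∈ A → δ ∈ DD (endp 0 π1) →
      π1 ++ δ ∈ TT) :
    ∑' γ : List (Step d), (if γ ∈ YL then lw ω y γ * ∑' π1 : List (Step d),
      (if π1 ∈ FH {z | z ∈ sitesL y γ} 0 ∧ endp 0 π1 ∈ A ∧ ∃ π2, π2 ≠ [] ∧ π1 ++ π2 ∈ XX
        then lw ω 0 π1 * w π1 else 0) else 0)
      ≤ (∑' j : ℕ, lam * M * (2⁻¹ ^ j * 2⁻¹ ^ j) * ∑' π0 : List (Step d),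
          (if π0 ∈ MinP (fun l => M * 2⁻¹ ^ (j + 1) < w l) then lw ω 0 π0 else 0))
        + M / lam * ∑' τ : List (Step d), (if τ ∈ TT then lw ω 0 τ else 0) := by
  set e : Site d → ℝ≥0∞ := fun v => ∑' δ : List (Step d), (if δ ∈ DD v then lw ω v δ else 0)
    with he
  set ok : List (Step d) → List (Step d) → Prop := fun γ π1 =>
    π1 ∈ FH {z | z ∈ sitesL y γ} 0 ∧ endp 0 π1 ∈ A ∧ ∃ π2, π2 ≠ [] ∧ π1 ++ π2 ∈ XX with hok
  set a : ℕ → List (Step d) → ℝ≥0∞ := fun j π1 =>
    if M * 2⁻¹ ^ (j + 1) < w π1 ∧ e (endp 0 π1) ≤ lam * 2⁻¹ ^ j then M * 2⁻¹ ^ j else 0 with ha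
  set g : ℕ → ℝ≥0∞ := fun j => ∑' π0 : List (Step d),
      (if π0 ∈ MinP (fun l => M * 2⁻¹ ^ (j + 1) < w l) then lw ω 0 π0 else 0) with hg
  set R : ℝ≥0∞ := ∑' τ : List (Step d), (if τ ∈ TT then lw ω 0 τ else 0) with hR
  -- (b') part for one γ
  have hb : ∀ γ, ∑' π1 : List (Step d), (if ok γ π1 then lw ω 0 π1 * (M / lam * e (endp 0 π1))
      else 0) ≤ M / lam * R := by
    intro γ
    have h1 : ∑' π1 : List (Step d), (if ok γ π1 then lw ω 0 π1 * (M / lam * e (endp 0 π1))
        else 0) ≤ M / lam * ∑' π1 : List (Step d), (if π1 ∈ FH {z | z ∈ sitesL y γ} 0 then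
          ∑' δ : List (Step d), (if π1 ++ δ ∈ TT then lw ω 0 (π1 ++ δ) else 0) else 0) := by
      rw [← ENNReal.tsum_mul_left]
      refine ENNReal.tsum_le_tsum fun π1 => ?_
      by_cases h : ok γ π1
      · rw [if_pos h, if_pos h.1]
        calc lw ω 0 π1 * (M / lam * e (endp 0 π1))
            = M / lam * (lw ω 0 π1 * e (endp 0 π1)) := by ring
          _ = M / lam * ∑' δ : List (Step d), (if δ ∈ DD (endp 0 π1) then lw ω 0 (π1 ++ δ)
                else 0) := by
              rw [he]; simp only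
              rw [← ENNReal.tsum_mul_left]
              congr 1
              refine tsum_congr fun δ => ?_
              rw [lw_append, mul_ite, mul_zero]
          _ ≤ _ := by
              refine mul_le_mul_right (ENNReal.tsum_le_tsum fun δ => ?_) _
              by_cases hδ : δ ∈ DD (endp 0 π1)
              · rw [if_pos hδ, if_pos (hDT π1 δ h.2.2 h.2.1 hδ)]
              · rw [if_neg hδ]; exact zero_le
      · rw [if_neg h]; exact zero_le
    refine h1.trans (mul_le_mul_right ?_ _)
    exact tsum_join (pf_FH _ 0) (fun l => if l ∈ TT then lw ω 0 l else 0)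
  -- (a') part
  have hA : ∀ j : ℕ, ∑' γ : List (Step d), (if γ ∈ YL then lw ω y γ * ∑' π1 : List (Step d),
      (if ok γ π1 then lw ω 0 π1 * a j π1 else 0) else 0)
      ≤ lam * M * (2⁻¹ ^ j * 2⁻¹ ^ j) * g j := by
    intro j
    set B : Set (Site d) := {v | e v ≤ lam * 2⁻¹ ^ j} with hB
    have h1 : ∀ γ, ∑' π1 : List (Step d), (if ok γ π1 then lw ω 0 π1 * a j π1 else 0)
        ≤ (if γ ∈ Vis B y then M * 2⁻¹ ^ j * g j else 0) := by
      intro γ
      obtain ⟨S, hS⟩ : ∃ S : Set (List (Step d)), ∀ π1, π1 ∈ S ↔ (ok γ π1 ∧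
        M * 2⁻¹ ^ (j + 1) < w π1 ∧ e (endp 0 π1) ≤ lam * 2⁻¹ ^ j) :=
        ⟨{π1 | ok γ π1 ∧ M * 2⁻¹ ^ (j + 1) < w π1 ∧ e (endp 0 π1) ≤ lam * 2⁻¹ ^ j},
          fun _ => Iff.rfl⟩
      have h2 : ∑' π1 : List (Step d), (if ok γ π1 then lw ω 0 π1 * a j π1 else 0)
          = M * 2⁻¹ ^ j * ∑' π1 : List (Step d), (if π1 ∈ S then lw ω 0 π1 else 0) := by
        rw [← ENNReal.tsum_mul_left]
        refine tsum_congr fun π1 => ?_
        by_cases h3 : ok γ π1
        · by_cases h4 : M * 2⁻¹ ^ (j + 1) < w π1 ∧ e (endp 0 π1) ≤ lam * 2⁻¹ ^ j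
          · rw [if_pos h3, if_pos ((hS π1).2 ⟨h3, h4⟩), ha]
            simp only
            rw [if_pos h4, mul_comm]
          · rw [if_pos h3, if_neg (fun h => h4 ((hS π1).1 h).2), ha]
            simp only
            rw [if_neg h4, mul_zero, mul_zero]
        · rw [if_neg h3, if_neg (fun h => h3 ((hS π1).1 h).1), mul_zero]
      rw [h2]
      have hSpf : PF S := (pf_FH _ 0).mono fun π1 h => ((hS π1).1 h).1.1
      by_cases hv : γ ∈ Vis B y
      · rw [if_pos hv]
        exact mul_le_mul_right (min_le ω 0 S hSpf _ fun l hl => ((hS l).1 hl).2.1) _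
      · rw [if_neg hv]
        have hemp : ∀ π1, π1 ∉ S := by
          intro π1 h
          apply hv
          have h := (hS π1).1 h
          obtain ⟨l1, e', l2, h5, h6⟩ := mem_sitesL.1 (show endp 0 π1 ∈ sitesL y γ from h.1.1.1)
          exact ⟨l1, e' :: l2, h5, by rw [h6]; exact h.2.2⟩
        simp [hemp]
    calc ∑' γ : List (Step d), (if γ ∈ YL then lw ω y γ * ∑' π1 : List (Step d),
        (if ok γ π1 then lw ω 0 π1 * a j π1 else 0) else 0)
        ≤ ∑' γ : List (Step d), (if γ ∈ YL ∧ γ ∈ Vis B y then lw ω y γ else 0)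
          * (M * 2⁻¹ ^ j * g j) := by
          refine ENNReal.tsum_le_tsum fun γ => ?_
          by_cases h2 : γ ∈ YL
          · rw [if_pos h2]
            by_cases h3 : γ ∈ Vis B y
            · rw [if_pos ⟨h2, h3⟩]
              refine mul_le_mul_right ((h1 γ).trans ?_) _
              rw [if_pos h3]
            · rw [if_neg (fun h => h3 h.2), zero_mul]
              have := h1 γ
              rw [if_neg h3] at this
              rw [le_antisymm this zero_le, mul_zero]
          · rw [if_neg h2]; exact zero_le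
      _ = (∑' γ : List (Step d), (if γ ∈ YL ∧ γ ∈ Vis B y then lw ω y γ else 0))
          * (M * 2⁻¹ ^ j * g j) := ENNReal.tsum_mul_right
      _ ≤ (lam * 2⁻¹ ^ j) * (M * 2⁻¹ ^ j * g j) := by
          refine mul_le_mul_left (vis_le ω y YL B _ fun l1 hl1 => ?_) _
          refine le_trans ?_ (show e (endp y l1) ≤ lam * 2⁻¹ ^ j from hl1.1)
          refine ENNReal.tsum_le_tsum fun l2 => ?_
          by_cases h : l1 ++ l2 ∈ YL
          · rw [if_pos h, if_pos (hYD l1 l2 h)]
          · rw [if_neg h]; exact zero_le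
      _ = _ := by ring
  calc ∑' γ : List (Step d), (if γ ∈ YL then lw ω y γ * ∑' π1 : List (Step d),
      (if ok γ π1 then lw ω 0 π1 * w π1 else 0) else 0)
      ≤ ∑' γ : List (Step d), ((∑' j : ℕ, (if γ ∈ YL then lw ω y γ * ∑' π1 : List (Step d),
          (if ok γ π1 then lw ω 0 π1 * a j π1 else 0) else 0))
          + (if γ ∈ YL then lw ω y γ else 0) * (M / lam * R)) := by
        refine ENNReal.tsum_le_tsum fun γ => ?_
        by_cases h : γ ∈ YL
        · simp only [if_pos h]
          rw [ENNReal.tsum_mul_left, ← mul_add]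
          refine mul_le_mul_right ?_ _
          rw [ENNReal.tsum_comm]
          calc ∑' π1 : List (Step d), (if ok γ π1 then lw ω 0 π1 * w π1 else 0)
              ≤ ∑' π1 : List (Step d), ((∑' j : ℕ, (if ok γ π1 then lw ω 0 π1 * a j π1 else 0))
                + (if ok γ π1 then lw ω 0 π1 * (M / lam * e (endp 0 π1)) else 0)) := by
                refine ENNReal.tsum_le_tsum fun π1 => ?_
                by_cases h3 : ok γ π1
                · simp only [if_pos h3]
                  rw [ENNReal.tsum_mul_left, ← mul_add]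
                  exact mul_le_mul_right (dyad M (w π1) (e (endp 0 π1)) lam hM (hw _) hl hl') _
                · simp only [if_neg h3]; exact zero_le
            _ = _ := ENNReal.tsum_add
            _ ≤ _ := add_le_add le_rfl (hb γ)
        · simp only [if_neg h]; exact zero_le
    _ = (∑' j : ℕ, ∑' γ : List (Step d), (if γ ∈ YL then lw ω y γ * ∑' π1 : List (Step d),
          (if ok γ π1 then lw ω 0 π1 * a j π1 else 0) else 0))
          + (∑' γ : List (Step d), (if γ ∈ YL then lw ω y γ else 0)) * (M / lam * R) := by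
        rw [ENNReal.tsum_add, ENNReal.tsum_comm, ENNReal.tsum_mul_right]
    _ ≤ (∑' j : ℕ, lam * M * (2⁻¹ ^ j * 2⁻¹ ^ j) * g j) + 1 * (M / lam * R) :=
        add_le_add (ENNReal.tsum_le_tsum hA) (mul_le_mul_left (pf_sum_le ω y hYL) _)
    _ = _ := by rw [one_mul]

lemma aw_le_one (l : List (Step d)) : aw ν l ≤ 1 := by
  have h := NB28.pf_aw_le_one ν (ι := Unit) (fun _ => l) (fun _ _ _ => rfl)
  simpa using h

open Classical in
lemma rho_eq {XX : Set (List (Step d))} (hXX : PF XX) (m : Site d → ℝ≥0∞) (M : ℝ≥0∞)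
    (hm : ∀ z, m z ≤ M) (l : List (Step d)) :
    rho ν XX m l = aw ν l * (rho ν XX m l / aw ν l) := by
  by_cases h0 : aw ν l = 0
  · have h1 := rho_le ν hXX m M hm l
    rw [h0, mul_zero] at h1
    rw [le_antisymm h1 zero_le, h0, zero_mul]
  · rw [ENNReal.mul_div_cancel h0 (ne_top_of_le_ne_top ENNReal.one_ne_top (aw_le_one ν l))]

open Classical in
lemma w_le {XX : Set (List (Step d))} (hXX : PF XX) (m : Site d → ℝ≥0∞) (M : ℝ≥0∞)
    (hm : ∀ z, m z ≤ M) (l : List (Step d)) : rho ν XX m l / aw ν l ≤ M :=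
  ENNReal.div_le_of_le_mul (rho_le ν hXX m M hm l)

open Classical in
/-- the sum over the words of the other walker -/
lemma hit_sum (XX : Set (List (Step d))) (V A : Set (Site d)) (m : Site d → ℝ≥0∞) :
    ∑' π : List (Step d), (if π ∈ XX ∧ Hit A V π then aw ν π * m (endp 0 π) else 0)
      ≤ ∑' π1 : List (Step d), (if π1 ∈ FH V 0 ∧ endp 0 π1 ∈ A ∧ ∃ π2, π2 ≠ [] ∧ π1 ++ π2 ∈ XX
        then rho ν XX m π1 else 0) := by
  set F : List (Step d) → ℝ≥0∞ := fun π =>
    if π ∈ XX ∧ Hit A V π then aw ν π * m (endp 0 π) else 0 with hF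
  have h1 : ∑' π, F π = ∑' π, (if π ∈ Vis V 0 then F π else 0) := by
    refine tsum_congr fun π => ?_
    by_cases h : π ∈ Vis V 0
    · rw [if_pos h]
    · rw [if_neg h, hF]
      simp only
      rw [if_neg]
      rintro ⟨_, π1, π2, h2, _, _, h3⟩
      exact h ⟨π1, π2, h2, h3.1⟩
  rw [h1, tsum_vis]
  refine ENNReal.tsum_le_tsum fun π1 => ?_
  by_cases h2 : π1 ∈ FH V 0
  · rw [if_pos h2]
    by_cases h3 : endp 0 π1 ∈ A ∧ ∃ π2, π2 ≠ [] ∧ π1 ++ π2 ∈ XX
    · rw [if_pos ⟨h2, h3⟩]
      refine ENNReal.tsum_le_tsum fun π2 => ?_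
      rw [hF]
      simp only
      by_cases h4 : π1 ++ π2 ∈ XX ∧ Hit A V (π1 ++ π2)
      · rw [if_pos h4, if_pos h4.1]
      · rw [if_neg h4]; exact zero_le
    · have : ∀ π2, F (π1 ++ π2) = 0 := by
        intro π2
        rw [hF]
        simp only
        rw [if_neg]
        rintro ⟨h4, ρ1, ρ2, h5, h6, h7, h8⟩
        obtain ⟨h9, h10⟩ := FH_unique h5 h2 h8
        exact h3 ⟨h9 ▸ h7, π2, h10 ▸ h6, h4⟩
      simp [this]
  · rw [if_neg h2]; exact zero_le

open Classical in
/-- **window lemma (3), level-free.** -/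
theorem win3 (XX YL TT : Set (List (Step d))) (hXX : PF XX) (hYL : PF YL)
    (Yok : Set (Site d)) (E : Finset (Site d)) (A : Set (Site d))
    (DD : Site d → Site d → Set (List (Step d))) (m : Site d → Site d → ℝ≥0∞) (M lam : ℝ≥0∞)
    (hM : M ≠ ⊤) (hl : lam ≠ 0) (hl' : lam ≠ ⊤) (hm : ∀ y z, m y z ≤ M)
    (hm1 : ∀ z, ∑' y, m y z ≤ 1)
    (hYD : ∀ y ∈ Yok, ∀ l1 l2, l1 ++ l2 ∈ YL → l2 ∈ DD y (endp y l1))
    (hDT : ∀ y ∈ Yok, ∀ π1 δ, (∃ π2, π2 ≠ [] ∧ π1 ++ π2 ∈ XX) → endp 0 π1 ∈ A →
      δ ∈ DD y (endp 0 π1) → π1 ++ δ ∈ TT ∧ endp 0 (π1 ++ δ) - y ∈ E) :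
    ∑' y : Site d, (if y ∈ Yok then ∑' γ : List (Step d), (if γ ∈ YL then aw ν γ *
      ∑' π : List (Step d), (if π ∈ XX ∧ Hit A {z | z ∈ sitesL y γ} π
        then aw ν π * m y (endp 0 π) else 0) else 0) else 0)
      ≤ 4 * lam + M / lam * (E.card * ∑' τ : List (Step d), (if τ ∈ TT then aw ν τ else 0)) := by
  have key : ∀ y ∈ Yok, ∑' γ : List (Step d), (if γ ∈ YL then aw ν γ *
      ∑' π : List (Step d), (if π ∈ XX ∧ Hit A {z | z ∈ sitesL y γ} π
        then aw ν π * m y (endp 0 π) else 0) else 0)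
      ≤ 4 * lam * rho ν XX (m y) [] + M / lam * ∑' τ : List (Step d),
        (if τ ∈ TT ∧ endp 0 τ - y ∈ E then aw ν τ else 0) := by
    intro y hy
    set w : List (Step d) → ℝ≥0∞ := fun l => rho ν XX (m y) l / aw ν l with hw
    have hwM : ∀ l, w l ≤ M := fun l => w_le ν hXX (m y) M (hm y) l
    -- annealed = integral of the quenched sum
    have hint : ∑' γ : List (Step d), (if γ ∈ YL then aw ν γ *
        ∑' π : List (Step d), (if π ∈ XX ∧ Hit A {z | z ∈ sitesL y γ} π
          then aw ν π * m y (endp 0 π) else 0) else 0)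
        ≤ ∫⁻ ω, ∑' γ : List (Step d), (if γ ∈ YL then lw ω y γ * ∑' π1 : List (Step d),
      (if π1 ∈ FH {z | z ∈ sitesL y γ} 0 ∧ endp 0 π1 ∈ A ∧ ∃ π2, π2 ≠ [] ∧ π1 ++ π2 ∈ XX
        then lw ω 0 π1 * w π1 else 0) else 0) ∂(iidEnvironmentLaw ν) := by
      rw [lintegral_tsum]
      · refine ENNReal.tsum_le_tsum fun γ => ?_
        by_cases hγ : γ ∈ YL
        · simp only [if_pos hγ]
          refine (mul_le_mul_right (hit_sum ν XX _ A (m y)) _).trans ?_
          simp_rw [← ENNReal.tsum_mul_left]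
          rw [lintegral_tsum]
          · refine ENNReal.tsum_le_tsum fun π1 => ?_
            by_cases h : π1 ∈ FH {z | z ∈ sitesL y γ} 0 ∧ endp 0 π1 ∈ A ∧
              ∃ π2, π2 ≠ [] ∧ π1 ++ π2 ∈ XX
            · simp only [if_pos h]
              rw [rho_eq ν hXX (m y) M (hm y) π1, ← mul_assoc]
              have h2 : ∀ ω, lw ω y γ * (lw ω 0 π1 * w π1) = (lw ω y γ * lw ω 0 π1) * w π1 :=
                fun ω => by ring
              simp_rw [h2]
              have h7 : ∫⁻ ω, lw ω y γ * lw ω 0 π1 ∂(iidEnvironmentLaw ν)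
                  = aw ν γ * aw ν π1 := by
                apply lint_mul ν y 0 γ π1
                intro z hz hz'
                obtain ⟨l1, e', l2, h5, h6⟩ := mem_sitesL.1 hz'
                exact h.1.2 l1 (e' :: l2) h5 (by simp) (by rw [h6]; exact hz)
              have h8 : ∫⁻ ω, (lw ω y γ * lw ω 0 π1) * w π1 ∂(iidEnvironmentLaw ν)
                  = (∫⁻ ω, lw ω y γ * lw ω 0 π1 ∂(iidEnvironmentLaw ν)) * w π1 :=
                lintegral_mul_const (w π1) ((measurable_lw y γ).mul (measurable_lw 0 π1))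
              rw [h8, h7]
            · simp only [if_neg h, mul_zero]; exact zero_le
          · intro π1
            refine Measurable.aemeasurable ?_
            by_cases h : π1 ∈ FH {z | z ∈ sitesL y γ} 0 ∧ endp 0 π1 ∈ A ∧
              ∃ π2, π2 ≠ [] ∧ π1 ++ π2 ∈ XX
            · simp only [if_pos h]
              exact (measurable_lw y γ).mul ((measurable_lw 0 π1).mul_const _)
            · simp only [if_neg h, mul_zero]
              exact measurable_const
        · simp only [if_neg hγ]; exact zero_le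
      · intro γ
        refine Measurable.aemeasurable ?_
        by_cases hγ : γ ∈ YL
        · simp only [if_pos hγ]
          refine (measurable_lw y γ).mul (Measurable.ennreal_tsum fun π1 => ?_)
          by_cases h : π1 ∈ FH {z | z ∈ sitesL y γ} 0 ∧ endp 0 π1 ∈ A ∧
              ∃ π2, π2 ≠ [] ∧ π1 ++ π2 ∈ XX
          · simp only [if_pos h]
            exact (measurable_lw 0 π1).mul_const _
          · simp only [if_neg h]
            exact measurable_const
        · simp only [if_neg hγ]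
          exact measurable_const
    refine hint.trans ?_
    have hmT : ∀ S : Set (List (Step d)), ∀ x : Site d,
        Measurable fun ω : Environment d => ∑' l : List (Step d), (if l ∈ S then lw ω x l else 0) := by
      intro S x
      refine Measurable.ennreal_tsum fun l => ?_
      by_cases h : l ∈ S
      · simp only [if_pos h]; exact measurable_lw x l
      · simp only [if_neg h]; exact measurable_const
    have hiT : ∀ S : Set (List (Step d)),
        ∫⁻ ω, ∑' l : List (Step d), (if l ∈ S then lw ω 0 l else 0) ∂(iidEnvironmentLaw ν)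
          = ∑' l : List (Step d), (if l ∈ S then aw ν l else 0) := by
      intro S
      rw [lintegral_tsum]
      · refine tsum_congr fun l => ?_
        by_cases h : l ∈ S
        · simp only [if_pos h]; rfl
        · simp only [if_neg h]; simp
      · intro l
        by_cases h : l ∈ S
        · simp only [if_pos h]; exact (measurable_lw 0 l).aemeasurable
        · simp only [if_neg h]; exact measurable_const.aemeasurable
    obtain ⟨T, hT⟩ : ∃ T : Set (List (Step d)), ∀ τ, τ ∈ T ↔ (τ ∈ TT ∧ endp 0 τ - y ∈ E) :=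
      ⟨{τ | τ ∈ TT ∧ endp 0 τ - y ∈ E}, fun _ => Iff.rfl⟩
    calc ∫⁻ ω, ∑' γ : List (Step d), (if γ ∈ YL then lw ω y γ * ∑' π1 : List (Step d),
      (if π1 ∈ FH {z | z ∈ sitesL y γ} 0 ∧ endp 0 π1 ∈ A ∧ ∃ π2, π2 ≠ [] ∧ π1 ++ π2 ∈ XX
        then lw ω 0 π1 * w π1 else 0) else 0) ∂(iidEnvironmentLaw ν)
        ≤ ∫⁻ ω, ((∑' j : ℕ, lam * M * (2⁻¹ ^ j * 2⁻¹ ^ j) * ∑' π0 : List (Step d),
          (if π0 ∈ MinP (fun l => M * 2⁻¹ ^ (j + 1) < w l) then lw ω 0 π0 else 0))
        + M / lam * ∑' τ : List (Step d), (if τ ∈ T then lw ω 0 τ else 0))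
          ∂(iidEnvironmentLaw ν) := by
          refine lintegral_mono fun ω => ?_
          exact quen3 ω y XX YL T hYL A (DD y) w M lam hM hwM hl hl' (hYD y hy)
            fun π1 δ h1 h2 h3 => (hT _).2 (hDT y hy π1 δ h1 h2 h3)
      _ = (∑' j : ℕ, lam * M * (2⁻¹ ^ j * 2⁻¹ ^ j) * ∑' π0 : List (Step d),
          (if π0 ∈ MinP (fun l => M * 2⁻¹ ^ (j + 1) < w l) then aw ν π0 else 0))
        + M / lam * ∑' τ : List (Step d), (if τ ∈ T then aw ν τ else 0) := by
          rw [lintegral_add_right _ ((hmT T 0).const_mul _), lintegral_const_mul _ (hmT T 0),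
            hiT, lintegral_tsum fun j => ((hmT _ 0).const_mul _).aemeasurable]
          congr 1
          refine tsum_congr fun j => ?_
          rw [lintegral_const_mul _ (hmT _ 0), hiT]
      _ ≤ (∑' j : ℕ, 2 * lam * rho ν XX (m y) [] * 2⁻¹ ^ j)
        + M / lam * ∑' τ : List (Step d), (if τ ∈ T then aw ν τ else 0) := by
          refine add_le_add (ENNReal.tsum_le_tsum fun j => ?_) le_rfl
          have h1 : M * 2⁻¹ ^ (j + 1) * ∑' π0 : List (Step d),
              (if π0 ∈ MinP (fun l => M * 2⁻¹ ^ (j + 1) < w l) then aw ν π0 else 0)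
              ≤ rho ν XX (m y) [] := by
            rw [← ENNReal.tsum_mul_left]
            refine le_trans (ENNReal.tsum_le_tsum fun π0 => ?_) (rho_sum ν XX (m y)
              (pf_MinP (fun l => M * 2⁻¹ ^ (j + 1) < w l)))
            by_cases h : π0 ∈ MinP (fun l => M * 2⁻¹ ^ (j + 1) < w l)
            · rw [if_pos h, if_pos h, rho_eq ν hXX (m y) M (hm y) π0, mul_comm]
              exact mul_le_mul_right h.1.le _
            · rw [if_neg h, if_neg h, mul_zero]
          have h2 : (2 : ℝ≥0∞) * 2⁻¹ = 1 := ENNReal.mul_inv_cancel (by norm_num) (by norm_num)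
          calc lam * M * (2⁻¹ ^ j * 2⁻¹ ^ j) * ∑' π0 : List (Step d),
              (if π0 ∈ MinP (fun l => M * 2⁻¹ ^ (j + 1) < w l) then aw ν π0 else 0)
              = (2 * 2⁻¹) * (lam * M * (2⁻¹ ^ j * 2⁻¹ ^ j) * ∑' π0 : List (Step d),
              (if π0 ∈ MinP (fun l => M * 2⁻¹ ^ (j + 1) < w l) then aw ν π0 else 0)) := by
                rw [h2, one_mul]
            _ = 2 * lam * 2⁻¹ ^ j * (M * 2⁻¹ ^ (j + 1) * ∑' π0 : List (Step d),
              (if π0 ∈ MinP (fun l => M * 2⁻¹ ^ (j + 1) < w l) then aw ν π0 else 0)) := by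
                rw [pow_succ]; ring
            _ ≤ 2 * lam * 2⁻¹ ^ j * rho ν XX (m y) [] := mul_le_mul_right h1 _
            _ = _ := by ring
      _ = 4 * lam * rho ν XX (m y) []
        + M / lam * ∑' τ : List (Step d), (if τ ∈ TT ∧ endp 0 τ - y ∈ E then aw ν τ else 0) := by
          congr 1
          · rw [ENNReal.tsum_mul_left, ENNReal.tsum_geometric, ENNReal.one_sub_inv_two, inv_inv]
            ring
          · congr 1
            refine tsum_congr fun τ => ?_
            by_cases h : τ ∈ T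
            · rw [if_pos h, if_pos ((hT τ).1 h)]
            · rw [if_neg h, if_neg (fun h2 => h ((hT τ).2 h2))]
  have hcard : ∀ z : Site d, ∑' y : Site d, (if z - y ∈ E then (1 : ℝ≥0∞) else 0) = E.card := by
    intro z
    have h1 : ∑' y : Site d, (if z - y ∈ E then (1 : ℝ≥0∞) else 0)
        = ∑' y : Site d, (fun v => if v ∈ E then (1 : ℝ≥0∞) else 0) (Equiv.subLeft z y) := rfl
    rw [h1, (Equiv.subLeft z).tsum_eq (fun v => if v ∈ E then (1 : ℝ≥0∞) else 0)]
    rw [tsum_eq_sum (s := E) (fun v hv => if_neg hv), Finset.sum_congr rfl (fun v hv => if_pos hv)]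
    simp
  calc ∑' y : Site d, (if y ∈ Yok then ∑' γ : List (Step d), (if γ ∈ YL then aw ν γ *
      ∑' π : List (Step d), (if π ∈ XX ∧ Hit A {z | z ∈ sitesL y γ} π
        then aw ν π * m y (endp 0 π) else 0) else 0) else 0)
      ≤ ∑' y : Site d, (4 * lam * rho ν XX (m y) [] + M / lam * ∑' τ : List (Step d),
        (if τ ∈ TT ∧ endp 0 τ - y ∈ E then aw ν τ else 0)) := by
        refine ENNReal.tsum_le_tsum fun y => ?_
        by_cases hy : y ∈ Yok
        · rw [if_pos hy]; exact key y hy
        · rw [if_neg hy]; exact zero_le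
    _ = 4 * lam * (∑' y : Site d, rho ν XX (m y) []) + M / lam * ∑' y : Site d,
        ∑' τ : List (Step d), (if τ ∈ TT ∧ endp 0 τ - y ∈ E then aw ν τ else 0) := by
        rw [ENNReal.tsum_add, ENNReal.tsum_mul_left, ENNReal.tsum_mul_left]
    _ ≤ 4 * lam * 1 + M / lam * (E.card * ∑' τ : List (Step d), (if τ ∈ TT then aw ν τ else 0)) := by
        refine add_le_add (mul_le_mul_right ?_ _) (mul_le_mul_right (le_of_eq ?_) _)
        · unfold rho
          rw [ENNReal.tsum_comm]
          calc ∑' π : List (Step d), ∑' y : Site d,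
              (if [] ++ π ∈ XX then aw ν ([] ++ π) * m y (endp 0 ([] ++ π)) else 0)
              ≤ ∑' π : List (Step d), (if π ∈ XX then aw ν π else 0) := by
                refine ENNReal.tsum_le_tsum fun π => ?_
                rw [List.nil_append]
                by_cases h : π ∈ XX
                · simp only [if_pos h]
                  rw [ENNReal.tsum_mul_left]
                  calc aw ν π * ∑' y : Site d, m y (endp 0 π) ≤ aw ν π * 1 :=
                        mul_le_mul_right (hm1 _) _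
                    _ = _ := mul_one _
                · simp only [if_neg h, tsum_zero]; exact le_rfl
            _ ≤ 1 := by
                have := WordB956.pf_aw_le (iidEnvironmentLaw ν) 0 hXX
                exact this
        · rw [ENNReal.tsum_comm, ← ENNReal.tsum_mul_left]
          refine tsum_congr fun τ => ?_
          by_cases h : τ ∈ TT
          · simp only [h, true_and, if_true]
            rw [← hcard (endp 0 τ), ← ENNReal.tsum_mul_right]
            refine tsum_congr fun y => ?_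
            by_cases h2 : endp 0 τ - y ∈ E <;> simp [h2]
          · simp [h]
    _ = _ := by rw [mul_one]

end win3

end Crest.Agent.R154.W316
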