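import Crest.Agent.R154.NBDefs_28
import Crest.Agent.R154.DoobW_431
import Crest.Agent.R154.Dyad_431
import Crest.Agent.R154.B5Surg_802

/-! Row 154, ROAD 801: the two window lemmas in words (helper42). -/

set_option autoImplicit false

namespace Crest.Agent.R154.Win42

open MeasureTheory ProbabilityTheory Crest.ProbabilityR.RandomEnvironment Crest.Agent.R154
open Crest.Agent.R154.Flux132 (lev opp lev_add lev_neg lev_zero)
open Crest.Agent.R154.Flux566 (lw endp sitesL endp_append endp_eq_add measurable_lw locOn_lw)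
open Crest.Agent.R154.NB28 (IsUp IsDn aw)
open Crest.Agent.R154.DoobW431 (PF ville kraft markov_pf First pf_First exists_First bad_le
  pf_unique)
open Crest.Agent.R154.Surg802 (sitesL_append mem_sitesL_zero lw_append endp_mem_of_lt)
open scoped ENNReal

/-- minimal elements for the prefix order -/
def Mn {α : Type*} (G : Set (List α)) : Set (List α) :=
  {γ | γ ∈ G ∧ ∀ γ', γ' <+: γ → γ' ∈ G → γ' = γ}

lemma pf_Mn {α : Type*} (G : Set (List α)) : PF (Mn G) := fun l hl _ hl' hp => hl'.2 l hp hl.1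

lemma exists_Mn {α : Type*} {G : Set (List α)} : ∀ (n : ℕ) (ρ : List α), ρ.length = n → ρ ∈ G →
    ∃ γ ∈ Mn G, γ <+: ρ := by
  intro n
  induction n using Nat.strong_induction_on with
  | _ n ih =>
    intro ρ hn h
    by_cases hm : ρ ∈ Mn G
    · exact ⟨ρ, hm, List.prefix_rfl⟩
    · have : ∃ γ', γ' <+: ρ ∧ γ' ∈ G ∧ γ' ≠ ρ := by
        by_contra hc
        push Not at hc
        exact hm ⟨h, hc⟩
      obtain ⟨γ', h1, h2, h3⟩ := this
      have hlt : γ'.length < n := by
        rw [← hn]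
        exact lt_of_le_of_ne h1.length_le fun e => h3 (h1.eq_of_length e)
      obtain ⟨γ, h4, h5⟩ := ih _ hlt γ' rfl h2
      exact ⟨γ, h4, h5.trans h1⟩

variable {d : ℕ}

lemma lev_sub (u : Step d) (x y : Site d) : lev u (x - y) = lev u x - lev u y := by
  rw [sub_eq_add_neg, lev_add, lev_neg, sub_eq_add_neg]

open Classical in
lemma maj (ω : Environment d) (x : Site d) {P G : Set (List (Step d))} (hP : PF P)
    (h : ∀ l ∈ P, l ∈ G) :
    ∑' l, (if l ∈ P then lw ω x l else 0) ≤ ∑' l, (if l ∈ Mn G then lw ω x l else 0) := by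
  have := markov_pf ω x (W := P) (P := Mn G) (fun γ => {ρ2 | γ ++ ρ2 ∈ P}) (fun _ => 1)
    (fun ρ hρ => by
      obtain ⟨γ, hγ, ρ2, rfl⟩ := exists_Mn _ ρ rfl (h ρ hρ)
      exact ⟨γ, ρ2, rfl, hγ, hρ⟩)
    (fun γ hγ => kraft ω _ (fun l hl l' hl' hp => by
      have := hP _ hl _ hl' ((List.prefix_append_right_inj γ).2 hp)
      exact List.append_cancel_left this))
  simpa using this

lemma mem_prefix {y : Site d} {l : List (Step d)} : ∀ {x : Site d}, y ∈ sitesL x l →
    ∃ l1 l2, l = l1 ++ l2 ∧ l2 ≠ [] ∧ endp x l1 = y := by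
  induction l with
  | nil => intro x h; simp [sitesL] at h
  | cons e l ih =>
    intro x h
    simp only [sitesL, List.mem_cons] at h
    rcases h with rfl | h
    · exact ⟨[], e :: l, rfl, by simp, rfl⟩
    · obtain ⟨l1, l2, h1, h2, h3⟩ := ih h
      exact ⟨e :: l1, l2, by rw [h1]; rfl, h2, h3⟩

/-- Y's words: down, height `h'`, displacement in `E`; the start is at the right level -/
def YY (u : Step d) (h' : ℕ) (b : ℤ) (E : Finset (Site d)) (x : Site d) : Set (List (Step d)) :=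
  {γ | lev u x = b + h' ∧ IsDn u h' γ ∧ endp 0 γ ∈ E}

/-- continuations from `v` which land in `x + E` at the first visit of level `b` -/
def CC (u : Step d) (b : ℤ) (E : Finset (Site d)) (x v : Site d) : Set (List (Step d)) :=
  {ρ | (∀ y ∈ sitesL v ρ, b < lev u y) ∧ lev u (endp v ρ) = b ∧ endp v ρ - x ∈ E}

/-- first hit of the sites of `γ`, from `0` -/
def HH (u : Step d) (s : ℕ) (x : Site d) (γ : List (Step d)) : Set (List (Step d)) :=
  {π | endp 0 π ∈ sitesL x γ ∧ (∀ y ∈ sitesL 0 π, y ∉ sitesL x γ) ∧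
    (∀ y ∈ sitesL 0 π, 0 ≤ lev u y) ∧ (s : ℤ) ≤ lev u (endp 0 π)}

/-- turning words -/
def BB (u : Step d) (s : ℕ) (b : ℤ) : Set (List (Step d)) :=
  {ξ | (∀ y ∈ sitesL 0 ξ, b < lev u y) ∧ lev u (endp 0 ξ) = b ∧
    ∃ y ∈ sitesL 0 ξ, (s : ℤ) ≤ lev u y}

lemma pf_YY (u : Step d) (h' : ℕ) (b : ℤ) (E : Finset (Site d)) (x : Site d) :
    PF (YY u h' b E x) := by
  intro l hl l' hl' hp
  by_contra hne
  have h1 := (hl'.2.1.1 _ (endp_mem_of_lt 0 hp hne)).1
  rw [hl.2.1.2] at h1
  exact absurd h1 (lt_irrefl _)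

lemma pf_HH (u : Step d) (s : ℕ) (x : Site d) (γ : List (Step d)) : PF (HH u s x γ) := by
  intro l hl l' hl' hp
  by_contra hne
  exact hl'.2.1 _ (endp_mem_of_lt 0 hp hne) hl.1

lemma pf_BB (u : Step d) (s : ℕ) (b : ℤ) : PF (BB u s b) := by
  intro l hl l' hl' hp
  by_contra hne
  have h1 := hl'.1 _ (endp_mem_of_lt 0 hp hne)
  rw [hl.2.1] at h1
  exact absurd h1 (lt_irrefl _)

lemma YY_CC {u : Step d} {h' : ℕ} {b : ℤ} {E : Finset (Site d)} {x : Site d}
    (γ ρ : List (Step d)) (h : γ ++ ρ ∈ YY u h' b E x) : ρ ∈ CC u b E x (endp x γ) := by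
  obtain ⟨h1, h2, h3⟩ := h
  refine ⟨fun y hy => ?_, ?_, ?_⟩
  · have h4 : y ∈ sitesL x (γ ++ ρ) := by rw [sitesL_append, List.mem_append]; exact Or.inr hy
    have h5 := (h2.1 _ ((mem_sitesL_zero _ x y).1 h4)).1
    rw [lev_sub] at h5
    omega
  · rw [← endp_append, endp_eq_add, lev_add, h2.2]; omega
  · rw [← endp_append, endp_eq_add, add_sub_cancel_left]; exact h3

open Classical in
/-- the quenched bound -/
lemma quenched (ω : Environment d) (u : Step d) (s h' : ℕ) (b : ℤ) (hb : b < 0)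
    (E : Finset (Site d)) (x : Site d) (lam : ℝ≥0∞) (h0 : lam ≠ 0) (ht : lam ≠ ⊤)
    (Cl : Set (List (Step d))) :
    ∑' γ, (if γ ∈ YY u h' b E x then
        lw ω x γ * ∑' π, (if π ∈ HH u s x γ ∧ π ∈ Cl then lw ω 0 π else 0) else 0)
      ≤ (∑' π, if π ∈ Mn Cl then lw ω 0 π else 0) * lam +
        lam⁻¹ * ∑' ξ, (if ξ ∈ BB u s b ∧ endp 0 ξ - x ∈ E then lw ω 0 ξ else 0) := by
  set e : Site d → ℝ≥0∞ := fun v => ∑' ρ, (if ρ ∈ CC u b E x v then lw ω v ρ else 0) with he
  set A : ℝ≥0∞ := ∑' π, if π ∈ Mn Cl then lw ω 0 π else 0 with hA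
  set G : Set (List (Step d)) := {π | (∀ y ∈ sitesL 0 π, 0 ≤ lev u y) ∧
    (s : ℤ) ≤ lev u (endp 0 π) ∧ lam < e (endp 0 π)} with hG
  set H : ℝ≥0∞ := ∑' π, if π ∈ Mn G then lw ω 0 π else 0 with hH
  set Bad : Set (Site d) := {v | e v ≤ lam} with hBad
  have hin : ∀ γ, ∑' π, (if π ∈ HH u s x γ ∧ π ∈ Cl then lw ω 0 π else 0)
      ≤ (if ∃ γ', γ' <+: γ ∧ endp x γ' ∈ Bad then A else 0) + H := by
    intro γ
    have h1 : ∑' π, (if π ∈ HH u s x γ ∧ π ∈ Cl then lw ω 0 π else 0)
        ≤ ∑' π, (if π ∈ {π | (π ∈ HH u s x γ ∧ π ∈ Cl) ∧ endp 0 π ∈ Bad} then lw ω 0 π else 0) +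
          ∑' π, (if π ∈ {π | π ∈ HH u s x γ ∧ endp 0 π ∉ Bad} then lw ω 0 π else 0) := by
      rw [← ENNReal.tsum_add]
      refine ENNReal.tsum_le_tsum fun π => ?_
      by_cases h2 : π ∈ HH u s x γ ∧ π ∈ Cl
      · by_cases h3 : endp 0 π ∈ Bad
        · rw [if_pos h2, if_pos (show π ∈ {π | (π ∈ HH u s x γ ∧ π ∈ Cl) ∧ endp 0 π ∈ Bad} from
            ⟨h2, h3⟩)]
          exact le_self_add
        · rw [if_pos h2, if_pos (show π ∈ {π | π ∈ HH u s x γ ∧ endp 0 π ∉ Bad} from
            ⟨h2.1, h3⟩)]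
          exact le_add_self
      · rw [if_neg h2]; exact zero_le
    refine h1.trans (add_le_add ?_ ?_)
    · by_cases hv : ∃ γ', γ' <+: γ ∧ endp x γ' ∈ Bad
      · rw [if_pos hv]
        refine le_trans (le_of_eq (tsum_congr fun π => ?_))
          (maj ω 0 (P := {π | (π ∈ HH u s x γ ∧ π ∈ Cl) ∧ endp 0 π ∈ Bad}) (G := Cl)
          (fun l hl l' hl' hp => pf_HH u s x γ l hl.1.1 l' hl'.1.1 hp)
          (fun l hl => hl.1.2))
        congr
      · rw [if_neg hv]
        refine le_of_eq (ENNReal.tsum_eq_zero.2 fun π => ?_)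
        rw [if_neg]
        rintro ⟨h2, h3⟩
        obtain ⟨l1, l2, h4, h5, h6⟩ := mem_prefix h2.1.1
        exact hv ⟨l1, ⟨l2, h4.symm⟩, by rw [h6]; exact h3⟩
    · refine le_trans (le_of_eq (tsum_congr fun π => ?_))
        (maj ω 0 (P := {π | π ∈ HH u s x γ ∧ endp 0 π ∉ Bad}) (G := G)
        (fun l hl l' hl' hp => pf_HH u s x γ l hl.1 l' hl'.1 hp)
        (fun l hl => ⟨hl.1.2.2.1, hl.1.2.2.2, not_le.1 hl.2⟩))
      congr
  have hHle : H ≤ lam⁻¹ * ∑' ξ, (if ξ ∈ BB u s b ∧ endp 0 ξ - x ∈ E then lw ω 0 ξ else 0) := by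
    have h1 : lam * H ≤ ∑' ξ, (if ξ ∈ BB u s b ∧ endp 0 ξ - x ∈ E then lw ω 0 ξ else 0) := by
      refine ville (pf_Mn G) (fun l => lw ω 0 l) _ lam fun γ hγ => ?_
      obtain ⟨hγ1, hγ2, hγ3⟩ := hγ.1
      refine le_trans (b := ∑' ξ, (fun ξ => if γ <+: ξ then
              (if ξ ∈ BB u s b ∧ endp 0 ξ - x ∈ E then lw ω 0 ξ else 0) else 0) ξ) ?_
        (le_of_eq (tsum_congr fun ξ => by congr))
      calc lam * lw ω 0 γ ≤ e (endp 0 γ) * lw ω 0 γ := by gcongr
        _ = ∑' ρ, (if ρ ∈ CC u b E x (endp 0 γ) then lw ω 0 (γ ++ ρ) else 0) := by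
            rw [he, ← ENNReal.tsum_mul_right]
            refine tsum_congr fun ρ => ?_
            split_ifs
            · rw [lw_append, mul_comm]
            · rw [zero_mul]
        _ ≤ ∑' ρ, (fun ξ => if γ <+: ξ then
              (if ξ ∈ BB u s b ∧ endp 0 ξ - x ∈ E then lw ω 0 ξ else 0) else 0) (γ ++ ρ) := by
            refine ENNReal.tsum_le_tsum fun ρ => ?_
            by_cases hρ : ρ ∈ CC u b E x (endp 0 γ)
            · obtain ⟨hρ1, hρ2, hρ3⟩ := hρ
              have hne : ρ ≠ [] := by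
                rintro rfl
                simp only [endp] at hρ2
                omega
              have hmem : endp 0 γ ∈ sitesL 0 (γ ++ ρ) :=
                endp_mem_of_lt 0 (List.prefix_append γ ρ) (fun h => hne (by
                  have := congrArg List.length h
                  simp only [List.length_append] at this
                  exact List.length_eq_zero_iff.1 (by omega)))
              have hBB : (γ ++ ρ) ∈ BB u s b ∧ endp 0 (γ ++ ρ) - x ∈ E := by
                refine ⟨⟨fun y hy => ?_, ?_, _, hmem, hγ2⟩, ?_⟩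
                · rw [sitesL_append, List.mem_append] at hy
                  rcases hy with hy | hy
                  · exact lt_of_lt_of_le hb (hγ1 y hy)
                  · exact hρ1 y hy
                · rw [endp_append]; exact hρ2
                · rw [endp_append]; exact hρ3
              rw [if_pos ⟨hρ1, hρ2, hρ3⟩]
              simp only [List.prefix_append, if_true]
              rw [if_pos hBB]
            · rw [if_neg hρ]; exact zero_le
        _ ≤ ∑' ξ, (fun ξ => if γ <+: ξ then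
              (if ξ ∈ BB u s b ∧ endp 0 ξ - x ∈ E then lw ω 0 ξ else 0) else 0) ξ :=
            ENNReal.tsum_comp_le_tsum_of_injective (f := fun ρ : List (Step d) => γ ++ ρ)
              (fun a b h => List.append_cancel_left h)
              (fun ξ => if γ <+: ξ then
              (if ξ ∈ BB u s b ∧ endp 0 ξ - x ∈ E then lw ω 0 ξ else 0) else 0)

    calc H = lam⁻¹ * (lam * H) := by
          rw [← mul_assoc, ENNReal.inv_mul_cancel h0 ht, one_mul]
      _ ≤ _ := by gcongr
  calc ∑' γ, (if γ ∈ YY u h' b E x then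
        lw ω x γ * ∑' π, (if π ∈ HH u s x γ ∧ π ∈ Cl then lw ω 0 π else 0) else 0)
      ≤ ∑' γ, (A * (if γ ∈ YY u h' b E x ∧ (∃ γ', γ' <+: γ ∧ endp x γ' ∈ Bad) then
          lw ω x γ else 0) + H * (if γ ∈ YY u h' b E x then lw ω x γ else 0)) := by
        refine ENNReal.tsum_le_tsum fun γ => ?_
        by_cases hγ : γ ∈ YY u h' b E x
        · rw [if_pos hγ]
          refine (mul_le_mul_right (hin γ) _).trans (le_of_eq ?_)
          by_cases hv : ∃ γ', γ' <+: γ ∧ endp x γ' ∈ Bad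
          · rw [if_pos hv, if_pos ⟨hγ, hv⟩, if_pos hγ]; ring
          · rw [if_neg hv, if_neg (fun h => hv h.2), if_pos hγ]; ring
        · rw [if_neg hγ]; exact zero_le
    _ = A * ∑' γ, (if γ ∈ YY u h' b E x ∧ (∃ γ', γ' <+: γ ∧ endp x γ' ∈ Bad) then
          lw ω x γ else 0) + H * ∑' γ, (if γ ∈ YY u h' b E x then lw ω x γ else 0) := by
        rw [ENNReal.tsum_add, ENNReal.tsum_mul_left, ENNReal.tsum_mul_left]
    _ ≤ A * lam + H * 1 := by
        gcongr
        · exact bad_le ω x (YY u h' b E x) Bad (CC u b E x) lam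
            (fun γ ρ2 h => YY_CC γ ρ2 h) (fun v hv => hv)
        · exact kraft ω x (pf_YY u h' b E x)
    _ ≤ _ := by rw [mul_one]; gcongr

/-! ### W3: Y local, X any -/

open Classical in
/-- the weight carried by an up word -/
noncomputable def FF (ν : Measure (Row d)) [IsProbabilityMeasure ν] (u : Step d) (h : ℕ)
    (D : Site d → ℝ≥0∞) (x : Site d) (π : List (Step d)) : ℝ≥0∞ :=
  if IsUp u h π then D (x - endp 0 π) * aw ν π else 0

open Classical in
/-- the weight carried by the words which begin with `π` -/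
noncomputable def RR (ν : Measure (Row d)) [IsProbabilityMeasure ν] (u : Step d) (h : ℕ)
    (D : Site d → ℝ≥0∞) (x : Site d) (π : List (Step d)) : ℝ≥0∞ :=
  ∑' ξ, if π <+: ξ then FF ν u h D x ξ else 0

/-- the classes -/
def Cl (ν : Measure (Row d)) [IsProbabilityMeasure ν] (u : Step d) (h : ℕ)
    (D : Site d → ℝ≥0∞) (M : ℝ≥0∞) (x : Site d) (j : ℕ) : Set (List (Step d)) :=
  {π | M * 4⁻¹ ^ (j + 1) * aw ν π ≤ RR ν u h D x π}

lemma aw_ne_top (ν : Measure (Row d)) [IsProbabilityMeasure ν] (l : List (Step d)) :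
    aw ν l ≠ ⊤ := by
  classical
  have h : aw ν l ≤ 1 := by
    unfold aw
    calc ∫⁻ ω, lw ω 0 l ∂(iidEnvironmentLaw ν) ≤ ∫⁻ _, 1 ∂(iidEnvironmentLaw ν) := by
          refine lintegral_mono fun ω => ?_
          have := kraft ω 0 (W := {l}) (fun a ha b hb _ => by
            rw [Set.mem_singleton_iff] at ha hb; rw [ha, hb])
          refine le_trans ?_ this
          refine le_trans (le_of_eq ?_) (ENNReal.le_tsum l)
          simp
      _ = 1 := by simp
  exact ne_top_of_le_ne_top ENNReal.one_ne_top h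

lemma aw_start (ν : Measure (Row d)) [IsProbabilityMeasure ν] (l : List (Step d)) (y : Site d) :
    ∫⁻ ω, lw ω y l ∂(iidEnvironmentLaw ν) = aw ν l := Surg802.aw_start ν l y

lemma pf_up (u : Step d) (n : ℕ) : PF {l : List (Step d) | IsUp u n l} := by
  intro l hl l' hl' hp
  by_contra hne
  have h1 := (hl'.1 _ (endp_mem_of_lt 0 hp hne)).2
  rw [hl.2] at h1
  exact absurd h1 (lt_irrefl _)

lemma pf_dn (u : Step d) (n : ℕ) : PF {l : List (Step d) | IsDn u n l} := by
  intro l hl l' hl' hp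
  by_contra hne
  have h1 := (hl'.1 _ (endp_mem_of_lt 0 hp hne)).1
  rw [hl.2] at h1
  exact absurd h1 (lt_irrefl _)

open Classical in
/-- annealed Kraft, relative to a prefix -/
lemma kraft_rel (ν : Measure (Row d)) [IsProbabilityMeasure ν] {W : Set (List (Step d))}
    (hW : PF W) (π : List (Step d)) :
    ∑' ξ, (if π <+: ξ ∧ ξ ∈ W then aw ν ξ else 0) ≤ aw ν π := by
  have h1 : ∀ ξ : List (Step d), (if π <+: ξ ∧ ξ ∈ W then aw ν ξ else 0)
      = ∫⁻ ω, (if ξ ∈ {ξ | π <+: ξ ∧ ξ ∈ W} then lw ω 0 ξ else 0) ∂(iidEnvironmentLaw ν) := by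
    intro ξ
    by_cases h : π <+: ξ ∧ ξ ∈ W
    · rw [if_pos h]; simp only [Set.mem_ofPred_eq, h, and_self, if_true]; rfl
    · rw [if_neg h]; simp only [Set.mem_ofPred_eq, h, if_false, lintegral_zero]
  simp_rw [h1]
  rw [← lintegral_tsum]
  · refine lintegral_mono fun ω => ?_
    have := markov_pf ω 0 (W := {ξ | π <+: ξ ∧ ξ ∈ W}) (P := {π})
      (fun γ => {ρ2 | γ ++ ρ2 ∈ W}) (fun _ => 1)
      (fun ρ hρ => by
        obtain ⟨⟨ρ2, rfl⟩, h2⟩ := hρ
        exact ⟨π, ρ2, rfl, rfl, h2⟩)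
      (fun γ _ => kraft ω _ (fun l hl l' hl' hp => by
        have := hW _ hl _ hl' ((List.prefix_append_right_inj γ).2 hp)
        exact List.append_cancel_left this))
    refine le_trans (le_of_eq (tsum_congr fun ξ => ?_)) (this.trans (le_of_eq ?_))
    · congr
    · rw [tsum_eq_single π]
      · simp
      · intro γ hγ
        rw [if_neg]
        exact fun h => hγ h
  · intro ξ
    split_ifs
    · exact (measurable_lw 0 ξ).aemeasurable
    · exact aemeasurable_const

open Classical in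
lemma RR_le (ν : Measure (Row d)) [IsProbabilityMeasure ν] (u : Step d) (h : ℕ)
    (D : Site d → ℝ≥0∞) (M : ℝ≥0∞) (hD : ∀ z, D z ≤ M) (x : Site d) (π : List (Step d)) :
    RR ν u h D x π ≤ M * aw ν π := by
  unfold RR FF
  calc ∑' ξ, (if π <+: ξ then (if IsUp u h ξ then D (x - endp 0 ξ) * aw ν ξ else 0) else 0)
      ≤ ∑' ξ, M * (if π <+: ξ ∧ ξ ∈ {l : List (Step d) | IsUp u h l} then aw ν ξ else 0) := by
        refine ENNReal.tsum_le_tsum fun ξ => ?_
        by_cases h1 : π <+: ξ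
        · by_cases h2 : IsUp u h ξ
          · simp only [h1, h2, Set.mem_ofPred_eq, and_self, if_true]
            gcongr
            exact hD _
          · simp only [h2, if_false, ite_self]; exact zero_le
        · simp only [h1, if_false]; exact zero_le
    _ = M * ∑' ξ, (if π <+: ξ ∧ ξ ∈ {l : List (Step d) | IsUp u h l} then aw ν ξ else 0) :=
        ENNReal.tsum_mul_left
    _ ≤ M * aw ν π := by gcongr; exact kraft_rel ν (pf_up u h) π

open Classical in
lemma RR_le_classes (ν : Measure (Row d)) [IsProbabilityMeasure ν] (u : Step d) (h : ℕ)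
    (D : Site d → ℝ≥0∞) (M : ℝ≥0∞) (hM : M ≠ ⊤) (hD : ∀ z, D z ≤ M) (x : Site d)
    (π : List (Step d)) :
    RR ν u h D x π ≤ ∑' j : ℕ, M * 4⁻¹ ^ j * (if π ∈ Cl ν u h D M x j then aw ν π else 0) := by
  by_cases h0 : RR ν u h D x π = 0
  · rw [h0]; exact zero_le
  · obtain ⟨j, h1, h2⟩ := Dyad431.exists_class (M * aw ν π) (RR ν u h D x π)
      (ENNReal.mul_ne_top hM (aw_ne_top ν π)) (RR_le ν u h D M hD x π) h0
    refine le_trans ?_ (ENNReal.le_tsum j)
    rw [if_pos (show π ∈ Cl ν u h D M x j from by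
      refine le_trans (le_of_eq ?_) h1.le
      ring)]
    refine h2.trans (le_of_eq (by ring))

open Classical in
/-- first hit decomposition -/
lemma hit_split (ν : Measure (Row d)) [IsProbabilityMeasure ν] (u : Step d) (h s : ℕ)
    (D : Site d → ℝ≥0∞) (x : Site d) (γ : List (Step d)) :
    ∑' π, (if IsUp u h π ∧ (∃ y ∈ sitesL 0 π, y ∈ sitesL x γ) ∧
        (∀ y ∈ sitesL 0 π, y ∈ sitesL x γ → (s : ℤ) ≤ lev u y) then
          D (x - endp 0 π) * aw ν π else 0)
      ≤ ∑' π1, (if π1 ∈ HH u s x γ then RR ν u h D x π1 else 0) := by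
  calc ∑' π, (if IsUp u h π ∧ (∃ y ∈ sitesL 0 π, y ∈ sitesL x γ) ∧
        (∀ y ∈ sitesL 0 π, y ∈ sitesL x γ → (s : ℤ) ≤ lev u y) then
          D (x - endp 0 π) * aw ν π else 0)
      ≤ ∑' π, ∑' π1, (if π1 ∈ HH u s x γ then (if π1 <+: π then FF ν u h D x π else 0) else 0) := by
        refine ENNReal.tsum_le_tsum fun π => ?_
        by_cases hc : IsUp u h π ∧ (∃ y ∈ sitesL 0 π, y ∈ sitesL x γ) ∧
          (∀ y ∈ sitesL 0 π, y ∈ sitesL x γ → (s : ℤ) ≤ lev u y)
        · rw [if_pos hc]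
          obtain ⟨hup, ⟨y, hy1, hy2⟩, hall⟩ := hc
          obtain ⟨l1, l2, h1, h2, h3⟩ := mem_prefix hy1
          obtain ⟨π1, h4, h5⟩ := exists_First 0 {z | z ∈ sitesL x γ} l1
            ⟨l1, List.prefix_rfl, by rw [h3]; exact hy2⟩
          have h6 : π1 <+: π := h5.trans ⟨l2, h1.symm⟩
          have h7 : endp 0 π1 ∈ sitesL 0 π := by
            refine endp_mem_of_lt 0 h6 fun e => h2 ?_
            have h8 := h5.length_le
            rw [e, h1, List.length_append] at h8
            exact List.length_eq_zero_iff.1 (by omega)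
          have hmem : π1 ∈ HH u s x γ := by
            refine ⟨h4.1, fun z hz hz' => ?_, fun z hz => ?_, hall _ h7 h4.1⟩
            · obtain ⟨a1, a2, e1, e2, e3⟩ := mem_prefix hz
              refine h4.2 a1 ⟨a2, e1.symm⟩ (fun e => e2 ?_) (by rw [e3]; exact hz')
              have h8 := congrArg List.length e1
              rw [e, List.length_append] at h8
              exact List.length_eq_zero_iff.1 (by omega)
            · obtain ⟨a2, e1⟩ := h6
              refine (hup.1 z ?_).1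
              rw [← e1, sitesL_append, List.mem_append]
              exact Or.inl hz
          refine le_trans (le_of_eq ?_) (ENNReal.le_tsum π1)
          rw [if_pos hmem, if_pos h6, FF, if_pos hup]
        · rw [if_neg hc]; exact zero_le
    _ = ∑' π1, ∑' π, (if π1 ∈ HH u s x γ then (if π1 <+: π then FF ν u h D x π else 0) else 0) :=
        ENNReal.tsum_comm
    _ = _ := by
        refine tsum_congr fun π1 => ?_
        by_cases h1 : π1 ∈ HH u s x γ
        · simp only [h1, if_true]; rfl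
        · simp [h1]

/-- mixing -/
lemma mix (ν : Measure (Row d)) [IsProbabilityMeasure ν] (u : Step d) (s : ℕ)
    (x : Site d) (γ π : List (Step d)) (h : π ∈ HH u s x γ) :
    aw ν γ * aw ν π = ∫⁻ ω, lw ω x γ * lw ω 0 π ∂(iidEnvironmentLaw ν) := by
  rw [Q561.iid_lintegral_mul ν (S := {z | z ∈ sitesL x γ}) (T := {z | z ∈ sitesL 0 π}) ?_
    (measurable_lw _ _) (measurable_lw _ _) (locOn_lw _ _) (locOn_lw _ _), aw_start]
  · rfl
  · rw [Set.disjoint_left]
    intro z hz hz'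
    exact h.2.1 z hz' hz

open Classical in
/-- weight of the turning words -/
noncomputable def UB (ν : Measure (Row d)) [IsProbabilityMeasure ν] (u : Step d) (s : ℕ)
    (b : ℤ) : ℝ≥0∞ := ∑' ξ, if ξ ∈ BB u s b then aw ν ξ else 0

open Classical in
/-- quenched joint weight -/
noncomputable def QQ (u : Step d) (s h' : ℕ) (b : ℤ) (E : Finset (Site d)) (x : Site d)
    (C : Set (List (Step d))) (ω : Environment d) : ℝ≥0∞ :=
  ∑' γ, (if γ ∈ YY u h' b E x then
        lw ω x γ * ∑' π, (if π ∈ HH u s x γ ∧ π ∈ C then lw ω 0 π else 0) else 0)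

lemma measurable_QQ (u : Step d) (s h' : ℕ) (b : ℤ) (E : Finset (Site d)) (x : Site d)
    (C : Set (List (Step d))) : Measurable (QQ u s h' b E x C) := by
  classical
  unfold QQ
  refine Measurable.ennreal_tsum fun γ => ?_
  split_ifs
  · refine (measurable_lw x γ).mul (Measurable.ennreal_tsum fun π => ?_)
    split_ifs
    · exact measurable_lw 0 π
    · exact measurable_const
  · exact measurable_const

open Classical in
lemma int_QQ (ν : Measure (Row d)) [IsProbabilityMeasure ν] (u : Step d) (s h' : ℕ) (b : ℤ)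
    (E : Finset (Site d)) (x : Site d) (C : Set (List (Step d))) :
    ∑' γ, (if γ ∈ YY u h' b E x then
        aw ν γ * ∑' π, (if π ∈ HH u s x γ ∧ π ∈ C then aw ν π else 0) else 0)
      = ∫⁻ ω, QQ u s h' b E x C ω ∂(iidEnvironmentLaw ν) := by
  unfold QQ
  rw [lintegral_tsum]
  · refine tsum_congr fun γ => ?_
    by_cases hγ : γ ∈ YY u h' b E x
    · simp only [hγ, if_true]
      rw [← ENNReal.tsum_mul_left]
      have : ∀ ω : Environment d, lw ω x γ * ∑' π, (if π ∈ HH u s x γ ∧ π ∈ C then lw ω 0 π else 0)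
          = ∑' π, lw ω x γ * (if π ∈ HH u s x γ ∧ π ∈ C then lw ω 0 π else 0) := fun ω =>
        ENNReal.tsum_mul_left.symm
      simp_rw [this]
      rw [lintegral_tsum]
      · refine tsum_congr fun π => ?_
        by_cases hπ : π ∈ HH u s x γ ∧ π ∈ C
        · simp only [hπ, and_self, if_true]
          exact mix ν u s x γ π hπ.1
        · rw [if_neg hπ]
          simp only [mul_zero, if_neg hπ, lintegral_zero]
      · intro π
        refine ((measurable_lw x γ).mul ?_).aemeasurable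
        split_ifs
        · exact measurable_lw 0 π
        · exact measurable_const
    · simp only [hγ, if_false, lintegral_zero]
  · intro γ
    refine Measurable.aemeasurable ?_
    split_ifs
    · refine (measurable_lw x γ).mul (Measurable.ennreal_tsum fun π => ?_)
      split_ifs
      · exact measurable_lw 0 π
      · exact measurable_const
    · exact measurable_const

open Classical in
/-- the joint weight at a fixed start `x` of Y -/
lemma per_x (ν : Measure (Row d)) [IsProbabilityMeasure ν] (u : Step d) (h h' s : ℕ) (b : ℤ)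
    (E : Finset (Site d)) (D : Site d → ℝ≥0∞) (M : ℝ≥0∞) (hM : M ≠ ⊤) (hD : ∀ z, D z ≤ M)
    (x : Site d) :
    ∑' γ, (if γ ∈ YY u h' b E x then aw ν γ *
        ∑' π, (if IsUp u h π ∧ (∃ y ∈ sitesL 0 π, y ∈ sitesL x γ) ∧
          (∀ y ∈ sitesL 0 π, y ∈ sitesL x γ → (s : ℤ) ≤ lev u y) then
          D (x - endp 0 π) * aw ν π else 0) else 0)
      ≤ ∫⁻ ω, ∑' j : ℕ, M * 4⁻¹ ^ j * QQ u s h' b E x (Cl ν u h D M x j) ω
          ∂(iidEnvironmentLaw ν) := by
  calc ∑' γ, (if γ ∈ YY u h' b E x then aw ν γ *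
        ∑' π, (if IsUp u h π ∧ (∃ y ∈ sitesL 0 π, y ∈ sitesL x γ) ∧
          (∀ y ∈ sitesL 0 π, y ∈ sitesL x γ → (s : ℤ) ≤ lev u y) then
          D (x - endp 0 π) * aw ν π else 0) else 0)
      ≤ ∑' γ, (if γ ∈ YY u h' b E x then aw ν γ *
        ∑' π, (if π ∈ HH u s x γ then ∑' j : ℕ, M * 4⁻¹ ^ j *
          (if π ∈ Cl ν u h D M x j then aw ν π else 0) else 0) else 0) := by
        refine ENNReal.tsum_le_tsum fun γ => ?_
        split_ifs with hγ
        · refine mul_le_mul_right ((hit_split ν u h s D x γ).trans ?_) _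
          refine ENNReal.tsum_le_tsum fun π => ?_
          split_ifs
          · exact RR_le_classes ν u h D M hM hD x π
          · exact le_rfl
        · exact le_rfl
    _ = ∑' γ, ∑' j : ℕ, M * 4⁻¹ ^ j * (if γ ∈ YY u h' b E x then aw ν γ *
        ∑' π, (if π ∈ HH u s x γ ∧ π ∈ Cl ν u h D M x j then aw ν π else 0) else 0) := by
        refine tsum_congr fun γ => ?_
        by_cases hγ : γ ∈ YY u h' b E x
        · simp only [hγ, if_true]
          have h1 : ∀ π, (if π ∈ HH u s x γ then ∑' j : ℕ, M * 4⁻¹ ^ j *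
              (if π ∈ Cl ν u h D M x j then aw ν π else 0) else 0)
              = ∑' j : ℕ, M * 4⁻¹ ^ j *
                (if π ∈ HH u s x γ ∧ π ∈ Cl ν u h D M x j then aw ν π else 0) := by
            intro π
            by_cases h2 : π ∈ HH u s x γ
            · simp only [h2, if_true, true_and]
            · simp only [h2, if_false, false_and, mul_zero, tsum_zero]
          simp_rw [h1]
          rw [ENNReal.tsum_comm, ← ENNReal.tsum_mul_left]
          refine tsum_congr fun j => ?_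
          rw [ENNReal.tsum_mul_left]
          ring
        · simp [hγ]
    _ = ∑' j : ℕ, M * 4⁻¹ ^ j * ∑' γ, (if γ ∈ YY u h' b E x then aw ν γ *
        ∑' π, (if π ∈ HH u s x γ ∧ π ∈ Cl ν u h D M x j then aw ν π else 0) else 0) := by
        rw [ENNReal.tsum_comm]
        refine tsum_congr fun j => ?_
        rw [ENNReal.tsum_mul_left]
    _ = ∑' j : ℕ, ∫⁻ ω, M * 4⁻¹ ^ j * QQ u s h' b E x (Cl ν u h D M x j) ω
          ∂(iidEnvironmentLaw ν) := by
        refine tsum_congr fun j => ?_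
        rw [int_QQ ν u s h' b E x (Cl ν u h D M x j),
          lintegral_const_mul _ (measurable_QQ u s h' b E x _)]
    _ = _ := by
        rw [lintegral_tsum]
        exact fun j => ((measurable_QQ u s h' b E x _).const_mul _).aemeasurable

open Classical in
lemma sum_FF (ν : Measure (Row d)) [IsProbabilityMeasure ν] (u : Step d) (h : ℕ)
    (D : Site d → ℝ≥0∞) (hD1 : ∑' z, D z ≤ 1) :
    ∑' x : Site d, ∑' ξ, FF ν u h D x ξ ≤ 1 := by
  rw [ENNReal.tsum_comm]
  calc ∑' ξ, ∑' x : Site d, FF ν u h D x ξ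
      ≤ ∑' ξ, (if ([] : List (Step d)) <+: ξ ∧ ξ ∈ {l : List (Step d) | IsUp u h l} then
          aw ν ξ else 0) := by
        refine ENNReal.tsum_le_tsum fun ξ => ?_
        unfold FF
        by_cases hξ : IsUp u h ξ
        · simp only [hξ, if_true, List.nil_prefix, Set.mem_ofPred_eq, and_self]
          rw [ENNReal.tsum_mul_right]
          have : ∑' x : Site d, D (x - endp 0 ξ) = ∑' z, D z :=
            (Equiv.subRight (endp 0 ξ)).tsum_eq D
          rw [this]
          calc (∑' z, D z) * aw ν ξ ≤ 1 * aw ν ξ := by gcongr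
            _ = _ := one_mul _
        · simp only [hξ, if_false, tsum_zero]; exact zero_le
    _ ≤ aw ν [] := kraft_rel ν (pf_up u h) []
    _ = 1 := by unfold aw; simp [lw]

open Classical in
/-- the classes: Doob in words -/
lemma class_le (ν : Measure (Row d)) [IsProbabilityMeasure ν] (u : Step d) (h : ℕ)
    (D : Site d → ℝ≥0∞) (M : ℝ≥0∞) (x : Site d) (j : ℕ) :
    (M * 4⁻¹ ^ (j + 1)) * ∫⁻ ω, (∑' π, if π ∈ Mn (Cl ν u h D M x j) then lw ω 0 π else 0)
      ∂(iidEnvironmentLaw ν) ≤ ∑' ξ, FF ν u h D x ξ := by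
  have h1 : ∫⁻ ω, (∑' π, if π ∈ Mn (Cl ν u h D M x j) then lw ω 0 π else 0)
      ∂(iidEnvironmentLaw ν) = ∑' π, (if π ∈ Mn (Cl ν u h D M x j) then aw ν π else 0) := by
    rw [lintegral_tsum]
    · refine tsum_congr fun π => ?_
      split_ifs
      · rfl
      · simp
    · intro π
      split_ifs
      · exact (measurable_lw 0 π).aemeasurable
      · exact aemeasurable_const
  rw [h1]
  refine ville (pf_Mn _) (aw ν) (FF ν u h D x) _ fun γ hγ => ?_
  refine (hγ.1 : M * 4⁻¹ ^ (j + 1) * aw ν γ ≤ RR ν u h D x γ).trans (le_of_eq ?_)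
  unfold RR
  refine tsum_congr fun ξ => ?_
  congr

open Classical in
lemma turn_le (ν : Measure (Row d)) [IsProbabilityMeasure ν] (u : Step d) (s : ℕ) (b : ℤ)
    (E : Finset (Site d)) :
    ∑' x : Site d, ∫⁻ ω, (∑' ξ, (if ξ ∈ BB u s b ∧ endp 0 ξ - x ∈ E then lw ω 0 ξ else 0))
      ∂(iidEnvironmentLaw ν) = E.card * UB ν u s b := by
  have h1 : ∀ x : Site d, ∫⁻ ω, (∑' ξ, (if ξ ∈ BB u s b ∧ endp 0 ξ - x ∈ E then
      lw ω 0 ξ else 0)) ∂(iidEnvironmentLaw ν)
      = ∑' ξ, (if ξ ∈ BB u s b ∧ endp 0 ξ - x ∈ E then aw ν ξ else 0) := by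
    intro x
    rw [lintegral_tsum]
    · refine tsum_congr fun π => ?_
      split_ifs
      · rfl
      · simp
    · intro π
      split_ifs
      · exact (measurable_lw 0 π).aemeasurable
      · exact aemeasurable_const
  simp_rw [h1]
  rw [ENNReal.tsum_comm]
  unfold UB
  rw [← ENNReal.tsum_mul_left]
  refine tsum_congr fun ξ => ?_
  by_cases hξ : ξ ∈ BB u s b
  · simp only [hξ, true_and, if_true]
    have h2 : ∑' x : Site d, (if endp 0 ξ - x ∈ E then aw ν ξ else 0)
        = ∑' z : Site d, (if z ∈ E then aw ν ξ else 0) :=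
      (Equiv.subLeft (endp 0 ξ)).tsum_eq fun z => if z ∈ E then aw ν ξ else 0
    rw [h2, tsum_eq_sum (s := E) (fun z hz => if_neg hz)]
    rw [Finset.sum_congr rfl (fun z hz => if_pos hz), Finset.sum_const, nsmul_eq_mul]
  · simp [hξ]

open Classical in
/-- W3 with a finite density bound -/
theorem W3_aux (ν : Measure (Row d)) [IsProbabilityMeasure ν] (u : Step d) (h h' s : ℕ) (l0 : ℤ)
    (E : Finset (Site d)) (D : Site d → ℝ≥0∞) (M lam : ℝ≥0∞) (hM : M ≠ ⊤) (hD : ∀ z, D z ≤ M)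
    (hD1 : ∑' z, D z ≤ 1) (hlev : ∀ z, D z ≠ 0 → lev u z = l0) (h0 : lam ≠ 0) (ht : lam ≠ ⊤)
    (hl : l0 - h' < -(h : ℤ)) :
    ∑' z, D z * ∑' π, ∑' γ, (if IsUp u h π ∧ endp 0 γ ∈ E ∧ IsDn u h' γ ∧
        (∃ y ∈ sitesL (-endp 0 π) π, y ∈ sitesL z γ) ∧
        (∀ y ∈ sitesL (-endp 0 π) π, y ∈ sitesL z γ → -(h : ℤ) + s ≤ lev u y) then
        aw ν π * aw ν γ else 0)
      ≤ 8 * lam + 2 * (M * (E.card * UB ν u s (h + l0 - h')) / lam) := by
  set b : ℤ := h + l0 - h' with hb
  have hb0 : b < 0 := by omega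
  -- shift
  have hsh : ∀ (π : List (Step d)) (y : Site d), y ∈ sitesL (-endp 0 π) π ↔
      y + endp 0 π ∈ sitesL 0 π := by
    intro π y
    rw [mem_sitesL_zero π (-endp 0 π) y, sub_neg_eq_add]
  have hstep : ∑' z, D z * ∑' π, ∑' γ, (if IsUp u h π ∧ endp 0 γ ∈ E ∧ IsDn u h' γ ∧
        (∃ y ∈ sitesL (-endp 0 π) π, y ∈ sitesL z γ) ∧
        (∀ y ∈ sitesL (-endp 0 π) π, y ∈ sitesL z γ → -(h : ℤ) + s ≤ lev u y) then
        aw ν π * aw ν γ else 0)
      ≤ ∑' x : Site d, ∑' γ, (if γ ∈ YY u h' b E x then aw ν γ *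
        ∑' π, (if IsUp u h π ∧ (∃ y ∈ sitesL 0 π, y ∈ sitesL x γ) ∧
          (∀ y ∈ sitesL 0 π, y ∈ sitesL x γ → (s : ℤ) ≤ lev u y) then
          D (x - endp 0 π) * aw ν π else 0) else 0) := by
    have e1 : ∀ z, D z * ∑' π, ∑' γ, (if IsUp u h π ∧ endp 0 γ ∈ E ∧ IsDn u h' γ ∧
        (∃ y ∈ sitesL (-endp 0 π) π, y ∈ sitesL z γ) ∧
        (∀ y ∈ sitesL (-endp 0 π) π, y ∈ sitesL z γ → -(h : ℤ) + s ≤ lev u y) then
        aw ν π * aw ν γ else 0)
        = ∑' π, ∑' γ, D z * (if IsUp u h π ∧ endp 0 γ ∈ E ∧ IsDn u h' γ ∧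
        (∃ y ∈ sitesL (-endp 0 π) π, y ∈ sitesL z γ) ∧
        (∀ y ∈ sitesL (-endp 0 π) π, y ∈ sitesL z γ → -(h : ℤ) + s ≤ lev u y) then
        aw ν π * aw ν γ else 0) := by
      intro z
      rw [← ENNReal.tsum_mul_left]
      exact tsum_congr fun π => ENNReal.tsum_mul_left.symm
    simp_rw [e1]
    rw [ENNReal.tsum_comm]
    have e2 : ∀ x : Site d, ∑' γ, (if γ ∈ YY u h' b E x then aw ν γ *
        ∑' π, (if IsUp u h π ∧ (∃ y ∈ sitesL 0 π, y ∈ sitesL x γ) ∧
          (∀ y ∈ sitesL 0 π, y ∈ sitesL x γ → (s : ℤ) ≤ lev u y) then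
          D (x - endp 0 π) * aw ν π else 0) else 0)
        = ∑' π, ∑' γ, (if γ ∈ YY u h' b E x then aw ν γ *
          (if IsUp u h π ∧ (∃ y ∈ sitesL 0 π, y ∈ sitesL x γ) ∧
          (∀ y ∈ sitesL 0 π, y ∈ sitesL x γ → (s : ℤ) ≤ lev u y) then
          D (x - endp 0 π) * aw ν π else 0) else 0) := by
      intro x
      rw [ENNReal.tsum_comm]
      refine tsum_congr fun γ => ?_
      by_cases hγ : γ ∈ YY u h' b E x
      · simp only [hγ, if_true]
        rw [ENNReal.tsum_mul_left]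
      · simp [hγ]
    simp_rw [e2]
    rw [ENNReal.tsum_comm (α := Site d)]
    refine ENNReal.tsum_le_tsum fun π => ?_
    have e3 : ∀ f : Site d → ℝ≥0∞, ∑' z, f z = ∑' x : Site d, f (x - endp 0 π) := fun f =>
      ((Equiv.subRight (endp 0 π)).tsum_eq f).symm
    rw [e3]
    refine ENNReal.tsum_le_tsum fun x => ?_
    refine ENNReal.tsum_le_tsum fun γ => ?_
    by_cases hD0 : D (x - endp 0 π) = 0
    · rw [hD0, zero_mul]; exact zero_le
    · by_cases hc : IsUp u h π ∧ endp 0 γ ∈ E ∧ IsDn u h' γ ∧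
        (∃ y ∈ sitesL (-endp 0 π) π, y ∈ sitesL (x - endp 0 π) γ) ∧
        (∀ y ∈ sitesL (-endp 0 π) π, y ∈ sitesL (x - endp 0 π) γ → -(h : ℤ) + s ≤ lev u y)
      · rw [if_pos hc]
        obtain ⟨c1, c2, c3, ⟨y, c4, c5⟩, c6⟩ := hc
        have hy : ∀ y : Site d, y ∈ sitesL (x - endp 0 π) γ ↔ y + endp 0 π ∈ sitesL x γ := by
          intro y
          rw [mem_sitesL_zero γ (x - endp 0 π) y, mem_sitesL_zero γ x (y + endp 0 π)]
          rw [show y - (x - endp 0 π) = y + endp 0 π - x by abel]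
        have hlx := hlev _ hD0
        rw [lev_sub, c1.2] at hlx
        rw [if_pos (show γ ∈ YY u h' b E x from ⟨by omega, c3, c2⟩),
          if_pos ⟨c1, ⟨y + endp 0 π, (hsh π y).1 c4, (hy y).1 c5⟩, fun w hw hw' => by
            have h1 := c6 (w - endp 0 π) ((hsh π _).2 (by rwa [sub_add_cancel]))
              ((hy _).2 (by rwa [sub_add_cancel]))
            rw [lev_sub, c1.2] at h1
            omega⟩]
        refine le_of_eq ?_
        ring
      · rw [if_neg hc, mul_zero]; exact zero_le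
  refine hstep.trans ((ENNReal.tsum_le_tsum fun x => per_x ν u h h' s b E D M hM hD x).trans ?_)
  refine Dyad431.dyad_sum (iidEnvironmentLaw ν) M lam E.card (UB ν u s b) h0 ht
    (fun x ω => ∑' j : ℕ, M * 4⁻¹ ^ j * QQ u s h' b E x (Cl ν u h D M x j) ω)
    (fun x j ω => ∑' π, if π ∈ Mn (Cl ν u h D M x j) then lw ω 0 π else 0)
    (fun x j ω => (lam * 2⁻¹ ^ j)⁻¹ *
      ∑' ξ, (if ξ ∈ BB u s b ∧ endp 0 ξ - x ∈ E then lw ω 0 ξ else 0))
    (fun x => ∑' ξ, FF ν u h D x ξ) ?_ ?_ ?_ ?_ ?_ (sum_FF ν u h D hD1)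
  · intro x j
    refine Measurable.ennreal_tsum fun π => ?_
    split_ifs
    · exact measurable_lw 0 π
    · exact measurable_const
  · intro x j
    refine Measurable.const_mul (Measurable.ennreal_tsum fun π => ?_) _
    split_ifs
    · exact measurable_lw 0 π
    · exact measurable_const
  · intro x ω
    refine ENNReal.tsum_le_tsum fun j => ?_
    refine mul_le_mul_right ?_ _
    exact quenched ω u s h' b hb0 E x (lam * 2⁻¹ ^ j)
      (mul_ne_zero h0 (pow_ne_zero _ (by simp))) (ENNReal.mul_ne_top ht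
        (ENNReal.pow_ne_top (by simp))) _
  · intro x j
    exact class_le ν u h D M x j
  · intro j
    have hj0 : lam * 2⁻¹ ^ j ≠ 0 := mul_ne_zero h0 (pow_ne_zero _ (by simp))
    have hjt : lam * 2⁻¹ ^ j ≠ ⊤ := ENNReal.mul_ne_top ht (ENNReal.pow_ne_top (by simp))
    have e1 : ∀ x : Site d, ∫⁻ ω, (lam * 2⁻¹ ^ j)⁻¹ *
        ∑' ξ, (if ξ ∈ BB u s b ∧ endp 0 ξ - x ∈ E then lw ω 0 ξ else 0) ∂(iidEnvironmentLaw ν)
        = (lam * 2⁻¹ ^ j)⁻¹ * ∫⁻ ω, (∑' ξ, (if ξ ∈ BB u s b ∧ endp 0 ξ - x ∈ E then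
          lw ω 0 ξ else 0)) ∂(iidEnvironmentLaw ν) := by
      intro x
      rw [lintegral_const_mul]
      refine Measurable.ennreal_tsum fun π => ?_
      split_ifs
      · exact measurable_lw 0 π
      · exact measurable_const
    simp_rw [e1]
    rw [ENNReal.tsum_mul_left, turn_le, ← mul_assoc, ENNReal.mul_inv_cancel hj0 hjt, one_mul]

/-! ### turning words and path events -/

open Crest.Agent.R154.Flux566 (Fol fol_ge measurableSet_Fol)
open Crest.Agent.R154.Surg802 (fol_spec tsum_fol_le)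

lemma fol_append (l l' : List (Step d)) (B : Set (Path d)) (X : Path d)
    (h : X ∈ Fol (l ++ l') B) : X ∈ Fol l (Fol l' B) := by
  induction l generalizing X with
  | nil => exact h
  | cons e l ih =>
    obtain ⟨h1, h2⟩ := h
    exact ⟨h1, ih _ h2⟩

open Classical in
/-- prefix-free words, all of them inside the event `T` -/
lemma pf_event (ν : Measure (Row d)) [IsProbabilityMeasure ν] (W : Set (List (Step d)))
    (hW : PF W) (T : Set (Path d))
    (hT : ∀ l ∈ W, ∀ X : Path d, X 0 = 0 → (∀ l1 l2, l = l1 ++ l2 → X l1.length = endp 0 l1) →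
      X ∈ T) :
    ∑' l, (if l ∈ W then aw ν l else 0) ≤ annealedProb (iidEnvironmentLaw ν) 0 T := by
  have h1 : ∀ ξ : List (Step d), (if ξ ∈ W then aw ν ξ else 0)
      = ∫⁻ ω, (if ξ ∈ W then lw ω 0 ξ else 0) ∂(iidEnvironmentLaw ν) := by
    intro ξ
    split_ifs
    · rfl
    · simp
  simp_rw [h1]
  rw [← lintegral_tsum]
  · refine lintegral_mono fun ω => ?_
    have h2 := tsum_fol_le ω 0 (fun l => l ∈ W) (fun l l' h h' hp => hW l h l' h' hp)
      (B := Set.univ) MeasurableSet.univ T (fun l hl X hX0 hX => hT l hl X hX0 (by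
        rintro l1 l2 rfl
        have := (fol_spec l1 _ X (fol_append l1 l2 _ X hX)).2.1
        rwa [hX0] at this))
    refine le_trans (le_of_eq ?_) h2
    have h3 : ∀ l : {l : List (Step d) // l ∈ W},
        lw ω 0 l.1 * quenchedLaw ω (endp 0 l.1) Set.univ = lw ω 0 l.1 := by
      intro l
      rw [measure_univ, mul_one]
    simp_rw [h3]
    rw [tsum_subtype W (fun l => lw ω 0 l)]
    refine tsum_congr fun l => ?_
    by_cases hl : l ∈ W
    · rw [if_pos hl, Set.indicator_of_mem hl]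
    · rw [if_neg hl, Set.indicator_of_notMem hl]
  · intro ξ
    split_ifs
    · exact (measurable_lw 0 ξ).aemeasurable
    · exact aemeasurable_const

lemma UB_le (ν : Measure (Row d)) [IsProbabilityMeasure ν] (u : Step d) (s : ℕ) (b : ℤ)
    (hb : b < 0) :
    UB ν u s b ≤ annealedProb (iidEnvironmentLaw ν) 0
      {X | ∃ j k, j ≤ k ∧ (s : ℤ) ≤ lev u (X j) ∧ lev u (X k) ≤ 0} := by
  classical
  unfold UB
  refine le_trans (le_of_eq (tsum_congr fun ξ => ?_)) (pf_event ν (BB u s b) (pf_BB u s b) _ ?_)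
  · congr
  · rintro l ⟨_, h2, y, hy, hys⟩ X _ hX
    obtain ⟨l1, l2, h3, _, h5⟩ := mem_prefix hy
    refine ⟨l1.length, l.length, ?_, ?_, ?_⟩
    · rw [h3, List.length_append]; omega
    · rw [hX l1 l2 h3, h5]; exact hys
    · rw [hX l [] (by simp), h2]; omega

open Classical in
/-- **W3** in helper804's literal -/
theorem W3 (ν : Measure (Row d)) [IsProbabilityMeasure ν] (u : Step d) (h h' s : ℕ) (l0 : ℤ)
    (E : Finset (Site d)) (D : Site d → ℝ≥0∞) (M lam : ℝ≥0∞) (hD : ∀ z, D z ≤ M)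
    (hD1 : ∑' z, D z ≤ 1) (hlev : ∀ z, D z ≠ 0 → lev u z = l0) (h0 : lam ≠ 0) (ht : lam ≠ ⊤)
    (hl : l0 - h' < -(h : ℤ)) :
    ∑' z, D z * ∑' π, ∑' γ, (if IsUp u h π ∧ endp 0 γ ∈ E ∧ IsDn u h' γ ∧
        (∃ y ∈ sitesL (-endp 0 π) π, y ∈ sitesL z γ) ∧
        (∀ y ∈ sitesL (-endp 0 π) π, y ∈ sitesL z γ → -(h : ℤ) + s ≤ lev u y) then
        aw ν π * aw ν γ else 0)
      ≤ 8 * lam + 8 * M * E.card * annealedProb (iidEnvironmentLaw ν) 0
          {X | ∃ j k, j ≤ k ∧ (s : ℤ) ≤ lev u (X j) ∧ lev u (X k) ≤ 0} / lam := by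
  have hm : ∀ z, D z ≤ min M 1 := fun z => le_min (hD z) ((ENNReal.le_tsum z).trans hD1)
  refine (W3_aux ν u h h' s l0 E D (min M 1) lam
    (ne_top_of_le_ne_top ENNReal.one_ne_top (min_le_right _ _)) hm hD1 hlev h0 ht hl).trans ?_
  refine add_le_add le_rfl ?_
  rw [← mul_div_assoc]
  refine ENNReal.div_le_div_right ?_ _
  calc 2 * (min M 1 * (E.card * UB ν u s (h + l0 - h')))
      ≤ 8 * (M * (E.card * annealedProb (iidEnvironmentLaw ν) 0
          {X | ∃ j k, j ≤ k ∧ (s : ℤ) ≤ lev u (X j) ∧ lev u (X k) ≤ 0})) := by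
        gcongr
        · norm_num
        · exact min_le_left _ _
        · exact UB_le ν u s _ (by omega)
    _ = _ := by ring

/-! ### W2: X local, Y any -/

/-- X's words: up, height `h`, displacement in `E` -/
def XX (u : Step d) (h : ℕ) (E : Finset (Site d)) : Set (List (Step d)) :=
  {π | IsUp u h π ∧ endp 0 π ∈ E}

/-- continuations which land in `E` at the first visit of level `h` -/
def C2 (u : Step d) (h : ℕ) (E : Finset (Site d)) (v : Site d) : Set (List (Step d)) :=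
  {ρ | (∀ y ∈ sitesL v ρ, lev u y < h) ∧ lev u (endp v ρ) = h ∧ endp v ρ ∈ E}

/-- first hit of the sites of `π`, from `y` -/
def H2 (u : Step d) (s : ℕ) (y : Site d) (π : List (Step d)) : Set (List (Step d)) :=
  {γ | endp y γ ∈ sitesL 0 π ∧ (∀ z ∈ sitesL y γ, z ∉ sitesL 0 π) ∧
    (∀ z ∈ sitesL y γ, lev u z ≤ lev u y) ∧ lev u (endp y γ) ≤ lev u y - s}

/-- turning words -/
def B2 (u : Step d) (s : ℕ) (l0 : ℤ) : Set (List (Step d)) :=
  {ξ | (∀ z ∈ sitesL 0 ξ, lev u z < -l0) ∧ lev u (endp 0 ξ) = -l0 ∧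
    ∃ z ∈ sitesL 0 ξ, lev u z ≤ -(s : ℤ)}

lemma pf_XX (u : Step d) (h : ℕ) (E : Finset (Site d)) : PF (XX u h E) :=
  (pf_up u h).mono fun _ hl => hl.1

lemma pf_H2 (u : Step d) (s : ℕ) (y : Site d) (π : List (Step d)) : PF (H2 u s y π) := by
  intro l hl l' hl' hp
  by_contra hne
  exact hl'.2.1 _ (endp_mem_of_lt y hp hne) hl.1

lemma pf_B2 (u : Step d) (s : ℕ) (l0 : ℤ) : PF (B2 u s l0) := by
  intro l hl l' hl' hp
  by_contra hne
  have h1 := hl'.1 _ (endp_mem_of_lt 0 hp hne)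
  rw [hl.2.1] at h1
  exact absurd h1 (lt_irrefl _)

lemma XX_C2 {u : Step d} {h : ℕ} {E : Finset (Site d)} (γ ρ : List (Step d))
    (hx : γ ++ ρ ∈ XX u h E) : ρ ∈ C2 u h E (endp 0 γ) := by
  obtain ⟨h2, h3⟩ := hx
  refine ⟨fun y hy => ?_, ?_, ?_⟩
  · exact (h2.1 y (by rw [sitesL_append, List.mem_append]; exact Or.inr hy)).2
  · rw [← endp_append, h2.2]
  · rw [← endp_append]; exact h3

open Classical in
/-- the quenched bound of W2 -/
lemma quenched2 (ω : Environment d) (u : Step d) (s h : ℕ) (l0 : ℤ) (hl0 : l0 ≤ -1)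
    (E : Finset (Site d)) (D : Site d → ℝ≥0∞) (M : ℝ≥0∞) (hD : ∀ z, D z ≤ M)
    (hD1 : ∑' z, D z ≤ 1) (hlev : ∀ z, D z ≠ 0 → lev u z = l0)
    (lam : ℝ≥0∞) (h0 : lam ≠ 0) (ht : lam ≠ ⊤) :
    ∑' π, (if π ∈ XX u h E then
        lw ω 0 π * ∑' y : Site d, D (y - endp 0 π) *
          ∑' γ, (if γ ∈ H2 u s y π then lw ω y γ else 0) else 0)
      ≤ lam + M * (lam⁻¹ * ∑' y : Site d, ∑' ξ, (if ξ ∈ B2 u s l0 ∧ y + endp 0 ξ ∈ E then
          lw ω y ξ else 0)) := by
  set e : Site d → ℝ≥0∞ := fun v => ∑' ρ, (if ρ ∈ C2 u h E v then lw ω v ρ else 0) with he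
  set G : Site d → Set (List (Step d)) := fun y => {γ | lev u y = h + l0 ∧
    (∀ z ∈ sitesL y γ, lev u z ≤ lev u y) ∧
    lev u (endp y γ) ≤ lev u y - s ∧ lam < e (endp y γ)} with hG
  set H : Site d → ℝ≥0∞ := fun y => ∑' γ, if γ ∈ Mn (G y) then lw ω y γ else 0 with hH
  set Bad : Set (Site d) := {v | e v ≤ lam} with hBad
  have hin : ∀ π y, D (y - endp 0 π) ≠ 0 → π ∈ XX u h E →
      ∑' γ, (if γ ∈ H2 u s y π then lw ω y γ else 0)
      ≤ (if ∃ γ', γ' <+: π ∧ endp 0 γ' ∈ Bad then 1 else 0) + H y := by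
    intro π y hDy hπ
    have hly : lev u y = h + l0 := by
      have h1 := hlev _ hDy
      rw [lev_sub, hπ.1.2] at h1
      omega
    have h1 : ∑' γ, (if γ ∈ H2 u s y π then lw ω y γ else 0)
        ≤ ∑' γ, (if γ ∈ {γ | γ ∈ H2 u s y π ∧ endp y γ ∈ Bad} then lw ω y γ else 0) +
          ∑' γ, (if γ ∈ {γ | γ ∈ H2 u s y π ∧ endp y γ ∉ Bad} then lw ω y γ else 0) := by
      rw [← ENNReal.tsum_add]
      refine ENNReal.tsum_le_tsum fun γ => ?_
      by_cases h2 : γ ∈ H2 u s y π
      · by_cases h3 : endp y γ ∈ Bad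
        · rw [if_pos h2, if_pos (show γ ∈ {γ | γ ∈ H2 u s y π ∧ endp y γ ∈ Bad} from ⟨h2, h3⟩)]
          exact le_self_add
        · rw [if_pos h2, if_pos (show γ ∈ {γ | γ ∈ H2 u s y π ∧ endp y γ ∉ Bad} from ⟨h2, h3⟩)]
          exact le_add_self
      · rw [if_neg h2]; exact zero_le
    refine h1.trans (add_le_add ?_ ?_)
    · by_cases hv : ∃ γ', γ' <+: π ∧ endp 0 γ' ∈ Bad
      · rw [if_pos hv]
        refine le_trans (le_of_eq (tsum_congr fun γ => ?_))
          (kraft ω y (W := {γ | γ ∈ H2 u s y π ∧ endp y γ ∈ Bad})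
          (fun l hl l' hl' hp => pf_H2 u s y π l hl.1 l' hl'.1 hp))
        congr
      · rw [if_neg hv]
        refine le_of_eq (ENNReal.tsum_eq_zero.2 fun γ => ?_)
        rw [if_neg]
        rintro ⟨h2, h3⟩
        obtain ⟨l1, l2, h4, h5, h6⟩ := mem_prefix h2.1
        exact hv ⟨l1, ⟨l2, h4.symm⟩, by rw [h6]; exact h3⟩
    · refine le_trans (le_of_eq (tsum_congr fun γ => ?_))
        (maj ω y (P := {γ | γ ∈ H2 u s y π ∧ endp y γ ∉ Bad}) (G := G y)
        (fun l hl l' hl' hp => pf_H2 u s y π l hl.1 l' hl'.1 hp)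
        (fun l hl => ⟨hly, hl.1.2.2.1, hl.1.2.2.2, not_le.1 hl.2⟩))
      congr
  have hHle : ∀ y, H y ≤ lam⁻¹ * ∑' ξ, (if ξ ∈ B2 u s l0 ∧ y + endp 0 ξ ∈ E then
      lw ω y ξ else 0) := by
    intro y
    have h1 : lam * H y ≤ ∑' ξ, (if ξ ∈ B2 u s l0 ∧ y + endp 0 ξ ∈ E then lw ω y ξ else 0) := by
      refine ville (pf_Mn (G y)) (fun l => lw ω y l) _ lam fun γ hγ => ?_
      obtain ⟨hγ0, hγ1, hγ2, hγ3⟩ := hγ.1
      refine le_trans (b := ∑' ξ, (fun ξ => if γ <+: ξ then
              (if ξ ∈ B2 u s l0 ∧ y + endp 0 ξ ∈ E then lw ω y ξ else 0) else 0) ξ) ?_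
        (le_of_eq (tsum_congr fun ξ => by congr))
      calc lam * lw ω y γ ≤ e (endp y γ) * lw ω y γ := by gcongr
        _ = ∑' ρ, (if ρ ∈ C2 u h E (endp y γ) then lw ω y (γ ++ ρ) else 0) := by
            rw [he, ← ENNReal.tsum_mul_right]
            refine tsum_congr fun ρ => ?_
            split_ifs
            · rw [lw_append, mul_comm]
            · rw [zero_mul]
        _ ≤ ∑' ρ, (fun ξ => if γ <+: ξ then
              (if ξ ∈ B2 u s l0 ∧ y + endp 0 ξ ∈ E then lw ω y ξ else 0) else 0) (γ ++ ρ) := by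
            refine ENNReal.tsum_le_tsum fun ρ => ?_
            by_cases hρ : ρ ∈ C2 u h E (endp y γ)
            · obtain ⟨hρ1, hρ2, hρ3⟩ := hρ
              have hne : ρ ≠ [] := by
                rintro rfl
                simp only [endp] at hρ2
                omega
              have hmem : endp y γ ∈ sitesL y (γ ++ ρ) :=
                endp_mem_of_lt y (List.prefix_append γ ρ) (fun h => hne (by
                  have := congrArg List.length h
                  simp only [List.length_append] at this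
                  exact List.length_eq_zero_iff.1 (by omega)))
              have hBB : (γ ++ ρ) ∈ B2 u s l0 ∧ y + endp 0 (γ ++ ρ) ∈ E := by
                refine ⟨⟨fun z hz => ?_, ?_, endp y γ - y, ?_, ?_⟩, ?_⟩
                · have hz' : z + y ∈ sitesL y (γ ++ ρ) := by
                    rw [mem_sitesL_zero, add_sub_cancel_right]; exact hz
                  rw [sitesL_append, List.mem_append] at hz'
                  rcases hz' with hz' | hz'
                  · have := hγ1 _ hz'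
                    rw [lev_add] at this
                    omega
                  · have := hρ1 _ hz'
                    rw [lev_add] at this
                    omega
                · have h5 : lev u (endp y (γ ++ ρ)) = h := by rw [endp_append]; exact hρ2
                  rw [endp_eq_add, lev_add] at h5
                  omega
                · rw [mem_sitesL_zero] at hmem; exact hmem
                · rw [lev_sub]; omega
                · rw [← endp_eq_add, endp_append]; exact hρ3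
              rw [if_pos ⟨hρ1, hρ2, hρ3⟩]
              simp only [List.prefix_append, if_true]
              rw [if_pos hBB]
            · rw [if_neg hρ]; exact zero_le
        _ ≤ ∑' ξ, (fun ξ => if γ <+: ξ then
              (if ξ ∈ B2 u s l0 ∧ y + endp 0 ξ ∈ E then lw ω y ξ else 0) else 0) ξ :=
            ENNReal.tsum_comp_le_tsum_of_injective (f := fun ρ : List (Step d) => γ ++ ρ)
              (fun a b h => List.append_cancel_left h)
              (fun ξ => if γ <+: ξ then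
              (if ξ ∈ B2 u s l0 ∧ y + endp 0 ξ ∈ E then lw ω y ξ else 0) else 0)
    calc H y = lam⁻¹ * (lam * H y) := by
          rw [← mul_assoc, ENNReal.inv_mul_cancel h0 ht, one_mul]
      _ ≤ _ := by gcongr
  have hper : ∀ π, (if π ∈ XX u h E then
        lw ω 0 π * ∑' y : Site d, D (y - endp 0 π) *
          ∑' γ, (if γ ∈ H2 u s y π then lw ω y γ else 0) else 0)
      ≤ (if π ∈ XX u h E ∧ (∃ γ', γ' <+: π ∧ endp 0 γ' ∈ Bad) then lw ω 0 π else 0) +
        (M * ∑' y, H y) * (if π ∈ XX u h E then lw ω 0 π else 0) := by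
    intro π
    by_cases hπ : π ∈ XX u h E
    · rw [if_pos hπ, if_pos hπ]
      have h1 : ∑' y : Site d, D (y - endp 0 π) *
          ∑' γ, (if γ ∈ H2 u s y π then lw ω y γ else 0)
          ≤ ∑' y : Site d, (D (y - endp 0 π) *
            (if ∃ γ', γ' <+: π ∧ endp 0 γ' ∈ Bad then 1 else 0) + M * H y) := by
        refine ENNReal.tsum_le_tsum fun y => ?_
        by_cases hDy : D (y - endp 0 π) = 0
        · rw [hDy, zero_mul]; exact zero_le
        · refine (mul_le_mul_right (hin π y hDy hπ) _).trans ?_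
          rw [mul_add]
          gcongr
          exact hD _
      have h2 : ∑' y : Site d, D (y - endp 0 π) ≤ 1 := by
        have : ∑' y : Site d, D (y - endp 0 π) = ∑' z, D z :=
          (Equiv.subRight (endp 0 π)).tsum_eq D
        rw [this]; exact hD1
      rw [ENNReal.tsum_add, ENNReal.tsum_mul_right, ENNReal.tsum_mul_left] at h1
      refine (mul_le_mul_right h1 _).trans ?_
      rw [mul_add]
      refine add_le_add ?_ (le_of_eq (mul_comm _ _))
      by_cases hv : ∃ γ', γ' <+: π ∧ endp 0 γ' ∈ Bad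
      · rw [if_pos hv, if_pos ⟨hπ, hv⟩, mul_one]
        calc lw ω 0 π * ∑' y : Site d, D (y - endp 0 π) ≤ lw ω 0 π * 1 := by gcongr
          _ = _ := mul_one _
      · rw [if_neg hv, mul_zero, mul_zero]; exact zero_le
    · rw [if_neg hπ]; exact zero_le
  refine (ENNReal.tsum_le_tsum hper).trans ?_
  rw [ENNReal.tsum_add, ENNReal.tsum_mul_left]
  refine add_le_add ?_ ?_
  · exact bad_le ω 0 (XX u h E) Bad (C2 u h E) lam (fun γ ρ2 h => XX_C2 γ ρ2 h) (fun v hv => hv)
  · calc M * (∑' y, H y) * ∑' π, (if π ∈ XX u h E then lw ω 0 π else 0)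
        ≤ M * (∑' y, H y) * 1 := by
          gcongr
          exact kraft ω 0 (pf_XX u h E)
      _ = M * ∑' y, H y := mul_one _
      _ ≤ _ := by
          gcongr
          rw [← ENNReal.tsum_mul_left]
          exact ENNReal.tsum_le_tsum hHle

open Classical in
lemma hit_split2 (ν : Measure (Row d)) [IsProbabilityMeasure ν] (u : Step d) (h' s : ℕ)
    (y : Site d) (π : List (Step d)) :
    ∑' γ, (if IsDn u h' γ ∧ (∃ z ∈ sitesL 0 π, z ∈ sitesL y γ) ∧
        (∀ z ∈ sitesL 0 π, z ∈ sitesL y γ → lev u z ≤ lev u y - s) then aw ν γ else 0)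
      ≤ ∑' γ1, (if γ1 ∈ H2 u s y π then aw ν γ1 else 0) := by
  calc ∑' γ, (if IsDn u h' γ ∧ (∃ z ∈ sitesL 0 π, z ∈ sitesL y γ) ∧
        (∀ z ∈ sitesL 0 π, z ∈ sitesL y γ → lev u z ≤ lev u y - s) then aw ν γ else 0)
      ≤ ∑' γ, ∑' γ1, (if γ1 ∈ H2 u s y π then (if γ1 <+: γ ∧ γ ∈ {l | IsDn u h' l} then
          aw ν γ else 0) else 0) := by
        refine ENNReal.tsum_le_tsum fun γ => ?_
        by_cases hc : IsDn u h' γ ∧ (∃ z ∈ sitesL 0 π, z ∈ sitesL y γ) ∧
          (∀ z ∈ sitesL 0 π, z ∈ sitesL y γ → lev u z ≤ lev u y - s)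
        · rw [if_pos hc]
          obtain ⟨hdn, ⟨z, hz1, hz2⟩, hall⟩ := hc
          obtain ⟨l1, l2, h1, h2, h3⟩ := mem_prefix hz2
          obtain ⟨γ1, h4, h5⟩ := exists_First y {z | z ∈ sitesL 0 π} l1
            ⟨l1, List.prefix_rfl, by rw [h3]; exact hz1⟩
          have h6 : γ1 <+: γ := h5.trans ⟨l2, h1.symm⟩
          have h7 : endp y γ1 ∈ sitesL y γ := by
            refine endp_mem_of_lt y h6 fun e => h2 ?_
            have h8 := h5.length_le
            rw [e, h1, List.length_append] at h8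
            exact List.length_eq_zero_iff.1 (by omega)
          have hmem : γ1 ∈ H2 u s y π := by
            refine ⟨h4.1, fun z hz hz' => ?_, fun z hz => ?_, hall _ h4.1 h7⟩
            · obtain ⟨a1, a2, e1, e2, e3⟩ := mem_prefix hz
              refine h4.2 a1 ⟨a2, e1.symm⟩ (fun e => e2 ?_) (by rw [e3]; exact hz')
              have h8 := congrArg List.length e1
              rw [e, List.length_append] at h8
              exact List.length_eq_zero_iff.1 (by omega)
            · obtain ⟨a2, e1⟩ := h6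
              have h9 : z ∈ sitesL y γ := by
                rw [← e1, sitesL_append, List.mem_append]
                exact Or.inl hz
              have h10 := (hdn.1 _ ((mem_sitesL_zero _ y z).1 h9)).2
              rw [lev_sub] at h10
              omega
          refine le_trans (le_of_eq ?_) (ENNReal.le_tsum γ1)
          rw [if_pos hmem, if_pos ⟨h6, hdn⟩]
        · rw [if_neg hc]; exact zero_le
    _ = ∑' γ1, ∑' γ, (if γ1 ∈ H2 u s y π then (if γ1 <+: γ ∧ γ ∈ {l | IsDn u h' l} then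
          aw ν γ else 0) else 0) := ENNReal.tsum_comm
    _ ≤ _ := by
        refine ENNReal.tsum_le_tsum fun γ1 => ?_
        by_cases h1 : γ1 ∈ H2 u s y π
        · simp only [h1, if_true]
          refine le_trans (le_of_eq (tsum_congr fun γ => ?_)) (kraft_rel ν (pf_dn u h') γ1)
          congr
        · simp [h1]

open Classical in
/-- weight of the turning words -/
noncomputable def UB2 (ν : Measure (Row d)) [IsProbabilityMeasure ν] (u : Step d) (s : ℕ)
    (l0 : ℤ) : ℝ≥0∞ := ∑' ξ, if ξ ∈ B2 u s l0 then aw ν ξ else 0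

lemma UB2_le (ν : Measure (Row d)) [IsProbabilityMeasure ν] (u : Step d) (s : ℕ) (l0 : ℤ)
    (hl0 : l0 ≤ -1) :
    UB2 ν u s l0 ≤ annealedProb (iidEnvironmentLaw ν) 0
      {X | ∃ j k, j ≤ k ∧ lev u (X j) ≤ -(s : ℤ) ∧ 0 ≤ lev u (X k)} := by
  classical
  unfold UB2
  refine le_trans (le_of_eq (tsum_congr fun ξ => ?_)) (pf_event ν (B2 u s l0) (pf_B2 u s l0) _ ?_)
  · congr
  · rintro l ⟨_, h2, y, hy, hys⟩ X _ hX
    obtain ⟨l1, l2, h3, _, h5⟩ := mem_prefix hy
    refine ⟨l1.length, l.length, ?_, ?_, ?_⟩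
    · rw [h3, List.length_append]; omega
    · rw [hX l1 l2 h3, h5]; exact hys
    · rw [hX l [] (by simp), h2]; omega

open Classical in
lemma turn2_le (ν : Measure (Row d)) [IsProbabilityMeasure ν] (u : Step d) (s : ℕ) (l0 : ℤ)
    (E : Finset (Site d)) :
    ∫⁻ ω, (∑' y : Site d, ∑' ξ, (if ξ ∈ B2 u s l0 ∧ y + endp 0 ξ ∈ E then lw ω y ξ else 0))
      ∂(iidEnvironmentLaw ν) = E.card * UB2 ν u s l0 := by
  have hm : ∀ (y : Site d) (ξ : List (Step d)), Measurable fun ω : Environment d =>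
      (if ξ ∈ B2 u s l0 ∧ y + endp 0 ξ ∈ E then lw ω y ξ else 0) := by
    intro y ξ
    split_ifs
    · exact measurable_lw y ξ
    · exact measurable_const
  rw [lintegral_tsum (fun y => (Measurable.ennreal_tsum fun ξ => hm y ξ).aemeasurable)]
  have h1 : ∀ y : Site d, ∫⁻ ω, (∑' ξ, (if ξ ∈ B2 u s l0 ∧ y + endp 0 ξ ∈ E then
      lw ω y ξ else 0)) ∂(iidEnvironmentLaw ν)
      = ∑' ξ, (if ξ ∈ B2 u s l0 ∧ y + endp 0 ξ ∈ E then aw ν ξ else 0) := by
    intro y
    rw [lintegral_tsum (fun ξ => (hm y ξ).aemeasurable)]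
    refine tsum_congr fun ξ => ?_
    split_ifs
    · exact aw_start ν ξ y
    · simp
  simp_rw [h1]
  rw [ENNReal.tsum_comm]
  unfold UB2
  rw [← ENNReal.tsum_mul_left]
  refine tsum_congr fun ξ => ?_
  by_cases hξ : ξ ∈ B2 u s l0
  · simp only [hξ, true_and, if_true]
    have h2 : ∑' x : Site d, (if x + endp 0 ξ ∈ E then aw ν ξ else 0)
        = ∑' z : Site d, (if z ∈ E then aw ν ξ else 0) :=
      (Equiv.addRight (endp 0 ξ)).tsum_eq fun z => if z ∈ E then aw ν ξ else 0
    rw [h2, tsum_eq_sum (s := E) (fun z hz => if_neg hz)]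
    rw [Finset.sum_congr rfl (fun z hz => if_pos hz), Finset.sum_const, nsmul_eq_mul]
  · simp [hξ]

/-- mixing -/
lemma mix2 (ν : Measure (Row d)) [IsProbabilityMeasure ν] (u : Step d) (s : ℕ)
    (y : Site d) (γ π : List (Step d)) (h : γ ∈ H2 u s y π) :
    aw ν π * aw ν γ = ∫⁻ ω, lw ω 0 π * lw ω y γ ∂(iidEnvironmentLaw ν) := by
  rw [Q561.iid_lintegral_mul ν (S := {z | z ∈ sitesL 0 π}) (T := {z | z ∈ sitesL y γ}) ?_
    (measurable_lw _ _) (measurable_lw _ _) (locOn_lw _ _) (locOn_lw _ _), aw_start ν γ y]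
  · rfl
  · rw [Set.disjoint_left]
    intro z hz hz'
    exact h.2.1 z hz' hz

open Classical in
lemma W2_aux (ν : Measure (Row d)) [IsProbabilityMeasure ν] (u : Step d) (h h' s : ℕ) (l0 : ℤ)
    (E : Finset (Site d)) (D : Site d → ℝ≥0∞) (M lam : ℝ≥0∞) (hD : ∀ z, D z ≤ M)
    (hD1 : ∑' z, D z ≤ 1) (hlev : ∀ z, D z ≠ 0 → lev u z = l0) (hl0 : l0 ≤ -1)
    (h0 : lam ≠ 0) (ht : lam ≠ ⊤) :
    ∑' z, D z * ∑' π, ∑' γ, (if IsUp u h π ∧ endp 0 π ∈ E ∧ IsDn u h' γ ∧
        (∃ y ∈ sitesL (-endp 0 π) π, y ∈ sitesL z γ) ∧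
        (∀ y ∈ sitesL (-endp 0 π) π, y ∈ sitesL z γ → lev u y ≤ l0 - s) then
        aw ν π * aw ν γ else 0)
      ≤ lam + M * (lam⁻¹ * (E.card * UB2 ν u s l0)) := by
  have hsh : ∀ (π : List (Step d)) (y : Site d), y ∈ sitesL (-endp 0 π) π ↔
      y + endp 0 π ∈ sitesL 0 π := by
    intro π y
    rw [mem_sitesL_zero π (-endp 0 π) y, sub_neg_eq_add]
  have e1 : ∀ z, D z * ∑' π, ∑' γ, (if IsUp u h π ∧ endp 0 π ∈ E ∧ IsDn u h' γ ∧
      (∃ y ∈ sitesL (-endp 0 π) π, y ∈ sitesL z γ) ∧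
      (∀ y ∈ sitesL (-endp 0 π) π, y ∈ sitesL z γ → lev u y ≤ l0 - s) then
      aw ν π * aw ν γ else 0)
      = ∑' π, D z * ∑' γ, (if IsUp u h π ∧ endp 0 π ∈ E ∧ IsDn u h' γ ∧
      (∃ y ∈ sitesL (-endp 0 π) π, y ∈ sitesL z γ) ∧
      (∀ y ∈ sitesL (-endp 0 π) π, y ∈ sitesL z γ → lev u y ≤ l0 - s) then
      aw ν π * aw ν γ else 0) := fun z => ENNReal.tsum_mul_left.symm
  have hT1 : ∑' z, D z * ∑' π, ∑' γ, (if IsUp u h π ∧ endp 0 π ∈ E ∧ IsDn u h' γ ∧
        (∃ y ∈ sitesL (-endp 0 π) π, y ∈ sitesL z γ) ∧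
        (∀ y ∈ sitesL (-endp 0 π) π, y ∈ sitesL z γ → lev u y ≤ l0 - s) then
        aw ν π * aw ν γ else 0)
      ≤ ∑' π, (if π ∈ XX u h E then aw ν π * ∑' y : Site d, D (y - endp 0 π) *
          ∑' γ, (if γ ∈ H2 u s y π then aw ν γ else 0) else 0) := by
    simp_rw [e1]
    rw [ENNReal.tsum_comm]
    refine ENNReal.tsum_le_tsum fun π => ?_
    have e3 : ∀ f : Site d → ℝ≥0∞, ∑' z, f z = ∑' x : Site d, f (x - endp 0 π) := fun f =>
      ((Equiv.subRight (endp 0 π)).tsum_eq f).symm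
    rw [e3]
    by_cases hπ : π ∈ XX u h E
    · rw [if_pos hπ, ← ENNReal.tsum_mul_left]
      refine ENNReal.tsum_le_tsum fun y => ?_
      by_cases hD0 : D (y - endp 0 π) = 0
      · rw [hD0, zero_mul]; exact zero_le
      have hly := hlev _ hD0
      rw [lev_sub, hπ.1.2] at hly
      have h1 : ∑' γ, (if IsUp u h π ∧ endp 0 π ∈ E ∧ IsDn u h' γ ∧
          (∃ w ∈ sitesL (-endp 0 π) π, w ∈ sitesL (y - endp 0 π) γ) ∧
          (∀ w ∈ sitesL (-endp 0 π) π, w ∈ sitesL (y - endp 0 π) γ → lev u w ≤ l0 - s) then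
          aw ν π * aw ν γ else 0)
          ≤ aw ν π * ∑' γ, (if γ ∈ H2 u s y π then aw ν γ else 0) := by
        refine le_trans ?_ (mul_le_mul_right (hit_split2 ν u h' s y π) _)
        rw [← ENNReal.tsum_mul_left]
        refine ENNReal.tsum_le_tsum fun γ => ?_
        by_cases hc : IsUp u h π ∧ endp 0 π ∈ E ∧ IsDn u h' γ ∧
          (∃ w ∈ sitesL (-endp 0 π) π, w ∈ sitesL (y - endp 0 π) γ) ∧
          (∀ w ∈ sitesL (-endp 0 π) π, w ∈ sitesL (y - endp 0 π) γ → lev u w ≤ l0 - s)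
        · rw [if_pos hc]
          obtain ⟨c1, c2, c3, ⟨w, c4, c5⟩, c6⟩ := hc
          have hy : ∀ w : Site d, w ∈ sitesL (y - endp 0 π) γ ↔ w + endp 0 π ∈ sitesL y γ := by
            intro w
            rw [mem_sitesL_zero γ (y - endp 0 π) w, mem_sitesL_zero γ y (w + endp 0 π)]
            rw [show w - (y - endp 0 π) = w + endp 0 π - y by abel]
          rw [if_pos ⟨c3, ⟨w + endp 0 π, (hsh π w).1 c4, (hy w).1 c5⟩, fun w hw hw' => by
            have h1 := c6 (w - endp 0 π) ((hsh π _).2 (by rwa [sub_add_cancel]))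
              ((hy _).2 (by rwa [sub_add_cancel]))
            rw [lev_sub, c1.2] at h1
            omega⟩]
        · rw [if_neg hc]; exact zero_le
      calc D (y - endp 0 π) * _ ≤ D (y - endp 0 π) *
            (aw ν π * ∑' γ, (if γ ∈ H2 u s y π then aw ν γ else 0)) := mul_le_mul_right h1 _
        _ = _ := by ring
    · rw [if_neg hπ]
      refine le_of_eq (ENNReal.tsum_eq_zero.2 fun y => ?_)
      rw [ENNReal.tsum_eq_zero.2, mul_zero]
      intro γ
      rw [if_neg]
      rintro ⟨c1, c2, -⟩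
      exact hπ ⟨c1, c2⟩
  have hmγ : ∀ (y : Site d) (π γ : List (Step d)), Measurable fun ω : Environment d =>
      (if γ ∈ H2 u s y π then lw ω y γ else 0) := by
    intro y π γ
    split_ifs
    · exact measurable_lw y γ
    · exact measurable_const
  have hint : ∑' π, (if π ∈ XX u h E then aw ν π * ∑' y : Site d, D (y - endp 0 π) *
          ∑' γ, (if γ ∈ H2 u s y π then aw ν γ else 0) else 0)
      = ∫⁻ ω, ∑' π, (if π ∈ XX u h E then
        lw ω 0 π * ∑' y : Site d, D (y - endp 0 π) *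
          ∑' γ, (if γ ∈ H2 u s y π then lw ω y γ else 0) else 0) ∂(iidEnvironmentLaw ν) := by
    have hmy : ∀ π : List (Step d), Measurable fun ω : Environment d =>
        ∑' y : Site d, D (y - endp 0 π) * ∑' γ, (if γ ∈ H2 u s y π then lw ω y γ else 0) :=
      fun π => Measurable.ennreal_tsum fun y =>
        (Measurable.ennreal_tsum fun γ => hmγ y π γ).const_mul _
    rw [lintegral_tsum]
    · refine tsum_congr fun π => ?_
      by_cases hπ : π ∈ XX u h E
      · simp only [hπ, if_true]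
        have e4 : ∀ ω : Environment d, lw ω 0 π * ∑' y : Site d, D (y - endp 0 π) *
            ∑' γ, (if γ ∈ H2 u s y π then lw ω y γ else 0)
            = ∑' y : Site d, D (y - endp 0 π) * ∑' γ, lw ω 0 π *
              (if γ ∈ H2 u s y π then lw ω y γ else 0) := by
          intro ω
          rw [← ENNReal.tsum_mul_left]
          refine tsum_congr fun y => ?_
          rw [ENNReal.tsum_mul_left]
          ring
        simp_rw [e4]
        have hm2 : ∀ (y : Site d) (γ : List (Step d)), Measurable fun ω : Environment d =>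
            lw ω 0 π * (if γ ∈ H2 u s y π then lw ω y γ else 0) := fun y γ =>
          (measurable_lw 0 π).mul (hmγ y π γ)
        rw [lintegral_tsum (fun y => ((Measurable.ennreal_tsum fun γ =>
          hm2 y γ).const_mul _).aemeasurable), ← ENNReal.tsum_mul_left]
        refine tsum_congr fun y => ?_
        rw [lintegral_const_mul _ (Measurable.ennreal_tsum fun γ => hm2 y γ),
          lintegral_tsum (fun γ => (hm2 y γ).aemeasurable)]
        have e5 : ∑' γ, ∫⁻ ω, lw ω 0 π * (if γ ∈ H2 u s y π then lw ω y γ else 0)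
            ∂(iidEnvironmentLaw ν)
            = aw ν π * ∑' γ, (if γ ∈ H2 u s y π then aw ν γ else 0) := by
          rw [← ENNReal.tsum_mul_left]
          refine tsum_congr fun γ => ?_
          by_cases hγ : γ ∈ H2 u s y π
          · simp only [hγ, if_true]
            exact (mix2 ν u s y γ π hγ).symm
          · simp only [hγ, if_false, mul_zero, lintegral_zero]
        rw [e5]
        ring
      · simp only [hπ, if_false, lintegral_zero]
    · intro π
      refine Measurable.aemeasurable ?_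
      split_ifs
      · exact (measurable_lw 0 π).mul (hmy π)
      · exact measurable_const
  refine hT1.trans ?_
  rw [hint]
  refine (lintegral_mono fun ω => quenched2 ω u s h l0 hl0 E D M hD hD1 hlev lam h0 ht).trans ?_
  have hmB : Measurable fun ω : Environment d => ∑' y : Site d, ∑' ξ,
      (if ξ ∈ B2 u s l0 ∧ y + endp 0 ξ ∈ E then lw ω y ξ else 0) := by
    refine Measurable.ennreal_tsum fun y => Measurable.ennreal_tsum fun ξ => ?_
    split_ifs
    · exact measurable_lw y ξ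
    · exact measurable_const
  rw [lintegral_add_left measurable_const, lintegral_const_mul _ (hmB.const_mul _),
    lintegral_const_mul _ hmB, turn2_le]
  simp

open Classical in
/-- **W2** in helper804's literal -/
theorem W2 (ν : Measure (Row d)) [IsProbabilityMeasure ν] (u : Step d) (h h' s : ℕ) (l0 : ℤ)
    (E : Finset (Site d)) (D : Site d → ℝ≥0∞) (M lam : ℝ≥0∞) (hD : ∀ z, D z ≤ M)
    (hD1 : ∑' z, D z ≤ 1) (hlev : ∀ z, D z ≠ 0 → lev u z = l0) (hl0 : l0 ≤ -1)
    (h0 : lam ≠ 0) (ht : lam ≠ ⊤) :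
    ∑' z, D z * ∑' π, ∑' γ, (if IsUp u h π ∧ endp 0 π ∈ E ∧ IsDn u h' γ ∧
        (∃ y ∈ sitesL (-endp 0 π) π, y ∈ sitesL z γ) ∧
        (∀ y ∈ sitesL (-endp 0 π) π, y ∈ sitesL z γ → lev u y ≤ l0 - s) then
        aw ν π * aw ν γ else 0)
      ≤ lam + M * E.card * annealedProb (iidEnvironmentLaw ν) 0
          {X | ∃ j k, j ≤ k ∧ lev u (X j) ≤ -(s : ℤ) ∧ 0 ≤ lev u (X k)} / lam := by
  refine (W2_aux ν u h h' s l0 E D M lam hD hD1 hlev hl0 h0 ht).trans ?_
  refine add_le_add le_rfl ?_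
  rw [div_eq_mul_inv]
  calc M * (lam⁻¹ * (E.card * UB2 ν u s l0))
      ≤ M * (lam⁻¹ * (E.card * annealedProb (iidEnvironmentLaw ν) 0
          {X | ∃ j k, j ≤ k ∧ lev u (X j) ≤ -(s : ℤ) ∧ 0 ≤ lev u (X k)})) := by
        gcongr
        exact UB2_le ν u s l0 hl0
    _ = _ := by ring

end Crest.Agent.R154.Win42
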