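import Crest.Agent.R154.WordB_956
import Crest.Agent.R154.DoobW_431
import Crest.Agent.R154.NBDefs_28

/-! Row 154, ROAD 801 (helper592): the two window lemmas in words, general sets of words.
The local walker starts at `0` (words `SB`, completions `CB`), the runner starts at `y`
(words `SA y`); `TT y` = turning words of the runner. -/

set_option autoImplicit false

open MeasureTheory ProbabilityTheory Crest.ProbabilityR.RandomEnvironment
open scoped ENNReal

namespace Crest.Agent.R154.Win592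

open Crest.Agent.R154.Flux566 (lw endp sitesL measurable_lw)
open Crest.Agent.R154.DoobW431 (PF kraft markov_pf First pf_First exists_First bad_le ville
  lw_append)
open Crest.Agent.R154.NB28 (aw)

variable {d : ℕ}

open Classical in
/-- completion weight of the local walker -/
noncomputable def ee (CB : Site d → Set (List (Step d))) (ω : Environment d) (v : Site d) : ℝ≥0∞ :=
  ∑' ρ : List (Step d), if ρ ∈ CB v then lw ω v ρ else 0

open Classical in
lemma core_b (ω : Environment d) (y : Site d) (Py TTy : Set (List (Step d))) (D : Set (Site d))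
    (CB : Site d → Set (List (Step d))) (lam : ℝ≥0∞) (hl : lam ≠ 0) (hl' : lam ≠ ⊤)
    (hpre : ∀ η ξ, η <+: ξ → ξ ∈ Py → η ∈ Py)
    (hTT : ∀ η ∈ Py, endp y η ∈ D → ∀ ρ ∈ CB (endp y η), η ++ ρ ∈ TTy)
    (R : Set (List (Step d))) (hR : PF R) (hRp : R ⊆ Py)
    (hRD : ∀ η ∈ R, endp y η ∈ D ∧ lam < ee CB ω (endp y η)) :
    ∑' η, (if η ∈ R then lw ω y η else 0) ≤ lam⁻¹ * ∑' l, (if l ∈ TTy then lw ω y l else 0) := by
  set G : Set (Site d) := {v | v ∈ D ∧ lam < ee CB ω v} with hG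
  obtain ⟨P, hP⟩ : ∃ P : Set (List (Step d)), ∀ γ, γ ∈ P ↔ γ ∈ First y G ∧ γ ∈ Py :=
    ⟨First y G ∩ Py, fun γ => Iff.rfl⟩
  have hPF : PF P := (pf_First y G).mono fun γ hγ => ((hP γ).1 hγ).1
  have h1 : ∑' η, (if η ∈ R then lw ω y η else 0) ≤ ∑' γ, (if γ ∈ P then lw ω y γ * 1 else 0) := by
    refine markov_pf ω y (fun γ => {ρ2 | γ ++ ρ2 ∈ R}) (fun _ => 1) ?_ ?_
    · intro ρ hρ
      obtain ⟨γ, hγ, ρ2, rfl⟩ := exists_First y G ρ ⟨ρ, List.prefix_rfl, hRD ρ hρ⟩
      exact ⟨γ, ρ2, rfl, (hP γ).2 ⟨hγ, hpre γ _ (List.prefix_append _ _) (hRp hρ)⟩, hρ⟩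
    · intro γ _
      refine kraft ω _ ?_
      intro l hl l' hl' hp
      have := hR _ hl _ hl' ((List.prefix_append_right_inj γ).2 hp)
      exact List.append_cancel_left this
  have h2 : lam * ∑' γ, (if γ ∈ P then lw ω y γ else 0)
      ≤ ∑' l, (if l ∈ TTy then lw ω y l else 0) := by
    refine ville hPF (fun γ => lw ω y γ) (fun l => if l ∈ TTy then lw ω y l else 0) lam ?_
    intro γ hγ'
    have hγ := (hP γ).1 hγ'
    have hinj : Function.Injective (fun ρ : List (Step d) => γ ++ ρ) :=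
      fun a b h => List.append_cancel_left h
    calc lam * lw ω y γ ≤ ee CB ω (endp y γ) * lw ω y γ := by
          gcongr; exact hγ.1.1.2.le
      _ = ∑' ρ, (if ρ ∈ CB (endp y γ) then lw ω y (γ ++ ρ) else 0) := by
          rw [ee, ← ENNReal.tsum_mul_right]
          refine tsum_congr fun ρ => ?_
          split_ifs
          · rw [lw_append, mul_comm]
          · simp
      _ ≤ ∑' ρ, (fun ξ => if γ <+: ξ then (if ξ ∈ TTy then lw ω y ξ else 0) else 0) (γ ++ ρ) := by
          refine ENNReal.tsum_le_tsum fun ρ => ?_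
          by_cases h : ρ ∈ CB (endp y γ)
          · simp [h, hTT γ hγ.2 hγ.1.1.1 ρ h]
          · simp [h]
      _ ≤ ∑' ξ, (if γ <+: ξ then (if ξ ∈ TTy then lw ω y ξ else 0) else 0) :=
          ENNReal.tsum_comp_le_tsum_of_injective hinj
            (fun ξ => if γ <+: ξ then (if ξ ∈ TTy then lw ω y ξ else 0) else 0)
      _ = _ := by
          refine tsum_congr fun ξ => ?_
          by_cases h : γ <+: ξ <;> simp [h]
  calc _ ≤ ∑' γ, (if γ ∈ P then lw ω y γ * 1 else 0) := h1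
    _ = ∑' γ, (if γ ∈ P then lw ω y γ else 0) := by simp only [mul_one]
    _ = lam⁻¹ * (lam * ∑' γ, (if γ ∈ P then lw ω y γ else 0)) := by
        rw [← mul_assoc, ENNReal.inv_mul_cancel hl hl', one_mul]
    _ ≤ _ := by gcongr

/-- words of the runner up to its first hit of the sites of `β` -/
def AA (Py : Set (List (Step d))) (D : Set (Site d)) (y : Site d) (β : List (Step d)) :
    Set (List (Step d)) :=
  {η | η ∈ First y {v | v ∈ sitesL 0 β} ∧ endp y η ∈ D ∧ η ∈ Py}

/-- minimal words with `Q` -/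
def FQ (Q : List (Step d) → Prop) : Set (List (Step d)) :=
  {γ | Q γ ∧ ∀ γ', γ' <+: γ → γ' ≠ γ → ¬ Q γ'}

lemma pf_FQ (Q : List (Step d) → Prop) : PF (FQ Q) := by
  intro l hl l' hl' hp
  by_contra hne
  exact hl'.2 l hp hne hl.1

lemma exists_FQ (Q : List (Step d) → Prop) (ρ : List (Step d)) (h : Q ρ) :
    ∃ γ ∈ FQ Q, γ <+: ρ := by
  classical
  have hex : ∃ n, ∃ γ, γ <+: ρ ∧ Q γ ∧ γ.length = n := ⟨_, ρ, List.prefix_rfl, h, rfl⟩
  obtain ⟨γ, h1, h2, h3⟩ := Nat.find_spec hex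
  refine ⟨γ, ⟨h2, fun γ' hp hne hB => ?_⟩, h1⟩
  have hlt : γ'.length < Nat.find hex := by
    rw [← h3]
    exact lt_of_le_of_ne hp.length_le fun h => hne (hp.eq_of_length h)
  exact Nat.find_min hex hlt ⟨γ', hp.trans h1, hB, rfl⟩

open Classical in
lemma pt (ω : Environment d) (y : Site d) (β : List (Step d)) (Py TTy : Set (List (Step d)))
    (D : Set (Site d)) (CB : Site d → Set (List (Step d))) (lam : ℝ≥0∞) (hl : lam ≠ 0)
    (hl' : lam ≠ ⊤) (hpre : ∀ η ξ, η <+: ξ → ξ ∈ Py → η ∈ Py)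
    (hTT : ∀ η ∈ Py, endp y η ∈ D → ∀ ρ ∈ CB (endp y η), η ++ ρ ∈ TTy)
    (Q : List (Step d) → Prop) :
    ∑' η, (if η ∈ AA Py D y β ∧ Q η then lw ω y η else 0)
      ≤ (if ∃ v ∈ sitesL 0 β, ee CB ω v ≤ lam then
          ∑' γ, (if γ ∈ FQ Q then lw ω y γ else 0) else 0)
        + lam⁻¹ * ∑' l, (if l ∈ TTy then lw ω y l else 0) := by
  obtain ⟨R, hR⟩ : ∃ R : Set (List (Step d)), ∀ η, η ∈ R ↔ η ∈ AA Py D y β ∧ Q η :=
    ⟨{η | η ∈ AA Py D y β ∧ Q η}, fun η => Iff.rfl⟩
  have hRPF : PF R := (pf_First y {v | v ∈ sitesL 0 β}).mono fun η hη => ((hR η).1 hη).1.1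
  have hRe : ∑' η, (if η ∈ AA Py D y β ∧ Q η then lw ω y η else 0)
      = ∑' η, (if η ∈ R then lw ω y η else 0) := by
    refine tsum_congr fun η => ?_
    by_cases h : η ∈ AA Py D y β ∧ Q η
    · rw [if_pos h, if_pos ((hR η).2 h)]
    · rw [if_neg h, if_neg (fun h' => h ((hR η).1 h'))]
  rw [hRe]
  by_cases hb : ∃ v ∈ sitesL 0 β, ee CB ω v ≤ lam
  · rw [if_pos hb]
    refine le_add_right ?_
    have h1 := markov_pf ω y (W := R) (P := FQ Q) (fun γ => {ρ2 | γ ++ ρ2 ∈ R}) (fun _ => 1)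
      (fun ρ hρ => by
        obtain ⟨γ, hγ, ρ2, rfl⟩ := exists_FQ Q ρ ((hR ρ).1 hρ).2
        exact ⟨γ, ρ2, rfl, hγ, hρ⟩)
      (fun γ _ => by
        refine kraft ω _ ?_
        intro l hl l' hl' hp
        have := hRPF _ hl _ hl' ((List.prefix_append_right_inj γ).2 hp)
        exact List.append_cancel_left this)
    simpa only [mul_one] using h1
  · rw [if_neg hb, zero_add]
    refine core_b ω y Py TTy D CB lam hl hl' hpre hTT R hRPF
      (fun η hη => ((hR η).1 hη).1.2.2) ?_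
    intro η hη'
    have hη := (hR η).1 hη'
    refine ⟨hη.1.2.1, ?_⟩
    by_contra hc
    exact hb ⟨_, hη.1.1.1, not_lt.1 hc⟩

open Classical in
/-- the local words which visit a site with small completion weight -/
lemma bad_sum (ω : Environment d) (SB : Set (List (Step d)))
    (CB : Site d → Set (List (Step d))) (hCB : ∀ γ ρ, γ ++ ρ ∈ SB → ρ ∈ CB (endp 0 γ))
    (lam : ℝ≥0∞) :
    ∑' β, (if β ∈ SB ∧ ∃ v ∈ sitesL 0 β, ee CB ω v ≤ lam then lw ω 0 β else 0) ≤ lam := by
  refine le_trans (ENNReal.tsum_le_tsum fun β => ?_)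
    (bad_le ω 0 SB {v | ee CB ω v ≤ lam} CB lam hCB (fun v hv => hv))
  by_cases h : β ∈ SB ∧ ∃ v ∈ sitesL 0 β, ee CB ω v ≤ lam
  · rw [if_pos h, if_pos]
    obtain ⟨h1, v, hv, hv2⟩ := h
    obtain ⟨l1, e, l2, rfl, rfl⟩ := WordB956.mem_sitesL.1 hv
    exact ⟨h1, l1, List.prefix_append _ _, hv2⟩
  · rw [if_neg h]; exact zero_le

lemma disj_AA {Py : Set (List (Step d))} {D : Set (Site d)} {y : Site d} {β η : List (Step d)}
    (h : η ∈ AA Py D y β) : ∀ z ∈ sitesL 0 β, z ∉ sitesL y η := by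
  intro z hz hz'
  obtain ⟨l1, e, l2, rfl, h2⟩ := WordB956.mem_sitesL.1 hz'
  refine h.1.2 l1 (List.prefix_append _ _) ?_ (by rw [h2]; exact hz)
  intro he
  have := congrArg List.length he
  simp at this

lemma aw_x (ν : Measure (Row d)) [IsProbabilityMeasure ν] (x : Site d) (l : List (Step d)) :
    ∫⁻ ω, lw ω x l ∂(iidEnvironmentLaw ν) = aw ν l :=
  WordB956.aw_shift (iidEnvironmentLaw ν) (Q561.iid_shift ν) x l

lemma aw_mul' (ν : Measure (Row d)) [IsProbabilityMeasure ν] {Py : Set (List (Step d))}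
    {D : Set (Site d)} {y : Site d} {β η : List (Step d)} (h : η ∈ AA Py D y β) :
    ∫⁻ ω, lw ω 0 β * lw ω y η ∂(iidEnvironmentLaw ν) = aw ν β * aw ν η := by
  rw [WordB956.aw_mul ν 0 y β η (disj_AA h)]
  congr 1
  exact aw_x ν y η

open Classical in
/-- reduction to the first hit -/
lemma first_hit (SAy : Set (List (Step d))) (D : Set (Site d)) (y : Site d) (β : List (Step d))
    (F : List (Step d) → ℝ≥0∞) :
    ∑' α, (if α ∈ SAy ∧ (∃ v, v ∈ sitesL 0 β ∧ v ∈ sitesL y α) ∧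
        (∀ v, v ∈ sitesL 0 β → v ∈ sitesL y α → v ∈ D) then F α else 0)
      ≤ ∑' η, (if η ∈ AA {η | ∃ ρ, η ++ ρ ∈ SAy} D y β then
          ∑' ρ, (if η ++ ρ ∈ SAy then F (η ++ ρ) else 0) else 0) := by
  set P := AA {η | ∃ ρ, η ++ ρ ∈ SAy} D y β with hP
  calc _ ≤ ∑' α, ∑' p : List (Step d) × List (Step d),
          (if α = p.1 ++ p.2 ∧ p.1 ∈ P ∧ p.1 ++ p.2 ∈ SAy then F (p.1 ++ p.2) else 0) := by
        refine ENNReal.tsum_le_tsum fun α => ?_
        split_ifs with h
        · obtain ⟨h1, ⟨v, hv1, hv2⟩, h3⟩ := h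
          obtain ⟨l1, e, l2, rfl, h5⟩ := WordB956.mem_sitesL.1 hv2
          obtain ⟨γ, hγ, t, rfl⟩ := exists_First y {v | v ∈ sitesL 0 β} l1
            ⟨l1, List.prefix_rfl, by rw [h5]; exact hv1⟩
          have hmem : endp y γ ∈ sitesL y (γ ++ t ++ e :: l2) := by
            rw [WordB956.mem_sitesL]
            cases t with
            | nil => exact ⟨γ, e, l2, by simp, rfl⟩
            | cons a t => exact ⟨γ, a, t ++ e :: l2, by simp, rfl⟩
          have hγD : endp y γ ∈ D := h3 _ hγ.1 hmem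
          refine le_trans (le_of_eq ?_) (ENNReal.le_tsum (γ, t ++ e :: l2))
          simp only
          rw [if_pos]
          · rw [List.append_assoc]
          · refine ⟨by rw [List.append_assoc], ⟨hγ, hγD, ⟨t ++ e :: l2, ?_⟩⟩, ?_⟩
            · rw [← List.append_assoc]; exact h1
            · rw [← List.append_assoc]; exact h1
        · exact zero_le
    _ = ∑' p : List (Step d) × List (Step d), ∑' α,
          (if α = p.1 ++ p.2 ∧ p.1 ∈ P ∧ p.1 ++ p.2 ∈ SAy then F (p.1 ++ p.2) else 0) :=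
        ENNReal.tsum_comm
    _ = ∑' p : List (Step d) × List (Step d),
          (if p.1 ∈ P ∧ p.1 ++ p.2 ∈ SAy then F (p.1 ++ p.2) else 0) := by
        refine tsum_congr fun p => ?_
        rw [tsum_eq_single (p.1 ++ p.2)]
        · simp
        · intro ρ hne
          rw [if_neg]
          exact fun h => hne h.1
    _ = ∑' γ, ∑' ρ2, (if γ ∈ P ∧ γ ++ ρ2 ∈ SAy then F (γ ++ ρ2) else 0) := by
        rw [ENNReal.tsum_prod']
    _ = _ := by
        refine tsum_congr fun γ => ?_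
        by_cases hγ : γ ∈ P <;> simp [hγ]

open Classical in
lemma ext_aw (ν : Measure (Row d)) [IsProbabilityMeasure ν] (η : List (Step d))
    {S : Set (List (Step d))} (hS : PF S) :
    ∑' ρ, (if η ++ ρ ∈ S then aw ν (η ++ ρ) else 0) ≤ aw ν η := by
  have := WordB956.pf_ext_le (iidEnvironmentLaw ν) 0 η (S := {ρ | η ++ ρ ∈ S})
    (fun l hl l' hl' => by
      have h1 := hS _ hl _ hl' (by rw [← List.append_assoc]; exact List.prefix_append _ _)
      rw [← List.append_assoc] at h1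
      have := congrArg List.length h1
      simp only [List.length_append] at this
      exact List.length_eq_zero_iff.1 (by omega))
  exact this

open Classical in
lemma cut_le (ν : Measure (Row d)) [IsProbabilityMeasure ν] (SAy : Set (List (Step d)))
    (D : Set (Site d)) (y : Site d) (β : List (Step d)) (hSA : PF SAy) :
    ∑' α, (if α ∈ SAy ∧ (∃ v, v ∈ sitesL 0 β ∧ v ∈ sitesL y α) ∧
        (∀ v, v ∈ sitesL 0 β → v ∈ sitesL y α → v ∈ D) then aw ν α else 0)
      ≤ ∑' η, (if η ∈ AA {η | ∃ ρ, η ++ ρ ∈ SAy} D y β then aw ν η else 0) := by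
  refine (first_hit SAy D y β (aw ν)).trans (ENNReal.tsum_le_tsum fun η => ?_)
  split_ifs with h
  · exact ext_aw ν η hSA
  · exact le_rfl

lemma lint3 (ν : Measure (Row d)) [IsProbabilityMeasure ν]
    (g : Site d → List (Step d) → List (Step d) → Environment d → ℝ≥0∞)
    (hg : ∀ y β η, Measurable (g y β η)) :
    ∑' y, ∑' β, ∑' η, ∫⁻ ω, g y β η ω ∂(iidEnvironmentLaw ν)
      = ∫⁻ ω, ∑' y, ∑' β, ∑' η, g y β η ω ∂(iidEnvironmentLaw ν) := by
  rw [lintegral_tsum (fun y => (Measurable.tsum fun β =>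
    Measurable.tsum fun η => hg y β η).aemeasurable)]
  refine tsum_congr fun y => ?_
  rw [lintegral_tsum (fun β => (Measurable.tsum fun η => hg y β η).aemeasurable)]
  refine tsum_congr fun β => ?_
  rw [lintegral_tsum (fun η => (hg y β η).aemeasurable)]

open Classical in
lemma lintT (ν : Measure (Row d)) [IsProbabilityMeasure ν]
    (TT : Site d → Set (List (Step d))) :
    ∫⁻ ω, ∑' y, ∑' l, (if l ∈ TT y then lw ω y l else 0) ∂(iidEnvironmentLaw ν)
      = ∑' y, ∑' l, (if l ∈ TT y then aw ν l else 0) := by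
  have hm : ∀ y l, Measurable fun ω : Environment d => (if l ∈ TT y then lw ω y l else 0) := by
    intro y l
    by_cases h : l ∈ TT y
    · simp only [h, if_true]; exact measurable_lw y l
    · simp only [h, if_false]; exact measurable_const
  rw [lintegral_tsum (fun y => (Measurable.tsum fun l => hm y l).aemeasurable)]
  refine tsum_congr fun y => ?_
  rw [lintegral_tsum (fun l => (hm y l).aemeasurable)]
  refine tsum_congr fun l => ?_
  by_cases h : l ∈ TT y
  · simp only [h, if_true]; exact aw_x ν y l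
  · simp only [h, if_false, lintegral_zero]

lemma measT (TT : Site d → Set (List (Step d))) : open Classical in
    Measurable fun ω : Environment d => ∑' y, ∑' l, (if l ∈ TT y then lw ω y l else 0) := by
  classical
  refine Measurable.tsum fun y => Measurable.tsum fun l => ?_
  by_cases h : l ∈ TT y
  · simp only [h, if_true]; exact measurable_lw y l
  · simp only [h, if_false]; exact measurable_const

open Classical in
/-- **window lemma (2)**: weight carried by the local walker. -/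
theorem win2 (ν : Measure (Row d)) [IsProbabilityMeasure ν]
    (SB : Set (List (Step d))) (SA TT : Site d → Set (List (Step d))) (D : Set (Site d))
    (CB : Site d → Set (List (Step d))) (W : Site d → List (Step d) → ℝ≥0∞) (M lam : ℝ≥0∞)
    (hl : lam ≠ 0) (hl' : lam ≠ ⊤) (hSB : PF SB) (hSA : ∀ y, PF (SA y))
    (hCB : ∀ γ ρ, γ ++ ρ ∈ SB → ρ ∈ CB (endp 0 γ))
    (hTT : ∀ y η ρ1, η ++ ρ1 ∈ SA y → endp y η ∈ D → ∀ ρ ∈ CB (endp y η), η ++ ρ ∈ TT y)
    (hM : ∀ y β, W y β ≤ M) (hW : ∀ β ∈ SB, ∑' y, W y β ≤ 1) :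
    ∑' y, ∑' β, ∑' α, (if β ∈ SB ∧ α ∈ SA y ∧ (∃ v, v ∈ sitesL 0 β ∧ v ∈ sitesL y α) ∧
        (∀ v, v ∈ sitesL 0 β → v ∈ sitesL y α → v ∈ D) then W y β * (aw ν β * aw ν α) else 0)
      ≤ lam + M * (lam⁻¹ * ∑' y, ∑' l, (if l ∈ TT y then aw ν l else 0)) := by
  set A : Site d → List (Step d) → Set (List (Step d)) :=
    fun y β => AA {η | ∃ ρ, η ++ ρ ∈ SA y} D y β with hA
  have hpre : ∀ y, ∀ η ξ : List (Step d), η <+: ξ → ξ ∈ {η | ∃ ρ, η ++ ρ ∈ SA y} →
      η ∈ {η | ∃ ρ, η ++ ρ ∈ SA y} := by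
    rintro y η _ ⟨t, rfl⟩ ⟨ρ, hρ⟩
    exact ⟨t ++ ρ, by rw [← List.append_assoc]; exact hρ⟩
  have stepA : ∀ y β, ∑' α, (if β ∈ SB ∧ α ∈ SA y ∧ (∃ v, v ∈ sitesL 0 β ∧ v ∈ sitesL y α) ∧
        (∀ v, v ∈ sitesL 0 β → v ∈ sitesL y α → v ∈ D) then W y β * (aw ν β * aw ν α) else 0)
      ≤ ∑' η, ∫⁻ ω, (if β ∈ SB ∧ η ∈ A y β then W y β * (lw ω 0 β * lw ω y η) else 0)
          ∂(iidEnvironmentLaw ν) := by
    intro y β
    by_cases hβ : β ∈ SB
    · simp only [hβ, true_and]
      calc ∑' α, (if α ∈ SA y ∧ (∃ v, v ∈ sitesL 0 β ∧ v ∈ sitesL y α) ∧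
            (∀ v, v ∈ sitesL 0 β → v ∈ sitesL y α → v ∈ D) then W y β * (aw ν β * aw ν α) else 0)
          = W y β * (aw ν β * ∑' α, (if α ∈ SA y ∧ (∃ v, v ∈ sitesL 0 β ∧ v ∈ sitesL y α) ∧
            (∀ v, v ∈ sitesL 0 β → v ∈ sitesL y α → v ∈ D) then aw ν α else 0)) := by
            rw [← ENNReal.tsum_mul_left, ← ENNReal.tsum_mul_left]
            refine tsum_congr fun α => ?_
            split_ifs <;> simp
        _ ≤ W y β * (aw ν β * ∑' η, (if η ∈ A y β then aw ν η else 0)) := by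
            exact mul_le_mul_right (mul_le_mul_right (cut_le ν (SA y) D y β (hSA y)) _) _
        _ = _ := by
            rw [← ENNReal.tsum_mul_left, ← ENNReal.tsum_mul_left]
            refine tsum_congr fun η => ?_
            by_cases h : η ∈ A y β
            · simp only [h, if_true]
              rw [lintegral_const_mul (μ := iidEnvironmentLaw ν) (W y β)
                (f := fun ω => lw ω 0 β * lw ω y η)
                ((measurable_lw 0 β).mul (measurable_lw y η)), aw_mul' ν h]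
            · simp [h]
    · simp [hβ]
  have stepB : ∀ ω : Environment d, ∑' y, ∑' β, ∑' η,
      (if β ∈ SB ∧ η ∈ A y β then W y β * (lw ω 0 β * lw ω y η) else 0)
        ≤ lam + M * (lam⁻¹ * ∑' y, ∑' l, (if l ∈ TT y then lw ω y l else 0)) := by
    intro ω
    set T : Site d → ℝ≥0∞ := fun y => ∑' l, (if l ∈ TT y then lw ω y l else 0) with hT
    have h1 : ∀ y β, ∑' η, (if β ∈ SB ∧ η ∈ A y β then W y β * (lw ω 0 β * lw ω y η) else 0)
        ≤ (if β ∈ SB ∧ ∃ v ∈ sitesL 0 β, ee CB ω v ≤ lam then W y β * lw ω 0 β else 0)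
          + (if β ∈ SB then W y β * lw ω 0 β * (lam⁻¹ * T y) else 0) := by
      intro y β
      by_cases hβ : β ∈ SB
      · simp only [hβ, true_and, if_true]
        have h2 := pt ω y β {η | ∃ ρ, η ++ ρ ∈ SA y} (TT y) D CB lam hl hl' (hpre y)
          (fun η ⟨ρ1, h⟩ hD ρ hρ => hTT y η ρ1 h hD ρ hρ) (fun _ => True)
        simp only [and_true] at h2
        calc ∑' η, (if η ∈ A y β then W y β * (lw ω 0 β * lw ω y η) else 0)
            = W y β * lw ω 0 β * ∑' η, (if η ∈ A y β then lw ω y η else 0) := by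
              rw [← ENNReal.tsum_mul_left]
              refine tsum_congr fun η => ?_
              split_ifs
              · rw [mul_assoc]
              · simp
          _ ≤ W y β * lw ω 0 β * ((if ∃ v ∈ sitesL 0 β, ee CB ω v ≤ lam then 1 else 0)
              + lam⁻¹ * T y) := by
              refine mul_le_mul_right (h2.trans ?_) _
              refine add_le_add ?_ le_rfl
              split_ifs
              · exact kraft ω y (pf_FQ _)
              · exact le_rfl
          _ = _ := by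
              rw [mul_add]
              congr 1
              split_ifs <;> simp
      · simp [hβ]
    calc ∑' y, ∑' β, ∑' η,
        (if β ∈ SB ∧ η ∈ A y β then W y β * (lw ω 0 β * lw ω y η) else 0)
        ≤ ∑' y, ∑' β, ((if β ∈ SB ∧ ∃ v ∈ sitesL 0 β, ee CB ω v ≤ lam then
            W y β * lw ω 0 β else 0) + (if β ∈ SB then W y β * lw ω 0 β * (lam⁻¹ * T y) else 0)) :=
          ENNReal.tsum_le_tsum fun y => ENNReal.tsum_le_tsum fun β => h1 y β
      _ = ∑' y, ∑' β, (if β ∈ SB ∧ ∃ v ∈ sitesL 0 β, ee CB ω v ≤ lam then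
            W y β * lw ω 0 β else 0)
          + ∑' y, ∑' β, (if β ∈ SB then W y β * lw ω 0 β * (lam⁻¹ * T y) else 0) := by
          rw [← ENNReal.tsum_add]
          refine tsum_congr fun y => ?_
          rw [← ENNReal.tsum_add]
      _ ≤ lam + M * (lam⁻¹ * ∑' y, T y) := by
          refine add_le_add ?_ ?_
          · rw [ENNReal.tsum_comm]
            refine le_trans (ENNReal.tsum_le_tsum fun β => ?_) (bad_sum ω SB CB hCB lam)
            by_cases h : β ∈ SB ∧ ∃ v ∈ sitesL 0 β, ee CB ω v ≤ lam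
            · simp only [h, and_self, if_true]
              rw [ENNReal.tsum_mul_right]
              calc _ ≤ 1 * lw ω 0 β := by gcongr; exact hW β h.1
                _ = _ := one_mul _
            · simp only [h, if_false, tsum_zero, le_refl]
          · rw [← ENNReal.tsum_mul_left, ← ENNReal.tsum_mul_left]
            refine ENNReal.tsum_le_tsum fun y => ?_
            calc ∑' β, (if β ∈ SB then W y β * lw ω 0 β * (lam⁻¹ * T y) else 0)
                ≤ ∑' β, (if β ∈ SB then lw ω 0 β else 0) * (M * (lam⁻¹ * T y)) := by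
                  refine ENNReal.tsum_le_tsum fun β => ?_
                  by_cases hβ : β ∈ SB
                  · simp only [hβ, if_true]
                    calc W y β * lw ω 0 β * (lam⁻¹ * T y) ≤ M * lw ω 0 β * (lam⁻¹ * T y) := by
                          gcongr; exact hM y β
                      _ = _ := by ring
                  · simp [hβ]
              _ = (∑' β, (if β ∈ SB then lw ω 0 β else 0)) * (M * (lam⁻¹ * T y)) :=
                  ENNReal.tsum_mul_right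
              _ ≤ 1 * (M * (lam⁻¹ * T y)) := by gcongr; exact kraft ω 0 hSB
              _ = _ := one_mul _
  have hmeas : ∀ y β η, Measurable fun ω : Environment d =>
      (if β ∈ SB ∧ η ∈ A y β then W y β * (lw ω 0 β * lw ω y η) else 0) := by
    intro y β η
    by_cases h : β ∈ SB ∧ η ∈ A y β
    · simp only [h, and_self, if_true]
      exact ((measurable_lw 0 β).mul (measurable_lw y η)).const_mul _
    · simp only [h, if_false]; exact measurable_const
  calc _ ≤ ∑' y, ∑' β, ∑' η, ∫⁻ ω,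
        (if β ∈ SB ∧ η ∈ A y β then W y β * (lw ω 0 β * lw ω y η) else 0)
          ∂(iidEnvironmentLaw ν) :=
        ENNReal.tsum_le_tsum fun y => ENNReal.tsum_le_tsum fun β => stepA y β
    _ = ∫⁻ ω, ∑' y, ∑' β, ∑' η,
        (if β ∈ SB ∧ η ∈ A y β then W y β * (lw ω 0 β * lw ω y η) else 0)
          ∂(iidEnvironmentLaw ν) := lint3 ν _ hmeas
    _ ≤ ∫⁻ ω, (lam + M * (lam⁻¹ * ∑' y, ∑' l, (if l ∈ TT y then lw ω y l else 0)))
          ∂(iidEnvironmentLaw ν) := lintegral_mono stepB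
    _ = _ := by
        rw [lintegral_add_left measurable_const, lintegral_const, measure_univ, mul_one,
          lintegral_const_mul _ ((measT TT).const_mul _), lintegral_const_mul _ (measT TT),
          lintT ν TT]

/-! ### window lemma (3) -/

open Classical in
/-- one class of weights -/
lemma cls (ν : Measure (Row d)) [IsProbabilityMeasure ν]
    (SB : Set (List (Step d))) (SA TT : Site d → Set (List (Step d))) (D : Set (Site d))
    (CB : Site d → Set (List (Step d))) (lam : ℝ≥0∞)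
    (hl : lam ≠ 0) (hl' : lam ≠ ⊤) (hSB : PF SB)
    (hCB : ∀ γ ρ, γ ++ ρ ∈ SB → ρ ∈ CB (endp 0 γ))
    (hTT : ∀ y η ρ1, η ++ ρ1 ∈ SA y → endp y η ∈ D → ∀ ρ ∈ CB (endp y η), η ++ ρ ∈ TT y)
    (Q : Site d → List (Step d) → Prop) :
    ∑' y, ∑' β, ∑' η, (if β ∈ SB ∧ η ∈ AA {η | ∃ ρ, η ++ ρ ∈ SA y} D y β ∧ Q y η then
        aw ν β * aw ν η else 0)
      ≤ lam * ∑' y, ∑' γ, (if γ ∈ FQ (Q y) then aw ν γ else 0)
        + lam⁻¹ * ∑' y, ∑' l, (if l ∈ TT y then aw ν l else 0) := by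
  set A : Site d → List (Step d) → Set (List (Step d)) :=
    fun y β => AA {η | ∃ ρ, η ++ ρ ∈ SA y} D y β with hA
  have hpre : ∀ y, ∀ η ξ : List (Step d), η <+: ξ → ξ ∈ {η | ∃ ρ, η ++ ρ ∈ SA y} →
      η ∈ {η | ∃ ρ, η ++ ρ ∈ SA y} := by
    rintro y η _ ⟨t, rfl⟩ ⟨ρ, hρ⟩
    exact ⟨t ++ ρ, by rw [← List.append_assoc]; exact hρ⟩
  have stepA : ∀ y β η, (if β ∈ SB ∧ η ∈ A y β ∧ Q y η then aw ν β * aw ν η else 0)
      = ∫⁻ ω, (if β ∈ SB ∧ η ∈ A y β ∧ Q y η then lw ω 0 β * lw ω y η else 0)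
          ∂(iidEnvironmentLaw ν) := by
    intro y β η
    by_cases h : β ∈ SB ∧ η ∈ A y β ∧ Q y η
    · simp only [h, and_self, if_true]
      rw [aw_mul' ν h.2.1]
    · simp only [h, if_false, lintegral_zero]
  have stepB : ∀ ω : Environment d, ∑' y, ∑' β, ∑' η,
      (if β ∈ SB ∧ η ∈ A y β ∧ Q y η then lw ω 0 β * lw ω y η else 0)
        ≤ lam * (∑' y, ∑' γ, (if γ ∈ FQ (Q y) then lw ω y γ else 0))
          + lam⁻¹ * ∑' y, ∑' l, (if l ∈ TT y then lw ω y l else 0) := by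
    intro ω
    rw [← ENNReal.tsum_mul_left, ← ENNReal.tsum_mul_left, ← ENNReal.tsum_add]
    refine ENNReal.tsum_le_tsum fun y => ?_
    set T : ℝ≥0∞ := ∑' l, (if l ∈ TT y then lw ω y l else 0) with hT
    set S : ℝ≥0∞ := ∑' γ, (if γ ∈ FQ (Q y) then lw ω y γ else 0) with hS
    have h1 : ∀ β, ∑' η, (if β ∈ SB ∧ η ∈ A y β ∧ Q y η then lw ω 0 β * lw ω y η else 0)
        ≤ (if β ∈ SB ∧ ∃ v ∈ sitesL 0 β, ee CB ω v ≤ lam then lw ω 0 β else 0) * S
          + (if β ∈ SB then lw ω 0 β else 0) * (lam⁻¹ * T) := by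
      intro β
      by_cases hβ : β ∈ SB
      · simp only [hβ, true_and, if_true]
        have h2 := pt ω y β {η | ∃ ρ, η ++ ρ ∈ SA y} (TT y) D CB lam hl hl' (hpre y)
          (fun η ⟨ρ1, h⟩ hD ρ hρ => hTT y η ρ1 h hD ρ hρ) (Q y)
        calc ∑' η, (if η ∈ A y β ∧ Q y η then lw ω 0 β * lw ω y η else 0)
            = lw ω 0 β * ∑' η, (if η ∈ A y β ∧ Q y η then lw ω y η else 0) := by
              rw [← ENNReal.tsum_mul_left]
              refine tsum_congr fun η => ?_
              split_ifs <;> simp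
          _ ≤ lw ω 0 β * ((if ∃ v ∈ sitesL 0 β, ee CB ω v ≤ lam then S else 0)
              + lam⁻¹ * T) := mul_le_mul_right h2 _
          _ = _ := by
              rw [mul_add]
              congr 1
              split_ifs <;> simp
      · simp [hβ]
    calc ∑' β, ∑' η, (if β ∈ SB ∧ η ∈ A y β ∧ Q y η then lw ω 0 β * lw ω y η else 0)
        ≤ ∑' β, ((if β ∈ SB ∧ ∃ v ∈ sitesL 0 β, ee CB ω v ≤ lam then lw ω 0 β else 0) * S
          + (if β ∈ SB then lw ω 0 β else 0) * (lam⁻¹ * T)) := ENNReal.tsum_le_tsum h1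
      _ = (∑' β, (if β ∈ SB ∧ ∃ v ∈ sitesL 0 β, ee CB ω v ≤ lam then lw ω 0 β else 0)) * S
          + (∑' β, (if β ∈ SB then lw ω 0 β else 0)) * (lam⁻¹ * T) := by
          rw [ENNReal.tsum_add, ENNReal.tsum_mul_right, ENNReal.tsum_mul_right]
      _ ≤ lam * S + 1 * (lam⁻¹ * T) := by
          refine add_le_add (mul_le_mul_left (bad_sum ω SB CB hCB lam) _)
            (mul_le_mul_left (kraft ω 0 hSB) _)
      _ = _ := by rw [one_mul]
  have hmeas : ∀ y β η, Measurable fun ω : Environment d =>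
      (if β ∈ SB ∧ η ∈ A y β ∧ Q y η then lw ω 0 β * lw ω y η else 0) := by
    intro y β η
    by_cases h : β ∈ SB ∧ η ∈ A y β ∧ Q y η
    · simp only [h, and_self, if_true]
      exact (measurable_lw 0 β).mul (measurable_lw y η)
    · simp only [h, if_false]; exact measurable_const
  calc ∑' y, ∑' β, ∑' η, (if β ∈ SB ∧ η ∈ A y β ∧ Q y η then aw ν β * aw ν η else 0)
      = ∑' y, ∑' β, ∑' η, ∫⁻ ω, (if β ∈ SB ∧ η ∈ A y β ∧ Q y η then
          lw ω 0 β * lw ω y η else 0) ∂(iidEnvironmentLaw ν) :=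
        tsum_congr fun y => tsum_congr fun β => tsum_congr fun η => stepA y β η
    _ = ∫⁻ ω, ∑' y, ∑' β, ∑' η, (if β ∈ SB ∧ η ∈ A y β ∧ Q y η then
          lw ω 0 β * lw ω y η else 0) ∂(iidEnvironmentLaw ν) := lint3 ν _ hmeas
    _ ≤ ∫⁻ ω, (lam * (∑' y, ∑' γ, (if γ ∈ FQ (Q y) then lw ω y γ else 0))
          + lam⁻¹ * ∑' y, ∑' l, (if l ∈ TT y then lw ω y l else 0))
          ∂(iidEnvironmentLaw ν) := lintegral_mono stepB
    _ = _ := by
        rw [lintegral_add_left ((measT fun y => FQ (Q y)).const_mul _),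
          lintegral_const_mul _ (measT fun y => FQ (Q y)), lintegral_const_mul _ (measT TT),
          lintT ν TT, lintT ν (fun y => FQ (Q y))]

/-- dyadic layers -/
lemma dyadic (M r : ℝ≥0∞) (hM : M ≠ ⊤) (hr : r ≤ M) : open Classical in
    r ≤ ∑' j : ℕ, (if M / 2 ^ (j + 1) < r then M / 2 ^ j else 0) := by
  classical
  by_cases h0 : r = 0
  · rw [h0]; exact zero_le
  have hrt : r ≠ ⊤ := ne_top_of_le_ne_top hM hr
  have hex : ∃ j : ℕ, M / 2 ^ (j + 1) < r := by
    obtain ⟨n, hn⟩ := ENNReal.exists_nat_gt (ENNReal.div_ne_top hM h0)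
    refine ⟨n, ?_⟩
    have h2 : M / r < 2 ^ (n + 1) := hn.trans_le (by
      have : n ≤ 2 ^ (n + 1) := (Nat.lt_two_pow_self (n := n)).le.trans
        (Nat.pow_le_pow_right (by norm_num) (by omega))
      exact_mod_cast this)
    rw [ENNReal.div_lt_iff (Or.inl (by positivity)) (Or.inl (by finiteness))]
    rw [ENNReal.div_lt_iff (Or.inl h0) (Or.inl hrt)] at h2
    rwa [mul_comm] at h2
  refine le_trans ?_ (ENNReal.le_tsum (Nat.find hex))
  rw [if_pos (Nat.find_spec hex)]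
  rcases Nat.eq_zero_or_pos (Nat.find hex) with h | h
  · rw [h]; simpa using hr
  · obtain ⟨k, hk⟩ : ∃ k, Nat.find hex = k + 1 := ⟨Nat.find hex - 1, by omega⟩
    rw [hk]
    exact not_lt.1 (Nat.find_min hex (by omega : k < Nat.find hex))

lemma num1 : (2:ℝ≥0∞)⁻¹ * (3/4)⁻¹ = 2/3 := by
  rw [← ENNReal.toReal_eq_toReal_iff' (ENNReal.mul_ne_top (by norm_num)
    (ENNReal.inv_ne_top.2 (ENNReal.div_ne_zero.2 ⟨by norm_num, by norm_num⟩))) (by finiteness)]
  rw [ENNReal.toReal_mul, ENNReal.toReal_inv, ENNReal.toReal_inv, ENNReal.toReal_div,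
    ENNReal.toReal_div]
  norm_num

lemma num2 : ∑' j : ℕ, (3/4 : ℝ≥0∞) ^ j = 4 := by
  rw [ENNReal.tsum_geometric]
  have h : (1:ℝ≥0∞) - 3/4 = 1/4 := by
    refine ENNReal.sub_eq_of_eq_add (by finiteness) ?_
    rw [← ENNReal.add_div]
    norm_num
    exact (ENNReal.div_self (by norm_num) (by norm_num)).symm
  rw [h]
  simp

lemma num3 : ∑' j : ℕ, (2/3 : ℝ≥0∞) ^ j = 3 := by
  rw [ENNReal.tsum_geometric]
  have h : (1:ℝ≥0∞) - 2/3 = 1/3 := by
    refine ENNReal.sub_eq_of_eq_add (by finiteness) ?_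
    rw [← ENNReal.add_div]
    norm_num
    exact (ENNReal.div_self (by norm_num) (by norm_num)).symm
  rw [h]
  simp

lemma lw_le_one (ω : Environment d) (x : Site d) (l : List (Step d)) : lw ω x l ≤ 1 := by
  classical
  refine le_trans ?_ (kraft ω x (W := {l}) (fun a ha b hb _ => by
    rw [Set.mem_singleton_iff] at ha hb; rw [ha, hb]))
  refine le_trans (le_of_eq ?_) (ENNReal.le_tsum l)
  simp

lemma aw_le_one (ν : Measure (Row d)) [IsProbabilityMeasure ν] (l : List (Step d)) :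
    aw ν l ≤ 1 := by
  unfold aw
  calc _ ≤ ∫⁻ _ : Environment d, (1 : ℝ≥0∞) ∂(iidEnvironmentLaw ν) :=
        lintegral_mono fun ω => lw_le_one ω 0 l
    _ = 1 := by simp

open Classical in
/-- **window lemma (3)**: weight carried by the runner. -/
theorem win3 (ν : Measure (Row d)) [IsProbabilityMeasure ν]
    (SB : Set (List (Step d))) (SA TT : Site d → Set (List (Step d))) (D : Set (Site d))
    (CB : Site d → Set (List (Step d))) (W : Site d → List (Step d) → ℝ≥0∞) (M lam : ℝ≥0∞)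
    (hl : lam ≠ 0) (hl' : lam ≠ ⊤) (hSB : PF SB) (hSA : ∀ y, PF (SA y))
    (hCB : ∀ γ ρ, γ ++ ρ ∈ SB → ρ ∈ CB (endp 0 γ))
    (hTT : ∀ y η ρ1, η ++ ρ1 ∈ SA y → endp y η ∈ D → ∀ ρ ∈ CB (endp y η), η ++ ρ ∈ TT y)
    (hMt : M ≠ ⊤) (hM : ∀ y α, W y α ≤ M)
    (hW : ∑' y, ∑' α, (if α ∈ SA y then W y α * aw ν α else 0) ≤ 1) :
    ∑' y, ∑' β, ∑' α, (if β ∈ SB ∧ α ∈ SA y ∧ (∃ v, v ∈ sitesL 0 β ∧ v ∈ sitesL y α) ∧
        (∀ v, v ∈ sitesL 0 β → v ∈ sitesL y α → v ∈ D) then W y α * (aw ν β * aw ν α) else 0)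
      ≤ 8 * lam + 3 * (M * (lam⁻¹ * ∑' y, ∑' l, (if l ∈ TT y then aw ν l else 0))) := by
  set A : Site d → List (Step d) → Set (List (Step d)) :=
    fun y β => AA {η | ∃ ρ, η ++ ρ ∈ SA y} D y β with hA
  set T : ℝ≥0∞ := ∑' y, ∑' l, (if l ∈ TT y then aw ν l else 0) with hTdef
  obtain ⟨f, hf⟩ : ∃ f : Site d → List (Step d) → ℝ≥0∞, ∀ y η, f y η =
      ∑' ρ, (if η ++ ρ ∈ SA y then W y (η ++ ρ) * aw ν (η ++ ρ) else 0) := ⟨_, fun _ _ => rfl⟩
  have hfM : ∀ y η, f y η ≤ M * aw ν η := by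
    intro y η
    rw [hf]
    calc _ ≤ ∑' ρ, M * (if η ++ ρ ∈ SA y then aw ν (η ++ ρ) else 0) := by
          refine ENNReal.tsum_le_tsum fun ρ => ?_
          split_ifs
          · gcongr; exact hM _ _
          · exact zero_le
      _ = M * ∑' ρ, (if η ++ ρ ∈ SA y then aw ν (η ++ ρ) else 0) := ENNReal.tsum_mul_left
      _ ≤ _ := mul_le_mul_right (ext_aw ν η (hSA y)) _
  obtain ⟨r, hr⟩ : ∃ r : Site d → List (Step d) → ℝ≥0∞, ∀ y η, r y η = f y η / aw ν η :=
    ⟨_, fun _ _ => rfl⟩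
  have hrM : ∀ y η, r y η ≤ M := fun y η => by
    rw [hr]; exact ENNReal.div_le_of_le_mul (hfM y η)
  have hfr : ∀ y η, f y η = aw ν η * r y η := by
    intro y η
    by_cases h0 : aw ν η = 0
    · have := hfM y η
      rw [h0, mul_zero] at this
      rw [h0, zero_mul]
      exact le_antisymm this zero_le
    · rw [hr, ENNReal.mul_div_cancel h0 (ne_top_of_le_ne_top ENNReal.one_ne_top (aw_le_one ν η))]
  -- classes
  obtain ⟨Q, hQ⟩ : ∃ Q : ℕ → Site d → List (Step d) → Prop,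
      ∀ j y η, Q j y η ↔ M / 2 ^ (j + 1) < r y η :=
    ⟨fun j y η => M / 2 ^ (j + 1) < r y η, fun _ _ _ => Iff.rfl⟩
  set S : ℕ → ℝ≥0∞ := fun j => ∑' y, ∑' γ, (if γ ∈ FQ (Q j y) then aw ν γ else 0) with hS
  have hVil : ∀ j, M / 2 ^ (j + 1) * S j ≤ 1 := by
    intro j
    refine le_trans ?_ hW
    rw [hS, ← ENNReal.tsum_mul_left]
    refine ENNReal.tsum_le_tsum fun y => ?_
    refine ville (pf_FQ (Q j y)) (aw ν) (fun ξ => if ξ ∈ SA y then W y ξ * aw ν ξ else 0)
      (M / 2 ^ (j + 1)) ?_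
    intro γ hγ
    have hinj : Function.Injective (fun ρ : List (Step d) => γ ++ ρ) :=
      fun a b h => List.append_cancel_left h
    calc M / 2 ^ (j + 1) * aw ν γ ≤ r y γ * aw ν γ := mul_le_mul_left ((hQ j y γ).1 hγ.1).le _
      _ = f y γ := by rw [hfr, mul_comm]
      _ = ∑' ρ, (if γ ++ ρ ∈ SA y then W y (γ ++ ρ) * aw ν (γ ++ ρ) else 0) := hf y γ
      _ ≤ ∑' ρ, (fun ξ => if γ <+: ξ then (if ξ ∈ SA y then W y ξ * aw ν ξ else 0) else 0)
            (γ ++ ρ) := by
          refine ENNReal.tsum_le_tsum fun ρ => ?_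
          simp
      _ ≤ ∑' ξ, (if γ <+: ξ then (if ξ ∈ SA y then W y ξ * aw ν ξ else 0) else 0) :=
          ENNReal.tsum_comp_le_tsum_of_injective hinj
            (fun ξ => if γ <+: ξ then (if ξ ∈ SA y then W y ξ * aw ν ξ else 0) else 0)
      _ = _ := by
          refine tsum_congr fun ξ => ?_
          by_cases h : γ <+: ξ <;> simp [h]
  -- step 1
  have step1 : ∀ y β, ∑' α, (if β ∈ SB ∧ α ∈ SA y ∧ (∃ v, v ∈ sitesL 0 β ∧ v ∈ sitesL y α) ∧
        (∀ v, v ∈ sitesL 0 β → v ∈ sitesL y α → v ∈ D) then W y α * (aw ν β * aw ν α) else 0)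
      ≤ ∑' η, ∑' j, M / 2 ^ j * (if β ∈ SB ∧ η ∈ A y β ∧ Q j y η then aw ν β * aw ν η else 0) := by
    intro y β
    by_cases hβ : β ∈ SB
    · simp only [hβ, true_and]
      calc ∑' α, (if α ∈ SA y ∧ (∃ v, v ∈ sitesL 0 β ∧ v ∈ sitesL y α) ∧
            (∀ v, v ∈ sitesL 0 β → v ∈ sitesL y α → v ∈ D) then W y α * (aw ν β * aw ν α) else 0)
          = aw ν β * ∑' α, (if α ∈ SA y ∧ (∃ v, v ∈ sitesL 0 β ∧ v ∈ sitesL y α) ∧
            (∀ v, v ∈ sitesL 0 β → v ∈ sitesL y α → v ∈ D) then W y α * aw ν α else 0) := by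
            rw [← ENNReal.tsum_mul_left]
            refine tsum_congr fun α => ?_
            split_ifs
            · ring
            · simp
        _ ≤ aw ν β * ∑' η, (if η ∈ A y β then f y η else 0) := by
            refine mul_le_mul_right ?_ _
            refine (first_hit (SA y) D y β (fun α => W y α * aw ν α)).trans
              (ENNReal.tsum_le_tsum fun η => ?_)
            by_cases h : η ∈ A y β
            · rw [if_pos h, if_pos h, hf]
            · rw [if_neg h, if_neg h]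
        _ ≤ _ := by
            rw [← ENNReal.tsum_mul_left]
            refine ENNReal.tsum_le_tsum fun η => ?_
            by_cases h : η ∈ A y β
            · simp only [h, if_true, true_and]
              calc aw ν β * f y η = aw ν β * aw ν η * r y η := by rw [hfr]; ring
                _ ≤ aw ν β * aw ν η *
                    ∑' j : ℕ, (if M / 2 ^ (j + 1) < r y η then M / 2 ^ j else 0) :=
                    mul_le_mul_right (dyadic M _ hMt (hrM y η)) _
                _ = _ := by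
                    rw [← ENNReal.tsum_mul_left]
                    refine tsum_congr fun j => ?_
                    by_cases hj : M / 2 ^ (j + 1) < r y η
                    · rw [if_pos hj, if_pos ((hQ j y η).2 hj)]; ring
                    · rw [if_neg hj, if_neg (fun h' => hj ((hQ j y η).1 h'))]; simp
            · simp [h]
    · simp [hβ]
  -- per class
  have hj : ∀ j : ℕ, ∑' y, ∑' β, ∑' η, M / 2 ^ j *
      (if β ∈ SB ∧ η ∈ A y β ∧ Q j y η then aw ν β * aw ν η else 0)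
      ≤ 2 * lam * (3/4) ^ j + M * (lam⁻¹ * T) * (2/3) ^ j := by
    intro j
    have hlj : lam * (3/4) ^ j ≠ 0 := by
      refine mul_ne_zero hl (pow_ne_zero _ ?_)
      exact ENNReal.div_ne_zero.2 ⟨by norm_num, by norm_num⟩
    have hlj' : lam * (3/4) ^ j ≠ ⊤ := by
      refine ENNReal.mul_ne_top hl' (ENNReal.pow_ne_top (by finiteness))
    have h1 := cls ν SB SA TT D CB (lam * (3/4) ^ j) hlj hlj' hSB hCB hTT (Q j)
    have h2 : M / 2 ^ j = 2 * (M / 2 ^ (j + 1)) := by
      rw [pow_succ, div_eq_mul_inv, div_eq_mul_inv,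
        ENNReal.mul_inv (Or.inl (by positivity)) (Or.inl (by finiteness))]
      calc M * (2 ^ j)⁻¹ = (2 * 2⁻¹) * (M * (2 ^ j)⁻¹) := by
            rw [ENNReal.mul_inv_cancel (by norm_num) (by norm_num), one_mul]
        _ = _ := by ring
    have h3 : M / 2 ^ j * (lam * (3/4) ^ j)⁻¹ = M * lam⁻¹ * (2/3) ^ j := by
      rw [ENNReal.mul_inv (Or.inl hl) (Or.inl hl'), div_eq_mul_inv, ← num1, mul_pow,
        ENNReal.inv_pow, ENNReal.inv_pow]
      ring
    calc ∑' y, ∑' β, ∑' η, M / 2 ^ j *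
        (if β ∈ SB ∧ η ∈ A y β ∧ Q j y η then aw ν β * aw ν η else 0)
        = M / 2 ^ j * ∑' y, ∑' β, ∑' η,
          (if β ∈ SB ∧ η ∈ A y β ∧ Q j y η then aw ν β * aw ν η else 0) := by
          simp only [ENNReal.tsum_mul_left]
      _ ≤ M / 2 ^ j * (lam * (3/4) ^ j * S j + (lam * (3/4) ^ j)⁻¹ * T) :=
          mul_le_mul_right h1 _
      _ = 2 * lam * (3/4) ^ j * (M / 2 ^ (j + 1) * S j)
          + (M / 2 ^ j * (lam * (3/4) ^ j)⁻¹) * T := by
          rw [mul_add, h2]; ring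
      _ ≤ 2 * lam * (3/4) ^ j * 1 + (M * lam⁻¹ * (2/3) ^ j) * T := by
          rw [h3]
          exact add_le_add (mul_le_mul_right (hVil j) _) le_rfl
      _ = _ := by ring
  calc _ ≤ ∑' y, ∑' β, ∑' η, ∑' j, M / 2 ^ j *
        (if β ∈ SB ∧ η ∈ A y β ∧ Q j y η then aw ν β * aw ν η else 0) :=
        ENNReal.tsum_le_tsum fun y => ENNReal.tsum_le_tsum fun β => step1 y β
    _ = ∑' j, ∑' y, ∑' β, ∑' η, M / 2 ^ j *
        (if β ∈ SB ∧ η ∈ A y β ∧ Q j y η then aw ν β * aw ν η else 0) := by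
        symm
        rw [ENNReal.tsum_comm]
        refine tsum_congr fun y => ?_
        rw [ENNReal.tsum_comm]
        refine tsum_congr fun β => ?_
        rw [ENNReal.tsum_comm]
    _ ≤ ∑' j : ℕ, (2 * lam * (3/4) ^ j + M * (lam⁻¹ * T) * (2/3) ^ j) :=
        ENNReal.tsum_le_tsum hj
    _ = 8 * lam + 3 * (M * (lam⁻¹ * T)) := by
        rw [ENNReal.tsum_add, ENNReal.tsum_mul_left, ENNReal.tsum_mul_left, num2, num3]
        ring

end Crest.Agent.R154.Win592
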