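import Crest.Agent.R154.DensFR_596

/-! Row 154 (helper596), ROAD 801: traces, window bound. -/

set_option autoImplicit false
set_option linter.unusedVariables false
set_option linter.unusedSectionVars false

namespace Crest.Agent.R154.FR596

open scoped ENNReal Classical
open Crest.Agent.R154.B5A

section trace
variable {B G : Type*} [AddCommGroup G]

/-- trace of a list read from the tie down: (position, depth) -/
def TR (h : B → ℕ) (z : B → G) (s : B → Set (G × ℕ)) : List B → G → ℕ → Set (G × ℕ)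
  | [], _, _ => ∅
  | (b :: L), x, a => {q | ∃ y k, (y, k) ∈ s b ∧ q = (x + y, a + k)} ∪ TR h z s L (x + z b) (a + h b)

variable (h : B → ℕ) (z : B → G) (s : B → Set (G × ℕ))

lemma TR_append (L L' : List B) (x : G) (a : ℕ) :
    TR h z s (L ++ L') x a = TR h z s L x a ∪ TR h z s L' (x + Dp z L) (a + HT h L) := by
  induction L generalizing x a with
  | nil => simp [TR, Dp, HT]
  | cons b L ih =>
    simp only [List.cons_append, TR, ih, Set.union_assoc]
    rw [HT_cons]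
    have e : x + z b + Dp z L = x + Dp z (b :: L) := by simp [Dp, add_assoc]
    rw [e, add_assoc a]

lemma TR_shift (L : List B) (x v : G) (a k : ℕ) (y : G) :
    (y, k) ∈ TR h z s L (x + v) a ↔ (y - v, k) ∈ TR h z s L x a := by
  induction L generalizing x a with
  | nil => simp [TR]
  | cons b L ih =>
    simp only [TR, Set.mem_union, Set.mem_setOf_eq, Prod.mk.injEq]
    have e : x + v + z b = (x + z b) + v := by abel
    rw [e, ih]
    refine or_congr ?_ Iff.rfl
    constructor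
    · rintro ⟨y', k', h1, h2, h3⟩
      exact ⟨y', k', h1, by rw [h2]; abel, h3⟩
    · rintro ⟨y', k', h1, h2, h3⟩
      refine ⟨y', k', h1, ?_, h3⟩
      rw [sub_eq_iff_eq_add] at h2
      rw [h2]; abel

lemma TR_depth (hs : ∀ b y k, (y, k) ∈ s b → 1 ≤ k ∧ k ≤ h b) (L : List B) (x : G) (a k : ℕ)
    (y : G) (hy : (y, k) ∈ TR h z s L x a) : a < k ∧ k ≤ a + HT h L := by
  induction L generalizing x a with
  | nil => simp [TR] at hy
  | cons b L ih =>
    rw [HT_cons]
    rcases hy with ⟨y', k', h1, h2⟩ | h2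
    · have := hs b y' k' h1
      simp only [Prod.mk.injEq] at h2
      omega
    · have := ih _ _ h2
      omega

end trace

section fr
variable {B : Type*} (Λ : B → ℝ≥0∞) (h : B → ℕ)

/-- one walker: upper part, piece, rest -/
lemma FR_win (h1 : ∀ b, 1 ≤ h b) (hΛ : ∑' b, Λ b = 1) (a0 T i0 N : ℕ) (hN : a0 + i0 + T ≤ N)
    (F : List B → ℝ≥0∞) (Φ : List B → List B → ℝ≥0∞) (hF : ∀ L, F L ≤ 1)
    (hΦ : ∀ L1 L2 L3, isFR h a0 L1 → HT h L1 ≤ a0 + i0 → isFR h T L2 →
      F (L1 ++ (L2 ++ L3)) ≤ Φ L1 L2) :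
    FR Λ h N F ≤ FR Λ h a0 (fun L => if a0 + i0 < HT h L then 1 else 0) +
      FR Λ h a0 (fun L1 => if HT h L1 ≤ a0 + i0 then FR Λ h T (fun L2 => Φ L1 L2) else 0) := by
  rw [FR_split Λ h h1 a0 N (by omega), ← FR_add]
  refine FR_mono Λ h _ fun L1 hL1 => ?_
  by_cases hh : HT h L1 ≤ a0 + i0
  · rw [if_pos hh, if_neg (by omega), zero_add, FR_split Λ h h1 T (N - HT h L1) (by omega)]
    refine FR_mono Λ h _ fun L2 hL2 => ?_
    exact FR_le Λ h h1 hΛ _ fun L3 _ => hΦ L1 L2 L3 hL1 hh hL2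
  · rw [if_neg hh, if_pos (by omega), add_zero]
    exact FR_le Λ h h1 hΛ _ fun L3 _ => hF _

end fr

section two
variable {BX BY G : Type*} [AddCommGroup G]
variable (ΛX : BX → ℝ≥0∞) (hX : BX → ℕ) (ΛY : BY → ℝ≥0∞) (hY : BY → ℕ)

lemma FR_comm (N M : ℕ) (F : List BX → List BY → ℝ≥0∞) :
    FR ΛX hX N (fun L => FR ΛY hY M (fun K => F L K)) =
      FR ΛY hY M (fun K => FR ΛX hX N (fun L => F L K)) := by
  have e1 : ∀ L, (if isFR hX N L then LW ΛX L * FR ΛY hY M (fun K => F L K) else 0) =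
      ∑' K, (if isFR hX N L ∧ isFR hY M K then LW ΛX L * (LW ΛY K * F L K) else 0) := by
    intro L
    by_cases hL : isFR hX N L
    · rw [if_pos hL, FR, ← ENNReal.tsum_mul_left]
      refine tsum_congr fun K => ?_
      by_cases hK : isFR hY M K
      · rw [if_pos hK, if_pos ⟨hL, hK⟩]
      · rw [if_neg hK, if_neg (fun hh => hK hh.2), mul_zero]
    · rw [if_neg hL]
      exact (ENNReal.tsum_eq_zero.2 fun K => if_neg (fun hh => hL hh.1)).symm
  have e2 : ∀ K, (if isFR hY M K then LW ΛY K * FR ΛX hX N (fun L => F L K) else 0) =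
      ∑' L, (if isFR hX N L ∧ isFR hY M K then LW ΛX L * (LW ΛY K * F L K) else 0) := by
    intro K
    by_cases hK : isFR hY M K
    · rw [if_pos hK, FR, ← ENNReal.tsum_mul_left]
      refine tsum_congr fun L => ?_
      by_cases hL : isFR hX N L
      · rw [if_pos hL, if_pos ⟨hL, hK⟩]; ring
      · rw [if_neg hL, if_neg (fun hh => hL hh.1), mul_zero]
    · rw [if_neg hK]
      exact (ENNReal.tsum_eq_zero.2 fun L => if_neg (fun hh => hK hh.2)).symm
  rw [FR, FR]
  simp_rw [e1, e2]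
  exact ENNReal.tsum_comm

variable (zX : BX → G) (sX : BX → Set (G × ℕ)) (zY : BY → G) (sY : BY → Set (G × ℕ))

/-- contact condition of two pieces, all contacts in `[lo, hi]` -/
def Ctc (lo hi a a' : ℕ) (x : G) (L : List BX) (M : List BY) : Prop :=
  (∃ y k, (y, k) ∈ TR hX zX sX L 0 a ∧ (y, k) ∈ TR hY zY sY M x a') ∧
  (∀ y k, (y, k) ∈ TR hX zX sX L 0 a → (y, k) ∈ TR hY zY sY M x a' → lo ≤ k ∧ k ≤ hi)

/-- the weight of the piece pairs, one of them local -/
noncomputable def Th (T i0 lo hi : ℕ) (P : List BX → List BY → Prop) (a a' : ℕ) (x : G) : ℝ≥0∞ :=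
  FR ΛX hX T (fun L => FR ΛY hY T (fun M =>
    if HT hX L ≤ T + i0 ∧ HT hY M ≤ T + i0 ∧ P L M ∧ Ctc hX hY zX sX zY sY lo hi a a' x L M
      then 1 else 0))

/-- reduction of `Th` to the crossings of given heights -/
lemma Th_le (T i0 lo hi : ℕ) (P : List BX → List BY → Prop) (Q : ℕ → ℕ → List BX → List BY → Prop)
    (hPQ : ∀ L M i j, HT hX L = T + i → HT hY M = T + j → P L M → Q i j L M)
    (a a' : ℕ) (x : G) :
    Th ΛX hX ΛY hY zX sX zY sY T i0 lo hi P a a' x ≤
      ∑ i ∈ Finset.range (i0 + 1), ∑ j ∈ Finset.range (i0 + 1), ∑' L, ∑' M,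
        (if HT hX L = T + i ∧ HT hY M = T + j ∧ Q i j L M ∧
          Ctc hX hY zX sX zY sY lo hi a a' x L M then LW ΛX L * LW ΛY M else 0) := by
  have e : ∑ i ∈ Finset.range (i0 + 1), ∑ j ∈ Finset.range (i0 + 1), ∑' L, ∑' M,
        (if HT hX L = T + i ∧ HT hY M = T + j ∧ Q i j L M ∧
          Ctc hX hY zX sX zY sY lo hi a a' x L M then LW ΛX L * LW ΛY M else 0) =
      ∑' L, ∑' M, ∑ i ∈ Finset.range (i0 + 1), ∑ j ∈ Finset.range (i0 + 1),
        (if HT hX L = T + i ∧ HT hY M = T + j ∧ Q i j L M ∧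
          Ctc hX hY zX sX zY sY lo hi a a' x L M then LW ΛX L * LW ΛY M else 0) := by
    simp_rw [Summable.tsum_finsetSum (fun _ _ => ENNReal.summable)]
  rw [e, Th, FR]
  refine ENNReal.tsum_le_tsum fun L => ?_
  by_cases hL : isFR hX T L
  swap
  · rw [if_neg hL]; exact zero_le
  rw [if_pos hL, FR, ← ENNReal.tsum_mul_left]
  refine ENNReal.tsum_le_tsum fun M => ?_
  by_cases hM : isFR hY T M
  swap
  · rw [if_neg hM, mul_zero]; exact zero_le
  rw [if_pos hM]
  by_cases hc : HT hX L ≤ T + i0 ∧ HT hY M ≤ T + i0 ∧ P L M ∧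
      Ctc hX hY zX sX zY sY lo hi a a' x L M
  swap
  · rw [if_neg hc]; simp
  rw [if_pos hc, mul_one]
  obtain ⟨c1, c2, c3, c4⟩ := hc
  have g1 := isFR_ge hX L T hL
  have g2 := isFR_ge hY M T hM
  have m1 : HT hX L - T ∈ Finset.range (i0 + 1) := Finset.mem_range.2 (by omega)
  have m2 : HT hY M - T ∈ Finset.range (i0 + 1) := Finset.mem_range.2 (by omega)
  refine le_trans ?_ (Finset.single_le_sum (f := fun i => ∑ j ∈ Finset.range (i0 + 1),
        (if HT hX L = T + i ∧ HT hY M = T + j ∧ Q i j L M ∧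
          Ctc hX hY zX sX zY sY lo hi a a' x L M then LW ΛX L * LW ΛY M else 0))
          (fun _ _ => zero_le) m1)
  refine le_trans ?_ (Finset.single_le_sum (f := fun j =>
        (if HT hX L = T + (HT hX L - T) ∧ HT hY M = T + j ∧ Q (HT hX L - T) j L M ∧
          Ctc hX hY zX sX zY sY lo hi a a' x L M then LW ΛX L * LW ΛY M else 0))
          (fun _ _ => zero_le) m2)
  rw [if_pos ⟨by omega, by omega, hPQ L M _ _ (by omega) (by omega) c3, c4⟩]

lemma Th_le_one (hX1 : ∀ b, 1 ≤ hX b) (hΛX : ∑' b, ΛX b = 1) (hY1 : ∀ b, 1 ≤ hY b)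
    (hΛY : ∑' b, ΛY b = 1) (T i0 lo hi : ℕ) (P : List BX → List BY → Prop) (a a' : ℕ) (x : G) :
    Th ΛX hX ΛY hY zX sX zY sY T i0 lo hi P a a' x ≤ 1 := by
  refine FR_le ΛX hX hX1 hΛX _ fun L _ => FR_le ΛY hY hY1 hΛY _ fun M _ => ?_
  split_ifs <;> simp

end two

end Crest.Agent.R154.FR596
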