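import Crest.Agent.R154.NBDefs_28
import Crest.Agent.R154.B5Abs_566

set_option autoImplicit false
set_option maxHeartbeats 1000000

namespace Crest.Agent.R154.W606

open MeasureTheory ProbabilityTheory Crest.ProbabilityR.RandomEnvironment Crest.Agent.R154
open Crest.Agent.R154.Flux132 (lev opp)
open Crest.Agent.R154.Flux566 (lw endp sitesL measurable_lw locOn_lw endp_append endp_eq_add)
open Crest.Agent.R154.NB28
open scoped ENNReal
open Classical

variable {d : ℕ}

noncomputable def ind (P : Prop) (x : ℝ≥0∞) : ℝ≥0∞ := if P then x else 0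

lemma ind_pos {P : Prop} (h : P) {x : ℝ≥0∞} : ind P x = x := if_pos h
lemma ind_neg {P : Prop} (h : ¬ P) {x : ℝ≥0∞} : ind P x = 0 := if_neg h
lemma ind_le {P : Prop} {x : ℝ≥0∞} : ind P x ≤ x := by
  by_cases h : P
  · rw [ind_pos h]
  · rw [ind_neg h]; exact zero_le
lemma ind_mono {P R : Prop} (h : P → R) {x y : ℝ≥0∞} (hxy : P → x ≤ y) : ind P x ≤ ind R y := by
  by_cases hp : P
  · rw [ind_pos hp, ind_pos (h hp)]; exact hxy hp
  · rw [ind_neg hp]; exact zero_le
lemma ind_le' {P : Prop} {x y : ℝ≥0∞} (h : P → x ≤ y) : ind P x ≤ y := by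
  by_cases hp : P
  · rw [ind_pos hp]; exact h hp
  · rw [ind_neg hp]; exact zero_le

def PF (S : Set (List (Step d))) : Prop := ∀ l ∈ S, ∀ l', l ++ l' ∈ S → l' = []

lemma lw_append (ω : Environment d) (x : Site d) (l l' : List (Step d)) :
    lw ω x (l ++ l') = lw ω x l * lw ω (endp x l) l' := by
  induction l generalizing x with
  | nil => simp [lw, endp]
  | cons e l ih => simp only [List.cons_append, lw, endp, ih, mul_assoc]

lemma sitesL_append (x : Site d) (l l' : List (Step d)) :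
    sitesL x (l ++ l') = sitesL x l ++ sitesL (endp x l) l' := by
  induction l generalizing x with
  | nil => rfl
  | cons e l ih => simp only [List.cons_append, sitesL, endp, ih]

lemma sitesL_add (x z : Site d) (l : List (Step d)) :
    sitesL (x + z) l = (sitesL x l).map (· + z) := by
  induction l generalizing x with
  | nil => rfl
  | cons e l ih =>
    simp only [sitesL, List.map_cons]
    rw [show x + z + stepVec e = x + stepVec e + z by abel, ih]

lemma endp_mem_sites (x : Site d) (l m : List (Step d)) (hm : m ≠ []) :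
    endp x l ∈ sitesL x (l ++ m) := by
  rw [sitesL_append]
  refine List.mem_append_right _ ?_
  cases m with
  | nil => exact absurd rfl hm
  | cons e m => simp [sitesL]

lemma sum_row_le (ω : Environment d) (x : Site d) :
    ∑' e : Step d, ENNReal.ofReal ((ω x).1 e) ≤ 1 := by
  rw [tsum_fintype, ← ENNReal.ofReal_sum_of_nonneg (fun e _ => (ω x).2.1 e), (ω x).2.2]
  simp

lemma pf_len (ω : Environment d) (N : ℕ) : ∀ (x : Site d) (S : Set (List (Step d))), PF S →
    ∑' l, (ind (l ∈ S ∧ l.length ≤ N) (lw ω x l)) ≤ 1 := by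
  induction N with
  | zero =>
    intro x S _
    rw [tsum_eq_single []]
    · exact ind_le.trans (by simp [lw])
    · intro l hl
      rw [ind_neg]
      rintro ⟨_, h⟩
      exact hl (List.length_eq_zero_iff.mp (by omega))
  | succ N ih =>
    intro x S hS
    by_cases h0 : ([] : List (Step d)) ∈ S
    · rw [tsum_eq_single []]
      · exact ind_le.trans (by simp [lw])
      · intro l hl
        rw [ind_neg]
        rintro ⟨h, _⟩
        exact hl (hS [] h0 l (by simpa using h))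
    · rw [B5A.tsum_list, ind_neg (fun h => h0 h.1), zero_add]
      refine le_trans (ENNReal.tsum_le_tsum fun e => ?_) (sum_row_le ω x)
      have h := ih (x + stepVec e) {l | e :: l ∈ S} (by
        intro l hl l' hl'
        exact hS (e :: l) hl l' (by simpa using hl'))
      calc ∑' l, (ind (e :: l ∈ S ∧ (e :: l).length ≤ N + 1) (lw ω x (e :: l)))
          = ENNReal.ofReal ((ω x).1 e) *
            ∑' l, (ind (l ∈ {l | e :: l ∈ S} ∧ l.length ≤ N) (lw ω (x + stepVec e) l)) := by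
            rw [← ENNReal.tsum_mul_left]
            refine tsum_congr fun l => ?_
            by_cases hc : e :: l ∈ S ∧ l.length ≤ N
            · have hc' : l ∈ {l | e :: l ∈ S} ∧ l.length ≤ N := hc
              rw [ind_pos ⟨hc.1, by simpa using hc.2⟩, ind_pos hc']
              rfl
            · have hc' : ¬ (l ∈ {l | e :: l ∈ S} ∧ l.length ≤ N) := hc
              rw [ind_neg (fun h => hc ⟨h.1, by simpa using h.2⟩), ind_neg hc', mul_zero]
        _ ≤ _ := mul_le_of_le_one_right' h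

lemma pf_sum (ω : Environment d) (x : Site d) (S : Set (List (Step d))) (hS : PF S) :
    ∑' l, (ind (l ∈ S) (lw ω x l)) ≤ 1 := by
  rw [ENNReal.tsum_eq_iSup_sum]
  refine iSup_le fun F => ?_
  refine le_trans ?_ (pf_len ω (F.sup List.length) x S hS)
  refine le_trans ?_ (ENNReal.sum_le_tsum F)
  refine Finset.sum_le_sum fun l hl => ?_
  by_cases h : l ∈ S
  · rw [ind_pos h, ind_pos ⟨h, Finset.le_sup (f := List.length) hl⟩]
  · rw [ind_neg h]; exact zero_le

/-- splitting a sum over words -/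
lemma split_le (P : List (Step d) → Prop) (R : List (Step d) → List (Step d) → Prop)
    (h : ∀ l, P l → ∃ a b, l = a ++ b ∧ R a b) (F : List (Step d) → ℝ≥0∞) :
    ∑' l, (ind (P l) (F l)) ≤ ∑' a, ∑' b, (ind (R a b ∧ P (a ++ b)) (F (a ++ b))) := by
  have h' : ∀ l, ∃ p : List (Step d) × List (Step d), l = p.1 ++ p.2 ∧ (P l → R p.1 p.2) := by
    intro l
    by_cases hl : P l
    · obtain ⟨a, b, h1, h2⟩ := h l hl
      exact ⟨(a, b), h1, fun _ => h2⟩
    · exact ⟨(l, []), by simp, fun h => absurd h hl⟩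
  choose g hg1 hg2 using h'
  have hinj : Function.Injective g := by
    intro l l' hll
    rw [hg1 l, hg1 l', hll]
  rw [← ENNReal.tsum_prod (f := fun a b => ind (R a b ∧ P (a ++ b)) (F (a ++ b)))]
  refine le_trans (ENNReal.tsum_le_tsum fun l => ?_)
    (ENNReal.tsum_comp_le_tsum_of_injective hinj
      (fun p : List (Step d) × List (Step d) =>
        ind (R p.1 p.2 ∧ P (p.1 ++ p.2)) (F (p.1 ++ p.2))))
  by_cases hl : P l
  · rw [ind_pos hl, ← hg1 l, ind_pos ⟨hg2 l hl, hl⟩]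
  · rw [ind_neg hl]; exact zero_le

/-- merging a sum over pairs of words -/
lemma merge_le (P : List (Step d) → Prop) (R : List (Step d) → List (Step d) → Prop)
    (h : ∀ a b, R a b → P (a ++ b))
    (hu : ∀ a b a' b', R a b → R a' b' → a ++ b = a' ++ b' → a = a') (F : List (Step d) → ℝ≥0∞) :
    ∑' a, ∑' b, (ind (R a b) (F (a ++ b))) ≤ ∑' l, (ind (P l) (F l)) := by
  rw [← ENNReal.tsum_prod (f := fun a b => ind (R a b) (F (a ++ b)))]
  have h1 : ∑' p : List (Step d) × List (Step d), (ind (R p.1 p.2) (F (p.1 ++ p.2)))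
      = ∑' p : {p : List (Step d) × List (Step d) // R p.1 p.2}, F (p.1.1 ++ p.1.2) := by
    refine Eq.trans ?_ (tsum_subtype {p : List (Step d) × List (Step d) | R p.1 p.2}
      (fun p => F (p.1 ++ p.2))).symm
    refine tsum_congr fun p => ?_
    by_cases hp : R p.1 p.2
    · rw [ind_pos hp, Set.indicator_of_mem (by exact hp)]
    · rw [ind_neg hp, Set.indicator_of_notMem (by exact hp)]
  rw [h1]
  have hinj : Function.Injective
      fun p : {p : List (Step d) × List (Step d) // R p.1 p.2} => p.1.1 ++ p.1.2 := by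
    rintro ⟨⟨a, b⟩, hp⟩ ⟨⟨a', b'⟩, hp'⟩ he
    simp only at he
    have := hu a b a' b' hp hp' he
    subst this
    have := List.append_cancel_left he
    subst this
    rfl
  refine le_trans (ENNReal.tsum_le_tsum fun p => ?_)
    (ENNReal.tsum_comp_le_tsum_of_injective hinj (fun l => ind (P l) (F l)))
  rw [ind_pos (h _ _ p.2)]

/-- every word of `S` has a prefix in `T` -/
lemma pf_dom (ω : Environment d) (x : Site d) (S T : Set (List (Step d))) (hS : PF S)
    (h : ∀ l ∈ S, ∃ a b, l = a ++ b ∧ a ∈ T) :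
    ∑' l, (ind (l ∈ S) (lw ω x l)) ≤ ∑' l, (ind (l ∈ T) (lw ω x l)) := by
  refine (split_le (fun l => l ∈ S) (fun a _ => a ∈ T) h _).trans ?_
  refine ENNReal.tsum_le_tsum fun a => ?_
  by_cases ha : a ∈ T
  · rw [ind_pos ha]
    calc ∑' b, (ind (a ∈ T ∧ a ++ b ∈ S) (lw ω x (a ++ b)))
        = lw ω x a * ∑' b, (ind (b ∈ {b | a ++ b ∈ S}) (lw ω (endp x a) b)) := by
          rw [← ENNReal.tsum_mul_left]
          refine tsum_congr fun b => ?_
          by_cases hb : a ++ b ∈ S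
          · have hb' : b ∈ {b | a ++ b ∈ S} := hb
            rw [ind_pos ⟨ha, hb⟩, ind_pos hb', lw_append]
          · have hb' : b ∉ {b | a ++ b ∈ S} := hb
            rw [ind_neg (fun h => hb h.2), ind_neg hb', mul_zero]
      _ ≤ _ := by
          refine mul_le_of_le_one_right' (pf_sum ω _ _ ?_)
          intro l hl l' hl'
          have hl2 : a ++ (l ++ l') ∈ S := hl'
          exact hS (a ++ l) hl l' (by rw [List.append_assoc]; exact hl2)
  · rw [ind_neg ha]
    rw [ENNReal.tsum_eq_zero.mpr]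
    intro b
    rw [ind_neg (fun h => ha h.1)]


/-- first hit of `B` -/
def FH (B : Set (Site d)) (x : Site d) : Set (List (Step d)) :=
  {a | endp x a ∈ B ∧ ∀ y ∈ sitesL x a, y ∉ B}

lemma pf_FH (B : Set (Site d)) (x : Site d) : PF (FH B x) := by
  intro l hl l' hl'
  by_contra hne
  exact hl'.2 _ (endp_mem_sites x l l' hne) hl.1

lemma exists_FH (B : Set (Site d)) (l : List (Step d)) : ∀ x : Site d,
    (∃ y ∈ sitesL x l, y ∈ B) → ∃ a b, l = a ++ b ∧ a ∈ FH B x := by
  induction l with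
  | nil => intro x h; obtain ⟨y, hy, _⟩ := h; simp [sitesL] at hy
  | cons e l ih =>
    intro x h
    by_cases hx : x ∈ B
    · exact ⟨[], e :: l, rfl, hx, by simp [sitesL]⟩
    · obtain ⟨y, hy, hyB⟩ := h
      simp only [sitesL, List.mem_cons] at hy
      rcases hy with rfl | hy
      · exact absurd hyB hx
      · obtain ⟨a, b, h1, h2⟩ := ih (x + stepVec e) ⟨y, hy, hyB⟩
        refine ⟨e :: a, b, by rw [h1]; rfl, h2.1, ?_⟩
        intro z hz
        simp only [sitesL, List.mem_cons] at hz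
        rcases hz with rfl | hz
        · exact hx
        · exact h2.2 z hz

/-- words back to the level `t0` in `F` -/
def Rt (v : Step d) (t0 : ℤ) (F : Set (Site d)) (x : Site d) (b : List (Step d)) : Prop :=
  (∀ y ∈ sitesL x b, t0 < lev v y) ∧ lev v (endp x b) = t0 ∧ endp x b ∈ F

/-- quenched return mass -/
noncomputable def ee (ω : Environment d) (v : Step d) (t0 : ℤ) (F : Set (Site d)) (x : Site d) :
    ℝ≥0∞ := ∑' b, (ind (Rt v t0 F x b) (lw ω x b))

lemma rt_append {v : Step d} {t0 : ℤ} {F : Set (Site d)} {x : Site d} {a b : List (Step d)}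
    (h : Rt v t0 F x (a ++ b)) : Rt v t0 F (endp x a) b := by
  refine ⟨fun y hy => h.1 y ?_, ?_, ?_⟩
  · rw [sitesL_append]; exact List.mem_append_right _ hy
  · rw [← endp_append]; exact h.2.1
  · rw [← endp_append]; exact h.2.2

/-- quenched strong Markov property in words -/
lemma qsm (ω : Environment d) (v : Step d) (t0 : ℤ) (F : Set (Site d)) (x : Site d)
    (B : Set (Site d)) (lam : ℝ≥0∞) (hB : ∀ y ∈ B, ee ω v t0 F y ≤ lam) :
    ∑' π, (ind (Rt v t0 F x π ∧ (∃ y ∈ sitesL x π, y ∈ B)) (lw ω x π)) ≤ lam := by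
  refine (split_le (fun π => Rt v t0 F x π ∧ (∃ y ∈ sitesL x π, y ∈ B))
    (fun a _ => a ∈ FH B x) (fun l hl => exists_FH B l x hl.2) _).trans ?_
  calc ∑' a, ∑' b, (ind (a ∈ FH B x ∧ (Rt v t0 F x (a ++ b) ∧ (∃ y ∈ sitesL x (a ++ b), y ∈ B))) (lw ω x (a ++ b)))
      ≤ ∑' a, (ind (a ∈ FH B x) (lw ω x a)) * lam := by
        refine ENNReal.tsum_le_tsum fun a => ?_
        by_cases ha : a ∈ FH B x
        · rw [ind_pos ha]
          refine le_trans ?_ (mul_le_mul_right (hB _ ha.1) _)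
          rw [ee, ← ENNReal.tsum_mul_left]
          refine ENNReal.tsum_le_tsum fun b => ?_
          by_cases hb : Rt v t0 F x (a ++ b) ∧ (∃ y ∈ sitesL x (a ++ b), y ∈ B)
          · rw [ind_pos ⟨ha, hb⟩, ind_pos (rt_append hb.1), lw_append]
          · rw [ind_neg (fun h => hb h.2)]; exact zero_le
        · rw [ENNReal.tsum_eq_zero.mpr fun b => by rw [ind_neg (fun h => ha h.1)]]
          exact zero_le
    _ = (∑' a, (ind (a ∈ FH B x) (lw ω x a))) * lam := ENNReal.tsum_mul_right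
    _ ≤ 1 * lam := mul_le_mul_left (pf_sum ω x _ (pf_FH B x)) _
    _ = lam := one_mul _

/-- deep, then first return -/
def Wst (v : Step d) (s t0 : ℤ) : Set (List (Step d)) :=
  {l | (∃ a c, l = a ++ c ∧ (∀ y ∈ sitesL 0 a, 0 ≤ lev v y ∧ lev v y < s) ∧
    s ≤ lev v (endp 0 a) ∧ (∀ y ∈ sitesL (endp 0 a) c, t0 < lev v y)) ∧ lev v (endp 0 l) ≤ t0}

lemma first_unique (v : Step d) (s : ℤ) : ∀ (x : Site d) (a c a' c' : List (Step d)),
    (∀ y ∈ sitesL x a, lev v y < s) → s ≤ lev v (endp x a) →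
    (∀ y ∈ sitesL x a', lev v y < s) → s ≤ lev v (endp x a') → a ++ c = a' ++ c' → a = a' := by
  intro x a c a' c' h1 h2 h3 h4 h
  rcases List.append_eq_append_iff.mp h with ⟨m, hm, _⟩ | ⟨m, hm, _⟩
  · by_cases hm0 : m = []
    · rw [hm, hm0, List.append_nil]
    · exfalso
      have := h3 _ (by rw [hm]; exact endp_mem_sites x a m hm0)
      omega
  · by_cases hm0 : m = []
    · rw [hm, hm0, List.append_nil]
    · exfalso
      have := h1 _ (by rw [hm]; exact endp_mem_sites x a' m hm0)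
      omega

lemma pf_Wst (v : Step d) (s t0 : ℤ) : PF (Wst v s t0) := by
  rintro l ⟨⟨a, c, h1, h2, h3, h4⟩, h5⟩ m ⟨⟨a', c', g1, g2, g3, g4⟩, g5⟩
  by_contra hm
  have haa : a = a' := first_unique v s 0 a (c ++ m) a' c' (fun y hy => (h2 y hy).2) h3
    (fun y hy => (g2 y hy).2) g3 (by rw [← List.append_assoc, ← h1, g1])
  subst haa
  rw [h1, List.append_assoc] at g1
  have hc : c' = c ++ m := (List.append_cancel_left g1).symm
  have := g4 (endp (endp 0 a) c) (by rw [hc]; exact endp_mem_sites _ c m hm)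
  rw [← endp_append, ← h1] at this
  omega

lemma measurable_ee (v : Step d) (t0 : ℤ) (F : Set (Site d)) (x : Site d) :
    Measurable fun ω : Environment d => ee ω v t0 F x := by
  unfold ee
  refine Measurable.ennreal_tsum fun b => ?_
  by_cases h : Rt v t0 F x b
  · simp only [ind_pos h]; exact measurable_lw x b
  · simp only [ind_neg h]; exact measurable_const

/-- same = ind -/
lemma same_ind (ν : Measure (Row d)) [IsProbabilityMeasure ν] (x y : Site d)
    (l l' : List (Step d)) (h : ∀ z ∈ sitesL x l, z ∉ sitesL y l') :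
    ∫⁻ ω, lw ω x l * lw ω y l' ∂(iidEnvironmentLaw ν)
      = (∫⁻ ω, lw ω x l ∂(iidEnvironmentLaw ν)) * ∫⁻ ω, lw ω y l' ∂(iidEnvironmentLaw ν) :=
  Q561.iid_lintegral_mul ν (S := {z | z ∈ sitesL x l}) (T := {z | z ∈ sitesL y l'})
    (Set.disjoint_left.mpr fun z hz hz' => h z hz hz') (measurable_lw x l) (measurable_lw y l')
    (locOn_lw x l) (locOn_lw y l')

lemma lw_shift (ω : Environment d) (x y : Site d) (l : List (Step d)) :
    lw ω (x + y) l = lw (shiftEnv y ω) x l := by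
  induction l generalizing x with
  | nil => rfl
  | cons e l ih =>
    simp only [lw]
    rw [show x + y + stepVec e = x + stepVec e + y by abel, ih]
    rfl

lemma aw_shift (ν : Measure (Row d)) [IsProbabilityMeasure ν] (x : Site d) (l : List (Step d)) :
    ∫⁻ ω, lw ω x l ∂(iidEnvironmentLaw ν) = aw ν l := by
  unfold aw
  rw [← (Q561.iid_shift ν x).lintegral_comp (measurable_lw 0 l)]
  refine lintegral_congr fun ω => ?_
  rw [← lw_shift, zero_add]


/-! ### the traveller -/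

/-- no return to the level `t0` after the level `s` -/
def NR (v : Step d) (s t0 : ℤ) (γ : List (Step d)) : Prop :=
  ∀ a c, γ = a ++ c → s ≤ lev v (endp 0 a) → ∀ y ∈ sitesL (endp 0 a) c, t0 < lev v y

lemma exists_first (v : Step d) (s : ℤ) (x : Site d) (a : List (Step d))
    (h : s ≤ lev v (endp x a)) :
    ∃ a1 c, a = a1 ++ c ∧ (∀ y ∈ sitesL x a1, lev v y < s) ∧ s ≤ lev v (endp x a1) := by
  by_cases hy : ∃ y ∈ sitesL x a, y ∈ {y | s ≤ lev v y}
  · obtain ⟨a1, c, h1, h2⟩ := exists_FH _ a x hy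
    refine ⟨a1, c, h1, fun y hy => ?_, h2.1⟩
    have := h2.2 y hy
    have h3 : ¬ s ≤ lev v y := this
    omega
  · refine ⟨a, [], by simp, fun y hy' => ?_, h⟩
    by_contra hc
    exact hy ⟨y, hy', show s ≤ lev v y by omega⟩

lemma fh_unique {D : Set (Site d)} {x : Site d} {a c a' c' : List (Step d)}
    (h1 : a ∈ FH D x) (h2 : a' ∈ FH D x) (h : a ++ c = a' ++ c') : a = a' := by
  rcases List.append_eq_append_iff.mp h with ⟨m, hm, _⟩ | ⟨m, hm, _⟩
  · by_cases hm0 : m = []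
    · rw [hm, hm0, List.append_nil]
    · exact absurd h1.1 (h2.2 _ (by rw [hm]; exact endp_mem_sites x a m hm0))
  · by_cases hm0 : m = []
    · rw [hm, hm0, List.append_nil]
    · exact absurd h2.1 (h1.2 _ (by rw [hm]; exact endp_mem_sites x a' m hm0))

/-- the good prefixes of the traveller -/
def Gd (v : Step d) (s t0 : ℤ) (D : Set (Site d)) : Set (List (Step d)) :=
  {a | a ∈ FH D 0 ∧ (∀ y ∈ sitesL 0 a, 0 ≤ lev v y) ∧ NR v s t0 a ∧ s ≤ lev v (endp 0 a)}

lemma turn (ω : Environment d) (v : Step d) (s t0 : ℤ) (D F : Set (Site d)) :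
    ∑' a, ind (a ∈ Gd v s t0 D) (lw ω 0 a * ee ω v t0 F (endp 0 a))
      ≤ ∑' l, ind (l ∈ Wst v s t0 ∧ endp 0 l ∈ F) (lw ω 0 l) := by
  refine le_trans ?_ (merge_le (fun l => l ∈ Wst v s t0 ∧ endp 0 l ∈ F)
    (fun a b => a ∈ Gd v s t0 D ∧ Rt v t0 F (endp 0 a) b) ?_ ?_ _)
  · refine ENNReal.tsum_le_tsum fun a => ind_le' fun ha => ?_
    rw [ee, ← ENNReal.tsum_mul_left]
    refine ENNReal.tsum_le_tsum fun b => ?_
    by_cases hb : Rt v t0 F (endp 0 a) b
    · rw [ind_pos hb, ind_pos ⟨ha, hb⟩, lw_append]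
    · rw [ind_neg hb, mul_zero]; exact zero_le
  · rintro a b ⟨⟨_, h2, h3, h4⟩, h5, h6, h7⟩
    obtain ⟨a1, c, e1, e2, e3⟩ := exists_first v s 0 a h4
    refine ⟨⟨⟨a1, c ++ b, by rw [e1, List.append_assoc], fun y hy => ⟨h2 y ?_, e2 y hy⟩, e3, ?_⟩,
      ?_⟩, ?_⟩
    · rw [e1, sitesL_append]; exact List.mem_append_left _ hy
    · intro y hy
      rw [sitesL_append] at hy
      rcases List.mem_append.mp hy with hy | hy
      · exact h3 a1 c e1 e3 y hy
      · rw [← endp_append, ← e1] at hy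
        exact h5 y hy
    · rw [endp_append, h6]
    · rw [endp_append]; exact h7
  · rintro a b a' b' h h' he
    exact fh_unique h.1.1 h'.1.1 he

lemma aw_sum (ν : Measure (Row d)) [IsProbabilityMeasure ν] (P : List (Step d) → Prop) :
    ∑' l, ind (P l) (aw ν l) = ∫⁻ ω, ∑' l, ind (P l) (lw ω 0 l) ∂(iidEnvironmentLaw ν) := by
  rw [lintegral_tsum]
  · refine tsum_congr fun l => ?_
    by_cases h : P l
    · simp only [ind_pos h]; rfl
    · simp only [ind_neg h, lintegral_zero]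
  · intro l
    by_cases h : P l
    · simp only [ind_pos h]; exact (measurable_lw 0 l).aemeasurable
    · simp only [ind_neg h]; exact aemeasurable_const

lemma pf_IsUp (v : Step d) (n : ℕ) : PF {l : List (Step d) | IsUp v n l} := by
  intro l hl m hm
  by_contra hne
  have h1 : lev v (endp 0 l) = n := hl.2
  have h2 := (hm.1 _ (endp_mem_sites 0 l m hne)).2
  omega

/-- the traveller's deep returns -/
lemma deep_ret (ν : Measure (Row d)) [IsProbabilityMeasure ν] (v : Step d) (s t0 : ℤ) (n : ℕ) :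
    ∑' γ, ind (IsUp v n γ ∧ ¬ NR v s t0 γ) (aw ν γ) ≤ ∑' l, ind (l ∈ Wst v s t0) (aw ν l) := by
  rw [aw_sum, aw_sum]
  refine lintegral_mono fun ω => ?_
  refine pf_dom ω 0 {γ | IsUp v n γ ∧ ¬ NR v s t0 γ} _ ?_ ?_
  · intro l hl m hm
    exact pf_IsUp v n l hl.1 m hm.1
  · rintro γ ⟨h1, h2⟩
    unfold NR at h2
    push Not at h2
    obtain ⟨a, c, e1, e2, y, hy, hyt⟩ := h2
    obtain ⟨a1, c1, f1, f2, f3⟩ := exists_first v s 0 a e2
    have hγ : γ = a1 ++ (c1 ++ c) := by rw [e1, f1, List.append_assoc]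
    have hy' : ∃ y ∈ sitesL (endp 0 a1) (c1 ++ c), y ∈ {y | lev v y ≤ t0} := by
      refine ⟨y, ?_, hyt⟩
      rw [sitesL_append, ← endp_append, ← f1]
      exact List.mem_append_right _ hy
    obtain ⟨b1, b2, g1, g2⟩ := exists_FH _ _ _ hy'
    refine ⟨a1 ++ b1, b2, by rw [hγ, g1, List.append_assoc], ⟨a1, b1, rfl, ?_, f3, ?_⟩, ?_⟩
    · intro z hz
      refine ⟨(h1.1 z ?_).1, f2 z hz⟩
      rw [hγ, sitesL_append]; exact List.mem_append_left _ hz
    · intro z hz
      have := g2.2 z hz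
      have h3 : ¬ lev v z ≤ t0 := this
      omega
    · rw [endp_append]; exact g2.1

/-! ### the weights along the traveller -/

section H3

variable (ν : Measure (Row d)) [IsProbabilityMeasure ν] (v : Step d) (n : ℕ)

/-- weighted completions -/
noncomputable def Nw (f : Site d → ℝ≥0∞) (a : List (Step d)) : ℝ≥0∞ :=
  ∑' b, ind (IsUp v n (a ++ b)) (aw ν (a ++ b) * f (endp 0 (a ++ b)))

lemma Nw_le (f : Site d → ℝ≥0∞) (M : ℝ≥0∞) (hf : ∀ x, f x ≤ M) (a : List (Step d)) :
    Nw ν v n f a ≤ M * aw ν a := by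
  have h1 : ∑' b, ind (IsUp v n (a ++ b)) (aw ν (a ++ b)) ≤ aw ν a := by
    have : ∑' b, ind (IsUp v n (a ++ b)) (aw ν (a ++ b))
        = ∫⁻ ω, ∑' b, ind (IsUp v n (a ++ b)) (lw ω 0 (a ++ b)) ∂(iidEnvironmentLaw ν) := by
      rw [lintegral_tsum]
      · refine tsum_congr fun l => ?_
        by_cases h : IsUp v n (a ++ l)
        · simp only [ind_pos h]; rfl
        · simp only [ind_neg h, lintegral_zero]
      · intro l
        by_cases h : IsUp v n (a ++ l)
        · simp only [ind_pos h]; exact (measurable_lw 0 _).aemeasurable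
        · simp only [ind_neg h]; exact aemeasurable_const
    rw [this]
    refine lintegral_mono fun ω => ?_
    calc ∑' b, ind (IsUp v n (a ++ b)) (lw ω 0 (a ++ b))
        = lw ω 0 a * ∑' b, ind (b ∈ {b | IsUp v n (a ++ b)}) (lw ω (endp 0 a) b) := by
          rw [← ENNReal.tsum_mul_left]
          refine tsum_congr fun b => ?_
          by_cases hb : IsUp v n (a ++ b)
          · have hb' : b ∈ {b | IsUp v n (a ++ b)} := hb
            rw [ind_pos hb, ind_pos hb', lw_append]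
          · have hb' : b ∉ {b | IsUp v n (a ++ b)} := hb
            rw [ind_neg hb, ind_neg hb', mul_zero]
      _ ≤ lw ω 0 a := by
          refine mul_le_of_le_one_right' (pf_sum ω _ _ ?_)
          intro l hl m hm
          have hm' : IsUp v n (a ++ (l ++ m)) := hm
          exact pf_IsUp v n (a ++ l) hl m (by rw [List.append_assoc]; exact hm')
  calc Nw ν v n f a ≤ ∑' b, M * ind (IsUp v n (a ++ b)) (aw ν (a ++ b)) := by
        refine ENNReal.tsum_le_tsum fun b => ?_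
        by_cases hb : IsUp v n (a ++ b)
        · rw [ind_pos hb, ind_pos hb, mul_comm]
          exact mul_le_mul_left (hf _) _
        · rw [ind_neg hb]; exact zero_le
    _ = M * ∑' b, ind (IsUp v n (a ++ b)) (aw ν (a ++ b)) := ENNReal.tsum_mul_left
    _ ≤ _ := mul_le_mul_right h1 _

lemma aw_le_one (l : List (Step d)) : aw ν l ≤ 1 := by
  unfold aw
  calc ∫⁻ ω, lw ω 0 l ∂(iidEnvironmentLaw ν) ≤ ∫⁻ _ : Environment d, 1 ∂(iidEnvironmentLaw ν) := by
        refine lintegral_mono fun ω => ?_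
        have := pf_sum ω 0 {l} (by
          intro a ha b hb
          rw [Set.mem_singleton_iff] at ha hb
          subst ha
          simpa using hb)
        refine le_trans ?_ this
        refine le_trans ?_ (ENNReal.le_tsum l)
        rw [ind_pos (Set.mem_singleton l)]
    _ = 1 := by simp

/-- conditional weight -/
noncomputable def gw (f : Site d → ℝ≥0∞) (a : List (Step d)) : ℝ≥0∞ := Nw ν v n f a / aw ν a

lemma gw_le (f : Site d → ℝ≥0∞) (M : ℝ≥0∞) (hf : ∀ x, f x ≤ M) (a : List (Step d)) :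
    gw ν v n f a ≤ M := ENNReal.div_le_of_le_mul (Nw_le ν v n f M hf a)

lemma Nw_eq (f : Site d → ℝ≥0∞) (M : ℝ≥0∞) (hf : ∀ x, f x ≤ M) (a : List (Step d)) :
    Nw ν v n f a = gw ν v n f a * aw ν a := by
  by_cases h0 : aw ν a = 0
  · have := Nw_le ν v n f M hf a
    rw [h0, mul_zero] at this
    rw [h0, mul_zero]; exact le_antisymm this zero_le
  · exact (ENNReal.div_mul_cancel h0 (ne_top_of_le_ne_top ENNReal.one_ne_top (aw_le_one ν a))).symm

/-- minimal words with `c < gw` -/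
def MN (f : Site d → ℝ≥0∞) (c : ℝ≥0∞) : Set (List (Step d)) :=
  {a | c < gw ν v n f a ∧ ∀ a1 a2, a = a1 ++ a2 → a2 ≠ [] → ¬ c < gw ν v n f a1}

lemma pf_MN (f : Site d → ℝ≥0∞) (c : ℝ≥0∞) : PF (MN ν v n f c) := by
  intro l hl m hm
  by_contra hne
  exact hm.2 l m rfl hne hl.1

lemma exists_MN (f : Site d → ℝ≥0∞) (c : ℝ≥0∞) (a : List (Step d)) (h : c < gw ν v n f a) :
    ∃ a1 a2, a = a1 ++ a2 ∧ a1 ∈ MN ν v n f c := by
  induction hl : a.length using Nat.strong_induction_on generalizing a with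
  | _ N ih =>
    by_cases hc : ∀ a1 a2, a = a1 ++ a2 → a2 ≠ [] → ¬ c < gw ν v n f a1
    · exact ⟨a, [], by simp, h, hc⟩
    · push Not at hc
      obtain ⟨a1, a2, e1, e2, e3⟩ := hc
      obtain ⟨b1, b2, f1, f2⟩ := ih a1.length (by
        rw [← hl, e1, List.length_append]
        have := List.length_pos_of_ne_nil e2
        omega) a1 e3 rfl
      exact ⟨b1, b2 ++ a2, by rw [e1, f1, List.append_assoc], f2⟩

/-- Doob / Ville maximal inequality in words -/
lemma ville (f : Site d → ℝ≥0∞) (M : ℝ≥0∞) (hf : ∀ x, f x ≤ M) (c : ℝ≥0∞) :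
    c * ∑' a, ind (a ∈ MN ν v n f c) (aw ν a) ≤ Nw ν v n f [] := by
  rw [← ENNReal.tsum_mul_left]
  calc ∑' a, c * ind (a ∈ MN ν v n f c) (aw ν a)
      ≤ ∑' a, ∑' b, ind (a ∈ MN ν v n f c ∧ IsUp v n (a ++ b))
          (aw ν (a ++ b) * f (endp 0 (a ++ b))) := by
        refine ENNReal.tsum_le_tsum fun a => ?_
        by_cases ha : a ∈ MN ν v n f c
        · rw [ind_pos ha]
          calc c * aw ν a ≤ gw ν v n f a * aw ν a := mul_le_mul_left ha.1.le _
            _ = Nw ν v n f a := (Nw_eq ν v n f M hf a).symm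
            _ ≤ _ := by
              refine ENNReal.tsum_le_tsum fun b => ind_mono (fun h => ⟨ha, h⟩) fun _ => le_rfl
        · rw [ind_neg ha, mul_zero]; exact zero_le
    _ ≤ ∑' l, ind (IsUp v n l) (aw ν l * f (endp 0 l)) := by
        refine merge_le (fun l => IsUp v n l) (fun a b => a ∈ MN ν v n f c ∧ IsUp v n (a ++ b))
          (fun a b h => h.2) ?_ (fun l => aw ν l * f (endp 0 l))
        rintro a b a' b' h h' he
        rcases List.append_eq_append_iff.mp he with ⟨m, hm, _⟩ | ⟨m, hm, _⟩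
        · have := pf_MN ν v n f c a h.1 m (by rw [← hm]; exact h'.1)
          rw [hm, this, List.append_nil]
        · have := pf_MN ν v n f c a' h'.1 m (by rw [← hm]; exact h.1)
          rw [hm, this, List.append_nil]
    _ = Nw ν v n f [] := by simp only [Nw, List.nil_append]

end H3


lemma pf_Rt (v : Step d) (t0 : ℤ) (F : Set (Site d)) (x : Site d) : PF {π | Rt v t0 F x π} := by
  intro l hl m hm
  by_contra hne
  have h1 : lev v (endp x l) = t0 := hl.2.1
  have h2 := hm.1 _ (endp_mem_sites x l m hne)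
  omega

lemma exists_class (M g : ℝ≥0∞) (hM : M ≠ ⊤) (hg : g ≤ M) (hg0 : g ≠ 0) :
    ∃ j : ℕ, M * 2⁻¹ ^ (j + 1) < g ∧ g ≤ M * 2⁻¹ ^ j := by
  have ht : Filter.Tendsto (fun j : ℕ => M * (2⁻¹ : ℝ≥0∞) ^ j) Filter.atTop (nhds 0) := by
    have h := ENNReal.Tendsto.const_mul (a := M)
      (ENNReal.tendsto_pow_atTop_nhds_zero_of_lt_one (r := (2⁻¹ : ℝ≥0∞))
        (by simp [ENNReal.inv_lt_one])) (Or.inr hM)
    simpa using h
  have hev : ∃ j : ℕ, M * (2⁻¹ : ℝ≥0∞) ^ j < g :=
    (ht.eventually_lt_const (pos_iff_ne_zero.mpr hg0)).exists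
  have hfind := Nat.find_spec hev
  have hmin := fun k hk => Nat.find_min hev (m := k) hk
  obtain ⟨j, hj⟩ : ∃ j, Nat.find hev = j + 1 := by
    refine Nat.exists_eq_succ_of_ne_zero fun h0 => ?_
    rw [h0, pow_zero, mul_one] at hfind
    exact absurd hg (not_le.mpr hfind)
  refine ⟨j, by rw [← hj]; exact hfind, not_lt.mp (hmin j (by omega))⟩

section Q3

variable (ω : Environment d) (v : Step d) (s t0 : ℤ) (F : Set (Site d)) (x : Site d)

lemma q_b : ∑' π, ∑' a, ind (Rt v t0 F x π ∧ a ∈ Gd v s t0 {y | y ∈ sitesL x π})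
      (ee ω v t0 F (endp 0 a) * (lw ω x π * lw ω 0 a))
      ≤ ∑' l, ind (l ∈ Wst v s t0 ∧ endp 0 l ∈ F) (lw ω 0 l) := by
  calc _ ≤ ∑' π, ind (π ∈ {π | Rt v t0 F x π}) (lw ω x π) *
          ∑' l, ind (l ∈ Wst v s t0 ∧ endp 0 l ∈ F) (lw ω 0 l) := by
        refine ENNReal.tsum_le_tsum fun π => ?_
        by_cases hπ : Rt v t0 F x π
        · have hπ' : π ∈ {π | Rt v t0 F x π} := hπ
          rw [ind_pos hπ']
          refine le_trans ?_ (mul_le_mul_right (turn ω v s t0 {y | y ∈ sitesL x π} F) _)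
          rw [← ENNReal.tsum_mul_left]
          refine ENNReal.tsum_le_tsum fun a => ?_
          by_cases ha : a ∈ Gd v s t0 {y | y ∈ sitesL x π}
          · rw [ind_pos ⟨hπ, ha⟩, ind_pos ha]
            apply le_of_eq; ring
          · rw [ind_neg (fun h => ha h.2)]; exact zero_le
        · rw [ENNReal.tsum_eq_zero.mpr fun a => ind_neg (fun h => hπ h.1)]
          exact zero_le
    _ = (∑' π, ind (π ∈ {π | Rt v t0 F x π}) (lw ω x π)) * _ := ENNReal.tsum_mul_right
    _ ≤ _ := mul_le_of_le_one_left' (pf_sum ω x _ (pf_Rt v t0 F x))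

lemma q_a (C : Set (List (Step d))) (T : Set (List (Step d))) (lam : ℝ≥0∞)
    (hCT : ∀ a ∈ C, ∃ a1 a2, a = a1 ++ a2 ∧ a1 ∈ T) :
    ∑' π, ∑' a, ind ((Rt v t0 F x π ∧ a ∈ Gd v s t0 {y | y ∈ sitesL x π}) ∧
        (a ∈ C ∧ ee ω v t0 F (endp 0 a) ≤ lam)) (lw ω x π * lw ω 0 a)
      ≤ lam * ∑' a, ind (a ∈ T) (lw ω 0 a) := by
  calc _ ≤ ∑' π, ind (Rt v t0 F x π ∧ (∃ y ∈ sitesL x π, y ∈ {y | ee ω v t0 F y ≤ lam}))
          (lw ω x π) * ∑' a, ind (a ∈ T) (lw ω 0 a) := by
        refine ENNReal.tsum_le_tsum fun π => ?_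
        by_cases hπ : Rt v t0 F x π ∧ (∃ y ∈ sitesL x π, y ∈ {y | ee ω v t0 F y ≤ lam})
        · rw [ind_pos hπ]
          have h1 := pf_dom ω 0 {a | a ∈ FH {y | y ∈ sitesL x π} 0 ∧ a ∈ C} T
            (fun l hl m hm => pf_FH _ _ l hl.1 m hm.1) (fun l hl => hCT l hl.2)
          refine le_trans ?_ (mul_le_mul_right h1 _)
          rw [← ENNReal.tsum_mul_left]
          refine ENNReal.tsum_le_tsum fun a => ?_
          by_cases ha : (Rt v t0 F x π ∧ a ∈ Gd v s t0 {y | y ∈ sitesL x π}) ∧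
              (a ∈ C ∧ ee ω v t0 F (endp 0 a) ≤ lam)
          · have ha' : a ∈ {a | a ∈ FH {y | y ∈ sitesL x π} 0 ∧ a ∈ C} := ⟨ha.1.2.1, ha.2.1⟩
            rw [ind_pos ha, ind_pos ha']
          · rw [ind_neg ha]; exact zero_le
        · rw [ENNReal.tsum_eq_zero.mpr fun a => ind_neg fun h =>
            hπ ⟨h.1.1, endp 0 a, h.1.2.1.1, h.2.2⟩]
          exact zero_le
    _ = (∑' π, ind (Rt v t0 F x π ∧ (∃ y ∈ sitesL x π, y ∈ {y | ee ω v t0 F y ≤ lam}))
          (lw ω x π)) * _ := ENNReal.tsum_mul_right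
    _ ≤ _ := mul_le_mul_left (qsm ω v t0 F x _ lam fun y hy => hy) _

/-- weight threshold split -/
lemma thr_split (M lam g e : ℝ≥0∞) (hM : M ≠ ⊤) (hl0 : lam ≠ 0) (hl : lam ≠ ⊤) (hg : g ≤ M) :
    g ≤ M / lam * e + ∑' j : ℕ, ind (M * 2⁻¹ ^ (j + 1) < g ∧ e ≤ lam * 2⁻¹ ^ j) (M * 2⁻¹ ^ j) := by
  by_cases hg0 : g = 0
  · rw [hg0]; exact zero_le
  · obtain ⟨j, h1, h2⟩ := exists_class M g hM hg hg0
    by_cases he : e ≤ lam * 2⁻¹ ^ j
    · refine le_trans ?_ le_add_self
      refine le_trans ?_ (ENNReal.le_tsum j)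
      rw [ind_pos ⟨h1, he⟩]; exact h2
    · refine le_trans ?_ le_self_add
      calc g ≤ M * 2⁻¹ ^ j := h2
        _ = M / lam * (lam * 2⁻¹ ^ j) := by
          rw [← mul_assoc, ENNReal.div_mul_cancel hl0 hl]
        _ ≤ M / lam * e := mul_le_mul_right (not_le.mp he).le _

end Q3

lemma q3 (ν : Measure (Row d)) [IsProbabilityMeasure ν] (ω : Environment d) (v : Step d) (n : ℕ)
    (s t0 : ℤ) (F : Set (Site d)) (x : Site d) (f : Site d → ℝ≥0∞) (M lam : ℝ≥0∞) (hM : M ≠ ⊤)
    (hl0 : lam ≠ 0) (hl : lam ≠ ⊤) (hf : ∀ x, f x ≤ M) :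
    ∑' π, ∑' a, ind (Rt v t0 F x π ∧ a ∈ Gd v s t0 {y | y ∈ sitesL x π})
      (gw ν v n f a * (lw ω x π * lw ω 0 a))
      ≤ M / lam * ∑' l, ind (l ∈ Wst v s t0 ∧ endp 0 l ∈ F) (lw ω 0 l)
        + ∑' j : ℕ, M * 2⁻¹ ^ j * (lam * 2⁻¹ ^ j *
          ∑' a, ind (a ∈ MN ν v n f (M * 2⁻¹ ^ (j + 1))) (lw ω 0 a)) := by
  calc _ ≤ ∑' π, ∑' a, (M / lam * ind (Rt v t0 F x π ∧ a ∈ Gd v s t0 {y | y ∈ sitesL x π})
        (ee ω v t0 F (endp 0 a) * (lw ω x π * lw ω 0 a)) + ∑' j : ℕ, M * 2⁻¹ ^ j *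
          ind ((Rt v t0 F x π ∧ a ∈ Gd v s t0 {y | y ∈ sitesL x π}) ∧
        (a ∈ {a | M * 2⁻¹ ^ (j + 1) < gw ν v n f a} ∧ ee ω v t0 F (endp 0 a) ≤ lam * 2⁻¹ ^ j))
          (lw ω x π * lw ω 0 a)) := by
        refine ENNReal.tsum_le_tsum fun π => ENNReal.tsum_le_tsum fun a => ind_le' fun h => ?_
        rw [ind_pos h]
        refine (mul_le_mul_left (thr_split M lam _ (ee ω v t0 F (endp 0 a)) hM hl0 hl
          (gw_le ν v n f M hf a)) _).trans ?_
        rw [add_mul, ← ENNReal.tsum_mul_right, mul_assoc]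
        refine add_le_add le_rfl (ENNReal.tsum_le_tsum fun j => ?_)
        by_cases hj : M * 2⁻¹ ^ (j + 1) < gw ν v n f a ∧ ee ω v t0 F (endp 0 a) ≤ lam * 2⁻¹ ^ j
        · have hj' : a ∈ {a | M * 2⁻¹ ^ (j + 1) < gw ν v n f a} := hj.1
          rw [ind_pos hj, ind_pos ⟨h, hj', hj.2⟩]
        · rw [ind_neg hj, zero_mul]; exact zero_le
    _ = M / lam * (∑' π, ∑' a, ind (Rt v t0 F x π ∧ a ∈ Gd v s t0 {y | y ∈ sitesL x π})
        (ee ω v t0 F (endp 0 a) * (lw ω x π * lw ω 0 a))) + ∑' j : ℕ, M * 2⁻¹ ^ j * (∑' π, ∑' a,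
          ind ((Rt v t0 F x π ∧ a ∈ Gd v s t0 {y | y ∈ sitesL x π}) ∧
        (a ∈ {a | M * 2⁻¹ ^ (j + 1) < gw ν v n f a} ∧ ee ω v t0 F (endp 0 a) ≤ lam * 2⁻¹ ^ j))
          (lw ω x π * lw ω 0 a)) := by
        simp only [ENNReal.tsum_add, ENNReal.tsum_mul_left]
        congr 1
        refine (tsum_congr fun π => ENNReal.tsum_comm).trans ?_
        rw [ENNReal.tsum_comm]
        simp only [ENNReal.tsum_mul_left]
    _ ≤ _ := by
        refine add_le_add (mul_le_mul_right (q_b ω v s t0 F x) _)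
          (ENNReal.tsum_le_tsum fun j => mul_le_mul_right ?_ _)
        exact q_a ω v s t0 F x _ _ _ fun a ha => exists_MN ν v n f _ a ha


/-! ### annealed estimates -/

/-- the event: explored word `π` from `x`, traveller `γ` from `0` -/
def Ev (v : Step d) (n : ℕ) (s t0 : ℤ) (F : Set (Site d)) (x : Site d)
    (π γ : List (Step d)) : Prop :=
  Rt v t0 F x π ∧ IsUp v n γ ∧ NR v s t0 γ ∧ (∃ y ∈ sitesL x π, y ∈ sitesL 0 γ) ∧
    (∀ y ∈ sitesL x π, y ∈ sitesL 0 γ → s ≤ lev v y)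

lemma ev_split {v : Step d} {n : ℕ} {s t0 : ℤ} {F : Set (Site d)} {x : Site d}
    {π γ : List (Step d)} (h : Ev v n s t0 F x π γ) :
    ∃ a b, γ = a ++ b ∧ a ∈ Gd v s t0 {y | y ∈ sitesL x π} := by
  obtain ⟨_, h2, h3, ⟨y, hy, hyγ⟩, h5⟩ := h
  obtain ⟨a, b, e1, e2⟩ := exists_FH {y | y ∈ sitesL x π} γ 0 ⟨y, hyγ, hy⟩
  have hb : b ≠ [] := by
    intro hb
    rw [hb, List.append_nil] at e1
    exact e2.2 y (by rw [← e1]; exact hyγ) hy
  refine ⟨a, b, e1, e2, fun z hz => (h2.1 z ?_).1, ?_, ?_⟩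
  · rw [e1, sitesL_append]; exact List.mem_append_left _ hz
  · intro a1 c1 f1 f2 z hz
    refine h3 a1 (c1 ++ b) (by rw [e1, f1, List.append_assoc]) f2 z ?_
    rw [sitesL_append]; exact List.mem_append_left _ hz
  · exact h5 _ e2.1 (by rw [e1]; exact endp_mem_sites 0 a b hb)

lemma int_swap {Q : Measure (Environment d)} (P : List (Step d) → List (Step d) → Prop)
    (G : List (Step d) → List (Step d) → Environment d → ℝ≥0∞) (hG : ∀ π a, Measurable (G π a)) :
    ∑' π, ∑' a, ind (P π a) (∫⁻ ω, G π a ω ∂Q) = ∫⁻ ω, ∑' π, ∑' a, ind (P π a) (G π a ω) ∂Q := by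
  have hm : ∀ π a, Measurable fun ω => ind (P π a) (G π a ω) := by
    intro π a
    by_cases h : P π a
    · simp only [ind_pos h]; exact hG π a
    · simp only [ind_neg h]; exact measurable_const
  rw [lintegral_tsum fun π => (Measurable.ennreal_tsum fun a => hm π a).aemeasurable]
  refine tsum_congr fun π => ?_
  rw [lintegral_tsum fun a => (hm π a).aemeasurable]
  refine tsum_congr fun a => ?_
  by_cases h : P π a
  · simp only [ind_pos h]
  · simp only [ind_neg h, lintegral_zero]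

lemma measurable_sum (P : List (Step d) → Prop) :
    Measurable fun ω : Environment d => ∑' l, ind (P l) (lw ω 0 l) := by
  refine Measurable.ennreal_tsum fun l => ?_
  by_cases h : P l
  · simp only [ind_pos h]; exact measurable_lw 0 l
  · simp only [ind_neg h]; exact measurable_const

variable (ν : Measure (Row d)) [IsProbabilityMeasure ν]

lemma h3_x (v : Step d) (n : ℕ) (s t0 : ℤ) (F : Set (Site d)) (x : Site d) (f : Site d → ℝ≥0∞)
    (M lam : ℝ≥0∞) (hM : M ≠ ⊤) (hl0 : lam ≠ 0) (hl : lam ≠ ⊤) (hf : ∀ x, f x ≤ M) :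
    ∑' π, ∑' γ, ind (Ev v n s t0 F x π γ) (aw ν π * (aw ν γ * f (endp 0 γ)))
      ≤ M / lam * ∑' l, ind (l ∈ Wst v s t0 ∧ endp 0 l ∈ F) (aw ν l) + 4 * lam * Nw ν v n f [] := by
  have h1 : ∑' π, ∑' γ, ind (Ev v n s t0 F x π γ) (aw ν π * (aw ν γ * f (endp 0 γ)))
      ≤ ∑' π, ∑' a, ind (Rt v t0 F x π ∧ a ∈ Gd v s t0 {y | y ∈ sitesL x π})
        (∫⁻ ω, gw ν v n f a * (lw ω x π * lw ω 0 a) ∂(iidEnvironmentLaw ν)) := by
    refine ENNReal.tsum_le_tsum fun π => ?_
    refine (split_le (fun γ => Ev v n s t0 F x π γ)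
      (fun a _ => a ∈ Gd v s t0 {y | y ∈ sitesL x π}) (fun γ h => ev_split h) _).trans ?_
    refine ENNReal.tsum_le_tsum fun a => ?_
    by_cases ha : Rt v t0 F x π ∧ a ∈ Gd v s t0 {y | y ∈ sitesL x π}
    · have hml : Measurable fun ω : Environment d => lw ω x π * lw ω 0 a :=
        (measurable_lw x π).mul (measurable_lw 0 a)
      rw [ind_pos ha, lintegral_const_mul _ hml,
        same_ind ν x 0 π a (fun z hz hz' => ha.2.1.2 z hz' hz), aw_shift]
      change _ ≤ gw ν v n f a * (aw ν π * aw ν a)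
      calc ∑' b, ind (a ∈ Gd v s t0 {y | y ∈ sitesL x π} ∧ Ev v n s t0 F x π (a ++ b))
            (aw ν π * (aw ν (a ++ b) * f (endp 0 (a ++ b))))
          ≤ ∑' b, aw ν π * ind (IsUp v n (a ++ b)) (aw ν (a ++ b) * f (endp 0 (a ++ b))) := by
            refine ENNReal.tsum_le_tsum fun b => ind_le' fun h => ?_
            rw [ind_pos h.2.2.1]
        _ = aw ν π * Nw ν v n f a := by rw [ENNReal.tsum_mul_left]; rfl
        _ = aw ν π * (gw ν v n f a * aw ν a) := by rw [Nw_eq ν v n f M hf a]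
        _ ≤ _ := by apply le_of_eq; ring
    · rw [ENNReal.tsum_eq_zero.mpr fun b => ind_neg fun h => ha ⟨h.2.1, h.1⟩]
      exact zero_le
  refine h1.trans ?_
  rw [int_swap _ (fun π a ω => gw ν v n f a * (lw ω x π * lw ω 0 a))
    (fun π a => ((measurable_lw x π).mul (measurable_lw 0 a)).const_mul _)]
  refine (lintegral_mono fun ω => q3 ν ω v n s t0 F x f M lam hM hl0 hl hf).trans ?_
  rw [lintegral_add_left ((measurable_sum _).const_mul _), lintegral_const_mul _ (measurable_sum _),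
    ← aw_sum, lintegral_tsum fun j => (((measurable_sum _).const_mul _).const_mul _).aemeasurable]
  refine add_le_add le_rfl ?_
  calc ∑' j : ℕ, ∫⁻ ω, M * 2⁻¹ ^ j * (lam * 2⁻¹ ^ j *
          ∑' a, ind (a ∈ MN ν v n f (M * 2⁻¹ ^ (j + 1))) (lw ω 0 a)) ∂(iidEnvironmentLaw ν)
      ≤ ∑' j : ℕ, 2 * lam * Nw ν v n f [] * 2⁻¹ ^ j := by
        refine ENNReal.tsum_le_tsum fun j => ?_
        rw [lintegral_const_mul _ ((measurable_sum _).const_mul _),
          lintegral_const_mul _ (measurable_sum _), ← aw_sum]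
        have hv := ville ν v n f M hf (M * 2⁻¹ ^ (j + 1))
        calc M * 2⁻¹ ^ j * (lam * 2⁻¹ ^ j *
              ∑' a, ind (a ∈ MN ν v n f (M * 2⁻¹ ^ (j + 1))) (aw ν a))
            = 2 * lam * 2⁻¹ ^ j * (M * 2⁻¹ ^ (j + 1) *
              ∑' a, ind (a ∈ MN ν v n f (M * 2⁻¹ ^ (j + 1))) (aw ν a)) := by
              have h2 : (2 : ℝ≥0∞) * 2⁻¹ = 1 :=
                ENNReal.mul_inv_cancel (by simp) (by simp)
              rw [pow_succ]
              calc _ = M * 2⁻¹ ^ j * (lam * 2⁻¹ ^ j * _) * 1 := (mul_one _).symm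
                _ = _ := by rw [← h2]; ring
          _ ≤ 2 * lam * 2⁻¹ ^ j * Nw ν v n f [] := mul_le_mul_right hv _
          _ = _ := by ring
    _ = 2 * lam * Nw ν v n f [] * 2 := by
        rw [ENNReal.tsum_mul_left, ENNReal.tsum_geometric, ENNReal.one_sub_inv_two, inv_inv]
    _ ≤ _ := by apply le_of_eq; ring

lemma sum_F (E : Finset (Site d)) (v : Step d) (s t0 : ℤ) :
    ∑' x : Site d, ∑' l, ind (l ∈ Wst v s t0 ∧ endp 0 l ∈ {z | z - x ∈ E}) (aw ν l)
      = E.card * ∑' l, ind (l ∈ Wst v s t0) (aw ν l) := by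
  rw [ENNReal.tsum_comm, ← ENNReal.tsum_mul_left]
  refine tsum_congr fun l => ?_
  rw [← (Equiv.subLeft (endp 0 l)).tsum_eq]
  rw [tsum_eq_sum (s := E)]
  · rw [Finset.sum_congr rfl (g := fun _ => ind (l ∈ Wst v s t0) (aw ν l))]
    · rw [Finset.sum_const, nsmul_eq_mul]
    · intro y hy
      by_cases h : l ∈ Wst v s t0
      · rw [ind_pos h, ind_pos ⟨h, by simpa using hy⟩]
      · rw [ind_neg h, ind_neg fun h' => h h'.1]
  · intro y hy
    refine ind_neg fun h => hy ?_
    simpa using h.2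

/-- **H3**, traveller form -/
theorem h3_core (v : Step d) (n : ℕ) (s t0 : ℤ) (E : Finset (Site d)) (μ : Site d → ℝ≥0∞)
    (M lam us : ℝ≥0∞) (hM : M ≠ ⊤) (hl0 : lam ≠ 0) (hl : lam ≠ ⊤) (hμ : ∀ x, μ x ≤ M)
    (hμ1 : ∑' x, μ x ≤ 1) (hus : ∑' l, ind (l ∈ Wst v s t0) (aw ν l) ≤ us) :
    ∑' x : Site d, ∑' π, ∑' γ, ind (Ev v n s t0 {z | z - x ∈ E} x π γ)
        (aw ν π * (aw ν γ * μ (x - endp 0 γ)))
      ≤ M / lam * (E.card * us) + 4 * lam := by
  refine (ENNReal.tsum_le_tsum fun x => h3_x ν v n s t0 {z | z - x ∈ E} x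
    (fun z => μ (x - z)) M lam hM hl0 hl (fun z => hμ _)).trans ?_
  rw [ENNReal.tsum_add, ENNReal.tsum_mul_left, ENNReal.tsum_mul_left, sum_F]
  refine add_le_add (mul_le_mul_right (mul_le_mul_right hus _) _) ?_
  refine mul_le_of_le_one_right' ?_
  calc ∑' x : Site d, Nw ν v n (fun z => μ (x - z)) []
      = ∑' b, ∑' x : Site d, ind (IsUp v n b) (aw ν b * μ (x - endp 0 b)) := by
        unfold Nw
        simp only [List.nil_append]
        rw [ENNReal.tsum_comm]
    _ ≤ ∑' b, ind (IsUp v n b) (aw ν b) := by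
        refine ENNReal.tsum_le_tsum fun b => ?_
        by_cases hb : IsUp v n b
        · simp only [ind_pos hb]
          rw [ENNReal.tsum_mul_left]
          refine mul_le_of_le_one_right' ?_
          exact le_of_eq_of_le ((Equiv.subRight (endp 0 b)).tsum_eq (fun y => μ y)) hμ1
        · simp only [ind_neg hb, tsum_zero, le_refl]
    _ ≤ 1 := by
        rw [aw_sum]
        calc _ ≤ ∫⁻ _ : Environment d, 1 ∂(iidEnvironmentLaw ν) :=
              lintegral_mono fun ω => pf_sum ω 0 _ (pf_IsUp v n)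
          _ = 1 := by simp

end Crest.Agent.R154.W606
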