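import Crest.Agent.R154.PFDefs_692

/-! Row 154 (helper692): pair frame, the window estimate. -/

set_option autoImplicit false

namespace Crest.Agent.R154.B5A

open scoped ENNReal

variable {B W : Type*} (Λ : B → ℝ≥0∞) (ht : B → ℕ) (dl : B → W → W) (cd : W → B → Set ℕ)

lemma FPL_zero {L : List B} : FPL ht 0 L ↔ L = [] := by
  constructor
  · intro h
    by_contra hne
    have := h.2 [] List.nil_prefix (fun e => hne e.symm)
    simp at this
  · rintro rfl
    refine ⟨Nat.zero_le _, fun L' h hne => absurd (List.prefix_nil.1 h) hne⟩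

lemma FPL_cons (h1 : ∀ b, 1 ≤ ht b) {a : ℕ} (ha : 1 ≤ a) {b : B} {L : List B} :
    FPL ht a (b :: L) ↔ FPL ht (a - ht b) L := by
  constructor
  · rintro ⟨h2, h3⟩
    refine ⟨by rw [HT_cons] at h2; omega, fun L' hL' hne => ?_⟩
    have := h3 (b :: L') ((List.prefix_cons_inj b).2 hL') (fun e => hne (List.cons.inj e).2)
    rw [HT_cons] at this
    omega
  · rintro ⟨h2, h3⟩
    refine ⟨by rw [HT_cons]; omega, fun L' hL' hne => ?_⟩
    cases L' with
    | nil => rw [HT_nil]; omega
    | cons b' L' =>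
      obtain ⟨rfl, h4⟩ := List.cons_prefix_cons.1 hL'
      have := h3 L' h4 (fun e => hne (by rw [e]))
      rw [HT_cons]
      omega

open Classical in
lemma FPL_mass (h1 : ∀ b, 1 ≤ ht b) (hΛ : ∑' b, Λ b = 1) (a : ℕ) :
    (∑' L : List B, if FPL ht a L then LW Λ L else 0) = 1 := by
  induction a using Nat.strong_induction_on with
  | _ a ih =>
    rcases Nat.eq_zero_or_pos a with rfl | ha
    · simp only [FPL_zero]
      rw [tsum_eq_single ([] : List B) (fun L hL => if_neg hL), if_pos rfl, LW_nil]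
    · rw [tsum_list]
      have h0 : ¬ FPL ht a ([] : List B) := fun h => by have := h.1; rw [HT_nil] at this; omega
      rw [if_neg h0, zero_add]
      calc (∑' b, ∑' L, if FPL ht a (b :: L) then LW Λ (b :: L) else 0)
          = ∑' b, Λ b * ∑' L, (if FPL ht (a - ht b) L then LW Λ L else 0) := by
            refine tsum_congr fun b => ?_
            rw [← ENNReal.tsum_mul_left]
            refine tsum_congr fun L => ?_
            by_cases h : FPL ht (a - ht b) L
            · rw [if_pos h, if_pos ((FPL_cons ht h1 ha).2 h), LW_cons]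
            · rw [if_neg h, if_neg (fun h' => h ((FPL_cons ht h1 ha).1 h')), mul_zero]
        _ = ∑' b, Λ b := by
            refine tsum_congr fun b => ?_
            rw [ih (a - ht b) (by have := h1 b; omega), mul_one]
        _ = 1 := hΛ

open Classical in
lemma nuF_sum (a : ℕ) (w : W) (G : W → ℝ≥0∞) :
    ∑' w', nuF Λ ht dl a w w' * G w'
      = ∑' L : List B, if FPL ht a L then LW Λ L * G (act dl L w) else 0 := by
  simp only [nuF, ← ENNReal.tsum_mul_right]
  rw [ENNReal.tsum_comm]
  refine tsum_congr fun L => ?_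
  by_cases h : FPL ht a L
  · rw [tsum_eq_single (act dl L w)]
    · simp [h]
    · intro w' hw'
      rw [if_neg (fun h' => hw' h'.2.symm), zero_mul]
  · simp [h]

open Classical in
lemma FI_le_one (hU1 : ∀ n, U Λ ht n ≤ 1) (loc : List B → Prop) (h s : ℕ) (w : W) :
    FI Λ ht dl cd loc h s w ≤ 1 := by
  refine le_trans ?_ (hU1 h)
  rw [FI, U]
  refine ENNReal.tsum_le_tsum fun L => ?_
  by_cases h' : HT ht L = h
  · rw [if_pos h']
    split_ifs <;> simp
  · rw [if_neg (fun h2 => h' h2.1)]
    exact zero_le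

/-- bound for one type -/
lemma type_bound (h1 : ∀ b, 1 ≤ ht b) (hΛ : ∑' b, Λ b = 1) (hU1 : ∀ n, U Λ ht n ≤ 1)
    (hinj : ∀ b, Function.Injective (dl b)) (D : DensSt Λ ht dl)
    (q A : ℝ≥0∞) (δ : ℕ → ℝ≥0∞) (h : ℕ) (loc : List B → Prop)
    (hP : PType Λ ht dl cd q A δ h loc) (t J a s : ℕ) (hht : h ≤ 4 * t) (haJ : 5 * t * J ≤ a)
    (lam : ℝ≥0∞) (hl : lam ≠ 0) (hl' : lam ≠ ⊤) (w : W) :
    ∑' w', nuF Λ ht dl a w w' * FI Λ ht dl cd loc h s w'
      ≤ A * (lam + J * δ s / lam + δ s) + ((1 - q) ^ J + J * tl Λ ht t) := by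
  obtain ⟨th, hth, hth', low, hlow, hq, hW⟩ := hP
  have hd := D h1 hΛ hU1 hinj th q h t low hht hlow hq J a haJ w
  set M : ℝ≥0∞ := J * th with hM
  have hsum : ∑' w', nuF Λ ht dl a w w' ≤ 1 := by
    have := nuF_sum Λ ht dl a w (fun _ => 1)
    simp only [mul_one] at this
    rw [this, FPL_mass Λ ht h1 hΛ]
  have hW' := hW s lam M hl hl' (fun w' => min (nuF Λ ht dl a w w') M)
    ((ENNReal.tsum_le_tsum fun w' => min_le_left _ _).trans hsum) (fun w' => min_le_right _ _)
  have hMth : M * th⁻¹ * δ s / lam = J * δ s / lam := by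
    rw [hM, mul_assoc (J : ℝ≥0∞), ENNReal.mul_inv_cancel hth hth', mul_one]
  rw [hMth] at hW'
  calc ∑' w', nuF Λ ht dl a w w' * FI Λ ht dl cd loc h s w'
      ≤ ∑' w', (min (nuF Λ ht dl a w w') M * FI Λ ht dl cd loc h s w'
          + (nuF Λ ht dl a w w' - M)) := by
        refine ENNReal.tsum_le_tsum fun w' => ?_
        have e : nuF Λ ht dl a w w' ≤ min (nuF Λ ht dl a w w') M + (nuF Λ ht dl a w w' - M) := by
          rcases le_total (nuF Λ ht dl a w w') M with hle | hle
          · rw [min_eq_left hle]; exact le_self_add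
          · rw [min_eq_right hle]; exact le_add_tsub
        calc nuF Λ ht dl a w w' * FI Λ ht dl cd loc h s w'
            ≤ (min (nuF Λ ht dl a w w') M + (nuF Λ ht dl a w w' - M))
              * FI Λ ht dl cd loc h s w' := mul_le_mul_left e _
          _ = min (nuF Λ ht dl a w w') M * FI Λ ht dl cd loc h s w'
              + (nuF Λ ht dl a w w' - M) * FI Λ ht dl cd loc h s w' := add_mul _ _ _
          _ ≤ _ := by
              refine add_le_add le_rfl ?_
              calc (nuF Λ ht dl a w w' - M) * FI Λ ht dl cd loc h s w'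
                  ≤ (nuF Λ ht dl a w w' - M) * 1 :=
                    mul_le_mul_right (FI_le_one Λ ht dl cd hU1 _ _ _ _) _
                _ = _ := mul_one _
    _ = _ := ENNReal.tsum_add
    _ ≤ _ := add_le_add hW' hd

open Classical in
/-- the window estimate -/
lemma window (h1 : ∀ b, 1 ≤ ht b) (hcd : ∀ w b k, k ∈ cd w b → 1 ≤ k ∧ k ≤ ht b)
    (hinj : ∀ b, Function.Injective (dl b))
    (c : ℝ≥0∞) (hc : c ≠ 0) (hU : ∀ n, c ≤ U Λ ht n) (hU1 : ∀ n, U Λ ht n ≤ 1)
    (D : DensSt Λ ht dl) (S : SplitSt Λ ht)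
    (A : ℝ≥0∞) (δ : ℕ → ℝ≥0∞) (HP : HPiece Λ ht dl cd c A δ)
    (v : ℝ≥0∞) (hv : v ≠ 0) (hvc : v ≤ c) (lam : ℝ≥0∞) (hl : lam ≠ 0) (hl' : lam ≠ ⊤)
    (J i s t a n : ℕ) (haJ : 5 * t * J ≤ a) (hit : i ≤ t) (hn : a + i + 3 * t < n)
    (ε : ℝ≥0∞) (w : W)
    (hpt : ∀ k, (a ≤ k ∨ a + 3 * t - i - s ≤ k) → k ≤ a + 3 * t + i + s →
      (∑' L : List B, if HT ht L = n ∧ k ∈ CD ht dl cd L w then LW Λ L else 0) ≤ ε) :
    (∑' L : List B, if HT ht L = n ∧ ∃ k ∈ CD ht dl cd L w, a + t < k ∧ k ≤ a + 2 * t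
        then LW Λ L else 0)
      ≤ (2 * tl Λ ht i + c⁻¹ * ((A * (lam + J * δ s / lam + δ s) + ((1 - c * v) ^ J + J * tl Λ ht t))
          + (A * (lam + J * δ s / lam + δ s) + ((1 - c * v) ^ J + J * tl Λ ht t)) + v * v))
        + ((3 * i + 2 * s + 2 : ℕ) : ℝ≥0∞) * ε := by
  have hcle : c ≤ 1 := (hU 0).trans (hU1 0)
  have hc' : c ≠ ⊤ := ne_top_of_le_ne_top ENNReal.one_ne_top hcle
  have hΛ : ∑' b, Λ b = 1 :=
    le_antisymm (mass_le_one Λ ht h1 hU1) (mass_ge_one Λ ht c hc 0 fun n _ => hU n)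
  have hE : ∑' k, tail Λ ht k ≤ c⁻¹ := by
    rw [← sum_tail Λ ht hΛ]
    exact mean_le Λ ht h1 hΛ c hc hc' 0 fun n _ => hU n
  set Sl : Finset ℕ := Finset.Icc a (a + i + s) ∪ Finset.Icc (a + 3 * t - i - s) (a + 3 * t + i)
    with hSl
  set F : List B → ℝ≥0∞ := fun L =>
    if (∃ k ∈ CD ht dl cd L w, a + t < k ∧ k ≤ a + 2 * t) ∧ ∀ k ∈ CD ht dl cd L w, k ∉ Sl
      then 1 else 0 with hF
  set P : List B → List B → ℝ≥0∞ := fun L1 Lp =>
    if CD ht dl cd Lp (act dl L1 w) ≠ ∅ ∧
      (∀ k ∈ CD ht dl cd Lp (act dl L1 w), s < k ∧ k + s ≤ HT ht Lp) then 1 else 0 with hP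
  have hcard : Sl.card ≤ 3 * i + 2 * s + 2 := by
    refine (Finset.card_union_le _ _).trans ?_
    rw [Nat.card_Icc, Nat.card_Icc]
    omega
  -- the split
  have hS := S h1 hΛ hU1 n a (3 * t) F P i (by omega) (by omega)
    (fun L => by simp only [hF]; split_ifs <;> simp) (by
      intro L1 Lp R hL1 hL1i hLp hLpg hn'
      simp only [hF, hP]
      split_ifs with hA hB
      · exact le_rfl
      · exfalso
        apply hB
        obtain ⟨⟨k, hk, hk1, hk2⟩, hall⟩ := hA
        have hsub : ∀ k' ∈ CD ht dl cd Lp (act dl L1 w),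
            HT ht L1 + k' ∈ CD ht dl cd (L1 ++ (Lp ++ R)) w := by
          intro k' hk'
          rw [CD_append]
          refine Or.inr ⟨k', ?_, rfl⟩
          rw [CD_append]
          exact Or.inl hk'
        refine ⟨?_, ?_⟩
        · rw [← Set.nonempty_iff_ne_empty]
          rw [CD_append] at hk
          rcases hk with hk | ⟨k', hk', rfl⟩
          · have := CD_pos ht dl cd hcd _ _ _ hk
            omega
          · rw [CD_append] at hk'
            rcases hk' with hk' | ⟨k'', hk'', rfl⟩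
            · exact ⟨k', hk'⟩
            · have := CD_pos ht dl cd hcd _ _ _ hk''
              have hL1a := hL1.1
              simp only at hk1 hk2
              omega
        · intro k' hk'
          have h2 := hall _ (hsub k' hk')
          have h3 := CD_pos ht dl cd hcd _ _ _ hk'
          have h4 := hL1.1
          simp only [hSl, Finset.mem_union, Finset.mem_Icc, not_or, not_and, not_le] at h2
          constructor
          · by_contra hcon
            have := h2.1 (by omega)
            omega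
          · by_contra hcon
            have := h2.2 (by omega)
            omega
      · exact zero_le
      · exact zero_le)
  -- main term
  set Bd : ℝ≥0∞ := (A * (lam + J * δ s / lam + δ s) + ((1 - c * v) ^ J + J * tl Λ ht t))
          + (A * (lam + J * δ s / lam + δ s) + ((1 - c * v) ^ J + J * tl Λ ht t)) + v * v with hBd
  have hmain : ∀ h ∈ Finset.range (3 * t + 1), (∑' L1 : List B, (if FPL ht a L1 then LW Λ L1 *
          ∑' Lp : List B, (if HT ht Lp = h then LW Λ Lp * P L1 Lp else 0) else 0)) ≤ Bd := by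
    intro h hh
    have hh' := Finset.mem_range.1 hh
    obtain ⟨lx, ly, hxy, hX, hY⟩ := HP v hv hvc h
    have hbX := type_bound Λ ht dl cd h1 hΛ hU1 hinj D _ A δ h lx hX t J a s (by omega) haJ lam hl hl' w
    have hbY := type_bound Λ ht dl cd h1 hΛ hU1 hinj D _ A δ h ly hY t J a s (by omega) haJ lam hl hl' w
    have hinner : ∀ L1 : List B, (∑' Lp : List B, (if HT ht Lp = h then LW Λ Lp * P L1 Lp else 0))
        ≤ FI Λ ht dl cd lx h s (act dl L1 w) + FI Λ ht dl cd ly h s (act dl L1 w) + v * v := by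
      intro L1
      refine le_trans ?_ (add_le_add le_rfl hxy)
      rw [FI, FI, ← ENNReal.tsum_add, ← ENNReal.tsum_add]
      refine ENNReal.tsum_le_tsum fun Lp => ?_
      by_cases hL : HT ht Lp = h
      · rw [if_pos hL]
        by_cases hPP : CD ht dl cd Lp (act dl L1 w) ≠ ∅ ∧
            (∀ k ∈ CD ht dl cd Lp (act dl L1 w), s < k ∧ k + s ≤ HT ht Lp)
        · simp only [hP]
          rw [if_pos hPP, mul_one]
          rw [hL] at hPP
          by_cases hlx : lx Lp
          · rw [if_pos (c := HT ht Lp = h ∧ lx Lp ∧ _ ∧ _) ⟨hL, hlx, hPP.1, hPP.2⟩, add_assoc]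
            exact le_self_add
          · by_cases hly : ly Lp
            · rw [if_pos (c := HT ht Lp = h ∧ ly Lp ∧ _ ∧ _) ⟨hL, hly, hPP.1, hPP.2⟩]
              exact le_add_right le_add_self
            · rw [if_pos (c := HT ht Lp = h ∧ ¬ lx Lp ∧ ¬ ly Lp) ⟨hL, hlx, hly⟩]
              exact le_add_self
        · simp only [hP]
          rw [if_neg hPP, mul_zero]
          exact zero_le
      · rw [if_neg hL]; exact zero_le
    calc (∑' L1 : List B, (if FPL ht a L1 then LW Λ L1 *
          ∑' Lp : List B, (if HT ht Lp = h then LW Λ Lp * P L1 Lp else 0) else 0))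
        ≤ ∑' L1 : List B, (if FPL ht a L1 then LW Λ L1 *
          (FI Λ ht dl cd lx h s (act dl L1 w) + FI Λ ht dl cd ly h s (act dl L1 w) + v * v)
            else 0) := by
          refine ENNReal.tsum_le_tsum fun L1 => ?_
          by_cases hL1 : FPL ht a L1
          · rw [if_pos hL1, if_pos hL1]
            exact mul_le_mul_right (hinner L1) _
          · rw [if_neg hL1]; exact zero_le
      _ = ∑' w', nuF Λ ht dl a w w' *
          (FI Λ ht dl cd lx h s w' + FI Λ ht dl cd ly h s w' + v * v) :=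
          (nuF_sum Λ ht dl a w (fun w' =>
            FI Λ ht dl cd lx h s w' + FI Λ ht dl cd ly h s w' + v * v)).symm
      _ = (∑' w', nuF Λ ht dl a w w' * FI Λ ht dl cd lx h s w')
          + (∑' w', nuF Λ ht dl a w w' * FI Λ ht dl cd ly h s w')
          + (∑' w', nuF Λ ht dl a w w' * (v * v)) := by
          simp only [mul_add]
          rw [ENNReal.tsum_add, ENNReal.tsum_add]
      _ ≤ _ := by
          refine add_le_add (add_le_add hbX hbY) ?_
          have := nuF_sum Λ ht dl a w (fun _ => 1)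
          simp only [mul_one] at this
          rw [ENNReal.tsum_mul_right, this, FPL_mass Λ ht h1 hΛ, one_mul]
  have hsumtail : ∑ h ∈ Finset.range (3 * t + 1), tail Λ ht (3 * t - h) ≤ c⁻¹ := by
    rw [Finset.sum_flip (fun k => tail Λ ht k)]
    exact (ENNReal.sum_le_tsum _).trans hE
  have hS2 : (∑' L : List B, if HT ht L = n then LW Λ L * F L else 0)
      ≤ 2 * tl Λ ht i + c⁻¹ * Bd := by
    refine hS.trans (add_le_add le_rfl ?_)
    calc _ ≤ ∑ h ∈ Finset.range (3 * t + 1), tail Λ ht (3 * t - h) * Bd :=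
          Finset.sum_le_sum fun h hh => mul_le_mul_right (hmain h hh) _
      _ = (∑ h ∈ Finset.range (3 * t + 1), tail Λ ht (3 * t - h)) * Bd :=
          (Finset.sum_mul _ _ _).symm
      _ ≤ _ := mul_le_mul_left hsumtail _
  -- slabs
  calc (∑' L : List B, if HT ht L = n ∧ ∃ k ∈ CD ht dl cd L w, a + t < k ∧ k ≤ a + 2 * t
        then LW Λ L else 0)
      ≤ ∑' L : List B, ((if HT ht L = n then LW Λ L * F L else 0) + ∑ k ∈ Sl,
          (if HT ht L = n ∧ k ∈ CD ht dl cd L w then LW Λ L else 0)) := by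
        refine ENNReal.tsum_le_tsum fun L => ?_
        by_cases hL : HT ht L = n ∧ ∃ k ∈ CD ht dl cd L w, a + t < k ∧ k ≤ a + 2 * t
        · rw [if_pos hL, if_pos hL.1]
          by_cases hall : ∀ k ∈ CD ht dl cd L w, k ∉ Sl
          · simp only [hF]
            rw [if_pos ⟨hL.2, hall⟩, mul_one]
            exact le_self_add
          · push Not at hall
            obtain ⟨k, hk, hkS⟩ := hall
            refine le_add_left ?_
            refine le_trans ?_ (Finset.single_le_sum (f := fun k =>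
              (if HT ht L = n ∧ k ∈ CD ht dl cd L w then LW Λ L else 0))
              (fun _ _ => zero_le) hkS)
            rw [if_pos ⟨hL.1, hk⟩]
        · rw [if_neg hL]; exact zero_le
    _ = (∑' L : List B, (if HT ht L = n then LW Λ L * F L else 0)) + ∑ k ∈ Sl,
          ∑' L : List B, (if HT ht L = n ∧ k ∈ CD ht dl cd L w then LW Λ L else 0) := by
        rw [ENNReal.tsum_add, Summable.tsum_finsetSum (fun _ _ => ENNReal.summable)]
    _ ≤ (2 * tl Λ ht i + c⁻¹ * Bd) + ((3 * i + 2 * s + 2 : ℕ) : ℝ≥0∞) * ε := by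
        refine add_le_add hS2 ?_
        calc _ ≤ ∑ _k ∈ Sl, ε := by
              refine Finset.sum_le_sum fun k hk => hpt k ?_ ?_
              · simp only [hSl, Finset.mem_union, Finset.mem_Icc] at hk
                omega
              · simp only [hSl, Finset.mem_union, Finset.mem_Icc] at hk
                omega
          _ = (Sl.card : ℝ≥0∞) * ε := by simp
          _ ≤ _ := mul_le_mul_left (by exact_mod_cast hcard) _

end Crest.Agent.R154.B5A
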