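import Crest.Agent.R154.Peel_225
import Crest.Agent.R154.Dens_903

/-! Row 154 (helper225), ROAD 801: one walker as a list of blocks; pieces, threshold, support. -/

set_option autoImplicit false

namespace Crest.Agent.R154.Cd225

open scoped ENNReal
open Crest.Agent.R154.B5A
open Crest.Agent.R154.FP178 (fp)

/-- one walker read from the tie down -/
structure Wk (B G : Type*) [AddCommGroup G] where
  Λ : B → ℝ≥0∞
  h : B → ℕ
  z : B → G
  T : List B → G → ℕ → Set (G × ℕ)
  h1 : ∀ b, 1 ≤ h b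
  hΛ : ∑' b, Λ b = 1
  hU : ∀ n, U Λ h n ≤ 1
  hm : ∑' k, tail Λ h k ≠ ⊤
  ap : ∀ L L' x a, T (L ++ L') x a = T L x a ∪ T L' (x + (L.map z).sum) (a + HT h L)
  tr : ∀ L x y z' k a, (z', k) ∈ T L (x + y) a ↔ (z' - y, k) ∈ T L x a
  rg : ∀ L x a z' k, (z', k) ∈ T L x a → a < k ∧ k ≤ a + HT h L

variable {B G : Type*} [AddCommGroup G] (W : Wk B G)

namespace Wk

/-- height and displacement of a list -/
def f (A : List B) : ℕ × G := (HT W.h A, (A.map W.z).sum)

lemma sum_f (P : List (List B)) :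
    (P.map W.f).sum = (HT W.h P.flatten, (P.flatten.map W.z).sum) := by
  induction P with
  | nil => simp [HT_nil]; rfl
  | cons A P ih =>
    rw [List.map_cons, List.sum_cons, ih, List.flatten_cons, HT_append, List.map_append,
      List.sum_append]
    rfl

open Classical in
lemma mass_fp (T : ℕ) : ∑' A, (if fp W.h T A then LW W.Λ A else 0) = 1 := by
  induction T using Nat.strong_induction_on with
  | _ T ih =>
    rcases Nat.eq_zero_or_pos T with rfl | hT
    · have := FP178.sum_fp_zero W.Λ W.h (fun _ => 1)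
      simp only [mul_one] at this
      exact this
    · have := FP178.sum_fp_step W.Λ W.h T hT (fun _ => 1)
      simp only [mul_one] at this
      rw [this, ← W.hΛ]
      refine tsum_congr fun b => ?_
      rw [ih (T - W.h b) (by have := W.h1 b; omega), mul_one]

open Classical in
/-- law of a piece -/
noncomputable def p0 (T : ℕ) (v : ℕ × G) : ℝ≥0∞ :=
  ∑' A, if W.f A = v then (if fp W.h T A then LW W.Λ A else 0) else 0

open Classical in
lemma sum_p0 (T : ℕ) (Q : ℕ × G → Prop) [DecidablePred Q] :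
    ∑' A, (if Q (W.f A) then (if fp W.h T A then LW W.Λ A else 0) else 0)
      = ∑' v, (if Q v then W.p0 T v else 0) := by
  have : ∀ v, (if Q v then W.p0 T v else 0)
      = ∑' A, (if W.f A = v then (if Q (W.f A) then (if fp W.h T A then LW W.Λ A else 0) else 0)
          else 0) := by
    intro v
    by_cases hv : Q v
    · rw [if_pos hv, p0]
      refine tsum_congr fun A => ?_
      by_cases hA : W.f A = v
      · have hq : Q (W.f A) := by rw [hA]; exact hv
        rw [if_pos hA, if_pos hA, if_pos hq]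
      · rw [if_neg hA, if_neg hA]
    · rw [if_neg hv]
      symm
      rw [ENNReal.tsum_eq_zero]
      intro A
      by_cases hA : W.f A = v
      · have hq : ¬ Q (W.f A) := by rw [hA]; exact hv
        rw [if_pos hA, if_neg hq]
      · rw [if_neg hA]
  simp_rw [this]
  rw [ENNReal.tsum_comm]
  refine tsum_congr fun A => ?_
  rw [tsum_eq_single (W.f A)]
  · rw [if_pos rfl]
  · intro v hv; rw [if_neg hv.symm]

/-- weight of a good piece -/
noncomputable def l (T i0 : ℕ) : List B → ℝ≥0∞ := lg W.Λ W.h T i0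

lemma l_le (T i0 : ℕ) : ∑' A, W.l T i0 A ≤ 1 := lg_le W.Λ W.h W.h1 W.hΛ.le T i0

lemma l_ne {T i0 : ℕ} {A : List B} (hA : W.l T i0 A ≠ 0) :
    T ≤ HT W.h A ∧ HT W.h A ≤ T + i0 := by
  unfold l lg at hA
  by_cases h : fp W.h T A ∧ HT W.h A ≤ T + i0
  · exact ⟨FP178.le_HT_of_fp W.h h.1, h.2⟩
  · rw [if_neg h] at hA; exact absurd rfl hA

open Classical in
lemma l_le_fp (T i0 : ℕ) (A : List B) : W.l T i0 A ≤ (if fp W.h T A then LW W.Λ A else 0) := by
  unfold l lg
  by_cases h : fp W.h T A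
  · by_cases h2 : HT W.h A ≤ T + i0
    · rw [if_pos ⟨h, h2⟩, if_pos h]
    · rw [if_neg (fun hh => h2 hh.2)]; exact zero_le
  · rw [if_neg (fun hh => h hh.1)]; exact zero_le

lemma l_le_LW (T i0 : ℕ) (A : List B) : W.l T i0 A ≤ LW W.Λ A := by
  classical
  refine (W.l_le_fp T i0 A).trans ?_
  split_ifs
  · exact le_rfl
  · exact zero_le

open Classical in
/-- the threshold -/
theorem exists_th (T i0 : ℕ) (u : ℝ≥0∞) (hu0 : u ≠ 0) (hu1 : u ≤ 1) : ∃ th : ℝ≥0∞, th ≠ 0 ∧
    ∑' A, (if th ≤ W.p0 T (W.f A) then 0 else W.l T i0 A) ≤ u ∧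
    ∑' A, (if th < pl (W.l T i0) W.f (W.f A) then W.l T i0 A else 0) ≤ 1 - u ∧
    ∀ h : ℕ, ∃ E : Finset G, (∀ z, th ≤ W.p0 T (h, z) → z ∈ E) ∧ th * E.card ≤ 1 := by
  have hmass : ∑' v, W.p0 T v = 1 := by
    have := W.sum_p0 T (fun _ => True)
    simp only [if_true] at this
    rw [← this, W.mass_fp T]
  obtain ⟨th, h0, _, h1, h2⟩ := Dens903.quantile (W.p0 T) hmass hu0 hu1
  refine ⟨th, h0, ?_, ?_, ?_⟩
  · refine le_trans ?_ h1
    rw [← W.sum_p0 T (fun v => W.p0 T v < th)]
    refine ENNReal.tsum_le_tsum fun A => ?_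
    by_cases h : th ≤ W.p0 T (W.f A)
    · rw [if_pos h]; exact zero_le
    · rw [if_neg h, if_pos (not_le.1 h)]
      exact W.l_le_fp T i0 A
  · have e : ∑' v, (if th < W.p0 T v then W.p0 T v else 0) ≤ 1 - u := by
      have hs : ∑' v, (if W.p0 T v ≤ th then W.p0 T v else 0)
          + ∑' v, (if th < W.p0 T v then W.p0 T v else 0) = 1 := by
        rw [← ENNReal.tsum_add, ← hmass]
        refine tsum_congr fun v => ?_
        by_cases h : W.p0 T v ≤ th
        · rw [if_pos h, if_neg (not_lt.2 h), add_zero]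
        · rw [if_neg h, if_pos (not_le.1 h), zero_add]
      have hut : u ≠ ⊤ := ne_top_of_le_ne_top ENNReal.one_ne_top hu1
      refine ENNReal.le_sub_of_add_le_left hut ?_
      calc u + ∑' v, (if th < W.p0 T v then W.p0 T v else 0)
          ≤ ∑' v, (if W.p0 T v ≤ th then W.p0 T v else 0)
            + ∑' v, (if th < W.p0 T v then W.p0 T v else 0) := add_le_add h2 le_rfl
        _ ≤ 1 := hs.le
    refine le_trans ?_ e
    rw [← W.sum_p0 T (fun v => th < W.p0 T v)]
    refine ENNReal.tsum_le_tsum fun A => ?_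
    by_cases h : th < pl (W.l T i0) W.f (W.f A)
    · have hle : pl (W.l T i0) W.f (W.f A) ≤ W.p0 T (W.f A) := by
        unfold pl p0
        refine ENNReal.tsum_le_tsum fun A' => ?_
        split_ifs with h3
        · have := W.l_le_fp T i0 A'; simpa [h3] using (by split_ifs at this ⊢ <;> assumption)
        · have := W.l_le_fp T i0 A'; split_ifs at this; exact this
        · exact le_rfl
      rw [if_pos h, if_pos (h.trans_le hle)]
      exact W.l_le_fp T i0 A
    · rw [if_neg h]; exact zero_le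
  · intro h
    have hs : ∑' z, W.p0 T (h, z) ≤ 1 := by
      rw [← hmass, ENNReal.tsum_prod' (f := W.p0 T)]
      exact ENNReal.le_tsum h
    have hfin : {z : G | th ≤ W.p0 T (h, z)}.Finite :=
      ENNReal.finite_const_le_of_tsum_ne_top (ne_top_of_le_ne_top ENNReal.one_ne_top hs) h0
    refine ⟨hfin.toFinset, fun z hz => hfin.mem_toFinset.2 hz, ?_⟩
    calc th * (hfin.toFinset.card : ℝ≥0∞) = ∑ _z ∈ hfin.toFinset, th := by
          rw [Finset.sum_const, nsmul_eq_mul, mul_comm]
      _ ≤ ∑ z ∈ hfin.toFinset, W.p0 T (h, z) :=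
          Finset.sum_le_sum fun z hz => hfin.mem_toFinset.1 hz
      _ ≤ ∑' z, W.p0 T (h, z) := ENNReal.sum_le_tsum _
      _ ≤ 1 := hs

/-- heights of a list of good pieces -/
lemma HT_good (T i0 : ℕ) (P : List (List B)) (hP : ∀ A ∈ P, W.l T i0 A ≠ 0) :
    P.length * T ≤ HT W.h P.flatten ∧ HT W.h P.flatten ≤ P.length * T + P.length * i0 := by
  induction P with
  | nil => simp [HT_nil]
  | cons A P ih =>
    have h1 := W.l_ne (hP A (by simp))
    have h2 := ih (fun A' hA' => hP A' (by simp [hA']))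
    rw [List.flatten_cons, HT_append, List.length_cons]
    constructor
    · nlinarith [h1.1, h2.1]
    · nlinarith [h1.2, h2.2]

lemma LW_zero {C : Type*} (l : C → ℝ≥0∞) (P : List C) (h : ∃ A ∈ P, l A = 0) : LW l P = 0 := by
  obtain ⟨A, hA, h0⟩ := h
  unfold LW
  exact List.prod_eq_zero (List.mem_map.2 ⟨A, hA, h0⟩)

lemma SL_mono' {C : Type*} (l : C → ℝ≥0∞) (J : ℕ) {F F' : List C → ℝ≥0∞}
    (h : ∀ P, P.length = J → (∀ A ∈ P, l A ≠ 0) → F P ≤ F' P) : SL l J F ≤ SL l J F' := by
  refine ENNReal.tsum_le_tsum fun P => ?_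
  by_cases hP : P.length = J
  · rw [if_pos hP, if_pos hP]
    by_cases h0 : ∃ A ∈ P, l A = 0
    · rw [LW_zero l P h0, zero_mul]; exact zero_le
    · push Not at h0
      exact mul_le_mul_right (h P hP h0) _
  · rw [if_neg hP]; exact zero_le

lemma Pj_supp (T i0 j : ℕ) (N : ℕ) (hN : j ≤ N) (v : ℕ × G)
    (hv : v.1 ∉ Finset.Icc (j * T) (j * T + N * i0)) : Pj (W.l T i0) W.f j v = 0 := by
  classical
  refine le_antisymm ?_ zero_le
  calc Pj (W.l T i0) W.f j v ≤ SL (W.l T i0) j (fun _ => 0) := by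
        refine SL_mono' (W.l T i0) j fun P hP hg => ?_
        rw [if_neg]
        rintro rfl
        apply hv
        rw [W.sum_f]
        have := W.HT_good T i0 P hg
        rw [hP] at this
        rw [Finset.mem_Icc]
        refine ⟨this.1, this.2.trans ?_⟩
        have : j * i0 ≤ N * i0 := Nat.mul_le_mul_right _ hN
        omega
    _ = 0 := by simp [SL]

end Wk

end Crest.Agent.R154.Cd225
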