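import Crest.Agent.R154.NBDefs_28
import Crest.Agent.R154.D1A_569
import Crest.Agent.R154.B5Abs_566

/-! Row 154, ROAD 801 (helper175): word tools (Kraft, first hit, splitting / merging of word sums). -/

set_option autoImplicit false

namespace Crest.Agent.R154.Wd175

open MeasureTheory ProbabilityTheory Crest.ProbabilityR.RandomEnvironment Crest.Agent.R154
open Crest.Agent.R154.Flux132 (lev opp)
open Crest.Agent.R154.Flux566 (lw endp sitesL)
open Crest.Agent.R154.NB28 (aw)
open scoped ENNReal

variable {d : ℕ}

/-! ### lists -/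

lemma tsum_split {α : Type*} (G : List α → ℝ≥0∞) (H : List α → List α → ℝ≥0∞)
    (h : ∀ l, G l ≠ 0 → ∃ p q, l = p ++ q ∧ G l ≤ H p q) :
    ∑' l, G l ≤ ∑' p, ∑' q, H p q := by
  classical
  have h' : ∀ l, ∃ x : List α × List α, x.1 ++ x.2 = l ∧ G l ≤ H x.1 x.2 := by
    intro l
    by_cases hl : G l = 0
    · exact ⟨(l, []), by simp, by rw [hl]; exact zero_le⟩
    · obtain ⟨p, q, h1, h2⟩ := h l hl
      exact ⟨(p, q), h1.symm, h2⟩
  choose f hf1 hf2 using h'
  have hinj : Function.Injective f := fun a b hab => by rw [← hf1 a, ← hf1 b, hab]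
  calc ∑' l, G l ≤ ∑' l, H (f l).1 (f l).2 := ENNReal.tsum_le_tsum hf2
    _ ≤ ∑' x : List α × List α, H x.1 x.2 :=
        ENNReal.tsum_comp_le_tsum_of_injective hinj (fun x : List α × List α => H x.1 x.2)
    _ = _ := ENNReal.tsum_prod (f := H)

lemma tsum_merge {α : Type*} (H : List α → List α → ℝ≥0∞) (G : List α → ℝ≥0∞)
    (hle : ∀ p q, H p q ≤ G (p ++ q))
    (hinj : ∀ p q p' q', H p q ≠ 0 → H p' q' ≠ 0 → p ++ q = p' ++ q' → p = p') :
    ∑' p, ∑' q, H p q ≤ ∑' l, G l := by
  classical
  rw [← ENNReal.tsum_prod (f := H)]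
  set S : Set (List α × List α) := Function.support (fun x : List α × List α => H x.1 x.2)
  have h1 : ∑' x : List α × List α, H x.1 x.2 = ∑' x : S, H x.1.1 x.1.2 :=
    (tsum_subtype_eq_of_support_subset (f := fun x : List α × List α => H x.1 x.2)
      (s := S) subset_rfl).symm
  rw [h1]
  have hi : Function.Injective fun x : S => x.1.1 ++ x.1.2 := by
    rintro ⟨⟨p, q⟩, hx⟩ ⟨⟨p', q'⟩, hx'⟩ hab
    have hab' : p ++ q = p' ++ q' := hab
    have := hinj p q p' q' hx hx' hab'
    subst this
    have := List.append_cancel_left hab'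
    subst this
    rfl
  calc ∑' x : S, H x.1.1 x.1.2 ≤ ∑' x : S, G (x.1.1 ++ x.1.2) :=
        ENNReal.tsum_le_tsum fun x => hle _ _
    _ ≤ _ := ENNReal.tsum_comp_le_tsum_of_injective hi G

/-! ### words -/

lemma lw_append (ω : Environment d) (x : Site d) (l l' : List (Step d)) :
    lw ω x (l ++ l') = lw ω x l * lw ω (endp x l) l' := by
  induction l generalizing x with
  | nil => simp [lw, endp]
  | cons e l ih => simp only [List.cons_append, lw, endp, ih, mul_assoc]

lemma sitesL_append (x : Site d) (l l' : List (Step d)) :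
    sitesL x (l ++ l') = sitesL x l ++ sitesL (endp x l) l' := by
  induction l generalizing x with
  | nil => simp [sitesL, endp]
  | cons e l ih => simp only [List.cons_append, sitesL, endp, ih]

lemma mem_sites_append {x z : Site d} {l l' : List (Step d)} :
    z ∈ sitesL x (l ++ l') ↔ z ∈ sitesL x l ∨ z ∈ sitesL (endp x l) l' := by
  rw [sitesL_append, List.mem_append]

lemma endp_append (x : Site d) (l l' : List (Step d)) :
    endp x (l ++ l') = endp (endp x l) l' := Flux566.endp_append l l' x

lemma endp_add (x y : Site d) (l : List (Step d)) : endp (x + y) l = x + endp y l := by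
  rw [Flux566.endp_eq_add l (x + y), Flux566.endp_eq_add l y, add_assoc]

lemma sites_add (x y : Site d) (l : List (Step d)) :
    sitesL (x + y) l = (sitesL y l).map (x + ·) := by
  induction l generalizing y with
  | nil => simp [sitesL]
  | cons e l ih => simp only [sitesL, List.map_cons, add_assoc, ih]

lemma mem_sites_add {x y z : Site d} {l : List (Step d)} :
    z ∈ sitesL (x + y) l ↔ z - x ∈ sitesL y l := by
  rw [sites_add, List.mem_map]
  constructor
  · rintro ⟨a, ha, rfl⟩; simpa using ha
  · intro h; exact ⟨z - x, h, by abel⟩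

lemma mem_sites0 {x z : Site d} {l : List (Step d)} :
    z ∈ sitesL x l ↔ z - x ∈ sitesL 0 l := by
  have := mem_sites_add (x := x) (y := 0) (z := z) (l := l)
  rwa [add_zero] at this

/-- the start of a nonempty word is a site; endpoint of a proper prefix is a site -/
lemma endp_mem_of_append {x : Site d} {p q : List (Step d)} (hq : q ≠ []) :
    endp x p ∈ sitesL x (p ++ q) := by
  rw [mem_sites_append]
  right
  cases q with
  | nil => exact absurd rfl hq
  | cons e q => simp [sitesL]

/-- a site of a word is the endpoint of a proper prefix -/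
lemma exists_prefix_of_mem {x z : Site d} {l : List (Step d)} (h : z ∈ sitesL x l) :
    ∃ p q, l = p ++ q ∧ q ≠ [] ∧ endp x p = z := by
  induction l generalizing x with
  | nil => simp [sitesL] at h
  | cons e l ih =>
    simp only [sitesL, List.mem_cons] at h
    rcases h with h | h
    · exact ⟨[], e :: l, rfl, by simp, h.symm⟩
    · obtain ⟨p, q, h1, h2, h3⟩ := ih h
      exact ⟨e :: p, q, by rw [h1]; rfl, h2, h3⟩

/-- first hit of `D` by a word some site of which is in `D` -/
lemma first_hit {D : Site d → Prop} {x : Site d} {l : List (Step d)}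
    (h : ∃ z ∈ sitesL x l, D z) :
    ∃ p q, l = p ++ q ∧ q ≠ [] ∧ (∀ z ∈ sitesL x p, ¬ D z) ∧ D (endp x p) := by
  classical
  induction l generalizing x with
  | nil => obtain ⟨z, hz, _⟩ := h; simp [sitesL] at hz
  | cons e l ih =>
    by_cases hx : D x
    · exact ⟨[], e :: l, rfl, by simp, by simp [sitesL], hx⟩
    · have h' : ∃ z ∈ sitesL (x + stepVec e) l, D z := by
        obtain ⟨z, hz, hD⟩ := h
        simp only [sitesL, List.mem_cons] at hz
        rcases hz with hz | hz
        · subst hz; exact absurd hD hx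
        · exact ⟨z, hz, hD⟩
      obtain ⟨p, q, h1, h2, h3, h4⟩ := ih h'
      refine ⟨e :: p, q, by rw [h1]; rfl, h2, ?_, h4⟩
      intro z hz
      simp only [sitesL, List.mem_cons] at hz
      rcases hz with hz | hz
      · subst hz; exact hx
      · exact h3 z hz

/-- first hit of `D` by a word whose endpoint is in `D` -/
lemma first_hit' {D : Site d → Prop} {x : Site d} {l : List (Step d)} (h : D (endp x l)) :
    ∃ p q, l = p ++ q ∧ (∀ z ∈ sitesL x p, ¬ D z) ∧ D (endp x p) := by
  classical
  by_cases h' : ∃ z ∈ sitesL x l, D z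
  · obtain ⟨p, q, h1, _, h3, h4⟩ := first_hit h'
    exact ⟨p, q, h1, h3, h4⟩
  · push Not at h'
    exact ⟨l, [], by simp, h', h⟩

/-- first hits are unique -/
lemma hit_unique {D : Site d → Prop} {x : Site d} {p q p' q' : List (Step d)}
    (h : p ++ q = p' ++ q') (h1 : ∀ z ∈ sitesL x p, ¬ D z) (h2 : D (endp x p))
    (h1' : ∀ z ∈ sitesL x p', ¬ D z) (h2' : D (endp x p')) : p = p' := by
  rcases List.append_eq_append_iff.1 h with ⟨a, ha, _⟩ | ⟨a, ha, _⟩
  · subst ha
    by_cases h0 : a = []
    · simp [h0]
    · exact absurd h2 (h1' _ (endp_mem_of_append h0))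
  · subst ha
    by_cases h0 : a = []
    · simp [h0]
    · exact absurd h2' (h1 _ (endp_mem_of_append h0))

/-- prefix-free family -/
def PF (S : List (Step d) → Prop) : Prop := ∀ l l', S l → S (l ++ l') → l' = []

lemma PF.tail {S : List (Step d) → Prop} (h : PF S) (p : List (Step d)) :
    PF fun q => S (p ++ q) := by
  intro l l' h1 h2
  exact h (p ++ l) l' h1 (by simpa [List.append_assoc] using h2)

lemma PF.mono {S S' : List (Step d) → Prop} (h : PF S) (hs : ∀ l, S' l → S l) : PF S' :=
  fun l l' h1 h2 => h l l' (hs _ h1) (hs _ h2)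

lemma row_sum (ω : Environment d) (x : Site d) :
    ∑ e : Step d, ENNReal.ofReal ((ω x).1 e) = 1 := by
  rw [← ENNReal.ofReal_sum_of_nonneg (fun e _ => (ω x).2.1 e), (ω x).2.2, ENNReal.ofReal_one]

open Classical in
lemma kraft_aux (ω : Environment d) (N : ℕ) : ∀ (x : Site d) (S : List (Step d) → Prop), PF S →
    ∑' l : List (Step d), (if S l ∧ l.length ≤ N then lw ω x l else 0) ≤ 1 := by
  induction N with
  | zero =>
    intro x S hS
    rw [B5A.tsum_list]
    have : ∑' b : Step d, ∑' L : List (Step d),
        (if S (b :: L) ∧ (b :: L).length ≤ 0 then lw ω x (b :: L) else 0) = 0 := by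
      simp
    rw [this, add_zero]
    split_ifs
    · simp [lw]
    · exact zero_le
  | succ N ih =>
    intro x S hS
    rw [B5A.tsum_list]
    by_cases h0 : S []
    · have h1 : ∀ b : Step d, ∀ L : List (Step d), ¬ S (b :: L) := by
        intro b L h
        have := hS [] (b :: L) h0 h
        simp at this
      simp [h0, h1, lw]
    · rw [if_neg (fun h => h0 h.1), zero_add, tsum_fintype]
      rw [← row_sum ω x]
      refine Finset.sum_le_sum fun e _ => ?_
      have h2 : ∀ L : List (Step d), (if S (e :: L) ∧ (e :: L).length ≤ N + 1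
          then lw ω x (e :: L) else 0)
          = ENNReal.ofReal ((ω x).1 e) * (if S ([e] ++ L) ∧ L.length ≤ N
            then lw ω (x + stepVec e) L else 0) := by
        intro L
        by_cases h : S (e :: L) ∧ L.length ≤ N
        · rw [if_pos ⟨h.1, by simpa using h.2⟩, if_pos (by simpa using h)]; rfl
        · rw [if_neg (fun h' => h ⟨h'.1, by simpa using h'.2⟩),
            if_neg (fun h' => h (by simpa using h')), mul_zero]
      simp only [h2]
      rw [ENNReal.tsum_mul_left]
      calc _ ≤ ENNReal.ofReal ((ω x).1 e) * 1 :=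
            mul_le_mul_right (ih _ _ (hS.tail [e])) _
        _ = _ := mul_one _

open Classical in
/-- **Kraft** -/
theorem kraft (ω : Environment d) (x : Site d) {S : List (Step d) → Prop} (hS : PF S) :
    ∑' l : List (Step d), (if S l then lw ω x l else 0) ≤ 1 := by
  rw [ENNReal.tsum_eq_iSup_sum]
  refine iSup_le fun s => ?_
  obtain ⟨N, hN⟩ : ∃ N, ∀ l ∈ s, l.length ≤ N := ⟨s.sup List.length, fun l hl =>
    Finset.le_sup (f := List.length) hl⟩
  calc ∑ l ∈ s, (if S l then lw ω x l else 0)
      = ∑ l ∈ s, (if S l ∧ l.length ≤ N then lw ω x l else 0) := by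
        refine Finset.sum_congr rfl fun l hl => ?_
        by_cases h : S l
        · rw [if_pos h, if_pos ⟨h, hN l hl⟩]
        · rw [if_neg h, if_neg (fun h' => h h'.1)]
    _ ≤ _ := ENNReal.sum_le_tsum s
    _ ≤ 1 := kraft_aux ω N x S hS

open Classical in
/-- domination: every word of `F` has a prefix in `S` -/
theorem dom (ω : Environment d) (x : Site d) {F S : List (Step d) → Prop} (hF : PF F)
    (h : ∀ l, F l → ∃ p q, l = p ++ q ∧ S p) :
    ∑' l : List (Step d), (if F l then lw ω x l else 0)
      ≤ ∑' p : List (Step d), (if S p then lw ω x p else 0) := by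
  calc ∑' l : List (Step d), (if F l then lw ω x l else 0)
      ≤ ∑' p : List (Step d), ∑' q : List (Step d),
        (if S p then lw ω x p else 0) * (if F (p ++ q) then lw ω (endp x p) q else 0) := by
        refine tsum_split _ _ fun l hl => ?_
        have hFl : F l := by
          by_contra h'
          exact hl (if_neg h')
        obtain ⟨p, q, h1, h2⟩ := h l hFl
        refine ⟨p, q, h1, ?_⟩
        subst h1
        rw [if_pos hFl, if_pos h2, if_pos hFl, lw_append]
    _ ≤ _ := by
        refine ENNReal.tsum_le_tsum fun p => ?_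
        rw [ENNReal.tsum_mul_left]
        calc _ ≤ (if S p then lw ω x p else 0) * 1 := mul_le_mul_right (kraft ω _ (hF.tail p)) _
          _ = _ := mul_one _

/-! ### annealed weights -/

variable (ν : Measure (Row d)) [IsProbabilityMeasure ν]

lemma lw_shift (ω : Environment d) (x z : Site d) (l : List (Step d)) :
    lw (shiftEnv z ω) x l = lw ω (z + x) l := by
  induction l generalizing x with
  | nil => rfl
  | cons e l ih =>
    simp only [lw, ih, add_assoc]
    rw [show shiftEnv z ω x = ω (z + x) by rw [add_comm z x]; rfl]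

lemma lint_lw (x : Site d) (l : List (Step d)) :
    ∫⁻ ω, lw ω x l ∂(iidEnvironmentLaw ν) = aw ν l := by
  have h := (Q561.iid_shift ν x).lintegral_comp (Flux566.measurable_lw (0 : Site d) l)
  unfold aw
  rw [← h]
  refine lintegral_congr fun ω => ?_
  rw [lw_shift, add_zero]

lemma lint_lw_mul {x y : Site d} {l l' : List (Step d)}
    (h : ∀ z ∈ sitesL x l, z ∉ sitesL y l') :
    ∫⁻ ω, lw ω x l * lw ω y l' ∂(iidEnvironmentLaw ν) = aw ν l * aw ν l' := by
  rw [Q561.iid_lintegral_mul ν (S := {z | z ∈ sitesL x l}) (T := {z | z ∈ sitesL y l'}) ?_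
    (Flux566.measurable_lw x l) (Flux566.measurable_lw y l') (Flux566.locOn_lw x l)
    (Flux566.locOn_lw y l'), lint_lw, lint_lw]
  rw [Set.disjoint_left]
  exact fun z hz hz' => h z hz hz'

instance : Countable (List (Step d)) := inferInstance

open Classical in
/-- annealed sum of a family of words -/
lemma lint_tsum (x : Site d) (S : List (Step d) → Prop) :
    ∫⁻ ω, (∑' l : List (Step d), (if S l then lw ω x l else 0)) ∂(iidEnvironmentLaw ν)
      = ∑' l : List (Step d), (if S l then aw ν l else 0) := by
  rw [lintegral_tsum]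
  · refine tsum_congr fun l => ?_
    by_cases h : S l
    · simp only [if_pos h]; exact lint_lw ν x l
    · simp only [if_neg h]; exact lintegral_zero
  · intro l
    by_cases h : S l
    · simp only [if_pos h]; exact (Flux566.measurable_lw x l).aemeasurable
    · simp only [if_neg h]; exact aemeasurable_const

open Classical in
theorem kraft_ann {S : List (Step d) → Prop} (hS : PF S) :
    ∑' l : List (Step d), (if S l then aw ν l else 0) ≤ 1 := by
  rw [← lint_tsum ν 0 S]
  calc _ ≤ ∫⁻ _ω, (1 : ℝ≥0∞) ∂(iidEnvironmentLaw ν) := lintegral_mono fun ω => kraft ω 0 hS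
    _ = 1 := by simp

open Classical in
theorem dom_ann {F S : List (Step d) → Prop} (hF : PF F)
    (h : ∀ l, F l → ∃ p q, l = p ++ q ∧ S p) :
    ∑' l : List (Step d), (if F l then aw ν l else 0)
      ≤ ∑' p : List (Step d), (if S p then aw ν p else 0) := by
  rw [← lint_tsum ν 0 F, ← lint_tsum ν 0 S]
  exact lintegral_mono fun ω => dom ω 0 hF h

open Classical in
/-- continuations of a prefix -/
theorem cont_ann {F : List (Step d) → Prop} (hF : PF F) (p : List (Step d)) :
    ∑' q : List (Step d), (if F (p ++ q) then aw ν (p ++ q) else 0) ≤ aw ν p := by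
  have h1 : ∀ q : List (Step d), (if F (p ++ q) then aw ν (p ++ q) else 0)
      = ∫⁻ ω, lw ω 0 p * (if F (p ++ q) then lw ω (endp 0 p) q else 0)
        ∂(iidEnvironmentLaw ν) := by
    intro q
    by_cases h : F (p ++ q)
    · simp only [if_pos h]
      unfold aw
      refine lintegral_congr fun ω => lw_append ω 0 p q
    · simp only [if_neg h, mul_zero, lintegral_zero]
  simp only [h1]
  rw [← lintegral_tsum]
  · unfold aw
    refine lintegral_mono fun ω => ?_
    simp only
    rw [ENNReal.tsum_mul_left]
    calc _ ≤ lw ω 0 p * 1 := mul_le_mul_right (kraft ω _ (hF.tail p)) _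
      _ = _ := mul_one _
  · intro q
    by_cases h : F (p ++ q)
    · simp only [if_pos h]
      exact ((Flux566.measurable_lw 0 p).mul (Flux566.measurable_lw _ q)).aemeasurable
    · simp only [if_neg h, mul_zero]
      exact aemeasurable_const

end Crest.Agent.R154.Wd175
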