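import Crest.Agent.R154.Wrap_74
import Crest.Agent.R154.TailPow_736

/-!
# Row 154, `d ≥ 3`, route HOME MASS (helper74): the leaf `tail` of `LeafAt` from 736's `tail_pow_kT`
-/

set_option autoImplicit false
set_option linter.unusedSectionVars false
set_option linter.unusedVariables false

open MeasureTheory ENNReal Crest.ProbabilityR.RandomEnvironment
open Crest.Agent.R154.RatioR872 Crest.Agent.R154.Mk561 Crest.Agent.R154.Q561
open Crest.Agent.R154.B4Inst797 (Nat0 natLaw UU lat lp natLaw_isProb nat_ne_zero)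
open Crest.Agent.R154.MobW437 (wl Sl wl_pos)
open Crest.Agent.R154.Doc74 Crest.Agent.R154.HM263

namespace Crest.Agent.R154.Wrap74

variable {d : ℕ} {Q : Measure (Environment d)} [IsProbabilityMeasure Q] {κ : ℝ} {R : ℕ}

/-- 736's coordinate is the contract's -/
lemma ph_eq (u : Step d) (i1 i2 : Fin d) (α : ℝ) :
    Home736.ph u i1 i2 0 α =
      Doc74.ph (fun x : Site d => (x i1 : ℝ)) (fun x => (Flux132.lev u x : ℝ)) α := rfl

/-- 736's home tail is the contract's -/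
lemma tailH_of_736 {S : Type*} {Ω : Type*} {m0 : MeasurableSpace Ω} {P : Measure Ω}
    {A : KerSys S P} {φ : S → ℝ} {N : ℕ} {D : ℝ} {ν : ℝ≥0∞} (h : Home736.TailH A φ N D ν) :
    Doc74.TailH A φ N D ν := h

/-- 736's jump tail is the contract's -/
lemma jumpTail_of_736 {S : Type*} {Ω : Type*} {m0 : MeasurableSpace Ω} {P : Measure Ω}
    {A : KerSys S P} {φ : S → ℝ} {n : ℕ} {Δ : ℝ} {π : ℝ≥0∞} (h : Home736.JumpTail A φ n Δ π) :
    Doc74.JumpTail A φ n Δ π := h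

theorem wn_nonneg (F : Bind263.Frame Q κ R) (u : Step d) {i1 i2 : Fin d} (h1 : i1 ≠ u.1)
    (h2 : i2 ≠ u.1) (h12 : i1 ≠ i2) (hc : mkAnn κ Q 0 (Nat0 u R) ≠ 0) (n : ℕ) :
    0 ≤ Wn F u h1 h2 h12 hc n := by
  haveI := natLaw_isProb hc
  exact (wl_pos _ _ _).le

/-- **(L3)** `TailIn` on `kT` -/
theorem tailIn_kT (F : Bind263.Frame Q κ R) (u : Step d) {i1 i2 : Fin d} (h1 : i1 ≠ u.1)
    (h2 : i2 ≠ u.1) (h12 : i1 ≠ i2) (hc : mkAnn κ Q 0 (Nat0 u R) ≠ 0) :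
    TailIn (D2Asm244.kT u R κ Q F.stat F.fin) (fun x => (x i1 : ℝ))
      (fun x => (Flux132.lev u x : ℝ)) (Wn F u h1 h2 h12 hc) := by
  intro ν hν
  obtain ⟨a0, ha⟩ := Home736.tail_pow_kT F u h1 h2 h12 hc 0 hν
  refine ⟨a0, fun a haa => ?_⟩
  obtain ⟨α, ⟨n0, h3⟩, h4⟩ := ha a haa
  exact ⟨α, n0, h3, h4⟩

end Crest.Agent.R154.Wrap74
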