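import Crest.Agent.R154.Wrap2_74
import Crest.Agent.R154.HMk_736
import Crest.Agent.R154.Stat_220
import Crest.Agent.R154.JumpB_872

/-!
# Row 154, `d ≥ 3`, route HOME MASS (helper74): all the leaves; `HWPos` from `IrrOf` alone
-/

set_option autoImplicit false
set_option linter.unusedSectionVars false
set_option linter.unusedVariables false

open MeasureTheory ENNReal Crest.ProbabilityR.RandomEnvironment
open Crest.Agent.R154.RatioR872 Crest.Agent.R154.Mk561 Crest.Agent.R154.Q561
open Crest.Agent.R154.B4Inst797 (Nat0 natLaw UU lat lp natLaw_isProb nat_ne_zero)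
open Crest.Agent.R154.MobW437 (wl Sl wl_pos)
open Crest.Agent.R154.Doc74 Crest.Agent.R154.HM263

namespace Crest.Agent.R154.Wrap74

/-- **all the leaves (L1)-(L4)** (220, 872, 736) -/
theorem leaves : Leaves := by
  intro d hd Q _ κ R F hH hκ hk u hA i1 i2 h1 h2 h12
  have hk0 : 0 < kf d κ := by rw [hk]; exact hκ
  exact
    { stat := Stat220.stat_kT F hA hk0 h1
      jump := Jump872.jUMP_kT F hd u hA hH hk0
      tail := tailIn_kT F u h1 h2 h12 (nat_ne_zero F u hA)
      winf := Home736.wInf_kT F u h1 h2 h12 (nat_ne_zero F u hA) 0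
      nonneg := wn_nonneg F u h1 h2 h12 (nat_ne_zero F u hA)
      jin := Home736.jumpIn_kT F u h1 h2 h12 (nat_ne_zero F u hA) 0 }

/-- **`HWPos` from (L6) alone** -/
theorem hwpos_of_irrOf (hI : IrrOf) : Top28.HWPos := hwpos_of_leaves hI leaves

/-- **the row** from (L6) and 796's `NBProp` -/
theorem row_of_irrOf (hI : IrrOf) (hNB : Spine.NBProp) :
    Spine.T0219 ∧ Spine.T0220 ∧ Spine.T0221 := row_of_leaves hI leaves hNB

end Crest.Agent.R154.Wrap74
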