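import Crest.Agent.R154.HM7b_299
import Crest.Agent.R154.HMIn_263
import Crest.Agent.R154.Top28

/-!
# Row 154, `d ≥ 3`, route HOME MASS (helper74): the `kT` wrapper

* `LeafAt` : the five leaves (L1)-(L4) of 263's HOME v2 on the kernel system `kT` of a frame;
* `IrrOf`  : (L6), the abstract theorem of HM8;
* `hw_of_leafAt`, **`hwpos_of_leaves`** : `HWPos` (28's Top28) from the leaves and `IrrOf`.
-/

set_option autoImplicit false
set_option linter.unusedSectionVars false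
set_option linter.unusedVariables false

open MeasureTheory ENNReal Crest.ProbabilityR.RandomEnvironment
open Crest.Agent.R154.RatioR872 Crest.Agent.R154.HM7299
open Crest.Agent.R154.Mk561 Crest.Agent.R154.Q561
open Crest.Agent.R154.B4Inst797 (Nat0 natLaw UU lat lp natLaw_isProb nat_ne_zero)
open Crest.Agent.R154.MobW437 (wl Sl)
open Crest.Agent.R154.Doc74 Crest.Agent.R154.HM263

namespace Crest.Agent.R154.Wrap74

/-- **(L6)** the abstract theorem of HM8 -/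
def IrrOf : Prop :=
  ∀ {S : Type} [Countable S] {Ω : Type} {m0 : MeasurableSpace Ω} {P : Measure Ω}
    [IsProbabilityMeasure P] (A : KerSys S P) (lat lev : S → ℝ) (W : ℕ → ℝ)
    (reg : ℕ → ℕ → ℝ → ℕ → Prop),
    STAT A lat lev → JUMP A → TailIn A lat lev W → WInf W → (∀ n, 0 ≤ W n) →
      JumpIn A lat lev W reg → Irr A reg

section frame

variable {d : ℕ} {Q : Measure (Environment d)} [IsProbabilityMeasure Q] {κ : ℝ} {R : ℕ}

/-- the width of the octave `n` -/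
noncomputable def Wn (F : Bind263.Frame Q κ R) (u : Step d) {i1 i2 : Fin d} (h1 : i1 ≠ u.1)
    (h2 : i2 ≠ u.1) (h12 : i1 ≠ i2) (hc : mkAnn κ Q 0 (Nat0 u R) ≠ 0) (n : ℕ) : ℝ :=
  wl (lp F u h1 h2 h12 hc) 0 (2 ^ n)

/-- **the leaves (L1)-(L4)** on `kT` (lateral coordinate `x i1`, level `lev u x`). -/
structure LeafAt (F : Bind263.Frame Q κ R) (u : Step d) {i1 i2 : Fin d} (h1 : i1 ≠ u.1)
    (h2 : i2 ≠ u.1) (h12 : i1 ≠ i2) (hc : mkAnn κ Q 0 (Nat0 u R) ≠ 0) : Prop where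
  /-- (L1), 209 -/
  stat : STAT (D2Asm244.kT u R κ Q F.stat F.fin) (fun x => (x i1 : ℝ))
    (fun x => (Flux132.lev u x : ℝ))
  /-- (L2), 872 -/
  jump : JUMP (D2Asm244.kT u R κ Q F.stat F.fin)
  /-- (L3), 736 -/
  tail : TailIn (D2Asm244.kT u R κ Q F.stat F.fin) (fun x => (x i1 : ℝ))
    (fun x => (Flux132.lev u x : ℝ)) (Wn F u h1 h2 h12 hc)
  /-- (L3), 797 -/
  winf : WInf (Wn F u h1 h2 h12 hc)
  nonneg : ∀ n, 0 ≤ Wn F u h1 h2 h12 hc n
  /-- (L4), 330 -/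
  jin : JumpIn (D2Asm244.kT u R κ Q F.stat F.fin) (fun x => (x i1 : ℝ))
    (fun x => (Flux132.lev u x : ℝ)) (Wn F u h1 h2 h12 hc)
    (regL (lp F u h1 h2 h12 hc) 0)

/-- `HW` of a frame from the leaves -/
theorem hw_of_leafAt (hI : IrrOf) (F : Bind263.Frame Q κ R) (hd : 3 ≤ d) {u : Step d}
    {i1 i2 : Fin d} (h1 : i1 ≠ u.1) (h2 : i2 ≠ u.1) (h12 : i1 ≠ i2)
    (hA : annealedProb Q 0 (escapeEvent (B2d.dirVec u)) ≠ 0) (hHalf : KB424.Half κ Q)
    (L : LeafAt F u h1 h2 h12 (nat_ne_zero F u hA)) :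
    ChainFL.HW (D2Asm244.kT u R κ Q F.stat F.fin) :=
  hw_of_irr F hd h1 h2 h12 hA hHalf 0
    (hI _ _ _ _ _ L.stat L.jump L.tail L.winf L.nonneg L.jin)

/-- two lateral coordinates -/
theorem exists_two (hd : 3 ≤ d) (j : Fin d) : ∃ i1 i2 : Fin d, i1 ≠ j ∧ i2 ≠ j ∧ i1 ≠ i2 := by
  classical
  have h1 : 1 < (Finset.univ.erase j).card := by
    rw [Finset.card_erase_of_mem (Finset.mem_univ j), Finset.card_univ, Fintype.card_fin]
    omega
  obtain ⟨a, ha, b, hb, hab⟩ := Finset.one_lt_card.1 h1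
  exact ⟨a, b, (Finset.mem_erase.1 ha).1, (Finset.mem_erase.1 hb).1, hab⟩

end frame

/-- all the leaves for uniformly elliptic frames with half coins -/
def Leaves : Prop :=
  ∀ (d : ℕ) (_ : 3 ≤ d) (Q : Measure (Environment d)) [IsProbabilityMeasure Q] (κ : ℝ) (R : ℕ)
    (F : Bind263.Frame Q κ R) (_ : KB424.Half κ Q) (_ : 0 < κ) (_ : kf d κ = κ) (u : Step d)
    (hA : annealedProb Q 0 (escapeEvent (B2d.dirVec u)) ≠ 0) (i1 i2 : Fin d) (h1 : i1 ≠ u.1)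
    (h2 : i2 ≠ u.1) (h12 : i1 ≠ i2), LeafAt F u h1 h2 h12 (nat_ne_zero F u hA)

/-- **`HWPos` from the leaves.** -/
theorem hwpos_of_leaves (hI : IrrOf) (hL : Leaves) : Top28.HWPos := by
  intro d hd Q _ κ R F hH hκ hk u hA
  obtain ⟨i1, i2, h1, h2, h12⟩ := exists_two hd u.1
  exact hw_of_leafAt hI F hd h1 h2 h12 hA hH (hL d hd Q κ R F hH hκ hk u hA i1 i2 h1 h2 h12)

/-- **the row** from the leaves and 796's `NBProp` -/
theorem row_of_leaves (hI : IrrOf) (hL : Leaves) (hNB : Spine.NBProp) :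
    Spine.T0219 ∧ Spine.T0220 ∧ Spine.T0221 :=
  Top28.row3 (hwpos_of_leaves hI hL) hNB

end Crest.Agent.R154.Wrap74
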